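import Vale.Agent.Lib.P154.PChain.BG.L

set_option linter.all false

namespace Vale.Agent.Lib.P154.PChain.BG.S0

open Vale.Agent.Lib.P154.Chain

noncomputable def pc0 : PT := (PT.nd (nat_lit 6574932) (PT.nd (nat_lit 6340776) (PT.nd (nat_lit 6200376) (PT.nd (nat_lit 6153498) (PT.nd (nat_lit 6153420) (PT.nd (nat_lit 6106620) PT.nil (PT.lf (nat_lit 76) (nat_lit 3) (nat_lit 1) (nat_lit 1) (nat_lit 160) (nat_lit 130) (nat_lit 160))) (PT.lf (nat_lit 152) (nat_lit 6) (nat_lit 2) (nat_lit 3) (nat_lit 159) (nat_lit 131) (nat_lit 160))) (PT.nd (nat_lit 46722) (PT.lf (nat_lit 152) (nat_lit 6) (nat_lit 2) (nat_lit 1) (nat_lit 160) (nat_lit 131) (nat_lit 159)) (PT.nd (nat_lit 78) (PT.lf (nat_lit 228) (nat_lit 6) (nat_lit 3) (nat_lit 3) (nat_lit 158) (nat_lit 132) (nat_lit 160)) (PT.lf (nat_lit 304) (nat_lit 3) (nat_lit 4) (nat_lit 1) (nat_lit 159) (nat_lit 132) (nat_lit 159))))) (PT.nd (nat_lit 93522)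 (PT.nd (nat_lit 46722) (PT.lf (nat_lit 228) (nat_lit 6) (nat_lit 3) (nat_lit 1) (nat_lit 160) (nat_lit 132) (nat_lit 158)) (PT.nd (nat_lit 78) (PT.lf (nat_lit 380) (nat_lit 6) (nat_lit 5) (nat_lit 3) (nat_lit 158) (nat_lit 133) (nat_lit 159)) (PT.lf (nat_lit 380) (nat_lit 6) (nat_lit 5) (nat_lit 1) (nat_lit 159) (nat_lit 133) (nat_lit 158)))) (PT.nd (nat_lit 78) (PT.lf (nat_lit 456) (nat_lit 6) (nat_lit 6) (nat_lit 3) (nat_lit 157) (nat_lit 134) (nat_lit 159)) (PT.nd (nat_lit 78) (PT.lf (nat_lit 532) (nat_lit 3) (nat_lit 7) (nat_lit 1) (nat_lit 158) (nat_lit 134) (nat_lit 158)) (PT.lf (nat_lit 456) (nat_lit 6) (nat_lit 6) (nat_lit 1) (nat_lit 159) (nat_lit 134) (nat_lit 157)))))) (PT.nd (nat_lit 93756) (PT.nd (nat_lit 46878) (PT.nd (nat_lit 78) (PT.lf (nat_lit 608) (nat_lit 6) (nat_lit 8) (nat_lit 3) (nat_lit 157) (nat_lit 135) (nat_lit 158)) (PT.nd (nat_lit 46722) (PT.lf (nat_lit 608)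 (nat_lit 6) (nat_lit 8) (nat_lit 1) (nat_lit 158) (nat_lit 135) (nat_lit 157)) (PT.lf (nat_lit 684) (nat_lit 6) (nat_lit 9) (nat_lit 3) (nat_lit 156) (nat_lit 136) (nat_lit 158)))) (PT.nd (nat_lit 78) (PT.lf (nat_lit 760) (nat_lit 3) (nat_lit 10) (nat_lit 1) (nat_lit 157) (nat_lit 136) (nat_lit 157)) (PT.nd (nat_lit 46722) (PT.lf (nat_lit 684) (nat_lit 6) (nat_lit 9) (nat_lit 1) (nat_lit 158) (nat_lit 136) (nat_lit 156)) (PT.lf (nat_lit 836) (nat_lit 6) (nat_lit 11) (nat_lit 3) (nat_lit 156) (nat_lit 137) (nat_lit 157))))) (PT.nd (nat_lit 46878) (PT.nd (nat_lit 46722) (PT.lf (nat_lit 836) (nat_lit 6) (nat_lit 11) (nat_lit 1) (nat_lit 157) (nat_lit 137) (nat_lit 156)) (PT.nd (nat_lit 78) (PT.lf (nat_lit 912) (nat_lit 6) (nat_lit 12) (nat_lit 3) (nat_lit 155) (nat_lit 138) (nat_lit 157)) (PT.lf (nat_lit 988) (nat_lit 3) (nat_lit 13) (nat_lit 1) (nat_lit 156) (nat_lit 138) (nat_lit 156))))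 (PT.nd (nat_lit 46722) (PT.lf (nat_lit 912) (nat_lit 6) (nat_lit 12) (nat_lit 1) (nat_lit 157) (nat_lit 138) (nat_lit 155)) (PT.nd (nat_lit 78) (PT.lf (nat_lit 1064) (nat_lit 6) (nat_lit 14) (nat_lit 3) (nat_lit 155) (nat_lit 139) (nat_lit 156)) (PT.lf (nat_lit 1064) (nat_lit 6) (nat_lit 14) (nat_lit 1) (nat_lit 156) (nat_lit 139) (nat_lit 155))))))) (PT.nd (nat_lit 140712) (PT.nd (nat_lit 93678) (PT.nd (nat_lit 156) (PT.nd (nat_lit 78) (PT.lf (nat_lit 1140) (nat_lit 6) (nat_lit 15) (nat_lit 3) (nat_lit 154) (nat_lit 140) (nat_lit 156)) (PT.lf (nat_lit 1216) (nat_lit 3) (nat_lit 16) (nat_lit 1) (nat_lit 155) (nat_lit 140) (nat_lit 155))) (PT.nd (nat_lit 46722) (PT.lf (nat_lit 1140) (nat_lit 6) (nat_lit 15) (nat_lit 1) (nat_lit 156) (nat_lit 140) (nat_lit 154)) (PT.nd (nat_lit 78) (PT.lf (nat_lit 1292) (nat_lit 6) (nat_lit 17) (nat_lit 3) (nat_lit 154) (nat_lit 141) (nat_lit 155)) (PT.lf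 (nat_lit 1292) (nat_lit 6) (nat_lit 17) (nat_lit 1) (nat_lit 155) (nat_lit 141) (nat_lit 154))))) (PT.nd (nat_lit 46800) (PT.nd (nat_lit 78) (PT.lf (nat_lit 1368) (nat_lit 6) (nat_lit 18) (nat_lit 3) (nat_lit 153) (nat_lit 142) (nat_lit 155)) (PT.nd (nat_lit 78) (PT.lf (nat_lit 1444) (nat_lit 3) (nat_lit 19) (nat_lit 1) (nat_lit 154) (nat_lit 142) (nat_lit 154)) (PT.lf (nat_lit 1368) (nat_lit 6) (nat_lit 18) (nat_lit 1) (nat_lit 155) (nat_lit 142) (nat_lit 153)))) (PT.nd (nat_lit 78) (PT.lf (nat_lit 1520) (nat_lit 6) (nat_lit 20) (nat_lit 3) (nat_lit 152) (nat_lit 143) (nat_lit 155)) (PT.nd (nat_lit 78) (PT.lf (nat_lit 1596) (nat_lit 6) (nat_lit 21) (nat_lit 3) (nat_lit 153) (nat_lit 143) (nat_lit 154)) (PT.lf (nat_lit 1596) (nat_lit 6) (nat_lit 21) (nat_lit 1) (nat_lit 154) (nat_lit 143) (nat_lit 153)))))) (PT.nd (nat_lit 93600) (PT.nd (nat_lit 46800) (PT.nd (nat_lit 46644) (PT.lf (nat_lit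 1520) (nat_lit 6) (nat_lit 20) (nat_lit 1) (nat_lit 155) (nat_lit 143) (nat_lit 152)) (PT.nd (nat_lit 78) (PT.lf (nat_lit 1672) (nat_lit 6) (nat_lit 22) (nat_lit 3) (nat_lit 152) (nat_lit 144) (nat_lit 154)) (PT.lf (nat_lit 1748) (nat_lit 3) (nat_lit 23) (nat_lit 1) (nat_lit 153) (nat_lit 144) (nat_lit 153)))) (PT.nd (nat_lit 46644) (PT.lf (nat_lit 1672) (nat_lit 6) (nat_lit 22) (nat_lit 1) (nat_lit 154) (nat_lit 144) (nat_lit 152)) (PT.nd (nat_lit 78) (PT.lf (nat_lit 1824) (nat_lit 6) (nat_lit 24) (nat_lit 3) (nat_lit 151) (nat_lit 145) (nat_lit 154)) (PT.lf (nat_lit 1900) (nat_lit 6) (nat_lit 25) (nat_lit 3) (nat_lit 152) (nat_lit 145) (nat_lit 153))))) (PT.nd (nat_lit 46722) (PT.nd (nat_lit 78) (PT.lf (nat_lit 1900) (nat_lit 6) (nat_lit 25) (nat_lit 1) (nat_lit 153) (nat_lit 145) (nat_lit 152)) (PT.nd (nat_lit 46566) (PT.lf (nat_lit 1824) (nat_lit 6) (nat_lit 24) (nat_lit 1) (nat_lit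 154) (nat_lit 145) (nat_lit 151)) (PT.lf (nat_lit 2128) (nat_lit 6) (nat_lit 28) (nat_lit 3) (nat_lit 150) (nat_lit 146) (nat_lit 154)))) (PT.nd (nat_lit 78) (PT.lf (nat_lit 2204) (nat_lit 6) (nat_lit 29) (nat_lit 3) (nat_lit 151) (nat_lit 146) (nat_lit 153)) (PT.nd (nat_lit 78) (PT.lf (nat_lit 2280) (nat_lit 3) (nat_lit 30) (nat_lit 1) (nat_lit 152) (nat_lit 146) (nat_lit 152)) (PT.lf (nat_lit 2204) (nat_lit 6) (nat_lit 29) (nat_lit 1) (nat_lit 153) (nat_lit 146) (nat_lit 151))))))))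
noncomputable def pc1 : PT := (PT.nd (nat_lit 186966) (PT.nd (nat_lit 93600) (PT.nd (nat_lit 46800) (PT.nd (nat_lit 46566) (PT.nd (nat_lit 46488) (PT.lf (nat_lit 2128) (nat_lit 6) (nat_lit 28) (nat_lit 1) (nat_lit 154) (nat_lit 146) (nat_lit 150)) (PT.lf (nat_lit 2052) (nat_lit 6) (nat_lit 27) (nat_lit 3) (nat_lit 149) (nat_lit 147) (nat_lit 154))) (PT.nd (nat_lit 78) (PT.lf (nat_lit 2432) (nat_lit 6) (nat_lit 32) (nat_lit 3) (nat_lit 150) (nat_lit 147) (nat_lit 153)) (PT.nd (nat_lit 78) (PT.lf (nat_lit 2508) (nat_lit 6) (nat_lit 33) (nat_lit 3) (nat_lit 151) (nat_lit 147) (nat_lit 152)) (PT.lf (nat_lit 2508) (nat_lit 6) (nat_lit 33) (nat_lit 1) (nat_lit 152) (nat_lit 147) (nat_lit 151))))) (PT.nd (nat_lit 46566) (PT.nd (nat_lit 78) (PT.lf (nat_lit 2432) (nat_lit 6) (nat_lit 32) (nat_lit 1) (nat_lit 153) (nat_lit 147) (nat_lit 150)) (PT.nd (nat_lit 46410) (PT.lf (nat_lit 2052) (nat_lit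 6) (nat_lit 27) (nat_lit 1) (nat_lit 154) (nat_lit 147) (nat_lit 149)) (PT.lf (nat_lit 1976) (nat_lit 3) (nat_lit 26) (nat_lit 3) (nat_lit 148) (nat_lit 148) (nat_lit 154)))) (PT.nd (nat_lit 78) (PT.lf (nat_lit 2356) (nat_lit 6) (nat_lit 31) (nat_lit 3) (nat_lit 149) (nat_lit 148) (nat_lit 153)) (PT.nd (nat_lit 78) (PT.lf (nat_lit 2660) (nat_lit 6) (nat_lit 35) (nat_lit 3) (nat_lit 150) (nat_lit 148) (nat_lit 152)) (PT.lf (nat_lit 2736) (nat_lit 3) (nat_lit 36) (nat_lit 1) (nat_lit 151) (nat_lit 148) (nat_lit 151)))))) (PT.nd (nat_lit 46722) (PT.nd (nat_lit 46488) (PT.nd (nat_lit 78) (PT.lf (nat_lit 2660) (nat_lit 6) (nat_lit 35) (nat_lit 1) (nat_lit 152) (nat_lit 148) (nat_lit 150)) (PT.nd (nat_lit 78) (PT.lf (nat_lit 2356) (nat_lit 6) (nat_lit 31) (nat_lit 1) (nat_lit 153) (nat_lit 148) (nat_lit 149)) (PT.lf (nat_lit 1976) (nat_lit 3) (nat_lit 26) (nat_lit 0) (nat_lit 154) (nat_lit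 148) (nat_lit 148)))) (PT.nd (nat_lit 78) (PT.lf (nat_lit 2052) (nat_lit 6) (nat_lit 27) (nat_lit 5) (nat_lit 147) (nat_lit 149) (nat_lit 154)) (PT.nd (nat_lit 78) (PT.lf (nat_lit 2356) (nat_lit 6) (nat_lit 31) (nat_lit 5) (nat_lit 148) (nat_lit 149) (nat_lit 153)) (PT.lf (nat_lit 2584) (nat_lit 3) (nat_lit 34) (nat_lit 3) (nat_lit 149) (nat_lit 149) (nat_lit 152))))) (PT.nd (nat_lit 234) (PT.nd (nat_lit 78) (PT.lf (nat_lit 2812) (nat_lit 6) (nat_lit 37) (nat_lit 3) (nat_lit 150) (nat_lit 149) (nat_lit 151)) (PT.nd (nat_lit 78) (PT.lf (nat_lit 2812) (nat_lit 6) (nat_lit 37) (nat_lit 1) (nat_lit 151) (nat_lit 149) (nat_lit 150)) (PT.lf (nat_lit 2584) (nat_lit 3) (nat_lit 34) (nat_lit 0) (nat_lit 152) (nat_lit 149) (nat_lit 149)))) (PT.nd (nat_lit 78) (PT.lf (nat_lit 2356) (nat_lit 6) (nat_lit 31) (nat_lit 0) (nat_lit 153) (nat_lit 149) (nat_lit 148)) (PT.nd (nat_lit 46254) (PT.lf (nat_lit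 2052) (nat_lit 6) (nat_lit 27) (nat_lit 0) (nat_lit 154) (nat_lit 149) (nat_lit 147)) (PT.lf (nat_lit 2128) (nat_lit 6) (nat_lit 28) (nat_lit 5) (nat_lit 146) (nat_lit 150) (nat_lit 154))))))) (PT.nd (nat_lit 47034) (PT.nd (nat_lit 468) (PT.nd (nat_lit 234) (PT.nd (nat_lit 78) (PT.lf (nat_lit 2432) (nat_lit 6) (nat_lit 32) (nat_lit 5) (nat_lit 147) (nat_lit 150) (nat_lit 153)) (PT.nd (nat_lit 78) (PT.lf (nat_lit 2660) (nat_lit 6) (nat_lit 35) (nat_lit 5) (nat_lit 148) (nat_lit 150) (nat_lit 152)) (PT.lf (nat_lit 2812) (nat_lit 6) (nat_lit 37) (nat_lit 5) (nat_lit 149) (nat_lit 150) (nat_lit 151)))) (PT.nd (nat_lit 78) (PT.lf (nat_lit 2888) (nat_lit 1) (nat_lit 38) (nat_lit 0) (nat_lit 150) (nat_lit 150) (nat_lit 150)) (PT.nd (nat_lit 78) (PT.lf (nat_lit 2812) (nat_lit 6) (nat_lit 37) (nat_lit 0) (nat_lit 151) (nat_lit 150) (nat_lit 149)) (PT.lf (nat_lit 2660) (nat_lit 6) (nat_lit 35)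 (nat_lit 0) (nat_lit 152) (nat_lit 150) (nat_lit 148))))) (PT.nd (nat_lit 46332) (PT.nd (nat_lit 78) (PT.lf (nat_lit 2432) (nat_lit 6) (nat_lit 32) (nat_lit 0) (nat_lit 153) (nat_lit 150) (nat_lit 147)) (PT.nd (nat_lit 46176) (PT.lf (nat_lit 2128) (nat_lit 6) (nat_lit 28) (nat_lit 0) (nat_lit 154) (nat_lit 150) (nat_lit 146)) (PT.lf (nat_lit 1824) (nat_lit 6) (nat_lit 24) (nat_lit 5) (nat_lit 145) (nat_lit 151) (nat_lit 154)))) (PT.nd (nat_lit 78) (PT.lf (nat_lit 2204) (nat_lit 6) (nat_lit 29) (nat_lit 5) (nat_lit 146) (nat_lit 151) (nat_lit 153)) (PT.nd (nat_lit 78) (PT.lf (nat_lit 2508) (nat_lit 6) (nat_lit 33) (nat_lit 5) (nat_lit 147) (nat_lit 151) (nat_lit 152)) (PT.lf (nat_lit 2736) (nat_lit 3) (nat_lit 36) (nat_lit 4) (nat_lit 148) (nat_lit 151) (nat_lit 151)))))) (PT.nd (nat_lit 46410) (PT.nd (nat_lit 234) (PT.nd (nat_lit 78) (PT.lf (nat_lit 2812) (nat_lit 6) (nat_lit 37) (nat_lit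 4) (nat_lit 149) (nat_lit 151) (nat_lit 150)) (PT.nd (nat_lit 78) (PT.lf (nat_lit 2812) (nat_lit 6) (nat_lit 37) (nat_lit 2) (nat_lit 150) (nat_lit 151) (nat_lit 149)) (PT.lf (nat_lit 2736) (nat_lit 3) (nat_lit 36) (nat_lit 0) (nat_lit 151) (nat_lit 151) (nat_lit 148)))) (PT.nd (nat_lit 78) (PT.lf (nat_lit 2508) (nat_lit 6) (nat_lit 33) (nat_lit 0) (nat_lit 152) (nat_lit 151) (nat_lit 147)) (PT.nd (nat_lit 78) (PT.lf (nat_lit 2204) (nat_lit 6) (nat_lit 29) (nat_lit 0) (nat_lit 153) (nat_lit 151) (nat_lit 146)) (PT.lf (nat_lit 1824) (nat_lit 6) (nat_lit 24) (nat_lit 0) (nat_lit 154) (nat_lit 151) (nat_lit 145))))) (PT.nd (nat_lit 234) (PT.nd (nat_lit 78) (PT.lf (nat_lit 1520) (nat_lit 6) (nat_lit 20) (nat_lit 5) (nat_lit 143) (nat_lit 152) (nat_lit 155)) (PT.nd (nat_lit 78) (PT.lf (nat_lit 1672) (nat_lit 6) (nat_lit 22) (nat_lit 5) (nat_lit 144) (nat_lit 152) (nat_lit 154)) (PT.lf (nat_lit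 1900) (nat_lit 6) (nat_lit 25) (nat_lit 5) (nat_lit 145) (nat_lit 152) (nat_lit 153)))) (PT.nd (nat_lit 78) (PT.lf (nat_lit 2280) (nat_lit 3) (nat_lit 30) (nat_lit 4) (nat_lit 146) (nat_lit 152) (nat_lit 152)) (PT.nd (nat_lit 78) (PT.lf (nat_lit 2508) (nat_lit 6) (nat_lit 33) (nat_lit 4) (nat_lit 147) (nat_lit 152) (nat_lit 151)) (PT.lf (nat_lit 2660) (nat_lit 6) (nat_lit 35) (nat_lit 4) (nat_lit 148) (nat_lit 152) (nat_lit 150))))))))
noncomputable def pc2 : PT := (PT.nd (nat_lit 93210) (PT.nd (nat_lit 46644) (PT.nd (nat_lit 390) (PT.nd (nat_lit 156) (PT.nd (nat_lit 78) (PT.lf (nat_lit 2584) (nat_lit 3) (nat_lit 34) (nat_lit 2) (nat_lit 149) (nat_lit 152) (nat_lit 149)) (PT.lf (nat_lit 2660) (nat_lit 6) (nat_lit 35) (nat_lit 2) (nat_lit 150) (nat_lit 152) (nat_lit 148))) (PT.nd (nat_lit 78) (PT.lf (nat_lit 2508) (nat_lit 6) (nat_lit 33) (nat_lit 2) (nat_lit 151) (nat_lit 152) (nat_lit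 147)) (PT.nd (nat_lit 78) (PT.lf (nat_lit 2280) (nat_lit 3) (nat_lit 30) (nat_lit 0) (nat_lit 152) (nat_lit 152) (nat_lit 146)) (PT.lf (nat_lit 1900) (nat_lit 6) (nat_lit 25) (nat_lit 0) (nat_lit 153) (nat_lit 152) (nat_lit 145))))) (PT.nd (nat_lit 46020) (PT.nd (nat_lit 78) (PT.lf (nat_lit 1672) (nat_lit 6) (nat_lit 22) (nat_lit 0) (nat_lit 154) (nat_lit 152) (nat_lit 144)) (PT.nd (nat_lit 45864) (PT.lf (nat_lit 1520) (nat_lit 6) (nat_lit 20) (nat_lit 0) (nat_lit 155) (nat_lit 152) (nat_lit 143)) (PT.lf (nat_lit 1368) (nat_lit 6) (nat_lit 18) (nat_lit 5) (nat_lit 142) (nat_lit 153) (nat_lit 155)))) (PT.nd (nat_lit 78) (PT.lf (nat_lit 1596) (nat_lit 6) (nat_lit 21) (nat_lit 5) (nat_lit 143) (nat_lit 153) (nat_lit 154)) (PT.nd (nat_lit 78) (PT.lf (nat_lit 1748) (nat_lit 3) (nat_lit 23) (nat_lit 4) (nat_lit 144) (nat_lit 153) (nat_lit 153)) (PT.lf (nat_lit 1900) (nat_lit 6) (nat_lit 25)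 (nat_lit 4) (nat_lit 145) (nat_lit 153) (nat_lit 152)))))) (PT.nd (nat_lit 468) (PT.nd (nat_lit 234) (PT.nd (nat_lit 78) (PT.lf (nat_lit 2204) (nat_lit 6) (nat_lit 29) (nat_lit 4) (nat_lit 146) (nat_lit 153) (nat_lit 151)) (PT.nd (nat_lit 78) (PT.lf (nat_lit 2432) (nat_lit 6) (nat_lit 32) (nat_lit 4) (nat_lit 147) (nat_lit 153) (nat_lit 150)) (PT.lf (nat_lit 2356) (nat_lit 6) (nat_lit 31) (nat_lit 4) (nat_lit 148) (nat_lit 153) (nat_lit 149)))) (PT.nd (nat_lit 78) (PT.lf (nat_lit 2356) (nat_lit 6) (nat_lit 31) (nat_lit 2) (nat_lit 149) (nat_lit 153) (nat_lit 148)) (PT.nd (nat_lit 78) (PT.lf (nat_lit 2432) (nat_lit 6) (nat_lit 32) (nat_lit 2) (nat_lit 150) (nat_lit 153) (nat_lit 147)) (PT.lf (nat_lit 2204) (nat_lit 6) (nat_lit 29) (nat_lit 2) (nat_lit 151) (nat_lit 153) (nat_lit 146))))) (PT.nd (nat_lit 234) (PT.nd (nat_lit 78) (PT.lf (nat_lit 1900) (nat_lit 6) (nat_lit 25) (nat_lit 2)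 (nat_lit 152) (nat_lit 153) (nat_lit 145)) (PT.nd (nat_lit 78) (PT.lf (nat_lit 1748) (nat_lit 3) (nat_lit 23) (nat_lit 0) (nat_lit 153) (nat_lit 153) (nat_lit 144)) (PT.lf (nat_lit 1596) (nat_lit 6) (nat_lit 21) (nat_lit 0) (nat_lit 154) (nat_lit 153) (nat_lit 143)))) (PT.nd (nat_lit 45708) (PT.lf (nat_lit 1368) (nat_lit 6) (nat_lit 18) (nat_lit 0) (nat_lit 155) (nat_lit 153) (nat_lit 142)) (PT.nd (nat_lit 78) (PT.lf (nat_lit 1140) (nat_lit 6) (nat_lit 15) (nat_lit 5) (nat_lit 140) (nat_lit 154) (nat_lit 156)) (PT.lf (nat_lit 1292) (nat_lit 6) (nat_lit 17) (nat_lit 5) (nat_lit 141) (nat_lit 154) (nat_lit 155))))))) (PT.nd (nat_lit 936) (PT.nd (nat_lit 468) (PT.nd (nat_lit 234) (PT.nd (nat_lit 78) (PT.lf (nat_lit 1444) (nat_lit 3) (nat_lit 19) (nat_lit 4) (nat_lit 142) (nat_lit 154) (nat_lit 154)) (PT.nd (nat_lit 78) (PT.lf (nat_lit 1596) (nat_lit 6) (nat_lit 21) (nat_lit 4) (nat_lit 143)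 (nat_lit 154) (nat_lit 153)) (PT.lf (nat_lit 1672) (nat_lit 6) (nat_lit 22) (nat_lit 4) (nat_lit 144) (nat_lit 154) (nat_lit 152)))) (PT.nd (nat_lit 78) (PT.lf (nat_lit 1824) (nat_lit 6) (nat_lit 24) (nat_lit 4) (nat_lit 145) (nat_lit 154) (nat_lit 151)) (PT.nd (nat_lit 78) (PT.lf (nat_lit 2128) (nat_lit 6) (nat_lit 28) (nat_lit 4) (nat_lit 146) (nat_lit 154) (nat_lit 150)) (PT.lf (nat_lit 2052) (nat_lit 6) (nat_lit 27) (nat_lit 4) (nat_lit 147) (nat_lit 154) (nat_lit 149))))) (PT.nd (nat_lit 234) (PT.nd (nat_lit 78) (PT.lf (nat_lit 1976) (nat_lit 3) (nat_lit 26) (nat_lit 2) (nat_lit 148) (nat_lit 154) (nat_lit 148)) (PT.nd (nat_lit 78) (PT.lf (nat_lit 2052) (nat_lit 6) (nat_lit 27) (nat_lit 2) (nat_lit 149) (nat_lit 154) (nat_lit 147)) (PT.lf (nat_lit 2128) (nat_lit 6) (nat_lit 28) (nat_lit 2) (nat_lit 150) (nat_lit 154) (nat_lit 146)))) (PT.nd (nat_lit 78) (PT.lf (nat_lit 1824) (nat_lit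 6) (nat_lit 24) (nat_lit 2) (nat_lit 151) (nat_lit 154) (nat_lit 145)) (PT.nd (nat_lit 78) (PT.lf (nat_lit 1672) (nat_lit 6) (nat_lit 22) (nat_lit 2) (nat_lit 152) (nat_lit 154) (nat_lit 144)) (PT.lf (nat_lit 1596) (nat_lit 6) (nat_lit 21) (nat_lit 2) (nat_lit 153) (nat_lit 154) (nat_lit 143)))))) (PT.nd (nat_lit 45864) (PT.nd (nat_lit 45630) (PT.nd (nat_lit 78) (PT.lf (nat_lit 1444) (nat_lit 3) (nat_lit 19) (nat_lit 0) (nat_lit 154) (nat_lit 154) (nat_lit 142)) (PT.nd (nat_lit 78) (PT.lf (nat_lit 1292) (nat_lit 6) (nat_lit 17) (nat_lit 0) (nat_lit 155) (nat_lit 154) (nat_lit 141)) (PT.lf (nat_lit 1140) (nat_lit 6) (nat_lit 15) (nat_lit 0) (nat_lit 156) (nat_lit 154) (nat_lit 140)))) (PT.nd (nat_lit 78) (PT.lf (nat_lit 912) (nat_lit 6) (nat_lit 12) (nat_lit 5) (nat_lit 138) (nat_lit 155) (nat_lit 157)) (PT.nd (nat_lit 78) (PT.lf (nat_lit 1064) (nat_lit 6) (nat_lit 14) (nat_lit 5) (nat_lit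 139) (nat_lit 155) (nat_lit 156)) (PT.lf (nat_lit 1216) (nat_lit 3) (nat_lit 16) (nat_lit 4) (nat_lit 140) (nat_lit 155) (nat_lit 155))))) (PT.nd (nat_lit 858) (PT.nd (nat_lit 78) (PT.lf (nat_lit 1292) (nat_lit 6) (nat_lit 17) (nat_lit 4) (nat_lit 141) (nat_lit 155) (nat_lit 154)) (PT.nd (nat_lit 78) (PT.lf (nat_lit 1368) (nat_lit 6) (nat_lit 18) (nat_lit 4) (nat_lit 142) (nat_lit 155) (nat_lit 153)) (PT.lf (nat_lit 1520) (nat_lit 6) (nat_lit 20) (nat_lit 4) (nat_lit 143) (nat_lit 155) (nat_lit 152)))) (PT.nd (nat_lit 78) (PT.lf (nat_lit 1520) (nat_lit 6) (nat_lit 20) (nat_lit 2) (nat_lit 152) (nat_lit 155) (nat_lit 143)) (PT.nd (nat_lit 78) (PT.lf (nat_lit 1368) (nat_lit 6) (nat_lit 18) (nat_lit 2) (nat_lit 153) (nat_lit 155) (nat_lit 142)) (PT.lf (nat_lit 1292) (nat_lit 6) (nat_lit 17) (nat_lit 2) (nat_lit 154) (nat_lit 155) (nat_lit 141))))))))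
noncomputable def pc3 : PT := (PT.nd (nat_lit 138840) (PT.nd (nat_lit 47034) (PT.nd (nat_lit 45552) (PT.nd (nat_lit 156) (PT.nd (nat_lit 78) (PT.lf (nat_lit 1216) (nat_lit 3) (nat_lit 16) (nat_lit 0) (nat_lit 155) (nat_lit 155) (nat_lit 140)) (PT.lf (nat_lit 1064) (nat_lit 6) (nat_lit 14) (nat_lit 0) (nat_lit 156) (nat_lit 155) (nat_lit 139))) (PT.nd (nat_lit 45240) (PT.lf (nat_lit 912) (nat_lit 6) (nat_lit 12) (nat_lit 0) (nat_lit 157) (nat_lit 155) (nat_lit 138)) (PT.nd (nat_lit 78) (PT.lf (nat_lit 684) (nat_lit 6) (nat_lit 9) (nat_lit 5) (nat_lit 136) (nat_lit 156) (nat_lit 158)) (PT.lf (nat_lit 836) (nat_lit 6) (nat_lit 11) (nat_lit 5) (nat_lit 137) (nat_lit 156) (nat_lit 157))))) (PT.nd (nat_lit 1248) (PT.nd (nat_lit 78) (PT.lf (nat_lit 988) (nat_lit 3) (nat_lit 13) (nat_lit 4) (nat_lit 138) (nat_lit 156) (nat_lit 156)) (PT.nd (nat_lit 78) (PT.lf (nat_lit 1064) (nat_lit 6) (nat_lit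 14) (nat_lit 4) (nat_lit 139) (nat_lit 156) (nat_lit 155)) (PT.lf (nat_lit 1140) (nat_lit 6) (nat_lit 15) (nat_lit 4) (nat_lit 140) (nat_lit 156) (nat_lit 154)))) (PT.nd (nat_lit 78) (PT.lf (nat_lit 1140) (nat_lit 6) (nat_lit 15) (nat_lit 2) (nat_lit 154) (nat_lit 156) (nat_lit 140)) (PT.nd (nat_lit 78) (PT.lf (nat_lit 1064) (nat_lit 6) (nat_lit 14) (nat_lit 2) (nat_lit 155) (nat_lit 156) (nat_lit 139)) (PT.lf (nat_lit 988) (nat_lit 3) (nat_lit 13) (nat_lit 0) (nat_lit 156) (nat_lit 156) (nat_lit 138)))))) (PT.nd (nat_lit 45396) (PT.nd (nat_lit 45162) (PT.nd (nat_lit 78) (PT.lf (nat_lit 836) (nat_lit 6) (nat_lit 11) (nat_lit 0) (nat_lit 157) (nat_lit 156) (nat_lit 137)) (PT.nd (nat_lit 45006) (PT.lf (nat_lit 684) (nat_lit 6) (nat_lit 9) (nat_lit 0) (nat_lit 158) (nat_lit 156) (nat_lit 136)) (PT.lf (nat_lit 456) (nat_lit 6) (nat_lit 6) (nat_lit 5) (nat_lit 134) (nat_lit 157) (nat_lit 159))))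 (PT.nd (nat_lit 78) (PT.lf (nat_lit 608) (nat_lit 6) (nat_lit 8) (nat_lit 5) (nat_lit 135) (nat_lit 157) (nat_lit 158)) (PT.nd (nat_lit 78) (PT.lf (nat_lit 760) (nat_lit 3) (nat_lit 10) (nat_lit 4) (nat_lit 136) (nat_lit 157) (nat_lit 157)) (PT.lf (nat_lit 836) (nat_lit 6) (nat_lit 11) (nat_lit 4) (nat_lit 137) (nat_lit 157) (nat_lit 156))))) (PT.nd (nat_lit 1482) (PT.nd (nat_lit 1326) (PT.lf (nat_lit 912) (nat_lit 6) (nat_lit 12) (nat_lit 4) (nat_lit 138) (nat_lit 157) (nat_lit 155)) (PT.nd (nat_lit 78) (PT.lf (nat_lit 912) (nat_lit 6) (nat_lit 12) (nat_lit 2) (nat_lit 155) (nat_lit 157) (nat_lit 138)) (PT.lf (nat_lit 836) (nat_lit 6) (nat_lit 11) (nat_lit 2) (nat_lit 156) (nat_lit 157) (nat_lit 137)))) (PT.nd (nat_lit 78) (PT.lf (nat_lit 760) (nat_lit 3) (nat_lit 10) (nat_lit 0) (nat_lit 157) (nat_lit 157) (nat_lit 136)) (PT.nd (nat_lit 78) (PT.lf (nat_lit 608) (nat_lit 6) (nat_lit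 8) (nat_lit 0) (nat_lit 158) (nat_lit 157) (nat_lit 135)) (PT.lf (nat_lit 456) (nat_lit 6) (nat_lit 6) (nat_lit 0) (nat_lit 159) (nat_lit 157) (nat_lit 134))))))) (PT.nd (nat_lit 46956) (PT.nd (nat_lit 1950) (PT.nd (nat_lit 234) (PT.nd (nat_lit 78) (PT.lf (nat_lit 228) (nat_lit 6) (nat_lit 3) (nat_lit 5) (nat_lit 132) (nat_lit 158) (nat_lit 160)) (PT.nd (nat_lit 78) (PT.lf (nat_lit 380) (nat_lit 6) (nat_lit 5) (nat_lit 5) (nat_lit 133) (nat_lit 158) (nat_lit 159)) (PT.lf (nat_lit 532) (nat_lit 3) (nat_lit 7) (nat_lit 4) (nat_lit 134) (nat_lit 158) (nat_lit 158)))) (PT.nd (nat_lit 78) (PT.lf (nat_lit 608) (nat_lit 6) (nat_lit 8) (nat_lit 4) (nat_lit 135) (nat_lit 158) (nat_lit 157)) (PT.nd (nat_lit 1560) (PT.lf (nat_lit 684) (nat_lit 6) (nat_lit 9) (nat_lit 4) (nat_lit 136) (nat_lit 158) (nat_lit 156)) (PT.lf (nat_lit 684) (nat_lit 6) (nat_lit 9) (nat_lit 2) (nat_lit 156) (nat_lit 158)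 (nat_lit 136))))) (PT.nd (nat_lit 234) (PT.nd (nat_lit 78) (PT.lf (nat_lit 608) (nat_lit 6) (nat_lit 8) (nat_lit 2) (nat_lit 157) (nat_lit 158) (nat_lit 135)) (PT.nd (nat_lit 78) (PT.lf (nat_lit 532) (nat_lit 3) (nat_lit 7) (nat_lit 0) (nat_lit 158) (nat_lit 158) (nat_lit 134)) (PT.lf (nat_lit 380) (nat_lit 6) (nat_lit 5) (nat_lit 0) (nat_lit 159) (nat_lit 158) (nat_lit 133)))) (PT.nd (nat_lit 44616) (PT.lf (nat_lit 228) (nat_lit 6) (nat_lit 3) (nat_lit 0) (nat_lit 160) (nat_lit 158) (nat_lit 132)) (PT.nd (nat_lit 78) (PT.lf (nat_lit 152) (nat_lit 6) (nat_lit 2) (nat_lit 5) (nat_lit 131) (nat_lit 159) (nat_lit 160)) (PT.lf (nat_lit 304) (nat_lit 3) (nat_lit 4) (nat_lit 4) (nat_lit 132) (nat_lit 159) (nat_lit 159)))))) (PT.nd (nat_lit 46644) (PT.nd (nat_lit 1950) (PT.nd (nat_lit 78) (PT.lf (nat_lit 380) (nat_lit 6) (nat_lit 5) (nat_lit 4) (nat_lit 133) (nat_lit 159) (nat_lit 158)) (PT.nd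 (nat_lit 1794) (PT.lf (nat_lit 456) (nat_lit 6) (nat_lit 6) (nat_lit 4) (nat_lit 134) (nat_lit 159) (nat_lit 157)) (PT.lf (nat_lit 456) (nat_lit 6) (nat_lit 6) (nat_lit 2) (nat_lit 157) (nat_lit 159) (nat_lit 134)))) (PT.nd (nat_lit 78) (PT.lf (nat_lit 380) (nat_lit 6) (nat_lit 5) (nat_lit 2) (nat_lit 158) (nat_lit 159) (nat_lit 133)) (PT.nd (nat_lit 78) (PT.lf (nat_lit 304) (nat_lit 3) (nat_lit 4) (nat_lit 0) (nat_lit 159) (nat_lit 159) (nat_lit 132)) (PT.lf (nat_lit 152) (nat_lit 6) (nat_lit 2) (nat_lit 0) (nat_lit 160) (nat_lit 159) (nat_lit 131))))) (PT.nd (nat_lit 2184) (PT.nd (nat_lit 78) (PT.lf (nat_lit 76) (nat_lit 3) (nat_lit 1) (nat_lit 4) (nat_lit 130) (nat_lit 160) (nat_lit 160)) (PT.nd (nat_lit 78) (PT.lf (nat_lit 152) (nat_lit 6) (nat_lit 2) (nat_lit 4) (nat_lit 131) (nat_lit 160) (nat_lit 159)) (PT.lf (nat_lit 228) (nat_lit 6) (nat_lit 3) (nat_lit 4) (nat_lit 132) (nat_lit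 160) (nat_lit 158)))) (PT.nd (nat_lit 78) (PT.lf (nat_lit 228) (nat_lit 6) (nat_lit 3) (nat_lit 2) (nat_lit 158) (nat_lit 160) (nat_lit 132)) (PT.nd (nat_lit 78) (PT.lf (nat_lit 152) (nat_lit 6) (nat_lit 2) (nat_lit 2) (nat_lit 159) (nat_lit 160) (nat_lit 131)) (PT.lf (nat_lit 76) (nat_lit 3) (nat_lit 1) (nat_lit 0) (nat_lit 160) (nat_lit 160) (nat_lit 130))))))))
noncomputable def xc0 : XT := (XT.nd (nat_lit 187200) (nat_lit 0) (nat_lit 0) (XT.nd (nat_lit 93756) (nat_lit 0) (nat_lit 0) (XT.nd (nat_lit 46956) (nat_lit 0) (nat_lit 0) (XT.nd (nat_lit 46722) (nat_lit 0) (nat_lit 0) (XT.nd (nat_lit 78) (nat_lit 0) (nat_lit 0) (XT.lf (nat_lit 0) (nat_lit 41991993761026) (nat_lit 76) (nat_lit 164923860853718) (nat_lit 76) (nat_lit 164923860853718) (nat_lit 1) (nat_lit 4) (nat_lit 2) (nat_lit 5) (nat_lit 2) (nat_lit 4) (nat_lit 398) (nat_lit 251) (nat_lit 251)) (XT.lf (nat_lit 0) (nat_lit 96581688326738)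 (nat_lit 76) (nat_lit 379324825356567) (nat_lit 76) (nat_lit 379324824534397) (nat_lit 1) (nat_lit 4) (nat_lit 2) (nat_lit 5) (nat_lit 2) (nat_lit 4) (nat_lit 399) (nat_lit 251) (nat_lit 250))) (XT.nd (nat_lit 78) (nat_lit 0) (nat_lit 0) (XT.lf (nat_lit 0) (nat_lit 31751886208651) (nat_lit 76) (nat_lit 124706183313296) (nat_lit 76) (nat_lit 124706183313296) (nat_lit 1) (nat_lit 4) (nat_lit 2) (nat_lit 5) (nat_lit 2) (nat_lit 4) (nat_lit 396) (nat_lit 252) (nat_lit 252)) (XT.nd (nat_lit 78) (nat_lit 0) (nat_lit 0) (XT.lf (nat_lit 0) (nat_lit 73029456357732) (nat_lit 76) (nat_lit 286824158822550) (nat_lit 76) (nat_lit 286824157877055) (nat_lit 1) (nat_lit 4) (nat_lit 2) (nat_lit 5) (nat_lit 2) (nat_lit 4) (nat_lit 397) (nat_lit 252) (nat_lit 251)) (XT.lf (nat_lit 0) (nat_lit 83983982854944) (nat_lit 76) (nat_lit 329847725092090) (nat_lit 76) (nat_lit 329847723324425) (nat_lit 1) (nat_lit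 4) (nat_lit 2) (nat_lit 5) (nat_lit 2) (nat_lit 4) (nat_lit 398) (nat_lit 252) (nat_lit 250))))) (XT.nd (nat_lit 46566) (nat_lit 0) (nat_lit 0) (XT.nd (nat_lit 46488) (nat_lit 0) (nat_lit 0) (XT.lf (nat_lit 0) (nat_lit 96581679601274) (nat_lit 76) (nat_lit 379324830862228) (nat_lit 76) (nat_lit 379324828379634) (nat_lit 1) (nat_lit 4) (nat_lit 2) (nat_lit 5) (nat_lit 2) (nat_lit 4) (nat_lit 399) (nat_lit 252) (nat_lit 249)) (XT.lf (nat_lit 0) (nat_lit 24008879637847) (nat_lit 76) (nat_lit 94295848679116) (nat_lit 76) (nat_lit 94295848679116) (nat_lit 1) (nat_lit 4) (nat_lit 2) (nat_lit 5) (nat_lit 2) (nat_lit 4) (nat_lit 394) (nat_lit 253) (nat_lit 253))) (XT.nd (nat_lit 78) (nat_lit 0) (nat_lit 0) (XT.lf (nat_lit 0) (nat_lit 55220558956559) (nat_lit 76) (nat_lit 216880379744229) (nat_lit 76) (nat_lit 216880378656910) (nat_lit 1) (nat_lit 4) (nat_lit 2) (nat_lit 5) (nat_lit 2) (nat_lit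 4) (nat_lit 395) (nat_lit 253) (nat_lit 252)) (XT.nd (nat_lit 78) (nat_lit 0) (nat_lit 0) (XT.lf (nat_lit 0) (nat_lit 63503767050128) (nat_lit 76) (nat_lit 249412370518945) (nat_lit 76) (nat_lit 249412368486131) (nat_lit 1) (nat_lit 4) (nat_lit 2) (nat_lit 5) (nat_lit 2) (nat_lit 4) (nat_lit 396) (nat_lit 253) (nat_lit 251)) (XT.lf (nat_lit 0) (nat_lit 73029446323449) (nat_lit 76) (nat_lit 286824165154060) (nat_lit 76) (nat_lit 286824162299076) (nat_lit 1) (nat_lit 4) (nat_lit 2) (nat_lit 5) (nat_lit 2) (nat_lit 4) (nat_lit 397) (nat_lit 253) (nat_lit 250)))))) (XT.nd (nat_lit 46722) (nat_lit 0) (nat_lit 0) (XT.nd (nat_lit 46488) (nat_lit 0) (nat_lit 0) (XT.nd (nat_lit 46410) (nat_lit 0) (nat_lit 0) (XT.lf (nat_lit 0) (nat_lit 83983968762307) (nat_lit 76) (nat_lit 329847733544608) (nat_lit 76) (nat_lit 329847729974695) (nat_lit 1) (nat_lit 4) (nat_lit 2) (nat_lit 5) (nat_lit 2) (nat_lit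 4) (nat_lit 398) (nat_lit 253) (nat_lit 249)) (XT.lf (nat_lit 0) (nat_lit 18154038046964) (nat_lit 76) (nat_lit 71301275409206) (nat_lit 76) (nat_lit 71301275409206) (nat_lit 1) (nat_lit 4) (nat_lit 2) (nat_lit 5) (nat_lit 2) (nat_lit 4) (nat_lit 392) (nat_lit 254) (nat_lit 254))) (XT.nd (nat_lit 78) (nat_lit 0) (nat_lit 0) (XT.lf (nat_lit 0) (nat_lit 41754443665954) (nat_lit 76) (nat_lit 163992850390776) (nat_lit 76) (nat_lit 163992849140358) (nat_lit 1) (nat_lit 4) (nat_lit 2) (nat_lit 5) (nat_lit 2) (nat_lit 4) (nat_lit 393) (nat_lit 254) (nat_lit 253)) (XT.nd (nat_lit 78) (nat_lit 0) (nat_lit 0) (XT.lf (nat_lit 0) (nat_lit 48017753103444) (nat_lit 76) (nat_lit 188591701834436) (nat_lit 76) (nat_lit 188591699496700) (nat_lit 1) (nat_lit 4) (nat_lit 2) (nat_lit 5) (nat_lit 2) (nat_lit 4) (nat_lit 394) (nat_lit 254) (nat_lit 252)) (XT.lf (nat_lit 0) (nat_lit 55220547417134) (nat_lit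 76) (nat_lit 216880387025466) (nat_lit 76) (nat_lit 216880383742234) (nat_lit 1) (nat_lit 4) (nat_lit 2) (nat_lit 5) (nat_lit 2) (nat_lit 4) (nat_lit 395) (nat_lit 254) (nat_lit 251))))) (XT.nd (nat_lit 46488) (nat_lit 0) (nat_lit 0) (XT.nd (nat_lit 78) (nat_lit 0) (nat_lit 0) (XT.lf (nat_lit 0) (nat_lit 63503750843594) (nat_lit 76) (nat_lit 249412380239341) (nat_lit 76) (nat_lit 249412376133940) (nat_lit 1) (nat_lit 4) (nat_lit 2) (nat_lit 5) (nat_lit 2) (nat_lit 4) (nat_lit 396) (nat_lit 254) (nat_lit 250)) (XT.nd (nat_lit 46332) (nat_lit 0) (nat_lit 0) (XT.lf (nat_lit 0) (nat_lit 73029426058561) (nat_lit 76) (nat_lit 286824176995463) (nat_lit 76) (nat_lit 286824172175133) (nat_lit 1) (nat_lit 4) (nat_lit 2) (nat_lit 5) (nat_lit 2) (nat_lit 4) (nat_lit 397) (nat_lit 254) (nat_lit 249)) (XT.lf (nat_lit 0) (nat_lit 13726918017479) (nat_lit 76) (nat_lit 53914084435689) (nat_lit 76) (nat_lit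 53914084435689) (nat_lit 1) (nat_lit 4) (nat_lit 2) (nat_lit 5) (nat_lit 2) (nat_lit 4) (nat_lit 390) (nat_lit 255) (nat_lit 255)))) (XT.nd (nat_lit 78) (nat_lit 0) (nat_lit 0) (XT.lf (nat_lit 0) (nat_lit 31572091021829) (nat_lit 76) (nat_lit 124002298694127) (nat_lit 76) (nat_lit 124002297256147) (nat_lit 1) (nat_lit 4) (nat_lit 2) (nat_lit 5) (nat_lit 2) (nat_lit 4) (nat_lit 391) (nat_lit 255) (nat_lit 254)) (XT.nd (nat_lit 78) (nat_lit 0) (nat_lit 0) (XT.lf (nat_lit 0) (nat_lit 36308068995840) (nat_lit 76) (nat_lit 142602555966047) (nat_lit 76) (nat_lit 142602553277651) (nat_lit 1) (nat_lit 4) (nat_lit 2) (nat_lit 5) (nat_lit 2) (nat_lit 4) (nat_lit 392) (nat_lit 255) (nat_lit 253)) (XT.lf (nat_lit 0) (nat_lit 41754430395615) (nat_lit 76) (nat_lit 163992858764198) (nat_lit 76) (nat_lit 163992854988482) (nat_lit 1) (nat_lit 4) (nat_lit 2) (nat_lit 5) (nat_lit 2) (nat_lit 4) (nat_lit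 393) (nat_lit 255) (nat_lit 252))))))) (XT.nd (nat_lit 139854) (nat_lit 0) (nat_lit 0) (XT.nd (nat_lit 46566) (nat_lit 0) (nat_lit 0) (XT.nd (nat_lit 156) (nat_lit 0) (nat_lit 0) (XT.nd (nat_lit 78) (nat_lit 0) (nat_lit 0) (XT.lf (nat_lit 0) (nat_lit 48017734465932) (nat_lit 76) (nat_lit 188591713012891) (nat_lit 76) (nat_lit 188591708291680) (nat_lit 1) (nat_lit 4) (nat_lit 2) (nat_lit 5) (nat_lit 2) (nat_lit 4) (nat_lit 394) (nat_lit 255) (nat_lit 251)) (XT.lf (nat_lit 0) (nat_lit 55220524112513) (nat_lit 76) (nat_lit 216880400643079) (nat_lit 76) (nat_lit 216880395099699) (nat_lit 1) (nat_lit 4) (nat_lit 2) (nat_lit 5) (nat_lit 2) (nat_lit 4) (nat_lit 395) (nat_lit 255) (nat_lit 250))) (XT.nd (nat_lit 46254) (nat_lit 0) (nat_lit 0) (XT.lf (nat_lit 0) (nat_lit 63503723480620) (nat_lit 76) (nat_lit 249412395977961) (nat_lit 76) (nat_lit 249412389719651) (nat_lit 1) (nat_lit 4) (nat_lit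 2) (nat_lit 5) (nat_lit 2) (nat_lit 4) (nat_lit 396) (nat_lit 255) (nat_lit 249)) (XT.nd (nat_lit 78) (nat_lit 0) (nat_lit 0) (XT.lf (nat_lit 0) (nat_lit 10379357809681) (nat_lit 76) (nat_lit 40766881573710) (nat_lit 76) (nat_lit 40766881573710) (nat_lit 1) (nat_lit 4) (nat_lit 2) (nat_lit 5) (nat_lit 2) (nat_lit 4) (nat_lit 388) (nat_lit 256) (nat_lit 256)) (XT.lf (nat_lit 0) (nat_lit 23872729481139) (nat_lit 76) (nat_lit 93763717785381) (nat_lit 76) (nat_lit 93763716131704) (nat_lit 1) (nat_lit 4) (nat_lit 2) (nat_lit 5) (nat_lit 2) (nat_lit 4) (nat_lit 389) (nat_lit 256) (nat_lit 255))))) (XT.nd (nat_lit 46722) (nat_lit 0) (nat_lit 0) (XT.nd (nat_lit 46566) (nat_lit 0) (nat_lit 0) (XT.lf (nat_lit 0) (nat_lit 27453827872157) (nat_lit 76) (nat_lit 107828174791159) (nat_lit 76) (nat_lit 107828171699503) (nat_lit 1) (nat_lit 4) (nat_lit 2) (nat_lit 5) (nat_lit 2) (nat_lit 4) (nat_lit 390)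 (nat_lit 256) (nat_lit 254)) (XT.nd (nat_lit 78) (nat_lit 0) (nat_lit 0) (XT.lf (nat_lit 0) (nat_lit 7848096709550) (nat_lit 76) (nat_lit 30825720594392) (nat_lit 76) (nat_lit 30825720594392) (nat_lit 1) (nat_lit 4) (nat_lit 2) (nat_lit 5) (nat_lit 2) (nat_lit 4) (nat_lit 386) (nat_lit 257) (nat_lit 257)) (XT.lf (nat_lit 0) (nat_lit 18050859928667) (nat_lit 76) (nat_lit 70899031057826) (nat_lit 76) (nat_lit 70899029156098) (nat_lit 1) (nat_lit 4) (nat_lit 2) (nat_lit 5) (nat_lit 2) (nat_lit 4) (nat_lit 387) (nat_lit 257) (nat_lit 256)))) (XT.nd (nat_lit 78) (nat_lit 0) (nat_lit 0) (XT.lf (nat_lit 0) (nat_lit 20758706232142) (nat_lit 76) (nat_lit 81533769955167) (nat_lit 76) (nat_lit 81533766399762) (nat_lit 1) (nat_lit 4) (nat_lit 2) (nat_lit 5) (nat_lit 2) (nat_lit 4) (nat_lit 388) (nat_lit 257) (nat_lit 255)) (XT.nd (nat_lit 78) (nat_lit 0) (nat_lit 0) (XT.lf (nat_lit 0) (nat_lit 23872711931116)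 (nat_lit 76) (nat_lit 93763728859232) (nat_lit 76) (nat_lit 93763723865847) (nat_lit 1) (nat_lit 4) (nat_lit 2) (nat_lit 5) (nat_lit 2) (nat_lit 4) (nat_lit 389) (nat_lit 257) (nat_lit 254)) (XT.lf (nat_lit 0) (nat_lit 27453803224046) (nat_lit 76) (nat_lit 107828189574665) (nat_lit 76) (nat_lit 107828183330864) (nat_lit 1) (nat_lit 4) (nat_lit 2) (nat_lit 5) (nat_lit 2) (nat_lit 4) (nat_lit 390) (nat_lit 257) (nat_lit 253)))))) (XT.nd (nat_lit 390) (nat_lit 0) (nat_lit 0) (XT.nd (nat_lit 156) (nat_lit 0) (nat_lit 0) (XT.nd (nat_lit 78) (nat_lit 0) (nat_lit 0) (XT.lf (nat_lit 0) (nat_lit 5934071313084) (nat_lit 76) (nat_lit 23308789862851) (nat_lit 76) (nat_lit 23308789862851) (nat_lit 1) (nat_lit 4) (nat_lit 2) (nat_lit 5) (nat_lit 2) (nat_lit 4) (nat_lit 384) (nat_lit 258) (nat_lit 258)) (XT.lf (nat_lit 0) (nat_lit 13648637141300) (nat_lit 76) (nat_lit 53610071428892) (nat_lit 76) (nat_lit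 53610069241905) (nat_lit 1) (nat_lit 4) (nat_lit 2) (nat_lit 5) (nat_lit 2) (nat_lit 4) (nat_lit 385) (nat_lit 258) (nat_lit 257))) (XT.nd (nat_lit 78) (nat_lit 0) (nat_lit 0) (XT.lf (nat_lit 0) (nat_lit 15696182623796) (nat_lit 76) (nat_lit 61651449017693) (nat_lit 76) (nat_lit 61651444928978) (nat_lit 1) (nat_lit 4) (nat_lit 2) (nat_lit 5) (nat_lit 2) (nat_lit 4) (nat_lit 386) (nat_lit 258) (nat_lit 256)) (XT.nd (nat_lit 78) (nat_lit 0) (nat_lit 0) (XT.lf (nat_lit 0) (nat_lit 18050839746141) (nat_lit 76) (nat_lit 70899043792755) (nat_lit 76) (nat_lit 70899038050363) (nat_lit 1) (nat_lit 4) (nat_lit 2) (nat_lit 5) (nat_lit 2) (nat_lit 4) (nat_lit 387) (nat_lit 258) (nat_lit 255)) (XT.lf (nat_lit 0) (nat_lit 20758677886815) (nat_lit 76) (nat_lit 81533786956200) (nat_lit 76) (nat_lit 81533779775828) (nat_lit 1) (nat_lit 4) (nat_lit 2) (nat_lit 5) (nat_lit 2) (nat_lit 4) (nat_lit 388) (nat_lit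 258) (nat_lit 254))))) (XT.nd (nat_lit 46410) (nat_lit 0) (nat_lit 0) (XT.nd (nat_lit 78) (nat_lit 0) (nat_lit 0) (XT.lf (nat_lit 0) (nat_lit 23872676487701) (nat_lit 76) (nat_lit 93763749569920) (nat_lit 76) (nat_lit 93763741139131) (nat_lit 1) (nat_lit 4) (nat_lit 2) (nat_lit 5) (nat_lit 2) (nat_lit 4) (nat_lit 389) (nat_lit 258) (nat_lit 253)) (XT.nd (nat_lit 46254) (nat_lit 0) (nat_lit 0) (XT.lf (nat_lit 0) (nat_lit 27453761608381) (nat_lit 76) (nat_lit 107828213511141) (nat_lit 76) (nat_lit 107828203993033) (nat_lit 1) (nat_lit 4) (nat_lit 2) (nat_lit 5) (nat_lit 2) (nat_lit 4) (nat_lit 390) (nat_lit 258) (nat_lit 252)) (XT.lf (nat_lit 0) (nat_lit 4486760533375) (nat_lit 76) (nat_lit 17624927759520) (nat_lit 76) (nat_lit 17624927759520) (nat_lit 1) (nat_lit 4) (nat_lit 2) (nat_lit 5) (nat_lit 2) (nat_lit 4) (nat_lit 382) (nat_lit 259) (nat_lit 259)))) (XT.nd (nat_lit 78) (nat_lit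 0) (nat_lit 0) (XT.lf (nat_lit 0) (nat_lit 10319863316149) (nat_lit 76) (nat_lit 40537166802880) (nat_lit 76) (nat_lit 40537164287845) (nat_lit 1) (nat_lit 4) (nat_lit 2) (nat_lit 5) (nat_lit 2) (nat_lit 4) (nat_lit 383) (nat_lit 259) (nat_lit 258)) (XT.nd (nat_lit 78) (nat_lit 0) (nat_lit 0) (XT.lf (nat_lit 0) (nat_lit 11868130211568) (nat_lit 76) (nat_lit 46617588728949) (nat_lit 76) (nat_lit 46617584026926) (nat_lit 1) (nat_lit 4) (nat_lit 2) (nat_lit 5) (nat_lit 2) (nat_lit 4) (nat_lit 384) (nat_lit 259) (nat_lit 257)) (XT.lf (nat_lit 0) (nat_lit 13648613931395) (nat_lit 76) (nat_lit 53610086074060) (nat_lit 76) (nat_lit 53610079470310) (nat_lit 1) (nat_lit 4) (nat_lit 2) (nat_lit 5) (nat_lit 2) (nat_lit 4) (nat_lit 385) (nat_lit 259) (nat_lit 256))))))))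
noncomputable def xc1 : XT := (XT.nd (nat_lit 93444) (nat_lit 0) (nat_lit 0) (XT.nd (nat_lit 46878) (nat_lit 0) (nat_lit 0) (XT.nd (nat_lit 46488) (nat_lit 0) (nat_lit 0) (XT.nd (nat_lit 156) (nat_lit 0) (nat_lit 0) (XT.nd (nat_lit 78) (nat_lit 0) (nat_lit 0) (XT.lf (nat_lit 0) (nat_lit 15696150026670) (nat_lit 76) (nat_lit 61651468568880) (nat_lit 76) (nat_lit 61651460311453) (nat_lit 1) (nat_lit 4) (nat_lit 2) (nat_lit 5) (nat_lit 2) (nat_lit 4) (nat_lit 386) (nat_lit 259) (nat_lit 255)) (XT.lf (nat_lit 0) (nat_lit 18050798986213) (nat_lit 76) (nat_lit 70899067610046) (nat_lit 76) (nat_lit 70899057914639) (nat_lit 1) (nat_lit 4) (nat_lit 2) (nat_lit 5) (nat_lit 2) (nat_lit 4) (nat_lit 387) (nat_lit 259) (nat_lit 254))) (XT.nd (nat_lit 78) (nat_lit 0) (nat_lit 0) (XT.lf (nat_lit 0) (nat_lit 20758630028799) (nat_lit 76) (nat_lit 81533814483146) (nat_lit 76) (nat_lit 81533803537322) (nat_lit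 1) (nat_lit 4) (nat_lit 2) (nat_lit 5) (nat_lit 2) (nat_lit 4) (nat_lit 388) (nat_lit 259) (nat_lit 253)) (XT.nd (nat_lit 46176) (nat_lit 0) (nat_lit 0) (XT.lf (nat_lit 0) (nat_lit 23872622457435) (nat_lit 76) (nat_lit 93763780322653) (nat_lit 76) (nat_lit 93763768289510) (nat_lit 1) (nat_lit 4) (nat_lit 2) (nat_lit 5) (nat_lit 2) (nat_lit 4) (nat_lit 389) (nat_lit 259) (nat_lit 252)) (XT.lf (nat_lit 0) (nat_lit 3392348165992) (nat_lit 76) (nat_lit 13327131511153) (nat_lit 76) (nat_lit 13327131511153) (nat_lit 1) (nat_lit 4) (nat_lit 2) (nat_lit 5) (nat_lit 2) (nat_lit 4) (nat_lit 380) (nat_lit 260) (nat_lit 260))))) (XT.nd (nat_lit 156) (nat_lit 0) (nat_lit 0) (XT.nd (nat_lit 78) (nat_lit 0) (nat_lit 0) (XT.lf (nat_lit 0) (nat_lit 7802761984577) (nat_lit 76) (nat_lit 30652210375035) (nat_lit 76) (nat_lit 30652207482744) (nat_lit 1) (nat_lit 4) (nat_lit 2) (nat_lit 5) (nat_lit 2) (nat_lit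 4) (nat_lit 381) (nat_lit 260) (nat_lit 259)) (XT.lf (nat_lit 0) (nat_lit 8973506789959) (nat_lit 76) (nat_lit 35249865872773) (nat_lit 76) (nat_lit 35249860465447) (nat_lit 1) (nat_lit 4) (nat_lit 2) (nat_lit 5) (nat_lit 2) (nat_lit 4) (nat_lit 382) (nat_lit 260) (nat_lit 258))) (XT.nd (nat_lit 78) (nat_lit 0) (nat_lit 0) (XT.lf (nat_lit 0) (nat_lit 10319836624758) (nat_lit 76) (nat_lit 40537183644823) (nat_lit 76) (nat_lit 40537176050510) (nat_lit 1) (nat_lit 4) (nat_lit 2) (nat_lit 5) (nat_lit 2) (nat_lit 4) (nat_lit 383) (nat_lit 260) (nat_lit 257)) (XT.nd (nat_lit 78) (nat_lit 0) (nat_lit 0) (XT.lf (nat_lit 0) (nat_lit 11868092724873) (nat_lit 76) (nat_lit 46617611212814) (nat_lit 76) (nat_lit 46617601716773) (nat_lit 1) (nat_lit 4) (nat_lit 2) (nat_lit 5) (nat_lit 2) (nat_lit 4) (nat_lit 384) (nat_lit 260) (nat_lit 256)) (XT.lf (nat_lit 0) (nat_lit 13648567057478) (nat_lit 76) (nat_lit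 53610113463945) (nat_lit 76) (nat_lit 53610102314227) (nat_lit 1) (nat_lit 4) (nat_lit 2) (nat_lit 5) (nat_lit 2) (nat_lit 4) (nat_lit 385) (nat_lit 260) (nat_lit 255)))))) (XT.nd (nat_lit 1560) (nat_lit 0) (nat_lit 0) (XT.nd (nat_lit 156) (nat_lit 0) (nat_lit 0) (XT.nd (nat_lit 78) (nat_lit 0) (nat_lit 0) (XT.lf (nat_lit 0) (nat_lit 15696094989952) (nat_lit 76) (nat_lit 61651500224869) (nat_lit 76) (nat_lit 61651487637171) (nat_lit 1) (nat_lit 4) (nat_lit 2) (nat_lit 5) (nat_lit 2) (nat_lit 4) (nat_lit 386) (nat_lit 260) (nat_lit 254)) (XT.lf (nat_lit 0) (nat_lit 18050736851408) (nat_lit 76) (nat_lit 70899102975690) (nat_lit 76) (nat_lit 70899089137575) (nat_lit 1) (nat_lit 4) (nat_lit 2) (nat_lit 5) (nat_lit 2) (nat_lit 4) (nat_lit 387) (nat_lit 260) (nat_lit 253))) (XT.nd (nat_lit 78) (nat_lit 0) (nat_lit 0) (XT.lf (nat_lit 0) (nat_lit 20758561721743) (nat_lit 76) (nat_lit 81533853074577)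 (nat_lit 76) (nat_lit 81533838149143) (nat_lit 1) (nat_lit 4) (nat_lit 2) (nat_lit 5) (nat_lit 2) (nat_lit 4) (nat_lit 388) (nat_lit 260) (nat_lit 252)) (XT.nd (nat_lit 1248) (nat_lit 0) (nat_lit 0) (XT.lf (nat_lit 0) (nat_lit 23872548783204) (nat_lit 76) (nat_lit 93763821719117) (nat_lit 76) (nat_lit 93763805848188) (nat_lit 1) (nat_lit 4) (nat_lit 2) (nat_lit 5) (nat_lit 2) (nat_lit 4) (nat_lit 389) (nat_lit 260) (nat_lit 251)) (XT.lf (nat_lit 0) (nat_lit 223399480848080) (nat_lit 76) (nat_lit 877401291326751) (nat_lit 76) (nat_lit 877401269826120) (nat_lit 1) (nat_lit 4) (nat_lit 2) (nat_lit 5) (nat_lit 2) (nat_lit 4) (nat_lit 405) (nat_lit 260) (nat_lit 235))))) (XT.nd (nat_lit 44772) (nat_lit 0) (nat_lit 0) (XT.nd (nat_lit 78) (nat_lit 0) (nat_lit 0) (XT.lf (nat_lit 0) (nat_lit 256909535997735) (nat_lit 76) (nat_lit 1009011412178452) (nat_lit 76) (nat_lit 1009011390589964) (nat_lit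 1) (nat_lit 4) (nat_lit 2) (nat_lit 5) (nat_lit 2) (nat_lit 4) (nat_lit 406) (nat_lit 260) (nat_lit 234)) (XT.nd (nat_lit 44616) (nat_lit 0) (nat_lit 0) (XT.lf (nat_lit 0) (nat_lit 295446098487393) (nat_lit 76) (nat_lit 1160363051645233) (nat_lit 76) (nat_lit 1160363029980342) (nat_lit 1) (nat_lit 4) (nat_lit 2) (nat_lit 5) (nat_lit 2) (nat_lit 4) (nat_lit 407) (nat_lit 260) (nat_lit 233)) (XT.lf (nat_lit 0) (nat_lit 2564772075284) (nat_lit 76) (nat_lit 10077403194504) (nat_lit 76) (nat_lit 10077403194504) (nat_lit 1) (nat_lit 4) (nat_lit 2) (nat_lit 5) (nat_lit 2) (nat_lit 4) (nat_lit 378) (nat_lit 261) (nat_lit 261)))) (XT.nd (nat_lit 78) (nat_lit 0) (nat_lit 0) (XT.lf (nat_lit 0) (nat_lit 5899391156369) (nat_lit 76) (nat_lit 23177806431648) (nat_lit 76) (nat_lit 23177803105514) (nat_lit 1) (nat_lit 4) (nat_lit 2) (nat_lit 5) (nat_lit 2) (nat_lit 4) (nat_lit 379) (nat_lit 261) (nat_lit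 260)) (XT.nd (nat_lit 78) (nat_lit 0) (nat_lit 0) (XT.lf (nat_lit 0) (nat_lit 6784679913675) (nat_lit 76) (nat_lit 26654274929100) (nat_lit 76) (nat_lit 26654268710675) (nat_lit 1) (nat_lit 4) (nat_lit 2) (nat_lit 5) (nat_lit 2) (nat_lit 4) (nat_lit 380) (nat_lit 261) (nat_lit 259)) (XT.lf (nat_lit 0) (nat_lit 7802731289477) (nat_lit 76) (nat_lit 30652229743270) (nat_lit 76) (nat_lit 30652221009809) (nat_lit 1) (nat_lit 4) (nat_lit 2) (nat_lit 5) (nat_lit 2) (nat_lit 4) (nat_lit 381) (nat_lit 261) (nat_lit 258))))))) (XT.nd (nat_lit 1950) (nat_lit 0) (nat_lit 0) (XT.nd (nat_lit 390) (nat_lit 0) (nat_lit 0) (XT.nd (nat_lit 156) (nat_lit 0) (nat_lit 0) (XT.nd (nat_lit 78) (nat_lit 0) (nat_lit 0) (XT.lf (nat_lit 0) (nat_lit 8973463680260) (nat_lit 76) (nat_lit 35249891729218) (nat_lit 76) (nat_lit 35249880808770) (nat_lit 1) (nat_lit 4) (nat_lit 2) (nat_lit 5) (nat_lit 2) (nat_lit 4) (nat_lit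 382) (nat_lit 261) (nat_lit 257)) (XT.lf (nat_lit 0) (nat_lit 10319782719754) (nat_lit 76) (nat_lit 40537215143191) (nat_lit 76) (nat_lit 40537202321015) (nat_lit 1) (nat_lit 4) (nat_lit 2) (nat_lit 5) (nat_lit 2) (nat_lit 4) (nat_lit 383) (nat_lit 261) (nat_lit 256))) (XT.nd (nat_lit 78) (nat_lit 0) (nat_lit 0) (XT.lf (nat_lit 0) (nat_lit 11868029432647) (nat_lit 76) (nat_lit 46617647617201) (nat_lit 76) (nat_lit 46617633141348) (nat_lit 1) (nat_lit 4) (nat_lit 2) (nat_lit 5) (nat_lit 2) (nat_lit 4) (nat_lit 384) (nat_lit 261) (nat_lit 255)) (XT.nd (nat_lit 78) (nat_lit 0) (nat_lit 0) (XT.lf (nat_lit 0) (nat_lit 13648495602452) (nat_lit 76) (nat_lit 53610154134436) (nat_lit 76) (nat_lit 53610138220603) (nat_lit 1) (nat_lit 4) (nat_lit 2) (nat_lit 5) (nat_lit 2) (nat_lit 4) (nat_lit 385) (nat_lit 261) (nat_lit 254)) (XT.lf (nat_lit 0) (nat_lit 15696016436837) (nat_lit 76) (nat_lit 61651544605015)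 (nat_lit 76) (nat_lit 61651527440765) (nat_lit 1) (nat_lit 4) (nat_lit 2) (nat_lit 5) (nat_lit 2) (nat_lit 4) (nat_lit 386) (nat_lit 261) (nat_lit 253))))) (XT.nd (nat_lit 1326) (nat_lit 0) (nat_lit 0) (XT.nd (nat_lit 78) (nat_lit 0) (nat_lit 0) (XT.lf (nat_lit 0) (nat_lit 18050652126042) (nat_lit 76) (nat_lit 70899150581623) (nat_lit 76) (nat_lit 70899132330055) (nat_lit 1) (nat_lit 4) (nat_lit 2) (nat_lit 5) (nat_lit 2) (nat_lit 4) (nat_lit 387) (nat_lit 261) (nat_lit 252)) (XT.nd (nat_lit 78) (nat_lit 0) (nat_lit 0) (XT.lf (nat_lit 0) (nat_lit 20758471629204) (nat_lit 76) (nat_lit 81533903485543) (nat_lit 76) (nat_lit 81533884288479) (nat_lit 1) (nat_lit 4) (nat_lit 2) (nat_lit 5) (nat_lit 2) (nat_lit 4) (nat_lit 388) (nat_lit 261) (nat_lit 251)) (XT.lf (nat_lit 0) (nat_lit 23872454023557) (nat_lit 76) (nat_lit 93763874569241) (nat_lit 76) (nat_lit 93763854550008) (nat_lit 1) (nat_lit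 4) (nat_lit 2) (nat_lit 5) (nat_lit 2) (nat_lit 4) (nat_lit 389) (nat_lit 261) (nat_lit 250)))) (XT.nd (nat_lit 78) (nat_lit 0) (nat_lit 0) (XT.lf (nat_lit 0) (nat_lit 194260179474675) (nat_lit 76) (nat_lit 762957775577553) (nat_lit 76) (nat_lit 762957750750790) (nat_lit 1) (nat_lit 4) (nat_lit 2) (nat_lit 5) (nat_lit 2) (nat_lit 4) (nat_lit 404) (nat_lit 261) (nat_lit 235)) (XT.nd (nat_lit 78) (nat_lit 0) (nat_lit 0) (XT.lf (nat_lit 0) (nat_lit 223399358299375) (nat_lit 76) (nat_lit 877401358700198) (nat_lit 76) (nat_lit 877401333785573) (nat_lit 1) (nat_lit 4) (nat_lit 2) (nat_lit 5) (nat_lit 2) (nat_lit 4) (nat_lit 405) (nat_lit 261) (nat_lit 234)) (XT.lf (nat_lit 0) (nat_lit 256909413015333) (nat_lit 76) (nat_lit 1009011479778563) (nat_lit 76) (nat_lit 1009011454787537) (nat_lit 1) (nat_lit 4) (nat_lit 2) (nat_lit 5) (nat_lit 2) (nat_lit 4) (nat_lit 406) (nat_lit 261) (nat_lit 233))))))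 (XT.nd (nat_lit 44772) (nat_lit 0) (nat_lit 0) (XT.nd (nat_lit 44538) (nat_lit 0) (nat_lit 0) (XT.nd (nat_lit 44460) (nat_lit 0) (nat_lit 0) (XT.lf (nat_lit 0) (nat_lit 295445975127867) (nat_lit 76) (nat_lit 1160363119442438) (nat_lit 76) (nat_lit 1160363094384977) (nat_lit 1) (nat_lit 4) (nat_lit 2) (nat_lit 5) (nat_lit 2) (nat_lit 4) (nat_lit 407) (nat_lit 261) (nat_lit 232)) (XT.lf (nat_lit 0) (nat_lit 1938956078935) (nat_lit 76) (nat_lit 7620168272301) (nat_lit 76) (nat_lit 7620168272301) (nat_lit 1) (nat_lit 4) (nat_lit 2) (nat_lit 5) (nat_lit 2) (nat_lit 4) (nat_lit 376) (nat_lit 262) (nat_lit 262))) (XT.nd (nat_lit 78) (nat_lit 0) (nat_lit 0) (XT.lf (nat_lit 0) (nat_lit 4460076672249) (nat_lit 76) (nat_lit 17526132973226) (nat_lit 76) (nat_lit 17526129148171) (nat_lit 1) (nat_lit 4) (nat_lit 2) (nat_lit 5) (nat_lit 2) (nat_lit 4) (nat_lit 377) (nat_lit 262) (nat_lit 261)) (XT.nd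 (nat_lit 78) (nat_lit 0) (nat_lit 0) (XT.lf (nat_lit 0) (nat_lit 5129525269514) (nat_lit 76) (nat_lit 20154820081820) (nat_lit 76) (nat_lit 20154812930631) (nat_lit 1) (nat_lit 4) (nat_lit 2) (nat_lit 5) (nat_lit 2) (nat_lit 4) (nat_lit 378) (nat_lit 262) (nat_lit 260)) (XT.lf (nat_lit 0) (nat_lit 5899355857005) (nat_lit 76) (nat_lit 23177828705118) (nat_lit 76) (nat_lit 23177818661639) (nat_lit 1) (nat_lit 4) (nat_lit 2) (nat_lit 5) (nat_lit 2) (nat_lit 4) (nat_lit 379) (nat_lit 262) (nat_lit 259))))) (XT.nd (nat_lit 234) (nat_lit 0) (nat_lit 0) (XT.nd (nat_lit 78) (nat_lit 0) (nat_lit 0) (XT.lf (nat_lit 0) (nat_lit 6784630337521) (nat_lit 76) (nat_lit 26654304664012) (nat_lit 76) (nat_lit 26654292105497) (nat_lit 1) (nat_lit 4) (nat_lit 2) (nat_lit 5) (nat_lit 2) (nat_lit 4) (nat_lit 380) (nat_lit 262) (nat_lit 258)) (XT.nd (nat_lit 78) (nat_lit 0) (nat_lit 0) (XT.lf (nat_lit 0) (nat_lit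 7802669298723) (nat_lit 76) (nat_lit 30652265966392) (nat_lit 76) (nat_lit 30652251220890) (nat_lit 1) (nat_lit 4) (nat_lit 2) (nat_lit 5) (nat_lit 2) (nat_lit 4) (nat_lit 381) (nat_lit 262) (nat_lit 257)) (XT.lf (nat_lit 0) (nat_lit 8973390894200) (nat_lit 76) (nat_lit 35249933594263) (nat_lit 76) (nat_lit 35249916947032) (nat_lit 1) (nat_lit 4) (nat_lit 2) (nat_lit 5) (nat_lit 2) (nat_lit 4) (nat_lit 382) (nat_lit 262) (nat_lit 256)))) (XT.nd (nat_lit 78) (nat_lit 0) (nat_lit 0) (XT.lf (nat_lit 0) (nat_lit 10319700546474) (nat_lit 76) (nat_lit 40537261914255) (nat_lit 76) (nat_lit 40537243613348) (nat_lit 1) (nat_lit 4) (nat_lit 2) (nat_lit 5) (nat_lit 2) (nat_lit 4) (nat_lit 383) (nat_lit 262) (nat_lit 255)) (XT.nd (nat_lit 78) (nat_lit 0) (nat_lit 0) (XT.lf (nat_lit 0) (nat_lit 11867939096565) (nat_lit 76) (nat_lit 46617698654369) (nat_lit 76) (nat_lit 46617678915482) (nat_lit 1)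 (nat_lit 4) (nat_lit 2) (nat_lit 5) (nat_lit 2) (nat_lit 4) (nat_lit 384) (nat_lit 262) (nat_lit 254)) (XT.lf (nat_lit 0) (nat_lit 13648398168282) (nat_lit 76) (nat_lit 53610208881259) (nat_lit 76) (nat_lit 53610187891955) (nat_lit 1) (nat_lit 4) (nat_lit 2) (nat_lit 5) (nat_lit 2) (nat_lit 4) (nat_lit 385) (nat_lit 262) (nat_lit 253))))))))
noncomputable def xc2 : XT := (XT.nd (nat_lit 46956) (nat_lit 0) (nat_lit 0) (XT.nd (nat_lit 46098) (nat_lit 0) (nat_lit 0) (XT.nd (nat_lit 1482) (nat_lit 0) (nat_lit 0) (XT.nd (nat_lit 156) (nat_lit 0) (nat_lit 0) (XT.nd (nat_lit 78) (nat_lit 0) (nat_lit 0) (XT.lf (nat_lit 0) (nat_lit 15695912830417) (nat_lit 76) (nat_lit 61651602577625) (nat_lit 76) (nat_lit 61651580501002) (nat_lit 1) (nat_lit 4) (nat_lit 2) (nat_lit 5) (nat_lit 2) (nat_lit 4) (nat_lit 386) (nat_lit 262) (nat_lit 252)) (XT.lf (nat_lit 0) (nat_lit 18050543152448) (nat_lit 76) (nat_lit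 70899211359266) (nat_lit 76) (nat_lit 70899188337148) (nat_lit 1) (nat_lit 4) (nat_lit 2) (nat_lit 5) (nat_lit 2) (nat_lit 4) (nat_lit 387) (nat_lit 262) (nat_lit 251))) (XT.nd (nat_lit 1170) (nat_lit 0) (nat_lit 0) (XT.lf (nat_lit 0) (nat_lit 20758357988501) (nat_lit 76) (nat_lit 81533966702344) (nat_lit 76) (nat_lit 81533942858057) (nat_lit 1) (nat_lit 4) (nat_lit 2) (nat_lit 5) (nat_lit 2) (nat_lit 4) (nat_lit 388) (nat_lit 262) (nat_lit 250)) (XT.nd (nat_lit 78) (nat_lit 0) (nat_lit 0) (XT.lf (nat_lit 0) (nat_lit 168921621241914) (nat_lit 76) (nat_lit 663441694307256) (nat_lit 76) (nat_lit 663441665655438) (nat_lit 1) (nat_lit 4) (nat_lit 2) (nat_lit 5) (nat_lit 2) (nat_lit 4) (nat_lit 403) (nat_lit 262) (nat_lit 235)) (XT.lf (nat_lit 0) (nat_lit 194260038044915) (nat_lit 76) (nat_lit 762957853317678) (nat_lit 76) (nat_lit 762957824578000) (nat_lit 1) (nat_lit 4) (nat_lit 2) (nat_lit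 5) (nat_lit 2) (nat_lit 4) (nat_lit 404) (nat_lit 262) (nat_lit 234))))) (XT.nd (nat_lit 156) (nat_lit 0) (nat_lit 0) (XT.nd (nat_lit 78) (nat_lit 0) (nat_lit 0) (XT.lf (nat_lit 0) (nat_lit 223399216435917) (nat_lit 76) (nat_lit 877401436666984) (nat_lit 76) (nat_lit 877401407850905) (nat_lit 1) (nat_lit 4) (nat_lit 2) (nat_lit 5) (nat_lit 2) (nat_lit 4) (nat_lit 405) (nat_lit 262) (nat_lit 233)) (XT.lf (nat_lit 0) (nat_lit 256909270774752) (nat_lit 76) (nat_lit 1009011557942444) (nat_lit 76) (nat_lit 1009011529059930) (nat_lit 1) (nat_lit 4) (nat_lit 2) (nat_lit 5) (nat_lit 2) (nat_lit 4) (nat_lit 406) (nat_lit 262) (nat_lit 232))) (XT.nd (nat_lit 44304) (nat_lit 0) (nat_lit 0) (XT.lf (nat_lit 0) (nat_lit 295445832559351) (nat_lit 76) (nat_lit 1160363197777708) (nat_lit 76) (nat_lit 1160363168837423) (nat_lit 1) (nat_lit 4) (nat_lit 2) (nat_lit 5) (nat_lit 2) (nat_lit 4) (nat_lit 407)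 (nat_lit 262) (nat_lit 231)) (XT.nd (nat_lit 78) (nat_lit 0) (nat_lit 0) (XT.lf (nat_lit 0) (nat_lit 1465692263826) (nat_lit 76) (nat_lit 5762176196414) (nat_lit 76) (nat_lit 5762176196414) (nat_lit 1) (nat_lit 4) (nat_lit 2) (nat_lit 5) (nat_lit 2) (nat_lit 4) (nat_lit 374) (nat_lit 263) (nat_lit 263)) (XT.lf (nat_lit 0) (nat_lit 3371641551101) (nat_lit 76) (nat_lit 13252713090725) (nat_lit 76) (nat_lit 13252708691913) (nat_lit 1) (nat_lit 4) (nat_lit 2) (nat_lit 5) (nat_lit 2) (nat_lit 4) (nat_lit 375) (nat_lit 263) (nat_lit 262)))))) (XT.nd (nat_lit 390) (nat_lit 0) (nat_lit 0) (XT.nd (nat_lit 156) (nat_lit 0) (nat_lit 0) (XT.nd (nat_lit 78) (nat_lit 0) (nat_lit 0) (XT.lf (nat_lit 0) (nat_lit 3877890444658) (nat_lit 76) (nat_lit 15240352291336) (nat_lit 76) (nat_lit 15240344067469) (nat_lit 1) (nat_lit 4) (nat_lit 2) (nat_lit 5) (nat_lit 2) (nat_lit 4) (nat_lit 376) (nat_lit 263) (nat_lit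 261)) (XT.lf (nat_lit 0) (nat_lit 4460036077980) (nat_lit 76) (nat_lit 17526158587716) (nat_lit 76) (nat_lit 17526147037714) (nat_lit 1) (nat_lit 4) (nat_lit 2) (nat_lit 5) (nat_lit 2) (nat_lit 4) (nat_lit 377) (nat_lit 263) (nat_lit 260))) (XT.nd (nat_lit 78) (nat_lit 0) (nat_lit 0) (XT.lf (nat_lit 0) (nat_lit 5129468256936) (nat_lit 76) (nat_lit 20154854276968) (nat_lit 76) (nat_lit 20154839834676) (nat_lit 1) (nat_lit 4) (nat_lit 2) (nat_lit 5) (nat_lit 2) (nat_lit 4) (nat_lit 378) (nat_lit 263) (nat_lit 259)) (XT.nd (nat_lit 78) (nat_lit 0) (nat_lit 0) (XT.lf (nat_lit 0) (nat_lit 5899284567637) (nat_lit 76) (nat_lit 23177870361709) (nat_lit 76) (nat_lit 23177853404381) (nat_lit 1) (nat_lit 4) (nat_lit 2) (nat_lit 5) (nat_lit 2) (nat_lit 4) (nat_lit 379) (nat_lit 263) (nat_lit 258)) (XT.lf (nat_lit 0) (nat_lit 6784546633552) (nat_lit 76) (nat_lit 26654352808813) (nat_lit 76) (nat_lit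 26654333664498) (nat_lit 1) (nat_lit 4) (nat_lit 2) (nat_lit 5) (nat_lit 2) (nat_lit 4) (nat_lit 380) (nat_lit 263) (nat_lit 257))))) (XT.nd (nat_lit 234) (nat_lit 0) (nat_lit 0) (XT.nd (nat_lit 78) (nat_lit 0) (nat_lit 0) (XT.lf (nat_lit 0) (nat_lit 7802574799450) (nat_lit 76) (nat_lit 30652319753116) (nat_lit 76) (nat_lit 30652298707073) (nat_lit 1) (nat_lit 4) (nat_lit 2) (nat_lit 5) (nat_lit 2) (nat_lit 4) (nat_lit 381) (nat_lit 263) (nat_lit 256)) (XT.nd (nat_lit 78) (nat_lit 0) (nat_lit 0) (XT.lf (nat_lit 0) (nat_lit 8973287007706) (nat_lit 76) (nat_lit 35249992287005) (nat_lit 76) (nat_lit 35249969587286) (nat_lit 1) (nat_lit 4) (nat_lit 2) (nat_lit 5) (nat_lit 2) (nat_lit 4) (nat_lit 382) (nat_lit 263) (nat_lit 255)) (XT.lf (nat_lit 0) (nat_lit 10319588497178) (nat_lit 76) (nat_lit 40537324873101) (nat_lit 76) (nat_lit 40537300735402) (nat_lit 1) (nat_lit 4) (nat_lit 2) (nat_lit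 5) (nat_lit 2) (nat_lit 4) (nat_lit 383) (nat_lit 263) (nat_lit 254)))) (XT.nd (nat_lit 78) (nat_lit 0) (nat_lit 0) (XT.lf (nat_lit 0) (nat_lit 11867819949182) (nat_lit 76) (nat_lit 46617765322870) (nat_lit 76) (nat_lit 46617739934754) (nat_lit 1) (nat_lit 4) (nat_lit 2) (nat_lit 5) (nat_lit 2) (nat_lit 4) (nat_lit 384) (nat_lit 263) (nat_lit 253)) (XT.nd (nat_lit 78) (nat_lit 0) (nat_lit 0) (XT.lf (nat_lit 0) (nat_lit 13648272848648) (nat_lit 76) (nat_lit 53610278775548) (nat_lit 76) (nat_lit 53610252300112) (nat_lit 1) (nat_lit 4) (nat_lit 2) (nat_lit 5) (nat_lit 2) (nat_lit 4) (nat_lit 385) (nat_lit 263) (nat_lit 252)) (XT.lf (nat_lit 0) (nat_lit 15695782143609) (nat_lit 76) (nat_lit 61651675276947) (nat_lit 76) (nat_lit 61651647856016) (nat_lit 1) (nat_lit 4) (nat_lit 2) (nat_lit 5) (nat_lit 2) (nat_lit 4) (nat_lit 386) (nat_lit 263) (nat_lit 251))))))) (XT.nd (nat_lit 46098) (nat_lit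 0) (nat_lit 0) (XT.nd (nat_lit 1482) (nat_lit 0) (nat_lit 0) (XT.nd (nat_lit 1248) (nat_lit 0) (nat_lit 0) (XT.nd (nat_lit 78) (nat_lit 0) (nat_lit 0) (XT.lf (nat_lit 0) (nat_lit 18050407798532) (nat_lit 76) (nat_lit 70899286497746) (nat_lit 76) (nat_lit 70899258254646) (nat_lit 1) (nat_lit 4) (nat_lit 2) (nat_lit 5) (nat_lit 2) (nat_lit 4) (nat_lit 387) (nat_lit 263) (nat_lit 250)) (XT.lf (nat_lit 0) (nat_lit 20758218576230) (nat_lit 76) (nat_lit 81534043961832) (nat_lit 76) (nat_lit 81534015003802) (nat_lit 1) (nat_lit 4) (nat_lit 2) (nat_lit 5) (nat_lit 2) (nat_lit 4) (nat_lit 388) (nat_lit 263) (nat_lit 249))) (XT.nd (nat_lit 78) (nat_lit 0) (nat_lit 0) (XT.lf (nat_lit 0) (nat_lit 168921458098941) (nat_lit 76) (nat_lit 663441783969060) (nat_lit 76) (nat_lit 663441750830568) (nat_lit 1) (nat_lit 4) (nat_lit 2) (nat_lit 5) (nat_lit 2) (nat_lit 4) (nat_lit 403) (nat_lit 263) (nat_lit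 234)) (XT.nd (nat_lit 78) (nat_lit 0) (nat_lit 0) (XT.lf (nat_lit 0) (nat_lit 194259874468245) (nat_lit 76) (nat_lit 762957943206143) (nat_lit 76) (nat_lit 762957909991250) (nat_lit 1) (nat_lit 4) (nat_lit 2) (nat_lit 5) (nat_lit 2) (nat_lit 4) (nat_lit 404) (nat_lit 263) (nat_lit 233)) (XT.lf (nat_lit 0) (nat_lit 223399052482123) (nat_lit 76) (nat_lit 877401526752546) (nat_lit 76) (nat_lit 877401493471217) (nat_lit 1) (nat_lit 4) (nat_lit 2) (nat_lit 5) (nat_lit 2) (nat_lit 4) (nat_lit 405) (nat_lit 263) (nat_lit 232))))) (XT.nd (nat_lit 44382) (nat_lit 0) (nat_lit 0) (XT.nd (nat_lit 44226) (nat_lit 0) (nat_lit 0) (XT.lf (nat_lit 0) (nat_lit 256909106493021) (nat_lit 76) (nat_lit 1009011648199396) (nat_lit 76) (nat_lit 1009011614860294) (nat_lit 1) (nat_lit 4) (nat_lit 2) (nat_lit 5) (nat_lit 2) (nat_lit 4) (nat_lit 406) (nat_lit 263) (nat_lit 231)) (XT.nd (nat_lit 78) (nat_lit 0) (nat_lit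 0) (XT.lf (nat_lit 0) (nat_lit 1107771262605) (nat_lit 76) (nat_lit 4357302386381) (nat_lit 76) (nat_lit 4357302386381) (nat_lit 1) (nat_lit 4) (nat_lit 2) (nat_lit 5) (nat_lit 2) (nat_lit 4) (nat_lit 372) (nat_lit 264) (nat_lit 264)) (XT.lf (nat_lit 0) (nat_lit 2548505649939) (nat_lit 76) (nat_lit 10021459503496) (nat_lit 76) (nat_lit 10021454444861) (nat_lit 1) (nat_lit 4) (nat_lit 2) (nat_lit 5) (nat_lit 2) (nat_lit 4) (nat_lit 373) (nat_lit 264) (nat_lit 263)))) (XT.nd (nat_lit 78) (nat_lit 0) (nat_lit 0) (XT.lf (nat_lit 0) (nat_lit 2931359557456) (nat_lit 76) (nat_lit 11524370501572) (nat_lit 76) (nat_lit 11524361044125) (nat_lit 1) (nat_lit 4) (nat_lit 2) (nat_lit 5) (nat_lit 2) (nat_lit 4) (nat_lit 374) (nat_lit 264) (nat_lit 262)) (XT.nd (nat_lit 78) (nat_lit 0) (nat_lit 0) (XT.lf (nat_lit 0) (nat_lit 3371594867692) (nat_lit 76) (nat_lit 13252742547390) (nat_lit 76) (nat_lit 13252729264888)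 (nat_lit 1) (nat_lit 4) (nat_lit 2) (nat_lit 5) (nat_lit 2) (nat_lit 4) (nat_lit 375) (nat_lit 264) (nat_lit 261)) (XT.lf (nat_lit 0) (nat_lit 3877824880194) (nat_lit 76) (nat_lit 15240391615757) (nat_lit 76) (nat_lit 15240375007121) (nat_lit 1) (nat_lit 4) (nat_lit 2) (nat_lit 5) (nat_lit 2) (nat_lit 4) (nat_lit 376) (nat_lit 264) (nat_lit 260)))))) (XT.nd (nat_lit 390) (nat_lit 0) (nat_lit 0) (XT.nd (nat_lit 156) (nat_lit 0) (nat_lit 0) (XT.nd (nat_lit 78) (nat_lit 0) (nat_lit 0) (XT.lf (nat_lit 0) (nat_lit 4459954095207) (nat_lit 76) (nat_lit 17526206492796) (nat_lit 76) (nat_lit 17526186991869) (nat_lit 1) (nat_lit 4) (nat_lit 2) (nat_lit 5) (nat_lit 2) (nat_lit 4) (nat_lit 377) (nat_lit 264) (nat_lit 259)) (XT.lf (nat_lit 0) (nat_lit 5129371997373) (nat_lit 76) (nat_lit 20154909643490) (nat_lit 76) (nat_lit 20154887627528) (nat_lit 1) (nat_lit 4) (nat_lit 2) (nat_lit 5) (nat_lit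 2) (nat_lit 4) (nat_lit 378) (nat_lit 264) (nat_lit 258))) (XT.nd (nat_lit 78) (nat_lit 0) (nat_lit 0) (XT.lf (nat_lit 0) (nat_lit 5899175893474) (nat_lit 76) (nat_lit 23177932216441) (nat_lit 76) (nat_lit 23177908013492) (nat_lit 1) (nat_lit 4) (nat_lit 2) (nat_lit 5) (nat_lit 2) (nat_lit 4) (nat_lit 379) (nat_lit 264) (nat_lit 257)) (XT.nd (nat_lit 78) (nat_lit 0) (nat_lit 0) (XT.lf (nat_lit 0) (nat_lit 6784427164084) (nat_lit 76) (nat_lit 26654420305468) (nat_lit 76) (nat_lit 26654394200790) (nat_lit 1) (nat_lit 4) (nat_lit 2) (nat_lit 5) (nat_lit 2) (nat_lit 4) (nat_lit 380) (nat_lit 264) (nat_lit 256)) (XT.lf (nat_lit 0) (nat_lit 7802445942760) (nat_lit 76) (nat_lit 30652392155789) (nat_lit 76) (nat_lit 30652364397435) (nat_lit 1) (nat_lit 4) (nat_lit 2) (nat_lit 5) (nat_lit 2) (nat_lit 4) (nat_lit 381) (nat_lit 264) (nat_lit 255))))) (XT.nd (nat_lit 234) (nat_lit 0) (nat_lit 0)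 (XT.nd (nat_lit 78) (nat_lit 0) (nat_lit 0) (XT.lf (nat_lit 0) (nat_lit 8973149988215) (nat_lit 76) (nat_lit 35250068955783) (nat_lit 76) (nat_lit 35250039759449) (nat_lit 1) (nat_lit 4) (nat_lit 2) (nat_lit 5) (nat_lit 2) (nat_lit 4) (nat_lit 382) (nat_lit 264) (nat_lit 254)) (XT.nd (nat_lit 78) (nat_lit 0) (nat_lit 0) (XT.lf (nat_lit 0) (nat_lit 10319444379600) (nat_lit 76) (nat_lit 40537405251534) (nat_lit 76) (nat_lit 40537374804783) (nat_lit 1) (nat_lit 4) (nat_lit 2) (nat_lit 5) (nat_lit 2) (nat_lit 4) (nat_lit 383) (nat_lit 264) (nat_lit 253)) (XT.lf (nat_lit 0) (nat_lit 11867669659353) (nat_lit 76) (nat_lit 46617848927090) (nat_lit 76) (nat_lit 46617817393020) (nat_lit 1) (nat_lit 4) (nat_lit 2) (nat_lit 5) (nat_lit 2) (nat_lit 4) (nat_lit 384) (nat_lit 264) (nat_lit 252)))) (XT.nd (nat_lit 78) (nat_lit 0) (nat_lit 0) (XT.lf (nat_lit 0) (nat_lit 13648117191644) (nat_lit 76) (nat_lit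 53610365184800) (nat_lit 76) (nat_lit 53610332705235) (nat_lit 1) (nat_lit 4) (nat_lit 2) (nat_lit 5) (nat_lit 2) (nat_lit 4) (nat_lit 385) (nat_lit 264) (nat_lit 251)) (XT.nd (nat_lit 78) (nat_lit 0) (nat_lit 0) (XT.lf (nat_lit 0) (nat_lit 15695621819497) (nat_lit 76) (nat_lit 61651764125357) (nat_lit 76) (nat_lit 61651730823623) (nat_lit 1) (nat_lit 4) (nat_lit 2) (nat_lit 5) (nat_lit 2) (nat_lit 4) (nat_lit 386) (nat_lit 264) (nat_lit 250)) (XT.lf (nat_lit 0) (nat_lit 18050243416065) (nat_lit 76) (nat_lit 70899377467165) (nat_lit 76) (nat_lit 70899343450500) (nat_lit 1) (nat_lit 4) (nat_lit 2) (nat_lit 5) (nat_lit 2) (nat_lit 4) (nat_lit 387) (nat_lit 264) (nat_lit 249))))))))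
noncomputable def xc3 : XT := (XT.nd (nat_lit 91182) (nat_lit 0) (nat_lit 0) (XT.nd (nat_lit 45006) (nat_lit 0) (nat_lit 0) (XT.nd (nat_lit 44538) (nat_lit 0) (nat_lit 0) (XT.nd (nat_lit 44304) (nat_lit 0) (nat_lit 0) (XT.nd (nat_lit 78) (nat_lit 0) (nat_lit 0) (XT.lf (nat_lit 0) (nat_lit 168921269552077) (nat_lit 76) (nat_lit 663441887567454) (nat_lit 76) (nat_lit 663441849293928) (nat_lit 1) (nat_lit 4) (nat_lit 2) (nat_lit 5) (nat_lit 2) (nat_lit 4) (nat_lit 403) (nat_lit 264) (nat_lit 233)) (XT.lf (nat_lit 0) (nat_lit 194259685544255) (nat_lit 76) (nat_lit 762958047001634) (nat_lit 76) (nat_lit 762958008661673) (nat_lit 1) (nat_lit 4) (nat_lit 2) (nat_lit 5) (nat_lit 2) (nat_lit 4) (nat_lit 404) (nat_lit 264) (nat_lit 232))) (XT.nd (nat_lit 78) (nat_lit 0) (nat_lit 0) (XT.lf (nat_lit 0) (nat_lit 837056165006) (nat_lit 76) (nat_lit 3295056353416) (nat_lit 76) (nat_lit 3295056353416)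 (nat_lit 1) (nat_lit 4) (nat_lit 2) (nat_lit 5) (nat_lit 2) (nat_lit 4) (nat_lit 370) (nat_lit 265) (nat_lit 265)) (XT.nd (nat_lit 78) (nat_lit 0) (nat_lit 0) (XT.lf (nat_lit 0) (nat_lit 1925955687354) (nat_lit 76) (nat_lit 7578243229899) (nat_lit 76) (nat_lit 7578237412469) (nat_lit 1) (nat_lit 4) (nat_lit 2) (nat_lit 5) (nat_lit 2) (nat_lit 4) (nat_lit 371) (nat_lit 265) (nat_lit 264)) (XT.lf (nat_lit 0) (nat_lit 2215513809486) (nat_lit 76) (nat_lit 8714625597818) (nat_lit 76) (nat_lit 8714614721754) (nat_lit 1) (nat_lit 4) (nat_lit 2) (nat_lit 5) (nat_lit 2) (nat_lit 4) (nat_lit 372) (nat_lit 265) (nat_lit 263))))) (XT.nd (nat_lit 234) (nat_lit 0) (nat_lit 0) (XT.nd (nat_lit 78) (nat_lit 0) (nat_lit 0) (XT.lf (nat_lit 0) (nat_lit 2548451964019) (nat_lit 76) (nat_lit 10021493378660) (nat_lit 76) (nat_lit 10021478103783) (nat_lit 1) (nat_lit 4) (nat_lit 2) (nat_lit 5) (nat_lit 2) (nat_lit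 4) (nat_lit 373) (nat_lit 265) (nat_lit 262)) (XT.nd (nat_lit 78) (nat_lit 0) (nat_lit 0) (XT.lf (nat_lit 0) (nat_lit 2931284158322) (nat_lit 76) (nat_lit 11524415724657) (nat_lit 76) (nat_lit 11524396624725) (nat_lit 1) (nat_lit 4) (nat_lit 2) (nat_lit 5) (nat_lit 2) (nat_lit 4) (nat_lit 374) (nat_lit 265) (nat_lit 261)) (XT.lf (nat_lit 0) (nat_lit 3371500587503) (nat_lit 76) (nat_lit 13252797638231) (nat_lit 76) (nat_lit 13252775212165) (nat_lit 1) (nat_lit 4) (nat_lit 2) (nat_lit 5) (nat_lit 2) (nat_lit 4) (nat_lit 375) (nat_lit 265) (nat_lit 260)))) (XT.nd (nat_lit 78) (nat_lit 0) (nat_lit 0) (XT.lf (nat_lit 0) (nat_lit 3877714181696) (nat_lit 76) (nat_lit 15240455287257) (nat_lit 76) (nat_lit 15240429968900) (nat_lit 1) (nat_lit 4) (nat_lit 2) (nat_lit 5) (nat_lit 2) (nat_lit 4) (nat_lit 376) (nat_lit 265) (nat_lit 259)) (XT.nd (nat_lit 78) (nat_lit 0) (nat_lit 0) (XT.lf (nat_lit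 0) (nat_lit 4459829119919) (nat_lit 76) (nat_lit 17526277625737) (nat_lit 76) (nat_lit 17526249792345) (nat_lit 1) (nat_lit 4) (nat_lit 2) (nat_lit 5) (nat_lit 2) (nat_lit 4) (nat_lit 377) (nat_lit 265) (nat_lit 258)) (XT.lf (nat_lit 0) (nat_lit 5129234607485) (nat_lit 76) (nat_lit 20154987264642) (nat_lit 76) (nat_lit 20154957244263) (nat_lit 1) (nat_lit 4) (nat_lit 2) (nat_lit 5) (nat_lit 2) (nat_lit 4) (nat_lit 378) (nat_lit 265) (nat_lit 257)))))) (XT.nd (nat_lit 390) (nat_lit 0) (nat_lit 0) (XT.nd (nat_lit 156) (nat_lit 0) (nat_lit 0) (XT.nd (nat_lit 78) (nat_lit 0) (nat_lit 0) (XT.lf (nat_lit 0) (nat_lit 5899027708280) (nat_lit 76) (nat_lit 23178015479516) (nat_lit 76) (nat_lit 23177983557408) (nat_lit 1) (nat_lit 4) (nat_lit 2) (nat_lit 5) (nat_lit 2) (nat_lit 4) (nat_lit 379) (nat_lit 265) (nat_lit 256)) (XT.lf (nat_lit 0) (nat_lit 6784269591670) (nat_lit 76) (nat_lit 26654508474561)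 (nat_lit 76) (nat_lit 26654474898777) (nat_lit 1) (nat_lit 4) (nat_lit 2) (nat_lit 5) (nat_lit 2) (nat_lit 4) (nat_lit 380) (nat_lit 265) (nat_lit 255))) (XT.nd (nat_lit 78) (nat_lit 0) (nat_lit 0) (XT.lf (nat_lit 0) (nat_lit 7802280207545) (nat_lit 76) (nat_lit 30652484590987) (nat_lit 76) (nat_lit 30652449577223) (nat_lit 1) (nat_lit 4) (nat_lit 2) (nat_lit 5) (nat_lit 2) (nat_lit 4) (nat_lit 381) (nat_lit 265) (nat_lit 254)) (XT.nd (nat_lit 78) (nat_lit 0) (nat_lit 0) (XT.lf (nat_lit 0) (nat_lit 8972977154912) (nat_lit 76) (nat_lit 35250165100635) (nat_lit 76) (nat_lit 35250128836455) (nat_lit 1) (nat_lit 4) (nat_lit 2) (nat_lit 5) (nat_lit 2) (nat_lit 4) (nat_lit 382) (nat_lit 265) (nat_lit 253)) (XT.lf (nat_lit 0) (nat_lit 10319265374045) (nat_lit 76) (nat_lit 40537504622174) (nat_lit 76) (nat_lit 40537467270674) (nat_lit 1) (nat_lit 4) (nat_lit 2) (nat_lit 5) (nat_lit 2) (nat_lit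 4) (nat_lit 383) (nat_lit 265) (nat_lit 252))))) (XT.nd (nat_lit 234) (nat_lit 0) (nat_lit 0) (XT.nd (nat_lit 78) (nat_lit 0) (nat_lit 0) (XT.lf (nat_lit 0) (nat_lit 11867485286624) (nat_lit 76) (nat_lit 46617951102763) (nat_lit 76) (nat_lit 46617912805768) (nat_lit 1) (nat_lit 4) (nat_lit 2) (nat_lit 5) (nat_lit 2) (nat_lit 4) (nat_lit 384) (nat_lit 265) (nat_lit 251)) (XT.nd (nat_lit 78) (nat_lit 0) (nat_lit 0) (XT.lf (nat_lit 0) (nat_lit 13647928151808) (nat_lit 76) (nat_lit 53610469799631) (nat_lit 76) (nat_lit 53610430680467) (nat_lit 1) (nat_lit 4) (nat_lit 2) (nat_lit 5) (nat_lit 2) (nat_lit 4) (nat_lit 385) (nat_lit 265) (nat_lit 250)) (XT.lf (nat_lit 0) (nat_lit 15695428721306) (nat_lit 76) (nat_lit 61651870861196) (nat_lit 76) (nat_lit 61651831027102) (nat_lit 1) (nat_lit 4) (nat_lit 2) (nat_lit 5) (nat_lit 2) (nat_lit 4) (nat_lit 386) (nat_lit 265) (nat_lit 249)))) (XT.nd (nat_lit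 45396) (nat_lit 0) (nat_lit 0) (XT.lf (nat_lit 0) (nat_lit 18050046788870) (nat_lit 76) (nat_lit 70899486047358) (nat_lit 76) (nat_lit 70899445591585) (nat_lit 1) (nat_lit 4) (nat_lit 2) (nat_lit 5) (nat_lit 2) (nat_lit 4) (nat_lit 387) (nat_lit 265) (nat_lit 248)) (XT.nd (nat_lit 78) (nat_lit 0) (nat_lit 0) (XT.lf (nat_lit 0) (nat_lit 632269949311) (nat_lit 76) (nat_lit 2491892204597) (nat_lit 76) (nat_lit 2491892204597) (nat_lit 1) (nat_lit 4) (nat_lit 2) (nat_lit 5) (nat_lit 2) (nat_lit 4) (nat_lit 368) (nat_lit 266) (nat_lit 266)) (XT.lf (nat_lit 0) (nat_lit 1455056367431) (nat_lit 76) (nat_lit 5730907730170) (nat_lit 76) (nat_lit 5730901040126) (nat_lit 1) (nat_lit 4) (nat_lit 2) (nat_lit 5) (nat_lit 2) (nat_lit 4) (nat_lit 369) (nat_lit 266) (nat_lit 265))))))) (XT.nd (nat_lit 858) (nat_lit 0) (nat_lit 0) (XT.nd (nat_lit 390) (nat_lit 0) (nat_lit 0) (XT.nd (nat_lit 156) (nat_lit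 0) (nat_lit 0) (XT.nd (nat_lit 78) (nat_lit 0) (nat_lit 0) (XT.lf (nat_lit 0) (nat_lit 1674079306930) (nat_lit 76) (nat_lit 6590136655646) (nat_lit 76) (nat_lit 6590124148172) (nat_lit 1) (nat_lit 4) (nat_lit 2) (nat_lit 5) (nat_lit 2) (nat_lit 4) (nat_lit 370) (nat_lit 266) (nat_lit 264)) (XT.lf (nat_lit 0) (nat_lit 1925893948545) (nat_lit 76) (nat_lit 7578282186337) (nat_lit 76) (nat_lit 7578264620228) (nat_lit 1) (nat_lit 4) (nat_lit 2) (nat_lit 5) (nat_lit 2) (nat_lit 4) (nat_lit 371) (nat_lit 266) (nat_lit 263))) (XT.nd (nat_lit 78) (nat_lit 0) (nat_lit 0) (XT.lf (nat_lit 0) (nat_lit 2215427100483) (nat_lit 76) (nat_lit 8714677604365) (nat_lit 76) (nat_lit 8714655639444) (nat_lit 1) (nat_lit 4) (nat_lit 2) (nat_lit 5) (nat_lit 2) (nat_lit 4) (nat_lit 372) (nat_lit 266) (nat_lit 262)) (XT.nd (nat_lit 78) (nat_lit 0) (nat_lit 0) (XT.lf (nat_lit 0) (nat_lit 2548343541802) (nat_lit 76)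 (nat_lit 10021556733127) (nat_lit 76) (nat_lit 10021530943151) (nat_lit 1) (nat_lit 4) (nat_lit 2) (nat_lit 5) (nat_lit 2) (nat_lit 4) (nat_lit 373) (nat_lit 266) (nat_lit 261)) (XT.lf (nat_lit 0) (nat_lit 2931156855050) (nat_lit 76) (nat_lit 11524488946881) (nat_lit 76) (nat_lit 11524459830771) (nat_lit 1) (nat_lit 4) (nat_lit 2) (nat_lit 5) (nat_lit 2) (nat_lit 4) (nat_lit 374) (nat_lit 266) (nat_lit 260))))) (XT.nd (nat_lit 234) (nat_lit 0) (nat_lit 0) (XT.nd (nat_lit 78) (nat_lit 0) (nat_lit 0) (XT.lf (nat_lit 0) (nat_lit 3371356865921) (nat_lit 76) (nat_lit 13252879441114) (nat_lit 76) (nat_lit 13252847432713) (nat_lit 1) (nat_lit 4) (nat_lit 2) (nat_lit 5) (nat_lit 2) (nat_lit 4) (nat_lit 375) (nat_lit 266) (nat_lit 259)) (XT.nd (nat_lit 78) (nat_lit 0) (nat_lit 0) (XT.lf (nat_lit 0) (nat_lit 3877556183324) (nat_lit 76) (nat_lit 15240544551582) (nat_lit 76) (nat_lit 15240510028146)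 (nat_lit 1) (nat_lit 4) (nat_lit 2) (nat_lit 5) (nat_lit 2) (nat_lit 4) (nat_lit 376) (nat_lit 266) (nat_lit 258)) (XT.lf (nat_lit 0) (nat_lit 4459658706947) (nat_lit 76) (nat_lit 17526373378273) (nat_lit 76) (nat_lit 17526336667849) (nat_lit 1) (nat_lit 4) (nat_lit 2) (nat_lit 5) (nat_lit 2) (nat_lit 4) (nat_lit 377) (nat_lit 266) (nat_lit 257)))) (XT.nd (nat_lit 78) (nat_lit 0) (nat_lit 0) (XT.lf (nat_lit 0) (nat_lit 5129053399208) (nat_lit 76) (nat_lit 20155088659100) (nat_lit 76) (nat_lit 20155050046948) (nat_lit 1) (nat_lit 4) (nat_lit 2) (nat_lit 5) (nat_lit 2) (nat_lit 4) (nat_lit 378) (nat_lit 266) (nat_lit 256)) (XT.nd (nat_lit 78) (nat_lit 0) (nat_lit 0) (XT.lf (nat_lit 0) (nat_lit 5898837112782) (nat_lit 76) (nat_lit 23178121779993) (nat_lit 76) (nat_lit 23178081514164) (nat_lit 1) (nat_lit 4) (nat_lit 2) (nat_lit 5) (nat_lit 2) (nat_lit 4) (nat_lit 379) (nat_lit 266) (nat_lit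 255)) (XT.lf (nat_lit 0) (nat_lit 6784070833370) (nat_lit 76) (nat_lit 26654619041142) (nat_lit 76) (nat_lit 26654577337334) (nat_lit 1) (nat_lit 4) (nat_lit 2) (nat_lit 5) (nat_lit 2) (nat_lit 4) (nat_lit 380) (nat_lit 266) (nat_lit 254)))))) (XT.nd (nat_lit 390) (nat_lit 0) (nat_lit 0) (XT.nd (nat_lit 156) (nat_lit 0) (nat_lit 0) (XT.nd (nat_lit 78) (nat_lit 0) (nat_lit 0) (XT.lf (nat_lit 0) (nat_lit 7802074351157) (nat_lit 76) (nat_lit 30652598867223) (nat_lit 76) (nat_lit 30652555912998) (nat_lit 1) (nat_lit 4) (nat_lit 2) (nat_lit 5) (nat_lit 2) (nat_lit 4) (nat_lit 381) (nat_lit 266) (nat_lit 253)) (XT.lf (nat_lit 0) (nat_lit 8972765126274) (nat_lit 76) (nat_lit 35250282602659) (nat_lit 76) (nat_lit 35250238561115) (nat_lit 1) (nat_lit 4) (nat_lit 2) (nat_lit 5) (nat_lit 2) (nat_lit 4) (nat_lit 382) (nat_lit 266) (nat_lit 252))) (XT.nd (nat_lit 78) (nat_lit 0) (nat_lit 0) (XT.lf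 (nat_lit 0) (nat_lit 10319047978233) (nat_lit 76) (nat_lit 40537624929230) (nat_lit 76) (nat_lit 40537579942191) (nat_lit 1) (nat_lit 4) (nat_lit 2) (nat_lit 5) (nat_lit 2) (nat_lit 4) (nat_lit 383) (nat_lit 266) (nat_lit 251)) (XT.nd (nat_lit 78) (nat_lit 0) (nat_lit 0) (XT.lf (nat_lit 0) (nat_lit 11867263223704) (nat_lit 76) (nat_lit 46618073848978) (nat_lit 76) (nat_lit 46618028039769) (nat_lit 1) (nat_lit 4) (nat_lit 2) (nat_lit 5) (nat_lit 2) (nat_lit 4) (nat_lit 384) (nat_lit 266) (nat_lit 250)) (XT.lf (nat_lit 0) (nat_lit 13647702030533) (nat_lit 76) (nat_lit 53610594666854) (nat_lit 76) (nat_lit 53610548142715) (nat_lit 1) (nat_lit 4) (nat_lit 2) (nat_lit 5) (nat_lit 2) (nat_lit 4) (nat_lit 385) (nat_lit 266) (nat_lit 249))))) (XT.nd (nat_lit 45396) (nat_lit 0) (nat_lit 0) (XT.nd (nat_lit 78) (nat_lit 0) (nat_lit 0) (XT.lf (nat_lit 0) (nat_lit 15695199071027) (nat_lit 76) (nat_lit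 61651997572773) (nat_lit 76) (nat_lit 61651950426955) (nat_lit 1) (nat_lit 4) (nat_lit 2) (nat_lit 5) (nat_lit 2) (nat_lit 4) (nat_lit 386) (nat_lit 266) (nat_lit 248)) (XT.nd (nat_lit 45240) (nat_lit 0) (nat_lit 0) (XT.lf (nat_lit 0) (nat_lit 18049814069891) (nat_lit 76) (nat_lit 70899614362721) (nat_lit 76) (nat_lit 70899566676314) (nat_lit 1) (nat_lit 4) (nat_lit 2) (nat_lit 5) (nat_lit 2) (nat_lit 4) (nat_lit 387) (nat_lit 266) (nat_lit 247)) (XT.lf (nat_lit 0) (nat_lit 477322433809) (nat_lit 76) (nat_lit 1884638151104) (nat_lit 76) (nat_lit 1884638151104) (nat_lit 1) (nat_lit 4) (nat_lit 2) (nat_lit 5) (nat_lit 2) (nat_lit 4) (nat_lit 366) (nat_lit 267) (nat_lit 267)))) (XT.nd (nat_lit 78) (nat_lit 0) (nat_lit 0) (XT.lf (nat_lit 0) (nat_lit 1098802404378) (nat_lit 76) (nat_lit 4334156756076) (nat_lit 76) (nat_lit 4334149062525) (nat_lit 1) (nat_lit 4) (nat_lit 2) (nat_lit 5) (nat_lit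 2) (nat_lit 4) (nat_lit 367) (nat_lit 267) (nat_lit 266)) (XT.nd (nat_lit 78) (nat_lit 0) (nat_lit 0) (XT.lf (nat_lit 0) (nat_lit 1264501922077) (nat_lit 76) (nat_lit 4983811950329) (nat_lit 76) (nat_lit 4983797566734) (nat_lit 1) (nat_lit 4) (nat_lit 2) (nat_lit 5) (nat_lit 2) (nat_lit 4) (nat_lit 368) (nat_lit 267) (nat_lit 265)) (XT.lf (nat_lit 0) (nat_lit 1454985367801) (nat_lit 76) (nat_lit 5730952530074) (nat_lit 76) (nat_lit 5730932329049) (nat_lit 1) (nat_lit 4) (nat_lit 2) (nat_lit 5) (nat_lit 2) (nat_lit 4) (nat_lit 369) (nat_lit 267) (nat_lit 264))))))))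
noncomputable def xc4 : XT := (XT.nd (nat_lit 46410) (nat_lit 0) (nat_lit 0) (XT.nd (nat_lit 780) (nat_lit 0) (nat_lit 0) (XT.nd (nat_lit 390) (nat_lit 0) (nat_lit 0) (XT.nd (nat_lit 156) (nat_lit 0) (nat_lit 0) (XT.nd (nat_lit 78) (nat_lit 0) (nat_lit 0) (XT.lf (nat_lit 0) (nat_lit 1673979591575) (nat_lit 76) (nat_lit 6590196463175) (nat_lit 76) (nat_lit 6590171203516) (nat_lit 1) (nat_lit 4) (nat_lit 2) (nat_lit 5) (nat_lit 2) (nat_lit 4) (nat_lit 370) (nat_lit 267) (nat_lit 263)) (XT.lf (nat_lit 0) (nat_lit 1925769262995) (nat_lit 76) (nat_lit 7578355043975) (nat_lit 76) (nat_lit 7578325385502) (nat_lit 1) (nat_lit 4) (nat_lit 2) (nat_lit 5) (nat_lit 2) (nat_lit 4) (nat_lit 371) (nat_lit 267) (nat_lit 262))) (XT.nd (nat_lit 78) (nat_lit 0) (nat_lit 0) (XT.lf (nat_lit 0) (nat_lit 2215280701719) (nat_lit 76) (nat_lit 8714761809924) (nat_lit 76) (nat_lit 8714728326397) (nat_lit 1) (nat_lit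 4) (nat_lit 2) (nat_lit 5) (nat_lit 2) (nat_lit 4) (nat_lit 372) (nat_lit 267) (nat_lit 261)) (XT.nd (nat_lit 78) (nat_lit 0) (nat_lit 0) (XT.lf (nat_lit 0) (nat_lit 2548178261983) (nat_lit 76) (nat_lit 10021650806443) (nat_lit 76) (nat_lit 10021613996782) (nat_lit 1) (nat_lit 4) (nat_lit 2) (nat_lit 5) (nat_lit 2) (nat_lit 4) (nat_lit 373) (nat_lit 267) (nat_lit 260)) (XT.lf (nat_lit 0) (nat_lit 2930975156922) (nat_lit 76) (nat_lit 11524591600855) (nat_lit 76) (nat_lit 11524551898904) (nat_lit 1) (nat_lit 4) (nat_lit 2) (nat_lit 5) (nat_lit 2) (nat_lit 4) (nat_lit 374) (nat_lit 267) (nat_lit 259))))) (XT.nd (nat_lit 156) (nat_lit 0) (nat_lit 0) (XT.nd (nat_lit 78) (nat_lit 0) (nat_lit 0) (XT.lf (nat_lit 0) (nat_lit 3371160891003) (nat_lit 76) (nat_lit 13252989556530) (nat_lit 76) (nat_lit 13252947339543) (nat_lit 1) (nat_lit 4) (nat_lit 2) (nat_lit 5) (nat_lit 2) (nat_lit 4) (nat_lit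 375) (nat_lit 267) (nat_lit 258)) (XT.lf (nat_lit 0) (nat_lit 3877347793806) (nat_lit 76) (nat_lit 15240661155209) (nat_lit 76) (nat_lit 15240616751234) (nat_lit 1) (nat_lit 4) (nat_lit 2) (nat_lit 5) (nat_lit 2) (nat_lit 4) (nat_lit 376) (nat_lit 267) (nat_lit 257))) (XT.nd (nat_lit 78) (nat_lit 0) (nat_lit 0) (XT.lf (nat_lit 0) (nat_lit 4459439522124) (nat_lit 76) (nat_lit 17526495623822) (nat_lit 76) (nat_lit 17526449318119) (nat_lit 1) (nat_lit 4) (nat_lit 2) (nat_lit 5) (nat_lit 2) (nat_lit 4) (nat_lit 377) (nat_lit 267) (nat_lit 256)) (XT.nd (nat_lit 78) (nat_lit 0) (nat_lit 0) (XT.lf (nat_lit 0) (nat_lit 5128824827164) (nat_lit 76) (nat_lit 20155215810668) (nat_lit 76) (nat_lit 20155167851289) (nat_lit 1) (nat_lit 4) (nat_lit 2) (nat_lit 5) (nat_lit 2) (nat_lit 4) (nat_lit 378) (nat_lit 267) (nat_lit 255)) (XT.lf (nat_lit 0) (nat_lit 5898600377937) (nat_lit 76) (nat_lit 23178253197664)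 (nat_lit 76) (nat_lit 23178203800305) (nat_lit 1) (nat_lit 4) (nat_lit 2) (nat_lit 5) (nat_lit 2) (nat_lit 4) (nat_lit 379) (nat_lit 267) (nat_lit 254)))))) (XT.nd (nat_lit 390) (nat_lit 0) (nat_lit 0) (XT.nd (nat_lit 156) (nat_lit 0) (nat_lit 0) (XT.nd (nat_lit 78) (nat_lit 0) (nat_lit 0) (XT.lf (nat_lit 0) (nat_lit 6783827000437) (nat_lit 76) (nat_lit 26654754168469) (nat_lit 76) (nat_lit 26654703520693) (nat_lit 1) (nat_lit 4) (nat_lit 2) (nat_lit 5) (nat_lit 2) (nat_lit 4) (nat_lit 380) (nat_lit 267) (nat_lit 253)) (XT.lf (nat_lit 0) (nat_lit 7801824345974) (nat_lit 76) (nat_lit 30652737220337) (nat_lit 76) (nat_lit 30652685485242) (nat_lit 1) (nat_lit 4) (nat_lit 2) (nat_lit 5) (nat_lit 2) (nat_lit 4) (nat_lit 381) (nat_lit 267) (nat_lit 252))) (XT.nd (nat_lit 78) (nat_lit 0) (nat_lit 0) (XT.lf (nat_lit 0) (nat_lit 8972509753916) (nat_lit 76) (nat_lit 35250423760806) (nat_lit 76)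 (nat_lit 35250371080216) (nat_lit 1) (nat_lit 4) (nat_lit 2) (nat_lit 5) (nat_lit 2) (nat_lit 4) (nat_lit 382) (nat_lit 267) (nat_lit 251)) (XT.nd (nat_lit 78) (nat_lit 0) (nat_lit 0) (XT.lf (nat_lit 0) (nat_lit 10318787938767) (nat_lit 76) (nat_lit 40537768526535) (nat_lit 76) (nat_lit 40537715023776) (nat_lit 1) (nat_lit 4) (nat_lit 2) (nat_lit 5) (nat_lit 2) (nat_lit 4) (nat_lit 383) (nat_lit 267) (nat_lit 250)) (XT.lf (nat_lit 0) (nat_lit 11866999125883) (nat_lit 76) (nat_lit 46618219567290) (nat_lit 76) (nat_lit 46618165349601) (nat_lit 1) (nat_lit 4) (nat_lit 2) (nat_lit 5) (nat_lit 2) (nat_lit 4) (nat_lit 384) (nat_lit 267) (nat_lit 249))))) (XT.nd (nat_lit 234) (nat_lit 0) (nat_lit 0) (XT.nd (nat_lit 78) (nat_lit 0) (nat_lit 0) (XT.lf (nat_lit 0) (nat_lit 13647434403708) (nat_lit 76) (nat_lit 53610742229521) (nat_lit 76) (nat_lit 53610687390153) (nat_lit 1) (nat_lit 4) (nat_lit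 2) (nat_lit 5) (nat_lit 2) (nat_lit 4) (nat_lit 385) (nat_lit 267) (nat_lit 248)) (XT.nd (nat_lit 78) (nat_lit 0) (nat_lit 0) (XT.lf (nat_lit 0) (nat_lit 15694928375502) (nat_lit 76) (nat_lit 61652146739226) (nat_lit 76) (nat_lit 61652091359268) (nat_lit 1) (nat_lit 4) (nat_lit 2) (nat_lit 5) (nat_lit 2) (nat_lit 4) (nat_lit 386) (nat_lit 267) (nat_lit 247)) (XT.lf (nat_lit 0) (nat_lit 18049540705933) (nat_lit 76) (nat_lit 70899764923771) (nat_lit 76) (nat_lit 70899709073735) (nat_lit 1) (nat_lit 4) (nat_lit 2) (nat_lit 5) (nat_lit 2) (nat_lit 4) (nat_lit 387) (nat_lit 267) (nat_lit 246)))) (XT.nd (nat_lit 78) (nat_lit 0) (nat_lit 0) (XT.lf (nat_lit 0) (nat_lit 20757339897116) (nat_lit 76) (nat_lit 81534528443287) (nat_lit 76) (nat_lit 81534472184488) (nat_lit 1) (nat_lit 4) (nat_lit 2) (nat_lit 5) (nat_lit 2) (nat_lit 4) (nat_lit 388) (nat_lit 267) (nat_lit 245)) (XT.nd (nat_lit 78)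 (nat_lit 0) (nat_lit 0) (XT.lf (nat_lit 0) (nat_lit 23871304628879) (nat_lit 76) (nat_lit 93764508757940) (nat_lit 76) (nat_lit 93764452143693) (nat_lit 1) (nat_lit 4) (nat_lit 2) (nat_lit 5) (nat_lit 2) (nat_lit 4) (nat_lit 389) (nat_lit 267) (nat_lit 244)) (XT.lf (nat_lit 0) (nat_lit 27452360298148) (nat_lit 76) (nat_lit 107828988091275) (nat_lit 76) (nat_lit 107828931167945) (nat_lit 1) (nat_lit 4) (nat_lit 2) (nat_lit 5) (nat_lit 2) (nat_lit 4) (nat_lit 390) (nat_lit 267) (nat_lit 243))))))) (XT.nd (nat_lit 858) (nat_lit 0) (nat_lit 0) (XT.nd (nat_lit 390) (nat_lit 0) (nat_lit 0) (XT.nd (nat_lit 156) (nat_lit 0) (nat_lit 0) (XT.nd (nat_lit 78) (nat_lit 0) (nat_lit 0) (XT.lf (nat_lit 0) (nat_lit 360045178542) (nat_lit 76) (nat_lit 1425528290266) (nat_lit 76) (nat_lit 1425528290266) (nat_lit 1) (nat_lit 4) (nat_lit 2) (nat_lit 5) (nat_lit 2) (nat_lit 4) (nat_lit 364) (nat_lit 268) (nat_lit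 268)) (XT.lf (nat_lit 0) (nat_lit 829208838255) (nat_lit 76) (nat_lit 3278127427430) (nat_lit 76) (nat_lit 3278118579846) (nat_lit 1) (nat_lit 4) (nat_lit 2) (nat_lit 5) (nat_lit 2) (nat_lit 4) (nat_lit 365) (nat_lit 268) (nat_lit 267))) (XT.nd (nat_lit 78) (nat_lit 0) (nat_lit 0) (XT.lf (nat_lit 0) (nat_lit 954601194591) (nat_lit 76) (nat_lit 3769307974513) (nat_lit 76) (nat_lit 3769291433379) (nat_lit 1) (nat_lit 4) (nat_lit 2) (nat_lit 5) (nat_lit 2) (nat_lit 4) (nat_lit 366) (nat_lit 268) (nat_lit 266)) (XT.nd (nat_lit 78) (nat_lit 0) (nat_lit 0) (XT.lf (nat_lit 0) (nat_lit 1098720754804) (nat_lit 76) (nat_lit 4334208275965) (nat_lit 76) (nat_lit 4334185044786) (nat_lit 1) (nat_lit 4) (nat_lit 2) (nat_lit 5) (nat_lit 2) (nat_lit 4) (nat_lit 367) (nat_lit 268) (nat_lit 265)) (XT.lf (nat_lit 0) (nat_lit 1264387249420) (nat_lit 76) (nat_lit 4983880728988) (nat_lit 76) (nat_lit 4983851680379)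 (nat_lit 1) (nat_lit 4) (nat_lit 2) (nat_lit 5) (nat_lit 2) (nat_lit 4) (nat_lit 368) (nat_lit 268) (nat_lit 264))))) (XT.nd (nat_lit 234) (nat_lit 0) (nat_lit 0) (XT.nd (nat_lit 78) (nat_lit 0) (nat_lit 0) (XT.lf (nat_lit 0) (nat_lit 1454841979419) (nat_lit 76) (nat_lit 5731036316358) (nat_lit 76) (nat_lit 5731002209115) (nat_lit 1) (nat_lit 4) (nat_lit 2) (nat_lit 5) (nat_lit 2) (nat_lit 4) (nat_lit 369) (nat_lit 268) (nat_lit 263)) (XT.nd (nat_lit 78) (nat_lit 0) (nat_lit 0) (XT.lf (nat_lit 0) (nat_lit 1673811232997) (nat_lit 76) (nat_lit 6590293299567) (nat_lit 76) (nat_lit 6590254793512) (nat_lit 1) (nat_lit 4) (nat_lit 2) (nat_lit 5) (nat_lit 2) (nat_lit 4) (nat_lit 370) (nat_lit 268) (nat_lit 262)) (XT.lf (nat_lit 0) (nat_lit 1925579191204) (nat_lit 76) (nat_lit 7578463228288) (nat_lit 76) (nat_lit 7578420897177) (nat_lit 1) (nat_lit 4) (nat_lit 2) (nat_lit 5) (nat_lit 2) (nat_lit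 4) (nat_lit 371) (nat_lit 268) (nat_lit 261)))) (XT.nd (nat_lit 78) (nat_lit 0) (nat_lit 0) (XT.lf (nat_lit 0) (nat_lit 2215071748872) (nat_lit 76) (nat_lit 8714879861994) (nat_lit 76) (nat_lit 8714834204749) (nat_lit 1) (nat_lit 4) (nat_lit 2) (nat_lit 5) (nat_lit 2) (nat_lit 4) (nat_lit 372) (nat_lit 268) (nat_lit 260)) (XT.nd (nat_lit 78) (nat_lit 0) (nat_lit 0) (XT.lf (nat_lit 0) (nat_lit 2547952890827) (nat_lit 76) (nat_lit 10021777439171) (nat_lit 76) (nat_lit 10021728889636) (nat_lit 1) (nat_lit 4) (nat_lit 2) (nat_lit 5) (nat_lit 2) (nat_lit 4) (nat_lit 373) (nat_lit 268) (nat_lit 259)) (XT.lf (nat_lit 0) (nat_lit 2930735508976) (nat_lit 76) (nat_lit 11524725695026) (nat_lit 76) (nat_lit 11524674630455) (nat_lit 1) (nat_lit 4) (nat_lit 2) (nat_lit 5) (nat_lit 2) (nat_lit 4) (nat_lit 374) (nat_lit 268) (nat_lit 258)))))) (XT.nd (nat_lit 390) (nat_lit 0) (nat_lit 0) (XT.nd (nat_lit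 156) (nat_lit 0) (nat_lit 0) (XT.nd (nat_lit 78) (nat_lit 0) (nat_lit 0) (XT.lf (nat_lit 0) (nat_lit 3370908828457) (nat_lit 76) (nat_lit 13253130138911) (nat_lit 76) (nat_lit 13253076887353) (nat_lit 1) (nat_lit 4) (nat_lit 2) (nat_lit 5) (nat_lit 2) (nat_lit 4) (nat_lit 375) (nat_lit 268) (nat_lit 257)) (XT.lf (nat_lit 0) (nat_lit 3877084935955) (nat_lit 76) (nat_lit 15240807379512) (nat_lit 76) (nat_lit 15240752226226) (nat_lit 1) (nat_lit 4) (nat_lit 2) (nat_lit 5) (nat_lit 2) (nat_lit 4) (nat_lit 376) (nat_lit 268) (nat_lit 256))) (XT.nd (nat_lit 78) (nat_lit 0) (nat_lit 0) (XT.lf (nat_lit 0) (nat_lit 4459167277052) (nat_lit 76) (nat_lit 17526646754144) (nat_lit 76) (nat_lit 17526589947181) (nat_lit 1) (nat_lit 4) (nat_lit 2) (nat_lit 5) (nat_lit 2) (nat_lit 4) (nat_lit 377) (nat_lit 268) (nat_lit 255)) (XT.nd (nat_lit 78) (nat_lit 0) (nat_lit 0) (XT.lf (nat_lit 0) (nat_lit 5128544419291)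 (nat_lit 76) (nat_lit 20155371207094) (nat_lit 76) (nat_lit 20155312962152) (nat_lit 1) (nat_lit 4) (nat_lit 2) (nat_lit 5) (nat_lit 2) (nat_lit 4) (nat_lit 378) (nat_lit 268) (nat_lit 254)) (XT.lf (nat_lit 0) (nat_lit 5898312871976) (nat_lit 76) (nat_lit 23178412303746) (nat_lit 76) (nat_lit 23178352808386) (nat_lit 1) (nat_lit 4) (nat_lit 2) (nat_lit 5) (nat_lit 2) (nat_lit 4) (nat_lit 379) (nat_lit 268) (nat_lit 253))))) (XT.nd (nat_lit 234) (nat_lit 0) (nat_lit 0) (XT.nd (nat_lit 78) (nat_lit 0) (nat_lit 0) (XT.lf (nat_lit 0) (nat_lit 6783533322225) (nat_lit 76) (nat_lit 26654916500338) (nat_lit 76) (nat_lit 26654855917659) (nat_lit 1) (nat_lit 4) (nat_lit 2) (nat_lit 5) (nat_lit 2) (nat_lit 4) (nat_lit 380) (nat_lit 268) (nat_lit 252)) (XT.nd (nat_lit 78) (nat_lit 0) (nat_lit 0) (XT.lf (nat_lit 0) (nat_lit 7801525300588) (nat_lit 76) (nat_lit 30652902357239) (nat_lit 76) (nat_lit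 30652840829065) (nat_lit 1) (nat_lit 4) (nat_lit 2) (nat_lit 5) (nat_lit 2) (nat_lit 4) (nat_lit 381) (nat_lit 268) (nat_lit 251)) (XT.lf (nat_lit 0) (nat_lit 8972206041422) (nat_lit 76) (nat_lit 35250591336866) (nat_lit 76) (nat_lit 35250528986522) (nat_lit 1) (nat_lit 4) (nat_lit 2) (nat_lit 5) (nat_lit 2) (nat_lit 4) (nat_lit 382) (nat_lit 268) (nat_lit 250)))) (XT.nd (nat_lit 78) (nat_lit 0) (nat_lit 0) (XT.lf (nat_lit 0) (nat_lit 10318480167918) (nat_lit 76) (nat_lit 40537938223603) (nat_lit 76) (nat_lit 40537875158329) (nat_lit 1) (nat_lit 4) (nat_lit 2) (nat_lit 5) (nat_lit 2) (nat_lit 4) (nat_lit 383) (nat_lit 268) (nat_lit 249)) (XT.nd (nat_lit 78) (nat_lit 0) (nat_lit 0) (XT.lf (nat_lit 0) (nat_lit 11866687826030) (nat_lit 76) (nat_lit 46618391108712) (nat_lit 76) (nat_lit 46618327421761) (nat_lit 1) (nat_lit 4) (nat_lit 2) (nat_lit 5) (nat_lit 2) (nat_lit 4) (nat_lit 384) (nat_lit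 268) (nat_lit 248)) (XT.lf (nat_lit 0) (nat_lit 13647120035155) (nat_lit 76) (nat_lit 53610915374729) (nat_lit 76) (nat_lit 53610851147188) (nat_lit 1) (nat_lit 4) (nat_lit 2) (nat_lit 5) (nat_lit 2) (nat_lit 4) (nat_lit 385) (nat_lit 268) (nat_lit 247))))))))
noncomputable def xc5 : XT := (XT.nd (nat_lit 46332) (nat_lit 0) (nat_lit 0) (XT.nd (nat_lit 45474) (nat_lit 0) (nat_lit 0) (XT.nd (nat_lit 45006) (nat_lit 0) (nat_lit 0) (XT.nd (nat_lit 156) (nat_lit 0) (nat_lit 0) (XT.nd (nat_lit 78) (nat_lit 0) (nat_lit 0) (XT.lf (nat_lit 0) (nat_lit 15694611338516) (nat_lit 76) (nat_lit 61652321279031) (nat_lit 76) (nat_lit 61652256581412) (nat_lit 1) (nat_lit 4) (nat_lit 2) (nat_lit 5) (nat_lit 2) (nat_lit 4) (nat_lit 386) (nat_lit 268) (nat_lit 246)) (XT.lf (nat_lit 0) (nat_lit 18049221348568) (nat_lit 76) (nat_lit 70899940676269) (nat_lit 76) (nat_lit 70899875569886) (nat_lit 1) (nat_lit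 4) (nat_lit 2) (nat_lit 5) (nat_lit 2) (nat_lit 4) (nat_lit 387) (nat_lit 268) (nat_lit 245))) (XT.nd (nat_lit 78) (nat_lit 0) (nat_lit 0) (XT.lf (nat_lit 0) (nat_lit 20757018522032) (nat_lit 76) (nat_lit 81534705250301) (nat_lit 76) (nat_lit 81534639788471) (nat_lit 1) (nat_lit 4) (nat_lit 2) (nat_lit 5) (nat_lit 2) (nat_lit 4) (nat_lit 388) (nat_lit 268) (nat_lit 244)) (XT.nd (nat_lit 78) (nat_lit 0) (nat_lit 0) (XT.lf (nat_lit 0) (nat_lit 23870981499256) (nat_lit 76) (nat_lit 93764686481923) (nat_lit 76) (nat_lit 93764620711010) (nat_lit 1) (nat_lit 4) (nat_lit 2) (nat_lit 5) (nat_lit 2) (nat_lit 4) (nat_lit 389) (nat_lit 268) (nat_lit 243)) (XT.lf (nat_lit 0) (nat_lit 27452035642840) (nat_lit 76) (nat_lit 107829166612624) (nat_lit 76) (nat_lit 107829100572942) (nat_lit 1) (nat_lit 4) (nat_lit 2) (nat_lit 5) (nat_lit 2) (nat_lit 4) (nat_lit 390) (nat_lit 268) (nat_lit 242))))) (XT.nd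 (nat_lit 234) (nat_lit 0) (nat_lit 0) (XT.nd (nat_lit 78) (nat_lit 0) (nat_lit 0) (XT.lf (nat_lit 0) (nat_lit 271234851097) (nat_lit 76) (nat_lit 1078445939475) (nat_lit 76) (nat_lit 1078445939475) (nat_lit 1) (nat_lit 4) (nat_lit 2) (nat_lit 5) (nat_lit 2) (nat_lit 4) (nat_lit 362) (nat_lit 269) (nat_lit 269)) (XT.nd (nat_lit 78) (nat_lit 0) (nat_lit 0) (XT.lf (nat_lit 0) (nat_lit 625110824273) (nat_lit 76) (nat_lit 2479749874583) (nat_lit 76) (nat_lit 2479739699862) (nat_lit 1) (nat_lit 4) (nat_lit 2) (nat_lit 5) (nat_lit 2) (nat_lit 4) (nat_lit 363) (nat_lit 269) (nat_lit 268)) (XT.lf (nat_lit 0) (nat_lit 720040133102) (nat_lit 76) (nat_lit 2851093003684) (nat_lit 76) (nat_lit 2851073981380) (nat_lit 1) (nat_lit 4) (nat_lit 2) (nat_lit 5) (nat_lit 2) (nat_lit 4) (nat_lit 364) (nat_lit 269) (nat_lit 267)))) (XT.nd (nat_lit 78) (nat_lit 0) (nat_lit 0) (XT.lf (nat_lit 0) (nat_lit 829114941245)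 (nat_lit 76) (nat_lit 3278186675303) (nat_lit 76) (nat_lit 3278159959447) (nat_lit 1) (nat_lit 4) (nat_lit 2) (nat_lit 5) (nat_lit 2) (nat_lit 4) (nat_lit 365) (nat_lit 269) (nat_lit 266)) (XT.nd (nat_lit 78) (nat_lit 0) (nat_lit 0) (XT.lf (nat_lit 0) (nat_lit 954469321035) (nat_lit 76) (nat_lit 3769387069970) (nat_lit 76) (nat_lit 3769353664071) (nat_lit 1) (nat_lit 4) (nat_lit 2) (nat_lit 5) (nat_lit 2) (nat_lit 4) (nat_lit 366) (nat_lit 269) (nat_lit 265)) (XT.lf (nat_lit 0) (nat_lit 1098555858165) (nat_lit 76) (nat_lit 4334304630191) (nat_lit 76) (nat_lit 4334265406862) (nat_lit 1) (nat_lit 4) (nat_lit 2) (nat_lit 5) (nat_lit 2) (nat_lit 4) (nat_lit 367) (nat_lit 269) (nat_lit 264)))))) (XT.nd (nat_lit 390) (nat_lit 0) (nat_lit 0) (XT.nd (nat_lit 156) (nat_lit 0) (nat_lit 0) (XT.nd (nat_lit 78) (nat_lit 0) (nat_lit 0) (XT.lf (nat_lit 0) (nat_lit 1264193637055) (nat_lit 76) (nat_lit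 4983992090839) (nat_lit 76) (nat_lit 4983947808875) (nat_lit 1) (nat_lit 4) (nat_lit 2) (nat_lit 5) (nat_lit 2) (nat_lit 4) (nat_lit 368) (nat_lit 269) (nat_lit 263)) (XT.lf (nat_lit 0) (nat_lit 1454623396858) (nat_lit 76) (nat_lit 5731160728318) (nat_lit 76) (nat_lit 5731112047541) (nat_lit 1) (nat_lit 4) (nat_lit 2) (nat_lit 5) (nat_lit 2) (nat_lit 4) (nat_lit 369) (nat_lit 269) (nat_lit 262))) (XT.nd (nat_lit 78) (nat_lit 0) (nat_lit 0) (XT.lf (nat_lit 0) (nat_lit 1673570937224) (nat_lit 76) (nat_lit 6590429059448) (nat_lit 76) (nat_lit 6590376553617) (nat_lit 1) (nat_lit 4) (nat_lit 2) (nat_lit 5) (nat_lit 2) (nat_lit 4) (nat_lit 370) (nat_lit 269) (nat_lit 261)) (XT.nd (nat_lit 78) (nat_lit 0) (nat_lit 0) (XT.lf (nat_lit 0) (nat_lit 1925320014375) (nat_lit 76) (nat_lit 7578608855925) (nat_lit 76) (nat_lit 7578553023960) (nat_lit 1) (nat_lit 4) (nat_lit 2) (nat_lit 5) (nat_lit 2)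 (nat_lit 4) (nat_lit 371) (nat_lit 269) (nat_lit 260)) (XT.lf (nat_lit 0) (nat_lit 2214796153735) (nat_lit 76) (nat_lit 8715034070290) (nat_lit 76) (nat_lit 8714975346033) (nat_lit 1) (nat_lit 4) (nat_lit 2) (nat_lit 5) (nat_lit 2) (nat_lit 4) (nat_lit 372) (nat_lit 269) (nat_lit 259))))) (XT.nd (nat_lit 234) (nat_lit 0) (nat_lit 0) (XT.nd (nat_lit 78) (nat_lit 0) (nat_lit 0) (XT.lf (nat_lit 0) (nat_lit 2547663018899) (nat_lit 76) (nat_lit 10021939108909) (nat_lit 76) (nat_lit 10021877869618) (nat_lit 1) (nat_lit 4) (nat_lit 2) (nat_lit 5) (nat_lit 2) (nat_lit 4) (nat_lit 373) (nat_lit 269) (nat_lit 258)) (XT.nd (nat_lit 78) (nat_lit 0) (nat_lit 0) (XT.lf (nat_lit 0) (nat_lit 2930433222448) (nat_lit 76) (nat_lit 11524893852974) (nat_lit 76) (nat_lit 11524830426695) (nat_lit 1) (nat_lit 4) (nat_lit 2) (nat_lit 5) (nat_lit 2) (nat_lit 4) (nat_lit 374) (nat_lit 269) (nat_lit 257)) (XT.lf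 (nat_lit 0) (nat_lit 3370595746624) (nat_lit 76) (nat_lit 13253303938782) (nat_lit 76) (nat_lit 13253238610775) (nat_lit 1) (nat_lit 4) (nat_lit 2) (nat_lit 5) (nat_lit 2) (nat_lit 4) (nat_lit 375) (nat_lit 269) (nat_lit 256)))) (XT.nd (nat_lit 78) (nat_lit 0) (nat_lit 0) (XT.lf (nat_lit 0) (nat_lit 3876762466901) (nat_lit 76) (nat_lit 15240986085402) (nat_lit 76) (nat_lit 15240919103718) (nat_lit 1) (nat_lit 4) (nat_lit 2) (nat_lit 5) (nat_lit 2) (nat_lit 4) (nat_lit 376) (nat_lit 269) (nat_lit 255)) (XT.nd (nat_lit 78) (nat_lit 0) (nat_lit 0) (XT.lf (nat_lit 0) (nat_lit 4458836645196) (nat_lit 76) (nat_lit 17526829726138) (nat_lit 76) (nat_lit 17526761306474) (nat_lit 1) (nat_lit 4) (nat_lit 2) (nat_lit 5) (nat_lit 2) (nat_lit 4) (nat_lit 377) (nat_lit 269) (nat_lit 254)) (XT.lf (nat_lit 0) (nat_lit 5128206689347) (nat_lit 76) (nat_lit 20155557888743) (nat_lit 76) (nat_lit 20155488218663)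 (nat_lit 1) (nat_lit 4) (nat_lit 2) (nat_lit 5) (nat_lit 2) (nat_lit 4) (nat_lit 378) (nat_lit 269) (nat_lit 253))))))) (XT.nd (nat_lit 858) (nat_lit 0) (nat_lit 0) (XT.nd (nat_lit 390) (nat_lit 0) (nat_lit 0) (XT.nd (nat_lit 156) (nat_lit 0) (nat_lit 0) (XT.nd (nat_lit 78) (nat_lit 0) (nat_lit 0) (XT.lf (nat_lit 0) (nat_lit 5897968969782) (nat_lit 76) (nat_lit 23178602211182) (nat_lit 76) (nat_lit 23178531453783) (nat_lit 1) (nat_lit 4) (nat_lit 2) (nat_lit 5) (nat_lit 2) (nat_lit 4) (nat_lit 379) (nat_lit 269) (nat_lit 252)) (XT.lf (nat_lit 0) (nat_lit 6783184052857) (nat_lit 76) (nat_lit 26655109212807) (nat_lit 76) (nat_lit 26655037509912) (nat_lit 1) (nat_lit 4) (nat_lit 2) (nat_lit 5) (nat_lit 2) (nat_lit 4) (nat_lit 380) (nat_lit 269) (nat_lit 251))) (XT.nd (nat_lit 78) (nat_lit 0) (nat_lit 0) (XT.lf (nat_lit 0) (nat_lit 7801171364111) (nat_lit 76) (nat_lit 30653097508866) (nat_lit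 76) (nat_lit 30653024983802) (nat_lit 1) (nat_lit 4) (nat_lit 2) (nat_lit 5) (nat_lit 2) (nat_lit 4) (nat_lit 381) (nat_lit 269) (nat_lit 250)) (XT.nd (nat_lit 78) (nat_lit 0) (nat_lit 0) (XT.lf (nat_lit 0) (nat_lit 8971848046591) (nat_lit 76) (nat_lit 35250788609501) (nat_lit 76) (nat_lit 35250715369506) (nat_lit 1) (nat_lit 4) (nat_lit 2) (nat_lit 5) (nat_lit 2) (nat_lit 4) (nat_lit 382) (nat_lit 269) (nat_lit 249)) (XT.lf (nat_lit 0) (nat_lit 10318118644083) (nat_lit 76) (nat_lit 40538137340592) (nat_lit 76) (nat_lit 40538063478919) (nat_lit 1) (nat_lit 4) (nat_lit 2) (nat_lit 5) (nat_lit 2) (nat_lit 4) (nat_lit 383) (nat_lit 269) (nat_lit 248))))) (XT.nd (nat_lit 234) (nat_lit 0) (nat_lit 0) (XT.nd (nat_lit 78) (nat_lit 0) (nat_lit 0) (XT.lf (nat_lit 0) (nat_lit 11866323233495) (nat_lit 76) (nat_lit 46618591829488) (nat_lit 76) (nat_lit 46618517427226) (nat_lit 1) (nat_lit 4) (nat_lit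 2) (nat_lit 5) (nat_lit 2) (nat_lit 4) (nat_lit 384) (nat_lit 269) (nat_lit 247)) (XT.nd (nat_lit 78) (nat_lit 0) (nat_lit 0) (XT.lf (nat_lit 0) (nat_lit 13646752774186) (nat_lit 76) (nat_lit 53611117490101) (nat_lit 76) (nat_lit 53611042617761) (nat_lit 1) (nat_lit 4) (nat_lit 2) (nat_lit 5) (nat_lit 2) (nat_lit 4) (nat_lit 385) (nat_lit 269) (nat_lit 246)) (XT.lf (nat_lit 0) (nat_lit 15694241757169) (nat_lit 76) (nat_lit 61652524607097) (nat_lit 76) (nat_lit 61652449325993) (nat_lit 1) (nat_lit 4) (nat_lit 2) (nat_lit 5) (nat_lit 2) (nat_lit 4) (nat_lit 386) (nat_lit 269) (nat_lit 245)))) (XT.nd (nat_lit 78) (nat_lit 0) (nat_lit 0) (XT.lf (nat_lit 0) (nat_lit 18048849749502) (nat_lit 76) (nat_lit 70900145058850) (nat_lit 76) (nat_lit 70900069422300) (nat_lit 1) (nat_lit 4) (nat_lit 2) (nat_lit 5) (nat_lit 2) (nat_lit 4) (nat_lit 387) (nat_lit 269) (nat_lit 244)) (XT.nd (nat_lit 78)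 (nat_lit 0) (nat_lit 0) (XT.lf (nat_lit 0) (nat_lit 20756645168427) (nat_lit 76) (nat_lit 81534910549852) (nat_lit 76) (nat_lit 81534834604218) (nat_lit 1) (nat_lit 4) (nat_lit 2) (nat_lit 5) (nat_lit 2) (nat_lit 4) (nat_lit 388) (nat_lit 269) (nat_lit 243)) (XT.lf (nat_lit 0) (nat_lit 23870606619965) (nat_lit 76) (nat_lit 93764892578840) (nat_lit 76) (nat_lit 93764816364436) (nat_lit 1) (nat_lit 4) (nat_lit 2) (nat_lit 5) (nat_lit 2) (nat_lit 4) (nat_lit 389) (nat_lit 269) (nat_lit 242)))))) (XT.nd (nat_lit 44850) (nat_lit 0) (nat_lit 0) (XT.nd (nat_lit 44616) (nat_lit 0) (nat_lit 0) (XT.nd (nat_lit 44538) (nat_lit 0) (nat_lit 0) (XT.lf (nat_lit 0) (nat_lit 27451659436865) (nat_lit 76) (nat_lit 107829373402902) (nat_lit 76) (nat_lit 107829296954787) (nat_lit 1) (nat_lit 4) (nat_lit 2) (nat_lit 5) (nat_lit 2) (nat_lit 4) (nat_lit 390) (nat_lit 269) (nat_lit 241)) (XT.lf (nat_lit 0) (nat_lit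 203929829819) (nat_lit 76) (nat_lit 816083080429) (nat_lit 76) (nat_lit 816083080429) (nat_lit 1) (nat_lit 4) (nat_lit 2) (nat_lit 5) (nat_lit 2) (nat_lit 4) (nat_lit 360) (nat_lit 270) (nat_lit 270))) (XT.nd (nat_lit 78) (nat_lit 0) (nat_lit 0) (XT.lf (nat_lit 0) (nat_lit 470499875346) (nat_lit 76) (nat_lit 1876213930846) (nat_lit 76) (nat_lit 1876202229917) (nat_lit 1) (nat_lit 4) (nat_lit 2) (nat_lit 5) (nat_lit 2) (nat_lit 4) (nat_lit 361) (nat_lit 270) (nat_lit 269)) (XT.nd (nat_lit 78) (nat_lit 0) (nat_lit 0) (XT.lf (nat_lit 0) (nat_lit 542411944614) (nat_lit 76) (nat_lit 2156933765574) (nat_lit 76) (nat_lit 2156911889924) (nat_lit 1) (nat_lit 4) (nat_lit 2) (nat_lit 5) (nat_lit 2) (nat_lit 4) (nat_lit 362) (nat_lit 270) (nat_lit 268)) (XT.lf (nat_lit 0) (nat_lit 625002842711) (nat_lit 76) (nat_lit 2479818009637) (nat_lit 76) (nat_lit 2479787286403) (nat_lit 1) (nat_lit 4) (nat_lit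 2) (nat_lit 5) (nat_lit 2) (nat_lit 4) (nat_lit 363) (nat_lit 270) (nat_lit 267))))) (XT.nd (nat_lit 234) (nat_lit 0) (nat_lit 0) (XT.nd (nat_lit 78) (nat_lit 0) (nat_lit 0) (XT.lf (nat_lit 0) (nat_lit 719888478512) (nat_lit 76) (nat_lit 2851183963460) (nat_lit 76) (nat_lit 2851145546675) (nat_lit 1) (nat_lit 4) (nat_lit 2) (nat_lit 5) (nat_lit 2) (nat_lit 4) (nat_lit 364) (nat_lit 270) (nat_lit 266)) (XT.nd (nat_lit 78) (nat_lit 0) (nat_lit 0) (XT.lf (nat_lit 0) (nat_lit 828925310109) (nat_lit 76) (nat_lit 3278297482663) (nat_lit 76) (nat_lit 3278252375834) (nat_lit 1) (nat_lit 4) (nat_lit 2) (nat_lit 5) (nat_lit 2) (nat_lit 4) (nat_lit 365) (nat_lit 270) (nat_lit 265)) (XT.lf (nat_lit 0) (nat_lit 954246666816) (nat_lit 76) (nat_lit 3769515136099) (nat_lit 76) (nat_lit 3769464211841) (nat_lit 1) (nat_lit 4) (nat_lit 2) (nat_lit 5) (nat_lit 2) (nat_lit 4) (nat_lit 366) (nat_lit 270) (nat_lit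 264)))) (XT.nd (nat_lit 78) (nat_lit 0) (nat_lit 0) (XT.lf (nat_lit 0) (nat_lit 1098304488220) (nat_lit 76) (nat_lit 4334447703945) (nat_lit 76) (nat_lit 4334391721052) (nat_lit 1) (nat_lit 4) (nat_lit 2) (nat_lit 5) (nat_lit 2) (nat_lit 4) (nat_lit 367) (nat_lit 270) (nat_lit 263)) (XT.nd (nat_lit 78) (nat_lit 0) (nat_lit 0) (XT.lf (nat_lit 0) (nat_lit 1263917296915) (nat_lit 76) (nat_lit 4984148214702) (nat_lit 76) (nat_lit 4984087832996) (nat_lit 1) (nat_lit 4) (nat_lit 2) (nat_lit 5) (nat_lit 2) (nat_lit 4) (nat_lit 368) (nat_lit 270) (nat_lit 262)) (XT.lf (nat_lit 0) (nat_lit 1454325343505) (nat_lit 76) (nat_lit 5731328200101) (nat_lit 76) (nat_lit 5731263993341) (nat_lit 1) (nat_lit 4) (nat_lit 2) (nat_lit 5) (nat_lit 2) (nat_lit 4) (nat_lit 369) (nat_lit 270) (nat_lit 261))))))))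
noncomputable def xc6 : XT := (XT.nd (nat_lit 45942) (nat_lit 0) (nat_lit 0) (XT.nd (nat_lit 780) (nat_lit 0) (nat_lit 0) (XT.nd (nat_lit 390) (nat_lit 0) (nat_lit 0) (XT.nd (nat_lit 156) (nat_lit 0) (nat_lit 0) (XT.nd (nat_lit 78) (nat_lit 0) (nat_lit 0) (XT.lf (nat_lit 0) (nat_lit 1673254002815) (nat_lit 76) (nat_lit 6590606398988) (nat_lit 76) (nat_lit 6590538866094) (nat_lit 1) (nat_lit 4) (nat_lit 2) (nat_lit 5) (nat_lit 2) (nat_lit 4) (nat_lit 370) (nat_lit 270) (nat_lit 260)) (XT.lf (nat_lit 0) (nat_lit 1924986661658) (nat_lit 76) (nat_lit 7578794776124) (nat_lit 76) (nat_lit 7578724350939) (nat_lit 1) (nat_lit 4) (nat_lit 2) (nat_lit 5) (nat_lit 2) (nat_lit 4) (nat_lit 371) (nat_lit 270) (nat_lit 259))) (XT.nd (nat_lit 78) (nat_lit 0) (nat_lit 0) (XT.lf (nat_lit 0) (nat_lit 2214448524227) (nat_lit 76) (nat_lit 8715227451931) (nat_lit 76) (nat_lit 8715154511710) (nat_lit 1) (nat_lit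 4) (nat_lit 2) (nat_lit 5) (nat_lit 2) (nat_lit 4) (nat_lit 372) (nat_lit 270) (nat_lit 258)) (XT.nd (nat_lit 78) (nat_lit 0) (nat_lit 0) (XT.lf (nat_lit 0) (nat_lit 2547302974791) (nat_lit 76) (nat_lit 10022138978761) (nat_lit 76) (nat_lit 10022063851552) (nat_lit 1) (nat_lit 4) (nat_lit 2) (nat_lit 5) (nat_lit 2) (nat_lit 4) (nat_lit 373) (nat_lit 270) (nat_lit 257)) (XT.lf (nat_lit 0) (nat_lit 2930062383036) (nat_lit 76) (nat_lit 11525099364748) (nat_lit 76) (nat_lit 11525022335812) (nat_lit 1) (nat_lit 4) (nat_lit 2) (nat_lit 5) (nat_lit 2) (nat_lit 4) (nat_lit 374) (nat_lit 270) (nat_lit 256))))) (XT.nd (nat_lit 156) (nat_lit 0) (nat_lit 0) (XT.nd (nat_lit 78) (nat_lit 0) (nat_lit 0) (XT.lf (nat_lit 0) (nat_lit 3370215519990) (nat_lit 76) (nat_lit 13253514356575) (nat_lit 76) (nat_lit 13253435673962) (nat_lit 1) (nat_lit 4) (nat_lit 2) (nat_lit 5) (nat_lit 2) (nat_lit 4) (nat_lit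 375) (nat_lit 270) (nat_lit 255)) (XT.lf (nat_lit 0) (nat_lit 3876374077466) (nat_lit 76) (nat_lit 15241200769298) (nat_lit 76) (nat_lit 15241120648706) (nat_lit 1) (nat_lit 4) (nat_lit 2) (nat_lit 5) (nat_lit 2) (nat_lit 4) (nat_lit 376) (nat_lit 270) (nat_lit 254))) (XT.nd (nat_lit 78) (nat_lit 0) (nat_lit 0) (XT.lf (nat_lit 0) (nat_lit 4458441157673) (nat_lit 76) (nat_lit 17527048119690) (nat_lit 76) (nat_lit 17526966748680) (nat_lit 1) (nat_lit 4) (nat_lit 2) (nat_lit 5) (nat_lit 2) (nat_lit 4) (nat_lit 377) (nat_lit 270) (nat_lit 253)) (XT.nd (nat_lit 78) (nat_lit 0) (nat_lit 0) (XT.lf (nat_lit 0) (nat_lit 5127805029574) (nat_lit 76) (nat_lit 20155779508082) (nat_lit 76) (nat_lit 20155697049753) (nat_lit 1) (nat_lit 4) (nat_lit 2) (nat_lit 5) (nat_lit 2) (nat_lit 4) (nat_lit 378) (nat_lit 270) (nat_lit 252)) (XT.lf (nat_lit 0) (nat_lit 5897561942834) (nat_lit 76) (nat_lit 23178826635554)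 (nat_lit 76) (nat_lit 23178743231730) (nat_lit 1) (nat_lit 4) (nat_lit 2) (nat_lit 5) (nat_lit 2) (nat_lit 4) (nat_lit 379) (nat_lit 270) (nat_lit 251)))))) (XT.nd (nat_lit 390) (nat_lit 0) (nat_lit 0) (XT.nd (nat_lit 156) (nat_lit 0) (nat_lit 0) (XT.nd (nat_lit 78) (nat_lit 0) (nat_lit 0) (XT.lf (nat_lit 0) (nat_lit 6782772358801) (nat_lit 76) (nat_lit 26655336076337) (nat_lit 76) (nat_lit 26655251850344) (nat_lit 1) (nat_lit 4) (nat_lit 2) (nat_lit 5) (nat_lit 2) (nat_lit 4) (nat_lit 380) (nat_lit 270) (nat_lit 250)) (XT.lf (nat_lit 0) (nat_lit 7800755611701) (nat_lit 76) (nat_lit 30653326493404) (nat_lit 76) (nat_lit 30653241552480) (nat_lit 1) (nat_lit 4) (nat_lit 2) (nat_lit 5) (nat_lit 2) (nat_lit 4) (nat_lit 381) (nat_lit 270) (nat_lit 249))) (XT.nd (nat_lit 78) (nat_lit 0) (nat_lit 0) (XT.lf (nat_lit 0) (nat_lit 8971428765176) (nat_lit 76) (nat_lit 35251019438393) (nat_lit 76)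 (nat_lit 35250933875791) (nat_lit 1) (nat_lit 4) (nat_lit 2) (nat_lit 5) (nat_lit 2) (nat_lit 4) (nat_lit 382) (nat_lit 270) (nat_lit 248)) (XT.nd (nat_lit 78) (nat_lit 0) (nat_lit 0) (XT.lf (nat_lit 0) (nat_lit 10317696293969) (nat_lit 76) (nat_lit 40538369773271) (nat_lit 76) (nat_lit 40538283670079) (nat_lit 1) (nat_lit 4) (nat_lit 2) (nat_lit 5) (nat_lit 2) (nat_lit 4) (nat_lit 383) (nat_lit 270) (nat_lit 247)) (XT.lf (nat_lit 0) (nat_lit 11865898214947) (nat_lit 76) (nat_lit 46618825656763) (nat_lit 76) (nat_lit 46618739083494) (nat_lit 1) (nat_lit 4) (nat_lit 2) (nat_lit 5) (nat_lit 2) (nat_lit 4) (nat_lit 384) (nat_lit 270) (nat_lit 246))))) (XT.nd (nat_lit 234) (nat_lit 0) (nat_lit 0) (XT.nd (nat_lit 78) (nat_lit 0) (nat_lit 0) (XT.lf (nat_lit 0) (nat_lit 13646325435260) (nat_lit 76) (nat_lit 53611352530070) (nat_lit 76) (nat_lit 53611265548037) (nat_lit 1) (nat_lit 4) (nat_lit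 2) (nat_lit 5) (nat_lit 2) (nat_lit 4) (nat_lit 385) (nat_lit 270) (nat_lit 245)) (XT.nd (nat_lit 78) (nat_lit 0) (nat_lit 0) (XT.lf (nat_lit 0) (nat_lit 15693812400523) (nat_lit 76) (nat_lit 61652760701581) (nat_lit 76) (nat_lit 61652673364101) (nat_lit 1) (nat_lit 4) (nat_lit 2) (nat_lit 5) (nat_lit 2) (nat_lit 4) (nat_lit 386) (nat_lit 270) (nat_lit 244)) (XT.lf (nat_lit 0) (nat_lit 18048418638318) (nat_lit 76) (nat_lit 70900382070304) (nat_lit 76) (nat_lit 70900294423740) (nat_lit 1) (nat_lit 4) (nat_lit 2) (nat_lit 5) (nat_lit 2) (nat_lit 4) (nat_lit 387) (nat_lit 270) (nat_lit 243)))) (XT.nd (nat_lit 78) (nat_lit 0) (nat_lit 0) (XT.lf (nat_lit 0) (nat_lit 20756212531556) (nat_lit 76) (nat_lit 81535148358672) (nat_lit 76) (nat_lit 81535060443339) (nat_lit 1) (nat_lit 4) (nat_lit 2) (nat_lit 5) (nat_lit 2) (nat_lit 4) (nat_lit 388) (nat_lit 270) (nat_lit 242)) (XT.nd (nat_lit 78)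 (nat_lit 0) (nat_lit 0) (XT.lf (nat_lit 0) (nat_lit 23870172656412) (nat_lit 76) (nat_lit 93765131081020) (nat_lit 76) (nat_lit 93765042931976) (nat_lit 1) (nat_lit 4) (nat_lit 2) (nat_lit 5) (nat_lit 2) (nat_lit 4) (nat_lit 389) (nat_lit 270) (nat_lit 241)) (XT.lf (nat_lit 0) (nat_lit 27451224319674) (nat_lit 76) (nat_lit 107829612508005) (nat_lit 76) (nat_lit 107829524155733) (nat_lit 1) (nat_lit 4) (nat_lit 2) (nat_lit 5) (nat_lit 2) (nat_lit 4) (nat_lit 390) (nat_lit 270) (nat_lit 240))))))) (XT.nd (nat_lit 858) (nat_lit 0) (nat_lit 0) (XT.nd (nat_lit 390) (nat_lit 0) (nat_lit 0) (XT.nd (nat_lit 156) (nat_lit 0) (nat_lit 0) (XT.nd (nat_lit 78) (nat_lit 0) (nat_lit 0) (XT.lf (nat_lit 0) (nat_lit 152863161424) (nat_lit 76) (nat_lit 617792517944) (nat_lit 76) (nat_lit 617792517944) (nat_lit 1) (nat_lit 4) (nat_lit 2) (nat_lit 5) (nat_lit 2) (nat_lit 4) (nat_lit 358) (nat_lit 271) (nat_lit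 271)) (XT.lf (nat_lit 0) (nat_lit 353265728053) (nat_lit 76) (nat_lit 1420029064009) (nat_lit 76) (nat_lit 1420015607941) (nat_lit 1) (nat_lit 4) (nat_lit 2) (nat_lit 5) (nat_lit 2) (nat_lit 4) (nat_lit 359) (nat_lit 271) (nat_lit 270))) (XT.nd (nat_lit 78) (nat_lit 0) (nat_lit 0) (XT.lf (nat_lit 0) (nat_lit 407793238422) (nat_lit 76) (nat_lit 1632214330477) (nat_lit 76) (nat_lit 1632189173479) (nat_lit 1) (nat_lit 4) (nat_lit 2) (nat_lit 5) (nat_lit 2) (nat_lit 4) (nat_lit 360) (nat_lit 271) (nat_lit 269)) (XT.nd (nat_lit 78) (nat_lit 0) (nat_lit 0) (XT.lf (nat_lit 0) (nat_lit 470375696550) (nat_lit 76) (nat_lit 1876292286158) (nat_lit 76) (nat_lit 1876256954439) (nat_lit 1) (nat_lit 4) (nat_lit 2) (nat_lit 5) (nat_lit 2) (nat_lit 4) (nat_lit 361) (nat_lit 271) (nat_lit 268)) (XT.lf (nat_lit 0) (nat_lit 542237541836) (nat_lit 76) (nat_lit 2157038369316) (nat_lit 76) (nat_lit 2156994190014)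 (nat_lit 1) (nat_lit 4) (nat_lit 2) (nat_lit 5) (nat_lit 2) (nat_lit 4) (nat_lit 362) (nat_lit 271) (nat_lit 267))))) (XT.nd (nat_lit 234) (nat_lit 0) (nat_lit 0) (XT.nd (nat_lit 78) (nat_lit 0) (nat_lit 0) (XT.lf (nat_lit 0) (nat_lit 624784766905) (nat_lit 76) (nat_lit 2479945438100) (nat_lit 76) (nat_lit 2479893565247) (nat_lit 1) (nat_lit 4) (nat_lit 2) (nat_lit 5) (nat_lit 2) (nat_lit 4) (nat_lit 363) (nat_lit 271) (nat_lit 266)) (XT.nd (nat_lit 78) (nat_lit 0) (nat_lit 0) (XT.lf (nat_lit 0) (nat_lit 719632426160) (nat_lit 76) (nat_lit 2851331239508) (nat_lit 76) (nat_lit 2851272676611) (nat_lit 1) (nat_lit 4) (nat_lit 2) (nat_lit 5) (nat_lit 2) (nat_lit 4) (nat_lit 364) (nat_lit 271) (nat_lit 265)) (XT.lf (nat_lit 0) (nat_lit 828636234673) (nat_lit 76) (nat_lit 3278462017480) (nat_lit 76) (nat_lit 3278397637153) (nat_lit 1) (nat_lit 4) (nat_lit 2) (nat_lit 5) (nat_lit 2) (nat_lit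 4) (nat_lit 365) (nat_lit 271) (nat_lit 264)))) (XT.nd (nat_lit 78) (nat_lit 0) (nat_lit 0) (XT.lf (nat_lit 0) (nat_lit 953928875655) (nat_lit 76) (nat_lit 3769694678541) (nat_lit 76) (nat_lit 3769625239580) (nat_lit 1) (nat_lit 4) (nat_lit 2) (nat_lit 5) (nat_lit 2) (nat_lit 4) (nat_lit 366) (nat_lit 271) (nat_lit 263)) (XT.nd (nat_lit 78) (nat_lit 0) (nat_lit 0) (XT.lf (nat_lit 0) (nat_lit 1097961726864) (nat_lit 76) (nat_lit 4334640296496) (nat_lit 76) (nat_lit 4334566458721) (nat_lit 1) (nat_lit 4) (nat_lit 2) (nat_lit 5) (nat_lit 2) (nat_lit 4) (nat_lit 367) (nat_lit 271) (nat_lit 262)) (XT.lf (nat_lit 0) (nat_lit 1263552822346) (nat_lit 76) (nat_lit 4984352155173) (nat_lit 76) (nat_lit 4984274492344) (nat_lit 1) (nat_lit 4) (nat_lit 2) (nat_lit 5) (nat_lit 2) (nat_lit 4) (nat_lit 368) (nat_lit 271) (nat_lit 261)))))) (XT.nd (nat_lit 390) (nat_lit 0) (nat_lit 0) (XT.nd (nat_lit 156)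 (nat_lit 0) (nat_lit 0) (XT.nd (nat_lit 78) (nat_lit 0) (nat_lit 0) (XT.lf (nat_lit 0) (nat_lit 1453941987880) (nat_lit 76) (nat_lit 5731542008330) (nat_lit 76) (nat_lit 5731461019366) (nat_lit 1) (nat_lit 4) (nat_lit 2) (nat_lit 5) (nat_lit 2) (nat_lit 4) (nat_lit 369) (nat_lit 271) (nat_lit 260)) (XT.lf (nat_lit 0) (nat_lit 1672854228882) (nat_lit 76) (nat_lit 6590828787875) (nat_lit 76) (nat_lit 6590744906621) (nat_lit 1) (nat_lit 4) (nat_lit 2) (nat_lit 5) (nat_lit 2) (nat_lit 4) (nat_lit 370) (nat_lit 271) (nat_lit 259))) (XT.nd (nat_lit 78) (nat_lit 0) (nat_lit 0) (XT.lf (nat_lit 0) (nat_lit 1924572610934) (nat_lit 76) (nat_lit 7579024626453) (nat_lit 76) (nat_lit 7578938230164) (nat_lit 1) (nat_lit 4) (nat_lit 2) (nat_lit 5) (nat_lit 2) (nat_lit 4) (nat_lit 371) (nat_lit 271) (nat_lit 258)) (XT.nd (nat_lit 78) (nat_lit 0) (nat_lit 0) (XT.lf (nat_lit 0) (nat_lit 2214022058903) (nat_lit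 76) (nat_lit 8715463790470) (nat_lit 76) (nat_lit 8715375207193) (nat_lit 1) (nat_lit 4) (nat_lit 2) (nat_lit 5) (nat_lit 2) (nat_lit 4) (nat_lit 372) (nat_lit 271) (nat_lit 257)) (XT.lf (nat_lit 0) (nat_lit 2546865714163) (nat_lit 76) (nat_lit 10022380959222) (nat_lit 76) (nat_lit 10022290474217) (nat_lit 1) (nat_lit 4) (nat_lit 2) (nat_lit 5) (nat_lit 2) (nat_lit 4) (nat_lit 373) (nat_lit 271) (nat_lit 256))))) (XT.nd (nat_lit 234) (nat_lit 0) (nat_lit 0) (XT.nd (nat_lit 78) (nat_lit 0) (nat_lit 0) (XT.lf (nat_lit 0) (nat_lit 2929615735185) (nat_lit 76) (nat_lit 11525346251229) (nat_lit 76) (nat_lit 11525254112547) (nat_lit 1) (nat_lit 4) (nat_lit 2) (nat_lit 5) (nat_lit 2) (nat_lit 4) (nat_lit 374) (nat_lit 271) (nat_lit 255)) (XT.nd (nat_lit 78) (nat_lit 0) (nat_lit 0) (XT.lf (nat_lit 0) (nat_lit 3369760709339) (nat_lit 76) (nat_lit 13253765509159) (nat_lit 76) (nat_lit 13253671932498)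 (nat_lit 1) (nat_lit 4) (nat_lit 2) (nat_lit 5) (nat_lit 2) (nat_lit 4) (nat_lit 375) (nat_lit 271) (nat_lit 254)) (XT.lf (nat_lit 0) (nat_lit 3875912168726) (nat_lit 76) (nat_lit 15241455631538) (nat_lit 76) (nat_lit 15241360804460) (nat_lit 1) (nat_lit 4) (nat_lit 2) (nat_lit 5) (nat_lit 2) (nat_lit 4) (nat_lit 376) (nat_lit 271) (nat_lit 253)))) (XT.nd (nat_lit 78) (nat_lit 0) (nat_lit 0) (XT.lf (nat_lit 0) (nat_lit 4457973076683) (nat_lit 76) (nat_lit 17527306207717) (nat_lit 76) (nat_lit 17527210293320) (nat_lit 1) (nat_lit 4) (nat_lit 2) (nat_lit 5) (nat_lit 2) (nat_lit 4) (nat_lit 377) (nat_lit 271) (nat_lit 252)) (XT.nd (nat_lit 78) (nat_lit 0) (nat_lit 0) (XT.lf (nat_lit 0) (nat_lit 5127331581409) (nat_lit 76) (nat_lit 20156040401142) (nat_lit 76) (nat_lit 20155943541250) (nat_lit 1) (nat_lit 4) (nat_lit 2) (nat_lit 5) (nat_lit 2) (nat_lit 4) (nat_lit 378) (nat_lit 271) (nat_lit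 251)) (XT.lf (nat_lit 0) (nat_lit 5897083827562) (nat_lit 76) (nat_lit 23179089967772) (nat_lit 76) (nat_lit 23178992285710) (nat_lit 1) (nat_lit 4) (nat_lit 2) (nat_lit 5) (nat_lit 2) (nat_lit 4) (nat_lit 379) (nat_lit 271) (nat_lit 250))))))))
noncomputable def xc7 : XT := (XT.nd (nat_lit 45864) (nat_lit 0) (nat_lit 0) (XT.nd (nat_lit 45006) (nat_lit 0) (nat_lit 0) (XT.nd (nat_lit 390) (nat_lit 0) (nat_lit 0) (XT.nd (nat_lit 156) (nat_lit 0) (nat_lit 0) (XT.nd (nat_lit 78) (nat_lit 0) (nat_lit 0) (XT.lf (nat_lit 0) (nat_lit 6782290185174) (nat_lit 76) (nat_lit 26655601529563) (nat_lit 76) (nat_lit 26655503132571) (nat_lit 1) (nat_lit 4) (nat_lit 2) (nat_lit 5) (nat_lit 2) (nat_lit 4) (nat_lit 380) (nat_lit 271) (nat_lit 249)) (XT.lf (nat_lit 0) (nat_lit 7800269909069) (nat_lit 76) (nat_lit 30653593790984) (nat_lit 76) (nat_lit 30653494772314) (nat_lit 1) (nat_lit 4) (nat_lit 2) (nat_lit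 5) (nat_lit 2) (nat_lit 4) (nat_lit 381) (nat_lit 271) (nat_lit 248))) (XT.nd (nat_lit 78) (nat_lit 0) (nat_lit 0) (XT.lf (nat_lit 0) (nat_lit 8970939993845) (nat_lit 76) (nat_lit 35251288339759) (nat_lit 76) (nat_lit 35251188780499) (nat_lit 1) (nat_lit 4) (nat_lit 2) (nat_lit 5) (nat_lit 2) (nat_lit 4) (nat_lit 382) (nat_lit 271) (nat_lit 247)) (XT.nd (nat_lit 78) (nat_lit 0) (nat_lit 0) (XT.lf (nat_lit 0) (nat_lit 10317204854204) (nat_lit 76) (nat_lit 40538640069234) (nat_lit 76) (nat_lit 40538540039896) (nat_lit 1) (nat_lit 4) (nat_lit 2) (nat_lit 5) (nat_lit 2) (nat_lit 4) (nat_lit 383) (nat_lit 271) (nat_lit 246)) (XT.lf (nat_lit 0) (nat_lit 11865404454805) (nat_lit 76) (nat_lit 46619097165420) (nat_lit 76) (nat_lit 46618996727318) (nat_lit 1) (nat_lit 4) (nat_lit 2) (nat_lit 5) (nat_lit 2) (nat_lit 4) (nat_lit 384) (nat_lit 271) (nat_lit 245))))) (XT.nd (nat_lit 234) (nat_lit 0)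 (nat_lit 0) (XT.nd (nat_lit 78) (nat_lit 0) (nat_lit 0) (XT.lf (nat_lit 0) (nat_lit 13645829657398) (nat_lit 76) (nat_lit 53611625093242) (nat_lit 76) (nat_lit 53611524299694) (nat_lit 1) (nat_lit 4) (nat_lit 2) (nat_lit 5) (nat_lit 2) (nat_lit 4) (nat_lit 385) (nat_lit 271) (nat_lit 244)) (XT.nd (nat_lit 78) (nat_lit 0) (nat_lit 0) (XT.lf (nat_lit 0) (nat_lit 15693314868123) (nat_lit 76) (nat_lit 61653034181723) (nat_lit 76) (nat_lit 61652933079091) (nat_lit 1) (nat_lit 4) (nat_lit 2) (nat_lit 5) (nat_lit 2) (nat_lit 4) (nat_lit 386) (nat_lit 271) (nat_lit 243)) (XT.lf (nat_lit 0) (nat_lit 18047919580231) (nat_lit 76) (nat_lit 70900656347812) (nat_lit 76) (nat_lit 70900554976411) (nat_lit 1) (nat_lit 4) (nat_lit 2) (nat_lit 5) (nat_lit 2) (nat_lit 4) (nat_lit 387) (nat_lit 271) (nat_lit 242)))) (XT.nd (nat_lit 78) (nat_lit 0) (nat_lit 0) (XT.lf (nat_lit 0) (nat_lit 20755712146786) (nat_lit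 76) (nat_lit 81535423329540) (nat_lit 76) (nat_lit 81535321724427) (nat_lit 1) (nat_lit 4) (nat_lit 2) (nat_lit 5) (nat_lit 2) (nat_lit 4) (nat_lit 388) (nat_lit 271) (nat_lit 241)) (XT.nd (nat_lit 78) (nat_lit 0) (nat_lit 0) (XT.lf (nat_lit 0) (nat_lit 23869671118004) (nat_lit 76) (nat_lit 93765406654812) (nat_lit 76) (nat_lit 93765304846471) (nat_lit 1) (nat_lit 4) (nat_lit 2) (nat_lit 5) (nat_lit 2) (nat_lit 4) (nat_lit 389) (nat_lit 271) (nat_lit 240)) (XT.lf (nat_lit 0) (nat_lit 27450721778103) (nat_lit 76) (nat_lit 107829888606077) (nat_lit 76) (nat_lit 107829786621016) (nat_lit 1) (nat_lit 4) (nat_lit 2) (nat_lit 5) (nat_lit 2) (nat_lit 4) (nat_lit 390) (nat_lit 271) (nat_lit 239)))))) (XT.nd (nat_lit 390) (nat_lit 0) (nat_lit 0) (XT.nd (nat_lit 156) (nat_lit 0) (nat_lit 0) (XT.nd (nat_lit 78) (nat_lit 0) (nat_lit 0) (XT.lf (nat_lit 0) (nat_lit 114048860313) (nat_lit 76) (nat_lit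 467963834540) (nat_lit 76) (nat_lit 467963834540) (nat_lit 1) (nat_lit 4) (nat_lit 2) (nat_lit 5) (nat_lit 2) (nat_lit 4) (nat_lit 356) (nat_lit 272) (nat_lit 272)) (XT.lf (nat_lit 0) (nat_lit 264244904013) (nat_lit 76) (nat_lit 1075289033089) (nat_lit 76) (nat_lit 1075273558611) (nat_lit 1) (nat_lit 4) (nat_lit 2) (nat_lit 5) (nat_lit 2) (nat_lit 4) (nat_lit 357) (nat_lit 272) (nat_lit 271))) (XT.nd (nat_lit 78) (nat_lit 0) (nat_lit 0) (XT.lf (nat_lit 0) (nat_lit 305649938450) (nat_lit 76) (nat_lit 1235640430949) (nat_lit 76) (nat_lit 1235611500402) (nat_lit 1) (nat_lit 4) (nat_lit 2) (nat_lit 5) (nat_lit 2) (nat_lit 4) (nat_lit 358) (nat_lit 272) (nat_lit 270)) (XT.nd (nat_lit 78) (nat_lit 0) (nat_lit 0) (XT.lf (nat_lit 0) (nat_lit 353122922437) (nat_lit 76) (nat_lit 1420119172618) (nat_lit 76) (nat_lit 1420078541141) (nat_lit 1) (nat_lit 4) (nat_lit 2) (nat_lit 5) (nat_lit 2) (nat_lit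 4) (nat_lit 359) (nat_lit 272) (nat_lit 269)) (XT.lf (nat_lit 0) (nat_lit 407592675227) (nat_lit 76) (nat_lit 1632334624780) (nat_lit 76) (nat_lit 1632283818583) (nat_lit 1) (nat_lit 4) (nat_lit 2) (nat_lit 5) (nat_lit 2) (nat_lit 4) (nat_lit 360) (nat_lit 272) (nat_lit 268))))) (XT.nd (nat_lit 234) (nat_lit 0) (nat_lit 0) (XT.nd (nat_lit 78) (nat_lit 0) (nat_lit 0) (XT.lf (nat_lit 0) (nat_lit 470124909373) (nat_lit 76) (nat_lit 1876438828892) (nat_lit 76) (nat_lit 1876379175111) (nat_lit 1) (nat_lit 4) (nat_lit 2) (nat_lit 5) (nat_lit 2) (nat_lit 4) (nat_lit 361) (nat_lit 272) (nat_lit 267)) (XT.nd (nat_lit 78) (nat_lit 0) (nat_lit 0) (XT.lf (nat_lit 0) (nat_lit 541943081631) (nat_lit 76) (nat_lit 2157207736772) (nat_lit 76) (nat_lit 2157140389440) (nat_lit 1) (nat_lit 4) (nat_lit 2) (nat_lit 5) (nat_lit 2) (nat_lit 4) (nat_lit 362) (nat_lit 272) (nat_lit 266)) (XT.lf (nat_lit 0) (nat_lit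 624452330154) (nat_lit 76) (nat_lit 2480134653140) (nat_lit 76) (nat_lit 2480060615764) (nat_lit 1) (nat_lit 4) (nat_lit 2) (nat_lit 5) (nat_lit 2) (nat_lit 4) (nat_lit 363) (nat_lit 272) (nat_lit 265)))) (XT.nd (nat_lit 78) (nat_lit 0) (nat_lit 0) (XT.lf (nat_lit 0) (nat_lit 719266966325) (nat_lit 76) (nat_lit 2851537713316) (nat_lit 76) (nat_lit 2851457858510) (nat_lit 1) (nat_lit 4) (nat_lit 2) (nat_lit 5) (nat_lit 2) (nat_lit 4) (nat_lit 364) (nat_lit 272) (nat_lit 264)) (XT.nd (nat_lit 78) (nat_lit 0) (nat_lit 0) (XT.lf (nat_lit 0) (nat_lit 828242059114) (nat_lit 76) (nat_lit 3278683498913) (nat_lit 76) (nat_lit 3278598585473) (nat_lit 1) (nat_lit 4) (nat_lit 2) (nat_lit 5) (nat_lit 2) (nat_lit 4) (nat_lit 365) (nat_lit 272) (nat_lit 263)) (XT.lf (nat_lit 0) (nat_lit 953509729900) (nat_lit 76) (nat_lit 3769929210083) (nat_lit 76) (nat_lit 3769839897830) (nat_lit 1) (nat_lit 4) (nat_lit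 2) (nat_lit 5) (nat_lit 2) (nat_lit 4) (nat_lit 366) (nat_lit 272) (nat_lit 262))))))) (XT.nd (nat_lit 858) (nat_lit 0) (nat_lit 0) (XT.nd (nat_lit 390) (nat_lit 0) (nat_lit 0) (XT.nd (nat_lit 156) (nat_lit 0) (nat_lit 0) (XT.nd (nat_lit 78) (nat_lit 0) (nat_lit 0) (XT.lf (nat_lit 0) (nat_lit 1097520867896) (nat_lit 76) (nat_lit 4334886175959) (nat_lit 76) (nat_lit 4334793038651) (nat_lit 1) (nat_lit 4) (nat_lit 2) (nat_lit 5) (nat_lit 2) (nat_lit 4) (nat_lit 367) (nat_lit 272) (nat_lit 261)) (XT.lf (nat_lit 0) (nat_lit 1263093082322) (nat_lit 76) (nat_lit 4984607902393) (nat_lit 76) (nat_lit 4984511438951) (nat_lit 1) (nat_lit 4) (nat_lit 2) (nat_lit 5) (nat_lit 2) (nat_lit 4) (nat_lit 368) (nat_lit 272) (nat_lit 260))) (XT.nd (nat_lit 78) (nat_lit 0) (nat_lit 0) (XT.lf (nat_lit 0) (nat_lit 1453465829548) (nat_lit 76) (nat_lit 5731806336208) (nat_lit 76) (nat_lit 5731706980475) (nat_lit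 1) (nat_lit 4) (nat_lit 2) (nat_lit 5) (nat_lit 2) (nat_lit 4) (nat_lit 369) (nat_lit 272) (nat_lit 259)) (XT.nd (nat_lit 78) (nat_lit 0) (nat_lit 0) (XT.lf (nat_lit 0) (nat_lit 1672363793759) (nat_lit 76) (nat_lit 6591100577196) (nat_lit 76) (nat_lit 6590998706427) (nat_lit 1) (nat_lit 4) (nat_lit 2) (nat_lit 5) (nat_lit 2) (nat_lit 4) (nat_lit 370) (nat_lit 272) (nat_lit 258)) (XT.lf (nat_lit 0) (nat_lit 1924069761210) (nat_lit 76) (nat_lit 7579302903984) (nat_lit 76) (nat_lit 7579198846228) (nat_lit 1) (nat_lit 4) (nat_lit 2) (nat_lit 5) (nat_lit 2) (nat_lit 4) (nat_lit 371) (nat_lit 272) (nat_lit 257))))) (XT.nd (nat_lit 234) (nat_lit 0) (nat_lit 0) (XT.nd (nat_lit 78) (nat_lit 0) (nat_lit 0) (XT.lf (nat_lit 0) (nat_lit 2213508413875) (nat_lit 76) (nat_lit 8715747709923) (nat_lit 76) (nat_lit 8715641750439) (nat_lit 1) (nat_lit 4) (nat_lit 2) (nat_lit 5) (nat_lit 2) (nat_lit 4) (nat_lit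 372) (nat_lit 272) (nat_lit 256)) (XT.nd (nat_lit 78) (nat_lit 0) (nat_lit 0) (XT.lf (nat_lit 0) (nat_lit 2546342681913) (nat_lit 76) (nat_lit 10022669784695) (nat_lit 76) (nat_lit 10022562171534) (nat_lit 1) (nat_lit 4) (nat_lit 2) (nat_lit 5) (nat_lit 2) (nat_lit 4) (nat_lit 373) (nat_lit 272) (nat_lit 255)) (XT.lf (nat_lit 0) (nat_lit 2929084540135) (nat_lit 76) (nat_lit 11525639342805) (nat_lit 76) (nat_lit 11525530291665) (nat_lit 1) (nat_lit 4) (nat_lit 2) (nat_lit 5) (nat_lit 2) (nat_lit 4) (nat_lit 374) (nat_lit 272) (nat_lit 254)))) (XT.nd (nat_lit 78) (nat_lit 0) (nat_lit 0) (XT.lf (nat_lit 0) (nat_lit 3369222416200) (nat_lit 76) (nat_lit 13254062310391) (nat_lit 76) (nat_lit 13253952008834) (nat_lit 1) (nat_lit 4) (nat_lit 2) (nat_lit 5) (nat_lit 2) (nat_lit 4) (nat_lit 375) (nat_lit 272) (nat_lit 253)) (XT.nd (nat_lit 78) (nat_lit 0) (nat_lit 0) (XT.lf (nat_lit 0) (nat_lit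 3875367703337) (nat_lit 76) (nat_lit 15241755658557) (nat_lit 76) (nat_lit 15241644269681) (nat_lit 1) (nat_lit 4) (nat_lit 2) (nat_lit 5) (nat_lit 2) (nat_lit 4) (nat_lit 376) (nat_lit 272) (nat_lit 252)) (XT.lf (nat_lit 0) (nat_lit 4457423244120) (nat_lit 76) (nat_lit 17527609039768) (nat_lit 76) (nat_lit 17527496705397) (nat_lit 1) (nat_lit 4) (nat_lit 2) (nat_lit 5) (nat_lit 2) (nat_lit 4) (nat_lit 377) (nat_lit 272) (nat_lit 251)))))) (XT.nd (nat_lit 390) (nat_lit 0) (nat_lit 0) (XT.nd (nat_lit 156) (nat_lit 0) (nat_lit 0) (XT.nd (nat_lit 78) (nat_lit 0) (nat_lit 0) (XT.lf (nat_lit 0) (nat_lit 5126777081738) (nat_lit 76) (nat_lit 20156345672352) (nat_lit 76) (nat_lit 20156232515811) (nat_lit 1) (nat_lit 4) (nat_lit 2) (nat_lit 5) (nat_lit 2) (nat_lit 4) (nat_lit 378) (nat_lit 272) (nat_lit 250)) (XT.lf (nat_lit 0) (nat_lit 5896525269536) (nat_lit 76) (nat_lit 23179397359990) (nat_lit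 76) (nat_lit 23179283488519) (nat_lit 1) (nat_lit 4) (nat_lit 2) (nat_lit 5) (nat_lit 2) (nat_lit 4) (nat_lit 379) (nat_lit 272) (nat_lit 249))) (XT.nd (nat_lit 78) (nat_lit 0) (nat_lit 0) (XT.lf (nat_lit 0) (nat_lit 6781728098144) (nat_lit 76) (nat_lit 26655910766135) (nat_lit 76) (nat_lit 26655796272986) (nat_lit 1) (nat_lit 4) (nat_lit 2) (nat_lit 5) (nat_lit 2) (nat_lit 4) (nat_lit 380) (nat_lit 272) (nat_lit 248)) (XT.nd (nat_lit 78) (nat_lit 0) (nat_lit 0) (XT.lf (nat_lit 0) (nat_lit 7799704753340) (nat_lit 76) (nat_lit 30653904631342) (nat_lit 76) (nat_lit 30653789597603) (nat_lit 1) (nat_lit 4) (nat_lit 2) (nat_lit 5) (nat_lit 2) (nat_lit 4) (nat_lit 381) (nat_lit 272) (nat_lit 247)) (XT.lf (nat_lit 0) (nat_lit 8970372169681) (nat_lit 76) (nat_lit 35251600574715) (nat_lit 76) (nat_lit 35251485070897) (nat_lit 1) (nat_lit 4) (nat_lit 2) (nat_lit 5) (nat_lit 2) (nat_lit 4) (nat_lit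 382) (nat_lit 272) (nat_lit 246))))) (XT.nd (nat_lit 234) (nat_lit 0) (nat_lit 0) (XT.nd (nat_lit 78) (nat_lit 0) (nat_lit 0) (XT.lf (nat_lit 0) (nat_lit 10316634709662) (nat_lit 76) (nat_lit 40538953516882) (nat_lit 76) (nat_lit 40538837604301) (nat_lit 1) (nat_lit 4) (nat_lit 2) (nat_lit 5) (nat_lit 2) (nat_lit 4) (nat_lit 383) (nat_lit 272) (nat_lit 245)) (XT.nd (nat_lit 78) (nat_lit 0) (nat_lit 0) (XT.lf (nat_lit 0) (nat_lit 11864832292544) (nat_lit 76) (nat_lit 46619411667583) (nat_lit 76) (nat_lit 46619295399556) (nat_lit 1) (nat_lit 4) (nat_lit 2) (nat_lit 5) (nat_lit 2) (nat_lit 4) (nat_lit 384) (nat_lit 272) (nat_lit 244)) (XT.lf (nat_lit 0) (nat_lit 13645255740599) (nat_lit 76) (nat_lit 53611940512376) (nat_lit 76) (nat_lit 53611823935264) (nat_lit 1) (nat_lit 4) (nat_lit 2) (nat_lit 5) (nat_lit 2) (nat_lit 4) (nat_lit 385) (nat_lit 272) (nat_lit 243)))) (XT.nd (nat_lit 78)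 (nat_lit 0) (nat_lit 0) (XT.lf (nat_lit 0) (nat_lit 15692739425637) (nat_lit 76) (nat_lit 61653350398222) (nat_lit 76) (nat_lit 61653233552342) (nat_lit 1) (nat_lit 4) (nat_lit 2) (nat_lit 5) (nat_lit 2) (nat_lit 4) (nat_lit 386) (nat_lit 272) (nat_lit 242)) (XT.nd (nat_lit 78) (nat_lit 0) (nat_lit 0) (XT.lf (nat_lit 0) (nat_lit 18047342811062) (nat_lit 76) (nat_lit 70900973257672) (nat_lit 76) (nat_lit 70900856178080) (nat_lit 1) (nat_lit 4) (nat_lit 2) (nat_lit 5) (nat_lit 2) (nat_lit 4) (nat_lit 387) (nat_lit 272) (nat_lit 241)) (XT.lf (nat_lit 0) (nat_lit 20755134223979) (nat_lit 76) (nat_lit 81535740842323) (nat_lit 76) (nat_lit 81535623559503) (nat_lit 1) (nat_lit 4) (nat_lit 2) (nat_lit 5) (nat_lit 2) (nat_lit 4) (nat_lit 388) (nat_lit 272) (nat_lit 240))))))))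
noncomputable def xc8 : XT := (XT.nd (nat_lit 45708) (nat_lit 0) (nat_lit 0) (XT.nd (nat_lit 44850) (nat_lit 0) (nat_lit 0) (XT.nd (nat_lit 44460) (nat_lit 0) (nat_lit 0) (XT.nd (nat_lit 44226) (nat_lit 0) (nat_lit 0) (XT.nd (nat_lit 44148) (nat_lit 0) (nat_lit 0) (XT.lf (nat_lit 0) (nat_lit 23869092192034) (nat_lit 76) (nat_lit 93765724691875) (nat_lit 76) (nat_lit 93765607232335) (nat_lit 1) (nat_lit 4) (nat_lit 2) (nat_lit 5) (nat_lit 2) (nat_lit 4) (nat_lit 389) (nat_lit 272) (nat_lit 239)) (XT.lf (nat_lit 0) (nat_lit 84469024653) (nat_lit 76) (nat_lit 354795414563) (nat_lit 76) (nat_lit 354795414563) (nat_lit 1) (nat_lit 4) (nat_lit 2) (nat_lit 5) (nat_lit 2) (nat_lit 4) (nat_lit 354) (nat_lit 273) (nat_lit 273))) (XT.nd (nat_lit 78) (nat_lit 0) (nat_lit 0) (XT.lf (nat_lit 0) (nat_lit 196501160788) (nat_lit 76) (nat_lit 814847499190) (nat_lit 76) (nat_lit 814829703539) (nat_lit 1)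 (nat_lit 4) (nat_lit 2) (nat_lit 5) (nat_lit 2) (nat_lit 4) (nat_lit 355) (nat_lit 273) (nat_lit 272)) (XT.nd (nat_lit 78) (nat_lit 0) (nat_lit 0) (XT.lf (nat_lit 0) (nat_lit 228009878567) (nat_lit 76) (nat_lit 935991373399) (nat_lit 76) (nat_lit 935958103270) (nat_lit 1) (nat_lit 4) (nat_lit 2) (nat_lit 5) (nat_lit 2) (nat_lit 4) (nat_lit 356) (nat_lit 273) (nat_lit 271)) (XT.lf (nat_lit 0) (nat_lit 264080677555) (nat_lit 76) (nat_lit 1075392657989) (nat_lit 76) (nat_lit 1075345931791) (nat_lit 1) (nat_lit 4) (nat_lit 2) (nat_lit 5) (nat_lit 2) (nat_lit 4) (nat_lit 357) (nat_lit 273) (nat_lit 270))))) (XT.nd (nat_lit 156) (nat_lit 0) (nat_lit 0) (XT.nd (nat_lit 78) (nat_lit 0) (nat_lit 0) (XT.lf (nat_lit 0) (nat_lit 305419290776) (nat_lit 76) (nat_lit 1235778769398) (nat_lit 76) (nat_lit 1235720342271) (nat_lit 1) (nat_lit 4) (nat_lit 2) (nat_lit 5) (nat_lit 2) (nat_lit 4) (nat_lit 358)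 (nat_lit 273) (nat_lit 269)) (XT.lf (nat_lit 0) (nat_lit 352834517184) (nat_lit 76) (nat_lit 1420287696761) (nat_lit 76) (nat_lit 1420219094913) (nat_lit 1) (nat_lit 4) (nat_lit 2) (nat_lit 5) (nat_lit 2) (nat_lit 4) (nat_lit 359) (nat_lit 273) (nat_lit 268))) (XT.nd (nat_lit 78) (nat_lit 0) (nat_lit 0) (XT.lf (nat_lit 0) (nat_lit 407254045991) (nat_lit 76) (nat_lit 1632529397354) (nat_lit 76) (nat_lit 1632451947922) (nat_lit 1) (nat_lit 4) (nat_lit 2) (nat_lit 5) (nat_lit 2) (nat_lit 4) (nat_lit 360) (nat_lit 273) (nat_lit 267)) (XT.nd (nat_lit 78) (nat_lit 0) (nat_lit 0) (XT.lf (nat_lit 0) (nat_lit 469742607109) (nat_lit 76) (nat_lit 1876656426187) (nat_lit 76) (nat_lit 1876571283204) (nat_lit 1) (nat_lit 4) (nat_lit 2) (nat_lit 5) (nat_lit 2) (nat_lit 4) (nat_lit 361) (nat_lit 273) (nat_lit 266)) (XT.lf (nat_lit 0) (nat_lit 541522802821) (nat_lit 76) (nat_lit 2157445181651) (nat_lit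 76) (nat_lit 2157353348625) (nat_lit 1) (nat_lit 4) (nat_lit 2) (nat_lit 5) (nat_lit 2) (nat_lit 4) (nat_lit 362) (nat_lit 273) (nat_lit 265)))))) (XT.nd (nat_lit 390) (nat_lit 0) (nat_lit 0) (XT.nd (nat_lit 156) (nat_lit 0) (nat_lit 0) (XT.nd (nat_lit 78) (nat_lit 0) (nat_lit 0) (XT.lf (nat_lit 0) (nat_lit 623999028260) (nat_lit 76) (nat_lit 2480389356788) (nat_lit 76) (nat_lit 2480291706332) (nat_lit 1) (nat_lit 4) (nat_lit 2) (nat_lit 5) (nat_lit 2) (nat_lit 4) (nat_lit 363) (nat_lit 273) (nat_lit 264)) (XT.lf (nat_lit 0) (nat_lit 718784948707) (nat_lit 76) (nat_lit 2851807424590) (nat_lit 76) (nat_lit 2851704715499) (nat_lit 1) (nat_lit 4) (nat_lit 2) (nat_lit 5) (nat_lit 2) (nat_lit 4) (nat_lit 364) (nat_lit 273) (nat_lit 263))) (XT.nd (nat_lit 78) (nat_lit 0) (nat_lit 0) (XT.lf (nat_lit 0) (nat_lit 827735071300) (nat_lit 76) (nat_lit 3278966260296) (nat_lit 76) (nat_lit 3278859152392)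 (nat_lit 1) (nat_lit 4) (nat_lit 2) (nat_lit 5) (nat_lit 2) (nat_lit 4) (nat_lit 365) (nat_lit 273) (nat_lit 262)) (XT.nd (nat_lit 78) (nat_lit 0) (nat_lit 0) (XT.lf (nat_lit 0) (nat_lit 952981028873) (nat_lit 76) (nat_lit 3770223319387) (nat_lit 76) (nat_lit 3770112386428) (nat_lit 1) (nat_lit 4) (nat_lit 2) (nat_lit 5) (nat_lit 2) (nat_lit 4) (nat_lit 366) (nat_lit 273) (nat_lit 261)) (XT.lf (nat_lit 0) (nat_lit 1096973285813) (nat_lit 76) (nat_lit 4335190153019) (nat_lit 76) (nat_lit 4335075893926) (nat_lit 1) (nat_lit 4) (nat_lit 2) (nat_lit 5) (nat_lit 2) (nat_lit 4) (nat_lit 367) (nat_lit 273) (nat_lit 260))))) (XT.nd (nat_lit 234) (nat_lit 0) (nat_lit 0) (XT.nd (nat_lit 78) (nat_lit 0) (nat_lit 0) (XT.lf (nat_lit 0) (nat_lit 1262529081930) (nat_lit 76) (nat_lit 4984920460112) (nat_lit 76) (nat_lit 4984803308728) (nat_lit 1) (nat_lit 4) (nat_lit 2) (nat_lit 5) (nat_lit 2) (nat_lit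 4) (nat_lit 368) (nat_lit 273) (nat_lit 259)) (XT.nd (nat_lit 78) (nat_lit 0) (nat_lit 0) (XT.lf (nat_lit 0) (nat_lit 1452887552366) (nat_lit 76) (nat_lit 5732126355369) (nat_lit 76) (nat_lit 5732006688950) (nat_lit 1) (nat_lit 4) (nat_lit 2) (nat_lit 5) (nat_lit 2) (nat_lit 4) (nat_lit 369) (nat_lit 273) (nat_lit 258)) (XT.lf (nat_lit 0) (nat_lit 1671773101977) (nat_lit 76) (nat_lit 6591427084567) (nat_lit 76) (nat_lit 6591305231160) (nat_lit 1) (nat_lit 4) (nat_lit 2) (nat_lit 5) (nat_lit 2) (nat_lit 4) (nat_lit 370) (nat_lit 273) (nat_lit 257)))) (XT.nd (nat_lit 78) (nat_lit 0) (nat_lit 0) (XT.lf (nat_lit 0) (nat_lit 1923468274124) (nat_lit 76) (nat_lit 7579635053277) (nat_lit 76) (nat_lit 7579511298143) (nat_lit 1) (nat_lit 4) (nat_lit 2) (nat_lit 5) (nat_lit 2) (nat_lit 4) (nat_lit 371) (nat_lit 273) (nat_lit 256)) (XT.nd (nat_lit 78) (nat_lit 0) (nat_lit 0) (XT.lf (nat_lit 0) (nat_lit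 2212897539567) (nat_lit 76) (nat_lit 8716084765236) (nat_lit 76) (nat_lit 8715959356425) (nat_lit 1) (nat_lit 4) (nat_lit 2) (nat_lit 5) (nat_lit 2) (nat_lit 4) (nat_lit 372) (nat_lit 273) (nat_lit 255)) (XT.lf (nat_lit 0) (nat_lit 2545723644804) (nat_lit 76) (nat_lit 10023011106111) (nat_lit 76) (nat_lit 10022884259320) (nat_lit 1) (nat_lit 4) (nat_lit 2) (nat_lit 5) (nat_lit 2) (nat_lit 4) (nat_lit 373) (nat_lit 273) (nat_lit 254))))))) (XT.nd (nat_lit 858) (nat_lit 0) (nat_lit 0) (XT.nd (nat_lit 390) (nat_lit 0) (nat_lit 0) (XT.nd (nat_lit 156) (nat_lit 0) (nat_lit 0) (XT.nd (nat_lit 78) (nat_lit 0) (nat_lit 0) (XT.lf (nat_lit 0) (nat_lit 2928458404938) (nat_lit 76) (nat_lit 11525984373876) (nat_lit 76) (nat_lit 11525856276669) (nat_lit 1) (nat_lit 4) (nat_lit 2) (nat_lit 5) (nat_lit 2) (nat_lit 4) (nat_lit 374) (nat_lit 273) (nat_lit 253)) (XT.lf (nat_lit 0) (nat_lit 3368590108753)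 (nat_lit 76) (nat_lit 13254410567250) (nat_lit 76) (nat_lit 13254281382723) (nat_lit 1) (nat_lit 4) (nat_lit 2) (nat_lit 5) (nat_lit 2) (nat_lit 4) (nat_lit 375) (nat_lit 273) (nat_lit 252))) (XT.nd (nat_lit 78) (nat_lit 0) (nat_lit 0) (XT.lf (nat_lit 0) (nat_lit 3874730028716) (nat_lit 76) (nat_lit 15242106720448) (nat_lit 76) (nat_lit 15241976590426) (nat_lit 1) (nat_lit 4) (nat_lit 2) (nat_lit 5) (nat_lit 2) (nat_lit 4) (nat_lit 376) (nat_lit 273) (nat_lit 251)) (XT.nd (nat_lit 78) (nat_lit 0) (nat_lit 0) (XT.lf (nat_lit 0) (nat_lit 4456780902390) (nat_lit 76) (nat_lit 17527962540818) (nat_lit 76) (nat_lit 17527831588627) (nat_lit 1) (nat_lit 4) (nat_lit 2) (nat_lit 5) (nat_lit 2) (nat_lit 4) (nat_lit 377) (nat_lit 273) (nat_lit 250)) (XT.lf (nat_lit 0) (nat_lit 5126130681653) (nat_lit 76) (nat_lit 20156701294410) (nat_lit 76) (nat_lit 20156569627288) (nat_lit 1) (nat_lit 4) (nat_lit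 2) (nat_lit 5) (nat_lit 2) (nat_lit 4) (nat_lit 378) (nat_lit 273) (nat_lit 249))))) (XT.nd (nat_lit 234) (nat_lit 0) (nat_lit 0) (XT.nd (nat_lit 78) (nat_lit 0) (nat_lit 0) (XT.lf (nat_lit 0) (nat_lit 5895875340447) (nat_lit 76) (nat_lit 23179754826402) (nat_lit 76) (nat_lit 23179622537602) (nat_lit 1) (nat_lit 4) (nat_lit 2) (nat_lit 5) (nat_lit 2) (nat_lit 4) (nat_lit 379) (nat_lit 273) (nat_lit 248)) (XT.nd (nat_lit 78) (nat_lit 0) (nat_lit 0) (XT.lf (nat_lit 0) (nat_lit 6781075100355) (nat_lit 76) (nat_lit 26656269836333) (nat_lit 76) (nat_lit 26656137006943) (nat_lit 1) (nat_lit 4) (nat_lit 2) (nat_lit 5) (nat_lit 2) (nat_lit 4) (nat_lit 380) (nat_lit 273) (nat_lit 247)) (XT.lf (nat_lit 0) (nat_lit 7799049087117) (nat_lit 76) (nat_lit 30654265096137) (nat_lit 76) (nat_lit 30654131796670) (nat_lit 1) (nat_lit 4) (nat_lit 2) (nat_lit 5) (nat_lit 2) (nat_lit 4) (nat_lit 381) (nat_lit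 273) (nat_lit 246)))) (XT.nd (nat_lit 78) (nat_lit 0) (nat_lit 0) (XT.lf (nat_lit 0) (nat_lit 8969714183081) (nat_lit 76) (nat_lit 35251962252202) (nat_lit 76) (nat_lit 35251828543971) (nat_lit 1) (nat_lit 4) (nat_lit 2) (nat_lit 5) (nat_lit 2) (nat_lit 4) (nat_lit 382) (nat_lit 273) (nat_lit 245)) (XT.nd (nat_lit 78) (nat_lit 0) (nat_lit 0) (XT.lf (nat_lit 0) (nat_lit 10315974705343) (nat_lit 76) (nat_lit 40539316248886) (nat_lit 76) (nat_lit 40539182185208) (nat_lit 1) (nat_lit 4) (nat_lit 2) (nat_lit 5) (nat_lit 2) (nat_lit 4) (nat_lit 383) (nat_lit 273) (nat_lit 244)) (XT.lf (nat_lit 0) (nat_lit 11864170533685) (nat_lit 76) (nat_lit 46619775316557) (nat_lit 76) (nat_lit 46619640943795) (nat_lit 1) (nat_lit 4) (nat_lit 2) (nat_lit 5) (nat_lit 2) (nat_lit 4) (nat_lit 384) (nat_lit 273) (nat_lit 243)))))) (XT.nd (nat_lit 44304) (nat_lit 0) (nat_lit 0) (XT.nd (nat_lit 156) (nat_lit 0)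 (nat_lit 0) (XT.nd (nat_lit 78) (nat_lit 0) (nat_lit 0) (XT.lf (nat_lit 0) (nat_lit 13644592456054) (nat_lit 76) (nat_lit 53612304958715) (nat_lit 76) (nat_lit 53612170317184) (nat_lit 1) (nat_lit 4) (nat_lit 2) (nat_lit 5) (nat_lit 2) (nat_lit 4) (nat_lit 385) (nat_lit 273) (nat_lit 242)) (XT.lf (nat_lit 0) (nat_lit 15692074814409) (nat_lit 76) (nat_lit 61653715537922) (nat_lit 76) (nat_lit 61653580662680) (nat_lit 1) (nat_lit 4) (nat_lit 2) (nat_lit 5) (nat_lit 2) (nat_lit 4) (nat_lit 386) (nat_lit 273) (nat_lit 241))) (XT.nd (nat_lit 78) (nat_lit 0) (nat_lit 0) (XT.lf (nat_lit 0) (nat_lit 18046677046196) (nat_lit 76) (nat_lit 70901339000294) (nat_lit 76) (nat_lit 70901203921824) (nat_lit 1) (nat_lit 4) (nat_lit 2) (nat_lit 5) (nat_lit 2) (nat_lit 4) (nat_lit 387) (nat_lit 273) (nat_lit 240)) (XT.nd (nat_lit 78) (nat_lit 0) (nat_lit 0) (XT.lf (nat_lit 0) (nat_lit 20754467455950) (nat_lit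 76) (nat_lit 81536107109226) (nat_lit 76) (nat_lit 81535971854036) (nat_lit 1) (nat_lit 4) (nat_lit 2) (nat_lit 5) (nat_lit 2) (nat_lit 4) (nat_lit 388) (nat_lit 273) (nat_lit 239)) (XT.lf (nat_lit 0) (nat_lit 23868424551689) (nat_lit 76) (nat_lit 93766091414674) (nat_lit 76) (nat_lit 93765956005815) (nat_lit 1) (nat_lit 4) (nat_lit 2) (nat_lit 5) (nat_lit 2) (nat_lit 4) (nat_lit 389) (nat_lit 273) (nat_lit 238))))) (XT.nd (nat_lit 234) (nat_lit 0) (nat_lit 0) (XT.nd (nat_lit 78) (nat_lit 0) (nat_lit 0) (XT.lf (nat_lit 0) (nat_lit 61837174413) (nat_lit 76) (nat_lit 269365959143) (nat_lit 76) (nat_lit 269365959143) (nat_lit 1) (nat_lit 4) (nat_lit 2) (nat_lit 5) (nat_lit 2) (nat_lit 4) (nat_lit 352) (nat_lit 274) (nat_lit 274)) (XT.nd (nat_lit 78) (nat_lit 0) (nat_lit 0) (XT.lf (nat_lit 0) (nat_lit 144781265851) (nat_lit 76) (nat_lit 618182458577) (nat_lit 76) (nat_lit 618161993579) (nat_lit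 1) (nat_lit 4) (nat_lit 2) (nat_lit 5) (nat_lit 2) (nat_lit 4) (nat_lit 353) (nat_lit 274) (nat_lit 273)) (XT.lf (nat_lit 0) (nat_lit 168837030938) (nat_lit 76) (nat_lit 709664089094) (nat_lit 76) (nat_lit 709625828445) (nat_lit 1) (nat_lit 4) (nat_lit 2) (nat_lit 5) (nat_lit 2) (nat_lit 4) (nat_lit 354) (nat_lit 274) (nat_lit 272)))) (XT.nd (nat_lit 78) (nat_lit 0) (nat_lit 0) (XT.lf (nat_lit 0) (nat_lit 196312300362) (nat_lit 76) (nat_lit 814966667825) (nat_lit 76) (nat_lit 814912932697) (nat_lit 1) (nat_lit 4) (nat_lit 2) (nat_lit 5) (nat_lit 2) (nat_lit 4) (nat_lit 355) (nat_lit 274) (nat_lit 271)) (XT.nd (nat_lit 78) (nat_lit 0) (nat_lit 0) (XT.lf (nat_lit 0) (nat_lit 227744633742) (nat_lit 76) (nat_lit 936150462616) (nat_lit 76) (nat_lit 936083271419) (nat_lit 1) (nat_lit 4) (nat_lit 2) (nat_lit 5) (nat_lit 2) (nat_lit 4) (nat_lit 356) (nat_lit 274) (nat_lit 270)) (XT.lf (nat_lit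 0) (nat_lit 263749011513) (nat_lit 76) (nat_lit 1075586460754) (nat_lit 76) (nat_lit 1075507568629) (nat_lit 1) (nat_lit 4) (nat_lit 2) (nat_lit 5) (nat_lit 2) (nat_lit 4) (nat_lit 357) (nat_lit 274) (nat_lit 269))))))))
noncomputable def xc9 : XT := (XT.nd (nat_lit 1716) (nat_lit 0) (nat_lit 0) (XT.nd (nat_lit 858) (nat_lit 0) (nat_lit 0) (XT.nd (nat_lit 390) (nat_lit 0) (nat_lit 0) (XT.nd (nat_lit 156) (nat_lit 0) (nat_lit 0) (XT.nd (nat_lit 78) (nat_lit 0) (nat_lit 0) (XT.lf (nat_lit 0) (nat_lit 305029867155) (nat_lit 76) (nat_lit 1236002757858) (nat_lit 76) (nat_lit 1235913691011) (nat_lit 1) (nat_lit 4) (nat_lit 2) (nat_lit 5) (nat_lit 2) (nat_lit 4) (nat_lit 358) (nat_lit 274) (nat_lit 268)) (XT.lf (nat_lit 0) (nat_lit 352394869580) (nat_lit 76) (nat_lit 1420537933651) (nat_lit 76) (nat_lit 1420440019221) (nat_lit 1) (nat_lit 4) (nat_lit 2) (nat_lit 5) (nat_lit 2) (nat_lit 4) (nat_lit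 359) (nat_lit 274) (nat_lit 267))) (XT.nd (nat_lit 78) (nat_lit 0) (nat_lit 0) (XT.lf (nat_lit 0) (nat_lit 406770725360) (nat_lit 76) (nat_lit 1632802458965) (nat_lit 76) (nat_lit 1632696850984) (nat_lit 1) (nat_lit 4) (nat_lit 2) (nat_lit 5) (nat_lit 2) (nat_lit 4) (nat_lit 360) (nat_lit 274) (nat_lit 266)) (XT.nd (nat_lit 78) (nat_lit 0) (nat_lit 0) (XT.lf (nat_lit 0) (nat_lit 469221309932) (nat_lit 76) (nat_lit 1876949335383) (nat_lit 76) (nat_lit 1876837037358) (nat_lit 1) (nat_lit 4) (nat_lit 2) (nat_lit 5) (nat_lit 2) (nat_lit 4) (nat_lit 361) (nat_lit 274) (nat_lit 265)) (XT.lf (nat_lit 0) (nat_lit 540968482560) (nat_lit 76) (nat_lit 2157755349616) (nat_lit 76) (nat_lit 2157637234161) (nat_lit 1) (nat_lit 4) (nat_lit 2) (nat_lit 5) (nat_lit 2) (nat_lit 4) (nat_lit 362) (nat_lit 274) (nat_lit 264))))) (XT.nd (nat_lit 234) (nat_lit 0) (nat_lit 0) (XT.nd (nat_lit 78) (nat_lit 0) (nat_lit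 0) (XT.lf (nat_lit 0) (nat_lit 623415992274) (nat_lit 76) (nat_lit 2480714532378) (nat_lit 76) (nat_lit 2480591358289) (nat_lit 1) (nat_lit 4) (nat_lit 2) (nat_lit 5) (nat_lit 2) (nat_lit 4) (nat_lit 363) (nat_lit 274) (nat_lit 263)) (XT.nd (nat_lit 78) (nat_lit 0) (nat_lit 0) (XT.lf (nat_lit 0) (nat_lit 718176942525) (nat_lit 76) (nat_lit 2852145650288) (nat_lit 76) (nat_lit 2852018077386) (nat_lit 1) (nat_lit 4) (nat_lit 2) (nat_lit 5) (nat_lit 2) (nat_lit 4) (nat_lit 364) (nat_lit 274) (nat_lit 262)) (XT.lf (nat_lit 0) (nat_lit 827105351905) (nat_lit 76) (nat_lit 3279315833915) (nat_lit 76) (nat_lit 3279184435958) (nat_lit 1) (nat_lit 4) (nat_lit 2) (nat_lit 5) (nat_lit 2) (nat_lit 4) (nat_lit 365) (nat_lit 274) (nat_lit 261)))) (XT.nd (nat_lit 78) (nat_lit 0) (nat_lit 0) (XT.lf (nat_lit 0) (nat_lit 952332428423) (nat_lit 76) (nat_lit 3770582760763) (nat_lit 76) (nat_lit 3770448036672)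 (nat_lit 1) (nat_lit 4) (nat_lit 2) (nat_lit 5) (nat_lit 2) (nat_lit 4) (nat_lit 366) (nat_lit 274) (nat_lit 260)) (XT.nd (nat_lit 78) (nat_lit 0) (nat_lit 0) (XT.lf (nat_lit 0) (nat_lit 1096308267054) (nat_lit 76) (nat_lit 4335558175054) (nat_lit 76) (nat_lit 4335420558672) (nat_lit 1) (nat_lit 4) (nat_lit 2) (nat_lit 5) (nat_lit 2) (nat_lit 4) (nat_lit 367) (nat_lit 274) (nat_lit 259)) (XT.lf (nat_lit 0) (nat_lit 1261849786381) (nat_lit 76) (nat_lit 4985295943588) (nat_lit 76) (nat_lit 4985155812171) (nat_lit 1) (nat_lit 4) (nat_lit 2) (nat_lit 5) (nat_lit 2) (nat_lit 4) (nat_lit 368) (nat_lit 274) (nat_lit 258)))))) (XT.nd (nat_lit 390) (nat_lit 0) (nat_lit 0) (XT.nd (nat_lit 156) (nat_lit 0) (nat_lit 0) (XT.nd (nat_lit 78) (nat_lit 0) (nat_lit 0) (XT.lf (nat_lit 0) (nat_lit 1452195842216) (nat_lit 76) (nat_lit 5732508327056) (nat_lit 76) (nat_lit 5732366008651) (nat_lit 1) (nat_lit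 4) (nat_lit 2) (nat_lit 5) (nat_lit 2) (nat_lit 4) (nat_lit 369) (nat_lit 274) (nat_lit 257)) (XT.lf (nat_lit 0) (nat_lit 1671070596522) (nat_lit 76) (nat_lit 6591814698176) (nat_lit 76) (nat_lit 6591670478043) (nat_lit 1) (nat_lit 4) (nat_lit 2) (nat_lit 5) (nat_lit 2) (nat_lit 4) (nat_lit 370) (nat_lit 274) (nat_lit 256))) (XT.nd (nat_lit 78) (nat_lit 0) (nat_lit 0) (XT.lf (nat_lit 0) (nat_lit 1922756381448) (nat_lit 76) (nat_lit 7580027572906) (nat_lit 76) (nat_lit 7579881699097) (nat_lit 1) (nat_lit 4) (nat_lit 2) (nat_lit 5) (nat_lit 2) (nat_lit 4) (nat_lit 371) (nat_lit 274) (nat_lit 255)) (XT.nd (nat_lit 78) (nat_lit 0) (nat_lit 0) (XT.lf (nat_lit 0) (nat_lit 2212177484090) (nat_lit 76) (nat_lit 8716481550968) (nat_lit 76) (nat_lit 8716334239179) (nat_lit 1) (nat_lit 4) (nat_lit 2) (nat_lit 5) (nat_lit 2) (nat_lit 4) (nat_lit 372) (nat_lit 274) (nat_lit 254)) (XT.lf (nat_lit 0)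 (nat_lit 2544996491239) (nat_lit 76) (nat_lit 10023411601499) (nat_lit 76) (nat_lit 10023263039293) (nat_lit 1) (nat_lit 4) (nat_lit 2) (nat_lit 5) (nat_lit 2) (nat_lit 4) (nat_lit 373) (nat_lit 274) (nat_lit 253))))) (XT.nd (nat_lit 234) (nat_lit 0) (nat_lit 0) (XT.nd (nat_lit 78) (nat_lit 0) (nat_lit 0) (XT.lf (nat_lit 0) (nat_lit 2927725079123) (nat_lit 76) (nat_lit 11526388095051) (nat_lit 76) (nat_lit 11526238445526) (nat_lit 1) (nat_lit 4) (nat_lit 2) (nat_lit 5) (nat_lit 2) (nat_lit 4) (nat_lit 374) (nat_lit 274) (nat_lit 252)) (XT.nd (nat_lit 78) (nat_lit 0) (nat_lit 0) (XT.lf (nat_lit 0) (nat_lit 3367851415763) (nat_lit 76) (nat_lit 13254817093457) (nat_lit 76) (nat_lit 13254666498437) (nat_lit 1) (nat_lit 4) (nat_lit 2) (nat_lit 5) (nat_lit 2) (nat_lit 4) (nat_lit 375) (nat_lit 274) (nat_lit 251)) (XT.lf (nat_lit 0) (nat_lit 3873986668618) (nat_lit 76) (nat_lit 15242515685815)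 (nat_lit 76) (nat_lit 15242364268625) (nat_lit 1) (nat_lit 4) (nat_lit 2) (nat_lit 5) (nat_lit 2) (nat_lit 4) (nat_lit 376) (nat_lit 274) (nat_lit 250)))) (XT.nd (nat_lit 78) (nat_lit 0) (nat_lit 0) (XT.lf (nat_lit 0) (nat_lit 4456033483938) (nat_lit 76) (nat_lit 17528373627192) (nat_lit 76) (nat_lit 17528221495072) (nat_lit 1) (nat_lit 4) (nat_lit 2) (nat_lit 5) (nat_lit 2) (nat_lit 4) (nat_lit 377) (nat_lit 274) (nat_lit 249)) (XT.nd (nat_lit 78) (nat_lit 0) (nat_lit 0) (XT.lf (nat_lit 0) (nat_lit 5125379734197) (nat_lit 76) (nat_lit 20157114225138) (nat_lit 76) (nat_lit 20156961471339) (nat_lit 1) (nat_lit 4) (nat_lit 2) (nat_lit 5) (nat_lit 2) (nat_lit 4) (nat_lit 378) (nat_lit 274) (nat_lit 248)) (XT.lf (nat_lit 0) (nat_lit 5895121324291) (nat_lit 76) (nat_lit 23180169360916) (nat_lit 76) (nat_lit 23180016066528) (nat_lit 1) (nat_lit 4) (nat_lit 2) (nat_lit 5) (nat_lit 2) (nat_lit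 4) (nat_lit 379) (nat_lit 274) (nat_lit 247))))))) (XT.nd (nat_lit 44772) (nat_lit 0) (nat_lit 0) (XT.nd (nat_lit 390) (nat_lit 0) (nat_lit 0) (XT.nd (nat_lit 156) (nat_lit 0) (nat_lit 0) (XT.nd (nat_lit 78) (nat_lit 0) (nat_lit 0) (XT.lf (nat_lit 0) (nat_lit 6780318415765) (nat_lit 76) (nat_lit 26656685765444) (nat_lit 76) (nat_lit 26656532000978) (nat_lit 1) (nat_lit 4) (nat_lit 2) (nat_lit 5) (nat_lit 2) (nat_lit 4) (nat_lit 380) (nat_lit 274) (nat_lit 246)) (XT.lf (nat_lit 0) (nat_lit 7798290082149) (nat_lit 76) (nat_lit 30654682237942) (nat_lit 76) (nat_lit 30654528064712) (nat_lit 1) (nat_lit 4) (nat_lit 2) (nat_lit 5) (nat_lit 2) (nat_lit 4) (nat_lit 381) (nat_lit 274) (nat_lit 245))) (XT.nd (nat_lit 78) (nat_lit 0) (nat_lit 0) (XT.lf (nat_lit 0) (nat_lit 8968953160394) (nat_lit 76) (nat_lit 35252380448522) (nat_lit 76) (nat_lit 35252225919846) (nat_lit 1) (nat_lit 4) (nat_lit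 2) (nat_lit 5) (nat_lit 2) (nat_lit 4) (nat_lit 382) (nat_lit 274) (nat_lit 244)) (XT.nd (nat_lit 78) (nat_lit 0) (nat_lit 0) (XT.lf (nat_lit 0) (nat_lit 10315211928116) (nat_lit 76) (nat_lit 40539735362176) (nat_lit 76) (nat_lit 40539580524415) (nat_lit 1) (nat_lit 4) (nat_lit 2) (nat_lit 5) (nat_lit 2) (nat_lit 4) (nat_lit 383) (nat_lit 274) (nat_lit 243)) (XT.lf (nat_lit 0) (nat_lit 11863406230773) (nat_lit 76) (nat_lit 46620195227212) (nat_lit 76) (nat_lit 46620040120683) (nat_lit 1) (nat_lit 4) (nat_lit 2) (nat_lit 5) (nat_lit 2) (nat_lit 4) (nat_lit 384) (nat_lit 274) (nat_lit 242))))) (XT.nd (nat_lit 44148) (nat_lit 0) (nat_lit 0) (XT.nd (nat_lit 78) (nat_lit 0) (nat_lit 0) (XT.lf (nat_lit 0) (nat_lit 13643826826459) (nat_lit 76) (nat_lit 53612725562731) (nat_lit 76) (nat_lit 53612570222490) (nat_lit 1) (nat_lit 4) (nat_lit 2) (nat_lit 5) (nat_lit 2) (nat_lit 4) (nat_lit 385) (nat_lit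 274) (nat_lit 241)) (XT.nd (nat_lit 78) (nat_lit 0) (nat_lit 0) (XT.lf (nat_lit 0) (nat_lit 15691308031176) (nat_lit 76) (nat_lit 61654136744861) (nat_lit 76) (nat_lit 61653981201393) (nat_lit 1) (nat_lit 4) (nat_lit 2) (nat_lit 5) (nat_lit 2) (nat_lit 4) (nat_lit 386) (nat_lit 274) (nat_lit 240)) (XT.lf (nat_lit 0) (nat_lit 18045909259800) (nat_lit 76) (nat_lit 70901760731514) (nat_lit 76) (nat_lit 70901605011326) (nat_lit 1) (nat_lit 4) (nat_lit 2) (nat_lit 5) (nat_lit 2) (nat_lit 4) (nat_lit 387) (nat_lit 274) (nat_lit 239)))) (XT.nd (nat_lit 78) (nat_lit 0) (nat_lit 0) (XT.lf (nat_lit 0) (nat_lit 44419212626) (nat_lit 76) (nat_lit 204932465411) (nat_lit 76) (nat_lit 204932465411) (nat_lit 1) (nat_lit 4) (nat_lit 2) (nat_lit 5) (nat_lit 2) (nat_lit 4) (nat_lit 350) (nat_lit 275) (nat_lit 275)) (XT.nd (nat_lit 78) (nat_lit 0) (nat_lit 0) (XT.lf (nat_lit 0) (nat_lit 105103318446) (nat_lit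 76) (nat_lit 469781535876) (nat_lit 76) (nat_lit 469758001128) (nat_lit 1) (nat_lit 4) (nat_lit 2) (nat_lit 5) (nat_lit 2) (nat_lit 4) (nat_lit 351) (nat_lit 275) (nat_lit 274)) (XT.lf (nat_lit 0) (nat_lit 123558177704) (nat_lit 76) (nat_lit 538816167248) (nat_lit 76) (nat_lit 538772167501) (nat_lit 1) (nat_lit 4) (nat_lit 2) (nat_lit 5) (nat_lit 2) (nat_lit 4) (nat_lit 352) (nat_lit 275) (nat_lit 273)))))) (XT.nd (nat_lit 390) (nat_lit 0) (nat_lit 0) (XT.nd (nat_lit 156) (nat_lit 0) (nat_lit 0) (XT.nd (nat_lit 78) (nat_lit 0) (nat_lit 0) (XT.lf (nat_lit 0) (nat_lit 144564076361) (nat_lit 76) (nat_lit 618319502507) (nat_lit 76) (nat_lit 618257707110) (nat_lit 1) (nat_lit 4) (nat_lit 2) (nat_lit 5) (nat_lit 2) (nat_lit 4) (nat_lit 353) (nat_lit 275) (nat_lit 272)) (XT.lf (nat_lit 0) (nat_lit 168531999389) (nat_lit 76) (nat_lit 709847041692) (nat_lit 76) (nat_lit 709769771817) (nat_lit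 1) (nat_lit 4) (nat_lit 2) (nat_lit 5) (nat_lit 2) (nat_lit 4) (nat_lit 354) (nat_lit 275) (nat_lit 271))) (XT.nd (nat_lit 78) (nat_lit 0) (nat_lit 0) (XT.lf (nat_lit 0) (nat_lit 195930884414) (nat_lit 76) (nat_lit 815189541005) (nat_lit 76) (nat_lit 815098815061) (nat_lit 1) (nat_lit 4) (nat_lit 2) (nat_lit 5) (nat_lit 2) (nat_lit 4) (nat_lit 355) (nat_lit 275) (nat_lit 270)) (XT.nd (nat_lit 78) (nat_lit 0) (nat_lit 0) (XT.lf (nat_lit 0) (nat_lit 227296796577) (nat_lit 76) (nat_lit 936408049344) (nat_lit 76) (nat_lit 936305622471) (nat_lit 1) (nat_lit 4) (nat_lit 2) (nat_lit 5) (nat_lit 2) (nat_lit 4) (nat_lit 356) (nat_lit 275) (nat_lit 269)) (XT.lf (nat_lit 0) (nat_lit 263243416769) (nat_lit 76) (nat_lit 1075874233178) (nat_lit 76) (nat_lit 1075761631583) (nat_lit 1) (nat_lit 4) (nat_lit 2) (nat_lit 5) (nat_lit 2) (nat_lit 4) (nat_lit 357) (nat_lit 275) (nat_lit 268))))) (XT.nd (nat_lit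 234) (nat_lit 0) (nat_lit 0) (XT.nd (nat_lit 78) (nat_lit 0) (nat_lit 0) (XT.lf (nat_lit 0) (nat_lit 304474048428) (nat_lit 76) (nat_lit 1236316778711) (nat_lit 76) (nat_lit 1236195329533) (nat_lit 1) (nat_lit 4) (nat_lit 2) (nat_lit 5) (nat_lit 2) (nat_lit 4) (nat_lit 358) (nat_lit 275) (nat_lit 267)) (XT.nd (nat_lit 78) (nat_lit 0) (nat_lit 0) (XT.lf (nat_lit 0) (nat_lit 351795377826) (nat_lit 76) (nat_lit 1420874779226) (nat_lit 76) (nat_lit 1420745636497) (nat_lit 1) (nat_lit 4) (nat_lit 2) (nat_lit 5) (nat_lit 2) (nat_lit 4) (nat_lit 359) (nat_lit 275) (nat_lit 266)) (XT.lf (nat_lit 0) (nat_lit 406133257059) (nat_lit 76) (nat_lit 1633159152125) (nat_lit 76) (nat_lit 1633023319352) (nat_lit 1) (nat_lit 4) (nat_lit 2) (nat_lit 5) (nat_lit 2) (nat_lit 4) (nat_lit 360) (nat_lit 275) (nat_lit 265)))) (XT.nd (nat_lit 78) (nat_lit 0) (nat_lit 0) (XT.lf (nat_lit 0) (nat_lit 468550818548)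 (nat_lit 76) (nat_lit 1877323287311) (nat_lit 76) (nat_lit 1877181637108) (nat_lit 1) (nat_lit 4) (nat_lit 2) (nat_lit 5) (nat_lit 2) (nat_lit 4) (nat_lit 361) (nat_lit 275) (nat_lit 264)) (XT.nd (nat_lit 78) (nat_lit 0) (nat_lit 0) (XT.lf (nat_lit 0) (nat_lit 540269275451) (nat_lit 76) (nat_lit 2158144309169) (nat_lit 76) (nat_lit 2157997600332) (nat_lit 1) (nat_lit 4) (nat_lit 2) (nat_lit 5) (nat_lit 2) (nat_lit 4) (nat_lit 362) (nat_lit 275) (nat_lit 263)) (XT.lf (nat_lit 0) (nat_lit 622691814970) (nat_lit 76) (nat_lit 2481116542040) (nat_lit 76) (nat_lit 2480965434390) (nat_lit 1) (nat_lit 4) (nat_lit 2) (nat_lit 5) (nat_lit 2) (nat_lit 4) (nat_lit 363) (nat_lit 275) (nat_lit 262))))))))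
noncomputable def xc10 : XT := (XT.nd (nat_lit 1638) (nat_lit 0) (nat_lit 0) (XT.nd (nat_lit 780) (nat_lit 0) (nat_lit 0) (XT.nd (nat_lit 390) (nat_lit 0) (nat_lit 0) (XT.nd (nat_lit 156) (nat_lit 0) (nat_lit 0) (XT.nd (nat_lit 78) (nat_lit 0) (nat_lit 0) (XT.lf (nat_lit 0) (nat_lit 717431052007) (nat_lit 76) (nat_lit 2852559007871) (nat_lit 76) (nat_lit 2852404075166) (nat_lit 1) (nat_lit 4) (nat_lit 2) (nat_lit 5) (nat_lit 2) (nat_lit 4) (nat_lit 364) (nat_lit 275) (nat_lit 261)) (XT.lf (nat_lit 0) (nat_lit 826340580332) (nat_lit 76) (nat_lit 3279739059255) (nat_lit 76) (nat_lit 3279580800416) (nat_lit 1) (nat_lit 4) (nat_lit 2) (nat_lit 5) (nat_lit 2) (nat_lit 4) (nat_lit 365) (nat_lit 275) (nat_lit 260))) (XT.nd (nat_lit 78) (nat_lit 0) (nat_lit 0) (XT.lf (nat_lit 0) (nat_lit 951551238541) (nat_lit 76) (nat_lit 3771014566761) (nat_lit 76) (nat_lit 3770853415631) (nat_lit 1) (nat_lit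 4) (nat_lit 2) (nat_lit 5) (nat_lit 2) (nat_lit 4) (nat_lit 366) (nat_lit 275) (nat_lit 259)) (XT.nd (nat_lit 78) (nat_lit 0) (nat_lit 0) (XT.lf (nat_lit 0) (nat_lit 1095512800382) (nat_lit 76) (nat_lit 4335997442494) (nat_lit 76) (nat_lit 4335833776329) (nat_lit 1) (nat_lit 4) (nat_lit 2) (nat_lit 5) (nat_lit 2) (nat_lit 4) (nat_lit 367) (nat_lit 275) (nat_lit 258)) (XT.lf (nat_lit 0) (nat_lit 1261041905109) (nat_lit 76) (nat_lit 4985741699239) (nat_lit 76) (nat_lit 4985575846087) (nat_lit 1) (nat_lit 4) (nat_lit 2) (nat_lit 5) (nat_lit 2) (nat_lit 4) (nat_lit 368) (nat_lit 275) (nat_lit 257))))) (XT.nd (nat_lit 156) (nat_lit 0) (nat_lit 0) (XT.nd (nat_lit 78) (nat_lit 0) (nat_lit 0) (XT.lf (nat_lit 0) (nat_lit 1451377165640) (nat_lit 76) (nat_lit 5732959724629) (nat_lit 76) (nat_lit 5732791969748) (nat_lit 1) (nat_lit 4) (nat_lit 2) (nat_lit 5) (nat_lit 2) (nat_lit 4) (nat_lit 369)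 (nat_lit 275) (nat_lit 256)) (XT.lf (nat_lit 0) (nat_lit 1670242532724) (nat_lit 76) (nat_lit 6592271001768) (nat_lit 76) (nat_lit 6592101593211) (nat_lit 1) (nat_lit 4) (nat_lit 2) (nat_lit 5) (nat_lit 2) (nat_lit 4) (nat_lit 370) (nat_lit 275) (nat_lit 255))) (XT.nd (nat_lit 78) (nat_lit 0) (nat_lit 0) (XT.lf (nat_lit 0) (nat_lit 1921920154849) (nat_lit 76) (nat_lit 7580488142602) (nat_lit 76) (nat_lit 7580317296065) (nat_lit 1) (nat_lit 4) (nat_lit 2) (nat_lit 5) (nat_lit 2) (nat_lit 4) (nat_lit 371) (nat_lit 275) (nat_lit 254)) (XT.nd (nat_lit 78) (nat_lit 0) (nat_lit 0) (XT.lf (nat_lit 0) (nat_lit 2211334159403) (nat_lit 76) (nat_lit 8716945830319) (nat_lit 76) (nat_lit 8716773733365) (nat_lit 1) (nat_lit 4) (nat_lit 2) (nat_lit 5) (nat_lit 2) (nat_lit 4) (nat_lit 372) (nat_lit 275) (nat_lit 253)) (XT.lf (nat_lit 0) (nat_lit 2544146994301) (nat_lit 76) (nat_lit 10023879106637) (nat_lit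 76) (nat_lit 10023705922364) (nat_lit 1) (nat_lit 4) (nat_lit 2) (nat_lit 5) (nat_lit 2) (nat_lit 4) (nat_lit 373) (nat_lit 275) (nat_lit 252)))))) (XT.nd (nat_lit 390) (nat_lit 0) (nat_lit 0) (XT.nd (nat_lit 156) (nat_lit 0) (nat_lit 0) (XT.nd (nat_lit 78) (nat_lit 0) (nat_lit 0) (XT.lf (nat_lit 0) (nat_lit 2926870215010) (nat_lit 76) (nat_lit 11526858405222) (nat_lit 76) (nat_lit 11526684275454) (nat_lit 1) (nat_lit 4) (nat_lit 2) (nat_lit 5) (nat_lit 2) (nat_lit 4) (nat_lit 374) (nat_lit 275) (nat_lit 251)) (XT.lf (nat_lit 0) (nat_lit 3366991884543) (nat_lit 76) (nat_lit 13255289842787) (nat_lit 76) (nat_lit 13255114890849) (nat_lit 1) (nat_lit 4) (nat_lit 2) (nat_lit 5) (nat_lit 2) (nat_lit 4) (nat_lit 375) (nat_lit 275) (nat_lit 250))) (XT.nd (nat_lit 78) (nat_lit 0) (nat_lit 0) (XT.lf (nat_lit 0) (nat_lit 3873123079043) (nat_lit 76) (nat_lit 15242990556152) (nat_lit 76) (nat_lit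 15242814889284) (nat_lit 1) (nat_lit 4) (nat_lit 2) (nat_lit 5) (nat_lit 2) (nat_lit 4) (nat_lit 376) (nat_lit 275) (nat_lit 249)) (XT.nd (nat_lit 78) (nat_lit 0) (nat_lit 0) (XT.lf (nat_lit 0) (nat_lit 4455166365358) (nat_lit 76) (nat_lit 17528850341883) (nat_lit 76) (nat_lit 17528674053337) (nat_lit 1) (nat_lit 4) (nat_lit 2) (nat_lit 5) (nat_lit 2) (nat_lit 4) (nat_lit 377) (nat_lit 275) (nat_lit 248)) (XT.lf (nat_lit 0) (nat_lit 5124509546918) (nat_lit 76) (nat_lit 20157592543615) (nat_lit 76) (nat_lit 20157415714480) (nat_lit 1) (nat_lit 4) (nat_lit 2) (nat_lit 5) (nat_lit 2) (nat_lit 4) (nat_lit 378) (nat_lit 275) (nat_lit 247))))) (XT.nd (nat_lit 234) (nat_lit 0) (nat_lit 0) (XT.nd (nat_lit 78) (nat_lit 0) (nat_lit 0) (XT.lf (nat_lit 0) (nat_lit 5894248468578) (nat_lit 76) (nat_lit 23180649073991) (nat_lit 76) (nat_lit 23180471774777) (nat_lit 1) (nat_lit 4) (nat_lit 2) (nat_lit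 5) (nat_lit 2) (nat_lit 4) (nat_lit 379) (nat_lit 275) (nat_lit 246)) (XT.nd (nat_lit 78) (nat_lit 0) (nat_lit 0) (XT.lf (nat_lit 0) (nat_lit 6779443239675) (nat_lit 76) (nat_lit 26657166691212) (nat_lit 76) (nat_lit 26656988983234) (nat_lit 1) (nat_lit 4) (nat_lit 2) (nat_lit 5) (nat_lit 2) (nat_lit 4) (nat_lit 380) (nat_lit 275) (nat_lit 245)) (XT.lf (nat_lit 0) (nat_lit 7797412888339) (nat_lit 76) (nat_lit 30655164218225) (nat_lit 76) (nat_lit 30654986154801) (nat_lit 1) (nat_lit 4) (nat_lit 2) (nat_lit 5) (nat_lit 2) (nat_lit 4) (nat_lit 381) (nat_lit 275) (nat_lit 244)))) (XT.nd (nat_lit 78) (nat_lit 0) (nat_lit 0) (XT.lf (nat_lit 0) (nat_lit 8968074212045) (nat_lit 76) (nat_lit 35252863345776) (nat_lit 76) (nat_lit 35252684973267) (nat_lit 1) (nat_lit 4) (nat_lit 2) (nat_lit 5) (nat_lit 2) (nat_lit 4) (nat_lit 382) (nat_lit 275) (nat_lit 243)) (XT.nd (nat_lit 78) (nat_lit 0) (nat_lit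 0) (XT.lf (nat_lit 0) (nat_lit 10314331454082) (nat_lit 76) (nat_lit 40540219056794) (nat_lit 76) (nat_lit 40540040415517) (nat_lit 1) (nat_lit 4) (nat_lit 2) (nat_lit 5) (nat_lit 2) (nat_lit 4) (nat_lit 383) (nat_lit 275) (nat_lit 242)) (XT.lf (nat_lit 0) (nat_lit 11862524430055) (nat_lit 76) (nat_lit 46620679615192) (nat_lit 76) (nat_lit 46620500740203) (nat_lit 1) (nat_lit 4) (nat_lit 2) (nat_lit 5) (nat_lit 2) (nat_lit 4) (nat_lit 384) (nat_lit 275) (nat_lit 241))))))) (XT.nd (nat_lit 44616) (nat_lit 0) (nat_lit 0) (XT.nd (nat_lit 44148) (nat_lit 0) (nat_lit 0) (XT.nd (nat_lit 156) (nat_lit 0) (nat_lit 0) (XT.nd (nat_lit 78) (nat_lit 0) (nat_lit 0) (XT.lf (nat_lit 0) (nat_lit 13642943872103) (nat_lit 76) (nat_lit 53613210553633) (nat_lit 76) (nat_lit 53613031475417) (nat_lit 1) (nat_lit 4) (nat_lit 2) (nat_lit 5) (nat_lit 2) (nat_lit 4) (nat_lit 385) (nat_lit 275) (nat_lit 240)) (XT.lf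 (nat_lit 0) (nat_lit 15690424073657) (nat_lit 76) (nat_lit 61654622260044) (nat_lit 76) (nat_lit 61654443005108) (nat_lit 1) (nat_lit 4) (nat_lit 2) (nat_lit 5) (nat_lit 2) (nat_lit 4) (nat_lit 386) (nat_lit 275) (nat_lit 239))) (XT.nd (nat_lit 43836) (nat_lit 0) (nat_lit 0) (XT.lf (nat_lit 0) (nat_lit 18045024429965) (nat_lit 76) (nat_lit 70902246702593) (nat_lit 76) (nat_lit 70902067293988) (nat_lit 1) (nat_lit 4) (nat_lit 2) (nat_lit 5) (nat_lit 2) (nat_lit 4) (nat_lit 387) (nat_lit 275) (nat_lit 238)) (XT.nd (nat_lit 78) (nat_lit 0) (nat_lit 0) (XT.lf (nat_lit 0) (nat_lit 30897944843) (nat_lit 76) (nat_lit 156399452347) (nat_lit 76) (nat_lit 156399452347) (nat_lit 1) (nat_lit 4) (nat_lit 2) (nat_lit 5) (nat_lit 2) (nat_lit 4) (nat_lit 348) (nat_lit 276) (nat_lit 276)) (XT.lf (nat_lit 0) (nat_lit 74445271954) (nat_lit 76) (nat_lit 357921135644) (nat_lit 76) (nat_lit 357894070683) (nat_lit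 1) (nat_lit 4) (nat_lit 2) (nat_lit 5) (nat_lit 2) (nat_lit 4) (nat_lit 349) (nat_lit 276) (nat_lit 275))))) (XT.nd (nat_lit 234) (nat_lit 0) (nat_lit 0) (XT.nd (nat_lit 78) (nat_lit 0) (nat_lit 0) (XT.lf (nat_lit 0) (nat_lit 88704828462) (nat_lit 76) (nat_lit 409961817129) (nat_lit 76) (nat_lit 409911217420) (nat_lit 1) (nat_lit 4) (nat_lit 2) (nat_lit 5) (nat_lit 2) (nat_lit 4) (nat_lit 350) (nat_lit 276) (nat_lit 274)) (XT.nd (nat_lit 78) (nat_lit 0) (nat_lit 0) (XT.lf (nat_lit 0) (nat_lit 104853550532) (nat_lit 76) (nat_lit 469939136396) (nat_lit 76) (nat_lit 469868071690) (nat_lit 1) (nat_lit 4) (nat_lit 2) (nat_lit 5) (nat_lit 2) (nat_lit 4) (nat_lit 351) (nat_lit 276) (nat_lit 273)) (XT.lf (nat_lit 0) (nat_lit 123207391423) (nat_lit 76) (nat_lit 539026562736) (nat_lit 76) (nat_lit 538937702379) (nat_lit 1) (nat_lit 4) (nat_lit 2) (nat_lit 5) (nat_lit 2) (nat_lit 4) (nat_lit 352)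 (nat_lit 276) (nat_lit 272)))) (XT.nd (nat_lit 78) (nat_lit 0) (nat_lit 0) (XT.lf (nat_lit 0) (nat_lit 144125448020) (nat_lit 76) (nat_lit 618575806664) (nat_lit 76) (nat_lit 618471471828) (nat_lit 1) (nat_lit 4) (nat_lit 2) (nat_lit 5) (nat_lit 2) (nat_lit 4) (nat_lit 353) (nat_lit 276) (nat_lit 271)) (XT.nd (nat_lit 78) (nat_lit 0) (nat_lit 0) (XT.lf (nat_lit 0) (nat_lit 168016986650) (nat_lit 76) (nat_lit 710143266430) (nat_lit 76) (nat_lit 710025475526) (nat_lit 1) (nat_lit 4) (nat_lit 2) (nat_lit 5) (nat_lit 2) (nat_lit 4) (nat_lit 354) (nat_lit 276) (nat_lit 270)) (XT.lf (nat_lit 0) (nat_lit 195349450458) (nat_lit 76) (nat_lit 815520479292) (nat_lit 76) (nat_lit 815390987458) (nat_lit 1) (nat_lit 4) (nat_lit 2) (nat_lit 5) (nat_lit 2) (nat_lit 4) (nat_lit 355) (nat_lit 276) (nat_lit 269)))))) (XT.nd (nat_lit 390) (nat_lit 0) (nat_lit 0) (XT.nd (nat_lit 156) (nat_lit 0) (nat_lit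 0) (XT.nd (nat_lit 78) (nat_lit 0) (nat_lit 0) (XT.lf (nat_lit 0) (nat_lit 226657605042) (nat_lit 76) (nat_lit 936769173325) (nat_lit 76) (nat_lit 936629506771) (nat_lit 1) (nat_lit 4) (nat_lit 2) (nat_lit 5) (nat_lit 2) (nat_lit 4) (nat_lit 356) (nat_lit 276) (nat_lit 268)) (XT.lf (nat_lit 0) (nat_lit 262554001252) (nat_lit 76) (nat_lit 1076261605589) (nat_lit 76) (nat_lit 1076113091451) (nat_lit 1) (nat_lit 4) (nat_lit 2) (nat_lit 5) (nat_lit 2) (nat_lit 4) (nat_lit 357) (nat_lit 276) (nat_lit 267))) (XT.nd (nat_lit 78) (nat_lit 0) (nat_lit 0) (XT.lf (nat_lit 0) (nat_lit 303740959883) (nat_lit 76) (nat_lit 1236726975844) (nat_lit 76) (nat_lit 1236570768155) (nat_lit 1) (nat_lit 4) (nat_lit 2) (nat_lit 5) (nat_lit 2) (nat_lit 4) (nat_lit 358) (nat_lit 276) (nat_lit 266)) (XT.nd (nat_lit 78) (nat_lit 0) (nat_lit 0) (XT.lf (nat_lit 0) (nat_lit 351024312735) (nat_lit 76) (nat_lit 1421304823944)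 (nat_lit 76) (nat_lit 1421141926210) (nat_lit 1) (nat_lit 4) (nat_lit 2) (nat_lit 5) (nat_lit 2) (nat_lit 4) (nat_lit 359) (nat_lit 276) (nat_lit 265)) (XT.lf (nat_lit 0) (nat_lit 405329168884) (nat_lit 76) (nat_lit 1633606455611) (nat_lit 76) (nat_lit 1633437740448) (nat_lit 1) (nat_lit 4) (nat_lit 2) (nat_lit 5) (nat_lit 2) (nat_lit 4) (nat_lit 360) (nat_lit 276) (nat_lit 264))))) (XT.nd (nat_lit 234) (nat_lit 0) (nat_lit 0) (XT.nd (nat_lit 78) (nat_lit 0) (nat_lit 0) (XT.lf (nat_lit 0) (nat_lit 467718014648) (nat_lit 76) (nat_lit 1877785598422) (nat_lit 76) (nat_lit 1877611824625) (nat_lit 1) (nat_lit 4) (nat_lit 2) (nat_lit 5) (nat_lit 2) (nat_lit 4) (nat_lit 361) (nat_lit 276) (nat_lit 263)) (XT.nd (nat_lit 78) (nat_lit 0) (nat_lit 0) (XT.lf (nat_lit 0) (nat_lit 539411501356) (nat_lit 76) (nat_lit 2158619670389) (nat_lit 76) (nat_lit 2158441497779) (nat_lit 1) (nat_lit 4) (nat_lit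 2) (nat_lit 5) (nat_lit 2) (nat_lit 4) (nat_lit 362) (nat_lit 276) (nat_lit 262)) (XT.lf (nat_lit 0) (nat_lit 621812327661) (nat_lit 76) (nat_lit 2481603251181) (nat_lit 76) (nat_lit 2481421253516) (nat_lit 1) (nat_lit 4) (nat_lit 2) (nat_lit 5) (nat_lit 2) (nat_lit 4) (nat_lit 363) (nat_lit 276) (nat_lit 261)))) (XT.nd (nat_lit 78) (nat_lit 0) (nat_lit 0) (XT.lf (nat_lit 0) (nat_lit 716532683643) (nat_lit 76) (nat_lit 2853055584769) (nat_lit 76) (nat_lit 2852870260970) (nat_lit 1) (nat_lit 4) (nat_lit 2) (nat_lit 5) (nat_lit 2) (nat_lit 4) (nat_lit 364) (nat_lit 276) (nat_lit 260)) (XT.nd (nat_lit 78) (nat_lit 0) (nat_lit 0) (XT.lf (nat_lit 0) (nat_lit 825425793659) (nat_lit 76) (nat_lit 3280244216811) (nat_lit 76) (nat_lit 3280056000721) (nat_lit 1) (nat_lit 4) (nat_lit 2) (nat_lit 5) (nat_lit 2) (nat_lit 4) (nat_lit 365) (nat_lit 276) (nat_lit 259)) (XT.lf (nat_lit 0) (nat_lit 950622175078)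 (nat_lit 76) (nat_lit 3771527185759) (nat_lit 76) (nat_lit 3771336454634) (nat_lit 1) (nat_lit 4) (nat_lit 2) (nat_lit 5) (nat_lit 2) (nat_lit 4) (nat_lit 366) (nat_lit 276) (nat_lit 258))))))))
noncomputable def xc11 : XT := (XT.nd (nat_lit 45240) (nat_lit 0) (nat_lit 0) (XT.nd (nat_lit 858) (nat_lit 0) (nat_lit 0) (XT.nd (nat_lit 390) (nat_lit 0) (nat_lit 0) (XT.nd (nat_lit 156) (nat_lit 0) (nat_lit 0) (XT.nd (nat_lit 78) (nat_lit 0) (nat_lit 0) (XT.lf (nat_lit 0) (nat_lit 1094571322319) (nat_lit 76) (nat_lit 4336516549703) (nat_lit 76) (nat_lit 4336323631590) (nat_lit 1) (nat_lit 4) (nat_lit 2) (nat_lit 5) (nat_lit 2) (nat_lit 4) (nat_lit 367) (nat_lit 276) (nat_lit 257)) (XT.lf (nat_lit 0) (nat_lit 1260089631741) (nat_lit 76) (nat_lit 4986266448370) (nat_lit 76) (nat_lit 4986071628529) (nat_lit 1) (nat_lit 4) (nat_lit 2) (nat_lit 5) (nat_lit 2) (nat_lit 4) (nat_lit 368) (nat_lit 276)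 (nat_lit 256))) (XT.nd (nat_lit 78) (nat_lit 0) (nat_lit 0) (XT.lf (nat_lit 0) (nat_lit 1450415505050) (nat_lit 76) (nat_lit 5733489379779) (nat_lit 76) (nat_lit 5733292906262) (nat_lit 1) (nat_lit 4) (nat_lit 2) (nat_lit 5) (nat_lit 2) (nat_lit 4) (nat_lit 369) (nat_lit 276) (nat_lit 255)) (XT.nd (nat_lit 78) (nat_lit 0) (nat_lit 0) (XT.lf (nat_lit 0) (nat_lit 1669272709333) (nat_lit 76) (nat_lit 6592804923022) (nat_lit 76) (nat_lit 6592607011525) (nat_lit 1) (nat_lit 4) (nat_lit 2) (nat_lit 5) (nat_lit 2) (nat_lit 4) (nat_lit 370) (nat_lit 276) (nat_lit 254)) (XT.lf (nat_lit 0) (nat_lit 1920943233370) (nat_lit 76) (nat_lit 7581025773511) (nat_lit 76) (nat_lit 7580826611597) (nat_lit 1) (nat_lit 4) (nat_lit 2) (nat_lit 5) (nat_lit 2) (nat_lit 4) (nat_lit 371) (nat_lit 276) (nat_lit 253))))) (XT.nd (nat_lit 234) (nat_lit 0) (nat_lit 0) (XT.nd (nat_lit 78) (nat_lit 0) (nat_lit 0) (XT.lf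 (nat_lit 0) (nat_lit 2210351065674) (nat_lit 76) (nat_lit 8717486687016) (nat_lit 76) (nat_lit 8717286437782) (nat_lit 1) (nat_lit 4) (nat_lit 2) (nat_lit 5) (nat_lit 2) (nat_lit 4) (nat_lit 372) (nat_lit 276) (nat_lit 252)) (XT.nd (nat_lit 78) (nat_lit 0) (nat_lit 0) (XT.lf (nat_lit 0) (nat_lit 2543158533398) (nat_lit 76) (nat_lit 10024422768366) (nat_lit 76) (nat_lit 10024221573638) (nat_lit 1) (nat_lit 4) (nat_lit 2) (nat_lit 5) (nat_lit 2) (nat_lit 4) (nat_lit 373) (nat_lit 276) (nat_lit 251)) (XT.lf (nat_lit 0) (nat_lit 2925877086999) (nat_lit 76) (nat_lit 11527404506110) (nat_lit 76) (nat_lit 11527202489212) (nat_lit 1) (nat_lit 4) (nat_lit 2) (nat_lit 5) (nat_lit 2) (nat_lit 4) (nat_lit 374) (nat_lit 276) (nat_lit 250)))) (XT.nd (nat_lit 78) (nat_lit 0) (nat_lit 0) (XT.lf (nat_lit 0) (nat_lit 3365994698177) (nat_lit 76) (nat_lit 13255838064682) (nat_lit 76) (nat_lit 13255635332854)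 (nat_lit 1) (nat_lit 4) (nat_lit 2) (nat_lit 5) (nat_lit 2) (nat_lit 4) (nat_lit 375) (nat_lit 276) (nat_lit 249)) (XT.nd (nat_lit 78) (nat_lit 0) (nat_lit 0) (XT.lf (nat_lit 0) (nat_lit 3872122363672) (nat_lit 76) (nat_lit 15243540622401) (nat_lit 76) (nat_lit 15243337268895) (nat_lit 1) (nat_lit 4) (nat_lit 2) (nat_lit 5) (nat_lit 2) (nat_lit 4) (nat_lit 376) (nat_lit 276) (nat_lit 248)) (XT.lf (nat_lit 0) (nat_lit 4454162581289) (nat_lit 76) (nat_lit 17529402011919) (nat_lit 76) (nat_lit 17529198117823) (nat_lit 1) (nat_lit 4) (nat_lit 2) (nat_lit 5) (nat_lit 2) (nat_lit 4) (nat_lit 377) (nat_lit 276) (nat_lit 247)))))) (XT.nd (nat_lit 390) (nat_lit 0) (nat_lit 0) (XT.nd (nat_lit 156) (nat_lit 0) (nat_lit 0) (XT.nd (nat_lit 78) (nat_lit 0) (nat_lit 0) (XT.lf (nat_lit 0) (nat_lit 5123503094414) (nat_lit 76) (nat_lit 20158145608248) (nat_lit 76) (nat_lit 20157941244074) (nat_lit 1) (nat_lit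 4) (nat_lit 2) (nat_lit 5) (nat_lit 2) (nat_lit 4) (nat_lit 378) (nat_lit 276) (nat_lit 246)) (XT.lf (nat_lit 0) (nat_lit 5893239695696) (nat_lit 76) (nat_lit 23181203351317) (nat_lit 76) (nat_lit 23180998578379) (nat_lit 1) (nat_lit 4) (nat_lit 2) (nat_lit 5) (nat_lit 2) (nat_lit 4) (nat_lit 379) (nat_lit 276) (nat_lit 245))) (XT.nd (nat_lit 78) (nat_lit 0) (nat_lit 0) (XT.lf (nat_lit 0) (nat_lit 6778432449074) (nat_lit 76) (nat_lit 26657722023053) (nat_lit 76) (nat_lit 26657516894669) (nat_lit 1) (nat_lit 4) (nat_lit 2) (nat_lit 5) (nat_lit 2) (nat_lit 4) (nat_lit 380) (nat_lit 276) (nat_lit 244)) (XT.nd (nat_lit 78) (nat_lit 0) (nat_lit 0) (XT.lf (nat_lit 0) (nat_lit 7796400343199) (nat_lit 76) (nat_lit 30655720467037) (nat_lit 76) (nat_lit 30655515029568) (nat_lit 1) (nat_lit 4) (nat_lit 2) (nat_lit 5) (nat_lit 2) (nat_lit 4) (nat_lit 381) (nat_lit 276) (nat_lit 243)) (XT.lf (nat_lit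 0) (nat_lit 8967060141219) (nat_lit 76) (nat_lit 35253420391952) (nat_lit 76) (nat_lit 35253214685715) (nat_lit 1) (nat_lit 4) (nat_lit 2) (nat_lit 5) (nat_lit 2) (nat_lit 4) (nat_lit 382) (nat_lit 276) (nat_lit 242))))) (XT.nd (nat_lit 234) (nat_lit 0) (nat_lit 0) (XT.nd (nat_lit 78) (nat_lit 0) (nat_lit 0) (XT.lf (nat_lit 0) (nat_lit 10313316056572) (nat_lit 76) (nat_lit 40540776796332) (nat_lit 76) (nat_lit 40540570856383) (nat_lit 1) (nat_lit 4) (nat_lit 2) (nat_lit 5) (nat_lit 2) (nat_lit 4) (nat_lit 383) (nat_lit 276) (nat_lit 241)) (XT.nd (nat_lit 78) (nat_lit 0) (nat_lit 0) (XT.lf (nat_lit 0) (nat_lit 11861507878908) (nat_lit 76) (nat_lit 46621237957653) (nat_lit 76) (nat_lit 46621031814476) (nat_lit 1) (nat_lit 4) (nat_lit 2) (nat_lit 5) (nat_lit 2) (nat_lit 4) (nat_lit 384) (nat_lit 276) (nat_lit 240)) (XT.lf (nat_lit 0) (nat_lit 13641926317792) (nat_lit 76) (nat_lit 53613769420375)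 (nat_lit 76) (nat_lit 53613563100478) (nat_lit 1) (nat_lit 4) (nat_lit 2) (nat_lit 5) (nat_lit 2) (nat_lit 4) (nat_lit 385) (nat_lit 276) (nat_lit 239)))) (XT.nd (nat_lit 78) (nat_lit 0) (nat_lit 0) (XT.lf (nat_lit 0) (nat_lit 15689405647030) (nat_lit 76) (nat_lit 61655181582682) (nat_lit 76) (nat_lit 61654975109116) (nat_lit 1) (nat_lit 4) (nat_lit 2) (nat_lit 5) (nat_lit 2) (nat_lit 4) (nat_lit 386) (nat_lit 276) (nat_lit 238)) (XT.nd (nat_lit 78) (nat_lit 0) (nat_lit 0) (XT.lf (nat_lit 0) (nat_lit 18044005244803) (nat_lit 76) (nat_lit 70902806421662) (nat_lit 76) (nat_lit 70902599814471) (nat_lit 1) (nat_lit 4) (nat_lit 2) (nat_lit 5) (nat_lit 2) (nat_lit 4) (nat_lit 387) (nat_lit 276) (nat_lit 237)) (XT.lf (nat_lit 0) (nat_lit 20751793364110) (nat_lit 76) (nat_lit 81537575727645) (nat_lit 76) (nat_lit 81537369004257) (nat_lit 1) (nat_lit 4) (nat_lit 2) (nat_lit 5) (nat_lit 2) (nat_lit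 4) (nat_lit 388) (nat_lit 276) (nat_lit 236))))))) (XT.nd (nat_lit 858) (nat_lit 0) (nat_lit 0) (XT.nd (nat_lit 390) (nat_lit 0) (nat_lit 0) (XT.nd (nat_lit 156) (nat_lit 0) (nat_lit 0) (XT.nd (nat_lit 78) (nat_lit 0) (nat_lit 0) (XT.lf (nat_lit 0) (nat_lit 20270519611) (nat_lit 76) (nat_lit 119917681824) (nat_lit 76) (nat_lit 119917681824) (nat_lit 1) (nat_lit 4) (nat_lit 2) (nat_lit 5) (nat_lit 2) (nat_lit 4) (nat_lit 346) (nat_lit 277) (nat_lit 277)) (XT.lf (nat_lit 0) (nat_lit 50509193743) (nat_lit 76) (nat_lit 273743422728) (nat_lit 76) (nat_lit 273712298024) (nat_lit 1) (nat_lit 4) (nat_lit 2) (nat_lit 5) (nat_lit 2) (nat_lit 4) (nat_lit 347) (nat_lit 277) (nat_lit 276))) (XT.nd (nat_lit 78) (nat_lit 0) (nat_lit 0) (XT.lf (nat_lit 0) (nat_lit 61642253376) (nat_lit 76) (nat_lit 312910323947) (nat_lit 76) (nat_lit 312852134282) (nat_lit 1) (nat_lit 4) (nat_lit 2) (nat_lit 5) (nat_lit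 2) (nat_lit 4) (nat_lit 348) (nat_lit 277) (nat_lit 275)) (XT.nd (nat_lit 78) (nat_lit 0) (nat_lit 0) (XT.lf (nat_lit 0) (nat_lit 74158038853) (nat_lit 76) (nat_lit 358102376242) (nat_lit 76) (nat_lit 358020651829) (nat_lit 1) (nat_lit 4) (nat_lit 2) (nat_lit 5) (nat_lit 2) (nat_lit 4) (nat_lit 349) (nat_lit 277) (nat_lit 274)) (XT.lf (nat_lit 0) (nat_lit 88301424239) (nat_lit 76) (nat_lit 410203771940) (nat_lit 76) (nat_lit 410101582530) (nat_lit 1) (nat_lit 4) (nat_lit 2) (nat_lit 5) (nat_lit 2) (nat_lit 4) (nat_lit 350) (nat_lit 277) (nat_lit 273))))) (XT.nd (nat_lit 234) (nat_lit 0) (nat_lit 0) (XT.nd (nat_lit 78) (nat_lit 0) (nat_lit 0) (XT.lf (nat_lit 0) (nat_lit 104349127941) (nat_lit 76) (nat_lit 470233886176) (nat_lit 76) (nat_lit 470113901115) (nat_lit 1) (nat_lit 4) (nat_lit 2) (nat_lit 5) (nat_lit 2) (nat_lit 4) (nat_lit 351) (nat_lit 277) (nat_lit 272)) (XT.nd (nat_lit 78)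 (nat_lit 0) (nat_lit 0) (XT.lf (nat_lit 0) (nat_lit 122615126773) (nat_lit 76) (nat_lit 539367221185) (nat_lit 76) (nat_lit 539231761644) (nat_lit 1) (nat_lit 4) (nat_lit 2) (nat_lit 5) (nat_lit 2) (nat_lit 4) (nat_lit 352) (nat_lit 277) (nat_lit 271)) (XT.lf (nat_lit 0) (nat_lit 143456798971) (nat_lit 76) (nat_lit 618956385694) (nat_lit 76) (nat_lit 618807470085) (nat_lit 1) (nat_lit 4) (nat_lit 2) (nat_lit 5) (nat_lit 2) (nat_lit 4) (nat_lit 353) (nat_lit 277) (nat_lit 270)))) (XT.nd (nat_lit 78) (nat_lit 0) (nat_lit 0) (XT.lf (nat_lit 0) (nat_lit 167281916384) (nat_lit 76) (nat_lit 710558559009) (nat_lit 76) (nat_lit 710397942471) (nat_lit 1) (nat_lit 4) (nat_lit 2) (nat_lit 5) (nat_lit 2) (nat_lit 4) (nat_lit 354) (nat_lit 277) (nat_lit 269)) (XT.nd (nat_lit 78) (nat_lit 0) (nat_lit 0) (XT.lf (nat_lit 0) (nat_lit 194556622614) (nat_lit 76) (nat_lit 815965957565) (nat_lit 76) (nat_lit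 815795166306) (nat_lit 1) (nat_lit 4) (nat_lit 2) (nat_lit 5) (nat_lit 2) (nat_lit 4) (nat_lit 355) (nat_lit 277) (nat_lit 268)) (XT.lf (nat_lit 0) (nat_lit 225814553215) (nat_lit 76) (nat_lit 937240900029) (nat_lit 76) (nat_lit 937061261186) (nat_lit 1) (nat_lit 4) (nat_lit 2) (nat_lit 5) (nat_lit 2) (nat_lit 4) (nat_lit 356) (nat_lit 277) (nat_lit 267)))))) (XT.nd (nat_lit 390) (nat_lit 0) (nat_lit 0) (XT.nd (nat_lit 156) (nat_lit 0) (nat_lit 0) (XT.nd (nat_lit 78) (nat_lit 0) (nat_lit 0) (XT.lf (nat_lit 0) (nat_lit 261667276397) (nat_lit 76) (nat_lit 1076756157014) (nat_lit 76) (nat_lit 1076568824621) (nat_lit 1) (nat_lit 4) (nat_lit 2) (nat_lit 5) (nat_lit 2) (nat_lit 4) (nat_lit 357) (nat_lit 277) (nat_lit 266)) (XT.lf (nat_lit 0) (nat_lit 302816258482) (nat_lit 76) (nat_lit 1237241374853) (nat_lit 76) (nat_lit 1237047352416) (nat_lit 1) (nat_lit 4) (nat_lit 2) (nat_lit 5) (nat_lit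 2) (nat_lit 4) (nat_lit 358) (nat_lit 277) (nat_lit 265))) (XT.nd (nat_lit 78) (nat_lit 0) (nat_lit 0) (XT.lf (nat_lit 0) (nat_lit 350066588250) (nat_lit 76) (nat_lit 1421836481722) (nat_lit 76) (nat_lit 1421636641854) (nat_lit 1) (nat_lit 4) (nat_lit 2) (nat_lit 5) (nat_lit 2) (nat_lit 4) (nat_lit 359) (nat_lit 277) (nat_lit 264)) (XT.nd (nat_lit 78) (nat_lit 0) (nat_lit 0) (XT.lf (nat_lit 0) (nat_lit 404342728675) (nat_lit 76) (nat_lit 1634153121014) (nat_lit 76) (nat_lit 1633948222512) (nat_lit 1) (nat_lit 4) (nat_lit 2) (nat_lit 5) (nat_lit 2) (nat_lit 4) (nat_lit 360) (nat_lit 277) (nat_lit 263)) (XT.lf (nat_lit 0) (nat_lit 466706604243) (nat_lit 76) (nat_lit 1878345313934) (nat_lit 76) (nat_lit 1878136016620) (nat_lit 1) (nat_lit 4) (nat_lit 2) (nat_lit 5) (nat_lit 2) (nat_lit 4) (nat_lit 361) (nat_lit 277) (nat_lit 262))))) (XT.nd (nat_lit 234) (nat_lit 0) (nat_lit 0) (XT.nd (nat_lit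 78) (nat_lit 0) (nat_lit 0) (XT.lf (nat_lit 0) (nat_lit 538378377737) (nat_lit 76) (nat_lit 2159190733822) (nat_lit 76) (nat_lit 2158977611453) (nat_lit 1) (nat_lit 4) (nat_lit 2) (nat_lit 5) (nat_lit 2) (nat_lit 4) (nat_lit 362) (nat_lit 277) (nat_lit 261)) (XT.nd (nat_lit 78) (nat_lit 0) (nat_lit 0) (XT.lf (nat_lit 0) (nat_lit 620760322987) (nat_lit 76) (nat_lit 2482184182371) (nat_lit 76) (nat_lit 2481967733867) (nat_lit 1) (nat_lit 4) (nat_lit 2) (nat_lit 5) (nat_lit 2) (nat_lit 4) (nat_lit 363) (nat_lit 277) (nat_lit 260)) (XT.lf (nat_lit 0) (nat_lit 715464260661) (nat_lit 76) (nat_lit 2853645096617) (nat_lit 76) (nat_lit 2853425755823) (nat_lit 1) (nat_lit 4) (nat_lit 2) (nat_lit 5) (nat_lit 2) (nat_lit 4) (nat_lit 364) (nat_lit 277) (nat_lit 259)))) (XT.nd (nat_lit 78) (nat_lit 0) (nat_lit 0) (XT.lf (nat_lit 0) (nat_lit 824343093886) (nat_lit 76) (nat_lit 3280841190101) (nat_lit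 76) (nat_lit 3280619334271) (nat_lit 1) (nat_lit 4) (nat_lit 2) (nat_lit 5) (nat_lit 2) (nat_lit 4) (nat_lit 365) (nat_lit 277) (nat_lit 258)) (XT.nd (nat_lit 78) (nat_lit 0) (nat_lit 0) (XT.lf (nat_lit 0) (nat_lit 949527060704) (nat_lit 76) (nat_lit 3772130647260) (nat_lit 76) (nat_lit 3771906604443) (nat_lit 1) (nat_lit 4) (nat_lit 2) (nat_lit 5) (nat_lit 2) (nat_lit 4) (nat_lit 366) (nat_lit 277) (nat_lit 257)) (XT.lf (nat_lit 0) (nat_lit 1093465412641) (nat_lit 76) (nat_lit 4337125653125) (nat_lit 76) (nat_lit 4336899708580) (nat_lit 1) (nat_lit 4) (nat_lit 2) (nat_lit 5) (nat_lit 2) (nat_lit 4) (nat_lit 367) (nat_lit 277) (nat_lit 256))))))))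
noncomputable def xc12 : XT := (XT.nd (nat_lit 2340) (nat_lit 0) (nat_lit 0) (XT.nd (nat_lit 780) (nat_lit 0) (nat_lit 0) (XT.nd (nat_lit 390) (nat_lit 0) (nat_lit 0) (XT.nd (nat_lit 156) (nat_lit 0) (nat_lit 0) (XT.nd (nat_lit 78) (nat_lit 0) (nat_lit 0) (XT.lf (nat_lit 0) (nat_lit 1258974334841) (nat_lit 76) (nat_lit 4986880457812) (nat_lit 76) (nat_lit 4986652859590) (nat_lit 1) (nat_lit 4) (nat_lit 2) (nat_lit 5) (nat_lit 2) (nat_lit 4) (nat_lit 368) (nat_lit 277) (nat_lit 255)) (XT.lf (nat_lit 0) (nat_lit 1449292045350) (nat_lit 76) (nat_lit 5734107655325) (nat_lit 76) (nat_lit 5733878619123) (nat_lit 1) (nat_lit 4) (nat_lit 2) (nat_lit 5) (nat_lit 2) (nat_lit 4) (nat_lit 369) (nat_lit 277) (nat_lit 254))) (XT.nd (nat_lit 78) (nat_lit 0) (nat_lit 0) (XT.lf (nat_lit 0) (nat_lit 1668142151545) (nat_lit 76) (nat_lit 6593426908223) (nat_lit 76) (nat_lit 6593196621605) (nat_lit 1) (nat_lit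 4) (nat_lit 2) (nat_lit 5) (nat_lit 2) (nat_lit 4) (nat_lit 370) (nat_lit 277) (nat_lit 253)) (XT.nd (nat_lit 78) (nat_lit 0) (nat_lit 0) (XT.lf (nat_lit 0) (nat_lit 1919806503331) (nat_lit 76) (nat_lit 7581650984500) (nat_lit 76) (nat_lit 7581419610562) (nat_lit 1) (nat_lit 4) (nat_lit 2) (nat_lit 5) (nat_lit 2) (nat_lit 4) (nat_lit 371) (nat_lit 277) (nat_lit 252)) (XT.lf (nat_lit 0) (nat_lit 2209208968460) (nat_lit 76) (nat_lit 8718114703037) (nat_lit 76) (nat_lit 8717882383604) (nat_lit 1) (nat_lit 4) (nat_lit 2) (nat_lit 5) (nat_lit 2) (nat_lit 4) (nat_lit 372) (nat_lit 277) (nat_lit 251))))) (XT.nd (nat_lit 156) (nat_lit 0) (nat_lit 0) (XT.nd (nat_lit 78) (nat_lit 0) (nat_lit 0) (XT.lf (nat_lit 0) (nat_lit 2542011769077) (nat_lit 76) (nat_lit 10025053223546) (nat_lit 76) (nat_lit 10024820081944) (nat_lit 1) (nat_lit 4) (nat_lit 2) (nat_lit 5) (nat_lit 2) (nat_lit 4) (nat_lit 373)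 (nat_lit 277) (nat_lit 250)) (XT.lf (nat_lit 0) (nat_lit 2924726264323) (nat_lit 76) (nat_lit 11528037082297) (nat_lit 76) (nat_lit 11527803225765) (nat_lit 1) (nat_lit 4) (nat_lit 2) (nat_lit 5) (nat_lit 2) (nat_lit 4) (nat_lit 374) (nat_lit 277) (nat_lit 249))) (XT.nd (nat_lit 78) (nat_lit 0) (nat_lit 0) (XT.lf (nat_lit 0) (nat_lit 3364840346496) (nat_lit 76) (nat_lit 13256472485223) (nat_lit 76) (nat_lit 13256238007013) (nat_lit 1) (nat_lit 4) (nat_lit 2) (nat_lit 5) (nat_lit 2) (nat_lit 4) (nat_lit 375) (nat_lit 277) (nat_lit 248)) (XT.nd (nat_lit 78) (nat_lit 0) (nat_lit 0) (XT.lf (nat_lit 0) (nat_lit 3870964943293) (nat_lit 76) (nat_lit 15244176646729) (nat_lit 76) (nat_lit 15243941627929) (nat_lit 1) (nat_lit 4) (nat_lit 2) (nat_lit 5) (nat_lit 2) (nat_lit 4) (nat_lit 376) (nat_lit 277) (nat_lit 247)) (XT.lf (nat_lit 0) (nat_lit 4453002492475) (nat_lit 76) (nat_lit 17530039430844)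 (nat_lit 76) (nat_lit 17529803941966) (nat_lit 1) (nat_lit 4) (nat_lit 2) (nat_lit 5) (nat_lit 2) (nat_lit 4) (nat_lit 377) (nat_lit 277) (nat_lit 246)))))) (XT.nd (nat_lit 390) (nat_lit 0) (nat_lit 0) (XT.nd (nat_lit 156) (nat_lit 0) (nat_lit 0) (XT.nd (nat_lit 78) (nat_lit 0) (nat_lit 0) (XT.lf (nat_lit 0) (nat_lit 5122340685222) (nat_lit 76) (nat_lit 20158784239866) (nat_lit 76) (nat_lit 20158548342224) (nat_lit 1) (nat_lit 4) (nat_lit 2) (nat_lit 5) (nat_lit 2) (nat_lit 4) (nat_lit 378) (nat_lit 277) (nat_lit 245)) (XT.lf (nat_lit 0) (nat_lit 5892075268785) (nat_lit 76) (nat_lit 23181843037450) (nat_lit 76) (nat_lit 23181606784361) (nat_lit 1) (nat_lit 4) (nat_lit 2) (nat_lit 5) (nat_lit 2) (nat_lit 4) (nat_lit 379) (nat_lit 277) (nat_lit 244))) (XT.nd (nat_lit 78) (nat_lit 0) (nat_lit 0) (XT.lf (nat_lit 0) (nat_lit 6777266267624) (nat_lit 76) (nat_lit 26658362626157) (nat_lit 76)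 (nat_lit 26658126063984) (nat_lit 1) (nat_lit 4) (nat_lit 2) (nat_lit 5) (nat_lit 2) (nat_lit 4) (nat_lit 380) (nat_lit 277) (nat_lit 243)) (XT.nd (nat_lit 78) (nat_lit 0) (nat_lit 0) (XT.lf (nat_lit 0) (nat_lit 7795232636063) (nat_lit 76) (nat_lit 30656361867505) (nat_lit 76) (nat_lit 30656125036564) (nat_lit 1) (nat_lit 4) (nat_lit 2) (nat_lit 5) (nat_lit 2) (nat_lit 4) (nat_lit 381) (nat_lit 277) (nat_lit 242)) (XT.lf (nat_lit 0) (nat_lit 8965891107400) (nat_lit 76) (nat_lit 35254062485782) (nat_lit 76) (nat_lit 35253825421129) (nat_lit 1) (nat_lit 4) (nat_lit 2) (nat_lit 5) (nat_lit 2) (nat_lit 4) (nat_lit 382) (nat_lit 277) (nat_lit 241))))) (XT.nd (nat_lit 234) (nat_lit 0) (nat_lit 0) (XT.nd (nat_lit 78) (nat_lit 0) (nat_lit 0) (XT.lf (nat_lit 0) (nat_lit 10312145869116) (nat_lit 76) (nat_lit 40541419493085) (nat_lit 76) (nat_lit 40541182225204) (nat_lit 1) (nat_lit 4) (nat_lit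 2) (nat_lit 5) (nat_lit 2) (nat_lit 4) (nat_lit 383) (nat_lit 277) (nat_lit 240)) (XT.nd (nat_lit 78) (nat_lit 0) (nat_lit 0) (XT.lf (nat_lit 0) (nat_lit 11860336688288) (nat_lit 76) (nat_lit 46621881178686) (nat_lit 76) (nat_lit 46621643734085) (nat_lit 1) (nat_lit 4) (nat_lit 2) (nat_lit 5) (nat_lit 2) (nat_lit 4) (nat_lit 384) (nat_lit 277) (nat_lit 239)) (XT.lf (nat_lit 0) (nat_lit 13640754254856) (nat_lit 76) (nat_lit 53614413097304) (nat_lit 76) (nat_lit 53614175499034) (nat_lit 1) (nat_lit 4) (nat_lit 2) (nat_lit 5) (nat_lit 2) (nat_lit 4) (nat_lit 385) (nat_lit 277) (nat_lit 238)))) (XT.nd (nat_lit 78) (nat_lit 0) (nat_lit 0) (XT.lf (nat_lit 0) (nat_lit 15688232825559) (nat_lit 76) (nat_lit 61655825656042) (nat_lit 76) (nat_lit 61655587924147) (nat_lit 1) (nat_lit 4) (nat_lit 2) (nat_lit 5) (nat_lit 2) (nat_lit 4) (nat_lit 386) (nat_lit 277) (nat_lit 237)) (XT.nd (nat_lit 78)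 (nat_lit 0) (nat_lit 0) (XT.lf (nat_lit 0) (nat_lit 18042831763735) (nat_lit 76) (nat_lit 70903450839746) (nat_lit 76) (nat_lit 70903212991655) (nat_lit 1) (nat_lit 4) (nat_lit 2) (nat_lit 5) (nat_lit 2) (nat_lit 4) (nat_lit 387) (nat_lit 277) (nat_lit 236)) (XT.lf (nat_lit 0) (nat_lit 20750619309480) (nat_lit 76) (nat_lit 81538220445488) (nat_lit 76) (nat_lit 81537982496356) (nat_lit 1) (nat_lit 4) (nat_lit 2) (nat_lit 5) (nat_lit 2) (nat_lit 4) (nat_lit 388) (nat_lit 277) (nat_lit 235))))))) (XT.nd (nat_lit 43368) (nat_lit 0) (nat_lit 0) (XT.nd (nat_lit 42900) (nat_lit 0) (nat_lit 0) (XT.nd (nat_lit 42666) (nat_lit 0) (nat_lit 0) (XT.nd (nat_lit 78) (nat_lit 0) (nat_lit 0) (XT.lf (nat_lit 0) (nat_lit 83975427902192) (nat_lit 76) (nat_lit 329852427518889) (nat_lit 76) (nat_lit 329852189062660) (nat_lit 1) (nat_lit 4) (nat_lit 2) (nat_lit 5) (nat_lit 2) (nat_lit 4) (nat_lit 398) (nat_lit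 277) (nat_lit 225)) (XT.lf (nat_lit 0) (nat_lit 96573098414712) (nat_lit 76) (nat_lit 379329546999535) (nat_lit 76) (nat_lit 379329308521589) (nat_lit 1) (nat_lit 4) (nat_lit 2) (nat_lit 5) (nat_lit 2) (nat_lit 4) (nat_lit 399) (nat_lit 277) (nat_lit 224))) (XT.nd (nat_lit 78) (nat_lit 0) (nat_lit 0) (XT.lf (nat_lit 0) (nat_lit 11770744464) (nat_lit 76) (nat_lit 92580806026) (nat_lit 76) (nat_lit 92580806026) (nat_lit 1) (nat_lit 4) (nat_lit 2) (nat_lit 5) (nat_lit 2) (nat_lit 4) (nat_lit 344) (nat_lit 278) (nat_lit 278)) (XT.nd (nat_lit 78) (nat_lit 0) (nat_lit 0) (XT.lf (nat_lit 0) (nat_lit 31542760702) (nat_lit 76) (nat_lit 210558521573) (nat_lit 76) (nat_lit 210522728163) (nat_lit 1) (nat_lit 4) (nat_lit 2) (nat_lit 5) (nat_lit 2) (nat_lit 4) (nat_lit 345) (nat_lit 278) (nat_lit 277)) (XT.lf (nat_lit 0) (nat_lit 40364357465) (nat_lit 76) (nat_lit 239963495789) (nat_lit 76) (nat_lit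 239896577675) (nat_lit 1) (nat_lit 4) (nat_lit 2) (nat_lit 5) (nat_lit 2) (nat_lit 4) (nat_lit 346) (nat_lit 278) (nat_lit 276))))) (XT.nd (nat_lit 234) (nat_lit 0) (nat_lit 0) (XT.nd (nat_lit 78) (nat_lit 0) (nat_lit 0) (XT.lf (nat_lit 0) (nat_lit 50178875677) (nat_lit 76) (nat_lit 273951849416) (nat_lit 76) (nat_lit 273857866341) (nat_lit 1) (nat_lit 4) (nat_lit 2) (nat_lit 5) (nat_lit 2) (nat_lit 4) (nat_lit 347) (nat_lit 278) (nat_lit 275)) (XT.nd (nat_lit 78) (nat_lit 0) (nat_lit 0) (XT.lf (nat_lit 0) (nat_lit 61178338519) (nat_lit 76) (nat_lit 313188571980) (nat_lit 76) (nat_lit 313071054158) (nat_lit 1) (nat_lit 4) (nat_lit 2) (nat_lit 5) (nat_lit 2) (nat_lit 4) (nat_lit 348) (nat_lit 278) (nat_lit 274)) (XT.lf (nat_lit 0) (nat_lit 73577952873) (nat_lit 76) (nat_lit 358441338489) (nat_lit 76) (nat_lit 358303355668) (nat_lit 1) (nat_lit 4) (nat_lit 2) (nat_lit 5) (nat_lit 2) (nat_lit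 4) (nat_lit 349) (nat_lit 278) (nat_lit 273)))) (XT.nd (nat_lit 78) (nat_lit 0) (nat_lit 0) (XT.lf (nat_lit 0) (nat_lit 87620319891) (nat_lit 76) (nat_lit 410595529156) (nat_lit 76) (nat_lit 410439750685) (nat_lit 1) (nat_lit 4) (nat_lit 2) (nat_lit 5) (nat_lit 2) (nat_lit 4) (nat_lit 350) (nat_lit 278) (nat_lit 272)) (XT.nd (nat_lit 78) (nat_lit 0) (nat_lit 0) (XT.lf (nat_lit 0) (nat_lit 103580181535) (nat_lit 76) (nat_lit 470671552061) (nat_lit 76) (nat_lit 470500299110) (nat_lit 1) (nat_lit 4) (nat_lit 2) (nat_lit 5) (nat_lit 2) (nat_lit 4) (nat_lit 351) (nat_lit 278) (nat_lit 271)) (XT.lf (nat_lit 0) (nat_lit 121769795968) (nat_lit 76) (nat_lit 539844807650) (nat_lit 76) (nat_lit 539660098631) (nat_lit 1) (nat_lit 4) (nat_lit 2) (nat_lit 5) (nat_lit 2) (nat_lit 4) (nat_lit 352) (nat_lit 278) (nat_lit 270)))))) (XT.nd (nat_lit 390) (nat_lit 0) (nat_lit 0) (XT.nd (nat_lit 156) (nat_lit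 0) (nat_lit 0) (XT.nd (nat_lit 78) (nat_lit 0) (nat_lit 0) (XT.lf (nat_lit 0) (nat_lit 142545046950) (nat_lit 76) (nat_lit 619468685708) (nat_lit 76) (nat_lit 619272275760) (nat_lit 1) (nat_lit 4) (nat_lit 2) (nat_lit 5) (nat_lit 2) (nat_lit 4) (nat_lit 353) (nat_lit 278) (nat_lit 269)) (XT.lf (nat_lit 0) (nat_lit 166312406783) (nat_lit 76) (nat_lit 711101044717) (nat_lit 76) (nat_lit 710894460049) (nat_lit 1) (nat_lit 4) (nat_lit 2) (nat_lit 5) (nat_lit 2) (nat_lit 4) (nat_lit 354) (nat_lit 278) (nat_lit 268))) (XT.nd (nat_lit 78) (nat_lit 0) (nat_lit 0) (XT.lf (nat_lit 0) (nat_lit 193536889030) (nat_lit 76) (nat_lit 816534691703) (nat_lit 76) (nat_lit 816319259451) (nat_lit 1) (nat_lit 4) (nat_lit 2) (nat_lit 5) (nat_lit 2) (nat_lit 4) (nat_lit 355) (nat_lit 278) (nat_lit 267)) (XT.nd (nat_lit 78) (nat_lit 0) (nat_lit 0) (XT.lf (nat_lit 0) (nat_lit 224751146604) (nat_lit 76) (nat_lit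 937832458889) (nat_lit 76) (nat_lit 937609333086) (nat_lit 1) (nat_lit 4) (nat_lit 2) (nat_lit 5) (nat_lit 2) (nat_lit 4) (nat_lit 356) (nat_lit 278) (nat_lit 266)) (XT.lf (nat_lit 0) (nat_lit 260565893240) (nat_lit 76) (nat_lit 1077367563459) (nat_lit 76) (nat_lit 1077137747611) (nat_lit 1) (nat_lit 4) (nat_lit 2) (nat_lit 5) (nat_lit 2) (nat_lit 4) (nat_lit 357) (nat_lit 278) (nat_lit 265))))) (XT.nd (nat_lit 234) (nat_lit 0) (nat_lit 0) (XT.nd (nat_lit 78) (nat_lit 0) (nat_lit 0) (XT.lf (nat_lit 0) (nat_lit 301681852241) (nat_lit 76) (nat_lit 1237870040067) (nat_lit 76) (nat_lit 1237634406790) (nat_lit 1) (nat_lit 4) (nat_lit 2) (nat_lit 5) (nat_lit 2) (nat_lit 4) (nat_lit 358) (nat_lit 278) (nat_lit 264)) (XT.nd (nat_lit 78) (nat_lit 0) (nat_lit 0) (XT.lf (nat_lit 0) (nat_lit 348903466284) (nat_lit 76) (nat_lit 1422480154560) (nat_lit 76) (nat_lit 1422239462649) (nat_lit 1) (nat_lit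 4) (nat_lit 2) (nat_lit 5) (nat_lit 2) (nat_lit 4) (nat_lit 359) (nat_lit 278) (nat_lit 263)) (XT.lf (nat_lit 0) (nat_lit 403154636513) (nat_lit 76) (nat_lit 1634809843962) (nat_lit 76) (nat_lit 1634564753237) (nat_lit 1) (nat_lit 4) (nat_lit 2) (nat_lit 5) (nat_lit 2) (nat_lit 4) (nat_lit 360) (nat_lit 278) (nat_lit 262)))) (XT.nd (nat_lit 78) (nat_lit 0) (nat_lit 0) (XT.lf (nat_lit 0) (nat_lit 465496798868) (nat_lit 76) (nat_lit 1879013384803) (nat_lit 76) (nat_lit 1878764469024) (nat_lit 1) (nat_lit 4) (nat_lit 2) (nat_lit 5) (nat_lit 2) (nat_lit 4) (nat_lit 361) (nat_lit 278) (nat_lit 261)) (XT.nd (nat_lit 78) (nat_lit 0) (nat_lit 0) (XT.lf (nat_lit 0) (nat_lit 537149691307) (nat_lit 76) (nat_lit 2159868672447) (nat_lit 76) (nat_lit 2159616430534) (nat_lit 1) (nat_lit 4) (nat_lit 2) (nat_lit 5) (nat_lit 2) (nat_lit 4) (nat_lit 362) (nat_lit 278) (nat_lit 260)) (XT.lf (nat_lit 0) (nat_lit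 619515218249) (nat_lit 76) (nat_lit 2482870701654) (nat_lit 76) (nat_lit 2482615567450) (nat_lit 1) (nat_lit 4) (nat_lit 2) (nat_lit 5) (nat_lit 2) (nat_lit 4) (nat_lit 363) (nat_lit 278) (nat_lit 259))))))))
noncomputable def xc13 : XT := (XT.nd (nat_lit 1716) (nat_lit 0) (nat_lit 0) (XT.nd (nat_lit 858) (nat_lit 0) (nat_lit 0) (XT.nd (nat_lit 390) (nat_lit 0) (nat_lit 0) (XT.nd (nat_lit 156) (nat_lit 0) (nat_lit 0) (XT.nd (nat_lit 78) (nat_lit 0) (nat_lit 0) (XT.lf (nat_lit 0) (nat_lit 714204879132) (nat_lit 76) (nat_lit 2854339077343) (nat_lit 76) (nat_lit 2854081428103) (nat_lit 1) (nat_lit 4) (nat_lit 2) (nat_lit 5) (nat_lit 2) (nat_lit 4) (nat_lit 364) (nat_lit 278) (nat_lit 258)) (XT.lf (nat_lit 0) (nat_lit 823071297757) (nat_lit 76) (nat_lit 3281541659037) (nat_lit 76) (nat_lit 3281281822810) (nat_lit 1) (nat_lit 4) (nat_lit 2) (nat_lit 5) (nat_lit 2) (nat_lit 4) (nat_lit 365)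 (nat_lit 278) (nat_lit 257))) (XT.nd (nat_lit 78) (nat_lit 0) (nat_lit 0) (XT.lf (nat_lit 0) (nat_lit 948244469270) (nat_lit 76) (nat_lit 3772836758118) (nat_lit 76) (nat_lit 3772575020163) (nat_lit 1) (nat_lit 4) (nat_lit 2) (nat_lit 5) (nat_lit 2) (nat_lit 4) (nat_lit 366) (nat_lit 278) (nat_lit 256)) (XT.nd (nat_lit 78) (nat_lit 0) (nat_lit 0) (XT.lf (nat_lit 0) (nat_lit 1092173433985) (nat_lit 76) (nat_lit 4337836670003) (nat_lit 76) (nat_lit 4337573278371) (nat_lit 1) (nat_lit 4) (nat_lit 2) (nat_lit 5) (nat_lit 2) (nat_lit 4) (nat_lit 367) (nat_lit 278) (nat_lit 255)) (XT.lf (nat_lit 0) (nat_lit 1257674193385) (nat_lit 76) (nat_lit 4987595740793) (nat_lit 76) (nat_lit 4987330911182) (nat_lit 1) (nat_lit 4) (nat_lit 2) (nat_lit 5) (nat_lit 2) (nat_lit 4) (nat_lit 368) (nat_lit 278) (nat_lit 254))))) (XT.nd (nat_lit 234) (nat_lit 0) (nat_lit 0) (XT.nd (nat_lit 78) (nat_lit 0) (nat_lit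 0) (XT.lf (nat_lit 0) (nat_lit 1447984805805) (nat_lit 76) (nat_lit 5734826647961) (nat_lit 76) (nat_lit 5734560567933) (nat_lit 1) (nat_lit 4) (nat_lit 2) (nat_lit 5) (nat_lit 2) (nat_lit 4) (nat_lit 369) (nat_lit 278) (nat_lit 253)) (XT.nd (nat_lit 78) (nat_lit 0) (nat_lit 0) (XT.lf (nat_lit 0) (nat_lit 1666828739750) (nat_lit 76) (nat_lit 6594149126647) (nat_lit 76) (nat_lit 6593881959300) (nat_lit 1) (nat_lit 4) (nat_lit 2) (nat_lit 5) (nat_lit 2) (nat_lit 4) (nat_lit 370) (nat_lit 278) (nat_lit 252)) (XT.lf (nat_lit 0) (nat_lit 1918487724362) (nat_lit 76) (nat_lit 7582376007956) (nat_lit 76) (nat_lit 7582107895113) (nat_lit 1) (nat_lit 4) (nat_lit 2) (nat_lit 5) (nat_lit 2) (nat_lit 4) (nat_lit 371) (nat_lit 278) (nat_lit 251)))) (XT.nd (nat_lit 78) (nat_lit 0) (nat_lit 0) (XT.lf (nat_lit 0) (nat_lit 2207885522383) (nat_lit 76) (nat_lit 8718842165652) (nat_lit 76) (nat_lit 8718573230640)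 (nat_lit 1) (nat_lit 4) (nat_lit 2) (nat_lit 5) (nat_lit 2) (nat_lit 4) (nat_lit 372) (nat_lit 278) (nat_lit 250)) (XT.nd (nat_lit 78) (nat_lit 0) (nat_lit 0) (XT.lf (nat_lit 0) (nat_lit 2540684264644) (nat_lit 76) (nat_lit 10025782807168) (nat_lit 76) (nat_lit 10025513157226) (nat_lit 1) (nat_lit 4) (nat_lit 2) (nat_lit 5) (nat_lit 2) (nat_lit 4) (nat_lit 373) (nat_lit 278) (nat_lit 249)) (XT.lf (nat_lit 0) (nat_lit 2923395230886) (nat_lit 76) (nat_lit 11528768510274) (nat_lit 76) (nat_lit 11528498238654) (nat_lit 1) (nat_lit 4) (nat_lit 2) (nat_lit 5) (nat_lit 2) (nat_lit 4) (nat_lit 374) (nat_lit 278) (nat_lit 248)))))) (XT.nd (nat_lit 390) (nat_lit 0) (nat_lit 0) (XT.nd (nat_lit 156) (nat_lit 0) (nat_lit 0) (XT.nd (nat_lit 78) (nat_lit 0) (nat_lit 0) (XT.lf (nat_lit 0) (nat_lit 3363506244361) (nat_lit 76) (nat_lit 13257205516987) (nat_lit 76) (nat_lit 13256934704777) (nat_lit 1) (nat_lit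 4) (nat_lit 2) (nat_lit 5) (nat_lit 2) (nat_lit 4) (nat_lit 375) (nat_lit 278) (nat_lit 247)) (XT.lf (nat_lit 0) (nat_lit 3869628172723) (nat_lit 76) (nat_lit 15244911073089) (nat_lit 76) (nat_lit 15244639790801) (nat_lit 1) (nat_lit 4) (nat_lit 2) (nat_lit 5) (nat_lit 2) (nat_lit 4) (nat_lit 376) (nat_lit 278) (nat_lit 246))) (XT.nd (nat_lit 78) (nat_lit 0) (nat_lit 0) (XT.lf (nat_lit 0) (nat_lit 4451663401527) (nat_lit 76) (nat_lit 17530775069897) (nat_lit 76) (nat_lit 17530503378845) (nat_lit 1) (nat_lit 4) (nat_lit 2) (nat_lit 5) (nat_lit 2) (nat_lit 4) (nat_lit 377) (nat_lit 278) (nat_lit 245)) (XT.nd (nat_lit 78) (nat_lit 0) (nat_lit 0) (XT.lf (nat_lit 0) (nat_lit 5120999576555) (nat_lit 76) (nat_lit 20159520933435) (nat_lit 76) (nat_lit 20159248886936) (nat_lit 1) (nat_lit 4) (nat_lit 2) (nat_lit 5) (nat_lit 2) (nat_lit 4) (nat_lit 378) (nat_lit 278) (nat_lit 244)) (XT.lf (nat_lit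 0) (nat_lit 5890732405579) (nat_lit 76) (nat_lit 23182580647989) (nat_lit 76) (nat_lit 23182308292406) (nat_lit 1) (nat_lit 4) (nat_lit 2) (nat_lit 5) (nat_lit 2) (nat_lit 4) (nat_lit 379) (nat_lit 278) (nat_lit 243))))) (XT.nd (nat_lit 234) (nat_lit 0) (nat_lit 0) (XT.nd (nat_lit 78) (nat_lit 0) (nat_lit 0) (XT.lf (nat_lit 0) (nat_lit 6775921878732) (nat_lit 76) (nat_lit 26659101034061) (nat_lit 76) (nat_lit 26658828409710) (nat_lit 1) (nat_lit 4) (nat_lit 2) (nat_lit 5) (nat_lit 2) (nat_lit 4) (nat_lit 380) (nat_lit 278) (nat_lit 242)) (XT.nd (nat_lit 78) (nat_lit 0) (nat_lit 0) (XT.lf (nat_lit 0) (nat_lit 7793886920488) (nat_lit 76) (nat_lit 30657100968770) (nat_lit 76) (nat_lit 30656828110707) (nat_lit 1) (nat_lit 4) (nat_lit 2) (nat_lit 5) (nat_lit 2) (nat_lit 4) (nat_lit 381) (nat_lit 278) (nat_lit 241)) (XT.lf (nat_lit 0) (nat_lit 8964544238187) (nat_lit 76) (nat_lit 35254802189970)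 (nat_lit 76) (nat_lit 35254529128679) (nat_lit 1) (nat_lit 4) (nat_lit 2) (nat_lit 5) (nat_lit 2) (nat_lit 4) (nat_lit 382) (nat_lit 278) (nat_lit 240)))) (XT.nd (nat_lit 78) (nat_lit 0) (nat_lit 0) (XT.lf (nat_lit 0) (nat_lit 10310797996739) (nat_lit 76) (nat_lit 40542159721553) (nat_lit 76) (nat_lit 40541886483543) (nat_lit 1) (nat_lit 4) (nat_lit 2) (nat_lit 5) (nat_lit 2) (nat_lit 4) (nat_lit 383) (nat_lit 278) (nat_lit 239)) (XT.nd (nat_lit 78) (nat_lit 0) (nat_lit 0) (XT.lf (nat_lit 0) (nat_lit 11858987943595) (nat_lit 76) (nat_lit 46622621863051) (nat_lit 76) (nat_lit 46622348471371) (nat_lit 1) (nat_lit 4) (nat_lit 2) (nat_lit 5) (nat_lit 2) (nat_lit 4) (nat_lit 384) (nat_lit 278) (nat_lit 238)) (XT.lf (nat_lit 0) (nat_lit 13639404751629) (nat_lit 76) (nat_lit 53615154178100) (nat_lit 76) (nat_lit 53614880652795) (nat_lit 1) (nat_lit 4) (nat_lit 2) (nat_lit 5) (nat_lit 2) (nat_lit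 4) (nat_lit 385) (nat_lit 278) (nat_lit 237))))))) (XT.nd (nat_lit 43680) (nat_lit 0) (nat_lit 0) (XT.nd (nat_lit 858) (nat_lit 0) (nat_lit 0) (XT.nd (nat_lit 156) (nat_lit 0) (nat_lit 0) (XT.nd (nat_lit 78) (nat_lit 0) (nat_lit 0) (XT.lf (nat_lit 0) (nat_lit 15686882662735) (nat_lit 76) (nat_lit 61656567081562) (nat_lit 76) (nat_lit 61656293440060) (nat_lit 1) (nat_lit 4) (nat_lit 2) (nat_lit 5) (nat_lit 2) (nat_lit 4) (nat_lit 386) (nat_lit 278) (nat_lit 236)) (XT.lf (nat_lit 0) (nat_lit 18041481027350) (nat_lit 76) (nat_lit 70904192565025) (nat_lit 76) (nat_lit 70903918822483) (nat_lit 1) (nat_lit 4) (nat_lit 2) (nat_lit 5) (nat_lit 2) (nat_lit 4) (nat_lit 387) (nat_lit 278) (nat_lit 235))) (XT.nd (nat_lit 78) (nat_lit 0) (nat_lit 0) (XT.lf (nat_lit 0) (nat_lit 20749268074345) (nat_lit 76) (nat_lit 81538962431426) (nat_lit 76) (nat_lit 81538688601023) (nat_lit 1) (nat_lit 4) (nat_lit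 2) (nat_lit 5) (nat_lit 2) (nat_lit 4) (nat_lit 388) (nat_lit 278) (nat_lit 234)) (XT.nd (nat_lit 546) (nat_lit 0) (nat_lit 0) (XT.lf (nat_lit 0) (nat_lit 23863222245945) (nat_lit 76) (nat_lit 93768948265109) (nat_lit 76) (nat_lit 93768674358306) (nat_lit 1) (nat_lit 4) (nat_lit 2) (nat_lit 5) (nat_lit 2) (nat_lit 4) (nat_lit 389) (nat_lit 278) (nat_lit 233)) (XT.lf (nat_lit 0) (nat_lit 63493928854464) (nat_lit 76) (nat_lit 249417778309763) (nat_lit 76) (nat_lit 249417504085100) (nat_lit 1) (nat_lit 4) (nat_lit 2) (nat_lit 5) (nat_lit 2) (nat_lit 4) (nat_lit 396) (nat_lit 278) (nat_lit 226))))) (XT.nd (nat_lit 42588) (nat_lit 0) (nat_lit 0) (XT.nd (nat_lit 78) (nat_lit 0) (nat_lit 0) (XT.lf (nat_lit 0) (nat_lit 73019577958903) (nat_lit 76) (nat_lit 286829588711963) (nat_lit 76) (nat_lit 286829314462324) (nat_lit 1) (nat_lit 4) (nat_lit 2) (nat_lit 5) (nat_lit 2) (nat_lit 4) (nat_lit 397)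 (nat_lit 278) (nat_lit 225)) (XT.nd (nat_lit 78) (nat_lit 0) (nat_lit 0) (XT.lf (nat_lit 0) (nat_lit 83974074163949) (nat_lit 76) (nat_lit 329853170813021) (nat_lit 76) (nat_lit 329852896541663) (nat_lit 1) (nat_lit 4) (nat_lit 2) (nat_lit 5) (nat_lit 2) (nat_lit 4) (nat_lit 398) (nat_lit 278) (nat_lit 224)) (XT.lf (nat_lit 0) (nat_lit 96571744569266) (nat_lit 76) (nat_lit 379330290349694) (nat_lit 76) (nat_lit 379330016059452) (nat_lit 1) (nat_lit 4) (nat_lit 2) (nat_lit 5) (nat_lit 2) (nat_lit 4) (nat_lit 399) (nat_lit 278) (nat_lit 223)))) (XT.nd (nat_lit 78) (nat_lit 0) (nat_lit 0) (XT.lf (nat_lit 0) (nat_lit 4810191228) (nat_lit 76) (nat_lit 72196072056) (nat_lit 76) (nat_lit 72196072056) (nat_lit 1) (nat_lit 4) (nat_lit 2) (nat_lit 5) (nat_lit 2) (nat_lit 4) (nat_lit 342) (nat_lit 279) (nat_lit 279)) (XT.nd (nat_lit 78) (nat_lit 0) (nat_lit 0) (XT.lf (nat_lit 0) (nat_lit 16203995525)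 (nat_lit 76) (nat_lit 163317033597) (nat_lit 76) (nat_lit 163275871176) (nat_lit 1) (nat_lit 4) (nat_lit 2) (nat_lit 5) (nat_lit 2) (nat_lit 4) (nat_lit 343) (nat_lit 279) (nat_lit 278)) (XT.lf (nat_lit 0) (nat_lit 23338304910) (nat_lit 76) (nat_lit 185308964014) (nat_lit 76) (nat_lit 185232008183) (nat_lit 1) (nat_lit 4) (nat_lit 2) (nat_lit 5) (nat_lit 2) (nat_lit 4) (nat_lit 344) (nat_lit 279) (nat_lit 277)))))) (XT.nd (nat_lit 390) (nat_lit 0) (nat_lit 0) (XT.nd (nat_lit 156) (nat_lit 0) (nat_lit 0) (XT.nd (nat_lit 78) (nat_lit 0) (nat_lit 0) (XT.lf (nat_lit 0) (nat_lit 31162894926) (nat_lit 76) (nat_lit 210798212263) (nat_lit 76) (nat_lit 210690131728) (nat_lit 1) (nat_lit 4) (nat_lit 2) (nat_lit 5) (nat_lit 2) (nat_lit 4) (nat_lit 345) (nat_lit 279) (nat_lit 276)) (XT.lf (nat_lit 0) (nat_lit 39830855379) (nat_lit 76) (nat_lit 240283481028) (nat_lit 76) (nat_lit 240148335532) (nat_lit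 1) (nat_lit 4) (nat_lit 2) (nat_lit 5) (nat_lit 2) (nat_lit 4) (nat_lit 346) (nat_lit 279) (nat_lit 275))) (XT.nd (nat_lit 78) (nat_lit 0) (nat_lit 0) (XT.lf (nat_lit 0) (nat_lit 49511776800) (nat_lit 76) (nat_lit 274341656000) (nat_lit 76) (nat_lit 274182975756) (nat_lit 1) (nat_lit 4) (nat_lit 2) (nat_lit 5) (nat_lit 2) (nat_lit 4) (nat_lit 347) (nat_lit 279) (nat_lit 274)) (XT.nd (nat_lit 78) (nat_lit 0) (nat_lit 0) (XT.lf (nat_lit 0) (nat_lit 60395068519) (nat_lit 76) (nat_lit 313639092778) (nat_lit 76) (nat_lit 313459947536) (nat_lit 1) (nat_lit 4) (nat_lit 2) (nat_lit 5) (nat_lit 2) (nat_lit 4) (nat_lit 348) (nat_lit 279) (nat_lit 273)) (XT.lf (nat_lit 0) (nat_lit 72693664506) (nat_lit 76) (nat_lit 358944654256) (nat_lit 76) (nat_lit 358747713363) (nat_lit 1) (nat_lit 4) (nat_lit 2) (nat_lit 5) (nat_lit 2) (nat_lit 4) (nat_lit 349) (nat_lit 279) (nat_lit 272))))) (XT.nd (nat_lit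 234) (nat_lit 0) (nat_lit 0) (XT.nd (nat_lit 78) (nat_lit 0) (nat_lit 0) (XT.lf (nat_lit 0) (nat_lit 86648189465) (nat_lit 76) (nat_lit 411144753591) (nat_lit 76) (nat_lit 410932338220) (nat_lit 1) (nat_lit 4) (nat_lit 2) (nat_lit 5) (nat_lit 2) (nat_lit 4) (nat_lit 350) (nat_lit 279) (nat_lit 271)) (XT.nd (nat_lit 78) (nat_lit 0) (nat_lit 0) (XT.lf (nat_lit 0) (nat_lit 102531666710) (nat_lit 76) (nat_lit 471260697077) (nat_lit 76) (nat_lit 471034825637) (nat_lit 1) (nat_lit 4) (nat_lit 2) (nat_lit 5) (nat_lit 2) (nat_lit 4) (nat_lit 351) (nat_lit 279) (nat_lit 270)) (XT.lf (nat_lit 0) (nat_lit 120654859926) (nat_lit 76) (nat_lit 540468666215) (nat_lit 76) (nat_lit 540231093846) (nat_lit 1) (nat_lit 4) (nat_lit 2) (nat_lit 5) (nat_lit 2) (nat_lit 4) (nat_lit 352) (nat_lit 279) (nat_lit 269)))) (XT.nd (nat_lit 78) (nat_lit 0) (nat_lit 0) (XT.lf (nat_lit 0) (nat_lit 141372353329) (nat_lit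 76) (nat_lit 620122729967) (nat_lit 76) (nat_lit 619874982877) (nat_lit 1) (nat_lit 4) (nat_lit 2) (nat_lit 5) (nat_lit 2) (nat_lit 4) (nat_lit 353) (nat_lit 279) (nat_lit 268)) (XT.nd (nat_lit 78) (nat_lit 0) (nat_lit 0) (XT.lf (nat_lit 0) (nat_lit 165089489180) (nat_lit 76) (nat_lit 711781337407) (nat_lit 76) (nat_lit 711524742733) (nat_lit 1) (nat_lit 4) (nat_lit 2) (nat_lit 5) (nat_lit 2) (nat_lit 4) (nat_lit 354) (nat_lit 279) (nat_lit 267)) (XT.lf (nat_lit 0) (nat_lit 192270298399) (nat_lit 76) (nat_lit 817237809115) (nat_lit 76) (nat_lit 816973520890) (nat_lit 1) (nat_lit 4) (nat_lit 2) (nat_lit 5) (nat_lit 2) (nat_lit 4) (nat_lit 355) (nat_lit 279) (nat_lit 266))))))))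
noncomputable def xc14 : XT := (XT.nd (nat_lit 1638) (nat_lit 0) (nat_lit 0) (XT.nd (nat_lit 780) (nat_lit 0) (nat_lit 0) (XT.nd (nat_lit 390) (nat_lit 0) (nat_lit 0) (XT.nd (nat_lit 156) (nat_lit 0) (nat_lit 0) (XT.nd (nat_lit 78) (nat_lit 0) (nat_lit 0) (XT.lf (nat_lit 0) (nat_lit 223446579427) (nat_lit 76) (nat_lit 938555423885) (nat_lit 76) (nat_lit 938284445616) (nat_lit 1) (nat_lit 4) (nat_lit 2) (nat_lit 5) (nat_lit 2) (nat_lit 4) (nat_lit 356) (nat_lit 279) (nat_lit 265)) (XT.lf (nat_lit 0) (nat_lit 259228302979) (nat_lit 76) (nat_lit 1078107787223) (nat_lit 76) (nat_lit 1077830991525) (nat_lit 1) (nat_lit 4) (nat_lit 2) (nat_lit 5) (nat_lit 2) (nat_lit 4) (nat_lit 357) (nat_lit 279) (nat_lit 264))) (XT.nd (nat_lit 78) (nat_lit 0) (nat_lit 0) (XT.lf (nat_lit 0) (nat_lit 300315546255) (nat_lit 76) (nat_lit 1238625271457) (nat_lit 76) (nat_lit 1238343417124) (nat_lit 1) (nat_lit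 4) (nat_lit 2) (nat_lit 5) (nat_lit 2) (nat_lit 4) (nat_lit 358) (nat_lit 279) (nat_lit 263)) (XT.nd (nat_lit 78) (nat_lit 0) (nat_lit 0) (XT.lf (nat_lit 0) (nat_lit 347512190103) (nat_lit 76) (nat_lit 1423248436059) (nat_lit 76) (nat_lit 1422962182913) (nat_lit 1) (nat_lit 4) (nat_lit 2) (nat_lit 5) (nat_lit 2) (nat_lit 4) (nat_lit 359) (nat_lit 279) (nat_lit 262)) (XT.lf (nat_lit 0) (nat_lit 401741647119) (nat_lit 76) (nat_lit 1635589473381) (nat_lit 76) (nat_lit 1635299395180) (nat_lit 1) (nat_lit 4) (nat_lit 2) (nat_lit 5) (nat_lit 2) (nat_lit 4) (nat_lit 360) (nat_lit 279) (nat_lit 261))))) (XT.nd (nat_lit 156) (nat_lit 0) (nat_lit 0) (XT.nd (nat_lit 78) (nat_lit 0) (nat_lit 0) (XT.lf (nat_lit 0) (nat_lit 464064928418) (nat_lit 76) (nat_lit 1879802881979) (nat_lit 76) (nat_lit 1879509477644) (nat_lit 1) (nat_lit 4) (nat_lit 2) (nat_lit 5) (nat_lit 2) (nat_lit 4) (nat_lit 361) (nat_lit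 279) (nat_lit 260)) (XT.lf (nat_lit 0) (nat_lit 535701402549) (nat_lit 76) (nat_lit 2160666750282) (nat_lit 76) (nat_lit 2160370453657) (nat_lit 1) (nat_lit 4) (nat_lit 2) (nat_lit 5) (nat_lit 2) (nat_lit 4) (nat_lit 362) (nat_lit 279) (nat_lit 259))) (XT.nd (nat_lit 78) (nat_lit 0) (nat_lit 0) (XT.lf (nat_lit 0) (nat_lit 618052652700) (nat_lit 76) (nat_lit 2483676240931) (nat_lit 76) (nat_lit 2483377429270) (nat_lit 1) (nat_lit 4) (nat_lit 2) (nat_lit 5) (nat_lit 2) (nat_lit 4) (nat_lit 363) (nat_lit 279) (nat_lit 258)) (XT.nd (nat_lit 78) (nat_lit 0) (nat_lit 0) (XT.lf (nat_lit 0) (nat_lit 712729898982) (nat_lit 76) (nat_lit 2855151104830) (nat_lit 76) (nat_lit 2854850106182) (nat_lit 1) (nat_lit 4) (nat_lit 2) (nat_lit 5) (nat_lit 2) (nat_lit 4) (nat_lit 364) (nat_lit 279) (nat_lit 257)) (XT.lf (nat_lit 0) (nat_lit 821585522303) (nat_lit 76) (nat_lit 3282359328447) (nat_lit 76) (nat_lit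 3282056428070) (nat_lit 1) (nat_lit 4) (nat_lit 2) (nat_lit 5) (nat_lit 2) (nat_lit 4) (nat_lit 365) (nat_lit 279) (nat_lit 256)))))) (XT.nd (nat_lit 390) (nat_lit 0) (nat_lit 0) (XT.nd (nat_lit 156) (nat_lit 0) (nat_lit 0) (XT.nd (nat_lit 78) (nat_lit 0) (nat_lit 0) (XT.lf (nat_lit 0) (nat_lit 946749306595) (nat_lit 76) (nat_lit 3773659333547) (nat_lit 76) (nat_lit 3773354779494) (nat_lit 1) (nat_lit 4) (nat_lit 2) (nat_lit 5) (nat_lit 2) (nat_lit 4) (nat_lit 366) (nat_lit 279) (nat_lit 255)) (XT.lf (nat_lit 0) (nat_lit 1090670108509) (nat_lit 76) (nat_lit 4338663511535) (nat_lit 76) (nat_lit 4338357519503) (nat_lit 1) (nat_lit 4) (nat_lit 2) (nat_lit 5) (nat_lit 2) (nat_lit 4) (nat_lit 367) (nat_lit 279) (nat_lit 254))) (XT.nd (nat_lit 78) (nat_lit 0) (nat_lit 0) (XT.lf (nat_lit 0) (nat_lit 1256163769820) (nat_lit 76) (nat_lit 4988426291981) (nat_lit 76) (nat_lit 4988119049531) (nat_lit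 1) (nat_lit 4) (nat_lit 2) (nat_lit 5) (nat_lit 2) (nat_lit 4) (nat_lit 368) (nat_lit 279) (nat_lit 253)) (XT.nd (nat_lit 78) (nat_lit 0) (nat_lit 0) (XT.lf (nat_lit 0) (nat_lit 1446468209990) (nat_lit 76) (nat_lit 5735660424936) (nat_lit 76) (nat_lit 5735352095168) (nat_lit 1) (nat_lit 4) (nat_lit 2) (nat_lit 5) (nat_lit 2) (nat_lit 4) (nat_lit 369) (nat_lit 279) (nat_lit 252)) (XT.lf (nat_lit 0) (nat_lit 1665306776761) (nat_lit 76) (nat_lit 6594985708655) (nat_lit 76) (nat_lit 6594676433391) (nat_lit 1) (nat_lit 4) (nat_lit 2) (nat_lit 5) (nat_lit 2) (nat_lit 4) (nat_lit 370) (nat_lit 279) (nat_lit 251))))) (XT.nd (nat_lit 234) (nat_lit 0) (nat_lit 0) (XT.nd (nat_lit 78) (nat_lit 0) (nat_lit 0) (XT.lf (nat_lit 0) (nat_lit 1916961094264) (nat_lit 76) (nat_lit 7583215029122) (nat_lit 76) (nat_lit 7582904931689) (nat_lit 1) (nat_lit 4) (nat_lit 2) (nat_lit 5) (nat_lit 2) (nat_lit 4) (nat_lit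 371) (nat_lit 279) (nat_lit 250)) (XT.nd (nat_lit 78) (nat_lit 0) (nat_lit 0) (XT.lf (nat_lit 0) (nat_lit 2206354833931) (nat_lit 76) (nat_lit 8719683307826) (nat_lit 76) (nat_lit 8719372495462) (nat_lit 1) (nat_lit 4) (nat_lit 2) (nat_lit 5) (nat_lit 2) (nat_lit 4) (nat_lit 372) (nat_lit 279) (nat_lit 249)) (XT.lf (nat_lit 0) (nat_lit 2539150047188) (nat_lit 76) (nat_lit 10026625793696) (nat_lit 76) (nat_lit 10026314359655) (nat_lit 1) (nat_lit 4) (nat_lit 2) (nat_lit 5) (nat_lit 2) (nat_lit 4) (nat_lit 373) (nat_lit 279) (nat_lit 248)))) (XT.nd (nat_lit 78) (nat_lit 0) (nat_lit 0) (XT.lf (nat_lit 0) (nat_lit 2921857944731) (nat_lit 76) (nat_lit 11529613100589) (nat_lit 76) (nat_lit 11529301125957) (nat_lit 1) (nat_lit 4) (nat_lit 2) (nat_lit 5) (nat_lit 2) (nat_lit 4) (nat_lit 374) (nat_lit 279) (nat_lit 247)) (XT.nd (nat_lit 78) (nat_lit 0) (nat_lit 0) (XT.lf (nat_lit 0) (nat_lit 3361966289771)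 (nat_lit 76) (nat_lit 13258051501898) (nat_lit 76) (nat_lit 13257739057188) (nat_lit 1) (nat_lit 4) (nat_lit 2) (nat_lit 5) (nat_lit 2) (nat_lit 4) (nat_lit 375) (nat_lit 279) (nat_lit 246)) (XT.lf (nat_lit 0) (nat_lit 3868085897755) (nat_lit 76) (nat_lit 15245758270694) (nat_lit 76) (nat_lit 15245445417220) (nat_lit 1) (nat_lit 4) (nat_lit 2) (nat_lit 5) (nat_lit 2) (nat_lit 4) (nat_lit 376) (nat_lit 279) (nat_lit 245))))))) (XT.nd (nat_lit 858) (nat_lit 0) (nat_lit 0) (XT.nd (nat_lit 390) (nat_lit 0) (nat_lit 0) (XT.nd (nat_lit 156) (nat_lit 0) (nat_lit 0) (XT.nd (nat_lit 78) (nat_lit 0) (nat_lit 0) (XT.lf (nat_lit 0) (nat_lit 4450119108840) (nat_lit 76) (nat_lit 17531623322017) (nat_lit 76) (nat_lit 17531310113097) (nat_lit 1) (nat_lit 4) (nat_lit 2) (nat_lit 5) (nat_lit 2) (nat_lit 4) (nat_lit 377) (nat_lit 279) (nat_lit 244)) (XT.lf (nat_lit 0) (nat_lit 5119453529329) (nat_lit 76)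 (nat_lit 20160370102525) (nat_lit 76) (nat_lit 20160056584521) (nat_lit 1) (nat_lit 4) (nat_lit 2) (nat_lit 5) (nat_lit 2) (nat_lit 4) (nat_lit 378) (nat_lit 279) (nat_lit 243))) (XT.nd (nat_lit 78) (nat_lit 0) (nat_lit 0) (XT.lf (nat_lit 0) (nat_lit 5889184832667) (nat_lit 76) (nat_lit 23183430614444) (nat_lit 76) (nat_lit 23183116827671) (nat_lit 1) (nat_lit 4) (nat_lit 2) (nat_lit 5) (nat_lit 2) (nat_lit 4) (nat_lit 379) (nat_lit 279) (nat_lit 242)) (XT.nd (nat_lit 78) (nat_lit 0) (nat_lit 0) (XT.lf (nat_lit 0) (nat_lit 6774372979137) (nat_lit 76) (nat_lit 26659951693877) (nat_lit 76) (nat_lit 26659637673393) (nat_lit 1) (nat_lit 4) (nat_lit 2) (nat_lit 5) (nat_lit 2) (nat_lit 4) (nat_lit 380) (nat_lit 279) (nat_lit 241)) (XT.lf (nat_lit 0) (nat_lit 7792336867255) (nat_lit 76) (nat_lit 30657952231509) (nat_lit 76) (nat_lit 30657638007797) (nat_lit 1) (nat_lit 4) (nat_lit 2) (nat_lit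 5) (nat_lit 2) (nat_lit 4) (nat_lit 381) (nat_lit 279) (nat_lit 240))))) (XT.nd (nat_lit 234) (nat_lit 0) (nat_lit 0) (XT.nd (nat_lit 78) (nat_lit 0) (nat_lit 0) (XT.lf (nat_lit 0) (nat_lit 8962993181791) (nat_lit 76) (nat_lit 35255653976990) (nat_lit 76) (nat_lit 35255339576558) (nat_lit 1) (nat_lit 4) (nat_lit 2) (nat_lit 5) (nat_lit 2) (nat_lit 4) (nat_lit 382) (nat_lit 279) (nat_lit 239)) (XT.nd (nat_lit 78) (nat_lit 0) (nat_lit 0) (XT.lf (nat_lit 0) (nat_lit 10309246068027) (nat_lit 76) (nat_lit 40543011964469) (nat_lit 76) (nat_lit 40542697410368) (nat_lit 1) (nat_lit 4) (nat_lit 2) (nat_lit 5) (nat_lit 2) (nat_lit 4) (nat_lit 383) (nat_lit 279) (nat_lit 238)) (XT.lf (nat_lit 0) (nat_lit 11857435256348) (nat_lit 76) (nat_lit 46623474502398) (nat_lit 76) (nat_lit 46623159814671) (nat_lit 1) (nat_lit 4) (nat_lit 2) (nat_lit 5) (nat_lit 2) (nat_lit 4) (nat_lit 384) (nat_lit 279) (nat_lit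 237)))) (XT.nd (nat_lit 78) (nat_lit 0) (nat_lit 0) (XT.lf (nat_lit 0) (nat_lit 13637851404785) (nat_lit 76) (nat_lit 53616007162170) (nat_lit 76) (nat_lit 53615692358247) (nat_lit 1) (nat_lit 4) (nat_lit 2) (nat_lit 5) (nat_lit 2) (nat_lit 4) (nat_lit 385) (nat_lit 279) (nat_lit 236)) (XT.nd (nat_lit 78) (nat_lit 0) (nat_lit 0) (XT.lf (nat_lit 0) (nat_lit 15685328742330) (nat_lit 76) (nat_lit 61657420365391) (nat_lit 76) (nat_lit 61657105460428) (nat_lit 1) (nat_lit 4) (nat_lit 2) (nat_lit 5) (nat_lit 2) (nat_lit 4) (nat_lit 386) (nat_lit 279) (nat_lit 235)) (XT.lf (nat_lit 0) (nat_lit 18039926608195) (nat_lit 76) (nat_lit 70905046109514) (nat_lit 76) (nat_lit 70904731116690) (nat_lit 1) (nat_lit 4) (nat_lit 2) (nat_lit 5) (nat_lit 2) (nat_lit 4) (nat_lit 387) (nat_lit 279) (nat_lit 234)))))) (XT.nd (nat_lit 702) (nat_lit 0) (nat_lit 0) (XT.nd (nat_lit 156) (nat_lit 0) (nat_lit 0) (XT.nd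 (nat_lit 78) (nat_lit 0) (nat_lit 0) (XT.lf (nat_lit 0) (nat_lit 20747713221495) (nat_lit 76) (nat_lit 81539816202577) (nat_lit 76) (nat_lit 81539501133352) (nat_lit 1) (nat_lit 4) (nat_lit 2) (nat_lit 5) (nat_lit 2) (nat_lit 4) (nat_lit 388) (nat_lit 279) (nat_lit 233)) (XT.lf (nat_lit 0) (nat_lit 23861667015969) (nat_lit 76) (nat_lit 93769802233356) (nat_lit 76) (nat_lit 93769487097696) (nat_lit 1) (nat_lit 4) (nat_lit 2) (nat_lit 5) (nat_lit 2) (nat_lit 4) (nat_lit 389) (nat_lit 279) (nat_lit 232))) (XT.nd (nat_lit 390) (nat_lit 0) (nat_lit 0) (XT.lf (nat_lit 0) (nat_lit 27442713174552) (nat_lit 76) (nat_lit 107834286537237) (nat_lit 76) (nat_lit 107833971343807) (nat_lit 1) (nat_lit 4) (nat_lit 2) (nat_lit 5) (nat_lit 2) (nat_lit 4) (nat_lit 390) (nat_lit 279) (nat_lit 231)) (XT.nd (nat_lit 78) (nat_lit 0) (nat_lit 0) (XT.lf (nat_lit 0) (nat_lit 55209198797906) (nat_lit 76) (nat_lit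 216886624117054) (nat_lit 76) (nat_lit 216886308729970) (nat_lit 1) (nat_lit 4) (nat_lit 2) (nat_lit 5) (nat_lit 2) (nat_lit 4) (nat_lit 395) (nat_lit 279) (nat_lit 226)) (XT.lf (nat_lit 0) (nat_lit 63492372055483) (nat_lit 76) (nat_lit 249418633098014) (nat_lit 76) (nat_lit 249418317685955) (nat_lit 1) (nat_lit 4) (nat_lit 2) (nat_lit 5) (nat_lit 2) (nat_lit 4) (nat_lit 396) (nat_lit 279) (nat_lit 225))))) (XT.nd (nat_lit 42432) (nat_lit 0) (nat_lit 0) (XT.nd (nat_lit 78) (nat_lit 0) (nat_lit 0) (XT.lf (nat_lit 0) (nat_lit 73018021036640) (nat_lit 76) (nat_lit 286830443564645) (nat_lit 76) (nat_lit 286830128130867) (nat_lit 1) (nat_lit 4) (nat_lit 2) (nat_lit 5) (nat_lit 2) (nat_lit 4) (nat_lit 397) (nat_lit 279) (nat_lit 224)) (XT.nd (nat_lit 78) (nat_lit 0) (nat_lit 0) (XT.lf (nat_lit 0) (nat_lit 83972517134483) (nat_lit 76) (nat_lit 329854025721730) (nat_lit 76) (nat_lit 329853710269067)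 (nat_lit 1) (nat_lit 4) (nat_lit 2) (nat_lit 5) (nat_lit 2) (nat_lit 4) (nat_lit 398) (nat_lit 279) (nat_lit 223)) (XT.lf (nat_lit 0) (nat_lit 96570187446580) (nat_lit 76) (nat_lit 379331145307123) (nat_lit 76) (nat_lit 379330829838038) (nat_lit 1) (nat_lit 4) (nat_lit 2) (nat_lit 5) (nat_lit 2) (nat_lit 4) (nat_lit 399) (nat_lit 279) (nat_lit 222)))) (XT.nd (nat_lit 78) (nat_lit 76) (nat_lit 0) (XT.lf (nat_lit 0) (nat_lit 56088684502) (nat_lit 152) (nat_lit 971565931) (nat_lit 0) (nat_lit 56088684502) (nat_lit 2) (nat_lit 5) (nat_lit 4) (nat_lit 4) (nat_lit 2) (nat_lit 4) (nat_lit 340) (nat_lit 280) (nat_lit 280)) (XT.nd (nat_lit 78) (nat_lit 0) (nat_lit 0) (XT.lf (nat_lit 0) (nat_lit 3458655887) (nat_lit 76) (nat_lit 128211362768) (nat_lit 76) (nat_lit 128164025983) (nat_lit 1) (nat_lit 4) (nat_lit 2) (nat_lit 5) (nat_lit 2) (nat_lit 4) (nat_lit 341) (nat_lit 280) (nat_lit 279)) (XT.lf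 (nat_lit 0) (nat_lit 9386720835) (nat_lit 76) (nat_lit 144561598867) (nat_lit 76) (nat_lit 144473099661) (nat_lit 1) (nat_lit 4) (nat_lit 2) (nat_lit 5) (nat_lit 2) (nat_lit 4) (nat_lit 342) (nat_lit 280) (nat_lit 278))))))))
noncomputable def xc15 : XT := (XT.nd (nat_lit 1716) (nat_lit 0) (nat_lit 0) (XT.nd (nat_lit 858) (nat_lit 0) (nat_lit 0) (XT.nd (nat_lit 390) (nat_lit 0) (nat_lit 0) (XT.nd (nat_lit 156) (nat_lit 0) (nat_lit 0) (XT.nd (nat_lit 78) (nat_lit 0) (nat_lit 0) (XT.lf (nat_lit 0) (nat_lit 15767149882) (nat_lit 76) (nat_lit 163592677891) (nat_lit 76) (nat_lit 163468385275) (nat_lit 1) (nat_lit 4) (nat_lit 2) (nat_lit 5) (nat_lit 2) (nat_lit 4) (nat_lit 343) (nat_lit 280) (nat_lit 277)) (XT.lf (nat_lit 0) (nat_lit 22724777511) (nat_lit 76) (nat_lit 185676947038) (nat_lit 76) (nat_lit 185521529718) (nat_lit 1) (nat_lit 4) (nat_lit 2) (nat_lit 5) (nat_lit 2) (nat_lit 4) (nat_lit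 344) (nat_lit 280) (nat_lit 276))) (XT.nd (nat_lit 78) (nat_lit 0) (nat_lit 0) (XT.lf (nat_lit 0) (nat_lit 30395731218) (nat_lit 76) (nat_lit 211246489835) (nat_lit 76) (nat_lit 211064007555) (nat_lit 1) (nat_lit 4) (nat_lit 2) (nat_lit 5) (nat_lit 2) (nat_lit 4) (nat_lit 345) (nat_lit 280) (nat_lit 275)) (XT.nd (nat_lit 78) (nat_lit 0) (nat_lit 0) (XT.lf (nat_lit 0) (nat_lit 38930094880) (nat_lit 76) (nat_lit 240801579945) (nat_lit 76) (nat_lit 240595562917) (nat_lit 1) (nat_lit 4) (nat_lit 2) (nat_lit 5) (nat_lit 2) (nat_lit 4) (nat_lit 346) (nat_lit 280) (nat_lit 274)) (XT.lf (nat_lit 0) (nat_lit 48494845177) (nat_lit 76) (nat_lit 274920469132) (nat_lit 76) (nat_lit 274693987105) (nat_lit 1) (nat_lit 4) (nat_lit 2) (nat_lit 5) (nat_lit 2) (nat_lit 4) (nat_lit 347) (nat_lit 280) (nat_lit 273))))) (XT.nd (nat_lit 234) (nat_lit 0) (nat_lit 0) (XT.nd (nat_lit 78) (nat_lit 0) (nat_lit 0)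 (XT.lf (nat_lit 0) (nat_lit 59277118529) (nat_lit 76) (nat_lit 314270700879) (nat_lit 76) (nat_lit 314026423201) (nat_lit 1) (nat_lit 4) (nat_lit 2) (nat_lit 5) (nat_lit 2) (nat_lit 4) (nat_lit 348) (nat_lit 280) (nat_lit 272)) (XT.nd (nat_lit 78) (nat_lit 0) (nat_lit 0) (XT.lf (nat_lit 0) (nat_lit 71487872458) (nat_lit 76) (nat_lit 359622171024) (nat_lit 76) (nat_lit 359362418868) (nat_lit 1) (nat_lit 4) (nat_lit 2) (nat_lit 5) (nat_lit 2) (nat_lit 4) (nat_lit 349) (nat_lit 280) (nat_lit 271)) (XT.lf (nat_lit 0) (nat_lit 85366013017) (nat_lit 76) (nat_lit 411862190941) (nat_lit 76) (nat_lit 411588982716) (nat_lit 1) (nat_lit 4) (nat_lit 2) (nat_lit 5) (nat_lit 2) (nat_lit 4) (nat_lit 350) (nat_lit 280) (nat_lit 270)))) (XT.nd (nat_lit 78) (nat_lit 0) (nat_lit 0) (XT.lf (nat_lit 0) (nat_lit 101183069046) (nat_lit 76) (nat_lit 472012847975) (nat_lit 76) (nat_lit 471727938821) (nat_lit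 1) (nat_lit 4) (nat_lit 2) (nat_lit 5) (nat_lit 2) (nat_lit 4) (nat_lit 351) (nat_lit 280) (nat_lit 269)) (XT.nd (nat_lit 78) (nat_lit 0) (nat_lit 0) (XT.lf (nat_lit 0) (nat_lit 119248504683) (nat_lit 76) (nat_lit 541251002808) (nat_lit 76) (nat_lit 540955918933) (nat_lit 1) (nat_lit 4) (nat_lit 2) (nat_lit 5) (nat_lit 2) (nat_lit 4) (nat_lit 352) (nat_lit 280) (nat_lit 268)) (XT.lf (nat_lit 0) (nat_lit 139915774103) (nat_lit 76) (nat_lit 620931314990) (nat_lit 76) (nat_lit 620627383532) (nat_lit 1) (nat_lit 4) (nat_lit 2) (nat_lit 5) (nat_lit 2) (nat_lit 4) (nat_lit 353) (nat_lit 280) (nat_lit 267)))))) (XT.nd (nat_lit 390) (nat_lit 0) (nat_lit 0) (XT.nd (nat_lit 156) (nat_lit 0) (nat_lit 0) (XT.nd (nat_lit 78) (nat_lit 0) (nat_lit 0) (XT.lf (nat_lit 0) (nat_lit 163589236926) (nat_lit 76) (nat_lit 712612747152) (nat_lit 76) (nat_lit 712301122143) (nat_lit 1) (nat_lit 4) (nat_lit 2) (nat_lit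 5) (nat_lit 2) (nat_lit 4) (nat_lit 354) (nat_lit 280) (nat_lit 266)) (XT.lf (nat_lit 0) (nat_lit 190732069599) (nat_lit 76) (nat_lit 818089066444) (nat_lit 76) (nat_lit 817770751391) (nat_lit 1) (nat_lit 4) (nat_lit 2) (nat_lit 5) (nat_lit 2) (nat_lit 4) (nat_lit 355) (nat_lit 280) (nat_lit 265))) (XT.nd (nat_lit 78) (nat_lit 0) (nat_lit 0) (XT.lf (nat_lit 0) (nat_lit 221875327543) (nat_lit 76) (nat_lit 939423939983) (nat_lit 76) (nat_lit 939099807500) (nat_lit 1) (nat_lit 4) (nat_lit 2) (nat_lit 5) (nat_lit 2) (nat_lit 4) (nat_lit 356) (nat_lit 280) (nat_lit 264)) (XT.nd (nat_lit 78) (nat_lit 0) (nat_lit 0) (XT.lf (nat_lit 0) (nat_lit 257628335371) (nat_lit 76) (nat_lit 1078991310947) (nat_lit 76) (nat_lit 1078662119829) (nat_lit 1) (nat_lit 4) (nat_lit 2) (nat_lit 5) (nat_lit 2) (nat_lit 4) (nat_lit 357) (nat_lit 280) (nat_lit 263)) (XT.lf (nat_lit 0) (nat_lit 298690608452) (nat_lit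 76) (nat_lit 1239521845289) (nat_lit 76) (nat_lit 1239188255358) (nat_lit 1) (nat_lit 4) (nat_lit 2) (nat_lit 5) (nat_lit 2) (nat_lit 4) (nat_lit 358) (nat_lit 280) (nat_lit 262))))) (XT.nd (nat_lit 234) (nat_lit 0) (nat_lit 0) (XT.nd (nat_lit 78) (nat_lit 0) (nat_lit 0) (XT.lf (nat_lit 0) (nat_lit 345865539086) (nat_lit 76) (nat_lit 1424156357811) (nat_lit 76) (nat_lit 1423818942827) (nat_lit 1) (nat_lit 4) (nat_lit 2) (nat_lit 5) (nat_lit 2) (nat_lit 4) (nat_lit 359) (nat_lit 280) (nat_lit 261)) (XT.nd (nat_lit 78) (nat_lit 0) (nat_lit 0) (XT.lf (nat_lit 0) (nat_lit 400076115046) (nat_lit 76) (nat_lit 1636507262891) (nat_lit 76) (nat_lit 1636166521771) (nat_lit 1) (nat_lit 4) (nat_lit 2) (nat_lit 5) (nat_lit 2) (nat_lit 4) (nat_lit 360) (nat_lit 280) (nat_lit 260)) (XT.lf (nat_lit 0) (nat_lit 462382978037) (nat_lit 76) (nat_lit 1880729252147) (nat_lit 76) (nat_lit 1880385618737) (nat_lit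 1) (nat_lit 4) (nat_lit 2) (nat_lit 5) (nat_lit 2) (nat_lit 4) (nat_lit 361) (nat_lit 280) (nat_lit 259)))) (XT.nd (nat_lit 78) (nat_lit 0) (nat_lit 0) (XT.lf (nat_lit 0) (nat_lit 534005175377) (nat_lit 76) (nat_lit 2161600581892) (nat_lit 76) (nat_lit 2161254433447) (nat_lit 1) (nat_lit 4) (nat_lit 2) (nat_lit 5) (nat_lit 2) (nat_lit 4) (nat_lit 362) (nat_lit 280) (nat_lit 258)) (XT.nd (nat_lit 78) (nat_lit 0) (nat_lit 0) (XT.lf (nat_lit 0) (nat_lit 616344010928) (nat_lit 76) (nat_lit 2484616560752) (nat_lit 76) (nat_lit 2484268225319) (nat_lit 1) (nat_lit 4) (nat_lit 2) (nat_lit 5) (nat_lit 2) (nat_lit 4) (nat_lit 363) (nat_lit 280) (nat_lit 257)) (XT.lf (nat_lit 0) (nat_lit 711010461906) (nat_lit 76) (nat_lit 2856097066573) (nat_lit 76) (nat_lit 2855746829412) (nat_lit 1) (nat_lit 4) (nat_lit 2) (nat_lit 5) (nat_lit 2) (nat_lit 4) (nat_lit 364) (nat_lit 280) (nat_lit 256))))))) (XT.nd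 (nat_lit 858) (nat_lit 0) (nat_lit 0) (XT.nd (nat_lit 390) (nat_lit 0) (nat_lit 0) (XT.nd (nat_lit 156) (nat_lit 0) (nat_lit 0) (XT.nd (nat_lit 78) (nat_lit 0) (nat_lit 0) (XT.lf (nat_lit 0) (nat_lit 819856698005) (nat_lit 76) (nat_lit 3283310196209) (nat_lit 76) (nat_lit 3282958305371) (nat_lit 1) (nat_lit 4) (nat_lit 2) (nat_lit 5) (nat_lit 2) (nat_lit 4) (nat_lit 365) (nat_lit 280) (nat_lit 255)) (XT.lf (nat_lit 0) (nat_lit 945012319496) (nat_lit 76) (nat_lit 3774614467413) (nat_lit 76) (nat_lit 3774261138596) (nat_lit 1) (nat_lit 4) (nat_lit 2) (nat_lit 5) (nat_lit 2) (nat_lit 4) (nat_lit 366) (nat_lit 280) (nat_lit 254))) (XT.nd (nat_lit 78) (nat_lit 0) (nat_lit 0) (XT.lf (nat_lit 0) (nat_lit 1088926023322) (nat_lit 76) (nat_lit 4339622355057) (nat_lit 76) (nat_lit 4339267775822) (nat_lit 1) (nat_lit 4) (nat_lit 2) (nat_lit 5) (nat_lit 2) (nat_lit 4) (nat_lit 367) (nat_lit 280) (nat_lit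 253)) (XT.nd (nat_lit 78) (nat_lit 0) (nat_lit 0) (XT.lf (nat_lit 0) (nat_lit 1254413512383) (nat_lit 76) (nat_lit 4989388361290) (nat_lit 76) (nat_lit 4989032694736) (nat_lit 1) (nat_lit 4) (nat_lit 2) (nat_lit 5) (nat_lit 2) (nat_lit 4) (nat_lit 368) (nat_lit 280) (nat_lit 252)) (XT.lf (nat_lit 0) (nat_lit 1444712585378) (nat_lit 76) (nat_lit 5736625299277) (nat_lit 76) (nat_lit 5736268687229) (nat_lit 1) (nat_lit 4) (nat_lit 2) (nat_lit 5) (nat_lit 2) (nat_lit 4) (nat_lit 369) (nat_lit 280) (nat_lit 251))))) (XT.nd (nat_lit 234) (nat_lit 0) (nat_lit 0) (XT.nd (nat_lit 78) (nat_lit 0) (nat_lit 0) (XT.lf (nat_lit 0) (nat_lit 1663546485041) (nat_lit 76) (nat_lit 6595953022154) (nat_lit 76) (nat_lit 6595595587936) (nat_lit 1) (nat_lit 4) (nat_lit 2) (nat_lit 5) (nat_lit 2) (nat_lit 4) (nat_lit 370) (nat_lit 280) (nat_lit 250)) (XT.nd (nat_lit 78) (nat_lit 0) (nat_lit 0) (XT.lf (nat_lit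 0) (nat_lit 1915196744190) (nat_lit 76) (nat_lit 7584184463629) (nat_lit 76) (nat_lit 7583826314481) (nat_lit 1) (nat_lit 4) (nat_lit 2) (nat_lit 5) (nat_lit 2) (nat_lit 4) (nat_lit 371) (nat_lit 280) (nat_lit 249)) (XT.lf (nat_lit 0) (nat_lit 2204586954852) (nat_lit 76) (nat_lit 8720654586687) (nat_lit 76) (nat_lit 8720295815861) (nat_lit 1) (nat_lit 4) (nat_lit 2) (nat_lit 5) (nat_lit 2) (nat_lit 4) (nat_lit 372) (nat_lit 280) (nat_lit 248)))) (XT.nd (nat_lit 78) (nat_lit 0) (nat_lit 0) (XT.lf (nat_lit 0) (nat_lit 2537379099410) (nat_lit 76) (nat_lit 10027598676344) (nat_lit 76) (nat_lit 10027239364928) (nat_lit 1) (nat_lit 4) (nat_lit 2) (nat_lit 5) (nat_lit 2) (nat_lit 4) (nat_lit 373) (nat_lit 280) (nat_lit 247)) (XT.nd (nat_lit 78) (nat_lit 0) (nat_lit 0) (XT.lf (nat_lit 0) (nat_lit 2920084328518) (nat_lit 76) (nat_lit 11530587377833) (nat_lit 76) (nat_lit 11530227596339) (nat_lit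 1) (nat_lit 4) (nat_lit 2) (nat_lit 5) (nat_lit 2) (nat_lit 4) (nat_lit 374) (nat_lit 280) (nat_lit 246)) (XT.lf (nat_lit 0) (nat_lit 3360190353181) (nat_lit 76) (nat_lit 13259026991836) (nat_lit 76) (nat_lit 13258666801578) (nat_lit 1) (nat_lit 4) (nat_lit 2) (nat_lit 5) (nat_lit 2) (nat_lit 4) (nat_lit 375) (nat_lit 280) (nat_lit 245)))))) (XT.nd (nat_lit 390) (nat_lit 0) (nat_lit 0) (XT.nd (nat_lit 156) (nat_lit 0) (nat_lit 0) (XT.nd (nat_lit 78) (nat_lit 0) (nat_lit 0) (XT.lf (nat_lit 0) (nat_lit 3866307943446) (nat_lit 76) (nat_lit 15246734815147) (nat_lit 76) (nat_lit 15246374269442) (nat_lit 1) (nat_lit 4) (nat_lit 2) (nat_lit 5) (nat_lit 2) (nat_lit 4) (nat_lit 376) (nat_lit 280) (nat_lit 244)) (XT.lf (nat_lit 0) (nat_lit 4448339399992) (nat_lit 76) (nat_lit 17532600783440) (nat_lit 76) (nat_lit 17532239928652) (nat_lit 1) (nat_lit 4) (nat_lit 2) (nat_lit 5) (nat_lit 2) (nat_lit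 4) (nat_lit 377) (nat_lit 280) (nat_lit 243))) (XT.nd (nat_lit 78) (nat_lit 0) (nat_lit 0) (XT.lf (nat_lit 0) (nat_lit 5117672294795) (nat_lit 76) (nat_lit 20161348361313) (nat_lit 76) (nat_lit 20160987237756) (nat_lit 1) (nat_lit 4) (nat_lit 2) (nat_lit 5) (nat_lit 2) (nat_lit 4) (nat_lit 378) (nat_lit 280) (nat_lit 242)) (XT.nd (nat_lit 78) (nat_lit 0) (nat_lit 0) (XT.lf (nat_lit 0) (nat_lit 5887402271450) (nat_lit 76) (nat_lit 23184409566593) (nat_lit 76) (nat_lit 23184048209324) (nat_lit 1) (nat_lit 4) (nat_lit 2) (nat_lit 5) (nat_lit 2) (nat_lit 4) (nat_lit 379) (nat_lit 280) (nat_lit 241)) (XT.lf (nat_lit 0) (nat_lit 6772589264281) (nat_lit 76) (nat_lit 26660931248949) (nat_lit 76) (nat_lit 26660569688453) (nat_lit 1) (nat_lit 4) (nat_lit 2) (nat_lit 5) (nat_lit 2) (nat_lit 4) (nat_lit 380) (nat_lit 280) (nat_lit 240))))) (XT.nd (nat_lit 234) (nat_lit 0) (nat_lit 0) (XT.nd (nat_lit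 78) (nat_lit 0) (nat_lit 0) (XT.lf (nat_lit 0) (nat_lit 7790552149237) (nat_lit 76) (nat_lit 30658932310862) (nat_lit 76) (nat_lit 30658570573646) (nat_lit 1) (nat_lit 4) (nat_lit 2) (nat_lit 5) (nat_lit 2) (nat_lit 4) (nat_lit 381) (nat_lit 280) (nat_lit 239)) (XT.nd (nat_lit 78) (nat_lit 0) (nat_lit 0) (XT.lf (nat_lit 0) (nat_lit 8961207591456) (nat_lit 76) (nat_lit 35256634512239) (nat_lit 76) (nat_lit 35256272621353) (nat_lit 1) (nat_lit 4) (nat_lit 2) (nat_lit 5) (nat_lit 2) (nat_lit 4) (nat_lit 382) (nat_lit 280) (nat_lit 238)) (XT.lf (nat_lit 0) (nat_lit 10307459719157) (nat_lit 76) (nat_lit 40543992896150) (nat_lit 76) (nat_lit 40543630871638) (nat_lit 1) (nat_lit 4) (nat_lit 2) (nat_lit 5) (nat_lit 2) (nat_lit 4) (nat_lit 383) (nat_lit 280) (nat_lit 237)))) (XT.nd (nat_lit 78) (nat_lit 0) (nat_lit 0) (XT.lf (nat_lit 0) (nat_lit 11855648247882) (nat_lit 76) (nat_lit 46624455778801)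 (nat_lit 76) (nat_lit 46624093638094) (nat_lit 1) (nat_lit 4) (nat_lit 2) (nat_lit 5) (nat_lit 2) (nat_lit 4) (nat_lit 384) (nat_lit 280) (nat_lit 236)) (XT.nd (nat_lit 78) (nat_lit 0) (nat_lit 0) (XT.lf (nat_lit 0) (nat_lit 13636063822757) (nat_lit 76) (nat_lit 53616988738333) (nat_lit 76) (nat_lit 53616626496586) (nat_lit 1) (nat_lit 4) (nat_lit 2) (nat_lit 5) (nat_lit 2) (nat_lit 4) (nat_lit 385) (nat_lit 280) (nat_lit 235)) (XT.lf (nat_lit 0) (nat_lit 15683540661552) (nat_lit 76) (nat_lit 61658402202214) (nat_lit 76) (nat_lit 61658039872605) (nat_lit 1) (nat_lit 4) (nat_lit 2) (nat_lit 5) (nat_lit 2) (nat_lit 4) (nat_lit 386) (nat_lit 280) (nat_lit 234))))))))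
noncomputable def xc16 : XT := (XT.nd (nat_lit 43914) (nat_lit 0) (nat_lit 0) (XT.nd (nat_lit 43056) (nat_lit 0) (nat_lit 0) (XT.nd (nat_lit 624) (nat_lit 0) (nat_lit 0) (XT.nd (nat_lit 156) (nat_lit 0) (nat_lit 0) (XT.nd (nat_lit 78) (nat_lit 0) (nat_lit 0) (XT.lf (nat_lit 0) (nat_lit 18038138093722) (nat_lit 76) (nat_lit 70906028172998) (nat_lit 76) (nat_lit 70905665766989) (nat_lit 1) (nat_lit 4) (nat_lit 2) (nat_lit 5) (nat_lit 2) (nat_lit 4) (nat_lit 387) (nat_lit 280) (nat_lit 233)) (XT.lf (nat_lit 0) (nat_lit 20745924329896) (nat_lit 76) (nat_lit 81540798463157) (nat_lit 76) (nat_lit 81540435990712) (nat_lit 1) (nat_lit 4) (nat_lit 2) (nat_lit 5) (nat_lit 2) (nat_lit 4) (nat_lit 388) (nat_lit 280) (nat_lit 232))) (XT.nd (nat_lit 78) (nat_lit 0) (nat_lit 0) (XT.lf (nat_lit 0) (nat_lit 23859877796434) (nat_lit 76) (nat_lit 93770784665325) (nat_lit 76) (nat_lit 93770422135110) (nat_lit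 1) (nat_lit 4) (nat_lit 2) (nat_lit 5) (nat_lit 2) (nat_lit 4) (nat_lit 389) (nat_lit 280) (nat_lit 231)) (XT.nd (nat_lit 312) (nat_lit 0) (nat_lit 0) (XT.lf (nat_lit 0) (nat_lit 27440923669855) (nat_lit 76) (nat_lit 107835269118239) (nat_lit 76) (nat_lit 107834906537790) (nat_lit 1) (nat_lit 4) (nat_lit 2) (nat_lit 5) (nat_lit 2) (nat_lit 4) (nat_lit 390) (nat_lit 280) (nat_lit 230)) (XT.lf (nat_lit 0) (nat_lit 48004648859604) (nat_lit 76) (nat_lit 188598903800366) (nat_lit 76) (nat_lit 188598541076497) (nat_lit 1) (nat_lit 4) (nat_lit 2) (nat_lit 5) (nat_lit 2) (nat_lit 4) (nat_lit 394) (nat_lit 280) (nat_lit 226))))) (XT.nd (nat_lit 156) (nat_lit 0) (nat_lit 0) (XT.nd (nat_lit 78) (nat_lit 0) (nat_lit 0) (XT.lf (nat_lit 0) (nat_lit 55207408337303) (nat_lit 76) (nat_lit 216887607197639) (nat_lit 76) (nat_lit 216887244448794) (nat_lit 1) (nat_lit 4) (nat_lit 2) (nat_lit 5) (nat_lit 2)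 (nat_lit 4) (nat_lit 395) (nat_lit 280) (nat_lit 225)) (XT.lf (nat_lit 0) (nat_lit 63490581471599) (nat_lit 76) (nat_lit 249419616243031) (nat_lit 76) (nat_lit 249419253472468) (nat_lit 1) (nat_lit 4) (nat_lit 2) (nat_lit 5) (nat_lit 2) (nat_lit 4) (nat_lit 396) (nat_lit 280) (nat_lit 224))) (XT.nd (nat_lit 78) (nat_lit 0) (nat_lit 0) (XT.lf (nat_lit 0) (nat_lit 73016230345551) (nat_lit 76) (nat_lit 286831426765689) (nat_lit 76) (nat_lit 286831063976240) (nat_lit 1) (nat_lit 4) (nat_lit 2) (nat_lit 5) (nat_lit 2) (nat_lit 4) (nat_lit 397) (nat_lit 280) (nat_lit 223)) (XT.nd (nat_lit 78) (nat_lit 0) (nat_lit 0) (XT.lf (nat_lit 0) (nat_lit 83970726350175) (nat_lit 76) (nat_lit 329855008971492) (nat_lit 76) (nat_lit 329854646165622) (nat_lit 1) (nat_lit 4) (nat_lit 2) (nat_lit 5) (nat_lit 2) (nat_lit 4) (nat_lit 398) (nat_lit 280) (nat_lit 222)) (XT.lf (nat_lit 0) (nat_lit 96568396581212)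 (nat_lit 76) (nat_lit 379332128599249) (nat_lit 76) (nat_lit 379331765779100) (nat_lit 1) (nat_lit 4) (nat_lit 2) (nat_lit 5) (nat_lit 2) (nat_lit 4) (nat_lit 399) (nat_lit 280) (nat_lit 221)))))) (XT.nd (nat_lit 390) (nat_lit 0) (nat_lit 0) (XT.nd (nat_lit 156) (nat_lit 76) (nat_lit 0) (XT.nd (nat_lit 78) (nat_lit 0) (nat_lit 0) (XT.lf (nat_lit 0) (nat_lit 40124322489) (nat_lit 152) (nat_lit 5662339675) (nat_lit 0) (nat_lit 40124322489) (nat_lit 2) (nat_lit 5) (nat_lit 4) (nat_lit 4) (nat_lit 2) (nat_lit 4) (nat_lit 338) (nat_lit 281) (nat_lit 281)) (XT.lf (nat_lit 0) (nat_lit 95187194771) (nat_lit 152) (nat_lit 6830235579) (nat_lit 0) (nat_lit 95132757469) (nat_lit 2) (nat_lit 5) (nat_lit 4) (nat_lit 4) (nat_lit 2) (nat_lit 4) (nat_lit 339) (nat_lit 281) (nat_lit 280))) (XT.nd (nat_lit 78) (nat_lit 76) (nat_lit 0) (XT.lf (nat_lit 0) (nat_lit 112114657851) (nat_lit 152) (nat_lit 2187920229)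 (nat_lit 0) (nat_lit 112012883764) (nat_lit 2) (nat_lit 5) (nat_lit 4) (nat_lit 4) (nat_lit 2) (nat_lit 4) (nat_lit 340) (nat_lit 281) (nat_lit 279)) (XT.nd (nat_lit 78) (nat_lit 0) (nat_lit 0) (XT.lf (nat_lit 0) (nat_lit 2956283398) (nat_lit 76) (nat_lit 128528353706) (nat_lit 76) (nat_lit 128385417198) (nat_lit 1) (nat_lit 4) (nat_lit 2) (nat_lit 5) (nat_lit 2) (nat_lit 4) (nat_lit 341) (nat_lit 281) (nat_lit 278)) (XT.lf (nat_lit 0) (nat_lit 8681164326) (nat_lit 76) (nat_lit 144984779345) (nat_lit 76) (nat_lit 144806049427) (nat_lit 1) (nat_lit 4) (nat_lit 2) (nat_lit 5) (nat_lit 2) (nat_lit 4) (nat_lit 342) (nat_lit 281) (nat_lit 277))))) (XT.nd (nat_lit 234) (nat_lit 0) (nat_lit 0) (XT.nd (nat_lit 78) (nat_lit 0) (nat_lit 0) (XT.lf (nat_lit 0) (nat_lit 14884911617) (nat_lit 76) (nat_lit 164108197099) (nat_lit 76) (nat_lit 163898342477) (nat_lit 1) (nat_lit 4) (nat_lit 2) (nat_lit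 5) (nat_lit 2) (nat_lit 4) (nat_lit 343) (nat_lit 281) (nat_lit 276)) (XT.nd (nat_lit 78) (nat_lit 0) (nat_lit 0) (XT.lf (nat_lit 0) (nat_lit 21688902936) (nat_lit 76) (nat_lit 186272760794) (nat_lit 76) (nat_lit 186035841212) (nat_lit 1) (nat_lit 4) (nat_lit 2) (nat_lit 5) (nat_lit 2) (nat_lit 4) (nat_lit 344) (nat_lit 281) (nat_lit 275)) (XT.lf (nat_lit 0) (nat_lit 29226259852) (nat_lit 76) (nat_lit 211912124937) (nat_lit 76) (nat_lit 211651670606) (nat_lit 1) (nat_lit 4) (nat_lit 2) (nat_lit 5) (nat_lit 2) (nat_lit 4) (nat_lit 345) (nat_lit 281) (nat_lit 274)))) (XT.nd (nat_lit 78) (nat_lit 0) (nat_lit 0) (XT.lf (nat_lit 0) (nat_lit 37644452392) (nat_lit 76) (nat_lit 241527929261) (nat_lit 76) (nat_lit 241247009932) (nat_lit 1) (nat_lit 4) (nat_lit 2) (nat_lit 5) (nat_lit 2) (nat_lit 4) (nat_lit 346) (nat_lit 281) (nat_lit 273)) (XT.nd (nat_lit 78) (nat_lit 0) (nat_lit 0) (XT.lf (nat_lit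 0) (nat_lit 47108184322) (nat_lit 76) (nat_lit 275699613416) (nat_lit 76) (nat_lit 275400898436) (nat_lit 1) (nat_lit 4) (nat_lit 2) (nat_lit 5) (nat_lit 2) (nat_lit 4) (nat_lit 347) (nat_lit 281) (nat_lit 272)) (XT.lf (nat_lit 0) (nat_lit 57802615615) (nat_lit 76) (nat_lit 315095753831) (nat_lit 76) (nat_lit 314781564373) (nat_lit 1) (nat_lit 4) (nat_lit 2) (nat_lit 5) (nat_lit 2) (nat_lit 4) (nat_lit 348) (nat_lit 281) (nat_lit 271))))))) (XT.nd (nat_lit 858) (nat_lit 0) (nat_lit 0) (XT.nd (nat_lit 390) (nat_lit 0) (nat_lit 0) (XT.nd (nat_lit 156) (nat_lit 0) (nat_lit 0) (XT.nd (nat_lit 78) (nat_lit 0) (nat_lit 0) (XT.lf (nat_lit 0) (nat_lit 69936985144) (nat_lit 76) (nat_lit 360487144557) (nat_lit 76) (nat_lit 360159499031) (nat_lit 1) (nat_lit 4) (nat_lit 2) (nat_lit 5) (nat_lit 2) (nat_lit 4) (nat_lit 349) (nat_lit 281) (nat_lit 270)) (XT.lf (nat_lit 0) (nat_lit 83748704487) (nat_lit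 76) (nat_lit 412761878023) (nat_lit 76) (nat_lit 412422531567) (nat_lit 1) (nat_lit 4) (nat_lit 2) (nat_lit 5) (nat_lit 2) (nat_lit 4) (nat_lit 350) (nat_lit 281) (nat_lit 269))) (XT.nd (nat_lit 78) (nat_lit 0) (nat_lit 0) (XT.lf (nat_lit 0) (nat_lit 99508002936) (nat_lit 76) (nat_lit 472942720752) (nat_lit 76) (nat_lit 472593199575) (nat_lit 1) (nat_lit 4) (nat_lit 2) (nat_lit 5) (nat_lit 2) (nat_lit 4) (nat_lit 351) (nat_lit 281) (nat_lit 268)) (XT.nd (nat_lit 78) (nat_lit 0) (nat_lit 0) (XT.lf (nat_lit 0) (nat_lit 117523214591) (nat_lit 76) (nat_lit 542207124015) (nat_lit 76) (nat_lit 541848755254) (nat_lit 1) (nat_lit 4) (nat_lit 2) (nat_lit 5) (nat_lit 2) (nat_lit 4) (nat_lit 352) (nat_lit 281) (nat_lit 267)) (XT.lf (nat_lit 0) (nat_lit 138146810983) (nat_lit 76) (nat_lit 621910260919) (nat_lit 76) (nat_lit 621544198608) (nat_lit 1) (nat_lit 4) (nat_lit 2) (nat_lit 5) (nat_lit 2)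 (nat_lit 4) (nat_lit 353) (nat_lit 281) (nat_lit 266))))) (XT.nd (nat_lit 234) (nat_lit 0) (nat_lit 0) (XT.nd (nat_lit 78) (nat_lit 0) (nat_lit 0) (XT.lf (nat_lit 0) (nat_lit 161782297261) (nat_lit 76) (nat_lit 713611540665) (nat_lit 76) (nat_lit 713238788309) (nat_lit 1) (nat_lit 4) (nat_lit 2) (nat_lit 5) (nat_lit 2) (nat_lit 4) (nat_lit 354) (nat_lit 281) (nat_lit 265)) (XT.nd (nat_lit 78) (nat_lit 0) (nat_lit 0) (XT.lf (nat_lit 0) (nat_lit 188892106850) (nat_lit 76) (nat_lit 819105118726) (nat_lit 76) (nat_lit 818726548940) (nat_lit 1) (nat_lit 4) (nat_lit 2) (nat_lit 5) (nat_lit 2) (nat_lit 4) (nat_lit 355) (nat_lit 281) (nat_lit 264)) (XT.lf (nat_lit 0) (nat_lit 220006649069) (nat_lit 76) (nat_lit 940454999890) (nat_lit 76) (nat_lit 940071371470) (nat_lit 1) (nat_lit 4) (nat_lit 2) (nat_lit 5) (nat_lit 2) (nat_lit 4) (nat_lit 356) (nat_lit 281) (nat_lit 263)))) (XT.nd (nat_lit 78)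 (nat_lit 0) (nat_lit 0) (XT.lf (nat_lit 0) (nat_lit 255734686701) (nat_lit 76) (nat_lit 1080035420962) (nat_lit 76) (nat_lit 1079647393730) (nat_lit 1) (nat_lit 4) (nat_lit 2) (nat_lit 5) (nat_lit 2) (nat_lit 4) (nat_lit 357) (nat_lit 281) (nat_lit 262)) (XT.nd (nat_lit 78) (nat_lit 0) (nat_lit 0) (XT.lf (nat_lit 0) (nat_lit 296775246568) (nat_lit 76) (nat_lit 1240577303225) (nat_lit 76) (nat_lit 1240185450938) (nat_lit 1) (nat_lit 4) (nat_lit 2) (nat_lit 5) (nat_lit 2) (nat_lit 4) (nat_lit 358) (nat_lit 281) (nat_lit 261)) (XT.lf (nat_lit 0) (nat_lit 343931296147) (nat_lit 76) (nat_lit 1425221683505) (nat_lit 76) (nat_lit 1424826505083) (nat_lit 1) (nat_lit 4) (nat_lit 2) (nat_lit 5) (nat_lit 2) (nat_lit 4) (nat_lit 359) (nat_lit 281) (nat_lit 260)))))) (XT.nd (nat_lit 390) (nat_lit 0) (nat_lit 0) (XT.nd (nat_lit 156) (nat_lit 0) (nat_lit 0) (XT.nd (nat_lit 78) (nat_lit 0) (nat_lit 0)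 (XT.lf (nat_lit 0) (nat_lit 398125453799) (nat_lit 76) (nat_lit 1637581169242) (nat_lit 76) (nat_lit 1637183098530) (nat_lit 1) (nat_lit 4) (nat_lit 2) (nat_lit 5) (nat_lit 2) (nat_lit 4) (nat_lit 360) (nat_lit 281) (nat_lit 259)) (XT.lf (nat_lit 0) (nat_lit 460418039999) (nat_lit 76) (nat_lit 1881810619941) (nat_lit 76) (nat_lit 1881410034193) (nat_lit 1) (nat_lit 4) (nat_lit 2) (nat_lit 5) (nat_lit 2) (nat_lit 4) (nat_lit 361) (nat_lit 281) (nat_lit 258))) (XT.nd (nat_lit 78) (nat_lit 0) (nat_lit 0) (XT.lf (nat_lit 0) (nat_lit 532027822739) (nat_lit 76) (nat_lit 2162688437896) (nat_lit 76) (nat_lit 2162285665161) (nat_lit 1) (nat_lit 4) (nat_lit 2) (nat_lit 5) (nat_lit 2) (nat_lit 4) (nat_lit 362) (nat_lit 281) (nat_lit 257)) (XT.nd (nat_lit 78) (nat_lit 0) (nat_lit 0) (XT.lf (nat_lit 0) (nat_lit 614355862985) (nat_lit 76) (nat_lit 2485710058678) (nat_lit 76) (nat_lit 2485305384215)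 (nat_lit 1) (nat_lit 4) (nat_lit 2) (nat_lit 5) (nat_lit 2) (nat_lit 4) (nat_lit 363) (nat_lit 281) (nat_lit 256)) (XT.lf (nat_lit 0) (nat_lit 709012926742) (nat_lit 76) (nat_lit 2857195470519) (nat_lit 76) (nat_lit 2856789142379) (nat_lit 1) (nat_lit 4) (nat_lit 2) (nat_lit 5) (nat_lit 2) (nat_lit 4) (nat_lit 364) (nat_lit 281) (nat_lit 255))))) (XT.nd (nat_lit 234) (nat_lit 0) (nat_lit 0) (XT.nd (nat_lit 78) (nat_lit 0) (nat_lit 0) (XT.lf (nat_lit 0) (nat_lit 817851000040) (nat_lit 76) (nat_lit 3284412866258) (nat_lit 76) (nat_lit 3284005100139) (nat_lit 1) (nat_lit 4) (nat_lit 2) (nat_lit 5) (nat_lit 2) (nat_lit 4) (nat_lit 365) (nat_lit 281) (nat_lit 254)) (XT.nd (nat_lit 78) (nat_lit 0) (nat_lit 0) (XT.lf (nat_lit 0) (nat_lit 942999523443) (nat_lit 76) (nat_lit 3775720847118) (nat_lit 76) (nat_lit 3775311830581) (nat_lit 1) (nat_lit 4) (nat_lit 2) (nat_lit 5) (nat_lit 2) (nat_lit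 4) (nat_lit 366) (nat_lit 281) (nat_lit 253)) (XT.lf (nat_lit 0) (nat_lit 1086907055018) (nat_lit 76) (nat_lit 4340731960549) (nat_lit 76) (nat_lit 4340321856693) (nat_lit 1) (nat_lit 4) (nat_lit 2) (nat_lit 5) (nat_lit 2) (nat_lit 4) (nat_lit 367) (nat_lit 281) (nat_lit 252)))) (XT.nd (nat_lit 78) (nat_lit 0) (nat_lit 0) (XT.lf (nat_lit 0) (nat_lit 1252389176905) (nat_lit 76) (nat_lit 4990500771814) (nat_lit 76) (nat_lit 4990089722463) (nat_lit 1) (nat_lit 4) (nat_lit 2) (nat_lit 5) (nat_lit 2) (nat_lit 4) (nat_lit 368) (nat_lit 281) (nat_lit 251)) (XT.nd (nat_lit 78) (nat_lit 0) (nat_lit 0) (XT.lf (nat_lit 0) (nat_lit 1442683582792) (nat_lit 76) (nat_lit 5737740148961) (nat_lit 76) (nat_lit 5737328277440) (nat_lit 1) (nat_lit 4) (nat_lit 2) (nat_lit 5) (nat_lit 2) (nat_lit 4) (nat_lit 369) (nat_lit 281) (nat_lit 250)) (XT.lf (nat_lit 0) (nat_lit 1661513424100) (nat_lit 76) (nat_lit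 6597069992845) (nat_lit 76) (nat_lit 6596657406395) (nat_lit 1) (nat_lit 4) (nat_lit 2) (nat_lit 5) (nat_lit 2) (nat_lit 4) (nat_lit 370) (nat_lit 281) (nat_lit 249))))))))
noncomputable def xc17 : XT := (XT.nd (nat_lit 1794) (nat_lit 0) (nat_lit 0) (XT.nd (nat_lit 780) (nat_lit 0) (nat_lit 0) (XT.nd (nat_lit 390) (nat_lit 0) (nat_lit 0) (XT.nd (nat_lit 156) (nat_lit 0) (nat_lit 0) (XT.nd (nat_lit 78) (nat_lit 0) (nat_lit 0) (XT.lf (nat_lit 0) (nat_lit 1913160154245) (nat_lit 76) (nat_lit 7585303278674) (nat_lit 76) (nat_lit 7584890070546) (nat_lit 1) (nat_lit 4) (nat_lit 2) (nat_lit 5) (nat_lit 2) (nat_lit 4) (nat_lit 371) (nat_lit 281) (nat_lit 248)) (XT.lf (nat_lit 0) (nat_lit 2202547296208) (nat_lit 76) (nat_lit 8721775005518) (nat_lit 76) (nat_lit 8721361256800) (nat_lit 1) (nat_lit 4) (nat_lit 2) (nat_lit 5) (nat_lit 2) (nat_lit 4) (nat_lit 372) (nat_lit 281) (nat_lit 247))) (XT.nd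 (nat_lit 78) (nat_lit 0) (nat_lit 0) (XT.lf (nat_lit 0) (nat_lit 2535336772331) (nat_lit 76) (nat_lit 10028720489773) (nat_lit 76) (nat_lit 10028306270976) (nat_lit 1) (nat_lit 4) (nat_lit 2) (nat_lit 5) (nat_lit 2) (nat_lit 4) (nat_lit 373) (nat_lit 281) (nat_lit 246)) (XT.nd (nat_lit 78) (nat_lit 0) (nat_lit 0) (XT.lf (nat_lit 0) (nat_lit 2918039681062) (nat_lit 76) (nat_lit 11531710403955) (nat_lit 76) (nat_lit 11531295776395) (nat_lit 1) (nat_lit 4) (nat_lit 2) (nat_lit 5) (nat_lit 2) (nat_lit 4) (nat_lit 374) (nat_lit 281) (nat_lit 245)) (XT.lf (nat_lit 0) (nat_lit 3358143688005) (nat_lit 76) (nat_lit 13260151072473) (nat_lit 76) (nat_lit 13259736089466) (nat_lit 1) (nat_lit 4) (nat_lit 2) (nat_lit 5) (nat_lit 2) (nat_lit 4) (nat_lit 375) (nat_lit 281) (nat_lit 244))))) (XT.nd (nat_lit 156) (nat_lit 0) (nat_lit 0) (XT.nd (nat_lit 78) (nat_lit 0) (nat_lit 0) (XT.lf (nat_lit 0) (nat_lit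 3864259523731) (nat_lit 76) (nat_lit 15247859812754) (nat_lit 76) (nat_lit 15247444520663) (nat_lit 1) (nat_lit 4) (nat_lit 2) (nat_lit 5) (nat_lit 2) (nat_lit 4) (nat_lit 376) (nat_lit 281) (nat_lit 243)) (XT.lf (nat_lit 0) (nat_lit 4446289454591) (nat_lit 76) (nat_lit 17533726578413) (nat_lit 76) (nat_lit 17533311017553) (nat_lit 1) (nat_lit 4) (nat_lit 2) (nat_lit 5) (nat_lit 2) (nat_lit 4) (nat_lit 377) (nat_lit 281) (nat_lit 242))) (XT.nd (nat_lit 78) (nat_lit 0) (nat_lit 0) (XT.lf (nat_lit 0) (nat_lit 5115621022711) (nat_lit 76) (nat_lit 20162474849647) (nat_lit 76) (nat_lit 20162059055075) (nat_lit 1) (nat_lit 4) (nat_lit 2) (nat_lit 5) (nat_lit 2) (nat_lit 4) (nat_lit 378) (nat_lit 281) (nat_lit 241)) (XT.nd (nat_lit 78) (nat_lit 0) (nat_lit 0) (XT.lf (nat_lit 0) (nat_lit 5885349845728) (nat_lit 76) (nat_lit 23185536657850) (nat_lit 76) (nat_lit 23185120660051) (nat_lit 1) (nat_lit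 4) (nat_lit 2) (nat_lit 5) (nat_lit 2) (nat_lit 4) (nat_lit 379) (nat_lit 281) (nat_lit 240)) (XT.lf (nat_lit 0) (nat_lit 6770535835396) (nat_lit 76) (nat_lit 26662058864486) (nat_lit 76) (nat_lit 26661642689967) (nat_lit 1) (nat_lit 4) (nat_lit 2) (nat_lit 5) (nat_lit 2) (nat_lit 4) (nat_lit 380) (nat_lit 281) (nat_lit 239)))))) (XT.nd (nat_lit 390) (nat_lit 0) (nat_lit 0) (XT.nd (nat_lit 156) (nat_lit 0) (nat_lit 0) (XT.nd (nat_lit 78) (nat_lit 0) (nat_lit 0) (XT.lf (nat_lit 0) (nat_lit 7788497848036) (nat_lit 76) (nat_lit 30660060382295) (nat_lit 76) (nat_lit 30659644054107) (nat_lit 1) (nat_lit 4) (nat_lit 2) (nat_lit 5) (nat_lit 2) (nat_lit 4) (nat_lit 381) (nat_lit 281) (nat_lit 238)) (XT.lf (nat_lit 0) (nat_lit 8959152531720) (nat_lit 76) (nat_lit 35257762980103) (nat_lit 76) (nat_lit 35257346518290) (nat_lit 1) (nat_lit 4) (nat_lit 2) (nat_lit 5) (nat_lit 2) (nat_lit 4) (nat_lit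 382) (nat_lit 281) (nat_lit 237))) (XT.nd (nat_lit 78) (nat_lit 0) (nat_lit 0) (XT.lf (nat_lit 0) (nat_lit 10305403999825) (nat_lit 76) (nat_lit 40545121708737) (nat_lit 76) (nat_lit 40544705130727) (nat_lit 1) (nat_lit 4) (nat_lit 2) (nat_lit 5) (nat_lit 2) (nat_lit 4) (nat_lit 383) (nat_lit 281) (nat_lit 236)) (XT.nd (nat_lit 78) (nat_lit 0) (nat_lit 0) (XT.lf (nat_lit 0) (nat_lit 11853591954987) (nat_lit 76) (nat_lit 46625584891148) (nat_lit 76) (nat_lit 46625168212098) (nat_lit 1) (nat_lit 4) (nat_lit 2) (nat_lit 5) (nat_lit 2) (nat_lit 4) (nat_lit 384) (nat_lit 281) (nat_lit 235)) (XT.lf (nat_lit 0) (nat_lit 13634007031113) (nat_lit 76) (nat_lit 53618118111340) (nat_lit 76) (nat_lit 53617701344429) (nat_lit 1) (nat_lit 4) (nat_lit 2) (nat_lit 5) (nat_lit 2) (nat_lit 4) (nat_lit 385) (nat_lit 281) (nat_lit 234))))) (XT.nd (nat_lit 234) (nat_lit 0) (nat_lit 0) (XT.nd (nat_lit 78) (nat_lit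 0) (nat_lit 0) (XT.lf (nat_lit 0) (nat_lit 15681483436213) (nat_lit 76) (nat_lit 61659531801882) (nat_lit 76) (nat_lit 61659114958570) (nat_lit 1) (nat_lit 4) (nat_lit 2) (nat_lit 5) (nat_lit 2) (nat_lit 4) (nat_lit 386) (nat_lit 281) (nat_lit 233)) (XT.nd (nat_lit 78) (nat_lit 0) (nat_lit 0) (XT.lf (nat_lit 0) (nat_lit 18036080491257) (nat_lit 76) (nat_lit 70907157969762) (nat_lit 76) (nat_lit 70906741060015) (nat_lit 1) (nat_lit 4) (nat_lit 2) (nat_lit 5) (nat_lit 2) (nat_lit 4) (nat_lit 387) (nat_lit 281) (nat_lit 232)) (XT.lf (nat_lit 0) (nat_lit 20743866399495) (nat_lit 76) (nat_lit 81541928431309) (nat_lit 76) (nat_lit 81541511463792) (nat_lit 1) (nat_lit 4) (nat_lit 2) (nat_lit 5) (nat_lit 2) (nat_lit 4) (nat_lit 388) (nat_lit 281) (nat_lit 231)))) (XT.nd (nat_lit 78) (nat_lit 0) (nat_lit 0) (XT.lf (nat_lit 0) (nat_lit 23857819580872) (nat_lit 76) (nat_lit 93771914782511) (nat_lit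 76) (nat_lit 93771497764759) (nat_lit 1) (nat_lit 4) (nat_lit 2) (nat_lit 5) (nat_lit 2) (nat_lit 4) (nat_lit 389) (nat_lit 281) (nat_lit 230)) (XT.nd (nat_lit 234) (nat_lit 0) (nat_lit 0) (XT.lf (nat_lit 0) (nat_lit 27438865206327) (nat_lit 76) (nat_lit 107836399365019) (nat_lit 76) (nat_lit 107835982303585) (nat_lit 1) (nat_lit 4) (nat_lit 2) (nat_lit 5) (nat_lit 2) (nat_lit 4) (nat_lit 390) (nat_lit 281) (nat_lit 229)) (XT.lf (nat_lit 0) (nat_lit 41739320453810) (nat_lit 76) (nat_lit 164001161962197) (nat_lit 76) (nat_lit 164000744801026) (nat_lit 1) (nat_lit 4) (nat_lit 2) (nat_lit 5) (nat_lit 2) (nat_lit 4) (nat_lit 393) (nat_lit 281) (nat_lit 226))))))) (XT.nd (nat_lit 42822) (nat_lit 0) (nat_lit 0) (XT.nd (nat_lit 42354) (nat_lit 0) (nat_lit 0) (XT.nd (nat_lit 156) (nat_lit 0) (nat_lit 0) (XT.nd (nat_lit 78) (nat_lit 0) (nat_lit 0) (XT.lf (nat_lit 0) (nat_lit 48002589688136) (nat_lit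 76) (nat_lit 188600034417134) (nat_lit 76) (nat_lit 188599617230987) (nat_lit 1) (nat_lit 4) (nat_lit 2) (nat_lit 5) (nat_lit 2) (nat_lit 4) (nat_lit 394) (nat_lit 281) (nat_lit 225)) (XT.lf (nat_lit 0) (nat_lit 55205349042552) (nat_lit 76) (nat_lit 216888737878839) (nat_lit 76) (nat_lit 216888320670973) (nat_lit 1) (nat_lit 4) (nat_lit 2) (nat_lit 5) (nat_lit 2) (nat_lit 4) (nat_lit 395) (nat_lit 281) (nat_lit 224))) (XT.nd (nat_lit 78) (nat_lit 0) (nat_lit 0) (XT.lf (nat_lit 0) (nat_lit 63488522069644) (nat_lit 76) (nat_lit 249420746980257) (nat_lit 76) (nat_lit 249420329753507) (nat_lit 1) (nat_lit 4) (nat_lit 2) (nat_lit 5) (nat_lit 2) (nat_lit 4) (nat_lit 396) (nat_lit 281) (nat_lit 223)) (XT.nd (nat_lit 78) (nat_lit 0) (nat_lit 0) (XT.lf (nat_lit 0) (nat_lit 73014170850377) (nat_lit 76) (nat_lit 286832557551635) (nat_lit 76) (nat_lit 286832140308463) (nat_lit 1) (nat_lit 4) (nat_lit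 2) (nat_lit 5) (nat_lit 2) (nat_lit 4) (nat_lit 397) (nat_lit 281) (nat_lit 222)) (XT.lf (nat_lit 0) (nat_lit 83968666773941) (nat_lit 76) (nat_lit 329856139799802) (nat_lit 76) (nat_lit 329855722542350) (nat_lit 1) (nat_lit 4) (nat_lit 2) (nat_lit 5) (nat_lit 2) (nat_lit 4) (nat_lit 398) (nat_lit 281) (nat_lit 221))))) (XT.nd (nat_lit 234) (nat_lit 76) (nat_lit 0) (XT.nd (nat_lit 78) (nat_lit 0) (nat_lit 0) (XT.lf (nat_lit 0) (nat_lit 27709954085) (nat_lit 152) (nat_lit 9948392974) (nat_lit 0) (nat_lit 27709954085) (nat_lit 2) (nat_lit 5) (nat_lit 4) (nat_lit 4) (nat_lit 2) (nat_lit 4) (nat_lit 336) (nat_lit 282) (nat_lit 282)) (XT.nd (nat_lit 78) (nat_lit 0) (nat_lit 0) (XT.lf (nat_lit 0) (nat_lit 67069335398) (nat_lit 152) (nat_lit 15759186315) (nat_lit 0) (nat_lit 67006732501) (nat_lit 2) (nat_lit 5) (nat_lit 4) (nat_lit 4) (nat_lit 2) (nat_lit 4) (nat_lit 337) (nat_lit 282) (nat_lit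 281)) (XT.lf (nat_lit 0) (nat_lit 80176527152) (nat_lit 152) (nat_lit 11606185972) (nat_lit 0) (nat_lit 80059486952) (nat_lit 2) (nat_lit 5) (nat_lit 4) (nat_lit 4) (nat_lit 2) (nat_lit 4) (nat_lit 338) (nat_lit 282) (nat_lit 280)))) (XT.nd (nat_lit 78) (nat_lit 76) (nat_lit 0) (XT.lf (nat_lit 0) (nat_lit 94997928487) (nat_lit 152) (nat_lit 7356530567) (nat_lit 0) (nat_lit 94833551503) (nat_lit 2) (nat_lit 5) (nat_lit 4) (nat_lit 4) (nat_lit 2) (nat_lit 4) (nat_lit 339) (nat_lit 282) (nat_lit 279)) (XT.nd (nat_lit 78) (nat_lit 76) (nat_lit 0) (XT.lf (nat_lit 0) (nat_lit 111823523344) (nat_lit 152) (nat_lit 2927074666) (nat_lit 0) (nat_lit 111617983939) (nat_lit 2) (nat_lit 5) (nat_lit 4) (nat_lit 4) (nat_lit 2) (nat_lit 4) (nat_lit 340) (nat_lit 282) (nat_lit 278)) (XT.lf (nat_lit 0) (nat_lit 1941709394) (nat_lit 76) (nat_lit 129121200795) (nat_lit 76) (nat_lit 128879867979) (nat_lit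 1) (nat_lit 4) (nat_lit 2) (nat_lit 5) (nat_lit 2) (nat_lit 4) (nat_lit 341) (nat_lit 282) (nat_lit 277)))))) (XT.nd (nat_lit 390) (nat_lit 0) (nat_lit 0) (XT.nd (nat_lit 156) (nat_lit 0) (nat_lit 0) (XT.nd (nat_lit 78) (nat_lit 0) (nat_lit 0) (XT.lf (nat_lit 0) (nat_lit 7489908565) (nat_lit 76) (nat_lit 145669965164) (nat_lit 76) (nat_lit 145397507644) (nat_lit 1) (nat_lit 4) (nat_lit 2) (nat_lit 5) (nat_lit 2) (nat_lit 4) (nat_lit 342) (nat_lit 282) (nat_lit 276)) (XT.lf (nat_lit 0) (nat_lit 13540019547) (nat_lit 76) (nat_lit 164873677466) (nat_lit 76) (nat_lit 164574154986) (nat_lit 1) (nat_lit 4) (nat_lit 2) (nat_lit 5) (nat_lit 2) (nat_lit 4) (nat_lit 343) (nat_lit 282) (nat_lit 275))) (XT.nd (nat_lit 78) (nat_lit 0) (nat_lit 0) (XT.lf (nat_lit 0) (nat_lit 20210414075) (nat_lit 76) (nat_lit 187108062507) (nat_lit 76) (nat_lit 186785005279) (nat_lit 1) (nat_lit 4) (nat_lit 2) (nat_lit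 5) (nat_lit 2) (nat_lit 4) (nat_lit 344) (nat_lit 282) (nat_lit 274)) (XT.nd (nat_lit 78) (nat_lit 0) (nat_lit 0) (XT.lf (nat_lit 0) (nat_lit 27631599868) (nat_lit 76) (nat_lit 212808140863) (nat_lit 76) (nat_lit 212464618637) (nat_lit 1) (nat_lit 4) (nat_lit 2) (nat_lit 5) (nat_lit 2) (nat_lit 4) (nat_lit 345) (nat_lit 282) (nat_lit 273)) (XT.lf (nat_lit 0) (nat_lit 35948774040) (nat_lit 76) (nat_lit 242476740156) (nat_lit 76) (nat_lit 242115422279) (nat_lit 1) (nat_lit 4) (nat_lit 2) (nat_lit 5) (nat_lit 2) (nat_lit 4) (nat_lit 346) (nat_lit 282) (nat_lit 272))))) (XT.nd (nat_lit 234) (nat_lit 0) (nat_lit 0) (XT.nd (nat_lit 78) (nat_lit 0) (nat_lit 0) (XT.lf (nat_lit 0) (nat_lit 45324663911) (nat_lit 76) (nat_lit 276694332979) (nat_lit 76) (nat_lit 276317540623) (nat_lit 1) (nat_lit 4) (nat_lit 2) (nat_lit 5) (nat_lit 2) (nat_lit 4) (nat_lit 347) (nat_lit 282) (nat_lit 271)) (XT.nd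 (nat_lit 78) (nat_lit 0) (nat_lit 0) (XT.lf (nat_lit 0) (nat_lit 55942710805) (nat_lit 76) (nat_lit 316130393975) (nat_lit 76) (nat_lit 315740145551) (nat_lit 1) (nat_lit 4) (nat_lit 2) (nat_lit 5) (nat_lit 2) (nat_lit 4) (nat_lit 348) (nat_lit 282) (nat_lit 270)) (XT.lf (nat_lit 0) (nat_lit 68010659118) (nat_lit 76) (nat_lit 361556498251) (nat_lit 76) (nat_lit 361154548897) (nat_lit 1) (nat_lit 4) (nat_lit 2) (nat_lit 5) (nat_lit 2) (nat_lit 4) (nat_lit 349) (nat_lit 282) (nat_lit 269)))) (XT.nd (nat_lit 78) (nat_lit 0) (nat_lit 0) (XT.lf (nat_lit 0) (nat_lit 81764620882) (nat_lit 76) (nat_lit 413861417411) (nat_lit 76) (nat_lit 413449293336) (nat_lit 1) (nat_lit 4) (nat_lit 2) (nat_lit 5) (nat_lit 2) (nat_lit 4) (nat_lit 350) (nat_lit 282) (nat_lit 268)) (XT.nd (nat_lit 78) (nat_lit 0) (nat_lit 0) (XT.lf (nat_lit 0) (nat_lit 97473695348) (nat_lit 76) (nat_lit 474068508570) (nat_lit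 76) (nat_lit 473647536912) (nat_lit 1) (nat_lit 4) (nat_lit 2) (nat_lit 5) (nat_lit 2) (nat_lit 4) (nat_lit 351) (nat_lit 282) (nat_lit 267)) (XT.lf (nat_lit 0) (nat_lit 115445233975) (nat_lit 76) (nat_lit 543355736555) (nat_lit 76) (nat_lit 542927071346) (nat_lit 1) (nat_lit 4) (nat_lit 2) (nat_lit 5) (nat_lit 2) (nat_lit 4) (nat_lit 352) (nat_lit 282) (nat_lit 266))))))))
noncomputable def xc18 : XT := (XT.nd (nat_lit 1638) (nat_lit 0) (nat_lit 0) (XT.nd (nat_lit 780) (nat_lit 0) (nat_lit 0) (XT.nd (nat_lit 390) (nat_lit 0) (nat_lit 0) (XT.nd (nat_lit 156) (nat_lit 0) (nat_lit 0) (XT.nd (nat_lit 78) (nat_lit 0) (nat_lit 0) (XT.lf (nat_lit 0) (nat_lit 136030853821) (nat_lit 76) (nat_lit 623078721043) (nat_lit 76) (nat_lit 622643365790) (nat_lit 1) (nat_lit 4) (nat_lit 2) (nat_lit 5) (nat_lit 2) (nat_lit 4) (nat_lit 353) (nat_lit 282) (nat_lit 265)) (XT.lf (nat_lit 0) (nat_lit 159633317015)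 (nat_lit 76) (nat_lit 714797259558) (nat_lit 76) (nat_lit 714356086875) (nat_lit 1) (nat_lit 4) (nat_lit 2) (nat_lit 5) (nat_lit 2) (nat_lit 4) (nat_lit 354) (nat_lit 282) (nat_lit 264))) (XT.nd (nat_lit 78) (nat_lit 0) (nat_lit 0) (XT.lf (nat_lit 0) (nat_lit 186714410880) (nat_lit 76) (nat_lit 820305845244) (nat_lit 76) (nat_lit 819859613926) (nat_lit 1) (nat_lit 4) (nat_lit 2) (nat_lit 5) (nat_lit 2) (nat_lit 4) (nat_lit 355) (nat_lit 282) (nat_lit 263)) (XT.nd (nat_lit 78) (nat_lit 0) (nat_lit 0) (XT.lf (nat_lit 0) (nat_lit 217803982903) (nat_lit 76) (nat_lit 941668776516) (nat_lit 76) (nat_lit 941218146386) (nat_lit 1) (nat_lit 4) (nat_lit 2) (nat_lit 5) (nat_lit 2) (nat_lit 4) (nat_lit 356) (nat_lit 282) (nat_lit 262)) (XT.lf (nat_lit 0) (nat_lit 253510307322) (nat_lit 76) (nat_lit 1081260545510) (nat_lit 76) (nat_lit 1080806090325) (nat_lit 1) (nat_lit 4) (nat_lit 2) (nat_lit 5)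 (nat_lit 2) (nat_lit 4) (nat_lit 357) (nat_lit 282) (nat_lit 261))))) (XT.nd (nat_lit 156) (nat_lit 0) (nat_lit 0) (XT.nd (nat_lit 78) (nat_lit 0) (nat_lit 0) (XT.lf (nat_lit 0) (nat_lit 294531986134) (nat_lit 76) (nat_lit 1241812295529) (nat_lit 76) (nat_lit 1241354514210) (nat_lit 1) (nat_lit 4) (nat_lit 2) (nat_lit 5) (nat_lit 2) (nat_lit 4) (nat_lit 358) (nat_lit 282) (nat_lit 260)) (XT.lf (nat_lit 0) (nat_lit 341671617404) (nat_lit 76) (nat_lit 1426465256468) (nat_lit 76) (nat_lit 1426004582858) (nat_lit 1) (nat_lit 4) (nat_lit 2) (nat_lit 5) (nat_lit 2) (nat_lit 4) (nat_lit 359) (nat_lit 282) (nat_lit 259))) (XT.nd (nat_lit 78) (nat_lit 0) (nat_lit 0) (XT.lf (nat_lit 0) (nat_lit 395851498265) (nat_lit 76) (nat_lit 1638832203647) (nat_lit 76) (nat_lit 1638369015002) (nat_lit 1) (nat_lit 4) (nat_lit 2) (nat_lit 5) (nat_lit 2) (nat_lit 4) (nat_lit 360) (nat_lit 282) (nat_lit 258))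 (XT.nd (nat_lit 78) (nat_lit 0) (nat_lit 0) (XT.lf (nat_lit 0) (nat_lit 458131669866) (nat_lit 76) (nat_lit 1883068142556) (nat_lit 76) (nat_lit 1882602766924) (nat_lit 1) (nat_lit 4) (nat_lit 2) (nat_lit 5) (nat_lit 2) (nat_lit 4) (nat_lit 361) (nat_lit 282) (nat_lit 257)) (XT.lf (nat_lit 0) (nat_lit 529730657301) (nat_lit 76) (nat_lit 2163951602434) (nat_lit 76) (nat_lit 2163484325073) (nat_lit 1) (nat_lit 4) (nat_lit 2) (nat_lit 5) (nat_lit 2) (nat_lit 4) (nat_lit 362) (nat_lit 282) (nat_lit 256)))))) (XT.nd (nat_lit 390) (nat_lit 0) (nat_lit 0) (XT.nd (nat_lit 156) (nat_lit 0) (nat_lit 0) (XT.nd (nat_lit 78) (nat_lit 0) (nat_lit 0) (XT.lf (nat_lit 0) (nat_lit 612049310325) (nat_lit 76) (nat_lit 2486978129235) (nat_lit 76) (nat_lit 2486509198198) (nat_lit 1) (nat_lit 4) (nat_lit 2) (nat_lit 5) (nat_lit 2) (nat_lit 4) (nat_lit 363) (nat_lit 282) (nat_lit 255)) (XT.lf (nat_lit 0) (nat_lit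 706698211281) (nat_lit 76) (nat_lit 2858467807179) (nat_lit 76) (nat_lit 2857997438162) (nat_lit 1) (nat_lit 4) (nat_lit 2) (nat_lit 5) (nat_lit 2) (nat_lit 4) (nat_lit 364) (nat_lit 282) (nat_lit 254))) (XT.nd (nat_lit 78) (nat_lit 0) (nat_lit 0) (XT.lf (nat_lit 0) (nat_lit 815529186491) (nat_lit 76) (nat_lit 3285688912574) (nat_lit 76) (nat_lit 3285217293140) (nat_lit 1) (nat_lit 4) (nat_lit 2) (nat_lit 5) (nat_lit 2) (nat_lit 4) (nat_lit 365) (nat_lit 282) (nat_lit 253)) (XT.nd (nat_lit 78) (nat_lit 0) (nat_lit 0) (XT.lf (nat_lit 0) (nat_lit 940671537643) (nat_lit 76) (nat_lit 3777000119221) (nat_lit 76) (nat_lit 3776527412467) (nat_lit 1) (nat_lit 4) (nat_lit 2) (nat_lit 5) (nat_lit 2) (nat_lit 4) (nat_lit 366) (nat_lit 282) (nat_lit 252)) (XT.lf (nat_lit 0) (nat_lit 1084573702044) (nat_lit 76) (nat_lit 4342014037684) (nat_lit 76) (nat_lit 4341540385436) (nat_lit 1) (nat_lit 4) (nat_lit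 2) (nat_lit 5) (nat_lit 2) (nat_lit 4) (nat_lit 367) (nat_lit 282) (nat_lit 251))))) (XT.nd (nat_lit 234) (nat_lit 0) (nat_lit 0) (XT.nd (nat_lit 78) (nat_lit 0) (nat_lit 0) (XT.lf (nat_lit 0) (nat_lit 1250051156823) (nat_lit 76) (nat_lit 4991785288108) (nat_lit 76) (nat_lit 4991310813691) (nat_lit 1) (nat_lit 4) (nat_lit 2) (nat_lit 5) (nat_lit 2) (nat_lit 4) (nat_lit 368) (nat_lit 282) (nat_lit 250)) (XT.nd (nat_lit 78) (nat_lit 0) (nat_lit 0) (XT.lf (nat_lit 0) (nat_lit 1440341504356) (nat_lit 76) (nat_lit 5739026786262) (nat_lit 76) (nat_lit 5738551596915) (nat_lit 1) (nat_lit 4) (nat_lit 2) (nat_lit 5) (nat_lit 2) (nat_lit 4) (nat_lit 369) (nat_lit 282) (nat_lit 249)) (XT.lf (nat_lit 0) (nat_lit 1659167816659) (nat_lit 76) (nat_lit 6598358474501) (nat_lit 76) (nat_lit 6597882663475) (nat_lit 1) (nat_lit 4) (nat_lit 2) (nat_lit 5) (nat_lit 2) (nat_lit 4) (nat_lit 370) (nat_lit 282)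 (nat_lit 248)))) (XT.nd (nat_lit 78) (nat_lit 0) (nat_lit 0) (XT.lf (nat_lit 0) (nat_lit 1910811478104) (nat_lit 76) (nat_lit 7586593364117) (nat_lit 76) (nat_lit 7586117012501) (nat_lit 1) (nat_lit 4) (nat_lit 2) (nat_lit 5) (nat_lit 2) (nat_lit 4) (nat_lit 371) (nat_lit 282) (nat_lit 247)) (XT.nd (nat_lit 78) (nat_lit 0) (nat_lit 0) (XT.lf (nat_lit 0) (nat_lit 2200195951633) (nat_lit 76) (nat_lit 8723066485558) (nat_lit 76) (nat_lit 8722589663864) (nat_lit 1) (nat_lit 4) (nat_lit 2) (nat_lit 5) (nat_lit 2) (nat_lit 4) (nat_lit 372) (nat_lit 282) (nat_lit 246)) (XT.lf (nat_lit 0) (nat_lit 2532983107379) (nat_lit 76) (nat_lit 10030013182505) (nat_lit 76) (nat_lit 10029535952047) (nat_lit 1) (nat_lit 4) (nat_lit 2) (nat_lit 5) (nat_lit 2) (nat_lit 4) (nat_lit 373) (nat_lit 282) (nat_lit 245))))))) (XT.nd (nat_lit 858) (nat_lit 0) (nat_lit 0) (XT.nd (nat_lit 390) (nat_lit 0) (nat_lit 0)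 (XT.nd (nat_lit 156) (nat_lit 0) (nat_lit 0) (XT.nd (nat_lit 78) (nat_lit 0) (nat_lit 0) (XT.lf (nat_lit 0) (nat_lit 2915683998390) (nat_lit 76) (nat_lit 11533004151203) (nat_lit 76) (nat_lit 11532526565298) (nat_lit 1) (nat_lit 4) (nat_lit 2) (nat_lit 5) (nat_lit 2) (nat_lit 4) (nat_lit 374) (nat_lit 282) (nat_lit 244)) (XT.lf (nat_lit 0) (nat_lit 3355786250795) (nat_lit 76) (nat_lit 13261445736691) (nat_lit 76) (nat_lit 13260967841702) (nat_lit 1) (nat_lit 4) (nat_lit 2) (nat_lit 5) (nat_lit 2) (nat_lit 4) (nat_lit 375) (nat_lit 282) (nat_lit 243))) (XT.nd (nat_lit 78) (nat_lit 0) (nat_lit 0) (XT.lf (nat_lit 0) (nat_lit 3861900560835) (nat_lit 76) (nat_lit 15249155274337) (nat_lit 76) (nat_lit 15248677110580) (nat_lit 1) (nat_lit 4) (nat_lit 2) (nat_lit 5) (nat_lit 2) (nat_lit 4) (nat_lit 376) (nat_lit 282) (nat_lit 242)) (XT.nd (nat_lit 78) (nat_lit 0) (nat_lit 0) (XT.lf (nat_lit 0)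 (nat_lit 4443929165011) (nat_lit 76) (nat_lit 17535022733357) (nat_lit 76) (nat_lit 17534544335888) (nat_lit 1) (nat_lit 4) (nat_lit 2) (nat_lit 5) (nat_lit 2) (nat_lit 4) (nat_lit 377) (nat_lit 282) (nat_lit 241)) (XT.lf (nat_lit 0) (nat_lit 5113259579494) (nat_lit 76) (nat_lit 20163771607514) (nat_lit 76) (nat_lit 20163293006817) (nat_lit 1) (nat_lit 4) (nat_lit 2) (nat_lit 5) (nat_lit 2) (nat_lit 4) (nat_lit 378) (nat_lit 282) (nat_lit 240))))) (XT.nd (nat_lit 234) (nat_lit 0) (nat_lit 0) (XT.nd (nat_lit 78) (nat_lit 0) (nat_lit 0) (XT.lf (nat_lit 0) (nat_lit 5882987399347) (nat_lit 76) (nat_lit 23186833939997) (nat_lit 76) (nat_lit 23186355162581) (nat_lit 1) (nat_lit 4) (nat_lit 2) (nat_lit 5) (nat_lit 2) (nat_lit 4) (nat_lit 379) (nat_lit 282) (nat_lit 239)) (XT.nd (nat_lit 78) (nat_lit 0) (nat_lit 0) (XT.lf (nat_lit 0) (nat_lit 6768172516700) (nat_lit 76) (nat_lit 26663356602530)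 (nat_lit 76) (nat_lit 26662877671444) (nat_lit 1) (nat_lit 4) (nat_lit 2) (nat_lit 5) (nat_lit 2) (nat_lit 4) (nat_lit 380) (nat_lit 282) (nat_lit 238)) (XT.lf (nat_lit 0) (nat_lit 7786133770804) (nat_lit 76) (nat_lit 30661358516771) (nat_lit 76) (nat_lit 30660879452059) (nat_lit 1) (nat_lit 4) (nat_lit 2) (nat_lit 5) (nat_lit 2) (nat_lit 4) (nat_lit 381) (nat_lit 282) (nat_lit 237)))) (XT.nd (nat_lit 78) (nat_lit 0) (nat_lit 0) (XT.lf (nat_lit 0) (nat_lit 8956787794891) (nat_lit 76) (nat_lit 35259061459302) (nat_lit 76) (nat_lit 35258582278395) (nat_lit 1) (nat_lit 4) (nat_lit 2) (nat_lit 5) (nat_lit 2) (nat_lit 4) (nat_lit 382) (nat_lit 282) (nat_lit 236)) (XT.nd (nat_lit 78) (nat_lit 0) (nat_lit 0) (XT.lf (nat_lit 0) (nat_lit 10303038689435) (nat_lit 76) (nat_lit 40546420487695) (nat_lit 76) (nat_lit 40545941205747) (nat_lit 1) (nat_lit 4) (nat_lit 2) (nat_lit 5) (nat_lit 2) (nat_lit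 4) (nat_lit 383) (nat_lit 282) (nat_lit 235)) (XT.lf (nat_lit 0) (nat_lit 11851226145848) (nat_lit 76) (nat_lit 46626883930766) (nat_lit 76) (nat_lit 46626404560957) (nat_lit 1) (nat_lit 4) (nat_lit 2) (nat_lit 5) (nat_lit 2) (nat_lit 4) (nat_lit 384) (nat_lit 282) (nat_lit 234)))))) (XT.nd (nat_lit 390) (nat_lit 0) (nat_lit 0) (XT.nd (nat_lit 156) (nat_lit 0) (nat_lit 0) (XT.nd (nat_lit 78) (nat_lit 0) (nat_lit 0) (XT.lf (nat_lit 0) (nat_lit 13631640788278) (nat_lit 76) (nat_lit 53619417377619) (nat_lit 76) (nat_lit 53618937931409) (nat_lit 1) (nat_lit 4) (nat_lit 2) (nat_lit 5) (nat_lit 2) (nat_lit 4) (nat_lit 385) (nat_lit 282) (nat_lit 233)) (XT.lf (nat_lit 0) (nat_lit 15679116816252) (nat_lit 76) (nat_lit 61660831265257) (nat_lit 76) (nat_lit 61660351752612) (nat_lit 1) (nat_lit 4) (nat_lit 2) (nat_lit 5) (nat_lit 2) (nat_lit 4) (nat_lit 386) (nat_lit 282) (nat_lit 232))) (XT.nd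 (nat_lit 78) (nat_lit 0) (nat_lit 0) (XT.lf (nat_lit 0) (nat_lit 18033713543360) (nat_lit 76) (nat_lit 70908457604526) (nat_lit 76) (nat_lit 70907978034111) (nat_lit 1) (nat_lit 4) (nat_lit 2) (nat_lit 5) (nat_lit 2) (nat_lit 4) (nat_lit 387) (nat_lit 282) (nat_lit 231)) (XT.nd (nat_lit 78) (nat_lit 0) (nat_lit 0) (XT.lf (nat_lit 0) (nat_lit 20741499166437) (nat_lit 76) (nat_lit 81543228215106) (nat_lit 76) (nat_lit 81542748594457) (nat_lit 1) (nat_lit 4) (nat_lit 2) (nat_lit 5) (nat_lit 2) (nat_lit 4) (nat_lit 388) (nat_lit 282) (nat_lit 230)) (XT.lf (nat_lit 0) (nat_lit 23855452099847) (nat_lit 76) (nat_lit 93773214695901) (nat_lit 76) (nat_lit 93772735031569) (nat_lit 1) (nat_lit 4) (nat_lit 2) (nat_lit 5) (nat_lit 2) (nat_lit 4) (nat_lit 389) (nat_lit 282) (nat_lit 229))))) (XT.nd (nat_lit 312) (nat_lit 0) (nat_lit 0) (XT.nd (nat_lit 156) (nat_lit 0) (nat_lit 0) (XT.lf (nat_lit 0)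 (nat_lit 27436497509678) (nat_lit 76) (nat_lit 107837699391100) (nat_lit 76) (nat_lit 107837219688784) (nat_lit 1) (nat_lit 4) (nat_lit 2) (nat_lit 5) (nat_lit 2) (nat_lit 4) (nat_lit 390) (nat_lit 282) (nat_lit 228)) (XT.nd (nat_lit 78) (nat_lit 0) (nat_lit 0) (XT.lf (nat_lit 0) (nat_lit 36290631068235) (nat_lit 76) (nat_lit 142612138436149) (nat_lit 76) (nat_lit 142611658672081) (nat_lit 1) (nat_lit 4) (nat_lit 2) (nat_lit 5) (nat_lit 2) (nat_lit 4) (nat_lit 392) (nat_lit 282) (nat_lit 226)) (XT.lf (nat_lit 0) (nat_lit 41736952264845) (nat_lit 76) (nat_lit 164002462245577) (nat_lit 76) (nat_lit 164001982456532) (nat_lit 1) (nat_lit 4) (nat_lit 2) (nat_lit 5) (nat_lit 2) (nat_lit 4) (nat_lit 393) (nat_lit 282) (nat_lit 225)))) (XT.nd (nat_lit 78) (nat_lit 0) (nat_lit 0) (XT.lf (nat_lit 0) (nat_lit 48000221375888) (nat_lit 76) (nat_lit 188601334764944) (nat_lit 76) (nat_lit 188600854954182)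 (nat_lit 1) (nat_lit 4) (nat_lit 2) (nat_lit 5) (nat_lit 2) (nat_lit 4) (nat_lit 394) (nat_lit 282) (nat_lit 224)) (XT.nd (nat_lit 78) (nat_lit 0) (nat_lit 0) (XT.lf (nat_lit 0) (nat_lit 55202980623101) (nat_lit 76) (nat_lit 216890038282676) (nat_lit 76) (nat_lit 216889558453029) (nat_lit 1) (nat_lit 4) (nat_lit 2) (nat_lit 5) (nat_lit 2) (nat_lit 4) (nat_lit 395) (nat_lit 282) (nat_lit 223)) (XT.lf (nat_lit 0) (nat_lit 63486153556974) (nat_lit 76) (nat_lit 249422047432814) (nat_lit 76) (nat_lit 249421567586745) (nat_lit 1) (nat_lit 4) (nat_lit 2) (nat_lit 5) (nat_lit 2) (nat_lit 4) (nat_lit 396) (nat_lit 282) (nat_lit 222))))))))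
noncomputable def xc19 : XT := (XT.nd (nat_lit 43524) (nat_lit 0) (nat_lit 0) (XT.nd (nat_lit 42666) (nat_lit 0) (nat_lit 0) (XT.nd (nat_lit 42198) (nat_lit 0) (nat_lit 0) (XT.nd (nat_lit 41964) (nat_lit 0) (nat_lit 76) (XT.nd (nat_lit 78) (nat_lit 0) (nat_lit 0) (XT.lf (nat_lit 0) (nat_lit 73011802256647) (nat_lit 76) (nat_lit 286833858046556) (nat_lit 76) (nat_lit 286833378186206) (nat_lit 1) (nat_lit 4) (nat_lit 2) (nat_lit 5) (nat_lit 2) (nat_lit 4) (nat_lit 397) (nat_lit 282) (nat_lit 221)) (XT.lf (nat_lit 0) (nat_lit 83966298109722) (nat_lit 76) (nat_lit 329857440331563) (nat_lit 76) (nat_lit 329856960458796) (nat_lit 1) (nat_lit 4) (nat_lit 2) (nat_lit 5) (nat_lit 2) (nat_lit 4) (nat_lit 398) (nat_lit 282) (nat_lit 220))) (XT.nd (nat_lit 78) (nat_lit 0) (nat_lit 0) (XT.lf (nat_lit 0) (nat_lit 17928438292) (nat_lit 152) (nat_lit 14039292637) (nat_lit 0) (nat_lit 17928438292) (nat_lit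 2) (nat_lit 5) (nat_lit 4) (nat_lit 4) (nat_lit 2) (nat_lit 4) (nat_lit 334) (nat_lit 283) (nat_lit 283)) (XT.nd (nat_lit 78) (nat_lit 0) (nat_lit 0) (XT.lf (nat_lit 0) (nat_lit 45072315225) (nat_lit 152) (nat_lit 24099937910) (nat_lit 0) (nat_lit 45000321893) (nat_lit 2) (nat_lit 5) (nat_lit 4) (nat_lit 4) (nat_lit 2) (nat_lit 4) (nat_lit 335) (nat_lit 283) (nat_lit 282)) (XT.lf (nat_lit 0) (nat_lit 55336972670) (nat_lit 152) (nat_lit 20220518564) (nat_lit 0) (nat_lit 55202376440) (nat_lit 2) (nat_lit 5) (nat_lit 4) (nat_lit 4) (nat_lit 2) (nat_lit 4) (nat_lit 336) (nat_lit 283) (nat_lit 281))))) (XT.nd (nat_lit 234) (nat_lit 76) (nat_lit 0) (XT.nd (nat_lit 78) (nat_lit 0) (nat_lit 0) (XT.lf (nat_lit 0) (nat_lit 66851679172) (nat_lit 152) (nat_lit 16364425551) (nat_lit 0) (nat_lit 66662645640) (nat_lit 2) (nat_lit 5) (nat_lit 4) (nat_lit 4) (nat_lit 2) (nat_lit 4) (nat_lit 337) (nat_lit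 283) (nat_lit 280)) (XT.nd (nat_lit 78) (nat_lit 0) (nat_lit 0) (XT.lf (nat_lit 0) (nat_lit 79841722470) (nat_lit 152) (nat_lit 12456213575) (nat_lit 0) (nat_lit 79605352153) (nat_lit 2) (nat_lit 5) (nat_lit 4) (nat_lit 4) (nat_lit 2) (nat_lit 4) (nat_lit 338) (nat_lit 283) (nat_lit 279)) (XT.lf (nat_lit 0) (nat_lit 94561255583) (nat_lit 152) (nat_lit 8419417619) (nat_lit 0) (nat_lit 94283722845) (nat_lit 2) (nat_lit 5) (nat_lit 4) (nat_lit 4) (nat_lit 2) (nat_lit 4) (nat_lit 339) (nat_lit 283) (nat_lit 278)))) (XT.nd (nat_lit 78) (nat_lit 76) (nat_lit 0) (XT.lf (nat_lit 0) (nat_lit 111298269376) (nat_lit 152) (nat_lit 4175056892) (nat_lit 0) (nat_lit 110984943229) (nat_lit 2) (nat_lit 5) (nat_lit 4) (nat_lit 4) (nat_lit 2) (nat_lit 4) (nat_lit 340) (nat_lit 283) (nat_lit 277)) (XT.nd (nat_lit 78) (nat_lit 0) (nat_lit 0) (XT.lf (nat_lit 0) (nat_lit 395083513) (nat_lit 76) (nat_lit 130001503217)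 (nat_lit 76) (nat_lit 129657052365) (nat_lit 1) (nat_lit 4) (nat_lit 2) (nat_lit 5) (nat_lit 2) (nat_lit 4) (nat_lit 341) (nat_lit 283) (nat_lit 276)) (XT.lf (nat_lit 0) (nat_lit 5789646375) (nat_lit 76) (nat_lit 146630562133) (nat_lit 76) (nat_lit 146259046321) (nat_lit 1) (nat_lit 4) (nat_lit 2) (nat_lit 5) (nat_lit 2) (nat_lit 4) (nat_lit 342) (nat_lit 283) (nat_lit 275)))))) (XT.nd (nat_lit 390) (nat_lit 0) (nat_lit 0) (XT.nd (nat_lit 156) (nat_lit 0) (nat_lit 0) (XT.nd (nat_lit 78) (nat_lit 0) (nat_lit 0) (XT.lf (nat_lit 0) (nat_lit 11706160565) (nat_lit 76) (nat_lit 165904095781) (nat_lit 76) (nat_lit 165509045221) (nat_lit 1) (nat_lit 4) (nat_lit 2) (nat_lit 5) (nat_lit 2) (nat_lit 4) (nat_lit 343) (nat_lit 283) (nat_lit 274)) (XT.lf (nat_lit 0) (nat_lit 18260383970) (nat_lit 76) (nat_lit 188199195036) (nat_lit 76) (nat_lit 187783679477) (nat_lit 1) (nat_lit 4) (nat_lit 2) (nat_lit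 5) (nat_lit 2) (nat_lit 4) (nat_lit 344) (nat_lit 283) (nat_lit 273))) (XT.nd (nat_lit 78) (nat_lit 0) (nat_lit 0) (XT.lf (nat_lit 0) (nat_lit 25580551396) (nat_lit 76) (nat_lit 213952068361) (nat_lit 76) (nat_lit 213518757152) (nat_lit 1) (nat_lit 4) (nat_lit 2) (nat_lit 5) (nat_lit 2) (nat_lit 4) (nat_lit 345) (nat_lit 283) (nat_lit 272)) (XT.nd (nat_lit 78) (nat_lit 0) (nat_lit 0) (XT.lf (nat_lit 0) (nat_lit 33809883509) (nat_lit 76) (nat_lit 243666576322) (nat_lit 76) (nat_lit 243217790634) (nat_lit 1) (nat_lit 4) (nat_lit 2) (nat_lit 5) (nat_lit 2) (nat_lit 4) (nat_lit 346) (nat_lit 283) (nat_lit 271)) (XT.lf (nat_lit 0) (nat_lit 43109388981) (nat_lit 76) (nat_lit 277924089726) (nat_lit 76) (nat_lit 277461847970) (nat_lit 1) (nat_lit 4) (nat_lit 2) (nat_lit 5) (nat_lit 2) (nat_lit 4) (nat_lit 347) (nat_lit 283) (nat_lit 270))))) (XT.nd (nat_lit 234) (nat_lit 0) (nat_lit 0) (XT.nd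 (nat_lit 78) (nat_lit 0) (nat_lit 0) (XT.lf (nat_lit 0) (nat_lit 53661014659) (nat_lit 76) (nat_lit 317394864271) (nat_lit 76) (nat_lit 316920921585) (nat_lit 1) (nat_lit 4) (nat_lit 2) (nat_lit 5) (nat_lit 2) (nat_lit 4) (nat_lit 348) (nat_lit 283) (nat_lit 269)) (XT.nd (nat_lit 78) (nat_lit 0) (nat_lit 0) (XT.lf (nat_lit 0) (nat_lit 65671205392) (nat_lit 76) (nat_lit 362851154241) (nat_lit 76) (nat_lit 362367036834) (nat_lit 1) (nat_lit 4) (nat_lit 2) (nat_lit 5) (nat_lit 2) (nat_lit 4) (nat_lit 349) (nat_lit 283) (nat_lit 268)) (XT.lf (nat_lit 0) (nat_lit 79374943174) (nat_lit 76) (nat_lit 415182321832) (nat_lit 76) (nat_lit 414689356841) (nat_lit 1) (nat_lit 4) (nat_lit 2) (nat_lit 5) (nat_lit 2) (nat_lit 4) (nat_lit 350) (nat_lit 283) (nat_lit 267)))) (XT.nd (nat_lit 78) (nat_lit 0) (nat_lit 0) (XT.lf (nat_lit 0) (nat_lit 95040344612) (nat_lit 76) (nat_lit 475412237712) (nat_lit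 76) (nat_lit 474911579171) (nat_lit 1) (nat_lit 4) (nat_lit 2) (nat_lit 5) (nat_lit 2) (nat_lit 4) (nat_lit 351) (nat_lit 283) (nat_lit 266)) (XT.nd (nat_lit 78) (nat_lit 0) (nat_lit 0) (XT.lf (nat_lit 0) (nat_lit 112973906693) (nat_lit 76) (nat_lit 544719313281) (nat_lit 76) (nat_lit 544211964696) (nat_lit 1) (nat_lit 4) (nat_lit 2) (nat_lit 5) (nat_lit 2) (nat_lit 4) (nat_lit 352) (nat_lit 283) (nat_lit 265)) (XT.lf (nat_lit 0) (nat_lit 133526503456) (nat_lit 76) (nat_lit 624459556539) (nat_lit 76) (nat_lit 623946390523) (nat_lit 1) (nat_lit 4) (nat_lit 2) (nat_lit 5) (nat_lit 2) (nat_lit 4) (nat_lit 353) (nat_lit 283) (nat_lit 264))))))) (XT.nd (nat_lit 858) (nat_lit 0) (nat_lit 0) (XT.nd (nat_lit 390) (nat_lit 0) (nat_lit 0) (XT.nd (nat_lit 156) (nat_lit 0) (nat_lit 0) (XT.nd (nat_lit 78) (nat_lit 0) (nat_lit 0) (XT.lf (nat_lit 0) (nat_lit 157100250924) (nat_lit 76) (nat_lit 716193102678)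 (nat_lit 76) (nat_lit 715674878029) (nat_lit 1) (nat_lit 4) (nat_lit 2) (nat_lit 5) (nat_lit 2) (nat_lit 4) (nat_lit 354) (nat_lit 283) (nat_lit 263)) (XT.lf (nat_lit 0) (nat_lit 184156374593) (nat_lit 76) (nat_lit 821714738473) (nat_lit 76) (nat_lit 821192115011) (nat_lit 1) (nat_lit 4) (nat_lit 2) (nat_lit 5) (nat_lit 2) (nat_lit 4) (nat_lit 355) (nat_lit 283) (nat_lit 262))) (XT.nd (nat_lit 78) (nat_lit 0) (nat_lit 0) (XT.lf (nat_lit 0) (nat_lit 215224233404) (nat_lit 76) (nat_lit 943089017667) (nat_lit 76) (nat_lit 942562569150) (nat_lit 1) (nat_lit 4) (nat_lit 2) (nat_lit 5) (nat_lit 2) (nat_lit 4) (nat_lit 356) (nat_lit 283) (nat_lit 261)) (XT.nd (nat_lit 78) (nat_lit 0) (nat_lit 0) (XT.lf (nat_lit 0) (nat_lit 250911676767) (nat_lit 76) (nat_lit 1082690654417) (nat_lit 76) (nat_lit 1082160879766) (nat_lit 1) (nat_lit 4) (nat_lit 2) (nat_lit 5) (nat_lit 2) (nat_lit 4) (nat_lit 357)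 (nat_lit 283) (nat_lit 260)) (XT.lf (nat_lit 0) (nat_lit 291916937270) (nat_lit 76) (nat_lit 1243250985095) (nat_lit 76) (nat_lit 1242718318153) (nat_lit 1) (nat_lit 4) (nat_lit 2) (nat_lit 5) (nat_lit 2) (nat_lit 4) (nat_lit 358) (nat_lit 283) (nat_lit 259))))) (XT.nd (nat_lit 234) (nat_lit 0) (nat_lit 0) (XT.nd (nat_lit 78) (nat_lit 0) (nat_lit 0) (XT.lf (nat_lit 0) (nat_lit 339042291750) (nat_lit 76) (nat_lit 1427911407475) (nat_lit 76) (nat_lit 1427376225498) (nat_lit 1) (nat_lit 4) (nat_lit 2) (nat_lit 5) (nat_lit 2) (nat_lit 4) (nat_lit 359) (nat_lit 283) (nat_lit 258)) (XT.nd (nat_lit 78) (nat_lit 0) (nat_lit 0) (XT.lf (nat_lit 0) (nat_lit 393209758011) (nat_lit 76) (nat_lit 1640284842865) (nat_lit 76) (nat_lit 1639747473901) (nat_lit 1) (nat_lit 4) (nat_lit 2) (nat_lit 5) (nat_lit 2) (nat_lit 4) (nat_lit 360) (nat_lit 283) (nat_lit 257)) (XT.lf (nat_lit 0) (nat_lit 455479134307)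 (nat_lit 76) (nat_lit 1884526423696) (nat_lit 76) (nat_lit 1883987153003) (nat_lit 1) (nat_lit 4) (nat_lit 2) (nat_lit 5) (nat_lit 2) (nat_lit 4) (nat_lit 361) (nat_lit 283) (nat_lit 256)))) (XT.nd (nat_lit 78) (nat_lit 0) (nat_lit 0) (XT.lf (nat_lit 0) (nat_lit 527068734520) (nat_lit 76) (nat_lit 2165414789594) (nat_lit 76) (nat_lit 2164873865224) (nat_lit 1) (nat_lit 4) (nat_lit 2) (nat_lit 5) (nat_lit 2) (nat_lit 4) (nat_lit 362) (nat_lit 283) (nat_lit 255)) (XT.nd (nat_lit 78) (nat_lit 0) (nat_lit 0) (XT.lf (nat_lit 0) (nat_lit 609379224744) (nat_lit 76) (nat_lit 2488445582498) (nat_lit 76) (nat_lit 2487903220149) (nat_lit 1) (nat_lit 4) (nat_lit 2) (nat_lit 5) (nat_lit 2) (nat_lit 4) (nat_lit 363) (nat_lit 283) (nat_lit 254)) (XT.lf (nat_lit 0) (nat_lit 704021027611) (nat_lit 76) (nat_lit 2859938970098) (nat_lit 76) (nat_lit 2859395357331) (nat_lit 1) (nat_lit 4) (nat_lit 2) (nat_lit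 5) (nat_lit 2) (nat_lit 4) (nat_lit 364) (nat_lit 283) (nat_lit 253)))))) (XT.nd (nat_lit 390) (nat_lit 0) (nat_lit 0) (XT.nd (nat_lit 156) (nat_lit 0) (nat_lit 0) (XT.nd (nat_lit 78) (nat_lit 0) (nat_lit 0) (XT.lf (nat_lit 0) (nat_lit 812845830571) (nat_lit 76) (nat_lit 3287163301280) (nat_lit 76) (nat_lit 3286618601194) (nat_lit 1) (nat_lit 4) (nat_lit 2) (nat_lit 5) (nat_lit 2) (nat_lit 4) (nat_lit 365) (nat_lit 283) (nat_lit 252)) (XT.lf (nat_lit 0) (nat_lit 937982814549) (nat_lit 76) (nat_lit 3778477312959) (nat_lit 76) (nat_lit 3777931667379) (nat_lit 1) (nat_lit 4) (nat_lit 2) (nat_lit 5) (nat_lit 2) (nat_lit 4) (nat_lit 366) (nat_lit 283) (nat_lit 251))) (XT.nd (nat_lit 78) (nat_lit 0) (nat_lit 0) (XT.lf (nat_lit 0) (nat_lit 1081880311842) (nat_lit 76) (nat_lit 4343493670581) (nat_lit 76) (nat_lit 4342947202831) (nat_lit 1) (nat_lit 4) (nat_lit 2) (nat_lit 5) (nat_lit 2) (nat_lit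 4) (nat_lit 367) (nat_lit 283) (nat_lit 250)) (XT.nd (nat_lit 78) (nat_lit 0) (nat_lit 0) (XT.lf (nat_lit 0) (nat_lit 1247353708266) (nat_lit 76) (nat_lit 4993267042013) (nat_lit 76) (nat_lit 4992719859333) (nat_lit 1) (nat_lit 4) (nat_lit 2) (nat_lit 5) (nat_lit 2) (nat_lit 4) (nat_lit 368) (nat_lit 283) (nat_lit 249)) (XT.lf (nat_lit 0) (nat_lit 1437640526794) (nat_lit 76) (nat_lit 5740510384521) (nat_lit 76) (nat_lit 5739962580163) (nat_lit 1) (nat_lit 4) (nat_lit 2) (nat_lit 5) (nat_lit 2) (nat_lit 4) (nat_lit 369) (nat_lit 283) (nat_lit 248))))) (XT.nd (nat_lit 234) (nat_lit 0) (nat_lit 0) (XT.nd (nat_lit 78) (nat_lit 0) (nat_lit 0) (XT.lf (nat_lit 0) (nat_lit 1656463770398) (nat_lit 76) (nat_lit 6599843676547) (nat_lit 76) (nat_lit 6599295331598) (nat_lit 1) (nat_lit 4) (nat_lit 2) (nat_lit 5) (nat_lit 2) (nat_lit 4) (nat_lit 370) (nat_lit 283) (nat_lit 247)) (XT.nd (nat_lit 78)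 (nat_lit 0) (nat_lit 0) (XT.lf (nat_lit 0) (nat_lit 1908104763410) (nat_lit 76) (nat_lit 7588079960759) (nat_lit 76) (nat_lit 7587531145733) (nat_lit 1) (nat_lit 4) (nat_lit 2) (nat_lit 5) (nat_lit 2) (nat_lit 4) (nat_lit 371) (nat_lit 283) (nat_lit 246)) (XT.lf (nat_lit 0) (nat_lit 2197486916561) (nat_lit 76) (nat_lit 8724554294893) (nat_lit 76) (nat_lit 8724005071103) (nat_lit 1) (nat_lit 4) (nat_lit 2) (nat_lit 5) (nat_lit 2) (nat_lit 4) (nat_lit 372) (nat_lit 283) (nat_lit 245)))) (XT.nd (nat_lit 78) (nat_lit 0) (nat_lit 0) (XT.lf (nat_lit 0) (nat_lit 2530272054587) (nat_lit 76) (nat_lit 10031502046356) (nat_lit 76) (nat_lit 10030952467119) (nat_lit 1) (nat_lit 4) (nat_lit 2) (nat_lit 5) (nat_lit 2) (nat_lit 4) (nat_lit 373) (nat_lit 283) (nat_lit 244)) (XT.nd (nat_lit 78) (nat_lit 0) (nat_lit 0) (XT.lf (nat_lit 0) (nat_lit 2912971191059) (nat_lit 76) (nat_lit 11534493932023) (nat_lit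 76) (nat_lit 11533944043703) (nat_lit 1) (nat_lit 4) (nat_lit 2) (nat_lit 5) (nat_lit 2) (nat_lit 4) (nat_lit 374) (nat_lit 283) (nat_lit 243)) (XT.lf (nat_lit 0) (nat_lit 3353071917778) (nat_lit 76) (nat_lit 13262936314877) (nat_lit 76) (nat_lit 13262386157788) (nat_lit 1) (nat_lit 4) (nat_lit 2) (nat_lit 5) (nat_lit 2) (nat_lit 4) (nat_lit 375) (nat_lit 283) (nat_lit 242))))))))
noncomputable def xc20 : XT := (XT.nd (nat_lit 1638) (nat_lit 0) (nat_lit 0) (XT.nd (nat_lit 780) (nat_lit 0) (nat_lit 0) (XT.nd (nat_lit 390) (nat_lit 0) (nat_lit 0) (XT.nd (nat_lit 156) (nat_lit 0) (nat_lit 0) (XT.nd (nat_lit 78) (nat_lit 0) (nat_lit 0) (XT.lf (nat_lit 0) (nat_lit 3859184901134) (nat_lit 76) (nat_lit 15250646545884) (nat_lit 76) (nat_lit 15250096155083) (nat_lit 1) (nat_lit 4) (nat_lit 2) (nat_lit 5) (nat_lit 2) (nat_lit 4) (nat_lit 376) (nat_lit 283) (nat_lit 241)) (XT.lf (nat_lit 0) (nat_lit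 4441212351674) (nat_lit 76) (nat_lit 17536514607827) (nat_lit 76) (nat_lit 17535964013798) (nat_lit 1) (nat_lit 4) (nat_lit 2) (nat_lit 5) (nat_lit 2) (nat_lit 4) (nat_lit 377) (nat_lit 283) (nat_lit 240))) (XT.nd (nat_lit 78) (nat_lit 0) (nat_lit 0) (XT.lf (nat_lit 0) (nat_lit 5110541762993) (nat_lit 76) (nat_lit 20165264006264) (nat_lit 76) (nat_lit 20164713235516) (nat_lit 1) (nat_lit 4) (nat_lit 2) (nat_lit 5) (nat_lit 2) (nat_lit 4) (nat_lit 378) (nat_lit 283) (nat_lit 239)) (XT.nd (nat_lit 78) (nat_lit 0) (nat_lit 0) (XT.lf (nat_lit 0) (nat_lit 5880268710530) (nat_lit 76) (nat_lit 23188326794644) (nat_lit 76) (nat_lit 23187775870226) (nat_lit 1) (nat_lit 4) (nat_lit 2) (nat_lit 5) (nat_lit 2) (nat_lit 4) (nat_lit 379) (nat_lit 283) (nat_lit 238)) (XT.lf (nat_lit 0) (nat_lit 6765453069347) (nat_lit 76) (nat_lit 26664849853608) (nat_lit 76) (nat_lit 26664298795565) (nat_lit 1) (nat_lit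 4) (nat_lit 2) (nat_lit 5) (nat_lit 2) (nat_lit 4) (nat_lit 380) (nat_lit 283) (nat_lit 237))))) (XT.nd (nat_lit 156) (nat_lit 0) (nat_lit 0) (XT.nd (nat_lit 78) (nat_lit 0) (nat_lit 0) (XT.lf (nat_lit 0) (nat_lit 7783413663855) (nat_lit 76) (nat_lit 30662852112572) (nat_lit 76) (nat_lit 30662300938332) (nat_lit 1) (nat_lit 4) (nat_lit 2) (nat_lit 5) (nat_lit 2) (nat_lit 4) (nat_lit 381) (nat_lit 283) (nat_lit 236)) (XT.lf (nat_lit 0) (nat_lit 8954067114381) (nat_lit 76) (nat_lit 35260555354862) (nat_lit 76) (nat_lit 35260004079582) (nat_lit 1) (nat_lit 4) (nat_lit 2) (nat_lit 5) (nat_lit 2) (nat_lit 4) (nat_lit 382) (nat_lit 283) (nat_lit 235))) (XT.nd (nat_lit 78) (nat_lit 0) (nat_lit 0) (XT.lf (nat_lit 0) (nat_lit 10300317510175) (nat_lit 76) (nat_lit 40547914643915) (nat_lit 76) (nat_lit 40547363280774) (nat_lit 1) (nat_lit 4) (nat_lit 2) (nat_lit 5) (nat_lit 2) (nat_lit 4) (nat_lit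 383) (nat_lit 283) (nat_lit 234)) (XT.nd (nat_lit 78) (nat_lit 0) (nat_lit 0) (XT.lf (nat_lit 0) (nat_lit 11848504532893) (nat_lit 76) (nat_lit 46628378313647) (nat_lit 76) (nat_lit 46627826874106) (nat_lit 1) (nat_lit 4) (nat_lit 2) (nat_lit 5) (nat_lit 2) (nat_lit 4) (nat_lit 384) (nat_lit 283) (nat_lit 233)) (XT.lf (nat_lit 0) (nat_lit 13628918798197) (nat_lit 76) (nat_lit 53620911957596) (nat_lit 76) (nat_lit 53620360451620) (nat_lit 1) (nat_lit 4) (nat_lit 2) (nat_lit 5) (nat_lit 2) (nat_lit 4) (nat_lit 385) (nat_lit 283) (nat_lit 232)))))) (XT.nd (nat_lit 390) (nat_lit 0) (nat_lit 0) (XT.nd (nat_lit 156) (nat_lit 0) (nat_lit 0) (XT.nd (nat_lit 78) (nat_lit 0) (nat_lit 0) (XT.lf (nat_lit 0) (nat_lit 15676394498235) (nat_lit 76) (nat_lit 61662326016623) (nat_lit 76) (nat_lit 61661774452876) (nat_lit 1) (nat_lit 4) (nat_lit 2) (nat_lit 5) (nat_lit 2) (nat_lit 4) (nat_lit 386) (nat_lit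 283) (nat_lit 231)) (XT.lf (nat_lit 0) (nat_lit 18030990940182) (nat_lit 76) (nat_lit 70909952504925) (nat_lit 76) (nat_lit 70909400890943) (nat_lit 1) (nat_lit 4) (nat_lit 2) (nat_lit 5) (nat_lit 2) (nat_lit 4) (nat_lit 387) (nat_lit 283) (nat_lit 230))) (XT.nd (nat_lit 78) (nat_lit 0) (nat_lit 0) (XT.lf (nat_lit 0) (nat_lit 20738776315291) (nat_lit 76) (nat_lit 81544723245100) (nat_lit 76) (nat_lit 81544171587436) (nat_lit 1) (nat_lit 4) (nat_lit 2) (nat_lit 5) (nat_lit 2) (nat_lit 4) (nat_lit 388) (nat_lit 283) (nat_lit 229)) (XT.nd (nat_lit 78) (nat_lit 0) (nat_lit 0) (XT.lf (nat_lit 0) (nat_lit 23852729033078) (nat_lit 76) (nat_lit 93774709838586) (nat_lit 76) (nat_lit 93774158142937) (nat_lit 1) (nat_lit 4) (nat_lit 2) (nat_lit 5) (nat_lit 2) (nat_lit 4) (nat_lit 389) (nat_lit 283) (nat_lit 228)) (XT.lf (nat_lit 0) (nat_lit 27433774255411) (nat_lit 76) (nat_lit 107839194631777)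 (nat_lit 76) (nat_lit 107838642903098) (nat_lit 1) (nat_lit 4) (nat_lit 2) (nat_lit 5) (nat_lit 2) (nat_lit 4) (nat_lit 390) (nat_lit 283) (nat_lit 227))))) (XT.nd (nat_lit 234) (nat_lit 0) (nat_lit 0) (XT.nd (nat_lit 78) (nat_lit 0) (nat_lit 0) (XT.lf (nat_lit 0) (nat_lit 31551975910554) (nat_lit 76) (nat_lit 124013352327148) (nat_lit 76) (nat_lit 124012800569747) (nat_lit 1) (nat_lit 4) (nat_lit 2) (nat_lit 5) (nat_lit 2) (nat_lit 4) (nat_lit 391) (nat_lit 283) (nat_lit 226)) (XT.nd (nat_lit 78) (nat_lit 0) (nat_lit 0) (XT.lf (nat_lit 0) (nat_lit 36287907509151) (nat_lit 76) (nat_lit 142613633836132) (nat_lit 76) (nat_lit 142613082053755) (nat_lit 1) (nat_lit 4) (nat_lit 2) (nat_lit 5) (nat_lit 2) (nat_lit 4) (nat_lit 392) (nat_lit 283) (nat_lit 225)) (XT.lf (nat_lit 0) (nat_lit 41734228582477) (nat_lit 76) (nat_lit 164003957709990) (nat_lit 76) (nat_lit 164003405905896) (nat_lit 1)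 (nat_lit 4) (nat_lit 2) (nat_lit 5) (nat_lit 2) (nat_lit 4) (nat_lit 393) (nat_lit 283) (nat_lit 224)))) (XT.nd (nat_lit 78) (nat_lit 0) (nat_lit 0) (XT.lf (nat_lit 0) (nat_lit 47997497586318) (nat_lit 76) (nat_lit 188602830285385) (nat_lit 76) (nat_lit 188602278462405) (nat_lit 1) (nat_lit 4) (nat_lit 2) (nat_lit 5) (nat_lit 2) (nat_lit 4) (nat_lit 394) (nat_lit 283) (nat_lit 223)) (XT.nd (nat_lit 78) (nat_lit 0) (nat_lit 0) (XT.lf (nat_lit 0) (nat_lit 55200256740310) (nat_lit 76) (nat_lit 216891533851836) (nat_lit 76) (nat_lit 216890982012435) (nat_lit 1) (nat_lit 4) (nat_lit 2) (nat_lit 5) (nat_lit 2) (nat_lit 4) (nat_lit 395) (nat_lit 283) (nat_lit 222)) (XT.lf (nat_lit 0) (nat_lit 63483429593122) (nat_lit 76) (nat_lit 249423543044338) (nat_lit 76) (nat_lit 249422991190657) (nat_lit 1) (nat_lit 4) (nat_lit 2) (nat_lit 5) (nat_lit 2) (nat_lit 4) (nat_lit 396) (nat_lit 283) (nat_lit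 221))))))) (XT.nd (nat_lit 42588) (nat_lit 0) (nat_lit 0) (XT.nd (nat_lit 42120) (nat_lit 0) (nat_lit 76) (XT.nd (nat_lit 41886) (nat_lit 0) (nat_lit 76) (XT.nd (nat_lit 41808) (nat_lit 0) (nat_lit 76) (XT.lf (nat_lit 0) (nat_lit 73009078222307) (nat_lit 76) (nat_lit 286835353694918) (nat_lit 76) (nat_lit 286834801828820) (nat_lit 1) (nat_lit 4) (nat_lit 2) (nat_lit 5) (nat_lit 2) (nat_lit 4) (nat_lit 397) (nat_lit 283) (nat_lit 220)) (XT.lf (nat_lit 0) (nat_lit 10078566868) (nat_lit 152) (nat_lit 18110132254) (nat_lit 0) (nat_lit 10078566868) (nat_lit 2) (nat_lit 5) (nat_lit 4) (nat_lit 4) (nat_lit 2) (nat_lit 4) (nat_lit 332) (nat_lit 284) (nat_lit 284))) (XT.nd (nat_lit 78) (nat_lit 0) (nat_lit 0) (XT.lf (nat_lit 0) (nat_lit 27593147021) (nat_lit 152) (nat_lit 32234303756) (nat_lit 0) (nat_lit 27510354689) (nat_lit 2) (nat_lit 5) (nat_lit 4) (nat_lit 4) (nat_lit 2) (nat_lit 4) (nat_lit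 333) (nat_lit 284) (nat_lit 283)) (XT.nd (nat_lit 78) (nat_lit 0) (nat_lit 0) (XT.lf (nat_lit 0) (nat_lit 35761500759) (nat_lit 152) (nat_lit 28450877781) (nat_lit 0) (nat_lit 35606715095) (nat_lit 2) (nat_lit 5) (nat_lit 4) (nat_lit 4) (nat_lit 2) (nat_lit 4) (nat_lit 334) (nat_lit 284) (nat_lit 282)) (XT.lf (nat_lit 0) (nat_lit 44822010566) (nat_lit 152) (nat_lit 24795963032) (nat_lit 0) (nat_lit 44604622004) (nat_lit 2) (nat_lit 5) (nat_lit 4) (nat_lit 4) (nat_lit 2) (nat_lit 4) (nat_lit 335) (nat_lit 284) (nat_lit 281))))) (XT.nd (nat_lit 234) (nat_lit 0) (nat_lit 0) (XT.nd (nat_lit 78) (nat_lit 0) (nat_lit 0) (XT.lf (nat_lit 0) (nat_lit 54951947285) (nat_lit 152) (nat_lit 21198050307) (nat_lit 0) (nat_lit 54680121421) (nat_lit 2) (nat_lit 5) (nat_lit 4) (nat_lit 4) (nat_lit 2) (nat_lit 4) (nat_lit 336) (nat_lit 284) (nat_lit 280)) (XT.nd (nat_lit 78) (nat_lit 0) (nat_lit 0) (XT.lf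 (nat_lit 0) (nat_lit 66349505332) (nat_lit 152) (nat_lit 17586745661) (nat_lit 0) (nat_lit 66030342683) (nat_lit 2) (nat_lit 5) (nat_lit 4) (nat_lit 4) (nat_lit 2) (nat_lit 4) (nat_lit 337) (nat_lit 284) (nat_lit 279)) (XT.lf (nat_lit 0) (nat_lit 79237680406) (nat_lit 152) (nat_lit 13891393135) (nat_lit 0) (nat_lit 78877355336) (nat_lit 2) (nat_lit 5) (nat_lit 4) (nat_lit 4) (nat_lit 2) (nat_lit 4) (nat_lit 338) (nat_lit 284) (nat_lit 278)))) (XT.nd (nat_lit 78) (nat_lit 0) (nat_lit 0) (XT.lf (nat_lit 0) (nat_lit 93868632456) (nat_lit 152) (nat_lit 10039692352) (nat_lit 0) (nat_lit 93472513976) (nat_lit 2) (nat_lit 5) (nat_lit 4) (nat_lit 4) (nat_lit 2) (nat_lit 4) (nat_lit 339) (nat_lit 284) (nat_lit 277)) (XT.nd (nat_lit 78) (nat_lit 0) (nat_lit 0) (XT.lf (nat_lit 0) (nat_lit 110528619238) (nat_lit 152) (nat_lit 5956283949) (nat_lit 0) (nat_lit 110101376054) (nat_lit 2) (nat_lit 5)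 (nat_lit 4) (nat_lit 4) (nat_lit 2) (nat_lit 4) (nat_lit 340) (nat_lit 284) (nat_lit 276)) (XT.lf (nat_lit 0) (nat_lit 129543597016) (nat_lit 152) (nat_lit 1561275153) (nat_lit 0) (nat_lit 129089288872) (nat_lit 2) (nat_lit 5) (nat_lit 4) (nat_lit 4) (nat_lit 2) (nat_lit 4) (nat_lit 341) (nat_lit 284) (nat_lit 275)))))) (XT.nd (nat_lit 390) (nat_lit 0) (nat_lit 0) (XT.nd (nat_lit 156) (nat_lit 0) (nat_lit 0) (XT.nd (nat_lit 78) (nat_lit 0) (nat_lit 0) (XT.lf (nat_lit 0) (nat_lit 3547111754) (nat_lit 76) (nat_lit 147885364542) (nat_lit 76) (nat_lit 147407521650) (nat_lit 1) (nat_lit 4) (nat_lit 2) (nat_lit 5) (nat_lit 2) (nat_lit 4) (nat_lit 342) (nat_lit 284) (nat_lit 274)) (XT.lf (nat_lit 0) (nat_lit 9347454822) (nat_lit 76) (nat_lit 167219612404) (nat_lit 76) (nat_lit 166721304513) (nat_lit 1) (nat_lit 4) (nat_lit 2) (nat_lit 5) (nat_lit 2) (nat_lit 4) (nat_lit 343) (nat_lit 284) (nat_lit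 273))) (XT.nd (nat_lit 78) (nat_lit 0) (nat_lit 0) (XT.lf (nat_lit 0) (nat_lit 15800659859) (nat_lit 76) (nat_lit 189567506627) (nat_lit 76) (nat_lit 189051403086) (nat_lit 1) (nat_lit 4) (nat_lit 2) (nat_lit 5) (nat_lit 2) (nat_lit 4) (nat_lit 344) (nat_lit 284) (nat_lit 272)) (XT.nd (nat_lit 78) (nat_lit 0) (nat_lit 0) (XT.lf (nat_lit 0) (nat_lit 23032985226) (nat_lit 76) (nat_lit 215366288620) (nat_lit 76) (nat_lit 214834710600) (nat_lit 1) (nat_lit 4) (nat_lit 2) (nat_lit 5) (nat_lit 2) (nat_lit 4) (nat_lit 345) (nat_lit 284) (nat_lit 271)) (XT.lf (nat_lit 0) (nat_lit 31185932940) (nat_lit 76) (nat_lit 245120717162) (nat_lit 76) (nat_lit 244575683074) (nat_lit 1) (nat_lit 4) (nat_lit 2) (nat_lit 5) (nat_lit 2) (nat_lit 4) (nat_lit 346) (nat_lit 284) (nat_lit 270))))) (XT.nd (nat_lit 234) (nat_lit 0) (nat_lit 0) (XT.nd (nat_lit 78) (nat_lit 0) (nat_lit 0) (XT.lf (nat_lit 0) (nat_lit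 40419017196) (nat_lit 76) (nat_lit 279412944115) (nat_lit 76) (nat_lit 278856209098) (nat_lit 1) (nat_lit 4) (nat_lit 2) (nat_lit 5) (nat_lit 2) (nat_lit 4) (nat_lit 347) (nat_lit 284) (nat_lit 269)) (XT.nd (nat_lit 78) (nat_lit 0) (nat_lit 0) (XT.lf (nat_lit 0) (nat_lit 50912885294) (nat_lit 76) (nat_lit 318913904355) (nat_lit 76) (nat_lit 318346994616) (nat_lit 1) (nat_lit 4) (nat_lit 2) (nat_lit 5) (nat_lit 2) (nat_lit 4) (nat_lit 348) (nat_lit 284) (nat_lit 268)) (XT.lf (nat_lit 0) (nat_lit 62872852045) (nat_lit 76) (nat_lit 364396442755) (nat_lit 76) (nat_lit 363820685433) (nat_lit 1) (nat_lit 4) (nat_lit 2) (nat_lit 5) (nat_lit 2) (nat_lit 4) (nat_lit 349) (nat_lit 284) (nat_lit 267)))) (XT.nd (nat_lit 78) (nat_lit 0) (nat_lit 0) (XT.lf (nat_lit 0) (nat_lit 76532916799) (nat_lit 76) (nat_lit 416750435067) (nat_lit 76) (nat_lit 416166984194) (nat_lit 1) (nat_lit 4) (nat_lit 2) (nat_lit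 5) (nat_lit 2) (nat_lit 4) (nat_lit 350) (nat_lit 284) (nat_lit 266)) (XT.nd (nat_lit 78) (nat_lit 0) (nat_lit 0) (XT.lf (nat_lit 0) (nat_lit 92160341692) (nat_lit 76) (nat_lit 477000198532) (nat_lit 76) (nat_lit 476410057615) (nat_lit 1) (nat_lit 4) (nat_lit 2) (nat_lit 5) (nat_lit 2) (nat_lit 4) (nat_lit 351) (nat_lit 284) (nat_lit 265)) (XT.lf (nat_lit 0) (nat_lit 110060880689) (nat_lit 76) (nat_lit 546324532870) (nat_lit 76) (nat_lit 545728574523) (nat_lit 1) (nat_lit 4) (nat_lit 2) (nat_lit 5) (nat_lit 2) (nat_lit 4) (nat_lit 352) (nat_lit 284) (nat_lit 264))))))))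
noncomputable def xc21 : XT := (XT.nd (nat_lit 1716) (nat_lit 0) (nat_lit 0) (XT.nd (nat_lit 858) (nat_lit 0) (nat_lit 0) (XT.nd (nat_lit 390) (nat_lit 0) (nat_lit 0) (XT.nd (nat_lit 156) (nat_lit 0) (nat_lit 0) (XT.nd (nat_lit 78) (nat_lit 0) (nat_lit 0) (XT.lf (nat_lit 0) (nat_lit 130584761727) (nat_lit 76) (nat_lit 626079783752) (nat_lit 76) (nat_lit 625478766771) (nat_lit 1) (nat_lit 4) (nat_lit 2) (nat_lit 5) (nat_lit 2) (nat_lit 4) (nat_lit 353) (nat_lit 284) (nat_lit 263)) (XT.lf (nat_lit 0) (nat_lit 154133539000) (nat_lit 76) (nat_lit 717826380001) (nat_lit 76) (nat_lit 717220964207) (nat_lit 1) (nat_lit 4) (nat_lit 2) (nat_lit 5) (nat_lit 2) (nat_lit 4) (nat_lit 354) (nat_lit 284) (nat_lit 262))) (XT.nd (nat_lit 78) (nat_lit 0) (nat_lit 0) (XT.lf (nat_lit 0) (nat_lit 181167949455) (nat_lit 76) (nat_lit 823359363717) (nat_lit 76) (nat_lit 822750122868) (nat_lit 1) (nat_lit 4)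 (nat_lit 2) (nat_lit 5) (nat_lit 2) (nat_lit 4) (nat_lit 355) (nat_lit 284) (nat_lit 261)) (XT.nd (nat_lit 78) (nat_lit 0) (nat_lit 0) (XT.lf (nat_lit 0) (nat_lit 212216927210) (nat_lit 76) (nat_lit 944743510667) (nat_lit 76) (nat_lit 944130943684) (nat_lit 1) (nat_lit 4) (nat_lit 2) (nat_lit 5) (nat_lit 2) (nat_lit 4) (nat_lit 356) (nat_lit 284) (nat_lit 260)) (XT.lf (nat_lit 0) (nat_lit 247887952265) (nat_lit 76) (nat_lit 1084353728076) (nat_lit 76) (nat_lit 1083738268802) (nat_lit 1) (nat_lit 4) (nat_lit 2) (nat_lit 5) (nat_lit 2) (nat_lit 4) (nat_lit 357) (nat_lit 284) (nat_lit 259))))) (XT.nd (nat_lit 234) (nat_lit 0) (nat_lit 0) (XT.nd (nat_lit 78) (nat_lit 0) (nat_lit 0) (XT.lf (nat_lit 0) (nat_lit 288878935978) (nat_lit 76) (nat_lit 1244921520196) (nat_lit 76) (nat_lit 1244303545886) (nat_lit 1) (nat_lit 4) (nat_lit 2) (nat_lit 5) (nat_lit 2) (nat_lit 4) (nat_lit 358) (nat_lit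 284) (nat_lit 258)) (XT.nd (nat_lit 78) (nat_lit 0) (nat_lit 0) (XT.lf (nat_lit 0) (nat_lit 335991875857) (nat_lit 76) (nat_lit 1429588430787) (nat_lit 76) (nat_lit 1428968269490) (nat_lit 1) (nat_lit 4) (nat_lit 2) (nat_lit 5) (nat_lit 2) (nat_lit 4) (nat_lit 359) (nat_lit 284) (nat_lit 257)) (XT.lf (nat_lit 0) (nat_lit 390148546814) (nat_lit 76) (nat_lit 1641967508099) (nat_lit 76) (nat_lit 1641345445074) (nat_lit 1) (nat_lit 4) (nat_lit 2) (nat_lit 5) (nat_lit 2) (nat_lit 4) (nat_lit 360) (nat_lit 284) (nat_lit 256)))) (XT.nd (nat_lit 78) (nat_lit 0) (nat_lit 0) (XT.lf (nat_lit 0) (nat_lit 452408535888) (nat_lit 76) (nat_lit 1886213994949) (nat_lit 76) (nat_lit 1885590278248) (nat_lit 1) (nat_lit 4) (nat_lit 2) (nat_lit 5) (nat_lit 2) (nat_lit 4) (nat_lit 361) (nat_lit 284) (nat_lit 255)) (XT.nd (nat_lit 78) (nat_lit 0) (nat_lit 0) (XT.lf (nat_lit 0) (nat_lit 523989973301) (nat_lit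 76) (nat_lit 2167106626950) (nat_lit 76) (nat_lit 2166481472269) (nat_lit 1) (nat_lit 4) (nat_lit 2) (nat_lit 5) (nat_lit 2) (nat_lit 4) (nat_lit 362) (nat_lit 284) (nat_lit 254)) (XT.lf (nat_lit 0) (nat_lit 606293365436) (nat_lit 76) (nat_lit 2490141129510) (nat_lit 76) (nat_lit 2489514724412) (nat_lit 1) (nat_lit 4) (nat_lit 2) (nat_lit 5) (nat_lit 2) (nat_lit 4) (nat_lit 363) (nat_lit 284) (nat_lit 253)))))) (XT.nd (nat_lit 390) (nat_lit 0) (nat_lit 0) (XT.nd (nat_lit 156) (nat_lit 0) (nat_lit 0) (XT.nd (nat_lit 78) (nat_lit 0) (nat_lit 0) (XT.lf (nat_lit 0) (nat_lit 700928996053) (nat_lit 76) (nat_lit 2861637742897) (nat_lit 76) (nat_lit 2861010250479) (nat_lit 1) (nat_lit 4) (nat_lit 2) (nat_lit 5) (nat_lit 2) (nat_lit 4) (nat_lit 364) (nat_lit 284) (nat_lit 252)) (XT.lf (nat_lit 0) (nat_lit 809748431838) (nat_lit 76) (nat_lit 3288864879112) (nat_lit 76) (nat_lit 3288236441199) (nat_lit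 1) (nat_lit 4) (nat_lit 2) (nat_lit 5) (nat_lit 2) (nat_lit 4) (nat_lit 365) (nat_lit 284) (nat_lit 251))) (XT.nd (nat_lit 78) (nat_lit 0) (nat_lit 0) (XT.lf (nat_lit 0) (nat_lit 934880748708) (nat_lit 76) (nat_lit 3780181329949) (nat_lit 76) (nat_lit 3779552069867) (nat_lit 1) (nat_lit 4) (nat_lit 2) (nat_lit 5) (nat_lit 2) (nat_lit 4) (nat_lit 366) (nat_lit 284) (nat_lit 250)) (XT.nd (nat_lit 78) (nat_lit 0) (nat_lit 0) (XT.lf (nat_lit 0) (nat_lit 1078774187646) (nat_lit 76) (nat_lit 4345199808579) (nat_lit 76) (nat_lit 4344569833567) (nat_lit 1) (nat_lit 4) (nat_lit 2) (nat_lit 5) (nat_lit 2) (nat_lit 4) (nat_lit 367) (nat_lit 284) (nat_lit 249)) (XT.lf (nat_lit 0) (nat_lit 1244244055066) (nat_lit 76) (nat_lit 4994975024365) (nat_lit 76) (nat_lit 4994344427675) (nat_lit 1) (nat_lit 4) (nat_lit 2) (nat_lit 5) (nat_lit 2) (nat_lit 4) (nat_lit 368) (nat_lit 284) (nat_lit 248))))) (XT.nd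 (nat_lit 234) (nat_lit 0) (nat_lit 0) (XT.nd (nat_lit 78) (nat_lit 0) (nat_lit 0) (XT.lf (nat_lit 0) (nat_lit 1434527804895) (nat_lit 76) (nat_lit 5742219970660) (nat_lit 76) (nat_lit 5741588833380) (nat_lit 1) (nat_lit 4) (nat_lit 2) (nat_lit 5) (nat_lit 2) (nat_lit 4) (nat_lit 369) (nat_lit 284) (nat_lit 247)) (XT.nd (nat_lit 78) (nat_lit 0) (nat_lit 0) (XT.lf (nat_lit 0) (nat_lit 1653348380065) (nat_lit 76) (nat_lit 6601554657282) (nat_lit 76) (nat_lit 6600923049924) (nat_lit 1) (nat_lit 4) (nat_lit 2) (nat_lit 5) (nat_lit 2) (nat_lit 4) (nat_lit 370) (nat_lit 284) (nat_lit 246)) (XT.lf (nat_lit 0) (nat_lit 1904987052699) (nat_lit 76) (nat_lit 7589792154187) (nat_lit 76) (nat_lit 7589160138065) (nat_lit 1) (nat_lit 4) (nat_lit 2) (nat_lit 5) (nat_lit 2) (nat_lit 4) (nat_lit 371) (nat_lit 284) (nat_lit 245)))) (XT.nd (nat_lit 78) (nat_lit 0) (nat_lit 0) (XT.lf (nat_lit 0) (nat_lit 2194367188130)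 (nat_lit 76) (nat_lit 8726267542837) (nat_lit 76) (nat_lit 8725635171268) (nat_lit 1) (nat_lit 4) (nat_lit 2) (nat_lit 5) (nat_lit 2) (nat_lit 4) (nat_lit 372) (nat_lit 284) (nat_lit 244)) (XT.nd (nat_lit 78) (nat_lit 0) (nat_lit 0) (XT.lf (nat_lit 0) (nat_lit 2527150571618) (nat_lit 76) (nat_lit 10033216211270) (nat_lit 76) (nat_lit 10032583530617) (nat_lit 1) (nat_lit 4) (nat_lit 2) (nat_lit 5) (nat_lit 2) (nat_lit 4) (nat_lit 373) (nat_lit 284) (nat_lit 243)) (XT.lf (nat_lit 0) (nat_lit 2909848182404) (nat_lit 76) (nat_lit 11536208894303) (nat_lit 76) (nat_lit 11535575944882) (nat_lit 1) (nat_lit 4) (nat_lit 2) (nat_lit 5) (nat_lit 2) (nat_lit 4) (nat_lit 374) (nat_lit 284) (nat_lit 242))))))) (XT.nd (nat_lit 858) (nat_lit 0) (nat_lit 0) (XT.nd (nat_lit 390) (nat_lit 0) (nat_lit 0) (XT.nd (nat_lit 156) (nat_lit 0) (nat_lit 0) (XT.nd (nat_lit 78) (nat_lit 0) (nat_lit 0) (XT.lf (nat_lit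 0) (nat_lit 3349947582439) (nat_lit 76) (nat_lit 13264651970517) (nat_lit 76) (nat_lit 13264018787384) (nat_lit 1) (nat_lit 4) (nat_lit 2) (nat_lit 5) (nat_lit 2) (nat_lit 4) (nat_lit 375) (nat_lit 284) (nat_lit 241)) (XT.lf (nat_lit 0) (nat_lit 3856059412158) (nat_lit 76) (nat_lit 15252362804447) (nat_lit 76) (nat_lit 15251729418087) (nat_lit 1) (nat_lit 4) (nat_lit 2) (nat_lit 5) (nat_lit 2) (nat_lit 4) (nat_lit 376) (nat_lit 284) (nat_lit 240))) (XT.nd (nat_lit 78) (nat_lit 0) (nat_lit 0) (XT.lf (nat_lit 0) (nat_lit 4438085859534) (nat_lit 76) (nat_lit 17538231390671) (nat_lit 76) (nat_lit 17537597827590) (nat_lit 1) (nat_lit 4) (nat_lit 2) (nat_lit 5) (nat_lit 2) (nat_lit 4) (nat_lit 377) (nat_lit 284) (nat_lit 239)) (XT.nd (nat_lit 78) (nat_lit 0) (nat_lit 0) (XT.lf (nat_lit 0) (nat_lit 5107414398537) (nat_lit 76) (nat_lit 20166981245004) (nat_lit 76) (nat_lit 20166347528254) (nat_lit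 1) (nat_lit 4) (nat_lit 2) (nat_lit 5) (nat_lit 2) (nat_lit 4) (nat_lit 378) (nat_lit 284) (nat_lit 238)) (XT.lf (nat_lit 0) (nat_lit 5877140587539) (nat_lit 76) (nat_lit 23190044429815) (nat_lit 76) (nat_lit 23189410579440) (nat_lit 1) (nat_lit 4) (nat_lit 2) (nat_lit 5) (nat_lit 2) (nat_lit 4) (nat_lit 379) (nat_lit 284) (nat_lit 237))))) (XT.nd (nat_lit 234) (nat_lit 0) (nat_lit 0) (XT.nd (nat_lit 78) (nat_lit 0) (nat_lit 0) (XT.lf (nat_lit 0) (nat_lit 6762324286760) (nat_lit 76) (nat_lit 26666567833503) (nat_lit 76) (nat_lit 26665933866931) (nat_lit 1) (nat_lit 4) (nat_lit 2) (nat_lit 5) (nat_lit 2) (nat_lit 4) (nat_lit 380) (nat_lit 284) (nat_lit 236)) (XT.nd (nat_lit 78) (nat_lit 0) (nat_lit 0) (XT.lf (nat_lit 0) (nat_lit 7780284307706) (nat_lit 76) (nat_lit 30664570392225) (nat_lit 76) (nat_lit 30663936324614) (nat_lit 1) (nat_lit 4) (nat_lit 2) (nat_lit 5) (nat_lit 2) (nat_lit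 4) (nat_lit 381) (nat_lit 284) (nat_lit 235)) (XT.lf (nat_lit 0) (nat_lit 8950937259483) (nat_lit 76) (nat_lit 35262273895176) (nat_lit 76) (nat_lit 35261639739703) (nat_lit 1) (nat_lit 4) (nat_lit 2) (nat_lit 5) (nat_lit 2) (nat_lit 4) (nat_lit 382) (nat_lit 284) (nat_lit 234)))) (XT.nd (nat_lit 78) (nat_lit 0) (nat_lit 0) (XT.lf (nat_lit 0) (nat_lit 10297187221581) (nat_lit 76) (nat_lit 40549633410890) (nat_lit 76) (nat_lit 40548999179016) (nat_lit 1) (nat_lit 4) (nat_lit 2) (nat_lit 5) (nat_lit 2) (nat_lit 4) (nat_lit 383) (nat_lit 284) (nat_lit 233)) (XT.nd (nat_lit 78) (nat_lit 0) (nat_lit 0) (XT.lf (nat_lit 0) (nat_lit 11845373867173) (nat_lit 76) (nat_lit 46630097277718) (nat_lit 76) (nat_lit 46629462979409) (nat_lit 1) (nat_lit 4) (nat_lit 2) (nat_lit 5) (nat_lit 2) (nat_lit 4) (nat_lit 384) (nat_lit 284) (nat_lit 232)) (XT.lf (nat_lit 0) (nat_lit 13625787804542) (nat_lit 76)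 (nat_lit 53622631093056) (nat_lit 76) (nat_lit 53621996736977) (nat_lit 1) (nat_lit 4) (nat_lit 2) (nat_lit 5) (nat_lit 2) (nat_lit 4) (nat_lit 385) (nat_lit 284) (nat_lit 231)))))) (XT.nd (nat_lit 546) (nat_lit 0) (nat_lit 0) (XT.nd (nat_lit 156) (nat_lit 0) (nat_lit 0) (XT.nd (nat_lit 78) (nat_lit 0) (nat_lit 0) (XT.lf (nat_lit 0) (nat_lit 15673263219418) (nat_lit 76) (nat_lit 61664045301116) (nat_lit 76) (nat_lit 61663410894802) (nat_lit 1) (nat_lit 4) (nat_lit 2) (nat_lit 5) (nat_lit 2) (nat_lit 4) (nat_lit 386) (nat_lit 284) (nat_lit 230)) (XT.lf (nat_lit 0) (nat_lit 18027859413398) (nat_lit 76) (nat_lit 70911671919012) (nat_lit 76) (nat_lit 70911037469016) (nat_lit 1) (nat_lit 4) (nat_lit 2) (nat_lit 5) (nat_lit 2) (nat_lit 4) (nat_lit 387) (nat_lit 284) (nat_lit 229))) (XT.nd (nat_lit 78) (nat_lit 0) (nat_lit 0) (XT.lf (nat_lit 0) (nat_lit 20735644572884) (nat_lit 76) (nat_lit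 81546442771877) (nat_lit 76) (nat_lit 81545808283896) (nat_lit 1) (nat_lit 4) (nat_lit 2) (nat_lit 5) (nat_lit 2) (nat_lit 4) (nat_lit 388) (nat_lit 284) (nat_lit 228)) (XT.nd (nat_lit 234) (nat_lit 0) (nat_lit 0) (XT.lf (nat_lit 0) (nat_lit 23849597103173) (nat_lit 76) (nat_lit 93776429463355) (nat_lit 76) (nat_lit 93775794942344) (nat_lit 1) (nat_lit 4) (nat_lit 2) (nat_lit 5) (nat_lit 2) (nat_lit 4) (nat_lit 389) (nat_lit 284) (nat_lit 227)) (XT.lf (nat_lit 0) (nat_lit 36284775151144) (nat_lit 76) (nat_lit 142615353684639) (nat_lit 76) (nat_lit 142614719088212) (nat_lit 1) (nat_lit 4) (nat_lit 2) (nat_lit 5) (nat_lit 2) (nat_lit 4) (nat_lit 392) (nat_lit 284) (nat_lit 224))))) (XT.nd (nat_lit 41964) (nat_lit 0) (nat_lit 76) (XT.nd (nat_lit 78) (nat_lit 0) (nat_lit 0) (XT.lf (nat_lit 0) (nat_lit 41731096117268) (nat_lit 76) (nat_lit 164005677614524) (nat_lit 76) (nat_lit 164005042999212)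 (nat_lit 1) (nat_lit 4) (nat_lit 2) (nat_lit 5) (nat_lit 2) (nat_lit 4) (nat_lit 393) (nat_lit 284) (nat_lit 223)) (XT.nd (nat_lit 78) (nat_lit 0) (nat_lit 0) (XT.lf (nat_lit 0) (nat_lit 47994365027888) (nat_lit 76) (nat_lit 188604550238638) (nat_lit 76) (nat_lit 188603915606904) (nat_lit 1) (nat_lit 4) (nat_lit 2) (nat_lit 5) (nat_lit 2) (nat_lit 4) (nat_lit 394) (nat_lit 284) (nat_lit 222)) (XT.lf (nat_lit 0) (nat_lit 55197124100821) (nat_lit 76) (nat_lit 216893253847453) (nat_lit 76) (nat_lit 216892619201440) (nat_lit 1) (nat_lit 4) (nat_lit 2) (nat_lit 5) (nat_lit 2) (nat_lit 4) (nat_lit 395) (nat_lit 284) (nat_lit 221)))) (XT.nd (nat_lit 78) (nat_lit 0) (nat_lit 0) (XT.lf (nat_lit 0) (nat_lit 3621250069) (nat_lit 152) (nat_lit 22312433356) (nat_lit 0) (nat_lit 3621250069) (nat_lit 2) (nat_lit 5) (nat_lit 4) (nat_lit 4) (nat_lit 2) (nat_lit 4) (nat_lit 330) (nat_lit 285) (nat_lit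 285)) (XT.nd (nat_lit 78) (nat_lit 0) (nat_lit 0) (XT.lf (nat_lit 0) (nat_lit 13403184868) (nat_lit 152) (nat_lit 40486746226) (nat_lit 0) (nat_lit 13307973687) (nat_lit 2) (nat_lit 5) (nat_lit 4) (nat_lit 4) (nat_lit 2) (nat_lit 4) (nat_lit 331) (nat_lit 285) (nat_lit 284)) (XT.lf (nat_lit 0) (nat_lit 20047451536) (nat_lit 152) (nat_lit 36648400891) (nat_lit 0) (nat_lit 19869448022) (nat_lit 2) (nat_lit 5) (nat_lit 4) (nat_lit 4) (nat_lit 2) (nat_lit 4) (nat_lit 332) (nat_lit 285) (nat_lit 283))))))))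
noncomputable def xc22 : XT := (XT.nd (nat_lit 1638) (nat_lit 0) (nat_lit 0) (XT.nd (nat_lit 780) (nat_lit 0) (nat_lit 0) (XT.nd (nat_lit 390) (nat_lit 76) (nat_lit 0) (XT.nd (nat_lit 156) (nat_lit 0) (nat_lit 0) (XT.nd (nat_lit 78) (nat_lit 0) (nat_lit 0) (XT.lf (nat_lit 0) (nat_lit 27305296663) (nat_lit 152) (nat_lit 33034732646) (nat_lit 0) (nat_lit 27055299817) (nat_lit 2) (nat_lit 5) (nat_lit 4) (nat_lit 4) (nat_lit 2) (nat_lit 4) (nat_lit 333) (nat_lit 285) (nat_lit 282)) (XT.lf (nat_lit 0) (nat_lit 35318721567) (nat_lit 152) (nat_lit 29575039286) (nat_lit 0) (nat_lit 35006121823) (nat_lit 2) (nat_lit 5) (nat_lit 4) (nat_lit 4) (nat_lit 2) (nat_lit 4) (nat_lit 334) (nat_lit 285) (nat_lit 281))) (XT.nd (nat_lit 78) (nat_lit 0) (nat_lit 0) (XT.lf (nat_lit 0) (nat_lit 44244510649) (nat_lit 152) (nat_lit 26201631159) (nat_lit 0) (nat_lit 43877473603) (nat_lit 2) (nat_lit 5) (nat_lit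 4) (nat_lit 4) (nat_lit 2) (nat_lit 4) (nat_lit 335) (nat_lit 285) (nat_lit 280)) (XT.nd (nat_lit 78) (nat_lit 0) (nat_lit 0) (XT.lf (nat_lit 0) (nat_lit 54257298912) (nat_lit 152) (nat_lit 22848506800) (nat_lit 0) (nat_lit 53842925082) (nat_lit 2) (nat_lit 5) (nat_lit 4) (nat_lit 4) (nat_lit 2) (nat_lit 4) (nat_lit 336) (nat_lit 285) (nat_lit 279)) (XT.lf (nat_lit 0) (nat_lit 65552988736) (nat_lit 152) (nat_lit 19450061604) (nat_lit 0) (nat_lit 65097452484) (nat_lit 2) (nat_lit 5) (nat_lit 4) (nat_lit 4) (nat_lit 2) (nat_lit 4) (nat_lit 337) (nat_lit 285) (nat_lit 278))))) (XT.nd (nat_lit 156) (nat_lit 76) (nat_lit 0) (XT.nd (nat_lit 78) (nat_lit 0) (nat_lit 0) (XT.lf (nat_lit 0) (nat_lit 78352582747) (nat_lit 152) (nat_lit 15939804250) (nat_lit 0) (nat_lit 77861253086) (nat_lit 2) (nat_lit 5) (nat_lit 4) (nat_lit 4) (nat_lit 2) (nat_lit 4) (nat_lit 338) (nat_lit 285) (nat_lit 277))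 (XT.lf (nat_lit 0) (nat_lit 92906507785) (nat_lit 152) (nat_lit 12249055792) (nat_lit 0) (nat_lit 92384053419) (nat_lit 2) (nat_lit 5) (nat_lit 4) (nat_lit 4) (nat_lit 2) (nat_lit 4) (nat_lit 339) (nat_lit 285) (nat_lit 276))) (XT.nd (nat_lit 78) (nat_lit 76) (nat_lit 0) (XT.lf (nat_lit 0) (nat_lit 109499514557) (nat_lit 152) (nat_lit 8305605932) (nat_lit 0) (nat_lit 108949995231) (nat_lit 2) (nat_lit 5) (nat_lit 4) (nat_lit 4) (nat_lit 2) (nat_lit 4) (nat_lit 340) (nat_lit 285) (nat_lit 275)) (XT.nd (nat_lit 78) (nat_lit 76) (nat_lit 0) (XT.lf (nat_lit 0) (nat_lit 128456248848) (nat_lit 152) (nat_lit 4032300217) (nat_lit 0) (nat_lit 127883194774) (nat_lit 2) (nat_lit 5) (nat_lit 4) (nat_lit 4) (nat_lit 2) (nat_lit 4) (nat_lit 341) (nat_lit 285) (nat_lit 274)) (XT.lf (nat_lit 0) (nat_lit 718429027) (nat_lit 76) (nat_lit 149458922872) (nat_lit 76) (nat_lit 148865403799) (nat_lit 1) (nat_lit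 4) (nat_lit 2) (nat_lit 5) (nat_lit 2) (nat_lit 4) (nat_lit 342) (nat_lit 285) (nat_lit 273)))))) (XT.nd (nat_lit 390) (nat_lit 0) (nat_lit 0) (XT.nd (nat_lit 156) (nat_lit 0) (nat_lit 0) (XT.nd (nat_lit 78) (nat_lit 0) (nat_lit 0) (XT.lf (nat_lit 0) (nat_lit 6417753727) (nat_lit 76) (nat_lit 168845965702) (nat_lit 76) (nat_lit 168234650979) (nat_lit 1) (nat_lit 4) (nat_lit 2) (nat_lit 5) (nat_lit 2) (nat_lit 4) (nat_lit 343) (nat_lit 285) (nat_lit 272)) (XT.lf (nat_lit 0) (nat_lit 12783116706) (nat_lit 76) (nat_lit 191239768593) (nat_lit 76) (nat_lit 190612979391) (nat_lit 1) (nat_lit 4) (nat_lit 2) (nat_lit 5) (nat_lit 2) (nat_lit 4) (nat_lit 344) (nat_lit 285) (nat_lit 271))) (XT.nd (nat_lit 78) (nat_lit 0) (nat_lit 0) (XT.lf (nat_lit 0) (nat_lit 19939057674) (nat_lit 76) (nat_lit 217078471168) (nat_lit 76) (nat_lit 216438225897) (nat_lit 1) (nat_lit 4) (nat_lit 2) (nat_lit 5) (nat_lit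 2) (nat_lit 4) (nat_lit 345) (nat_lit 285) (nat_lit 270)) (XT.nd (nat_lit 78) (nat_lit 0) (nat_lit 0) (XT.lf (nat_lit 0) (nat_lit 28025584171) (nat_lit 76) (nat_lit 246867613259) (nat_lit 76) (nat_lit 246215667059) (nat_lit 1) (nat_lit 4) (nat_lit 2) (nat_lit 5) (nat_lit 2) (nat_lit 4) (nat_lit 346) (nat_lit 285) (nat_lit 269)) (XT.lf (nat_lit 0) (nat_lit 37200910847) (nat_lit 76) (nat_lit 281190025906) (nat_lit 76) (nat_lit 280527904986) (nat_lit 1) (nat_lit 4) (nat_lit 2) (nat_lit 5) (nat_lit 2) (nat_lit 4) (nat_lit 347) (nat_lit 285) (nat_lit 268))))) (XT.nd (nat_lit 234) (nat_lit 0) (nat_lit 0) (XT.nd (nat_lit 78) (nat_lit 0) (nat_lit 0) (XT.lf (nat_lit 0) (nat_lit 47644554963) (nat_lit 76) (nat_lit 320717234576) (nat_lit 76) (nat_lit 320046266072) (nat_lit 1) (nat_lit 4) (nat_lit 2) (nat_lit 5) (nat_lit 2) (nat_lit 4) (nat_lit 348) (nat_lit 285) (nat_lit 267)) (XT.nd (nat_lit 78)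 (nat_lit 0) (nat_lit 0) (XT.lf (nat_lit 0) (nat_lit 59560848687) (nat_lit 76) (nat_lit 366222597698) (nat_lit 76) (nat_lit 365543935643) (nat_lit 1) (nat_lit 4) (nat_lit 2) (nat_lit 5) (nat_lit 2) (nat_lit 4) (nat_lit 349) (nat_lit 285) (nat_lit 266)) (XT.lf (nat_lit 0) (nat_lit 73182936894) (nat_lit 76) (nat_lit 418596437594) (nat_lit 76) (nat_lit 417911085495) (nat_lit 1) (nat_lit 4) (nat_lit 2) (nat_lit 5) (nat_lit 2) (nat_lit 4) (nat_lit 350) (nat_lit 285) (nat_lit 265)))) (XT.nd (nat_lit 78) (nat_lit 0) (nat_lit 0) (XT.lf (nat_lit 0) (nat_lit 88777338703) (nat_lit 76) (nat_lit 478863459828) (nat_lit 76) (nat_lit 478172290299) (nat_lit 1) (nat_lit 4) (nat_lit 2) (nat_lit 5) (nat_lit 2) (nat_lit 4) (nat_lit 351) (nat_lit 285) (nat_lit 264)) (XT.nd (nat_lit 78) (nat_lit 0) (nat_lit 0) (XT.lf (nat_lit 0) (nat_lit 106649161975) (nat_lit 76) (nat_lit 548202801791) (nat_lit 76) (nat_lit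 547506573627) (nat_lit 1) (nat_lit 4) (nat_lit 2) (nat_lit 5) (nat_lit 2) (nat_lit 4) (nat_lit 352) (nat_lit 285) (nat_lit 263)) (XT.lf (nat_lit 0) (nat_lit 127148072818) (nat_lit 76) (nat_lit 627971102782) (nat_lit 76) (nat_lit 627270475806) (nat_lit 1) (nat_lit 4) (nat_lit 2) (nat_lit 5) (nat_lit 2) (nat_lit 4) (nat_lit 353) (nat_lit 285) (nat_lit 262))))))) (XT.nd (nat_lit 858) (nat_lit 0) (nat_lit 0) (XT.nd (nat_lit 390) (nat_lit 0) (nat_lit 0) (XT.nd (nat_lit 156) (nat_lit 0) (nat_lit 0) (XT.nd (nat_lit 78) (nat_lit 0) (nat_lit 0) (XT.lf (nat_lit 0) (nat_lit 150675136878) (nat_lit 76) (nat_lit 719729046952) (nat_lit 76) (nat_lit 719024594921) (nat_lit 1) (nat_lit 4) (nat_lit 2) (nat_lit 5) (nat_lit 2) (nat_lit 4) (nat_lit 354) (nat_lit 285) (nat_lit 261)) (XT.lf (nat_lit 0) (nat_lit 177690666278) (nat_lit 76) (nat_lit 825271898424) (nat_lit 76) (nat_lit 824564120259) (nat_lit 1)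 (nat_lit 4) (nat_lit 2) (nat_lit 5) (nat_lit 2) (nat_lit 4) (nat_lit 355) (nat_lit 285) (nat_lit 260))) (XT.nd (nat_lit 78) (nat_lit 0) (nat_lit 0) (XT.lf (nat_lit 0) (nat_lit 208723225724) (nat_lit 76) (nat_lit 946664626033) (nat_lit 76) (nat_lit 945953955577) (nat_lit 1) (nat_lit 4) (nat_lit 2) (nat_lit 5) (nat_lit 2) (nat_lit 4) (nat_lit 356) (nat_lit 285) (nat_lit 259)) (XT.nd (nat_lit 78) (nat_lit 0) (nat_lit 0) (XT.lf (nat_lit 0) (nat_lit 244379973988) (nat_lit 76) (nat_lit 1086282304884) (nat_lit 76) (nat_lit 1085569119392) (nat_lit 1) (nat_lit 4) (nat_lit 2) (nat_lit 5) (nat_lit 2) (nat_lit 4) (nat_lit 357) (nat_lit 285) (nat_lit 258)) (XT.lf (nat_lit 0) (nat_lit 285358543101) (nat_lit 76) (nat_lit 1246856585214) (nat_lit 76) (nat_lit 1246141212736) (nat_lit 1) (nat_lit 4) (nat_lit 2) (nat_lit 5) (nat_lit 2) (nat_lit 4) (nat_lit 358) (nat_lit 285) (nat_lit 257))))) (XT.nd (nat_lit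 234) (nat_lit 0) (nat_lit 0) (XT.nd (nat_lit 78) (nat_lit 0) (nat_lit 0) (XT.lf (nat_lit 0) (nat_lit 332460687676) (nat_lit 76) (nat_lit 1431529137727) (nat_lit 76) (nat_lit 1430811863521) (nat_lit 1) (nat_lit 4) (nat_lit 2) (nat_lit 5) (nat_lit 2) (nat_lit 4) (nat_lit 359) (nat_lit 285) (nat_lit 256)) (XT.nd (nat_lit 78) (nat_lit 0) (nat_lit 0) (XT.lf (nat_lit 0) (nat_lit 386607971411) (nat_lit 76) (nat_lit 1643913121059) (nat_lit 76) (nat_lit 1643194193175) (nat_lit 1) (nat_lit 4) (nat_lit 2) (nat_lit 5) (nat_lit 2) (nat_lit 4) (nat_lit 360) (nat_lit 285) (nat_lit 255)) (XT.lf (nat_lit 0) (nat_lit 448859797684) (nat_lit 76) (nat_lit 1888163874013) (nat_lit 76) (nat_lit 1887443508150) (nat_lit 1) (nat_lit 4) (nat_lit 2) (nat_lit 5) (nat_lit 2) (nat_lit 4) (nat_lit 361) (nat_lit 285) (nat_lit 254)))) (XT.nd (nat_lit 78) (nat_lit 0) (nat_lit 0) (XT.lf (nat_lit 0) (nat_lit 520434137009)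 (nat_lit 76) (nat_lit 2169060215669) (nat_lit 76) (nat_lit 2168338599389) (nat_lit 1) (nat_lit 4) (nat_lit 2) (nat_lit 5) (nat_lit 2) (nat_lit 4) (nat_lit 362) (nat_lit 285) (nat_lit 253)) (XT.nd (nat_lit 78) (nat_lit 0) (nat_lit 0) (XT.lf (nat_lit 0) (nat_lit 602731356893) (nat_lit 76) (nat_lit 2492097944017) (nat_lit 76) (nat_lit 2491375240417) (nat_lit 1) (nat_lit 4) (nat_lit 2) (nat_lit 5) (nat_lit 2) (nat_lit 4) (nat_lit 363) (nat_lit 285) (nat_lit 252)) (XT.lf (nat_lit 0) (nat_lit 697361620336) (nat_lit 76) (nat_lit 2863597362436) (nat_lit 76) (nat_lit 2862873713341) (nat_lit 1) (nat_lit 4) (nat_lit 2) (nat_lit 5) (nat_lit 2) (nat_lit 4) (nat_lit 364) (nat_lit 285) (nat_lit 251)))))) (XT.nd (nat_lit 390) (nat_lit 0) (nat_lit 0) (XT.nd (nat_lit 156) (nat_lit 0) (nat_lit 0) (XT.nd (nat_lit 78) (nat_lit 0) (nat_lit 0) (XT.lf (nat_lit 0) (nat_lit 806176389013) (nat_lit 76) (nat_lit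 3290826937809) (nat_lit 76) (nat_lit 3290102466545) (nat_lit 1) (nat_lit 4) (nat_lit 2) (nat_lit 5) (nat_lit 2) (nat_lit 4) (nat_lit 365) (nat_lit 285) (nat_lit 250)) (XT.lf (nat_lit 0) (nat_lit 931304647529) (nat_lit 76) (nat_lit 3782145509654) (nat_lit 76) (nat_lit 3781420323460) (nat_lit 1) (nat_lit 4) (nat_lit 2) (nat_lit 5) (nat_lit 2) (nat_lit 4) (nat_lit 366) (nat_lit 285) (nat_lit 249))) (XT.nd (nat_lit 78) (nat_lit 0) (nat_lit 0) (XT.lf (nat_lit 0) (nat_lit 1075194557463) (nat_lit 76) (nat_lit 4347165832638) (nat_lit 76) (nat_lit 4346440024766) (nat_lit 1) (nat_lit 4) (nat_lit 2) (nat_lit 5) (nat_lit 2) (nat_lit 4) (nat_lit 367) (nat_lit 285) (nat_lit 248)) (XT.nd (nat_lit 78) (nat_lit 0) (nat_lit 0) (XT.lf (nat_lit 0) (nat_lit 1240661356183) (nat_lit 76) (nat_lit 4996942652211) (nat_lit 76) (nat_lit 4996216303749) (nat_lit 1) (nat_lit 4) (nat_lit 2) (nat_lit 5) (nat_lit 2) (nat_lit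 4) (nat_lit 368) (nat_lit 285) (nat_lit 247)) (XT.lf (nat_lit 0) (nat_lit 1430942437578) (nat_lit 76) (nat_lit 5744188993102) (nat_lit 76) (nat_lit 5743462174562) (nat_lit 1) (nat_lit 4) (nat_lit 2) (nat_lit 5) (nat_lit 2) (nat_lit 4) (nat_lit 369) (nat_lit 285) (nat_lit 246))))) (XT.nd (nat_lit 234) (nat_lit 0) (nat_lit 0) (XT.nd (nat_lit 78) (nat_lit 0) (nat_lit 0) (XT.lf (nat_lit 0) (nat_lit 1649760692370) (nat_lit 76) (nat_lit 6603524892418) (nat_lit 76) (nat_lit 6602797665114) (nat_lit 1) (nat_lit 4) (nat_lit 2) (nat_lit 5) (nat_lit 2) (nat_lit 4) (nat_lit 370) (nat_lit 285) (nat_lit 245)) (XT.nd (nat_lit 78) (nat_lit 0) (nat_lit 0) (XT.lf (nat_lit 0) (nat_lit 1901397347284) (nat_lit 76) (nat_lit 7591763443838) (nat_lit 76) (nat_lit 7591035861088) (nat_lit 1) (nat_lit 4) (nat_lit 2) (nat_lit 5) (nat_lit 2) (nat_lit 4) (nat_lit 371) (nat_lit 285) (nat_lit 244)) (XT.lf (nat_lit 0)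 (nat_lit 2190775728177) (nat_lit 76) (nat_lit 8728239749458) (nat_lit 76) (nat_lit 8727511857624) (nat_lit 1) (nat_lit 4) (nat_lit 2) (nat_lit 5) (nat_lit 2) (nat_lit 4) (nat_lit 372) (nat_lit 285) (nat_lit 243)))) (XT.nd (nat_lit 78) (nat_lit 0) (nat_lit 0) (XT.lf (nat_lit 0) (nat_lit 2523557585979) (nat_lit 76) (nat_lit 10035189215256) (nat_lit 76) (nat_lit 10034461054653) (nat_lit 1) (nat_lit 4) (nat_lit 2) (nat_lit 5) (nat_lit 2) (nat_lit 4) (nat_lit 373) (nat_lit 285) (nat_lit 242)) (XT.nd (nat_lit 78) (nat_lit 0) (nat_lit 0) (XT.lf (nat_lit 0) (nat_lit 2906253870082) (nat_lit 76) (nat_lit 11538182591650) (nat_lit 76) (nat_lit 11537454197335) (nat_lit 1) (nat_lit 4) (nat_lit 2) (nat_lit 5) (nat_lit 2) (nat_lit 4) (nat_lit 374) (nat_lit 285) (nat_lit 241)) (XT.lf (nat_lit 0) (nat_lit 3346352116479) (nat_lit 76) (nat_lit 13266626270787) (nat_lit 76) (nat_lit 13265897673245) (nat_lit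 1) (nat_lit 4) (nat_lit 2) (nat_lit 5) (nat_lit 2) (nat_lit 4) (nat_lit 375) (nat_lit 285) (nat_lit 240))))))))
noncomputable def xc23 : XT := (XT.nd (nat_lit 43758) (nat_lit 0) (nat_lit 0) (XT.nd (nat_lit 858) (nat_lit 0) (nat_lit 0) (XT.nd (nat_lit 390) (nat_lit 0) (nat_lit 0) (XT.nd (nat_lit 156) (nat_lit 0) (nat_lit 0) (XT.nd (nat_lit 78) (nat_lit 0) (nat_lit 0) (XT.lf (nat_lit 0) (nat_lit 3852462943034) (nat_lit 76) (nat_lit 15254337628998) (nat_lit 76) (nat_lit 15253608854736) (nat_lit 1) (nat_lit 4) (nat_lit 2) (nat_lit 5) (nat_lit 2) (nat_lit 4) (nat_lit 376) (nat_lit 285) (nat_lit 239)) (XT.lf (nat_lit 0) (nat_lit 4434488518094) (nat_lit 76) (nat_lit 17540206671118) (nat_lit 76) (nat_lit 17539477743186) (nat_lit 1) (nat_lit 4) (nat_lit 2) (nat_lit 5) (nat_lit 2) (nat_lit 4) (nat_lit 377) (nat_lit 285) (nat_lit 238))) (XT.nd (nat_lit 78) (nat_lit 0) (nat_lit 0) (XT.lf (nat_lit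 0) (nat_lit 5103816298562) (nat_lit 76) (nat_lit 20168956921883) (nat_lit 76) (nat_lit 20168227860325) (nat_lit 1) (nat_lit 4) (nat_lit 2) (nat_lit 5) (nat_lit 2) (nat_lit 4) (nat_lit 378) (nat_lit 285) (nat_lit 237)) (XT.nd (nat_lit 78) (nat_lit 0) (nat_lit 0) (XT.lf (nat_lit 0) (nat_lit 5873541827968) (nat_lit 76) (nat_lit 23192020451417) (nat_lit 76) (nat_lit 23191291273664) (nat_lit 1) (nat_lit 4) (nat_lit 2) (nat_lit 5) (nat_lit 2) (nat_lit 4) (nat_lit 379) (nat_lit 285) (nat_lit 236)) (XT.lf (nat_lit 0) (nat_lit 6758724953627) (nat_lit 76) (nat_lit 26668544154864) (nat_lit 76) (nat_lit 26667814876070) (nat_lit 1) (nat_lit 4) (nat_lit 2) (nat_lit 5) (nat_lit 2) (nat_lit 4) (nat_lit 380) (nat_lit 285) (nat_lit 235))))) (XT.nd (nat_lit 234) (nat_lit 0) (nat_lit 0) (XT.nd (nat_lit 78) (nat_lit 0) (nat_lit 0) (XT.lf (nat_lit 0) (nat_lit 7776684475823) (nat_lit 76) (nat_lit 30666546974246)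 (nat_lit 76) (nat_lit 30665817607592) (nat_lit 1) (nat_lit 4) (nat_lit 2) (nat_lit 5) (nat_lit 2) (nat_lit 4) (nat_lit 381) (nat_lit 285) (nat_lit 234)) (XT.nd (nat_lit 78) (nat_lit 0) (nat_lit 0) (XT.lf (nat_lit 0) (nat_lit 8947336993905) (nat_lit 76) (nat_lit 35264250703858) (nat_lit 76) (nat_lit 35263521260802) (nat_lit 1) (nat_lit 4) (nat_lit 2) (nat_lit 5) (nat_lit 2) (nat_lit 4) (nat_lit 382) (nat_lit 285) (nat_lit 233)) (XT.lf (nat_lit 0) (nat_lit 10293586578877) (nat_lit 76) (nat_lit 40551610416668) (nat_lit 76) (nat_lit 40550880907177) (nat_lit 1) (nat_lit 4) (nat_lit 2) (nat_lit 5) (nat_lit 2) (nat_lit 4) (nat_lit 383) (nat_lit 285) (nat_lit 232)))) (XT.nd (nat_lit 78) (nat_lit 0) (nat_lit 0) (XT.lf (nat_lit 0) (nat_lit 11841772896533) (nat_lit 76) (nat_lit 46632074454885) (nat_lit 76) (nat_lit 46631344887624) (nat_lit 1) (nat_lit 4) (nat_lit 2) (nat_lit 5) (nat_lit 2) (nat_lit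 4) (nat_lit 384) (nat_lit 285) (nat_lit 231)) (XT.nd (nat_lit 78) (nat_lit 0) (nat_lit 0) (XT.lf (nat_lit 0) (nat_lit 13622186548740) (nat_lit 76) (nat_lit 53624608419256) (nat_lit 76) (nat_lit 53623878801760) (nat_lit 1) (nat_lit 4) (nat_lit 2) (nat_lit 5) (nat_lit 2) (nat_lit 4) (nat_lit 385) (nat_lit 285) (nat_lit 230)) (XT.lf (nat_lit 0) (nat_lit 15669661715650) (nat_lit 76) (nat_lit 61666022756910) (nat_lit 76) (nat_lit 61665293095732) (nat_lit 1) (nat_lit 4) (nat_lit 2) (nat_lit 5) (nat_lit 2) (nat_lit 4) (nat_lit 386) (nat_lit 285) (nat_lit 229)))))) (XT.nd (nat_lit 42432) (nat_lit 0) (nat_lit 76) (XT.nd (nat_lit 156) (nat_lit 0) (nat_lit 0) (XT.nd (nat_lit 78) (nat_lit 0) (nat_lit 0) (XT.lf (nat_lit 0) (nat_lit 18024257694007) (nat_lit 76) (nat_lit 70913649487497) (nat_lit 76) (nat_lit 70912919788334) (nat_lit 1) (nat_lit 4) (nat_lit 2) (nat_lit 5) (nat_lit 2) (nat_lit 4) (nat_lit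 387) (nat_lit 285) (nat_lit 228)) (XT.lf (nat_lit 0) (nat_lit 20732042665995) (nat_lit 76) (nat_lit 81548420438354) (nat_lit 76) (nat_lit 81547690706161) (nat_lit 1) (nat_lit 4) (nat_lit 2) (nat_lit 5) (nat_lit 2) (nat_lit 4) (nat_lit 388) (nat_lit 285) (nat_lit 227))) (XT.nd (nat_lit 42120) (nat_lit 0) (nat_lit 76) (XT.lf (nat_lit 0) (nat_lit 23845995033241) (nat_lit 76) (nat_lit 93778407215042) (nat_lit 76) (nat_lit 93777677454127) (nat_lit 1) (nat_lit 4) (nat_lit 2) (nat_lit 5) (nat_lit 2) (nat_lit 4) (nat_lit 389) (nat_lit 285) (nat_lit 226)) (XT.nd (nat_lit 78) (nat_lit 152) (nat_lit 0) (XT.lf (nat_lit 0) (nat_lit 19459129382) (nat_lit 76) (nat_lit 1776741560) (nat_lit 76) (nat_lit 1776741560) (nat_lit 4) (nat_lit 4) (nat_lit 5) (nat_lit 5) (nat_lit 5) (nat_lit 4) (nat_lit 328) (nat_lit 286) (nat_lit 286)) (XT.lf (nat_lit 0) (nat_lit 1554355070) (nat_lit 152) (nat_lit 49143725576)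 (nat_lit 0) (nat_lit 1444862211) (nat_lit 2) (nat_lit 5) (nat_lit 4) (nat_lit 4) (nat_lit 2) (nat_lit 4) (nat_lit 329) (nat_lit 286) (nat_lit 285))))) (XT.nd (nat_lit 234) (nat_lit 0) (nat_lit 0) (XT.nd (nat_lit 78) (nat_lit 0) (nat_lit 0) (XT.lf (nat_lit 0) (nat_lit 7116365609) (nat_lit 152) (nat_lit 45117223553) (nat_lit 0) (nat_lit 6911661568) (nat_lit 2) (nat_lit 5) (nat_lit 4) (nat_lit 4) (nat_lit 2) (nat_lit 4) (nat_lit 330) (nat_lit 286) (nat_lit 284)) (XT.nd (nat_lit 78) (nat_lit 0) (nat_lit 0) (XT.lf (nat_lit 0) (nat_lit 13072156956) (nat_lit 152) (nat_lit 41407239450) (nat_lit 0) (nat_lit 12784660583) (nat_lit 2) (nat_lit 5) (nat_lit 4) (nat_lit 4) (nat_lit 2) (nat_lit 4) (nat_lit 331) (nat_lit 286) (nat_lit 283)) (XT.lf (nat_lit 0) (nat_lit 19538255465) (nat_lit 152) (nat_lit 37941186622) (nat_lit 0) (nat_lit 19178765760) (nat_lit 2) (nat_lit 5) (nat_lit 4) (nat_lit 4) (nat_lit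 2) (nat_lit 4) (nat_lit 332) (nat_lit 286) (nat_lit 282)))) (XT.nd (nat_lit 78) (nat_lit 0) (nat_lit 0) (XT.lf (nat_lit 0) (nat_lit 26641171759) (nat_lit 152) (nat_lit 34651250992) (nat_lit 0) (nat_lit 26219079156) (nat_lit 2) (nat_lit 5) (nat_lit 4) (nat_lit 4) (nat_lit 2) (nat_lit 4) (nat_lit 333) (nat_lit 286) (nat_lit 281)) (XT.nd (nat_lit 78) (nat_lit 0) (nat_lit 0) (XT.lf (nat_lit 0) (nat_lit 34519875938) (nat_lit 152) (nat_lit 31473064253) (nat_lit 0) (nat_lit 34043346033) (nat_lit 2) (nat_lit 5) (nat_lit 4) (nat_lit 4) (nat_lit 2) (nat_lit 4) (nat_lit 334) (nat_lit 286) (nat_lit 280)) (XT.lf (nat_lit 0) (nat_lit 43328516564) (nat_lit 152) (nat_lit 28344444493) (nat_lit 0) (nat_lit 42804649874) (nat_lit 2) (nat_lit 5) (nat_lit 4) (nat_lit 4) (nat_lit 2) (nat_lit 4) (nat_lit 335) (nat_lit 286) (nat_lit 279))))))) (XT.nd (nat_lit 858) (nat_lit 0) (nat_lit 0) (XT.nd (nat_lit 390)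 (nat_lit 76) (nat_lit 0) (XT.nd (nat_lit 156) (nat_lit 0) (nat_lit 0) (XT.nd (nat_lit 78) (nat_lit 0) (nat_lit 0) (XT.lf (nat_lit 0) (nat_lit 53239436604) (nat_lit 152) (nat_lit 25204179583) (nat_lit 0) (nat_lit 52674407493) (nat_lit 2) (nat_lit 5) (nat_lit 4) (nat_lit 4) (nat_lit 2) (nat_lit 4) (nat_lit 336) (nat_lit 286) (nat_lit 278)) (XT.lf (nat_lit 0) (nat_lit 64446545365) (nat_lit 152) (nat_lit 21990829560) (nat_lit 0) (nat_lit 63845722844) (nat_lit 2) (nat_lit 5) (nat_lit 4) (nat_lit 4) (nat_lit 2) (nat_lit 4) (nat_lit 337) (nat_lit 286) (nat_lit 277))) (XT.nd (nat_lit 78) (nat_lit 0) (nat_lit 0) (XT.lf (nat_lit 0) (nat_lit 77169112365) (nat_lit 152) (nat_lit 18641524531) (nat_lit 0) (nat_lit 76537165139) (nat_lit 2) (nat_lit 5) (nat_lit 4) (nat_lit 4) (nat_lit 2) (nat_lit 4) (nat_lit 338) (nat_lit 286) (nat_lit 276)) (XT.nd (nat_lit 78) (nat_lit 0) (nat_lit 0) (XT.lf (nat_lit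 0) (nat_lit 91656057392) (nat_lit 152) (nat_lit 15090734616) (nat_lit 0) (nat_lit 90997045207) (nat_lit 2) (nat_lit 5) (nat_lit 4) (nat_lit 4) (nat_lit 2) (nat_lit 4) (nat_lit 339) (nat_lit 286) (nat_lit 275)) (XT.lf (nat_lit 0) (nat_lit 108190820678) (nat_lit 152) (nat_lit 11268987837) (nat_lit 0) (nat_lit 107508273744) (nat_lit 2) (nat_lit 5) (nat_lit 4) (nat_lit 4) (nat_lit 2) (nat_lit 4) (nat_lit 340) (nat_lit 286) (nat_lit 274))))) (XT.nd (nat_lit 234) (nat_lit 0) (nat_lit 0) (XT.nd (nat_lit 78) (nat_lit 76) (nat_lit 0) (XT.lf (nat_lit 0) (nat_lit 127096908458) (nat_lit 152) (nat_lit 7101510888) (nat_lit 0) (nat_lit 126393896526) (nat_lit 2) (nat_lit 5) (nat_lit 4) (nat_lit 4) (nat_lit 2) (nat_lit 4) (nat_lit 341) (nat_lit 286) (nat_lit 273)) (XT.nd (nat_lit 78) (nat_lit 76) (nat_lit 0) (XT.lf (nat_lit 0) (nat_lit 148744222451) (nat_lit 152) (nat_lit 2506766177) (nat_lit 0) (nat_lit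 148023414869) (nat_lit 2) (nat_lit 5) (nat_lit 4) (nat_lit 4) (nat_lit 2) (nat_lit 4) (nat_lit 342) (nat_lit 286) (nat_lit 272)) (XT.lf (nat_lit 0) (nat_lit 2859737042) (nat_lit 76) (nat_lit 170814975632) (nat_lit 76) (nat_lit 170078693570) (nat_lit 1) (nat_lit 4) (nat_lit 2) (nat_lit 5) (nat_lit 2) (nat_lit 4) (nat_lit 343) (nat_lit 286) (nat_lit 271)))) (XT.nd (nat_lit 78) (nat_lit 0) (nat_lit 0) (XT.lf (nat_lit 0) (nat_lit 9148715621) (nat_lit 76) (nat_lit 193248699104) (nat_lit 76) (nat_lit 192498960975) (nat_lit 1) (nat_lit 4) (nat_lit 2) (nat_lit 5) (nat_lit 2) (nat_lit 4) (nat_lit 344) (nat_lit 286) (nat_lit 270)) (XT.nd (nat_lit 78) (nat_lit 0) (nat_lit 0) (XT.lf (nat_lit 0) (nat_lit 16238235373) (nat_lit 76) (nat_lit 219122115228) (nat_lit 76) (nat_lit 218360676169) (nat_lit 1) (nat_lit 4) (nat_lit 2) (nat_lit 5) (nat_lit 2) (nat_lit 4) (nat_lit 345) (nat_lit 286) (nat_lit 269))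 (XT.lf (nat_lit 0) (nat_lit 24267004291) (nat_lit 76) (nat_lit 248941443013) (nat_lit 76) (nat_lit 248169829233) (nat_lit 1) (nat_lit 4) (nat_lit 2) (nat_lit 5) (nat_lit 2) (nat_lit 4) (nat_lit 346) (nat_lit 286) (nat_lit 268)))))) (XT.nd (nat_lit 390) (nat_lit 0) (nat_lit 0) (XT.nd (nat_lit 156) (nat_lit 0) (nat_lit 0) (XT.nd (nat_lit 78) (nat_lit 0) (nat_lit 0) (XT.lf (nat_lit 0) (nat_lit 33392106985) (nat_lit 76) (nat_lit 283290104091) (nat_lit 76) (nat_lit 282509642727) (nat_lit 1) (nat_lit 4) (nat_lit 2) (nat_lit 5) (nat_lit 2) (nat_lit 4) (nat_lit 347) (nat_lit 286) (nat_lit 267)) (XT.lf (nat_lit 0) (nat_lit 43792078073) (nat_lit 76) (nat_lit 322840137482) (nat_lit 76) (nat_lit 322051982568) (nat_lit 1) (nat_lit 4) (nat_lit 2) (nat_lit 5) (nat_lit 2) (nat_lit 4) (nat_lit 348) (nat_lit 286) (nat_lit 266))) (XT.nd (nat_lit 78) (nat_lit 0) (nat_lit 0) (XT.lf (nat_lit 0) (nat_lit 55670395250)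 (nat_lit 76) (nat_lit 368365348188) (nat_lit 76) (nat_lit 367570503230) (nat_lit 1) (nat_lit 4) (nat_lit 2) (nat_lit 5) (nat_lit 2) (nat_lit 4) (nat_lit 349) (nat_lit 286) (nat_lit 265)) (XT.nd (nat_lit 78) (nat_lit 0) (nat_lit 0) (XT.lf (nat_lit 0) (nat_lit 69259460374) (nat_lit 76) (nat_lit 420756446854) (nat_lit 76) (nat_lit 419955784465) (nat_lit 1) (nat_lit 4) (nat_lit 2) (nat_lit 5) (nat_lit 2) (nat_lit 4) (nat_lit 350) (nat_lit 286) (nat_lit 264)) (XT.lf (nat_lit 0) (nat_lit 84825146458) (nat_lit 76) (nat_lit 481038476713) (nat_lit 76) (nat_lit 480232755690) (nat_lit 1) (nat_lit 4) (nat_lit 2) (nat_lit 5) (nat_lit 2) (nat_lit 4) (nat_lit 351) (nat_lit 286) (nat_lit 263))))) (XT.nd (nat_lit 234) (nat_lit 0) (nat_lit 0) (XT.nd (nat_lit 78) (nat_lit 0) (nat_lit 0) (XT.lf (nat_lit 0) (nat_lit 102671999535) (nat_lit 76) (nat_lit 550390868784) (nat_lit 76) (nat_lit 549580748949) (nat_lit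 1) (nat_lit 4) (nat_lit 2) (nat_lit 5) (nat_lit 2) (nat_lit 4) (nat_lit 352) (nat_lit 286) (nat_lit 262)) (XT.nd (nat_lit 78) (nat_lit 0) (nat_lit 0) (XT.lf (nat_lit 0) (nat_lit 123149197164) (nat_lit 76) (nat_lit 630170517696) (nat_lit 76) (nat_lit 629356572806) (nat_lit 1) (nat_lit 4) (nat_lit 2) (nat_lit 5) (nat_lit 2) (nat_lit 4) (nat_lit 353) (nat_lit 286) (nat_lit 261)) (XT.lf (nat_lit 0) (nat_lit 146657380168) (nat_lit 76) (nat_lit 721938329623) (nat_lit 76) (nat_lit 721121058598) (nat_lit 1) (nat_lit 4) (nat_lit 2) (nat_lit 5) (nat_lit 2) (nat_lit 4) (nat_lit 354) (nat_lit 286) (nat_lit 260)))) (XT.nd (nat_lit 78) (nat_lit 0) (nat_lit 0) (XT.lf (nat_lit 0) (nat_lit 173656491260) (nat_lit 76) (nat_lit 827489761753) (nat_lit 76) (nat_lit 826669598438) (nat_lit 1) (nat_lit 4) (nat_lit 2) (nat_lit 5) (nat_lit 2) (nat_lit 4) (nat_lit 355) (nat_lit 286) (nat_lit 259)) (XT.nd (nat_lit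 78) (nat_lit 0) (nat_lit 0) (XT.lf (nat_lit 0) (nat_lit 204674773916) (nat_lit 76) (nat_lit 948889950804) (nat_lit 76) (nat_lit 948067272454) (nat_lit 1) (nat_lit 4) (nat_lit 2) (nat_lit 5) (nat_lit 2) (nat_lit 4) (nat_lit 356) (nat_lit 286) (nat_lit 258)) (XT.lf (nat_lit 0) (nat_lit 240319107579) (nat_lit 76) (nat_lit 1088514117865) (nat_lit 76) (nat_lit 1087689252528) (nat_lit 1) (nat_lit 4) (nat_lit 2) (nat_lit 5) (nat_lit 2) (nat_lit 4) (nat_lit 357) (nat_lit 286) (nat_lit 257))))))))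
noncomputable def xc24 : XT := (XT.nd (nat_lit 1638) (nat_lit 0) (nat_lit 0) (XT.nd (nat_lit 780) (nat_lit 0) (nat_lit 0) (XT.nd (nat_lit 390) (nat_lit 0) (nat_lit 0) (XT.nd (nat_lit 156) (nat_lit 0) (nat_lit 0) (XT.nd (nat_lit 78) (nat_lit 0) (nat_lit 0) (XT.lf (nat_lit 0) (nat_lit 281286881388) (nat_lit 76) (nat_lit 1249094040118) (nat_lit 76) (nat_lit 1248267273052) (nat_lit 1) (nat_lit 4) (nat_lit 2) (nat_lit 5) (nat_lit 2) (nat_lit 4) (nat_lit 358) (nat_lit 286) (nat_lit 256)) (XT.lf (nat_lit 0) (nat_lit 328379638741) (nat_lit 76) (nat_lit 1433771498651) (nat_lit 76) (nat_lit 1432943077908) (nat_lit 1) (nat_lit 4) (nat_lit 2) (nat_lit 5) (nat_lit 2) (nat_lit 4) (nat_lit 359) (nat_lit 286) (nat_lit 255))) (XT.nd (nat_lit 78) (nat_lit 0) (nat_lit 0) (XT.lf (nat_lit 0) (nat_lit 382518759675) (nat_lit 76) (nat_lit 1646159748086) (nat_lit 76) (nat_lit 1645329889364) (nat_lit 1) (nat_lit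 4) (nat_lit 2) (nat_lit 5) (nat_lit 2) (nat_lit 4) (nat_lit 360) (nat_lit 286) (nat_lit 254)) (XT.nd (nat_lit 78) (nat_lit 0) (nat_lit 0) (XT.lf (nat_lit 0) (nat_lit 444763487860) (nat_lit 76) (nat_lit 1890414210695) (nat_lit 76) (nat_lit 1889583101556) (nat_lit 1) (nat_lit 4) (nat_lit 2) (nat_lit 5) (nat_lit 2) (nat_lit 4) (nat_lit 361) (nat_lit 286) (nat_lit 253)) (XT.lf (nat_lit 0) (nat_lit 516331654934) (nat_lit 76) (nat_lit 2171313778139) (nat_lit 76) (nat_lit 2170481581680) (nat_lit 1) (nat_lit 4) (nat_lit 2) (nat_lit 5) (nat_lit 2) (nat_lit 4) (nat_lit 362) (nat_lit 286) (nat_lit 252))))) (XT.nd (nat_lit 156) (nat_lit 0) (nat_lit 0) (XT.nd (nat_lit 78) (nat_lit 0) (nat_lit 0) (XT.lf (nat_lit 0) (nat_lit 598623507645) (nat_lit 76) (nat_lit 2494354311519) (nat_lit 76) (nat_lit 2493521169565) (nat_lit 1) (nat_lit 4) (nat_lit 2) (nat_lit 5) (nat_lit 2) (nat_lit 4) (nat_lit 363) (nat_lit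 286) (nat_lit 251)) (XT.lf (nat_lit 0) (nat_lit 693249103980) (nat_lit 76) (nat_lit 2865856169097) (nat_lit 76) (nat_lit 2865022204973) (nat_lit 1) (nat_lit 4) (nat_lit 2) (nat_lit 5) (nat_lit 2) (nat_lit 4) (nat_lit 364) (nat_lit 286) (nat_lit 250))) (XT.nd (nat_lit 78) (nat_lit 0) (nat_lit 0) (XT.lf (nat_lit 0) (nat_lit 802059814302) (nat_lit 76) (nat_lit 3293087865477) (nat_lit 76) (nat_lit 3292253186424) (nat_lit 1) (nat_lit 4) (nat_lit 2) (nat_lit 5) (nat_lit 2) (nat_lit 4) (nat_lit 365) (nat_lit 286) (nat_lit 249)) (XT.nd (nat_lit 78) (nat_lit 0) (nat_lit 0) (XT.lf (nat_lit 0) (nat_lit 927184543813) (nat_lit 76) (nat_lit 3784408281677) (nat_lit 76) (nat_lit 3783572980946) (nat_lit 1) (nat_lit 4) (nat_lit 2) (nat_lit 5) (nat_lit 2) (nat_lit 4) (nat_lit 366) (nat_lit 286) (nat_lit 248)) (XT.lf (nat_lit 0) (nat_lit 1071071385047) (nat_lit 76) (nat_lit 4349430208447) (nat_lit 76) (nat_lit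 4348594367126) (nat_lit 1) (nat_lit 4) (nat_lit 2) (nat_lit 5) (nat_lit 2) (nat_lit 4) (nat_lit 367) (nat_lit 286) (nat_lit 247)))))) (XT.nd (nat_lit 390) (nat_lit 0) (nat_lit 0) (XT.nd (nat_lit 156) (nat_lit 0) (nat_lit 0) (XT.nd (nat_lit 78) (nat_lit 0) (nat_lit 0) (XT.lf (nat_lit 0) (nat_lit 1236535515334) (nat_lit 76) (nat_lit 4999208422617) (nat_lit 76) (nat_lit 4998372111217) (nat_lit 1) (nat_lit 4) (nat_lit 2) (nat_lit 5) (nat_lit 2) (nat_lit 4) (nat_lit 368) (nat_lit 286) (nat_lit 246)) (XT.lf (nat_lit 0) (nat_lit 1426814276351) (nat_lit 76) (nat_lit 5746455976201) (nat_lit 76) (nat_lit 5745619256038) (nat_lit 1) (nat_lit 4) (nat_lit 2) (nat_lit 5) (nat_lit 2) (nat_lit 4) (nat_lit 369) (nat_lit 286) (nat_lit 245))) (XT.nd (nat_lit 78) (nat_lit 0) (nat_lit 0) (XT.lf (nat_lit 0) (nat_lit 1645630513424) (nat_lit 76) (nat_lit 6605792930032) (nat_lit 76) (nat_lit 6604955854423) (nat_lit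 1) (nat_lit 4) (nat_lit 2) (nat_lit 5) (nat_lit 2) (nat_lit 4) (nat_lit 370) (nat_lit 286) (nat_lit 244)) (XT.nd (nat_lit 78) (nat_lit 0) (nat_lit 0) (XT.lf (nat_lit 0) (nat_lit 1897265413799) (nat_lit 76) (nat_lit 7594032398423) (nat_lit 76) (nat_lit 7593195013730) (nat_lit 1) (nat_lit 4) (nat_lit 2) (nat_lit 5) (nat_lit 2) (nat_lit 4) (nat_lit 371) (nat_lit 286) (nat_lit 243)) (XT.lf (nat_lit 0) (nat_lit 2186642269006) (nat_lit 76) (nat_lit 8730509501408) (nat_lit 76) (nat_lit 8729671847946) (nat_lit 1) (nat_lit 4) (nat_lit 2) (nat_lit 5) (nat_lit 2) (nat_lit 4) (nat_lit 372) (nat_lit 286) (nat_lit 242))))) (XT.nd (nat_lit 234) (nat_lit 0) (nat_lit 0) (XT.nd (nat_lit 78) (nat_lit 0) (nat_lit 0) (XT.lf (nat_lit 0) (nat_lit 2519422800124) (nat_lit 76) (nat_lit 10037459660567) (nat_lit 76) (nat_lit 10036621773393) (nat_lit 1) (nat_lit 4) (nat_lit 2) (nat_lit 5) (nat_lit 2) (nat_lit 4)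 (nat_lit 373) (nat_lit 286) (nat_lit 241)) (XT.nd (nat_lit 78) (nat_lit 0) (nat_lit 0) (XT.lf (nat_lit 0) (nat_lit 2902117930589) (nat_lit 76) (nat_lit 11540453639884) (nat_lit 76) (nat_lit 11539615549482) (nat_lit 1) (nat_lit 4) (nat_lit 2) (nat_lit 5) (nat_lit 2) (nat_lit 4) (nat_lit 374) (nat_lit 286) (nat_lit 240)) (XT.lf (nat_lit 0) (nat_lit 3342215173823) (nat_lit 76) (nat_lit 13268897843302) (nat_lit 76) (nat_lit 13268059576180) (nat_lit 1) (nat_lit 4) (nat_lit 2) (nat_lit 5) (nat_lit 2) (nat_lit 4) (nat_lit 375) (nat_lit 286) (nat_lit 239)))) (XT.nd (nat_lit 78) (nat_lit 0) (nat_lit 0) (XT.lf (nat_lit 0) (nat_lit 3848325128063) (nat_lit 76) (nat_lit 15256609657409) (nat_lit 76) (nat_lit 15255771236618) (nat_lit 1) (nat_lit 4) (nat_lit 2) (nat_lit 5) (nat_lit 2) (nat_lit 4) (nat_lit 376) (nat_lit 286) (nat_lit 238)) (XT.nd (nat_lit 78) (nat_lit 0) (nat_lit 0) (XT.lf (nat_lit 0)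 (nat_lit 4430349944587) (nat_lit 76) (nat_lit 17542479095960) (nat_lit 76) (nat_lit 17541640541543) (nat_lit 1) (nat_lit 4) (nat_lit 2) (nat_lit 5) (nat_lit 2) (nat_lit 4) (nat_lit 377) (nat_lit 286) (nat_lit 237)) (XT.lf (nat_lit 0) (nat_lit 5099677065459) (nat_lit 76) (nat_lit 20171229691448) (nat_lit 76) (nat_lit 20170391020835) (nat_lit 1) (nat_lit 4) (nat_lit 2) (nat_lit 5) (nat_lit 2) (nat_lit 4) (nat_lit 378) (nat_lit 286) (nat_lit 236))))))) (XT.nd (nat_lit 42744) (nat_lit 0) (nat_lit 76) (XT.nd (nat_lit 390) (nat_lit 0) (nat_lit 0) (XT.nd (nat_lit 156) (nat_lit 0) (nat_lit 0) (XT.nd (nat_lit 78) (nat_lit 0) (nat_lit 0) (XT.lf (nat_lit 0) (nat_lit 5869402021303) (nat_lit 76) (nat_lit 23194293520741) (nat_lit 76) (nat_lit 23193454749088) (nat_lit 1) (nat_lit 4) (nat_lit 2) (nat_lit 5) (nat_lit 2) (nat_lit 4) (nat_lit 379) (nat_lit 286) (nat_lit 235)) (XT.lf (nat_lit 0) (nat_lit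 6754584648213) (nat_lit 76) (nat_lit 26670817484848) (nat_lit 76) (nat_lit 26669978625334) (nat_lit 1) (nat_lit 4) (nat_lit 2) (nat_lit 5) (nat_lit 2) (nat_lit 4) (nat_lit 380) (nat_lit 286) (nat_lit 234))) (XT.nd (nat_lit 78) (nat_lit 0) (nat_lit 0) (XT.lf (nat_lit 0) (nat_lit 7772543736714) (nat_lit 76) (nat_lit 30668820530891) (nat_lit 76) (nat_lit 30667981594977) (nat_lit 1) (nat_lit 4) (nat_lit 2) (nat_lit 5) (nat_lit 2) (nat_lit 4) (nat_lit 381) (nat_lit 286) (nat_lit 233)) (XT.nd (nat_lit 78) (nat_lit 0) (nat_lit 0) (XT.lf (nat_lit 0) (nat_lit 8943195877669) (nat_lit 76) (nat_lit 35266524457599) (nat_lit 76) (nat_lit 35265685455249) (nat_lit 1) (nat_lit 4) (nat_lit 2) (nat_lit 5) (nat_lit 2) (nat_lit 4) (nat_lit 382) (nat_lit 286) (nat_lit 232)) (XT.lf (nat_lit 0) (nat_lit 10289445134706) (nat_lit 76) (nat_lit 40553884341798) (nat_lit 76) (nat_lit 40553045281678) (nat_lit 1) (nat_lit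 4) (nat_lit 2) (nat_lit 5) (nat_lit 2) (nat_lit 4) (nat_lit 383) (nat_lit 286) (nat_lit 231))))) (XT.nd (nat_lit 234) (nat_lit 0) (nat_lit 0) (XT.nd (nat_lit 78) (nat_lit 0) (nat_lit 0) (XT.lf (nat_lit 0) (nat_lit 11837631167200) (nat_lit 76) (nat_lit 46634348529048) (nat_lit 76) (nat_lit 46633509418693) (nat_lit 1) (nat_lit 4) (nat_lit 2) (nat_lit 5) (nat_lit 2) (nat_lit 4) (nat_lit 384) (nat_lit 286) (nat_lit 230)) (XT.nd (nat_lit 78) (nat_lit 0) (nat_lit 0) (XT.lf (nat_lit 0) (nat_lit 13618044571440) (nat_lit 76) (nat_lit 53626882623013) (nat_lit 76) (nat_lit 53626043468976) (nat_lit 1) (nat_lit 4) (nat_lit 2) (nat_lit 5) (nat_lit 2) (nat_lit 4) (nat_lit 385) (nat_lit 286) (nat_lit 229)) (XT.lf (nat_lit 0) (nat_lit 15665519522727) (nat_lit 76) (nat_lit 61668297073358) (nat_lit 76) (nat_lit 61667457881336) (nat_lit 1) (nat_lit 4) (nat_lit 2) (nat_lit 5) (nat_lit 2) (nat_lit 4) (nat_lit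 386) (nat_lit 286) (nat_lit 228)))) (XT.nd (nat_lit 78) (nat_lit 0) (nat_lit 0) (XT.lf (nat_lit 0) (nat_lit 18020115313585) (nat_lit 76) (nat_lit 70915923901936) (nat_lit 76) (nat_lit 70915084676884) (nat_lit 1) (nat_lit 4) (nat_lit 2) (nat_lit 5) (nat_lit 2) (nat_lit 4) (nat_lit 387) (nat_lit 286) (nat_lit 227)) (XT.nd (nat_lit 78) (nat_lit 0) (nat_lit 0) (XT.lf (nat_lit 0) (nat_lit 20727900122531) (nat_lit 76) (nat_lit 81550694938004) (nat_lit 76) (nat_lit 81549855684230) (nat_lit 1) (nat_lit 4) (nat_lit 2) (nat_lit 5) (nat_lit 2) (nat_lit 4) (nat_lit 388) (nat_lit 286) (nat_lit 226)) (XT.lf (nat_lit 0) (nat_lit 23841852348002) (nat_lit 76) (nat_lit 93780681788787) (nat_lit 76) (nat_lit 93779842510038) (nat_lit 1) (nat_lit 4) (nat_lit 2) (nat_lit 5) (nat_lit 2) (nat_lit 4) (nat_lit 389) (nat_lit 286) (nat_lit 225)))))) (XT.nd (nat_lit 390) (nat_lit 0) (nat_lit 0) (XT.nd (nat_lit 156)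 (nat_lit 152) (nat_lit 0) (XT.nd (nat_lit 78) (nat_lit 0) (nat_lit 0) (XT.lf (nat_lit 0) (nat_lit 5300114077) (nat_lit 76) (nat_lit 6392505364) (nat_lit 76) (nat_lit 6392505364) (nat_lit 4) (nat_lit 4) (nat_lit 5) (nat_lit 5) (nat_lit 5) (nat_lit 4) (nat_lit 326) (nat_lit 287) (nat_lit 287)) (XT.lf (nat_lit 0) (nat_lit 24021537856) (nat_lit 76) (nat_lit 8429521759) (nat_lit 76) (nat_lit 8284717453) (nat_lit 4) (nat_lit 4) (nat_lit 5) (nat_lit 5) (nat_lit 5) (nat_lit 4) (nat_lit 327) (nat_lit 287) (nat_lit 286))) (XT.nd (nat_lit 78) (nat_lit 152) (nat_lit 0) (XT.lf (nat_lit 0) (nat_lit 38450619417) (nat_lit 76) (nat_lit 3939659586) (nat_lit 76) (nat_lit 3668938492) (nat_lit 4) (nat_lit 4) (nat_lit 5) (nat_lit 5) (nat_lit 5) (nat_lit 4) (nat_lit 328) (nat_lit 287) (nat_lit 285)) (XT.nd (nat_lit 78) (nat_lit 0) (nat_lit 0) (XT.lf (nat_lit 0) (nat_lit 1173672971) (nat_lit 152) (nat_lit 50202292783)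 (nat_lit 0) (nat_lit 843052142) (nat_lit 2) (nat_lit 5) (nat_lit 4) (nat_lit 4) (nat_lit 2) (nat_lit 4) (nat_lit 329) (nat_lit 287) (nat_lit 284)) (XT.lf (nat_lit 0) (nat_lit 6530790127) (nat_lit 152) (nat_lit 46603927143) (nat_lit 0) (nat_lit 6117376966) (nat_lit 2) (nat_lit 5) (nat_lit 4) (nat_lit 4) (nat_lit 2) (nat_lit 4) (nat_lit 330) (nat_lit 287) (nat_lit 283))))) (XT.nd (nat_lit 234) (nat_lit 0) (nat_lit 0) (XT.nd (nat_lit 78) (nat_lit 0) (nat_lit 0) (XT.lf (nat_lit 0) (nat_lit 12308413316) (nat_lit 152) (nat_lit 43266235547) (nat_lit 0) (nat_lit 11823006823) (nat_lit 2) (nat_lit 5) (nat_lit 4) (nat_lit 4) (nat_lit 2) (nat_lit 4) (nat_lit 331) (nat_lit 287) (nat_lit 282)) (XT.nd (nat_lit 78) (nat_lit 0) (nat_lit 0) (XT.lf (nat_lit 0) (nat_lit 18619582992) (nat_lit 152) (nat_lit 40123915334) (nat_lit 0) (nat_lit 18071573601) (nat_lit 2) (nat_lit 5) (nat_lit 4) (nat_lit 4) (nat_lit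 2) (nat_lit 4) (nat_lit 332) (nat_lit 287) (nat_lit 281)) (XT.lf (nat_lit 0) (nat_lit 25587778561) (nat_lit 152) (nat_lit 37115486326) (nat_lit 0) (nat_lit 24985331868) (nat_lit 2) (nat_lit 5) (nat_lit 4) (nat_lit 4) (nat_lit 2) (nat_lit 4) (nat_lit 333) (nat_lit 287) (nat_lit 280)))) (XT.nd (nat_lit 78) (nat_lit 0) (nat_lit 0) (XT.lf (nat_lit 0) (nat_lit 33349334284) (nat_lit 152) (nat_lit 34182087954) (nat_lit 0) (nat_lit 32699550807) (nat_lit 2) (nat_lit 5) (nat_lit 4) (nat_lit 4) (nat_lit 2) (nat_lit 4) (nat_lit 334) (nat_lit 287) (nat_lit 279)) (XT.nd (nat_lit 78) (nat_lit 0) (nat_lit 0) (XT.lf (nat_lit 0) (nat_lit 42056106687) (nat_lit 152) (nat_lit 31266327642) (nat_lit 0) (nat_lit 41365160788) (nat_lit 2) (nat_lit 5) (nat_lit 4) (nat_lit 4) (nat_lit 2) (nat_lit 4) (nat_lit 335) (nat_lit 287) (nat_lit 278)) (XT.lf (nat_lit 0) (nat_lit 51878445664) (nat_lit 152) (nat_lit 28311157906)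 (nat_lit 0) (nat_lit 51151706355) (nat_lit 2) (nat_lit 5) (nat_lit 4) (nat_lit 4) (nat_lit 2) (nat_lit 4) (nat_lit 336) (nat_lit 287) (nat_lit 277))))))))
noncomputable def xc25 : XT := (XT.nd (nat_lit 1716) (nat_lit 0) (nat_lit 0) (XT.nd (nat_lit 858) (nat_lit 0) (nat_lit 0) (XT.nd (nat_lit 390) (nat_lit 76) (nat_lit 0) (XT.nd (nat_lit 156) (nat_lit 0) (nat_lit 0) (XT.nd (nat_lit 78) (nat_lit 0) (nat_lit 0) (XT.lf (nat_lit 0) (nat_lit 63008527413) (nat_lit 152) (nat_lit 25258760207) (nat_lit 0) (nat_lit 62250663400) (nat_lit 2) (nat_lit 5) (nat_lit 4) (nat_lit 4) (nat_lit 2) (nat_lit 4) (nat_lit 337) (nat_lit 287) (nat_lit 276)) (XT.lf (nat_lit 0) (nat_lit 75664114403) (nat_lit 152) (nat_lit 22049413722) (nat_lit 0) (nat_lit 74879185429) (nat_lit 2) (nat_lit 5) (nat_lit 4) (nat_lit 4) (nat_lit 2) (nat_lit 4) (nat_lit 338) (nat_lit 287) (nat_lit 275))) (XT.nd (nat_lit 78) (nat_lit 0)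 (nat_lit 0) (XT.lf (nat_lit 0) (nat_lit 90092815944) (nat_lit 152) (nat_lit 18620326887) (nat_lit 0) (nat_lit 89284352222) (nat_lit 2) (nat_lit 5) (nat_lit 4) (nat_lit 4) (nat_lit 2) (nat_lit 4) (nat_lit 339) (nat_lit 287) (nat_lit 274)) (XT.nd (nat_lit 78) (nat_lit 0) (nat_lit 0) (XT.lf (nat_lit 0) (nat_lit 106576932718) (nat_lit 152) (nat_lit 14904408874) (nat_lit 0) (nat_lit 105748003999) (nat_lit 2) (nat_lit 5) (nat_lit 4) (nat_lit 4) (nat_lit 2) (nat_lit 4) (nat_lit 340) (nat_lit 287) (nat_lit 273)) (XT.lf (nat_lit 0) (nat_lit 125438980055) (nat_lit 152) (nat_lit 10828956939) (nat_lit 0) (nat_lit 124592255685) (nat_lit 2) (nat_lit 5) (nat_lit 4) (nat_lit 4) (nat_lit 2) (nat_lit 4) (nat_lit 341) (nat_lit 287) (nat_lit 272))))) (XT.nd (nat_lit 234) (nat_lit 0) (nat_lit 0) (XT.nd (nat_lit 78) (nat_lit 76) (nat_lit 0) (XT.lf (nat_lit 0) (nat_lit 147047998010) (nat_lit 152) (nat_lit 6314233980)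 (nat_lit 0) (nat_lit 146185799161) (nat_lit 2) (nat_lit 5) (nat_lit 4) (nat_lit 4) (nat_lit 2) (nat_lit 4) (nat_lit 342) (nat_lit 287) (nat_lit 271)) (XT.nd (nat_lit 78) (nat_lit 76) (nat_lit 0) (XT.lf (nat_lit 0) (nat_lit 171826771717) (nat_lit 152) (nat_lit 1271908459) (nat_lit 0) (nat_lit 170951116799) (nat_lit 2) (nat_lit 5) (nat_lit 4) (nat_lit 4) (nat_lit 2) (nat_lit 4) (nat_lit 343) (nat_lit 287) (nat_lit 270)) (XT.lf (nat_lit 0) (nat_lit 4826348759) (nat_lit 76) (nat_lit 195633603322) (nat_lit 76) (nat_lit 194746247475) (nat_lit 1) (nat_lit 4) (nat_lit 2) (nat_lit 5) (nat_lit 2) (nat_lit 4) (nat_lit 344) (nat_lit 287) (nat_lit 269)))) (XT.nd (nat_lit 78) (nat_lit 0) (nat_lit 0) (XT.lf (nat_lit 0) (nat_lit 11858110931) (nat_lit 76) (nat_lit 221537205140) (nat_lit 76) (nat_lit 220639674572) (nat_lit 1) (nat_lit 4) (nat_lit 2) (nat_lit 5) (nat_lit 2) (nat_lit 4) (nat_lit 345) (nat_lit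 287) (nat_lit 268)) (XT.nd (nat_lit 78) (nat_lit 0) (nat_lit 0) (XT.lf (nat_lit 0) (nat_lit 19836655867) (nat_lit 76) (nat_lit 251382781355) (nat_lit 76) (nat_lit 250476403204) (nat_lit 1) (nat_lit 4) (nat_lit 2) (nat_lit 5) (nat_lit 2) (nat_lit 4) (nat_lit 346) (nat_lit 287) (nat_lit 267)) (XT.lf (nat_lit 0) (nat_lit 28918085533) (nat_lit 76) (nat_lit 285754267155) (nat_lit 76) (nat_lit 284840195453) (nat_lit 1) (nat_lit 4) (nat_lit 2) (nat_lit 5) (nat_lit 2) (nat_lit 4) (nat_lit 347) (nat_lit 287) (nat_lit 266)))))) (XT.nd (nat_lit 390) (nat_lit 0) (nat_lit 0) (XT.nd (nat_lit 156) (nat_lit 0) (nat_lit 0) (XT.nd (nat_lit 78) (nat_lit 0) (nat_lit 0) (XT.lf (nat_lit 0) (nat_lit 39280080075) (nat_lit 76) (nat_lit 325324148130) (nat_lit 76) (nat_lit 324403386384) (nat_lit 1) (nat_lit 4) (nat_lit 2) (nat_lit 5) (nat_lit 2) (nat_lit 4) (nat_lit 348) (nat_lit 287) (nat_lit 265)) (XT.lf (nat_lit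 0) (nat_lit 51125374168) (nat_lit 76) (nat_lit 370866617605) (nat_lit 76) (nat_lit 369940038429) (nat_lit 1) (nat_lit 4) (nat_lit 2) (nat_lit 5) (nat_lit 2) (nat_lit 4) (nat_lit 349) (nat_lit 287) (nat_lit 264))) (XT.nd (nat_lit 78) (nat_lit 0) (nat_lit 0) (XT.lf (nat_lit 0) (nat_lit 64685723567) (nat_lit 76) (nat_lit 423272723896) (nat_lit 76) (nat_lit 422341086085) (nat_lit 1) (nat_lit 4) (nat_lit 2) (nat_lit 5) (nat_lit 2) (nat_lit 4) (nat_lit 350) (nat_lit 287) (nat_lit 263)) (XT.nd (nat_lit 78) (nat_lit 0) (nat_lit 0) (XT.lf (nat_lit 0) (nat_lit 80226439456) (nat_lit 76) (nat_lit 483567803863) (nat_lit 76) (nat_lit 482631767240) (nat_lit 1) (nat_lit 4) (nat_lit 2) (nat_lit 5) (nat_lit 2) (nat_lit 4) (nat_lit 351) (nat_lit 287) (nat_lit 262)) (XT.lf (nat_lit 0) (nat_lit 98051579319) (nat_lit 76) (nat_lit 552931543856) (nat_lit 76) (nat_lit 551991682178) (nat_lit 1) (nat_lit 4) (nat_lit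 2) (nat_lit 5) (nat_lit 2) (nat_lit 4) (nat_lit 352) (nat_lit 287) (nat_lit 261))))) (XT.nd (nat_lit 234) (nat_lit 0) (nat_lit 0) (XT.nd (nat_lit 78) (nat_lit 0) (nat_lit 0) (XT.lf (nat_lit 0) (nat_lit 118509895893) (nat_lit 76) (nat_lit 632721060525) (nat_lit 76) (nat_lit 631777872712) (nat_lit 1) (nat_lit 4) (nat_lit 2) (nat_lit 5) (nat_lit 2) (nat_lit 4) (nat_lit 353) (nat_lit 287) (nat_lit 260)) (XT.nd (nat_lit 78) (nat_lit 0) (nat_lit 0) (XT.lf (nat_lit 0) (nat_lit 142001660589) (nat_lit 76) (nat_lit 724497453110) (nat_lit 76) (nat_lit 723551373007) (nat_lit 1) (nat_lit 4) (nat_lit 2) (nat_lit 5) (nat_lit 2) (nat_lit 4) (nat_lit 354) (nat_lit 287) (nat_lit 259)) (XT.lf (nat_lit 0) (nat_lit 168986494890) (nat_lit 76) (nat_lit 830056346683) (nat_lit 76) (nat_lit 829107751544) (nat_lit 1) (nat_lit 4) (nat_lit 2) (nat_lit 5) (nat_lit 2) (nat_lit 4) (nat_lit 355) (nat_lit 287) (nat_lit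 258)))) (XT.nd (nat_lit 78) (nat_lit 0) (nat_lit 0) (XT.lf (nat_lit 0) (nat_lit 199992362945) (nat_lit 76) (nat_lit 951463023944) (nat_lit 76) (nat_lit 950512241818) (nat_lit 1) (nat_lit 4) (nat_lit 2) (nat_lit 5) (nat_lit 2) (nat_lit 4) (nat_lit 356) (nat_lit 287) (nat_lit 257)) (XT.nd (nat_lit 78) (nat_lit 0) (nat_lit 0) (XT.lf (nat_lit 0) (nat_lit 235625901304) (nat_lit 76) (nat_lit 1091092832927) (nat_lit 76) (nat_lit 1090140149073) (nat_lit 1) (nat_lit 4) (nat_lit 2) (nat_lit 5) (nat_lit 2) (nat_lit 4) (nat_lit 357) (nat_lit 287) (nat_lit 256)) (XT.lf (nat_lit 0) (nat_lit 276584287891) (nat_lit 76) (nat_lit 1251677661199) (nat_lit 76) (nat_lit 1250723323669) (nat_lit 1) (nat_lit 4) (nat_lit 2) (nat_lit 5) (nat_lit 2) (nat_lit 4) (nat_lit 358) (nat_lit 287) (nat_lit 255))))))) (XT.nd (nat_lit 858) (nat_lit 0) (nat_lit 0) (XT.nd (nat_lit 390) (nat_lit 0) (nat_lit 0) (XT.nd (nat_lit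 156) (nat_lit 0) (nat_lit 0) (XT.nd (nat_lit 78) (nat_lit 0) (nat_lit 0) (XT.lf (nat_lit 0) (nat_lit 323668882444) (nat_lit 76) (nat_lit 1436359385835) (nat_lit 76) (nat_lit 1435403610325) (nat_lit 1) (nat_lit 4) (nat_lit 2) (nat_lit 5) (nat_lit 2) (nat_lit 4) (nat_lit 359) (nat_lit 287) (nat_lit 254)) (XT.lf (nat_lit 0) (nat_lit 377800905290) (nat_lit 76) (nat_lit 1648751344926) (nat_lit 76) (nat_lit 1647794318999) (nat_lit 1) (nat_lit 4) (nat_lit 2) (nat_lit 5) (nat_lit 2) (nat_lit 4) (nat_lit 360) (nat_lit 287) (nat_lit 253))) (XT.nd (nat_lit 78) (nat_lit 0) (nat_lit 0) (XT.lf (nat_lit 0) (nat_lit 440039461224) (nat_lit 76) (nat_lit 1893009033323) (nat_lit 76) (nat_lit 1892050920076) (nat_lit 1) (nat_lit 4) (nat_lit 2) (nat_lit 5) (nat_lit 2) (nat_lit 4) (nat_lit 361) (nat_lit 287) (nat_lit 252)) (XT.nd (nat_lit 78) (nat_lit 0) (nat_lit 0) (XT.lf (nat_lit 0) (nat_lit 511602261124)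 (nat_lit 76) (nat_lit 2173911405799) (nat_lit 76) (nat_lit 2172952347057) (nat_lit 1) (nat_lit 4) (nat_lit 2) (nat_lit 5) (nat_lit 2) (nat_lit 4) (nat_lit 362) (nat_lit 287) (nat_lit 251)) (XT.lf (nat_lit 0) (nat_lit 593889446726) (nat_lit 76) (nat_lit 2496954378337) (nat_lit 76) (nat_lit 2495994497426) (nat_lit 1) (nat_lit 4) (nat_lit 2) (nat_lit 5) (nat_lit 2) (nat_lit 4) (nat_lit 363) (nat_lit 287) (nat_lit 250))))) (XT.nd (nat_lit 234) (nat_lit 0) (nat_lit 0) (XT.nd (nat_lit 78) (nat_lit 0) (nat_lit 0) (XT.lf (nat_lit 0) (nat_lit 688510984706) (nat_lit 76) (nat_lit 2868458356922) (nat_lit 76) (nat_lit 2867497761081) (nat_lit 1) (nat_lit 4) (nat_lit 2) (nat_lit 5) (nat_lit 2) (nat_lit 4) (nat_lit 364) (nat_lit 287) (nat_lit 249)) (XT.nd (nat_lit 78) (nat_lit 0) (nat_lit 0) (XT.lf (nat_lit 0) (nat_lit 797318166024) (nat_lit 76) (nat_lit 3295691897658) (nat_lit 76) (nat_lit 3294730680138)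 (nat_lit 1) (nat_lit 4) (nat_lit 2) (nat_lit 5) (nat_lit 2) (nat_lit 4) (nat_lit 365) (nat_lit 287) (nat_lit 248)) (XT.lf (nat_lit 0) (nat_lit 922439826836) (nat_lit 76) (nat_lit 3787013917644) (nat_lit 76) (nat_lit 3786052159535) (nat_lit 1) (nat_lit 4) (nat_lit 2) (nat_lit 5) (nat_lit 2) (nat_lit 4) (nat_lit 366) (nat_lit 287) (nat_lit 247)))) (XT.nd (nat_lit 78) (nat_lit 0) (nat_lit 0) (XT.lf (nat_lit 0) (nat_lit 1066323999637) (nat_lit 76) (nat_lit 4352037239011) (nat_lit 76) (nat_lit 4351075010824) (nat_lit 1) (nat_lit 4) (nat_lit 2) (nat_lit 5) (nat_lit 2) (nat_lit 4) (nat_lit 367) (nat_lit 287) (nat_lit 246)) (XT.nd (nat_lit 78) (nat_lit 0) (nat_lit 0) (XT.lf (nat_lit 0) (nat_lit 1231785809545) (nat_lit 76) (nat_lit 5001816665873) (nat_lit 76) (nat_lit 5000854028922) (nat_lit 1) (nat_lit 4) (nat_lit 2) (nat_lit 5) (nat_lit 2) (nat_lit 4) (nat_lit 368) (nat_lit 287) (nat_lit 245))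 (XT.lf (nat_lit 0) (nat_lit 1422062552843) (nat_lit 76) (nat_lit 5749065273973) (nat_lit 76) (nat_lit 5748102281576) (nat_lit 1) (nat_lit 4) (nat_lit 2) (nat_lit 5) (nat_lit 2) (nat_lit 4) (nat_lit 369) (nat_lit 287) (nat_lit 244)))))) (XT.nd (nat_lit 390) (nat_lit 0) (nat_lit 0) (XT.nd (nat_lit 156) (nat_lit 0) (nat_lit 0) (XT.nd (nat_lit 78) (nat_lit 0) (nat_lit 0) (XT.lf (nat_lit 0) (nat_lit 1640877035377) (nat_lit 76) (nat_lit 6608403144774) (nat_lit 76) (nat_lit 6607439843293) (nat_lit 1) (nat_lit 4) (nat_lit 2) (nat_lit 5) (nat_lit 2) (nat_lit 4) (nat_lit 370) (nat_lit 287) (nat_lit 243)) (XT.lf (nat_lit 0) (nat_lit 1892510410066) (nat_lit 76) (nat_lit 7596643410530) (nat_lit 76) (nat_lit 7595679840280) (nat_lit 1) (nat_lit 4) (nat_lit 2) (nat_lit 5) (nat_lit 2) (nat_lit 4) (nat_lit 371) (nat_lit 287) (nat_lit 242))) (XT.nd (nat_lit 78) (nat_lit 0) (nat_lit 0) (XT.lf (nat_lit 0)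 (nat_lit 2181885938589) (nat_lit 76) (nat_lit 8733121206877) (nat_lit 76) (nat_lit 8732157402915) (nat_lit 1) (nat_lit 4) (nat_lit 2) (nat_lit 5) (nat_lit 2) (nat_lit 4) (nat_lit 372) (nat_lit 287) (nat_lit 241)) (XT.nd (nat_lit 78) (nat_lit 0) (nat_lit 0) (XT.lf (nat_lit 0) (nat_lit 2514665316070) (nat_lit 76) (nat_lit 10040071968958) (nat_lit 76) (nat_lit 10039107961769) (nat_lit 1) (nat_lit 4) (nat_lit 2) (nat_lit 5) (nat_lit 2) (nat_lit 4) (nat_lit 373) (nat_lit 287) (nat_lit 240)) (XT.lf (nat_lit 0) (nat_lit 2897359443372) (nat_lit 76) (nat_lit 11543066472556) (nat_lit 76) (nat_lit 11542102288646) (nat_lit 1) (nat_lit 4) (nat_lit 2) (nat_lit 5) (nat_lit 2) (nat_lit 4) (nat_lit 374) (nat_lit 287) (nat_lit 239))))) (XT.nd (nat_lit 234) (nat_lit 0) (nat_lit 0) (XT.nd (nat_lit 78) (nat_lit 0) (nat_lit 0) (XT.lf (nat_lit 0) (nat_lit 3337455814290) (nat_lit 76) (nat_lit 13271511131870)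 (nat_lit 76) (nat_lit 13270546794291) (nat_lit 1) (nat_lit 4) (nat_lit 2) (nat_lit 5) (nat_lit 2) (nat_lit 4) (nat_lit 375) (nat_lit 287) (nat_lit 238)) (XT.nd (nat_lit 78) (nat_lit 0) (nat_lit 0) (XT.lf (nat_lit 0) (nat_lit 3843565009994) (nat_lit 76) (nat_lit 15259223342408) (nat_lit 76) (nat_lit 15258258871204) (nat_lit 1) (nat_lit 4) (nat_lit 2) (nat_lit 5) (nat_lit 2) (nat_lit 4) (nat_lit 376) (nat_lit 287) (nat_lit 237)) (XT.lf (nat_lit 0) (nat_lit 4425589166923) (nat_lit 76) (nat_lit 17545093125682) (nat_lit 76) (nat_lit 17544128538282) (nat_lit 1) (nat_lit 4) (nat_lit 2) (nat_lit 5) (nat_lit 2) (nat_lit 4) (nat_lit 377) (nat_lit 287) (nat_lit 236)))) (XT.nd (nat_lit 78) (nat_lit 0) (nat_lit 0) (XT.lf (nat_lit 0) (nat_lit 5094915714232) (nat_lit 76) (nat_lit 20173844020929) (nat_lit 76) (nat_lit 20172879332489) (nat_lit 1) (nat_lit 4) (nat_lit 2) (nat_lit 5) (nat_lit 2) (nat_lit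 4) (nat_lit 378) (nat_lit 287) (nat_lit 235)) (XT.nd (nat_lit 78) (nat_lit 0) (nat_lit 0) (XT.lf (nat_lit 0) (nat_lit 5864640171327) (nat_lit 76) (nat_lit 23196908110883) (nat_lit 76) (nat_lit 23195943334581) (nat_lit 1) (nat_lit 4) (nat_lit 2) (nat_lit 5) (nat_lit 2) (nat_lit 4) (nat_lit 379) (nat_lit 287) (nat_lit 234)) (XT.lf (nat_lit 0) (nat_lit 6749822364541) (nat_lit 76) (nat_lit 26673432301651) (nat_lit 76) (nat_lit 26672467448948) (nat_lit 1) (nat_lit 4) (nat_lit 2) (nat_lit 5) (nat_lit 2) (nat_lit 4) (nat_lit 380) (nat_lit 287) (nat_lit 233))))))))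
noncomputable def xc26 : XT := (XT.nd (nat_lit 43446) (nat_lit 0) (nat_lit 0) (XT.nd (nat_lit 42588) (nat_lit 0) (nat_lit 76) (XT.nd (nat_lit 390) (nat_lit 0) (nat_lit 0) (XT.nd (nat_lit 156) (nat_lit 0) (nat_lit 0) (XT.nd (nat_lit 78) (nat_lit 0) (nat_lit 0) (XT.lf (nat_lit 0) (nat_lit 7767781075917) (nat_lit 76) (nat_lit 30671435544791) (nat_lit 76) (nat_lit 30670470625653) (nat_lit 1) (nat_lit 4) (nat_lit 2) (nat_lit 5) (nat_lit 2) (nat_lit 4) (nat_lit 381) (nat_lit 287) (nat_lit 232)) (XT.lf (nat_lit 0) (nat_lit 8938432888936) (nat_lit 76) (nat_lit 35269139642887) (nat_lit 76) (nat_lit 35268174665979) (nat_lit 1) (nat_lit 4) (nat_lit 2) (nat_lit 5) (nat_lit 2) (nat_lit 4) (nat_lit 382) (nat_lit 287) (nat_lit 231))) (XT.nd (nat_lit 78) (nat_lit 0) (nat_lit 0) (XT.lf (nat_lit 0) (nat_lit 10284681860811) (nat_lit 76) (nat_lit 40556499676119) (nat_lit 76) (nat_lit 40555534648976) (nat_lit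 1) (nat_lit 4) (nat_lit 2) (nat_lit 5) (nat_lit 2) (nat_lit 4) (nat_lit 383) (nat_lit 287) (nat_lit 230)) (XT.nd (nat_lit 78) (nat_lit 0) (nat_lit 0) (XT.lf (nat_lit 0) (nat_lit 11832867645339) (nat_lit 76) (nat_lit 46636963992963) (nat_lit 76) (nat_lit 46635998922138) (nat_lit 1) (nat_lit 4) (nat_lit 2) (nat_lit 5) (nat_lit 2) (nat_lit 4) (nat_lit 384) (nat_lit 287) (nat_lit 229)) (XT.lf (nat_lit 0) (nat_lit 13613280833956) (nat_lit 76) (nat_lit 53629498199619) (nat_lit 76) (nat_lit 53628533090809) (nat_lit 1) (nat_lit 4) (nat_lit 2) (nat_lit 5) (nat_lit 2) (nat_lit 4) (nat_lit 385) (nat_lit 287) (nat_lit 228))))) (XT.nd (nat_lit 156) (nat_lit 0) (nat_lit 0) (XT.nd (nat_lit 78) (nat_lit 0) (nat_lit 0) (XT.lf (nat_lit 0) (nat_lit 15660755597744) (nat_lit 76) (nat_lit 61670912747955) (nat_lit 76) (nat_lit 61669947606115) (nat_lit 1) (nat_lit 4) (nat_lit 2) (nat_lit 5) (nat_lit 2) (nat_lit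 4) (nat_lit 386) (nat_lit 287) (nat_lit 227)) (XT.lf (nat_lit 0) (nat_lit 18015351225560) (nat_lit 76) (nat_lit 70918539661744) (nat_lit 76) (nat_lit 70917574491182) (nat_lit 1) (nat_lit 4) (nat_lit 2) (nat_lit 5) (nat_lit 2) (nat_lit 4) (nat_lit 387) (nat_lit 287) (nat_lit 226))) (XT.nd (nat_lit 41886) (nat_lit 0) (nat_lit 304) (XT.lf (nat_lit 0) (nat_lit 20723135892731) (nat_lit 76) (nat_lit 81553310771907) (nat_lit 76) (nat_lit 81552345576370) (nat_lit 1) (nat_lit 4) (nat_lit 2) (nat_lit 5) (nat_lit 2) (nat_lit 4) (nat_lit 388) (nat_lit 287) (nat_lit 225)) (XT.nd (nat_lit 78) (nat_lit 0) (nat_lit 0) (XT.lf (nat_lit 0) (nat_lit 4104165025) (nat_lit 152) (nat_lit 6211199590) (nat_lit 0) (nat_lit 4104165025) (nat_lit 5) (nat_lit 5) (nat_lit 7) (nat_lit 4) (nat_lit 5) (nat_lit 4) (nat_lit 324) (nat_lit 288) (nat_lit 288)) (XT.lf (nat_lit 0) (nat_lit 15267925621) (nat_lit 152) (nat_lit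 1891089508) (nat_lit 0) (nat_lit 15101400669) (nat_lit 5) (nat_lit 5) (nat_lit 7) (nat_lit 4) (nat_lit 5) (nat_lit 4) (nat_lit 325) (nat_lit 288) (nat_lit 287)))))) (XT.nd (nat_lit 390) (nat_lit 0) (nat_lit 0) (XT.nd (nat_lit 156) (nat_lit 152) (nat_lit 0) (XT.nd (nat_lit 78) (nat_lit 0) (nat_lit 0) (XT.lf (nat_lit 0) (nat_lit 10062442906) (nat_lit 76) (nat_lit 13229113664) (nat_lit 76) (nat_lit 12917784406) (nat_lit 4) (nat_lit 4) (nat_lit 5) (nat_lit 5) (nat_lit 5) (nat_lit 4) (nat_lit 326) (nat_lit 288) (nat_lit 286)) (XT.lf (nat_lit 0) (nat_lit 23016113260) (nat_lit 76) (nat_lit 9114996854) (nat_lit 76) (nat_lit 8677750807) (nat_lit 4) (nat_lit 4) (nat_lit 5) (nat_lit 5) (nat_lit 5) (nat_lit 4) (nat_lit 327) (nat_lit 288) (nat_lit 285))) (XT.nd (nat_lit 78) (nat_lit 152) (nat_lit 0) (XT.lf (nat_lit 0) (nat_lit 37038551911) (nat_lit 76) (nat_lit 4835023515) (nat_lit 76) (nat_lit 4288284609)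 (nat_lit 4) (nat_lit 4) (nat_lit 5) (nat_lit 5) (nat_lit 5) (nat_lit 4) (nat_lit 328) (nat_lit 288) (nat_lit 284)) (XT.nd (nat_lit 78) (nat_lit 0) (nat_lit 0) (XT.lf (nat_lit 0) (nat_lit 18778234) (nat_lit 76) (nat_lit 288537263) (nat_lit 152) (nat_lit 52063548744) (nat_lit 2) (nat_lit 5) (nat_lit 3) (nat_lit 5) (nat_lit 4) (nat_lit 4) (nat_lit 329) (nat_lit 288) (nat_lit 283)) (XT.lf (nat_lit 0) (nat_lit 5474316783) (nat_lit 152) (nat_lit 49114065162) (nat_lit 0) (nat_lit 4844105984) (nat_lit 2) (nat_lit 5) (nat_lit 4) (nat_lit 4) (nat_lit 2) (nat_lit 4) (nat_lit 330) (nat_lit 288) (nat_lit 282))))) (XT.nd (nat_lit 234) (nat_lit 0) (nat_lit 0) (XT.nd (nat_lit 78) (nat_lit 0) (nat_lit 0) (XT.lf (nat_lit 0) (nat_lit 11097011139) (nat_lit 152) (nat_lit 46100106181) (nat_lit 0) (nat_lit 10404197442) (nat_lit 2) (nat_lit 5) (nat_lit 4) (nat_lit 4) (nat_lit 2) (nat_lit 4) (nat_lit 331) (nat_lit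 288) (nat_lit 281)) (XT.nd (nat_lit 78) (nat_lit 0) (nat_lit 0) (XT.lf (nat_lit 0) (nat_lit 17273460090) (nat_lit 152) (nat_lit 43239292590) (nat_lit 0) (nat_lit 16526209090) (nat_lit 2) (nat_lit 5) (nat_lit 4) (nat_lit 4) (nat_lit 2) (nat_lit 4) (nat_lit 332) (nat_lit 288) (nat_lit 280)) (XT.lf (nat_lit 0) (nat_lit 24124507202) (nat_lit 152) (nat_lit 40475651948) (nat_lit 0) (nat_lit 23329919419) (nat_lit 2) (nat_lit 5) (nat_lit 4) (nat_lit 4) (nat_lit 2) (nat_lit 4) (nat_lit 333) (nat_lit 288) (nat_lit 279)))) (XT.nd (nat_lit 78) (nat_lit 0) (nat_lit 0) (XT.lf (nat_lit 0) (nat_lit 31784194703) (nat_lit 152) (nat_lit 37755113025) (nat_lit 0) (nat_lit 30948444498) (nat_lit 2) (nat_lit 5) (nat_lit 4) (nat_lit 4) (nat_lit 2) (nat_lit 4) (nat_lit 334) (nat_lit 288) (nat_lit 278)) (XT.nd (nat_lit 78) (nat_lit 0) (nat_lit 0) (XT.lf (nat_lit 0) (nat_lit 40402386043) (nat_lit 152) (nat_lit 35024447887)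 (nat_lit 0) (nat_lit 39530842428) (nat_lit 2) (nat_lit 5) (nat_lit 4) (nat_lit 4) (nat_lit 2) (nat_lit 4) (nat_lit 335) (nat_lit 288) (nat_lit 277)) (XT.lf (nat_lit 0) (nat_lit 50147698008) (nat_lit 152) (nat_lit 32230230475) (nat_lit 0) (nat_lit 49245029689) (nat_lit 2) (nat_lit 5) (nat_lit 4) (nat_lit 4) (nat_lit 2) (nat_lit 4) (nat_lit 336) (nat_lit 288) (nat_lit 276))))))) (XT.nd (nat_lit 858) (nat_lit 0) (nat_lit 0) (XT.nd (nat_lit 390) (nat_lit 76) (nat_lit 0) (XT.nd (nat_lit 156) (nat_lit 0) (nat_lit 0) (XT.nd (nat_lit 78) (nat_lit 0) (nat_lit 0) (XT.lf (nat_lit 0) (nat_lit 61210799747) (nat_lit 152) (nat_lit 29317791320) (nat_lit 0) (nat_lit 60281066468) (nat_lit 2) (nat_lit 5) (nat_lit 4) (nat_lit 4) (nat_lit 2) (nat_lit 4) (nat_lit 337) (nat_lit 288) (nat_lit 275)) (XT.lf (nat_lit 0) (nat_lit 73808143250) (nat_lit 152) (nat_lit 26230147915) (nat_lit 0) (nat_lit 72854875222)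 (nat_lit 2) (nat_lit 5) (nat_lit 4) (nat_lit 4) (nat_lit 2) (nat_lit 4) (nat_lit 338) (nat_lit 288) (nat_lit 274))) (XT.nd (nat_lit 78) (nat_lit 0) (nat_lit 0) (XT.lf (nat_lit 0) (nat_lit 88186198280) (nat_lit 152) (nat_lit 22906889846) (nat_lit 0) (nat_lit 87212465254) (nat_lit 2) (nat_lit 5) (nat_lit 4) (nat_lit 4) (nat_lit 2) (nat_lit 4) (nat_lit 339) (nat_lit 288) (nat_lit 273)) (XT.nd (nat_lit 78) (nat_lit 0) (nat_lit 0) (XT.lf (nat_lit 0) (nat_lit 104626274611) (nat_lit 152) (nat_lit 19282996847) (nat_lit 0) (nat_lit 103634745934) (nat_lit 2) (nat_lit 5) (nat_lit 4) (nat_lit 4) (nat_lit 2) (nat_lit 4) (nat_lit 340) (nat_lit 288) (nat_lit 272)) (XT.lf (nat_lit 0) (nat_lit 123450025909) (nat_lit 152) (nat_lit 15287566664) (nat_lit 0) (nat_lit 122443022754) (nat_lit 2) (nat_lit 5) (nat_lit 4) (nat_lit 4) (nat_lit 2) (nat_lit 4) (nat_lit 341) (nat_lit 288) (nat_lit 271))))) (XT.nd (nat_lit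 234) (nat_lit 76) (nat_lit 0) (XT.nd (nat_lit 78) (nat_lit 0) (nat_lit 0) (XT.lf (nat_lit 0) (nat_lit 145025742961) (nat_lit 152) (nat_lit 10842427835) (nat_lit 0) (nat_lit 144005283738) (nat_lit 2) (nat_lit 5) (nat_lit 4) (nat_lit 4) (nat_lit 2) (nat_lit 4) (nat_lit 342) (nat_lit 288) (nat_lit 270)) (XT.nd (nat_lit 78) (nat_lit 0) (nat_lit 0) (XT.lf (nat_lit 0) (nat_lit 169775559362) (nat_lit 152) (nat_lit 5860610255) (nat_lit 0) (nat_lit 168743399209) (nat_lit 2) (nat_lit 5) (nat_lit 4) (nat_lit 4) (nat_lit 2) (nat_lit 4) (nat_lit 343) (nat_lit 288) (nat_lit 269)) (XT.lf (nat_lit 0) (nat_lit 198183710649) (nat_lit 152) (nat_lit 244643578) (nat_lit 0) (nat_lit 197141375775) (nat_lit 2) (nat_lit 5) (nat_lit 4) (nat_lit 4) (nat_lit 2) (nat_lit 4) (nat_lit 344) (nat_lit 288) (nat_lit 268)))) (XT.nd (nat_lit 78) (nat_lit 0) (nat_lit 0) (XT.lf (nat_lit 0) (nat_lit 6712986261) (nat_lit 76)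 (nat_lit 224370992663) (nat_lit 76) (nat_lit 223319810206) (nat_lit 1) (nat_lit 4) (nat_lit 2) (nat_lit 5) (nat_lit 2) (nat_lit 4) (nat_lit 345) (nat_lit 288) (nat_lit 267)) (XT.nd (nat_lit 78) (nat_lit 0) (nat_lit 0) (XT.lf (nat_lit 0) (nat_lit 14647858169) (nat_lit 76) (nat_lit 254239393600) (nat_lit 76) (nat_lit 253180517592) (nat_lit 1) (nat_lit 4) (nat_lit 2) (nat_lit 5) (nat_lit 2) (nat_lit 4) (nat_lit 346) (nat_lit 288) (nat_lit 266)) (XT.lf (nat_lit 0) (nat_lit 23691311289) (nat_lit 76) (nat_lit 288630726984) (nat_lit 76) (nat_lit 287565160932) (nat_lit 1) (nat_lit 4) (nat_lit 2) (nat_lit 5) (nat_lit 2) (nat_lit 4) (nat_lit 347) (nat_lit 288) (nat_lit 265)))))) (XT.nd (nat_lit 390) (nat_lit 0) (nat_lit 0) (XT.nd (nat_lit 156) (nat_lit 0) (nat_lit 0) (XT.nd (nat_lit 78) (nat_lit 0) (nat_lit 0) (XT.lf (nat_lit 0) (nat_lit 34020282747) (nat_lit 76) (nat_lit 328217866729) (nat_lit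 76) (nat_lit 327146483246) (nat_lit 1) (nat_lit 4) (nat_lit 2) (nat_lit 5) (nat_lit 2) (nat_lit 4) (nat_lit 348) (nat_lit 288) (nat_lit 264)) (XT.lf (nat_lit 0) (nat_lit 45836861116) (nat_lit 76) (nat_lit 373775343829) (nat_lit 76) (nat_lit 372698901712) (nat_lit 1) (nat_lit 4) (nat_lit 2) (nat_lit 5) (nat_lit 2) (nat_lit 4) (nat_lit 349) (nat_lit 288) (nat_lit 263))) (XT.nd (nat_lit 78) (nat_lit 0) (nat_lit 0) (XT.lf (nat_lit 0) (nat_lit 59372240319) (nat_lit 76) (nat_lit 426194500228) (nat_lit 76) (nat_lit 425113659298) (nat_lit 1) (nat_lit 4) (nat_lit 2) (nat_lit 5) (nat_lit 2) (nat_lit 4) (nat_lit 350) (nat_lit 288) (nat_lit 262)) (XT.nd (nat_lit 78) (nat_lit 0) (nat_lit 0) (XT.lf (nat_lit 0) (nat_lit 74891242995) (nat_lit 76) (nat_lit 486500928116) (nat_lit 76) (nat_lit 485416262132) (nat_lit 1) (nat_lit 4) (nat_lit 2) (nat_lit 5) (nat_lit 2) (nat_lit 4) (nat_lit 351) (nat_lit 288)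 (nat_lit 261)) (XT.lf (nat_lit 0) (nat_lit 92697501802) (nat_lit 76) (nat_lit 555874535866) (nat_lit 76) (nat_lit 554786543747) (nat_lit 1) (nat_lit 4) (nat_lit 2) (nat_lit 5) (nat_lit 2) (nat_lit 4) (nat_lit 352) (nat_lit 288) (nat_lit 260))))) (XT.nd (nat_lit 234) (nat_lit 0) (nat_lit 0) (XT.nd (nat_lit 78) (nat_lit 0) (nat_lit 0) (XT.lf (nat_lit 0) (nat_lit 113139400067) (nat_lit 76) (nat_lit 635672633193) (nat_lit 76) (nat_lit 634581748784) (nat_lit 1) (nat_lit 4) (nat_lit 2) (nat_lit 5) (nat_lit 2) (nat_lit 4) (nat_lit 353) (nat_lit 288) (nat_lit 259)) (XT.nd (nat_lit 78) (nat_lit 0) (nat_lit 0) (XT.lf (nat_lit 0) (nat_lit 136616887973) (nat_lit 76) (nat_lit 727456487220) (nat_lit 76) (nat_lit 726363087775) (nat_lit 1) (nat_lit 4) (nat_lit 2) (nat_lit 5) (nat_lit 2) (nat_lit 4) (nat_lit 354) (nat_lit 288) (nat_lit 258)) (XT.lf (nat_lit 0) (nat_lit 163589307674) (nat_lit 76) (nat_lit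 833021869003) (nat_lit 76) (nat_lit 831926282571) (nat_lit 1) (nat_lit 4) (nat_lit 2) (nat_lit 5) (nat_lit 2) (nat_lit 4) (nat_lit 355) (nat_lit 288) (nat_lit 257)))) (XT.nd (nat_lit 78) (nat_lit 0) (nat_lit 0) (XT.lf (nat_lit 0) (nat_lit 194584380425) (nat_lit 76) (nat_lit 954434188187) (nat_lit 76) (nat_lit 953336700027) (nat_lit 1) (nat_lit 4) (nat_lit 2) (nat_lit 5) (nat_lit 2) (nat_lit 4) (nat_lit 356) (nat_lit 288) (nat_lit 256)) (XT.nd (nat_lit 78) (nat_lit 0) (nat_lit 0) (XT.lf (nat_lit 0) (nat_lit 230208531562) (nat_lit 76) (nat_lit 1094068903190) (nat_lit 76) (nat_lit 1092969761353) (nat_lit 1) (nat_lit 4) (nat_lit 2) (nat_lit 5) (nat_lit 2) (nat_lit 4) (nat_lit 357) (nat_lit 288) (nat_lit 255)) (XT.lf (nat_lit 0) (nat_lit 271158755348) (nat_lit 76) (nat_lit 1254657997565) (nat_lit 76) (nat_lit 1253557417749) (nat_lit 1) (nat_lit 4) (nat_lit 2) (nat_lit 5) (nat_lit 2) (nat_lit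 4) (nat_lit 358) (nat_lit 288) (nat_lit 254))))))))
noncomputable def xc27 : XT := (XT.nd (nat_lit 1716) (nat_lit 0) (nat_lit 0) (XT.nd (nat_lit 858) (nat_lit 0) (nat_lit 0) (XT.nd (nat_lit 390) (nat_lit 0) (nat_lit 0) (XT.nd (nat_lit 156) (nat_lit 0) (nat_lit 0) (XT.nd (nat_lit 78) (nat_lit 0) (nat_lit 0) (XT.lf (nat_lit 0) (nat_lit 318236251812) (nat_lit 76) (nat_lit 1439343431857) (nat_lit 76) (nat_lit 1438241601623) (nat_lit 1) (nat_lit 4) (nat_lit 2) (nat_lit 5) (nat_lit 2) (nat_lit 4) (nat_lit 359) (nat_lit 288) (nat_lit 253)) (XT.lf (nat_lit 0) (nat_lit 372362102408) (nat_lit 76) (nat_lit 1651738616735) (nat_lit 76) (nat_lit 1650635699182) (nat_lit 1) (nat_lit 4) (nat_lit 2) (nat_lit 5) (nat_lit 2) (nat_lit 4) (nat_lit 360) (nat_lit 288) (nat_lit 252))) (XT.nd (nat_lit 78) (nat_lit 0) (nat_lit 0) (XT.lf (nat_lit 0) (nat_lit 434595291168) (nat_lit 76) (nat_lit 1895999110164) (nat_lit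 76) (nat_lit 1894895247116) (nat_lit 1) (nat_lit 4) (nat_lit 2) (nat_lit 5) (nat_lit 2) (nat_lit 4) (nat_lit 361) (nat_lit 288) (nat_lit 251)) (XT.nd (nat_lit 78) (nat_lit 0) (nat_lit 0) (XT.lf (nat_lit 0) (nat_lit 506153423960) (nat_lit 76) (nat_lit 2176903921798) (nat_lit 76) (nat_lit 2175799236581) (nat_lit 1) (nat_lit 4) (nat_lit 2) (nat_lit 5) (nat_lit 2) (nat_lit 4) (nat_lit 362) (nat_lit 288) (nat_lit 250)) (XT.lf (nat_lit 0) (nat_lit 588436551207) (nat_lit 76) (nat_lit 2499949015344) (nat_lit 76) (nat_lit 2498843615197) (nat_lit 1) (nat_lit 4) (nat_lit 2) (nat_lit 5) (nat_lit 2) (nat_lit 4) (nat_lit 363) (nat_lit 288) (nat_lit 249))))) (XT.nd (nat_lit 234) (nat_lit 0) (nat_lit 0) (XT.nd (nat_lit 78) (nat_lit 0) (nat_lit 0) (XT.lf (nat_lit 0) (nat_lit 683054560183) (nat_lit 76) (nat_lit 2871454838284) (nat_lit 76) (nat_lit 2870348816459) (nat_lit 1) (nat_lit 4) (nat_lit 2) (nat_lit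 5) (nat_lit 2) (nat_lit 4) (nat_lit 364) (nat_lit 288) (nat_lit 248)) (XT.nd (nat_lit 78) (nat_lit 0) (nat_lit 0) (XT.lf (nat_lit 0) (nat_lit 791858672802) (nat_lit 76) (nat_lit 3298689982806) (nat_lit 76) (nat_lit 3297583420390) (nat_lit 1) (nat_lit 4) (nat_lit 2) (nat_lit 5) (nat_lit 2) (nat_lit 4) (nat_lit 365) (nat_lit 288) (nat_lit 247)) (XT.lf (nat_lit 0) (nat_lit 916977665180) (nat_lit 76) (nat_lit 3790013397389) (nat_lit 76) (nat_lit 3788906364895) (nat_lit 1) (nat_lit 4) (nat_lit 2) (nat_lit 5) (nat_lit 2) (nat_lit 4) (nat_lit 366) (nat_lit 288) (nat_lit 246)))) (XT.nd (nat_lit 78) (nat_lit 0) (nat_lit 0) (XT.lf (nat_lit 0) (nat_lit 1060859517602) (nat_lit 76) (nat_lit 4355037931449) (nat_lit 76) (nat_lit 4353930490192) (nat_lit 1) (nat_lit 4) (nat_lit 2) (nat_lit 5) (nat_lit 2) (nat_lit 4) (nat_lit 367) (nat_lit 288) (nat_lit 245)) (XT.nd (nat_lit 78) (nat_lit 0) (nat_lit 0)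 (XT.lf (nat_lit 0) (nat_lit 1226319309791) (nat_lit 76) (nat_lit 5004818412827) (nat_lit 76) (nat_lit 5003710616123) (nat_lit 1) (nat_lit 4) (nat_lit 2) (nat_lit 5) (nat_lit 2) (nat_lit 4) (nat_lit 368) (nat_lit 288) (nat_lit 244)) (XT.lf (nat_lit 0) (nat_lit 1416594298550) (nat_lit 76) (nat_lit 5752067937897) (nat_lit 76) (nat_lit 5750959832109) (nat_lit 1) (nat_lit 4) (nat_lit 2) (nat_lit 5) (nat_lit 2) (nat_lit 4) (nat_lit 369) (nat_lit 288) (nat_lit 243)))))) (XT.nd (nat_lit 390) (nat_lit 0) (nat_lit 0) (XT.nd (nat_lit 156) (nat_lit 0) (nat_lit 0) (XT.nd (nat_lit 78) (nat_lit 0) (nat_lit 0) (XT.lf (nat_lit 0) (nat_lit 1635407255398) (nat_lit 76) (nat_lit 6611406606063) (nat_lit 76) (nat_lit 6610298231507) (nat_lit 1) (nat_lit 4) (nat_lit 2) (nat_lit 5) (nat_lit 2) (nat_lit 4) (nat_lit 370) (nat_lit 288) (nat_lit 242)) (XT.lf (nat_lit 0) (nat_lit 1887039303404) (nat_lit 76) (nat_lit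 7599647565180) (nat_lit 76) (nat_lit 7598538956912) (nat_lit 1) (nat_lit 4) (nat_lit 2) (nat_lit 5) (nat_lit 2) (nat_lit 4) (nat_lit 371) (nat_lit 288) (nat_lit 241))) (XT.nd (nat_lit 78) (nat_lit 0) (nat_lit 0) (XT.lf (nat_lit 0) (nat_lit 2176413678290) (nat_lit 76) (nat_lit 8736125964449) (nat_lit 76) (nat_lit 8735017152953) (nat_lit 1) (nat_lit 4) (nat_lit 2) (nat_lit 5) (nat_lit 2) (nat_lit 4) (nat_lit 372) (nat_lit 288) (nat_lit 240)) (XT.nd (nat_lit 78) (nat_lit 0) (nat_lit 0) (XT.lf (nat_lit 0) (nat_lit 2509192052607) (nat_lit 76) (nat_lit 10043077250812) (nat_lit 76) (nat_lit 10041968262596) (nat_lit 1) (nat_lit 4) (nat_lit 2) (nat_lit 5) (nat_lit 2) (nat_lit 4) (nat_lit 373) (nat_lit 288) (nat_lit 239)) (XT.lf (nat_lit 0) (nat_lit 2891885307593) (nat_lit 76) (nat_lit 11546072210305) (nat_lit 76) (nat_lit 11544963068420) (nat_lit 1) (nat_lit 4) (nat_lit 2) (nat_lit 5) (nat_lit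 2) (nat_lit 4) (nat_lit 374) (nat_lit 288) (nat_lit 238))))) (XT.nd (nat_lit 234) (nat_lit 0) (nat_lit 0) (XT.nd (nat_lit 78) (nat_lit 0) (nat_lit 0) (XT.lf (nat_lit 0) (nat_lit 3331980919976) (nat_lit 76) (nat_lit 13274517266051) (nat_lit 76) (nat_lit 13273407990540) (nat_lit 1) (nat_lit 4) (nat_lit 2) (nat_lit 5) (nat_lit 2) (nat_lit 4) (nat_lit 375) (nat_lit 288) (nat_lit 237)) (XT.nd (nat_lit 78) (nat_lit 0) (nat_lit 0) (XT.lf (nat_lit 0) (nat_lit 3838089456084) (nat_lit 76) (nat_lit 15262229821312) (nat_lit 76) (nat_lit 15261120429606) (nat_lit 1) (nat_lit 4) (nat_lit 2) (nat_lit 5) (nat_lit 2) (nat_lit 4) (nat_lit 376) (nat_lit 288) (nat_lit 236)) (XT.lf (nat_lit 0) (nat_lit 4420113039450) (nat_lit 76) (nat_lit 17548099904345) (nat_lit 76) (nat_lit 17546990411599) (nat_lit 1) (nat_lit 4) (nat_lit 2) (nat_lit 5) (nat_lit 2) (nat_lit 4) (nat_lit 377) (nat_lit 288) (nat_lit 235))))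 (XT.nd (nat_lit 78) (nat_lit 0) (nat_lit 0) (XT.lf (nat_lit 0) (nat_lit 5089439088010) (nat_lit 76) (nat_lit 20176851060253) (nat_lit 76) (nat_lit 20175741479645) (nat_lit 1) (nat_lit 4) (nat_lit 2) (nat_lit 5) (nat_lit 2) (nat_lit 4) (nat_lit 378) (nat_lit 288) (nat_lit 234)) (XT.nd (nat_lit 78) (nat_lit 0) (nat_lit 0) (XT.lf (nat_lit 0) (nat_lit 5859163111410) (nat_lit 76) (nat_lit 23199915376867) (nat_lit 76) (nat_lit 23198805719859) (nat_lit 1) (nat_lit 4) (nat_lit 2) (nat_lit 5) (nat_lit 2) (nat_lit 4) (nat_lit 379) (nat_lit 288) (nat_lit 233)) (XT.lf (nat_lit 0) (nat_lit 6744344927498) (nat_lit 76) (nat_lit 26676439764731) (nat_lit 76) (nat_lit 26675330041287) (nat_lit 1) (nat_lit 4) (nat_lit 2) (nat_lit 5) (nat_lit 2) (nat_lit 4) (nat_lit 380) (nat_lit 288) (nat_lit 232))))))) (XT.nd (nat_lit 42588) (nat_lit 0) (nat_lit 76) (XT.nd (nat_lit 390) (nat_lit 0) (nat_lit 0) (XT.nd (nat_lit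 156) (nat_lit 0) (nat_lit 0) (XT.nd (nat_lit 78) (nat_lit 0) (nat_lit 0) (XT.lf (nat_lit 0) (nat_lit 7762303310938) (nat_lit 76) (nat_lit 30674443179260) (nat_lit 76) (nat_lit 30673333398046) (nat_lit 1) (nat_lit 4) (nat_lit 2) (nat_lit 5) (nat_lit 2) (nat_lit 4) (nat_lit 381) (nat_lit 288) (nat_lit 231)) (XT.lf (nat_lit 0) (nat_lit 8932954838795) (nat_lit 76) (nat_lit 35272147426389) (nat_lit 76) (nat_lit 35271037594940) (nat_lit 1) (nat_lit 4) (nat_lit 2) (nat_lit 5) (nat_lit 2) (nat_lit 4) (nat_lit 382) (nat_lit 288) (nat_lit 230))) (XT.nd (nat_lit 78) (nat_lit 0) (nat_lit 0) (XT.lf (nat_lit 0) (nat_lit 10279203562703) (nat_lit 76) (nat_lit 40559507589215) (nat_lit 76) (nat_lit 40558397714084) (nat_lit 1) (nat_lit 4) (nat_lit 2) (nat_lit 5) (nat_lit 2) (nat_lit 4) (nat_lit 383) (nat_lit 288) (nat_lit 229)) (XT.nd (nat_lit 78) (nat_lit 0) (nat_lit 0) (XT.lf (nat_lit 0) (nat_lit 11827389131608)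 (nat_lit 76) (nat_lit 46639972018750) (nat_lit 76) (nat_lit 46638862105634) (nat_lit 1) (nat_lit 4) (nat_lit 2) (nat_lit 5) (nat_lit 2) (nat_lit 4) (nat_lit 384) (nat_lit 288) (nat_lit 228)) (XT.lf (nat_lit 0) (nat_lit 13607802132727) (nat_lit 76) (nat_lit 53632506323398) (nat_lit 76) (nat_lit 53631396377251) (nat_lit 1) (nat_lit 4) (nat_lit 2) (nat_lit 5) (nat_lit 2) (nat_lit 4) (nat_lit 385) (nat_lit 288) (nat_lit 227))))) (XT.nd (nat_lit 41964) (nat_lit 0) (nat_lit 304) (XT.nd (nat_lit 78) (nat_lit 0) (nat_lit 0) (XT.lf (nat_lit 0) (nat_lit 15655276733473) (nat_lit 76) (nat_lit 61673920956944) (nat_lit 76) (nat_lit 61672810982076) (nat_lit 1) (nat_lit 4) (nat_lit 2) (nat_lit 5) (nat_lit 2) (nat_lit 4) (nat_lit 386) (nat_lit 288) (nat_lit 226)) (XT.nd (nat_lit 41808) (nat_lit 0) (nat_lit 456) (XT.lf (nat_lit 0) (nat_lit 18009872219514) (nat_lit 76) (nat_lit 70921547944829) (nat_lit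 76) (nat_lit 70920437944985) (nat_lit 1) (nat_lit 4) (nat_lit 2) (nat_lit 5) (nat_lit 2) (nat_lit 4) (nat_lit 387) (nat_lit 288) (nat_lit 225)) (XT.lf (nat_lit 0) (nat_lit 7564693301) (nat_lit 76) (nat_lit 2055639054) (nat_lit 76) (nat_lit 2055639054) (nat_lit 7) (nat_lit 4) (nat_lit 8) (nat_lit 5) (nat_lit 8) (nat_lit 4) (nat_lit 322) (nat_lit 289) (nat_lit 289)))) (XT.nd (nat_lit 78) (nat_lit 0) (nat_lit 0) (XT.lf (nat_lit 0) (nat_lit 1749486728) (nat_lit 152) (nat_lit 22633361721) (nat_lit 0) (nat_lit 1557983033) (nat_lit 5) (nat_lit 5) (nat_lit 7) (nat_lit 4) (nat_lit 5) (nat_lit 4) (nat_lit 323) (nat_lit 289) (nat_lit 288)) (XT.nd (nat_lit 78) (nat_lit 0) (nat_lit 0) (XT.lf (nat_lit 0) (nat_lit 8126204211) (nat_lit 152) (nat_lit 12985793250) (nat_lit 0) (nat_lit 7768175564) (nat_lit 5) (nat_lit 5) (nat_lit 7) (nat_lit 4) (nat_lit 5) (nat_lit 4) (nat_lit 324) (nat_lit 289) (nat_lit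 287)) (XT.lf (nat_lit 0) (nat_lit 14947861056) (nat_lit 152) (nat_lit 2944391466) (nat_lit 0) (nat_lit 14445028103) (nat_lit 5) (nat_lit 5) (nat_lit 7) (nat_lit 4) (nat_lit 5) (nat_lit 4) (nat_lit 325) (nat_lit 289) (nat_lit 286)))))) (XT.nd (nat_lit 390) (nat_lit 0) (nat_lit 0) (XT.nd (nat_lit 156) (nat_lit 152) (nat_lit 0) (XT.nd (nat_lit 78) (nat_lit 0) (nat_lit 0) (XT.lf (nat_lit 0) (nat_lit 8438565274) (nat_lit 76) (nat_lit 14258782182) (nat_lit 76) (nat_lit 13630032441) (nat_lit 4) (nat_lit 4) (nat_lit 5) (nat_lit 5) (nat_lit 5) (nat_lit 4) (nat_lit 326) (nat_lit 289) (nat_lit 285)) (XT.lf (nat_lit 0) (nat_lit 20985592718) (nat_lit 76) (nat_lit 10354554205) (nat_lit 76) (nat_lit 9616311605) (nat_lit 4) (nat_lit 4) (nat_lit 5) (nat_lit 5) (nat_lit 5) (nat_lit 4) (nat_lit 327) (nat_lit 289) (nat_lit 284))) (XT.nd (nat_lit 78) (nat_lit 152) (nat_lit 0) (XT.lf (nat_lit 0) (nat_lit 34654428837)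 (nat_lit 76) (nat_lit 6257092896) (nat_lit 76) (nat_lit 5423639114) (nat_lit 4) (nat_lit 4) (nat_lit 5) (nat_lit 5) (nat_lit 5) (nat_lit 4) (nat_lit 328) (nat_lit 289) (nat_lit 283)) (XT.nd (nat_lit 78) (nat_lit 152) (nat_lit 0) (XT.lf (nat_lit 0) (nat_lit 49712507382) (nat_lit 76) (nat_lit 1886230533) (nat_lit 76) (nat_lit 969984419) (nat_lit 4) (nat_lit 4) (nat_lit 5) (nat_lit 5) (nat_lit 5) (nat_lit 4) (nat_lit 329) (nat_lit 289) (nat_lit 282)) (XT.lf (nat_lit 0) (nat_lit 3926275446) (nat_lit 152) (nat_lit 52696749006) (nat_lit 0) (nat_lit 3066936796) (nat_lit 2) (nat_lit 5) (nat_lit 4) (nat_lit 4) (nat_lit 2) (nat_lit 4) (nat_lit 330) (nat_lit 289) (nat_lit 281))))) (XT.nd (nat_lit 234) (nat_lit 0) (nat_lit 0) (XT.nd (nat_lit 78) (nat_lit 0) (nat_lit 0) (XT.lf (nat_lit 0) (nat_lit 9414249077) (nat_lit 152) (nat_lit 49964296647) (nat_lit 0) (nat_lit 8500473125) (nat_lit 2) (nat_lit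 5) (nat_lit 4) (nat_lit 4) (nat_lit 2) (nat_lit 4) (nat_lit 331) (nat_lit 289) (nat_lit 280)) (XT.nd (nat_lit 78) (nat_lit 0) (nat_lit 0) (XT.lf (nat_lit 0) (nat_lit 15473549571) (nat_lit 152) (nat_lit 47348271422) (nat_lit 0) (nat_lit 14512436835) (nat_lit 2) (nat_lit 5) (nat_lit 4) (nat_lit 4) (nat_lit 2) (nat_lit 4) (nat_lit 332) (nat_lit 289) (nat_lit 279)) (XT.lf (nat_lit 0) (nat_lit 22222728461) (nat_lit 152) (nat_lit 44797490229) (nat_lit 0) (nat_lit 21220453304) (nat_lit 2) (nat_lit 5) (nat_lit 4) (nat_lit 4) (nat_lit 2) (nat_lit 4) (nat_lit 333) (nat_lit 289) (nat_lit 278)))) (XT.nd (nat_lit 78) (nat_lit 0) (nat_lit 0) (XT.lf (nat_lit 0) (nat_lit 29793834898) (nat_lit 152) (nat_lit 42262046480) (nat_lit 0) (nat_lit 28755766331) (nat_lit 2) (nat_lit 5) (nat_lit 4) (nat_lit 4) (nat_lit 2) (nat_lit 4) (nat_lit 334) (nat_lit 289) (nat_lit 277)) (XT.nd (nat_lit 78) (nat_lit 0) (nat_lit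 0) (XT.lf (nat_lit 0) (nat_lit 38334999226) (nat_lit 152) (nat_lit 39692333666) (nat_lit 0) (nat_lit 37265805955) (nat_lit 2) (nat_lit 5) (nat_lit 4) (nat_lit 4) (nat_lit 2) (nat_lit 4) (nat_lit 335) (nat_lit 289) (nat_lit 276)) (XT.lf (nat_lit 0) (nat_lit 48013331182) (nat_lit 152) (nat_lit 37038074797) (nat_lit 0) (nat_lit 46917072950) (nat_lit 2) (nat_lit 5) (nat_lit 4) (nat_lit 4) (nat_lit 2) (nat_lit 4) (nat_lit 336) (nat_lit 289) (nat_lit 275))))))))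
noncomputable def xc28 : XT := (XT.nd (nat_lit 1638) (nat_lit 0) (nat_lit 0) (XT.nd (nat_lit 780) (nat_lit 0) (nat_lit 0) (XT.nd (nat_lit 390) (nat_lit 76) (nat_lit 0) (XT.nd (nat_lit 156) (nat_lit 0) (nat_lit 0) (XT.nd (nat_lit 78) (nat_lit 0) (nat_lit 0) (XT.lf (nat_lit 0) (nat_lit 59018189434) (nat_lit 152) (nat_lit 34247338723) (nat_lit 0) (nat_lit 57898396454) (nat_lit 2) (nat_lit 5) (nat_lit 4) (nat_lit 4) (nat_lit 2) (nat_lit 4) (nat_lit 337) (nat_lit 289) (nat_lit 274)) (XT.lf (nat_lit 0) (nat_lit 71564886426) (nat_lit 152) (nat_lit 31265524084) (nat_lit 0) (nat_lit 70424628448) (nat_lit 2) (nat_lit 5) (nat_lit 4) (nat_lit 4) (nat_lit 2) (nat_lit 4) (nat_lit 338) (nat_lit 289) (nat_lit 273))) (XT.nd (nat_lit 78) (nat_lit 0) (nat_lit 0) (XT.lf (nat_lit 0) (nat_lit 85898901013) (nat_lit 152) (nat_lit 28034291029) (nat_lit 0) (nat_lit 84740847384) (nat_lit 2) (nat_lit 5) (nat_lit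 4) (nat_lit 4) (nat_lit 2) (nat_lit 4) (nat_lit 339) (nat_lit 289) (nat_lit 272)) (XT.nd (nat_lit 78) (nat_lit 0) (nat_lit 0) (XT.lf (nat_lit 0) (nat_lit 102300681305) (nat_lit 152) (nat_lit 24490419782) (nat_lit 0) (nat_lit 101127153198) (nat_lit 2) (nat_lit 5) (nat_lit 4) (nat_lit 4) (nat_lit 2) (nat_lit 4) (nat_lit 340) (nat_lit 289) (nat_lit 271)) (XT.lf (nat_lit 0) (nat_lit 121091131701) (nat_lit 152) (nat_lit 20564573730) (nat_lit 0) (nat_lit 119904147525) (nat_lit 2) (nat_lit 5) (nat_lit 4) (nat_lit 4) (nat_lit 2) (nat_lit 4) (nat_lit 341) (nat_lit 289) (nat_lit 270))))) (XT.nd (nat_lit 156) (nat_lit 76) (nat_lit 0) (XT.nd (nat_lit 78) (nat_lit 0) (nat_lit 0) (XT.lf (nat_lit 0) (nat_lit 142637891446) (nat_lit 152) (nat_lit 16179942842) (nat_lit 0) (nat_lit 141439206341) (nat_lit 2) (nat_lit 5) (nat_lit 4) (nat_lit 4) (nat_lit 2) (nat_lit 4) (nat_lit 342) (nat_lit 289) (nat_lit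 269)) (XT.lf (nat_lit 0) (nat_lit 167362527580) (nat_lit 152) (nat_lit 11250740862) (nat_lit 0) (nat_lit 166153667754) (nat_lit 2) (nat_lit 5) (nat_lit 4) (nat_lit 4) (nat_lit 2) (nat_lit 4) (nat_lit 343) (nat_lit 289) (nat_lit 268))) (XT.nd (nat_lit 78) (nat_lit 76) (nat_lit 0) (XT.lf (nat_lit 0) (nat_lit 195748782983) (nat_lit 152) (nat_lit 5680526881) (nat_lit 0) (nat_lit 194531075574) (nat_lit 2) (nat_lit 5) (nat_lit 4) (nat_lit 4) (nat_lit 2) (nat_lit 4) (nat_lit 344) (nat_lit 289) (nat_lit 267)) (XT.nd (nat_lit 78) (nat_lit 0) (nat_lit 0) (XT.lf (nat_lit 0) (nat_lit 702195880) (nat_lit 76) (nat_lit 227678921467) (nat_lit 76) (nat_lit 226453520507) (nat_lit 1) (nat_lit 4) (nat_lit 2) (nat_lit 5) (nat_lit 2) (nat_lit 4) (nat_lit 345) (nat_lit 289) (nat_lit 266)) (XT.lf (nat_lit 0) (nat_lit 8599091242) (nat_lit 76) (nat_lit 257567169989) (nat_lit 76) (nat_lit 256335078984) (nat_lit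 1) (nat_lit 4) (nat_lit 2) (nat_lit 5) (nat_lit 2) (nat_lit 4) (nat_lit 346) (nat_lit 289) (nat_lit 265)))))) (XT.nd (nat_lit 390) (nat_lit 0) (nat_lit 0) (XT.nd (nat_lit 156) (nat_lit 0) (nat_lit 0) (XT.nd (nat_lit 78) (nat_lit 0) (nat_lit 0) (XT.lf (nat_lit 0) (nat_lit 17609521278) (nat_lit 76) (nat_lit 291975762141) (nat_lit 76) (nat_lit 290737853707) (nat_lit 1) (nat_lit 4) (nat_lit 2) (nat_lit 5) (nat_lit 2) (nat_lit 4) (nat_lit 347) (nat_lit 289) (nat_lit 264)) (XT.lf (nat_lit 0) (nat_lit 27909777012) (nat_lit 76) (nat_lit 331577909511) (nat_lit 76) (nat_lit 330334942442) (nat_lit 1) (nat_lit 4) (nat_lit 2) (nat_lit 5) (nat_lit 2) (nat_lit 4) (nat_lit 348) (nat_lit 289) (nat_lit 263))) (XT.nd (nat_lit 78) (nat_lit 0) (nat_lit 0) (XT.lf (nat_lit 0) (nat_lit 39701385185) (nat_lit 76) (nat_lit 377148436720) (nat_lit 76) (nat_lit 375901070838) (nat_lit 1) (nat_lit 4) (nat_lit 2) (nat_lit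 5) (nat_lit 2) (nat_lit 4) (nat_lit 349) (nat_lit 289) (nat_lit 262)) (XT.nd (nat_lit 78) (nat_lit 0) (nat_lit 0) (XT.lf (nat_lit 0) (nat_lit 53215051175) (nat_lit 76) (nat_lit 429578941040) (nat_lit 76) (nat_lit 428327750103) (nat_lit 1) (nat_lit 4) (nat_lit 2) (nat_lit 5) (nat_lit 2) (nat_lit 4) (nat_lit 350) (nat_lit 289) (nat_lit 261)) (XT.lf (nat_lit 0) (nat_lit 68715172795) (nat_lit 76) (nat_lit 489895236685) (nat_lit 76) (nat_lit 488640719614) (nat_lit 1) (nat_lit 4) (nat_lit 2) (nat_lit 5) (nat_lit 2) (nat_lit 4) (nat_lit 351) (nat_lit 289) (nat_lit 260))))) (XT.nd (nat_lit 234) (nat_lit 0) (nat_lit 0) (XT.nd (nat_lit 78) (nat_lit 0) (nat_lit 0) (XT.lf (nat_lit 0) (nat_lit 86505013294) (nat_lit 76) (nat_lit 559277425093) (nat_lit 76) (nat_lit 558020015732) (nat_lit 1) (nat_lit 4) (nat_lit 2) (nat_lit 5) (nat_lit 2) (nat_lit 4) (nat_lit 352) (nat_lit 289) (nat_lit 259)) (XT.nd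 (nat_lit 78) (nat_lit 0) (nat_lit 0) (XT.lf (nat_lit 0) (nat_lit 106932634769) (nat_lit 76) (nat_lit 639082983862) (nat_lit 76) (nat_lit 637823059466) (nat_lit 1) (nat_lit 4) (nat_lit 2) (nat_lit 5) (nat_lit 2) (nat_lit 4) (nat_lit 353) (nat_lit 289) (nat_lit 258)) (XT.lf (nat_lit 0) (nat_lit 130397708074) (nat_lit 76) (nat_lit 730873326100) (nat_lit 76) (nat_lit 729611214716) (nat_lit 1) (nat_lit 4) (nat_lit 2) (nat_lit 5) (nat_lit 2) (nat_lit 4) (nat_lit 354) (nat_lit 289) (nat_lit 257)))) (XT.nd (nat_lit 78) (nat_lit 0) (nat_lit 0) (XT.lf (nat_lit 0) (nat_lit 157359332470) (nat_lit 76) (nat_lit 836444349805) (nat_lit 76) (nat_lit 835180336693) (nat_lit 1) (nat_lit 4) (nat_lit 2) (nat_lit 5) (nat_lit 2) (nat_lit 4) (nat_lit 355) (nat_lit 289) (nat_lit 256)) (XT.nd (nat_lit 78) (nat_lit 0) (nat_lit 0) (XT.lf (nat_lit 0) (nat_lit 188345018000) (nat_lit 76) (nat_lit 957861575008) (nat_lit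 76) (nat_lit 956595908219) (nat_lit 1) (nat_lit 4) (nat_lit 2) (nat_lit 5) (nat_lit 2) (nat_lit 4) (nat_lit 356) (nat_lit 289) (nat_lit 255)) (XT.lf (nat_lit 0) (nat_lit 223961006336) (nat_lit 76) (nat_lit 1097500556114) (nat_lit 76) (nat_lit 1096233451346) (nat_lit 1) (nat_lit 4) (nat_lit 2) (nat_lit 5) (nat_lit 2) (nat_lit 4) (nat_lit 357) (nat_lit 289) (nat_lit 254))))))) (XT.nd (nat_lit 858) (nat_lit 0) (nat_lit 0) (XT.nd (nat_lit 390) (nat_lit 0) (nat_lit 0) (XT.nd (nat_lit 156) (nat_lit 0) (nat_lit 0) (XT.nd (nat_lit 78) (nat_lit 0) (nat_lit 0) (XT.lf (nat_lit 0) (nat_lit 264904132034) (nat_lit 76) (nat_lit 1258093360146) (nat_lit 76) (nat_lit 1256825004960) (nat_lit 1) (nat_lit 4) (nat_lit 2) (nat_lit 5) (nat_lit 2) (nat_lit 4) (nat_lit 358) (nat_lit 289) (nat_lit 253)) (XT.lf (nat_lit 0) (nat_lit 311975456248) (nat_lit 76) (nat_lit 1442782020224) (nat_lit 76) (nat_lit 1441512577719)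 (nat_lit 1) (nat_lit 4) (nat_lit 2) (nat_lit 5) (nat_lit 2) (nat_lit 4) (nat_lit 359) (nat_lit 289) (nat_lit 252))) (XT.nd (nat_lit 78) (nat_lit 0) (nat_lit 0) (XT.lf (nat_lit 0) (nat_lit 366095939669) (nat_lit 76) (nat_lit 1655180010134) (nat_lit 76) (nat_lit 1653909622135) (nat_lit 1) (nat_lit 4) (nat_lit 2) (nat_lit 5) (nat_lit 2) (nat_lit 4) (nat_lit 360) (nat_lit 289) (nat_lit 251)) (XT.nd (nat_lit 78) (nat_lit 0) (nat_lit 0) (XT.lf (nat_lit 0) (nat_lit 428324461321) (nat_lit 76) (nat_lit 1899442942722) (nat_lit 76) (nat_lit 1898171732553) (nat_lit 1) (nat_lit 4) (nat_lit 2) (nat_lit 5) (nat_lit 2) (nat_lit 4) (nat_lit 361) (nat_lit 289) (nat_lit 250)) (XT.lf (nat_lit 0) (nat_lit 499878535758) (nat_lit 76) (nat_lit 2180349875364) (nat_lit 76) (nat_lit 2179077950265) (nat_lit 1) (nat_lit 4) (nat_lit 2) (nat_lit 5) (nat_lit 2) (nat_lit 4) (nat_lit 362) (nat_lit 289) (nat_lit 249)))))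 (XT.nd (nat_lit 234) (nat_lit 0) (nat_lit 0) (XT.nd (nat_lit 78) (nat_lit 0) (nat_lit 0) (XT.lf (nat_lit 0) (nat_lit 582158134002) (nat_lit 76) (nat_lit 2503396813265) (nat_lit 76) (nat_lit 2502124266487) (nat_lit 1) (nat_lit 4) (nat_lit 2) (nat_lit 5) (nat_lit 2) (nat_lit 4) (nat_lit 363) (nat_lit 289) (nat_lit 248)) (XT.nd (nat_lit 78) (nat_lit 0) (nat_lit 0) (XT.lf (nat_lit 0) (nat_lit 676773074278) (nat_lit 76) (nat_lit 2874904239991) (nat_lit 76) (nat_lit 2873631152624) (nat_lit 1) (nat_lit 4) (nat_lit 2) (nat_lit 5) (nat_lit 2) (nat_lit 4) (nat_lit 364) (nat_lit 289) (nat_lit 247)) (XT.lf (nat_lit 0) (nat_lit 785574518462) (nat_lit 76) (nat_lit 3302140779109) (nat_lit 76) (nat_lit 3300867221664) (nat_lit 1) (nat_lit 4) (nat_lit 2) (nat_lit 5) (nat_lit 2) (nat_lit 4) (nat_lit 365) (nat_lit 289) (nat_lit 246)))) (XT.nd (nat_lit 78) (nat_lit 0) (nat_lit 0) (XT.lf (nat_lit 0) (nat_lit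 910691190463) (nat_lit 76) (nat_lit 3793465406385) (nat_lit 76) (nat_lit 3792191440176) (nat_lit 1) (nat_lit 4) (nat_lit 2) (nat_lit 5) (nat_lit 2) (nat_lit 4) (nat_lit 366) (nat_lit 289) (nat_lit 245)) (XT.nd (nat_lit 78) (nat_lit 0) (nat_lit 0) (XT.lf (nat_lit 0) (nat_lit 1054571025166) (nat_lit 76) (nat_lit 4358490994961) (nat_lit 76) (nat_lit 4357216673305) (nat_lit 1) (nat_lit 4) (nat_lit 2) (nat_lit 5) (nat_lit 2) (nat_lit 4) (nat_lit 367) (nat_lit 289) (nat_lit 244)) (XT.lf (nat_lit 0) (nat_lit 1220029062816) (nat_lit 76) (nat_lit 5008272393309) (nat_lit 76) (nat_lit 5006997762569) (nat_lit 1) (nat_lit 4) (nat_lit 2) (nat_lit 5) (nat_lit 2) (nat_lit 4) (nat_lit 368) (nat_lit 289) (nat_lit 243)))))) (XT.nd (nat_lit 390) (nat_lit 0) (nat_lit 0) (XT.nd (nat_lit 156) (nat_lit 0) (nat_lit 0) (XT.nd (nat_lit 78) (nat_lit 0) (nat_lit 0) (XT.lf (nat_lit 0) (nat_lit 1410302525889) (nat_lit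 76) (nat_lit 5755522715745) (nat_lit 76) (nat_lit 5754247816236) (nat_lit 1) (nat_lit 4) (nat_lit 2) (nat_lit 5) (nat_lit 2) (nat_lit 4) (nat_lit 369) (nat_lit 289) (nat_lit 242)) (XT.lf (nat_lit 0) (nat_lit 1629114156053) (nat_lit 76) (nat_lit 6614862077272) (nat_lit 76) (nat_lit 6613586944051) (nat_lit 1) (nat_lit 4) (nat_lit 2) (nat_lit 5) (nat_lit 2) (nat_lit 4) (nat_lit 370) (nat_lit 289) (nat_lit 241))) (XT.nd (nat_lit 78) (nat_lit 0) (nat_lit 0) (XT.lf (nat_lit 0) (nat_lit 1880745050422) (nat_lit 76) (nat_lit 7603103639312) (nat_lit 76) (nat_lit 7601828302864) (nat_lit 1) (nat_lit 4) (nat_lit 2) (nat_lit 5) (nat_lit 2) (nat_lit 4) (nat_lit 371) (nat_lit 289) (nat_lit 240)) (XT.nd (nat_lit 78) (nat_lit 0) (nat_lit 0) (XT.lf (nat_lit 0) (nat_lit 2170118422144) (nat_lit 76) (nat_lit 8739582562861) (nat_lit 76) (nat_lit 8738307049693) (nat_lit 1) (nat_lit 4) (nat_lit 2) (nat_lit 5)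 (nat_lit 2) (nat_lit 4) (nat_lit 372) (nat_lit 289) (nat_lit 239)) (XT.lf (nat_lit 0) (nat_lit 2502895924146) (nat_lit 76) (nat_lit 10046534305120) (nat_lit 76) (nat_lit 10045258638283) (nat_lit 1) (nat_lit 4) (nat_lit 2) (nat_lit 5) (nat_lit 2) (nat_lit 4) (nat_lit 373) (nat_lit 289) (nat_lit 238))))) (XT.nd (nat_lit 234) (nat_lit 0) (nat_lit 0) (XT.nd (nat_lit 78) (nat_lit 0) (nat_lit 0) (XT.lf (nat_lit 0) (nat_lit 2885588420596) (nat_lit 76) (nat_lit 11549529661045) (nat_lit 76) (nat_lit 11548253860582) (nat_lit 1) (nat_lit 4) (nat_lit 2) (nat_lit 5) (nat_lit 2) (nat_lit 4) (nat_lit 374) (nat_lit 289) (nat_lit 237)) (XT.nd (nat_lit 78) (nat_lit 0) (nat_lit 0) (XT.lf (nat_lit 0) (nat_lit 3325683373382) (nat_lit 76) (nat_lit 13277975061513) (nat_lit 76) (nat_lit 13276699144855) (nat_lit 1) (nat_lit 4) (nat_lit 2) (nat_lit 5) (nat_lit 2) (nat_lit 4) (nat_lit 375) (nat_lit 289) (nat_lit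 236)) (XT.lf (nat_lit 0) (nat_lit 3831791335929) (nat_lit 76) (nat_lit 15265687916534) (nat_lit 76) (nat_lit 15264411898835) (nat_lit 1) (nat_lit 4) (nat_lit 2) (nat_lit 5) (nat_lit 2) (nat_lit 4) (nat_lit 376) (nat_lit 289) (nat_lit 235)))) (XT.nd (nat_lit 78) (nat_lit 0) (nat_lit 0) (XT.lf (nat_lit 0) (nat_lit 4413814420546) (nat_lit 76) (nat_lit 17551558260227) (nat_lit 76) (nat_lit 17550282154668) (nat_lit 1) (nat_lit 4) (nat_lit 2) (nat_lit 5) (nat_lit 2) (nat_lit 4) (nat_lit 377) (nat_lit 289) (nat_lit 234)) (XT.nd (nat_lit 78) (nat_lit 0) (nat_lit 0) (XT.lf (nat_lit 0) (nat_lit 5083140035411) (nat_lit 76) (nat_lit 20180309642796) (nat_lit 76) (nat_lit 20179033460835) (nat_lit 1) (nat_lit 4) (nat_lit 2) (nat_lit 5) (nat_lit 2) (nat_lit 4) (nat_lit 378) (nat_lit 289) (nat_lit 233)) (XT.lf (nat_lit 0) (nat_lit 5852863681684) (nat_lit 76) (nat_lit 23203374156507) (nat_lit 76) (nat_lit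 23202097908110) (nat_lit 1) (nat_lit 4) (nat_lit 2) (nat_lit 5) (nat_lit 2) (nat_lit 4) (nat_lit 379) (nat_lit 289) (nat_lit 232))))))))
noncomputable def xc29 : XT := (XT.nd (nat_lit 43056) (nat_lit 0) (nat_lit 0) (XT.nd (nat_lit 42198) (nat_lit 0) (nat_lit 76) (XT.nd (nat_lit 390) (nat_lit 0) (nat_lit 0) (XT.nd (nat_lit 156) (nat_lit 0) (nat_lit 0) (XT.nd (nat_lit 78) (nat_lit 0) (nat_lit 0) (XT.lf (nat_lit 0) (nat_lit 6738045169836) (nat_lit 76) (nat_lit 26679898715759) (nat_lit 76) (nat_lit 26678622409593) (nat_lit 1) (nat_lit 4) (nat_lit 2) (nat_lit 5) (nat_lit 2) (nat_lit 4) (nat_lit 380) (nat_lit 289) (nat_lit 231)) (XT.lf (nat_lit 0) (nat_lit 7756003268114) (nat_lit 76) (nat_lit 30677902279321) (nat_lit 76) (nat_lit 30676625922920) (nat_lit 1) (nat_lit 4) (nat_lit 2) (nat_lit 5) (nat_lit 2) (nat_lit 4) (nat_lit 381) (nat_lit 289) (nat_lit 230))) (XT.nd (nat_lit 78) (nat_lit 0)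 (nat_lit 0) (XT.lf (nat_lit 0) (nat_lit 8926654548005) (nat_lit 76) (nat_lit 35275606656044) (nat_lit 76) (nat_lit 35274330255961) (nat_lit 1) (nat_lit 4) (nat_lit 2) (nat_lit 5) (nat_lit 2) (nat_lit 4) (nat_lit 382) (nat_lit 289) (nat_lit 229)) (XT.nd (nat_lit 78) (nat_lit 0) (nat_lit 0) (XT.lf (nat_lit 0) (nat_lit 10272903056290) (nat_lit 76) (nat_lit 40562966931561) (nat_lit 76) (nat_lit 40561690493493) (nat_lit 1) (nat_lit 4) (nat_lit 2) (nat_lit 5) (nat_lit 2) (nat_lit 4) (nat_lit 383) (nat_lit 289) (nat_lit 228)) (XT.lf (nat_lit 0) (nat_lit 11821088437697) (nat_lit 76) (nat_lit 46643431459088) (nat_lit 76) (nat_lit 46642154987989) (nat_lit 1) (nat_lit 4) (nat_lit 2) (nat_lit 5) (nat_lit 2) (nat_lit 4) (nat_lit 384) (nat_lit 289) (nat_lit 227))))) (XT.nd (nat_lit 1560) (nat_lit 0) (nat_lit 0) (XT.nd (nat_lit 78) (nat_lit 0) (nat_lit 0) (XT.lf (nat_lit 0) (nat_lit 13601501275773)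 (nat_lit 76) (nat_lit 53635965848945) (nat_lit 76) (nat_lit 53634689349125) (nat_lit 1) (nat_lit 4) (nat_lit 2) (nat_lit 5) (nat_lit 2) (nat_lit 4) (nat_lit 385) (nat_lit 289) (nat_lit 226)) (XT.nd (nat_lit 78) (nat_lit 0) (nat_lit 0) (XT.lf (nat_lit 0) (nat_lit 15648975734744) (nat_lit 76) (nat_lit 61677380556588) (nat_lit 76) (nat_lit 61676104031792) (nat_lit 1) (nat_lit 4) (nat_lit 2) (nat_lit 5) (nat_lit 2) (nat_lit 4) (nat_lit 386) (nat_lit 289) (nat_lit 225)) (XT.lf (nat_lit 0) (nat_lit 18003571097501) (nat_lit 76) (nat_lit 70925007608904) (nat_lit 76) (nat_lit 70923731062390) (nat_lit 1) (nat_lit 4) (nat_lit 2) (nat_lit 5) (nat_lit 2) (nat_lit 4) (nat_lit 387) (nat_lit 289) (nat_lit 224)))) (XT.nd (nat_lit 78) (nat_lit 0) (nat_lit 0) (XT.lf (nat_lit 0) (nat_lit 223352030151736) (nat_lit 76) (nat_lit 877427344878692) (nat_lit 76) (nat_lit 877426068199095) (nat_lit 1) (nat_lit 4)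 (nat_lit 2) (nat_lit 5) (nat_lit 2) (nat_lit 4) (nat_lit 405) (nat_lit 289) (nat_lit 206)) (XT.nd (nat_lit 78) (nat_lit 0) (nat_lit 0) (XT.lf (nat_lit 0) (nat_lit 256862082034144) (nat_lit 76) (nat_lit 1009037467437950) (nat_lit 76) (nat_lit 1009036190756822) (nat_lit 1) (nat_lit 4) (nat_lit 2) (nat_lit 5) (nat_lit 2) (nat_lit 4) (nat_lit 406) (nat_lit 289) (nat_lit 205)) (XT.lf (nat_lit 0) (nat_lit 295398641682721) (nat_lit 76) (nat_lit 1160389108389557) (nat_lit 76) (nat_lit 1160387831707102) (nat_lit 1) (nat_lit 4) (nat_lit 2) (nat_lit 5) (nat_lit 2) (nat_lit 4) (nat_lit 407) (nat_lit 289) (nat_lit 204)))))) (XT.nd (nat_lit 390) (nat_lit 228) (nat_lit 0) (XT.nd (nat_lit 156) (nat_lit 152) (nat_lit 0) (XT.nd (nat_lit 78) (nat_lit 76) (nat_lit 0) (XT.lf (nat_lit 0) (nat_lit 2509425307) (nat_lit 152) (nat_lit 4576320495) (nat_lit 0) (nat_lit 2509425307) (nat_lit 8) (nat_lit 5) (nat_lit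 10) (nat_lit 4) (nat_lit 8) (nat_lit 4) (nat_lit 320) (nat_lit 290) (nat_lit 290)) (XT.lf (nat_lit 0) (nat_lit 1948357505) (nat_lit 76) (nat_lit 9721530519) (nat_lit 76) (nat_lit 9468266882) (nat_lit 7) (nat_lit 4) (nat_lit 8) (nat_lit 5) (nat_lit 8) (nat_lit 4) (nat_lit 321) (nat_lit 290) (nat_lit 289))) (XT.nd (nat_lit 78) (nat_lit 152) (nat_lit 0) (XT.lf (nat_lit 0) (nat_lit 14595689895) (nat_lit 76) (nat_lit 4634685230) (nat_lit 76) (nat_lit 4161192344) (nat_lit 7) (nat_lit 4) (nat_lit 8) (nat_lit 5) (nat_lit 8) (nat_lit 4) (nat_lit 322) (nat_lit 290) (nat_lit 288)) (XT.nd (nat_lit 78) (nat_lit 0) (nat_lit 0) (XT.lf (nat_lit 0) (nat_lit 1381412478) (nat_lit 152) (nat_lit 23844658973) (nat_lit 0) (nat_lit 803154581) (nat_lit 5) (nat_lit 5) (nat_lit 7) (nat_lit 4) (nat_lit 5) (nat_lit 4) (nat_lit 323) (nat_lit 290) (nat_lit 287)) (XT.lf (nat_lit 0) (nat_lit 7520191235) (nat_lit 152)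 (nat_lit 14686998389) (nat_lit 0) (nat_lit 6797129033) (nat_lit 5) (nat_lit 5) (nat_lit 7) (nat_lit 4) (nat_lit 5) (nat_lit 4) (nat_lit 324) (nat_lit 290) (nat_lit 286))))) (XT.nd (nat_lit 234) (nat_lit 152) (nat_lit 0) (XT.nd (nat_lit 78) (nat_lit 76) (nat_lit 0) (XT.lf (nat_lit 0) (nat_lit 14134944841) (nat_lit 152) (nat_lit 5071603463) (nat_lit 0) (nat_lit 13285965851) (nat_lit 5) (nat_lit 5) (nat_lit 7) (nat_lit 4) (nat_lit 5) (nat_lit 4) (nat_lit 325) (nat_lit 290) (nat_lit 285)) (XT.nd (nat_lit 78) (nat_lit 0) (nat_lit 0) (XT.lf (nat_lit 0) (nat_lit 5696823739) (nat_lit 76) (nat_lit 15894161970) (nat_lit 76) (nat_lit 14935690121) (nat_lit 4) (nat_lit 4) (nat_lit 5) (nat_lit 5) (nat_lit 5) (nat_lit 4) (nat_lit 326) (nat_lit 290) (nat_lit 284)) (XT.lf (nat_lit 0) (nat_lit 17890248652) (nat_lit 76) (nat_lit 12172446024) (nat_lit 76) (nat_lit 11118762992) (nat_lit 4) (nat_lit 4) (nat_lit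 5) (nat_lit 5) (nat_lit 5) (nat_lit 4) (nat_lit 327) (nat_lit 290) (nat_lit 283)))) (XT.nd (nat_lit 78) (nat_lit 152) (nat_lit 0) (XT.lf (nat_lit 0) (nat_lit 31251604310) (nat_lit 76) (nat_lit 8233690827) (nat_lit 76) (nat_lit 7097215464) (nat_lit 4) (nat_lit 4) (nat_lit 5) (nat_lit 5) (nat_lit 5) (nat_lit 4) (nat_lit 328) (nat_lit 290) (nat_lit 282)) (XT.nd (nat_lit 78) (nat_lit 152) (nat_lit 0) (XT.lf (nat_lit 0) (nat_lit 46042308541) (nat_lit 76) (nat_lit 4000833779) (nat_lit 76) (nat_lit 2792365083) (nat_lit 4) (nat_lit 4) (nat_lit 5) (nat_lit 5) (nat_lit 5) (nat_lit 4) (nat_lit 329) (nat_lit 290) (nat_lit 281)) (XT.lf (nat_lit 0) (nat_lit 1856378349) (nat_lit 152) (nat_lit 57422074663) (nat_lit 0) (nat_lit 751098703) (nat_lit 2) (nat_lit 5) (nat_lit 4) (nat_lit 4) (nat_lit 2) (nat_lit 4) (nat_lit 330) (nat_lit 290) (nat_lit 280))))))) (XT.nd (nat_lit 858) (nat_lit 76) (nat_lit 0)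 (XT.nd (nat_lit 390) (nat_lit 0) (nat_lit 0) (XT.nd (nat_lit 156) (nat_lit 0) (nat_lit 0) (XT.nd (nat_lit 78) (nat_lit 0) (nat_lit 0) (XT.lf (nat_lit 0) (nat_lit 7227203524) (nat_lit 152) (nat_lit 54934410670) (nat_lit 0) (nat_lit 6074587093) (nat_lit 2) (nat_lit 5) (nat_lit 4) (nat_lit 4) (nat_lit 2) (nat_lit 4) (nat_lit 331) (nat_lit 290) (nat_lit 279)) (XT.lf (nat_lit 0) (nat_lit 13184635796) (nat_lit 152) (nat_lit 52531244894) (nat_lit 0) (nat_lit 11990856944) (nat_lit 2) (nat_lit 5) (nat_lit 4) (nat_lit 4) (nat_lit 2) (nat_lit 4) (nat_lit 332) (nat_lit 290) (nat_lit 278))) (XT.nd (nat_lit 78) (nat_lit 0) (nat_lit 0) (XT.lf (nat_lit 0) (nat_lit 19845233623) (nat_lit 152) (nat_lit 50165558875) (nat_lit 0) (nat_lit 18615661361) (nat_lit 2) (nat_lit 5) (nat_lit 4) (nat_lit 4) (nat_lit 2) (nat_lit 4) (nat_lit 333) (nat_lit 290) (nat_lit 277)) (XT.nd (nat_lit 78) (nat_lit 0) (nat_lit 0)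 (XT.lf (nat_lit 0) (nat_lit 27339313048) (nat_lit 152) (nat_lit 47791067450) (nat_lit 0) (nat_lit 26078616082) (nat_lit 2) (nat_lit 5) (nat_lit 4) (nat_lit 4) (nat_lit 2) (nat_lit 4) (nat_lit 334) (nat_lit 290) (nat_lit 276)) (XT.lf (nat_lit 0) (nat_lit 35813497366) (nat_lit 152) (nat_lit 45361313179) (nat_lit 0) (nat_lit 34525735440) (nat_lit 2) (nat_lit 5) (nat_lit 4) (nat_lit 4) (nat_lit 2) (nat_lit 4) (nat_lit 335) (nat_lit 290) (nat_lit 275))))) (XT.nd (nat_lit 234) (nat_lit 0) (nat_lit 0) (XT.nd (nat_lit 78) (nat_lit 0) (nat_lit 0) (XT.lf (nat_lit 0) (nat_lit 45433585835) (nat_lit 152) (nat_lit 42828757392) (nat_lit 0) (nat_lit 44122289160) (nat_lit 2) (nat_lit 5) (nat_lit 4) (nat_lit 4) (nat_lit 2) (nat_lit 4) (nat_lit 336) (nat_lit 290) (nat_lit 274)) (XT.nd (nat_lit 78) (nat_lit 0) (nat_lit 0) (XT.lf (nat_lit 0) (nat_lit 56387797576) (nat_lit 152) (nat_lit 40143850083) (nat_lit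 0) (nat_lit 55056035903) (nat_lit 2) (nat_lit 5) (nat_lit 4) (nat_lit 4) (nat_lit 2) (nat_lit 4) (nat_lit 337) (nat_lit 290) (nat_lit 273)) (XT.lf (nat_lit 0) (nat_lit 68890454124) (nat_lit 152) (nat_lit 37254060458) (nat_lit 0) (nat_lit 67540896801) (nat_lit 2) (nat_lit 5) (nat_lit 4) (nat_lit 4) (nat_lit 2) (nat_lit 4) (nat_lit 338) (nat_lit 290) (nat_lit 272)))) (XT.nd (nat_lit 78) (nat_lit 0) (nat_lit 0) (XT.lf (nat_lit 0) (nat_lit 83186172673) (nat_lit 152) (nat_lit 34102849155) (nat_lit 0) (nat_lit 81821140871) (nat_lit 2) (nat_lit 5) (nat_lit 4) (nat_lit 4) (nat_lit 2) (nat_lit 4) (nat_lit 339) (nat_lit 290) (nat_lit 271)) (XT.nd (nat_lit 78) (nat_lit 0) (nat_lit 0) (XT.lf (nat_lit 0) (nat_lit 99554652063) (nat_lit 152) (nat_lit 30628562039) (nat_lit 0) (nat_lit 98176164192) (nat_lit 2) (nat_lit 5) (nat_lit 4) (nat_lit 4) (nat_lit 2) (nat_lit 4) (nat_lit 340) (nat_lit 290) (nat_lit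 270)) (XT.lf (nat_lit 0) (nat_lit 118316145152) (nat_lit 152) (nat_lit 26763223927) (nat_lit 0) (nat_lit 116925956352) (nat_lit 2) (nat_lit 5) (nat_lit 4) (nat_lit 4) (nat_lit 2) (nat_lit 4) (nat_lit 341) (nat_lit 290) (nat_lit 269)))))) (XT.nd (nat_lit 390) (nat_lit 0) (nat_lit 0) (XT.nd (nat_lit 156) (nat_lit 76) (nat_lit 0) (XT.nd (nat_lit 78) (nat_lit 0) (nat_lit 0) (XT.lf (nat_lit 0) (nat_lit 139837724630) (nat_lit 152) (nat_lit 22431208640) (nat_lit 0) (nat_lit 138437361109) (nat_lit 2) (nat_lit 5) (nat_lit 4) (nat_lit 4) (nat_lit 2) (nat_lit 4) (nat_lit 342) (nat_lit 290) (nat_lit 268)) (XT.lf (nat_lit 0) (nat_lit 164540464880) (nat_lit 152) (nat_lit 17547759356) (nat_lit 0) (nat_lit 163131253776) (nat_lit 2) (nat_lit 5) (nat_lit 4) (nat_lit 4) (nat_lit 2) (nat_lit 4) (nat_lit 343) (nat_lit 290) (nat_lit 267))) (XT.nd (nat_lit 78) (nat_lit 76) (nat_lit 0) (XT.lf (nat_lit 0) (nat_lit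 192907680384) (nat_lit 152) (nat_lit 12017330328) (nat_lit 0) (nat_lit 191490775729) (nat_lit 2) (nat_lit 5) (nat_lit 4) (nat_lit 4) (nat_lit 2) (nat_lit 4) (nat_lit 344) (nat_lit 290) (nat_lit 266)) (XT.nd (nat_lit 78) (nat_lit 76) (nat_lit 0) (XT.lf (nat_lit 0) (nat_lit 225494381880) (nat_lit 152) (nat_lit 5731717510) (nat_lit 0) (nat_lit 224070787181) (nat_lit 2) (nat_lit 5) (nat_lit 4) (nat_lit 4) (nat_lit 2) (nat_lit 4) (nat_lit 345) (nat_lit 290) (nat_lit 265)) (XT.lf (nat_lit 0) (nat_lit 1572009646) (nat_lit 76) (nat_lit 261431219188) (nat_lit 76) (nat_lit 260001807058) (nat_lit 1) (nat_lit 4) (nat_lit 2) (nat_lit 5) (nat_lit 2) (nat_lit 4) (nat_lit 346) (nat_lit 290) (nat_lit 264))))) (XT.nd (nat_lit 234) (nat_lit 0) (nat_lit 0) (XT.nd (nat_lit 78) (nat_lit 0) (nat_lit 0) (XT.lf (nat_lit 0) (nat_lit 10553723958) (nat_lit 76) (nat_lit 295854818966) (nat_lit 76) (nat_lit 294420348202)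 (nat_lit 1) (nat_lit 4) (nat_lit 2) (nat_lit 5) (nat_lit 2) (nat_lit 4) (nat_lit 347) (nat_lit 290) (nat_lit 263)) (XT.nd (nat_lit 78) (nat_lit 0) (nat_lit 0) (XT.lf (nat_lit 0) (nat_lit 20829009496) (nat_lit 76) (nat_lit 335470016444) (nat_lit 76) (nat_lit 334031146867) (nat_lit 1) (nat_lit 4) (nat_lit 2) (nat_lit 5) (nat_lit 2) (nat_lit 4) (nat_lit 348) (nat_lit 290) (nat_lit 262)) (XT.lf (nat_lit 0) (nat_lit 32598904456) (nat_lit 76) (nat_lit 381051891574) (nat_lit 76) (nat_lit 379609196943) (nat_lit 1) (nat_lit 4) (nat_lit 2) (nat_lit 5) (nat_lit 2) (nat_lit 4) (nat_lit 349) (nat_lit 290) (nat_lit 261)))) (XT.nd (nat_lit 78) (nat_lit 0) (nat_lit 0) (XT.lf (nat_lit 0) (nat_lit 46093689391) (nat_lit 76) (nat_lit 433492263651) (nat_lit 76) (nat_lit 432046242885) (nat_lit 1) (nat_lit 4) (nat_lit 2) (nat_lit 5) (nat_lit 2) (nat_lit 4) (nat_lit 350) (nat_lit 290) (nat_lit 260)) (XT.nd (nat_lit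 78) (nat_lit 0) (nat_lit 0) (XT.lf (nat_lit 0) (nat_lit 61577392702) (nat_lit 76) (nat_lit 493817139955) (nat_lit 76) (nat_lit 492368226898) (nat_lit 1) (nat_lit 4) (nat_lit 2) (nat_lit 5) (nat_lit 2) (nat_lit 4) (nat_lit 351) (nat_lit 290) (nat_lit 259)) (XT.lf (nat_lit 0) (nat_lit 79352956411) (nat_lit 76) (nat_lit 563206789804) (nat_lit 76) (nat_lit 561755361713) (nat_lit 1) (nat_lit 4) (nat_lit 2) (nat_lit 5) (nat_lit 2) (nat_lit 4) (nat_lit 352) (nat_lit 290) (nat_lit 258))))))))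
noncomputable def xc30 : XT := (XT.nd (nat_lit 1638) (nat_lit 0) (nat_lit 0) (XT.nd (nat_lit 780) (nat_lit 0) (nat_lit 0) (XT.nd (nat_lit 390) (nat_lit 0) (nat_lit 0) (XT.nd (nat_lit 156) (nat_lit 0) (nat_lit 0) (XT.nd (nat_lit 78) (nat_lit 0) (nat_lit 0) (XT.lf (nat_lit 0) (nat_lit 99768163285) (nat_lit 76) (nat_lit 643018836784) (nat_lit 76) (nat_lit 641565221705) (nat_lit 1) (nat_lit 4) (nat_lit 2) (nat_lit 5) (nat_lit 2) (nat_lit 4) (nat_lit 353) (nat_lit 290) (nat_lit 257)) (XT.lf (nat_lit 0) (nat_lit 123222441286) (nat_lit 76) (nat_lit 734814820944) (nat_lit 76) (nat_lit 733359304137) (nat_lit 1) (nat_lit 4) (nat_lit 2) (nat_lit 5) (nat_lit 2) (nat_lit 4) (nat_lit 354) (nat_lit 290) (nat_lit 256))) (XT.nd (nat_lit 78) (nat_lit 0) (nat_lit 0) (XT.lf (nat_lit 0) (nat_lit 150174678460) (nat_lit 76) (nat_lit 840390750669) (nat_lit 76) (nat_lit 838933580185) (nat_lit 1) (nat_lit 4) (nat_lit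 2) (nat_lit 5) (nat_lit 2) (nat_lit 4) (nat_lit 355) (nat_lit 290) (nat_lit 255)) (XT.nd (nat_lit 78) (nat_lit 0) (nat_lit 0) (XT.lf (nat_lit 0) (nat_lit 181152201189) (nat_lit 76) (nat_lit 961812241975) (nat_lit 76) (nat_lit 960353633512) (nat_lit 1) (nat_lit 4) (nat_lit 2) (nat_lit 5) (nat_lit 2) (nat_lit 4) (nat_lit 356) (nat_lit 290) (nat_lit 254)) (XT.lf (nat_lit 0) (nat_lit 216761091437) (nat_lit 76) (nat_lit 1101454932737) (nat_lit 76) (nat_lit 1099995073856) (nat_lit 1) (nat_lit 4) (nat_lit 2) (nat_lit 5) (nat_lit 2) (nat_lit 4) (nat_lit 357) (nat_lit 290) (nat_lit 253))))) (XT.nd (nat_lit 156) (nat_lit 0) (nat_lit 0) (XT.nd (nat_lit 78) (nat_lit 0) (nat_lit 0) (XT.lf (nat_lit 0) (nat_lit 257698044884) (nat_lit 76) (nat_lit 1262050962555) (nat_lit 76) (nat_lit 1260590016356) (nat_lit 1) (nat_lit 4) (nat_lit 2) (nat_lit 5) (nat_lit 2) (nat_lit 4) (nat_lit 358) (nat_lit 290) (nat_lit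 252)) (XT.lf (nat_lit 0) (nat_lit 304764001924) (nat_lit 76) (nat_lit 1446742427667) (nat_lit 76) (nat_lit 1445280535972) (nat_lit 1) (nat_lit 4) (nat_lit 2) (nat_lit 5) (nat_lit 2) (nat_lit 4) (nat_lit 359) (nat_lit 290) (nat_lit 251))) (XT.nd (nat_lit 78) (nat_lit 0) (nat_lit 0) (XT.lf (nat_lit 0) (nat_lit 358879818237) (nat_lit 76) (nat_lit 1659142856735) (nat_lit 76) (nat_lit 1657680142871) (nat_lit 1) (nat_lit 4) (nat_lit 2) (nat_lit 5) (nat_lit 2) (nat_lit 4) (nat_lit 360) (nat_lit 290) (nat_lit 250)) (XT.nd (nat_lit 78) (nat_lit 0) (nat_lit 0) (XT.lf (nat_lit 0) (nat_lit 421104281534) (nat_lit 76) (nat_lit 1903407910331) (nat_lit 76) (nat_lit 1901944481536) (nat_lit 1) (nat_lit 4) (nat_lit 2) (nat_lit 5) (nat_lit 2) (nat_lit 4) (nat_lit 361) (nat_lit 290) (nat_lit 249)) (XT.lf (nat_lit 0) (nat_lit 492654826967) (nat_lit 76) (nat_lit 2184316687327) (nat_lit 76) (nat_lit 2182852636855)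 (nat_lit 1) (nat_lit 4) (nat_lit 2) (nat_lit 5) (nat_lit 2) (nat_lit 4) (nat_lit 362) (nat_lit 290) (nat_lit 248)))))) (XT.nd (nat_lit 390) (nat_lit 0) (nat_lit 0) (XT.nd (nat_lit 156) (nat_lit 0) (nat_lit 0) (XT.nd (nat_lit 78) (nat_lit 0) (nat_lit 0) (XT.lf (nat_lit 0) (nat_lit 574931356511) (nat_lit 76) (nat_lit 2507365229014) (nat_lit 76) (nat_lit 2505900637952) (nat_lit 1) (nat_lit 4) (nat_lit 2) (nat_lit 5) (nat_lit 2) (nat_lit 4) (nat_lit 363) (nat_lit 290) (nat_lit 247)) (XT.lf (nat_lit 0) (nat_lit 669543628353) (nat_lit 76) (nat_lit 2878874050337) (nat_lit 76) (nat_lit 2877408989197) (nat_lit 1) (nat_lit 4) (nat_lit 2) (nat_lit 5) (nat_lit 2) (nat_lit 4) (nat_lit 364) (nat_lit 290) (nat_lit 246))) (XT.nd (nat_lit 78) (nat_lit 0) (nat_lit 0) (XT.lf (nat_lit 0) (nat_lit 778342752160) (nat_lit 76) (nat_lit 3306111802148) (nat_lit 76) (nat_lit 3304646332244) (nat_lit 1) (nat_lit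 4) (nat_lit 2) (nat_lit 5) (nat_lit 2) (nat_lit 4) (nat_lit 365) (nat_lit 290) (nat_lit 245)) (XT.nd (nat_lit 78) (nat_lit 0) (nat_lit 0) (XT.lf (nat_lit 0) (nat_lit 903457406441) (nat_lit 76) (nat_lit 3797437483940) (nat_lit 76) (nat_lit 3795971658589) (nat_lit 1) (nat_lit 4) (nat_lit 2) (nat_lit 5) (nat_lit 2) (nat_lit 4) (nat_lit 366) (nat_lit 290) (nat_lit 244)) (XT.lf (nat_lit 0) (nat_lit 1047335486605) (nat_lit 76) (nat_lit 4362463989486) (nat_lit 76) (nat_lit 4360997855051) (nat_lit 1) (nat_lit 4) (nat_lit 2) (nat_lit 5) (nat_lit 2) (nat_lit 4) (nat_lit 367) (nat_lit 290) (nat_lit 243))))) (XT.nd (nat_lit 234) (nat_lit 0) (nat_lit 0) (XT.nd (nat_lit 78) (nat_lit 0) (nat_lit 0) (XT.lf (nat_lit 0) (nat_lit 1212791998569) (nat_lit 76) (nat_lit 5012246185199) (nat_lit 76) (nat_lit 5010779781996) (nat_lit 1) (nat_lit 4) (nat_lit 2) (nat_lit 5) (nat_lit 2) (nat_lit 4) (nat_lit 368) (nat_lit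 290) (nat_lit 242)) (XT.nd (nat_lit 78) (nat_lit 0) (nat_lit 0) (XT.lf (nat_lit 0) (nat_lit 1403064134959) (nat_lit 76) (nat_lit 5759497200996) (nat_lit 76) (nat_lit 5758030564080) (nat_lit 1) (nat_lit 4) (nat_lit 2) (nat_lit 5) (nat_lit 2) (nat_lit 4) (nat_lit 369) (nat_lit 290) (nat_lit 241)) (XT.lf (nat_lit 0) (nat_lit 1621874611486) (nat_lit 76) (nat_lit 6618837165446) (nat_lit 76) (nat_lit 6617370325303) (nat_lit 1) (nat_lit 4) (nat_lit 2) (nat_lit 5) (nat_lit 2) (nat_lit 4) (nat_lit 370) (nat_lit 290) (nat_lit 240)))) (XT.nd (nat_lit 78) (nat_lit 0) (nat_lit 0) (XT.lf (nat_lit 0) (nat_lit 1873504502691) (nat_lit 76) (nat_lit 7607079251766) (nat_lit 76) (nat_lit 7605612234903) (nat_lit 1) (nat_lit 4) (nat_lit 2) (nat_lit 5) (nat_lit 2) (nat_lit 4) (nat_lit 371) (nat_lit 290) (nat_lit 239)) (XT.nd (nat_lit 78) (nat_lit 0) (nat_lit 0) (XT.lf (nat_lit 0) (nat_lit 2162877002097) (nat_lit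 76) (nat_lit 8743558631212) (nat_lit 76) (nat_lit 8742091460680) (nat_lit 1) (nat_lit 4) (nat_lit 2) (nat_lit 5) (nat_lit 2) (nat_lit 4) (nat_lit 372) (nat_lit 290) (nat_lit 238)) (XT.lf (nat_lit 0) (nat_lit 2495653745563) (nat_lit 76) (nat_lit 10050510769902) (nat_lit 76) (nat_lit 10049043465744) (nat_lit 1) (nat_lit 4) (nat_lit 2) (nat_lit 5) (nat_lit 2) (nat_lit 4) (nat_lit 373) (nat_lit 290) (nat_lit 237))))))) (XT.nd (nat_lit 858) (nat_lit 0) (nat_lit 0) (XT.nd (nat_lit 390) (nat_lit 0) (nat_lit 0) (XT.nd (nat_lit 156) (nat_lit 0) (nat_lit 0) (XT.nd (nat_lit 78) (nat_lit 0) (nat_lit 0) (XT.lf (nat_lit 0) (nat_lit 2878345582418) (nat_lit 76) (nat_lit 11553506470550) (nat_lit 76) (nat_lit 11552039050196) (nat_lit 1) (nat_lit 4) (nat_lit 2) (nat_lit 5) (nat_lit 2) (nat_lit 4) (nat_lit 374) (nat_lit 290) (nat_lit 236)) (XT.lf (nat_lit 0) (nat_lit 3318439961642) (nat_lit 76) (nat_lit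 13281952170778) (nat_lit 76) (nat_lit 13280484649384) (nat_lit 1) (nat_lit 4) (nat_lit 2) (nat_lit 5) (nat_lit 2) (nat_lit 4) (nat_lit 375) (nat_lit 290) (nat_lit 235))) (XT.nd (nat_lit 78) (nat_lit 0) (nat_lit 0) (XT.lf (nat_lit 0) (nat_lit 3824547425439) (nat_lit 76) (nat_lit 15269665286459) (nat_lit 76) (nat_lit 15268197677204) (nat_lit 1) (nat_lit 4) (nat_lit 2) (nat_lit 5) (nat_lit 2) (nat_lit 4) (nat_lit 376) (nat_lit 290) (nat_lit 234)) (XT.nd (nat_lit 78) (nat_lit 0) (nat_lit 0) (XT.lf (nat_lit 0) (nat_lit 4406570076361) (nat_lit 76) (nat_lit 17555535856813) (nat_lit 76) (nat_lit 17554068171157) (nat_lit 1) (nat_lit 4) (nat_lit 2) (nat_lit 5) (nat_lit 2) (nat_lit 4) (nat_lit 377) (nat_lit 290) (nat_lit 233)) (XT.lf (nat_lit 0) (nat_lit 5075895314100) (nat_lit 76) (nat_lit 20184287436478) (nat_lit 76) (nat_lit 20182819684386) (nat_lit 1) (nat_lit 4) (nat_lit 2) (nat_lit 5) (nat_lit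 2) (nat_lit 4) (nat_lit 378) (nat_lit 290) (nat_lit 232))))) (XT.nd (nat_lit 234) (nat_lit 0) (nat_lit 0) (XT.nd (nat_lit 78) (nat_lit 0) (nat_lit 0) (XT.lf (nat_lit 0) (nat_lit 5845618632437) (nat_lit 76) (nat_lit 23207352121577) (nat_lit 76) (nat_lit 23205884311716) (nat_lit 1) (nat_lit 4) (nat_lit 2) (nat_lit 5) (nat_lit 2) (nat_lit 4) (nat_lit 379) (nat_lit 290) (nat_lit 231)) (XT.nd (nat_lit 78) (nat_lit 0) (nat_lit 0) (XT.lf (nat_lit 0) (nat_lit 6730799835428) (nat_lit 76) (nat_lit 26683876829862) (nat_lit 76) (nat_lit 26682408969766) (nat_lit 1) (nat_lit 4) (nat_lit 2) (nat_lit 5) (nat_lit 2) (nat_lit 4) (nat_lit 380) (nat_lit 290) (nat_lit 230)) (XT.lf (nat_lit 0) (nat_lit 7748757685739) (nat_lit 76) (nat_lit 30681880523018) (nat_lit 76) (nat_lit 30680412619240) (nat_lit 1) (nat_lit 4) (nat_lit 2) (nat_lit 5) (nat_lit 2) (nat_lit 4) (nat_lit 381) (nat_lit 290) (nat_lit 229))))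 (XT.nd (nat_lit 78) (nat_lit 0) (nat_lit 0) (XT.lf (nat_lit 0) (nat_lit 8919408750007) (nat_lit 76) (nat_lit 35279585012433) (nat_lit 76) (nat_lit 35278117070669) (nat_lit 1) (nat_lit 4) (nat_lit 2) (nat_lit 5) (nat_lit 2) (nat_lit 4) (nat_lit 382) (nat_lit 290) (nat_lit 228)) (XT.nd (nat_lit 78) (nat_lit 0) (nat_lit 0) (XT.lf (nat_lit 0) (nat_lit 10265657070794) (nat_lit 76) (nat_lit 40566945385941) (nat_lit 76) (nat_lit 40565477411148) (nat_lit 1) (nat_lit 4) (nat_lit 2) (nat_lit 5) (nat_lit 2) (nat_lit 4) (nat_lit 383) (nat_lit 290) (nat_lit 227)) (XT.lf (nat_lit 0) (nat_lit 11813842289158) (nat_lit 76) (nat_lit 46647409998678) (nat_lit 76) (nat_lit 46645941995163) (nat_lit 1) (nat_lit 4) (nat_lit 2) (nat_lit 5) (nat_lit 2) (nat_lit 4) (nat_lit 384) (nat_lit 290) (nat_lit 226)))))) (XT.nd (nat_lit 1716) (nat_lit 0) (nat_lit 0) (XT.nd (nat_lit 1482) (nat_lit 0) (nat_lit 0) (XT.nd (nat_lit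 78) (nat_lit 0) (nat_lit 0) (XT.lf (nat_lit 0) (nat_lit 13594254985459) (nat_lit 76) (nat_lit 53639944462631) (nat_lit 76) (nat_lit 53638476434141) (nat_lit 1) (nat_lit 4) (nat_lit 2) (nat_lit 5) (nat_lit 2) (nat_lit 4) (nat_lit 385) (nat_lit 290) (nat_lit 225)) (XT.lf (nat_lit 0) (nat_lit 15641729321146) (nat_lit 76) (nat_lit 61681359234705) (nat_lit 76) (nat_lit 61679891184496) (nat_lit 1) (nat_lit 4) (nat_lit 2) (nat_lit 5) (nat_lit 2) (nat_lit 4) (nat_lit 386) (nat_lit 290) (nat_lit 224))) (XT.nd (nat_lit 78) (nat_lit 0) (nat_lit 0) (XT.lf (nat_lit 0) (nat_lit 194205607416547) (nat_lit 76) (nat_lit 762987739125973) (nat_lit 76) (nat_lit 762986270942679) (nat_lit 1) (nat_lit 4) (nat_lit 2) (nat_lit 5) (nat_lit 2) (nat_lit 4) (nat_lit 404) (nat_lit 290) (nat_lit 206)) (XT.nd (nat_lit 78) (nat_lit 0) (nat_lit 0) (XT.lf (nat_lit 0) (nat_lit 223344782974000) (nat_lit 76) (nat_lit 877431323956169)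 (nat_lit 76) (nat_lit 877429855771350) (nat_lit 1) (nat_lit 4) (nat_lit 2) (nat_lit 5) (nat_lit 2) (nat_lit 4) (nat_lit 405) (nat_lit 290) (nat_lit 205)) (XT.lf (nat_lit 0) (nat_lit 256854834848875) (nat_lit 76) (nat_lit 1009041446519364) (nat_lit 76) (nat_lit 1009039978333215) (nat_lit 1) (nat_lit 4) (nat_lit 2) (nat_lit 5) (nat_lit 2) (nat_lit 4) (nat_lit 406) (nat_lit 290) (nat_lit 204))))) (XT.nd (nat_lit 40092) (nat_lit 0) (nat_lit 456) (XT.nd (nat_lit 39936) (nat_lit 0) (nat_lit 684) (XT.lf (nat_lit 0) (nat_lit 295391394490904) (nat_lit 76) (nat_lit 1160393087474392) (nat_lit 76) (nat_lit 1160391619287091) (nat_lit 1) (nat_lit 4) (nat_lit 2) (nat_lit 5) (nat_lit 2) (nat_lit 4) (nat_lit 407) (nat_lit 290) (nat_lit 203)) (XT.nd (nat_lit 78) (nat_lit 0) (nat_lit 0) (XT.lf (nat_lit 0) (nat_lit 1692808539) (nat_lit 76) (nat_lit 3159355047) (nat_lit 76) (nat_lit 3159355047) (nat_lit 10)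 (nat_lit 4) (nat_lit 11) (nat_lit 5) (nat_lit 11) (nat_lit 4) (nat_lit 318) (nat_lit 291) (nat_lit 291)) (XT.lf (nat_lit 0) (nat_lit 15497987640) (nat_lit 76) (nat_lit 1186930318) (nat_lit 76) (nat_lit 851989158) (nat_lit 10) (nat_lit 4) (nat_lit 11) (nat_lit 5) (nat_lit 11) (nat_lit 4) (nat_lit 319) (nat_lit 291) (nat_lit 290)))) (XT.nd (nat_lit 78) (nat_lit 76) (nat_lit 0) (XT.lf (nat_lit 0) (nat_lit 5032431721) (nat_lit 152) (nat_lit 9711751827) (nat_lit 0) (nat_lit 4487914902) (nat_lit 8) (nat_lit 5) (nat_lit 10) (nat_lit 4) (nat_lit 8) (nat_lit 4) (nat_lit 320) (nat_lit 291) (nat_lit 289)) (XT.nd (nat_lit 78) (nat_lit 0) (nat_lit 0) (XT.lf (nat_lit 0) (nat_lit 800909585) (nat_lit 76) (nat_lit 10593592194) (nat_lit 76) (nat_lit 9828846127) (nat_lit 7) (nat_lit 4) (nat_lit 8) (nat_lit 5) (nat_lit 8) (nat_lit 4) (nat_lit 321) (nat_lit 291) (nat_lit 288)) (XT.lf (nat_lit 0) (nat_lit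 12984157882) (nat_lit 76) (nat_lit 5741654284) (nat_lit 76) (nat_lit 4785404521) (nat_lit 7) (nat_lit 4) (nat_lit 8) (nat_lit 5) (nat_lit 8) (nat_lit 4) (nat_lit 322) (nat_lit 291) (nat_lit 287))))))))
noncomputable def xc31 : XT := (XT.nd (nat_lit 1716) (nat_lit 76) (nat_lit 0) (XT.nd (nat_lit 858) (nat_lit 0) (nat_lit 0) (XT.nd (nat_lit 390) (nat_lit 152) (nat_lit 0) (XT.nd (nat_lit 156) (nat_lit 76) (nat_lit 0) (XT.nd (nat_lit 78) (nat_lit 76) (nat_lit 0) (XT.lf (nat_lit 0) (nat_lit 475231304) (nat_lit 152) (nat_lit 101027410) (nat_lit 76) (nat_lit 25627185006) (nat_lit 6) (nat_lit 5) (nat_lit 8) (nat_lit 5) (nat_lit 7) (nat_lit 4) (nat_lit 323) (nat_lit 291) (nat_lit 286)) (XT.lf (nat_lit 0) (nat_lit 6378434348) (nat_lit 152) (nat_lit 17559299044) (nat_lit 0) (nat_lit 5276191721) (nat_lit 5) (nat_lit 5) (nat_lit 7) (nat_lit 4) (nat_lit 5) (nat_lit 4) (nat_lit 324) (nat_lit 291) (nat_lit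 285))) (XT.nd (nat_lit 78) (nat_lit 76) (nat_lit 0) (XT.lf (nat_lit 0) (nat_lit 12813272093) (nat_lit 152) (nat_lit 8314344865) (nat_lit 0) (nat_lit 11601536607) (nat_lit 5) (nat_lit 5) (nat_lit 7) (nat_lit 4) (nat_lit 5) (nat_lit 4) (nat_lit 325) (nat_lit 291) (nat_lit 284)) (XT.nd (nat_lit 78) (nat_lit 0) (nat_lit 0) (XT.lf (nat_lit 0) (nat_lit 1783575533) (nat_lit 76) (nat_lit 18167249591) (nat_lit 76) (nat_lit 16860302923) (nat_lit 4) (nat_lit 4) (nat_lit 5) (nat_lit 5) (nat_lit 5) (nat_lit 4) (nat_lit 326) (nat_lit 291) (nat_lit 283)) (XT.lf (nat_lit 0) (nat_lit 13669519985) (nat_lit 76) (nat_lit 14604239757) (nat_lit 76) (nat_lit 13214500757) (nat_lit 4) (nat_lit 4) (nat_lit 5) (nat_lit 5) (nat_lit 5) (nat_lit 4) (nat_lit 327) (nat_lit 291) (nat_lit 282))))) (XT.nd (nat_lit 234) (nat_lit 152) (nat_lit 0) (XT.nd (nat_lit 78) (nat_lit 0) (nat_lit 0) (XT.lf (nat_lit 0) (nat_lit 26763501328)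 (nat_lit 76) (nat_lit 10803489876) (nat_lit 76) (nat_lit 9341757543) (nat_lit 4) (nat_lit 4) (nat_lit 5) (nat_lit 5) (nat_lit 5) (nat_lit 4) (nat_lit 328) (nat_lit 291) (nat_lit 281)) (XT.nd (nat_lit 78) (nat_lit 0) (nat_lit 0) (XT.lf (nat_lit 0) (nat_lit 41321706155) (nat_lit 76) (nat_lit 6690637450) (nat_lit 76) (nat_lit 5166302220) (nat_lit 4) (nat_lit 4) (nat_lit 5) (nat_lit 5) (nat_lit 5) (nat_lit 4) (nat_lit 329) (nat_lit 291) (nat_lit 280)) (XT.lf (nat_lit 0) (nat_lit 57628968908) (nat_lit 76) (nat_lit 2185213628) (nat_lit 76) (nat_lit 606441095) (nat_lit 4) (nat_lit 4) (nat_lit 5) (nat_lit 5) (nat_lit 5) (nat_lit 4) (nat_lit 330) (nat_lit 291) (nat_lit 279)))) (XT.nd (nat_lit 78) (nat_lit 0) (nat_lit 0) (XT.lf (nat_lit 0) (nat_lit 4493084460) (nat_lit 152) (nat_lit 61107689613) (nat_lit 0) (nat_lit 3079076358) (nat_lit 2) (nat_lit 5) (nat_lit 4) (nat_lit 4) (nat_lit 2) (nat_lit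 4) (nat_lit 331) (nat_lit 291) (nat_lit 278)) (XT.nd (nat_lit 78) (nat_lit 0) (nat_lit 0) (XT.lf (nat_lit 0) (nat_lit 10361935668) (nat_lit 152) (nat_lit 58889619010) (nat_lit 0) (nat_lit 8912134157) (nat_lit 2) (nat_lit 5) (nat_lit 4) (nat_lit 4) (nat_lit 2) (nat_lit 4) (nat_lit 332) (nat_lit 291) (nat_lit 277)) (XT.lf (nat_lit 0) (nat_lit 16945506484) (nat_lit 152) (nat_lit 56684885315) (nat_lit 0) (nat_lit 15464580268) (nat_lit 2) (nat_lit 5) (nat_lit 4) (nat_lit 4) (nat_lit 2) (nat_lit 4) (nat_lit 333) (nat_lit 291) (nat_lit 276)))))) (XT.nd (nat_lit 390) (nat_lit 0) (nat_lit 0) (XT.nd (nat_lit 156) (nat_lit 0) (nat_lit 0) (XT.nd (nat_lit 78) (nat_lit 0) (nat_lit 0) (XT.lf (nat_lit 0) (nat_lit 24372605899) (nat_lit 152) (nat_lit 54450352434) (nat_lit 0) (nat_lit 22864614723) (nat_lit 2) (nat_lit 5) (nat_lit 4) (nat_lit 4) (nat_lit 2) (nat_lit 4) (nat_lit 334) (nat_lit 291) (nat_lit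 275)) (XT.lf (nat_lit 0) (nat_lit 32788546730) (nat_lit 152) (nat_lit 52142301244) (nat_lit 0) (nat_lit 31257020806) (nat_lit 2) (nat_lit 5) (nat_lit 4) (nat_lit 4) (nat_lit 2) (nat_lit 4) (nat_lit 335) (nat_lit 291) (nat_lit 274))) (XT.nd (nat_lit 78) (nat_lit 0) (nat_lit 0) (XT.lf (nat_lit 0) (nat_lit 42357988688) (nat_lit 152) (nat_lit 49715574222) (nat_lit 0) (nat_lit 40805997766) (nat_lit 2) (nat_lit 5) (nat_lit 4) (nat_lit 4) (nat_lit 2) (nat_lit 4) (nat_lit 336) (nat_lit 291) (nat_lit 273)) (XT.nd (nat_lit 78) (nat_lit 0) (nat_lit 0) (XT.lf (nat_lit 0) (nat_lit 53268159986) (nat_lit 152) (nat_lit 47122691928) (nat_lit 0) (nat_lit 51698373413) (nat_lit 2) (nat_lit 5) (nat_lit 4) (nat_lit 4) (nat_lit 2) (nat_lit 4) (nat_lit 337) (nat_lit 291) (nat_lit 272)) (XT.lf (nat_lit 0) (nat_lit 65732520496) (nat_lit 152) (nat_lit 44312924054) (nat_lit 0) (nat_lit 64147259444) (nat_lit 2) (nat_lit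 5) (nat_lit 4) (nat_lit 4) (nat_lit 2) (nat_lit 4) (nat_lit 338) (nat_lit 291) (nat_lit 271))))) (XT.nd (nat_lit 234) (nat_lit 0) (nat_lit 0) (XT.nd (nat_lit 78) (nat_lit 0) (nat_lit 0) (XT.lf (nat_lit 0) (nat_lit 79994938142) (nat_lit 152) (nat_lit 41231296882) (nat_lit 0) (nat_lit 78396221021) (nat_lit 2) (nat_lit 5) (nat_lit 4) (nat_lit 4) (nat_lit 2) (nat_lit 4) (nat_lit 339) (nat_lit 291) (nat_lit 270)) (XT.nd (nat_lit 78) (nat_lit 0) (nat_lit 0) (XT.lf (nat_lit 0) (nat_lit 96334460225) (nat_lit 152) (nat_lit 37817517707) (nat_lit 0) (nat_lit 94724042175) (nat_lit 2) (nat_lit 5) (nat_lit 4) (nat_lit 4) (nat_lit 2) (nat_lit 4) (nat_lit 340) (nat_lit 291) (nat_lit 269)) (XT.lf (nat_lit 0) (nat_lit 115070773047) (nat_lit 152) (nat_lit 34004795195) (nat_lit 0) (nat_lit 113450180277) (nat_lit 2) (nat_lit 5) (nat_lit 4) (nat_lit 4) (nat_lit 2) (nat_lit 4) (nat_lit 341) (nat_lit 291) (nat_lit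 268)))) (XT.nd (nat_lit 78) (nat_lit 0) (nat_lit 0) (XT.lf (nat_lit 0) (nat_lit 136570456642) (nat_lit 152) (nat_lit 29718532604) (nat_lit 0) (nat_lit 134941016288) (nat_lit 2) (nat_lit 5) (nat_lit 4) (nat_lit 4) (nat_lit 2) (nat_lit 4) (nat_lit 342) (nat_lit 291) (nat_lit 267)) (XT.nd (nat_lit 78) (nat_lit 0) (nat_lit 0) (XT.lf (nat_lit 0) (nat_lit 161254156992) (nat_lit 152) (nat_lit 24874868273) (nat_lit 0) (nat_lit 159617023087) (nat_lit 2) (nat_lit 5) (nat_lit 4) (nat_lit 4) (nat_lit 2) (nat_lit 4) (nat_lit 343) (nat_lit 291) (nat_lit 266)) (XT.lf (nat_lit 0) (nat_lit 189604816062) (nat_lit 152) (nat_lit 19379034857) (nat_lit 0) (nat_lit 187960992113) (nat_lit 2) (nat_lit 5) (nat_lit 4) (nat_lit 4) (nat_lit 2) (nat_lit 4) (nat_lit 344) (nat_lit 291) (nat_lit 265))))))) (XT.nd (nat_lit 858) (nat_lit 0) (nat_lit 0) (XT.nd (nat_lit 390) (nat_lit 0) (nat_lit 0) (XT.nd (nat_lit 156) (nat_lit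 76) (nat_lit 0) (XT.nd (nat_lit 78) (nat_lit 0) (nat_lit 0) (XT.lf (nat_lit 0) (nat_lit 222177120659) (nat_lit 152) (nat_lit 13123505179) (nat_lit 0) (nat_lit 220527479280) (nat_lit 2) (nat_lit 5) (nat_lit 4) (nat_lit 4) (nat_lit 2) (nat_lit 4) (nat_lit 345) (nat_lit 291) (nat_lit 264)) (XT.lf (nat_lit 0) (nat_lit 259608355003) (nat_lit 152) (nat_lit 5985888443) (nat_lit 0) (nat_lit 257953654990) (nat_lit 2) (nat_lit 5) (nat_lit 4) (nat_lit 4) (nat_lit 2) (nat_lit 4) (nat_lit 346) (nat_lit 291) (nat_lit 263))) (XT.nd (nat_lit 78) (nat_lit 0) (nat_lit 0) (XT.lf (nat_lit 0) (nat_lit 2385871119) (nat_lit 76) (nat_lit 300343792048) (nat_lit 76) (nat_lit 298684693222) (nat_lit 1) (nat_lit 4) (nat_lit 2) (nat_lit 5) (nat_lit 2) (nat_lit 4) (nat_lit 347) (nat_lit 291) (nat_lit 262)) (XT.nd (nat_lit 78) (nat_lit 0) (nat_lit 0) (XT.lf (nat_lit 0) (nat_lit 12639443444) (nat_lit 76) (nat_lit 339970337447)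 (nat_lit 76) (nat_lit 338307413567) (nat_lit 1) (nat_lit 4) (nat_lit 2) (nat_lit 5) (nat_lit 2) (nat_lit 4) (nat_lit 348) (nat_lit 291) (nat_lit 261)) (XT.lf (nat_lit 0) (nat_lit 24390457348) (nat_lit 76) (nat_lit 385562080334) (nat_lit 76) (nat_lit 383895830319) (nat_lit 1) (nat_lit 4) (nat_lit 2) (nat_lit 5) (nat_lit 2) (nat_lit 4) (nat_lit 349) (nat_lit 291) (nat_lit 260))))) (XT.nd (nat_lit 234) (nat_lit 0) (nat_lit 0) (XT.nd (nat_lit 78) (nat_lit 0) (nat_lit 0) (XT.lf (nat_lit 0) (nat_lit 37868823975) (nat_lit 76) (nat_lit 438011033069) (nat_lit 76) (nat_lit 436341890763) (nat_lit 1) (nat_lit 4) (nat_lit 2) (nat_lit 5) (nat_lit 2) (nat_lit 4) (nat_lit 350) (nat_lit 291) (nat_lit 259)) (XT.nd (nat_lit 78) (nat_lit 0) (nat_lit 0) (XT.lf (nat_lit 0) (nat_lit 53338250495) (nat_lit 76) (nat_lit 498343370815) (nat_lit 76) (nat_lit 496671713474) (nat_lit 1) (nat_lit 4) (nat_lit 2) (nat_lit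 5) (nat_lit 2) (nat_lit 4) (nat_lit 351) (nat_lit 291) (nat_lit 258)) (XT.lf (nat_lit 0) (nat_lit 71101399604) (nat_lit 76) (nat_lit 567739508875) (nat_lit 76) (nat_lit 566065664547) (nat_lit 1) (nat_lit 4) (nat_lit 2) (nat_lit 5) (nat_lit 2) (nat_lit 4) (nat_lit 352) (nat_lit 291) (nat_lit 257)))) (XT.nd (nat_lit 78) (nat_lit 0) (nat_lit 0) (XT.lf (nat_lit 0) (nat_lit 91505811174) (nat_lit 76) (nat_lit 647557197777) (nat_lit 76) (nat_lit 645881451721) (nat_lit 1) (nat_lit 4) (nat_lit 2) (nat_lit 5) (nat_lit 2) (nat_lit 4) (nat_lit 353) (nat_lit 291) (nat_lit 256)) (XT.nd (nat_lit 78) (nat_lit 0) (nat_lit 0) (XT.lf (nat_lit 0) (nat_lit 114950701953) (nat_lit 76) (nat_lit 739358087956) (nat_lit 76) (nat_lit 737680688223) (nat_lit 1) (nat_lit 4) (nat_lit 2) (nat_lit 5) (nat_lit 2) (nat_lit 4) (nat_lit 354) (nat_lit 291) (nat_lit 255)) (XT.lf (nat_lit 0) (nat_lit 141894776326) (nat_lit 76)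 (nat_lit 844938283785) (nat_lit 76) (nat_lit 843259446072) (nat_lit 1) (nat_lit 4) (nat_lit 2) (nat_lit 5) (nat_lit 2) (nat_lit 4) (nat_lit 355) (nat_lit 291) (nat_lit 254)))))) (XT.nd (nat_lit 390) (nat_lit 0) (nat_lit 0) (XT.nd (nat_lit 156) (nat_lit 0) (nat_lit 0) (XT.nd (nat_lit 78) (nat_lit 0) (nat_lit 0) (XT.lf (nat_lit 0) (nat_lit 172865200967) (nat_lit 76) (nat_lit 966363484747) (nat_lit 76) (nat_lit 964683396617) (nat_lit 1) (nat_lit 4) (nat_lit 2) (nat_lit 5) (nat_lit 2) (nat_lit 4) (nat_lit 356) (nat_lit 291) (nat_lit 253)) (XT.lf (nat_lit 0) (nat_lit 208467918965) (nat_lit 76) (nat_lit 1106009401295) (nat_lit 76) (nat_lit 1104328225846) (nat_lit 1) (nat_lit 4) (nat_lit 2) (nat_lit 5) (nat_lit 2) (nat_lit 4) (nat_lit 357) (nat_lit 291) (nat_lit 252))) (XT.nd (nat_lit 78) (nat_lit 0) (nat_lit 0) (XT.lf (nat_lit 0) (nat_lit 249399505238) (nat_lit 76) (nat_lit 1266608236146) (nat_lit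 76) (nat_lit 1264926115203) (nat_lit 1) (nat_lit 4) (nat_lit 2) (nat_lit 5) (nat_lit 2) (nat_lit 4) (nat_lit 358) (nat_lit 291) (nat_lit 251)) (XT.nd (nat_lit 78) (nat_lit 0) (nat_lit 0) (XT.lf (nat_lit 0) (nat_lit 296460795169) (nat_lit 76) (nat_lit 1451302140416) (nat_lit 76) (nat_lit 1449619197303) (nat_lit 1) (nat_lit 4) (nat_lit 2) (nat_lit 5) (nat_lit 2) (nat_lit 4) (nat_lit 359) (nat_lit 291) (nat_lit 250)) (XT.lf (nat_lit 0) (nat_lit 350572553128) (nat_lit 76) (nat_lit 1663704690493) (nat_lit 76) (nat_lit 1662021032449) (nat_lit 1) (nat_lit 4) (nat_lit 2) (nat_lit 5) (nat_lit 2) (nat_lit 4) (nat_lit 360) (nat_lit 291) (nat_lit 249))))) (XT.nd (nat_lit 234) (nat_lit 0) (nat_lit 0) (XT.nd (nat_lit 78) (nat_lit 0) (nat_lit 0) (XT.lf (nat_lit 0) (nat_lit 412793487421) (nat_lit 76) (nat_lit 1907971588442) (nat_lit 76) (nat_lit 1906287308721) (nat_lit 1) (nat_lit 4) (nat_lit 2) (nat_lit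 5) (nat_lit 2) (nat_lit 4) (nat_lit 361) (nat_lit 291) (nat_lit 248)) (XT.nd (nat_lit 78) (nat_lit 0) (nat_lit 0) (XT.lf (nat_lit 0) (nat_lit 484340964154) (nat_lit 76) (nat_lit 2188881969225) (nat_lit 76) (nat_lit 2187197148914) (nat_lit 1) (nat_lit 4) (nat_lit 2) (nat_lit 5) (nat_lit 2) (nat_lit 4) (nat_lit 362) (nat_lit 291) (nat_lit 247)) (XT.lf (nat_lit 0) (nat_lit 566614825264) (nat_lit 76) (nat_lit 2511931905509) (nat_lit 76) (nat_lit 2510246615119) (nat_lit 1) (nat_lit 4) (nat_lit 2) (nat_lit 5) (nat_lit 2) (nat_lit 4) (nat_lit 363) (nat_lit 291) (nat_lit 246)))) (XT.nd (nat_lit 78) (nat_lit 0) (nat_lit 0) (XT.lf (nat_lit 0) (nat_lit 661224776728) (nat_lit 76) (nat_lit 2883441939525) (nat_lit 76) (nat_lit 2881756240372) (nat_lit 1) (nat_lit 4) (nat_lit 2) (nat_lit 5) (nat_lit 2) (nat_lit 4) (nat_lit 364) (nat_lit 291) (nat_lit 245)) (XT.nd (nat_lit 78) (nat_lit 0) (nat_lit 0)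 (XT.lf (nat_lit 0) (nat_lit 770021882816) (nat_lit 76) (nat_lit 3310680745852) (nat_lit 76) (nat_lit 3308994691252) (nat_lit 1) (nat_lit 4) (nat_lit 2) (nat_lit 5) (nat_lit 2) (nat_lit 4) (nat_lit 365) (nat_lit 291) (nat_lit 244)) (XT.lf (nat_lit 0) (nat_lit 895134782558) (nat_lit 76) (nat_lit 3802007344613) (nat_lit 76) (nat_lit 3800320980930) (nat_lit 1) (nat_lit 4) (nat_lit 2) (nat_lit 5) (nat_lit 2) (nat_lit 4) (nat_lit 366) (nat_lit 291) (nat_lit 243))))))))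
noncomputable def xc32 : XT := (XT.nd (nat_lit 2886) (nat_lit 0) (nat_lit 0) (XT.nd (nat_lit 780) (nat_lit 0) (nat_lit 0) (XT.nd (nat_lit 390) (nat_lit 0) (nat_lit 0) (XT.nd (nat_lit 156) (nat_lit 0) (nat_lit 0) (XT.nd (nat_lit 78) (nat_lit 0) (nat_lit 0) (XT.lf (nat_lit 0) (nat_lit 1039011337036) (nat_lit 76) (nat_lit 4367034647525) (nat_lit 76) (nat_lit 4365348015072) (nat_lit 1) (nat_lit 4) (nat_lit 2) (nat_lit 5) (nat_lit 2) (nat_lit 4) (nat_lit 367) (nat_lit 291) (nat_lit 242)) (XT.lf (nat_lit 0) (nat_lit 1204466522317) (nat_lit 76) (nat_lit 5016817536599) (nat_lit 76) (nat_lit 5015130670434) (nat_lit 1) (nat_lit 4) (nat_lit 2) (nat_lit 5) (nat_lit 2) (nat_lit 4) (nat_lit 368) (nat_lit 291) (nat_lit 241))) (XT.nd (nat_lit 78) (nat_lit 0) (nat_lit 0) (XT.lf (nat_lit 0) (nat_lit 1394737505069) (nat_lit 76) (nat_lit 5764069155318) (nat_lit 76) (nat_lit 5762382085926) (nat_lit 1) (nat_lit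 4) (nat_lit 2) (nat_lit 5) (nat_lit 2) (nat_lit 4) (nat_lit 369) (nat_lit 291) (nat_lit 240)) (XT.nd (nat_lit 78) (nat_lit 0) (nat_lit 0) (XT.lf (nat_lit 0) (nat_lit 1613546978432) (nat_lit 76) (nat_lit 6623409644049) (nat_lit 76) (nat_lit 6621722397937) (nat_lit 1) (nat_lit 4) (nat_lit 2) (nat_lit 5) (nat_lit 2) (nat_lit 4) (nat_lit 370) (nat_lit 291) (nat_lit 239)) (XT.lf (nat_lit 0) (nat_lit 1865175997321) (nat_lit 76) (nat_lit 7611652186266) (nat_lit 76) (nat_lit 7609964786484) (nat_lit 1) (nat_lit 4) (nat_lit 2) (nat_lit 5) (nat_lit 2) (nat_lit 4) (nat_lit 371) (nat_lit 291) (nat_lit 238))))) (XT.nd (nat_lit 156) (nat_lit 0) (nat_lit 0) (XT.nd (nat_lit 78) (nat_lit 0) (nat_lit 0) (XT.lf (nat_lit 0) (nat_lit 2154547738192) (nat_lit 76) (nat_lit 8748131962143) (nat_lit 76) (nat_lit 8746444428736) (nat_lit 1) (nat_lit 4) (nat_lit 2) (nat_lit 5) (nat_lit 2) (nat_lit 4) (nat_lit 372)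 (nat_lit 291) (nat_lit 237)) (XT.lf (nat_lit 0) (nat_lit 2487323822062) (nat_lit 76) (nat_lit 10055084445556) (nat_lit 76) (nat_lit 10053396795953) (nat_lit 1) (nat_lit 4) (nat_lit 2) (nat_lit 5) (nat_lit 2) (nat_lit 4) (nat_lit 373) (nat_lit 291) (nat_lit 236))) (XT.nd (nat_lit 78) (nat_lit 0) (nat_lit 0) (XT.lf (nat_lit 0) (nat_lit 2870015085355) (nat_lit 76) (nat_lit 11558080445963) (nat_lit 76) (nat_lit 11556392695320) (nat_lit 1) (nat_lit 4) (nat_lit 2) (nat_lit 5) (nat_lit 2) (nat_lit 4) (nat_lit 374) (nat_lit 291) (nat_lit 235)) (XT.nd (nat_lit 78) (nat_lit 0) (nat_lit 0) (XT.lf (nat_lit 0) (nat_lit 3310108965830) (nat_lit 76) (nat_lit 13286526406851) (nat_lit 76) (nat_lit 13284838568347) (nat_lit 1) (nat_lit 4) (nat_lit 2) (nat_lit 5) (nat_lit 2) (nat_lit 4) (nat_lit 375) (nat_lit 291) (nat_lit 234)) (XT.lf (nat_lit 0) (nat_lit 3816215995932) (nat_lit 76) (nat_lit 15274239749193)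 (nat_lit 76) (nat_lit 15272551834288) (nat_lit 1) (nat_lit 4) (nat_lit 2) (nat_lit 5) (nat_lit 2) (nat_lit 4) (nat_lit 376) (nat_lit 291) (nat_lit 233)))))) (XT.nd (nat_lit 390) (nat_lit 0) (nat_lit 0) (XT.nd (nat_lit 156) (nat_lit 0) (nat_lit 0) (XT.nd (nat_lit 78) (nat_lit 0) (nat_lit 0) (XT.lf (nat_lit 0) (nat_lit 4398238269727) (nat_lit 76) (nat_lit 17560110516643) (nat_lit 76) (nat_lit 17558422535303) (nat_lit 1) (nat_lit 4) (nat_lit 2) (nat_lit 5) (nat_lit 2) (nat_lit 4) (nat_lit 377) (nat_lit 291) (nat_lit 232)) (XT.lf (nat_lit 0) (nat_lit 5067563179530) (nat_lit 76) (nat_lit 20188862267696) (nat_lit 76) (nat_lit 20187174228586) (nat_lit 1) (nat_lit 4) (nat_lit 2) (nat_lit 5) (nat_lit 2) (nat_lit 4) (nat_lit 378) (nat_lit 291) (nat_lit 231))) (XT.nd (nat_lit 78) (nat_lit 0) (nat_lit 0) (XT.lf (nat_lit 0) (nat_lit 5837286212706) (nat_lit 76) (nat_lit 23211927101829) (nat_lit 76)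 (nat_lit 23210239012484) (nat_lit 1) (nat_lit 4) (nat_lit 2) (nat_lit 5) (nat_lit 2) (nat_lit 4) (nat_lit 379) (nat_lit 291) (nat_lit 230)) (XT.nd (nat_lit 78) (nat_lit 0) (nat_lit 0) (XT.lf (nat_lit 0) (nat_lit 6722467167730) (nat_lit 76) (nat_lit 26688451939709) (nat_lit 76) (nat_lit 26686763806681) (nat_lit 1) (nat_lit 4) (nat_lit 2) (nat_lit 5) (nat_lit 2) (nat_lit 4) (nat_lit 380) (nat_lit 291) (nat_lit 229)) (XT.lf (nat_lit 0) (nat_lit 7740424802418) (nat_lit 76) (nat_lit 30686455745555) (nat_lit 76) (nat_lit 30684767574543) (nat_lit 1) (nat_lit 4) (nat_lit 2) (nat_lit 5) (nat_lit 2) (nat_lit 4) (nat_lit 381) (nat_lit 291) (nat_lit 228))))) (XT.nd (nat_lit 234) (nat_lit 0) (nat_lit 0) (XT.nd (nat_lit 78) (nat_lit 0) (nat_lit 0) (XT.lf (nat_lit 0) (nat_lit 8911075679188) (nat_lit 76) (nat_lit 35284160332961) (nat_lit 76) (nat_lit 35282472128919) (nat_lit 1) (nat_lit 4) (nat_lit 2)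 (nat_lit 5) (nat_lit 2) (nat_lit 4) (nat_lit 382) (nat_lit 291) (nat_lit 227)) (XT.nd (nat_lit 78) (nat_lit 0) (nat_lit 0) (XT.lf (nat_lit 0) (nat_lit 10257323836932) (nat_lit 76) (nat_lit 40571520791680) (nat_lit 76) (nat_lit 40569832558916) (nat_lit 1) (nat_lit 4) (nat_lit 2) (nat_lit 5) (nat_lit 2) (nat_lit 4) (nat_lit 383) (nat_lit 291) (nat_lit 226)) (XT.lf (nat_lit 0) (nat_lit 11805508913521) (nat_lit 76) (nat_lit 46651985478513) (nat_lit 76) (nat_lit 46650297220773) (nat_lit 1) (nat_lit 4) (nat_lit 2) (nat_lit 5) (nat_lit 2) (nat_lit 4) (nat_lit 384) (nat_lit 291) (nat_lit 225)))) (XT.nd (nat_lit 78) (nat_lit 0) (nat_lit 0) (XT.lf (nat_lit 0) (nat_lit 13585921486539) (nat_lit 76) (nat_lit 53644520006897) (nat_lit 76) (nat_lit 53642831727440) (nat_lit 1) (nat_lit 4) (nat_lit 2) (nat_lit 5) (nat_lit 2) (nat_lit 4) (nat_lit 385) (nat_lit 291) (nat_lit 224)) (XT.nd (nat_lit 1326) (nat_lit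 0) (nat_lit 0) (XT.lf (nat_lit 0) (nat_lit 15633395715023) (nat_lit 76) (nat_lit 61685934834998) (nat_lit 76) (nat_lit 61684246536655) (nat_lit 1) (nat_lit 4) (nat_lit 2) (nat_lit 5) (nat_lit 2) (nat_lit 4) (nat_lit 386) (nat_lit 291) (nat_lit 223)) (XT.lf (nat_lit 0) (nat_lit 168858859617734) (nat_lit 76) (nat_lit 663476154351624) (nat_lit 76) (nat_lit 663474465939081) (nat_lit 1) (nat_lit 4) (nat_lit 2) (nat_lit 5) (nat_lit 2) (nat_lit 4) (nat_lit 403) (nat_lit 291) (nat_lit 206))))))) (XT.nd (nat_lit 40638) (nat_lit 0) (nat_lit 76) (XT.nd (nat_lit 40170) (nat_lit 0) (nat_lit 456) (XT.nd (nat_lit 156) (nat_lit 0) (nat_lit 0) (XT.nd (nat_lit 78) (nat_lit 0) (nat_lit 0) (XT.lf (nat_lit 0) (nat_lit 194197273153487) (nat_lit 76) (nat_lit 762992315069600) (nat_lit 76) (nat_lit 762990626655530) (nat_lit 1) (nat_lit 4) (nat_lit 2) (nat_lit 5) (nat_lit 2) (nat_lit 4) (nat_lit 404) (nat_lit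 291) (nat_lit 205)) (XT.lf (nat_lit 0) (nat_lit 223336448703409) (nat_lit 76) (nat_lit 877435899903733) (nat_lit 76) (nat_lit 877434211488335) (nat_lit 1) (nat_lit 4) (nat_lit 2) (nat_lit 5) (nat_lit 2) (nat_lit 4) (nat_lit 405) (nat_lit 291) (nat_lit 204))) (XT.nd (nat_lit 39858) (nat_lit 0) (nat_lit 760) (XT.lf (nat_lit 0) (nat_lit 256846500571734) (nat_lit 76) (nat_lit 1009046022470350) (nat_lit 76) (nat_lit 1009044334053796) (nat_lit 1) (nat_lit 4) (nat_lit 2) (nat_lit 5) (nat_lit 2) (nat_lit 4) (nat_lit 406) (nat_lit 291) (nat_lit 203)) (XT.nd (nat_lit 78) (nat_lit 152) (nat_lit 0) (XT.lf (nat_lit 0) (nat_lit 5176069483) (nat_lit 76) (nat_lit 808096579) (nat_lit 76) (nat_lit 808096579) (nat_lit 13) (nat_lit 4) (nat_lit 14) (nat_lit 5) (nat_lit 14) (nat_lit 4) (nat_lit 316) (nat_lit 292) (nat_lit 292)) (XT.lf (nat_lit 0) (nat_lit 3853958443) (nat_lit 152) (nat_lit 7408975620) (nat_lit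 0) (nat_lit 3468776110) (nat_lit 11) (nat_lit 5) (nat_lit 13) (nat_lit 4) (nat_lit 11) (nat_lit 4) (nat_lit 317) (nat_lit 292) (nat_lit 291))))) (XT.nd (nat_lit 234) (nat_lit 76) (nat_lit 0) (XT.nd (nat_lit 78) (nat_lit 152) (nat_lit 0) (XT.lf (nat_lit 0) (nat_lit 2858138534) (nat_lit 76) (nat_lit 6962728972) (nat_lit 76) (nat_lit 6242605479) (nat_lit 10) (nat_lit 4) (nat_lit 11) (nat_lit 5) (nat_lit 11) (nat_lit 4) (nat_lit 318) (nat_lit 292) (nat_lit 290)) (XT.nd (nat_lit 78) (nat_lit 152) (nat_lit 0) (XT.lf (nat_lit 0) (nat_lit 14511832099) (nat_lit 76) (nat_lit 2056024450) (nat_lit 76) (nat_lit 1044647775) (nat_lit 10) (nat_lit 4) (nat_lit 11) (nat_lit 5) (nat_lit 11) (nat_lit 4) (nat_lit 319) (nat_lit 292) (nat_lit 289)) (XT.lf (nat_lit 0) (nat_lit 4528923938) (nat_lit 152) (nat_lit 11400023459) (nat_lit 0) (nat_lit 3429236711) (nat_lit 8) (nat_lit 5) (nat_lit 10) (nat_lit 4) (nat_lit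 8) (nat_lit 4) (nat_lit 320) (nat_lit 292) (nat_lit 288)))) (XT.nd (nat_lit 78) (nat_lit 76) (nat_lit 0) (XT.lf (nat_lit 0) (nat_lit 10647870057) (nat_lit 152) (nat_lit 1381432674) (nat_lit 0) (nat_lit 9356679135) (nat_lit 8) (nat_lit 5) (nat_lit 10) (nat_lit 4) (nat_lit 8) (nat_lit 4) (nat_lit 321) (nat_lit 292) (nat_lit 287)) (XT.nd (nat_lit 78) (nat_lit 0) (nat_lit 0) (XT.lf (nat_lit 0) (nat_lit 10263260590) (nat_lit 76) (nat_lit 7453843360) (nat_lit 76) (nat_lit 5996127486) (nat_lit 7) (nat_lit 4) (nat_lit 8) (nat_lit 5) (nat_lit 8) (nat_lit 4) (nat_lit 322) (nat_lit 292) (nat_lit 286)) (XT.lf (nat_lit 0) (nat_lit 23055446405) (nat_lit 76) (nat_lit 2490913154) (nat_lit 76) (nat_lit 888392973) (nat_lit 7) (nat_lit 4) (nat_lit 8) (nat_lit 5) (nat_lit 8) (nat_lit 4) (nat_lit 323) (nat_lit 292) (nat_lit 285)))))) (XT.nd (nat_lit 390) (nat_lit 152) (nat_lit 0) (XT.nd (nat_lit 156) (nat_lit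 76) (nat_lit 0) (XT.nd (nat_lit 78) (nat_lit 0) (nat_lit 0) (XT.lf (nat_lit 0) (nat_lit 4678594827) (nat_lit 152) (nat_lit 21658892402) (nat_lit 0) (nat_lit 3175606159) (nat_lit 5) (nat_lit 5) (nat_lit 7) (nat_lit 4) (nat_lit 5) (nat_lit 4) (nat_lit 324) (nat_lit 292) (nat_lit 284)) (XT.lf (nat_lit 0) (nat_lit 10956983998) (nat_lit 152) (nat_lit 12736060612) (nat_lit 0) (nat_lit 9358784148) (nat_lit 5) (nat_lit 5) (nat_lit 7) (nat_lit 4) (nat_lit 5) (nat_lit 4) (nat_lit 325) (nat_lit 292) (nat_lit 283))) (XT.nd (nat_lit 78) (nat_lit 76) (nat_lit 0) (XT.lf (nat_lit 0) (nat_lit 17884640732) (nat_lit 152) (nat_lit 3077032865) (nat_lit 0) (nat_lit 16203648549) (nat_lit 5) (nat_lit 5) (nat_lit 7) (nat_lit 4) (nat_lit 5) (nat_lit 4) (nat_lit 326) (nat_lit 292) (nat_lit 282)) (XT.nd (nat_lit 78) (nat_lit 0) (nat_lit 0) (XT.lf (nat_lit 0) (nat_lit 8240827241) (nat_lit 76) (nat_lit 17697513978)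 (nat_lit 76) (nat_lit 15944528464) (nat_lit 4) (nat_lit 4) (nat_lit 5) (nat_lit 5) (nat_lit 5) (nat_lit 4) (nat_lit 327) (nat_lit 292) (nat_lit 281)) (XT.lf (nat_lit 0) (nat_lit 21102309181) (nat_lit 76) (nat_lit 14016768719) (nat_lit 76) (nat_lit 12201180307) (nat_lit 4) (nat_lit 4) (nat_lit 5) (nat_lit 5) (nat_lit 5) (nat_lit 4) (nat_lit 328) (nat_lit 292) (nat_lit 280))))) (XT.nd (nat_lit 234) (nat_lit 0) (nat_lit 0) (XT.nd (nat_lit 78) (nat_lit 152) (nat_lit 0) (XT.lf (nat_lit 0) (nat_lit 35458340613) (nat_lit 76) (nat_lit 10008268139) (nat_lit 76) (nat_lit 8138242424) (nat_lit 4) (nat_lit 4) (nat_lit 5) (nat_lit 5) (nat_lit 5) (nat_lit 4) (nat_lit 329) (nat_lit 292) (nat_lit 279)) (XT.nd (nat_lit 78) (nat_lit 152) (nat_lit 0) (XT.lf (nat_lit 0) (nat_lit 51589800414) (nat_lit 76) (nat_lit 5593585051) (nat_lit 76) (nat_lit 3676222553) (nat_lit 4) (nat_lit 4) (nat_lit 5) (nat_lit 5)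 (nat_lit 5) (nat_lit 4) (nat_lit 330) (nat_lit 292) (nat_lit 278)) (XT.lf (nat_lit 0) (nat_lit 585260128) (nat_lit 76) (nat_lit 597895707) (nat_lit 152) (nat_lit 68031776898) (nat_lit 2) (nat_lit 5) (nat_lit 3) (nat_lit 5) (nat_lit 4) (nat_lit 4) (nat_lit 331) (nat_lit 292) (nat_lit 277)))) (XT.nd (nat_lit 78) (nat_lit 0) (nat_lit 0) (XT.lf (nat_lit 0) (nat_lit 6950222447) (nat_lit 152) (nat_lit 66547796742) (nat_lit 0) (nat_lit 5216032595) (nat_lit 2) (nat_lit 5) (nat_lit 4) (nat_lit 4) (nat_lit 2) (nat_lit 4) (nat_lit 332) (nat_lit 292) (nat_lit 276)) (XT.nd (nat_lit 78) (nat_lit 0) (nat_lit 0) (XT.lf (nat_lit 0) (nat_lit 13466813252) (nat_lit 152) (nat_lit 64483021590) (nat_lit 0) (nat_lit 11705558440) (nat_lit 2) (nat_lit 5) (nat_lit 4) (nat_lit 4) (nat_lit 2) (nat_lit 4) (nat_lit 333) (nat_lit 292) (nat_lit 275)) (XT.lf (nat_lit 0) (nat_lit 20835669181) (nat_lit 152) (nat_lit 62370191789)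 (nat_lit 0) (nat_lit 19050879620) (nat_lit 2) (nat_lit 5) (nat_lit 4) (nat_lit 4) (nat_lit 2) (nat_lit 4) (nat_lit 334) (nat_lit 292) (nat_lit 274))))))))
noncomputable def xc33 : XT := (XT.nd (nat_lit 1638) (nat_lit 0) (nat_lit 0) (XT.nd (nat_lit 780) (nat_lit 76) (nat_lit 0) (XT.nd (nat_lit 390) (nat_lit 0) (nat_lit 0) (XT.nd (nat_lit 156) (nat_lit 0) (nat_lit 0) (XT.nd (nat_lit 78) (nat_lit 0) (nat_lit 0) (XT.lf (nat_lit 0) (nat_lit 29200963501) (nat_lit 152) (nat_lit 60167969365) (nat_lit 0) (nat_lit 27395708942) (nat_lit 2) (nat_lit 5) (nat_lit 4) (nat_lit 4) (nat_lit 2) (nat_lit 4) (nat_lit 335) (nat_lit 292) (nat_lit 273)) (XT.lf (nat_lit 0) (nat_lit 38726365015) (nat_lit 152) (nat_lit 57833267357) (nat_lit 0) (nat_lit 36903314806) (nat_lit 2) (nat_lit 5) (nat_lit 4) (nat_lit 4) (nat_lit 2) (nat_lit 4) (nat_lit 336) (nat_lit 292) (nat_lit 272))) (XT.nd (nat_lit 78) (nat_lit 0)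 (nat_lit 0) (XT.lf (nat_lit 0) (nat_lit 49598240275) (nat_lit 152) (nat_lit 55320406814) (nat_lit 0) (nat_lit 47759715586) (nat_lit 2) (nat_lit 5) (nat_lit 4) (nat_lit 4) (nat_lit 2) (nat_lit 4) (nat_lit 337) (nat_lit 292) (nat_lit 271)) (XT.nd (nat_lit 78) (nat_lit 0) (nat_lit 0) (XT.lf (nat_lit 0) (nat_lit 62029299882) (nat_lit 152) (nat_lit 52580223072) (nat_lit 0) (nat_lit 60177319125) (nat_lit 2) (nat_lit 5) (nat_lit 4) (nat_lit 4) (nat_lit 2) (nat_lit 4) (nat_lit 338) (nat_lit 292) (nat_lit 270)) (XT.lf (nat_lit 0) (nat_lit 76262760221) (nat_lit 152) (nat_lit 49559103841) (nat_lit 0) (nat_lit 74399078535) (nat_lit 2) (nat_lit 5) (nat_lit 4) (nat_lit 4) (nat_lit 2) (nat_lit 4) (nat_lit 339) (nat_lit 292) (nat_lit 269))))) (XT.nd (nat_lit 156) (nat_lit 0) (nat_lit 0) (XT.nd (nat_lit 78) (nat_lit 0) (nat_lit 0) (XT.lf (nat_lit 0) (nat_lit 92577102037) (nat_lit 152) (nat_lit 46197940265)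 (nat_lit 0) (nat_lit 90703245631) (nat_lit 2) (nat_lit 5) (nat_lit 4) (nat_lit 4) (nat_lit 2) (nat_lit 4) (nat_lit 340) (nat_lit 292) (nat_lit 268)) (XT.lf (nat_lit 0) (nat_lit 111291518975) (nat_lit 152) (nat_lit 42430970450) (nat_lit 0) (nat_lit 109408814985) (nat_lit 2) (nat_lit 5) (nat_lit 4) (nat_lit 4) (nat_lit 2) (nat_lit 4) (nat_lit 341) (nat_lit 292) (nat_lit 267))) (XT.nd (nat_lit 78) (nat_lit 0) (nat_lit 0) (XT.lf (nat_lit 0) (nat_lit 132772162671) (nat_lit 152) (nat_lit 38184492812) (nat_lit 0) (nat_lit 130881765130) (nat_lit 2) (nat_lit 5) (nat_lit 4) (nat_lit 4) (nat_lit 2) (nat_lit 4) (nat_lit 342) (nat_lit 292) (nat_lit 266)) (XT.nd (nat_lit 78) (nat_lit 0) (nat_lit 0) (XT.lf (nat_lit 0) (nat_lit 157439306587) (nat_lit 152) (nat_lit 33375424092) (nat_lit 0) (nat_lit 155542219002) (nat_lit 2) (nat_lit 5) (nat_lit 4) (nat_lit 4) (nat_lit 2) (nat_lit 4) (nat_lit 343) (nat_lit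 292) (nat_lit 265)) (XT.lf (nat_lit 0) (nat_lit 185775568758) (nat_lit 152) (nat_lit 27909673816) (nat_lit 0) (nat_lit 183872663743) (nat_lit 2) (nat_lit 5) (nat_lit 4) (nat_lit 4) (nat_lit 2) (nat_lit 4) (nat_lit 344) (nat_lit 292) (nat_lit 264)))))) (XT.nd (nat_lit 390) (nat_lit 0) (nat_lit 0) (XT.nd (nat_lit 156) (nat_lit 76) (nat_lit 0) (XT.nd (nat_lit 78) (nat_lit 0) (nat_lit 0) (XT.lf (nat_lit 0) (nat_lit 218335354312) (nat_lit 152) (nat_lit 21680303391) (nat_lit 0) (nat_lit 216427390662) (nat_lit 2) (nat_lit 5) (nat_lit 4) (nat_lit 4) (nat_lit 2) (nat_lit 4) (nat_lit 345) (nat_lit 292) (nat_lit 263)) (XT.lf (nat_lit 0) (nat_lit 255755702532) (nat_lit 152) (nat_lit 14565433831) (nat_lit 0) (nat_lit 253843340070) (nat_lit 2) (nat_lit 5) (nat_lit 4) (nat_lit 4) (nat_lit 2) (nat_lit 4) (nat_lit 346) (nat_lit 292) (nat_lit 262))) (XT.nd (nat_lit 78) (nat_lit 76) (nat_lit 0) (XT.lf (nat_lit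 0) (nat_lit 298768750667) (nat_lit 152) (nat_lit 6425861166) (nat_lit 0) (nat_lit 296852563150) (nat_lit 2) (nat_lit 5) (nat_lit 4) (nat_lit 4) (nat_lit 2) (nat_lit 4) (nat_lit 347) (nat_lit 292) (nat_lit 261)) (XT.nd (nat_lit 78) (nat_lit 0) (nat_lit 0) (XT.lf (nat_lit 0) (nat_lit 3180848215) (nat_lit 76) (nat_lit 345166922278) (nat_lit 76) (nat_lit 343247408627) (nat_lit 1) (nat_lit 4) (nat_lit 2) (nat_lit 5) (nat_lit 2) (nat_lit 4) (nat_lit 348) (nat_lit 292) (nat_lit 260)) (XT.lf (nat_lit 0) (nat_lit 14915443811) (nat_lit 76) (nat_lit 390767245823) (nat_lit 76) (nat_lit 388844839881) (nat_lit 1) (nat_lit 4) (nat_lit 2) (nat_lit 5) (nat_lit 2) (nat_lit 4) (nat_lit 349) (nat_lit 292) (nat_lit 259))))) (XT.nd (nat_lit 234) (nat_lit 0) (nat_lit 0) (XT.nd (nat_lit 78) (nat_lit 0) (nat_lit 0) (XT.lf (nat_lit 0) (nat_lit 28379533647) (nat_lit 76) (nat_lit 443223660000) (nat_lit 76) (nat_lit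 441298739023) (nat_lit 1) (nat_lit 4) (nat_lit 2) (nat_lit 5) (nat_lit 2) (nat_lit 4) (nat_lit 350) (nat_lit 292) (nat_lit 258)) (XT.nd (nat_lit 78) (nat_lit 0) (nat_lit 0) (XT.lf (nat_lit 0) (nat_lit 43836545567) (nat_lit 76) (nat_lit 503562485957) (nat_lit 76) (nat_lit 501635377992) (nat_lit 1) (nat_lit 4) (nat_lit 2) (nat_lit 5) (nat_lit 2) (nat_lit 4) (nat_lit 351) (nat_lit 292) (nat_lit 257)) (XT.lf (nat_lit 0) (nat_lit 61588899371) (nat_lit 76) (nat_lit 572964265939) (nat_lit 76) (nat_lit 571035256246) (nat_lit 1) (nat_lit 4) (nat_lit 2) (nat_lit 5) (nat_lit 2) (nat_lit 4) (nat_lit 352) (nat_lit 292) (nat_lit 256)))) (XT.nd (nat_lit 78) (nat_lit 0) (nat_lit 0) (XT.lf (nat_lit 0) (nat_lit 81983923719) (nat_lit 76) (nat_lit 652786860861) (nat_lit 76) (nat_lit 650856197491) (nat_lit 1) (nat_lit 4) (nat_lit 2) (nat_lit 5) (nat_lit 2) (nat_lit 4) (nat_lit 353) (nat_lit 292) (nat_lit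 255)) (XT.nd (nat_lit 78) (nat_lit 0) (nat_lit 0) (XT.lf (nat_lit 0) (nat_lit 105420651697) (nat_lit 76) (nat_lit 744592017143) (nat_lit 76) (nat_lit 742659915794) (nat_lit 1) (nat_lit 4) (nat_lit 2) (nat_lit 5) (nat_lit 2) (nat_lit 4) (nat_lit 354) (nat_lit 292) (nat_lit 254)) (XT.lf (nat_lit 0) (nat_lit 132357627983) (nat_lit 76) (nat_lit 850175922627) (nat_lit 76) (nat_lit 848242570861) (nat_lit 1) (nat_lit 4) (nat_lit 2) (nat_lit 5) (nat_lit 2) (nat_lit 4) (nat_lit 355) (nat_lit 292) (nat_lit 253))))))) (XT.nd (nat_lit 858) (nat_lit 0) (nat_lit 0) (XT.nd (nat_lit 390) (nat_lit 0) (nat_lit 0) (XT.nd (nat_lit 156) (nat_lit 0) (nat_lit 0) (XT.nd (nat_lit 78) (nat_lit 0) (nat_lit 0) (XT.lf (nat_lit 0) (nat_lit 163321880373) (nat_lit 76) (nat_lit 971604349376) (nat_lit 76) (nat_lit 969669910291) (nat_lit 1) (nat_lit 4) (nat_lit 2) (nat_lit 5) (nat_lit 2) (nat_lit 4) (nat_lit 356) (nat_lit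 292) (nat_lit 252)) (XT.lf (nat_lit 0) (nat_lit 198919231197) (nat_lit 76) (nat_lit 1111253070958) (nat_lit 76) (nat_lit 1109317686377) (nat_lit 1) (nat_lit 4) (nat_lit 2) (nat_lit 5) (nat_lit 2) (nat_lit 4) (nat_lit 357) (nat_lit 292) (nat_lit 251))) (XT.nd (nat_lit 78) (nat_lit 0) (nat_lit 0) (XT.lf (nat_lit 0) (nat_lit 239846150362) (nat_lit 76) (nat_lit 1271854344967) (nat_lit 76) (nat_lit 1269918138217) (nat_lit 1) (nat_lit 4) (nat_lit 2) (nat_lit 5) (nat_lit 2) (nat_lit 4) (nat_lit 358) (nat_lit 292) (nat_lit 250)) (XT.nd (nat_lit 78) (nat_lit 0) (nat_lit 0) (XT.lf (nat_lit 0) (nat_lit 286903381938) (nat_lit 76) (nat_lit 1456550370245) (nat_lit 76) (nat_lit 1454613448564) (nat_lit 1) (nat_lit 4) (nat_lit 2) (nat_lit 5) (nat_lit 2) (nat_lit 4) (nat_lit 359) (nat_lit 292) (nat_lit 249)) (XT.lf (nat_lit 0) (nat_lit 341011610892) (nat_lit 76) (nat_lit 1668954764675) (nat_lit 76) (nat_lit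 1667017221317) (nat_lit 1) (nat_lit 4) (nat_lit 2) (nat_lit 5) (nat_lit 2) (nat_lit 4) (nat_lit 360) (nat_lit 292) (nat_lit 248))))) (XT.nd (nat_lit 234) (nat_lit 0) (nat_lit 0) (XT.nd (nat_lit 78) (nat_lit 0) (nat_lit 0) (XT.lf (nat_lit 0) (nat_lit 403229476486) (nat_lit 76) (nat_lit 1913223266411) (nat_lit 76) (nat_lit 1911285182463) (nat_lit 1) (nat_lit 4) (nat_lit 2) (nat_lit 5) (nat_lit 2) (nat_lit 4) (nat_lit 361) (nat_lit 292) (nat_lit 247)) (XT.nd (nat_lit 78) (nat_lit 0) (nat_lit 0) (XT.lf (nat_lit 0) (nat_lit 474774284785) (nat_lit 76) (nat_lit 2194135041791) (nat_lit 76) (nat_lit 2192196487765) (nat_lit 1) (nat_lit 4) (nat_lit 2) (nat_lit 5) (nat_lit 2) (nat_lit 4) (nat_lit 362) (nat_lit 292) (nat_lit 246)) (XT.lf (nat_lit 0) (nat_lit 557045825518) (nat_lit 76) (nat_lit 2517186190768) (nat_lit 76) (nat_lit 2515247227978) (nat_lit 1) (nat_lit 4) (nat_lit 2) (nat_lit 5) (nat_lit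 2) (nat_lit 4) (nat_lit 363) (nat_lit 292) (nat_lit 245)))) (XT.nd (nat_lit 78) (nat_lit 0) (nat_lit 0) (XT.lf (nat_lit 0) (nat_lit 651653759263) (nat_lit 76) (nat_lit 2888697279299) (nat_lit 76) (nat_lit 2886757961063) (nat_lit 1) (nat_lit 4) (nat_lit 2) (nat_lit 5) (nat_lit 2) (nat_lit 4) (nat_lit 364) (nat_lit 292) (nat_lit 244)) (XT.nd (nat_lit 78) (nat_lit 0) (nat_lit 0) (XT.lf (nat_lit 0) (nat_lit 760449110811) (nat_lit 76) (nat_lit 3315937002596) (nat_lit 76) (nat_lit 3313997375276) (nat_lit 1) (nat_lit 4) (nat_lit 2) (nat_lit 5) (nat_lit 2) (nat_lit 4) (nat_lit 365) (nat_lit 292) (nat_lit 243)) (XT.lf (nat_lit 0) (nat_lit 885560484867) (nat_lit 76) (nat_lit 3807264398723) (nat_lit 76) (nat_lit 3805324502634) (nat_lit 1) (nat_lit 4) (nat_lit 2) (nat_lit 5) (nat_lit 2) (nat_lit 4) (nat_lit 366) (nat_lit 292) (nat_lit 242)))))) (XT.nd (nat_lit 390) (nat_lit 0) (nat_lit 0) (XT.nd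 (nat_lit 156) (nat_lit 0) (nat_lit 0) (XT.nd (nat_lit 78) (nat_lit 0) (nat_lit 0) (XT.lf (nat_lit 0) (nat_lit 1029435712662) (nat_lit 76) (nat_lit 4372292394996) (nat_lit 76) (nat_lit 4370352265195) (nat_lit 1) (nat_lit 4) (nat_lit 2) (nat_lit 5) (nat_lit 2) (nat_lit 4) (nat_lit 367) (nat_lit 292) (nat_lit 241)) (XT.lf (nat_lit 0) (nat_lit 1194889744305) (nat_lit 76) (nat_lit 5022075886993) (nat_lit 76) (nat_lit 5020135553964) (nat_lit 1) (nat_lit 4) (nat_lit 2) (nat_lit 5) (nat_lit 2) (nat_lit 4) (nat_lit 368) (nat_lit 292) (nat_lit 240))) (XT.nd (nat_lit 78) (nat_lit 0) (nat_lit 0) (XT.lf (nat_lit 0) (nat_lit 1385159723894) (nat_lit 76) (nat_lit 5769328029993) (nat_lit 76) (nat_lit 5767387520244) (nat_lit 1) (nat_lit 4) (nat_lit 2) (nat_lit 5) (nat_lit 2) (nat_lit 4) (nat_lit 369) (nat_lit 292) (nat_lit 239)) (XT.nd (nat_lit 78) (nat_lit 0) (nat_lit 0) (XT.lf (nat_lit 0) (nat_lit 1603968324941)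 (nat_lit 76) (nat_lit 6628668974619) (nat_lit 76) (nat_lit 6626728311201) (nat_lit 1) (nat_lit 4) (nat_lit 2) (nat_lit 5) (nat_lit 2) (nat_lit 4) (nat_lit 370) (nat_lit 292) (nat_lit 238)) (XT.lf (nat_lit 0) (nat_lit 1855596585295) (nat_lit 76) (nat_lit 7616911913268) (nat_lit 76) (nat_lit 7614971116224) (nat_lit 1) (nat_lit 4) (nat_lit 2) (nat_lit 5) (nat_lit 2) (nat_lit 4) (nat_lit 371) (nat_lit 292) (nat_lit 237))))) (XT.nd (nat_lit 234) (nat_lit 0) (nat_lit 0) (XT.nd (nat_lit 78) (nat_lit 0) (nat_lit 0) (XT.lf (nat_lit 0) (nat_lit 2144967666570) (nat_lit 76) (nat_lit 8753392033868) (nat_lit 76) (nat_lit 8751451120628) (nat_lit 1) (nat_lit 4) (nat_lit 2) (nat_lit 5) (nat_lit 2) (nat_lit 4) (nat_lit 372) (nat_lit 292) (nat_lit 236)) (XT.nd (nat_lit 78) (nat_lit 0) (nat_lit 0) (XT.lf (nat_lit 0) (nat_lit 2477743176878) (nat_lit 76) (nat_lit 10060344817040) (nat_lit 76) (nat_lit 10058403802760)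 (nat_lit 1) (nat_lit 4) (nat_lit 2) (nat_lit 5) (nat_lit 2) (nat_lit 4) (nat_lit 373) (nat_lit 292) (nat_lit 235)) (XT.lf (nat_lit 0) (nat_lit 2860433941421) (nat_lit 76) (nat_lit 11563341078107) (nat_lit 76) (nat_lit 11561399975967) (nat_lit 1) (nat_lit 4) (nat_lit 2) (nat_lit 5) (nat_lit 2) (nat_lit 4) (nat_lit 374) (nat_lit 292) (nat_lit 234)))) (XT.nd (nat_lit 78) (nat_lit 0) (nat_lit 0) (XT.lf (nat_lit 0) (nat_lit 3300527388201) (nat_lit 76) (nat_lit 13291787265656) (nat_lit 76) (nat_lit 13289846087115) (nat_lit 1) (nat_lit 4) (nat_lit 2) (nat_lit 5) (nat_lit 2) (nat_lit 4) (nat_lit 375) (nat_lit 292) (nat_lit 233)) (XT.nd (nat_lit 78) (nat_lit 0) (nat_lit 0) (XT.lf (nat_lit 0) (nat_lit 3806634041176) (nat_lit 76) (nat_lit 15279500805094) (nat_lit 76) (nat_lit 15277559560117) (nat_lit 1) (nat_lit 4) (nat_lit 2) (nat_lit 5) (nat_lit 2) (nat_lit 4) (nat_lit 376) (nat_lit 292) (nat_lit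 232)) (XT.lf (nat_lit 0) (nat_lit 4388655987036) (nat_lit 76) (nat_lit 17565371743933) (nat_lit 76) (nat_lit 17563430441186) (nat_lit 1) (nat_lit 4) (nat_lit 2) (nat_lit 5) (nat_lit 2) (nat_lit 4) (nat_lit 377) (nat_lit 292) (nat_lit 231))))))))
noncomputable def xc34 : XT := (XT.nd (nat_lit 42588) (nat_lit 0) (nat_lit 76) (XT.nd (nat_lit 2028) (nat_lit 0) (nat_lit 0) (XT.nd (nat_lit 390) (nat_lit 0) (nat_lit 0) (XT.nd (nat_lit 156) (nat_lit 0) (nat_lit 0) (XT.nd (nat_lit 78) (nat_lit 0) (nat_lit 0) (XT.lf (nat_lit 0) (nat_lit 5057980611678) (nat_lit 76) (nat_lit 20194123644020) (nat_lit 76) (nat_lit 20192182291038) (nat_lit 1) (nat_lit 4) (nat_lit 2) (nat_lit 5) (nat_lit 2) (nat_lit 4) (nat_lit 378) (nat_lit 292) (nat_lit 230)) (XT.lf (nat_lit 0) (nat_lit 5827703396887) (nat_lit 76) (nat_lit 23217188607746) (nat_lit 76) (nat_lit 23215247211082) (nat_lit 1) (nat_lit 4) (nat_lit 2) (nat_lit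 5) (nat_lit 2) (nat_lit 4) (nat_lit 379) (nat_lit 292) (nat_lit 229))) (XT.nd (nat_lit 78) (nat_lit 0) (nat_lit 0) (XT.lf (nat_lit 0) (nat_lit 6712884136288) (nat_lit 76) (nat_lit 26693713558317) (nat_lit 76) (nat_lit 26691772123668) (nat_lit 1) (nat_lit 4) (nat_lit 2) (nat_lit 5) (nat_lit 2) (nat_lit 4) (nat_lit 380) (nat_lit 292) (nat_lit 228)) (XT.nd (nat_lit 78) (nat_lit 0) (nat_lit 0) (XT.lf (nat_lit 0) (nat_lit 7730841583477) (nat_lit 76) (nat_lit 30691717462155) (nat_lit 76) (nat_lit 30689775994476) (nat_lit 1) (nat_lit 4) (nat_lit 2) (nat_lit 5) (nat_lit 2) (nat_lit 4) (nat_lit 381) (nat_lit 292) (nat_lit 227)) (XT.lf (nat_lit 0) (nat_lit 8901492297205) (nat_lit 76) (nat_lit 35289422134771) (nat_lit 76) (nat_lit 35287480638370) (nat_lit 1) (nat_lit 4) (nat_lit 2) (nat_lit 5) (nat_lit 2) (nat_lit 4) (nat_lit 382) (nat_lit 292) (nat_lit 226))))) (XT.nd (nat_lit 156) (nat_lit 0)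 (nat_lit 0) (XT.nd (nat_lit 78) (nat_lit 0) (nat_lit 0) (XT.lf (nat_lit 0) (nat_lit 10247740313174) (nat_lit 76) (nat_lit 40576782667586) (nat_lit 76) (nat_lit 40574841146209) (nat_lit 1) (nat_lit 4) (nat_lit 2) (nat_lit 5) (nat_lit 2) (nat_lit 4) (nat_lit 383) (nat_lit 292) (nat_lit 225)) (XT.lf (nat_lit 0) (nat_lit 11795925266479) (nat_lit 76) (nat_lit 46657247418850) (nat_lit 76) (nat_lit 46655305875755) (nat_lit 1) (nat_lit 4) (nat_lit 2) (nat_lit 5) (nat_lit 2) (nat_lit 4) (nat_lit 384) (nat_lit 292) (nat_lit 224))) (XT.nd (nat_lit 78) (nat_lit 0) (nat_lit 0) (XT.lf (nat_lit 0) (nat_lit 13576337732294) (nat_lit 76) (nat_lit 53649782003262) (nat_lit 76) (nat_lit 53647840441282) (nat_lit 1) (nat_lit 4) (nat_lit 2) (nat_lit 5) (nat_lit 2) (nat_lit 4) (nat_lit 385) (nat_lit 292) (nat_lit 223)) (XT.nd (nat_lit 1326) (nat_lit 0) (nat_lit 0) (XT.lf (nat_lit 0) (nat_lit 15623811867559) (nat_lit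 76) (nat_lit 61691196880082) (nat_lit 76) (nat_lit 61689255301680) (nat_lit 1) (nat_lit 4) (nat_lit 2) (nat_lit 5) (nat_lit 2) (nat_lit 4) (nat_lit 386) (nat_lit 292) (nat_lit 222)) (XT.lf (nat_lit 0) (nat_lit 168849275206555) (nat_lit 76) (nat_lit 663481416691322) (nat_lit 76) (nat_lit 663479475013613) (nat_lit 1) (nat_lit 4) (nat_lit 2) (nat_lit 5) (nat_lit 2) (nat_lit 4) (nat_lit 403) (nat_lit 292) (nat_lit 205)))))) (XT.nd (nat_lit 40092) (nat_lit 0) (nat_lit 456) (XT.nd (nat_lit 39858) (nat_lit 0) (nat_lit 912) (XT.nd (nat_lit 78) (nat_lit 0) (nat_lit 0) (XT.lf (nat_lit 0) (nat_lit 194187688734775) (nat_lit 76) (nat_lit 762997577413233) (nat_lit 76) (nat_lit 762995635734198) (nat_lit 1) (nat_lit 4) (nat_lit 2) (nat_lit 5) (nat_lit 2) (nat_lit 4) (nat_lit 404) (nat_lit 292) (nat_lit 204)) (XT.lf (nat_lit 0) (nat_lit 223326864278146) (nat_lit 76) (nat_lit 877441162250790) (nat_lit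 76) (nat_lit 877439220570601) (nat_lit 1) (nat_lit 4) (nat_lit 2) (nat_lit 5) (nat_lit 2) (nat_lit 4) (nat_lit 405) (nat_lit 292) (nat_lit 203))) (XT.nd (nat_lit 78) (nat_lit 76) (nat_lit 0) (XT.lf (nat_lit 0) (nat_lit 569096437) (nat_lit 152) (nat_lit 4695129943) (nat_lit 0) (nat_lit 569096437) (nat_lit 14) (nat_lit 5) (nat_lit 16) (nat_lit 4) (nat_lit 14) (nat_lit 4) (nat_lit 314) (nat_lit 293) (nat_lit 293)) (XT.nd (nat_lit 78) (nat_lit 76) (nat_lit 0) (XT.lf (nat_lit 0) (nat_lit 6331594792) (nat_lit 152) (nat_lit 416918724) (nat_lit 0) (nat_lit 5822191156) (nat_lit 14) (nat_lit 5) (nat_lit 16) (nat_lit 4) (nat_lit 14) (nat_lit 4) (nat_lit 315) (nat_lit 293) (nat_lit 292)) (XT.lf (nat_lit 0) (nat_lit 9901685489) (nat_lit 76) (nat_lit 2335718618) (nat_lit 76) (nat_lit 1383355299) (nat_lit 13) (nat_lit 4) (nat_lit 14) (nat_lit 5) (nat_lit 14) (nat_lit 4) (nat_lit 316) (nat_lit 293) (nat_lit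 291))))) (XT.nd (nat_lit 234) (nat_lit 228) (nat_lit 0) (XT.nd (nat_lit 78) (nat_lit 76) (nat_lit 0) (XT.lf (nat_lit 0) (nat_lit 3766297610) (nat_lit 152) (nat_lit 8442090949) (nat_lit 0) (nat_lit 2603214434) (nat_lit 11) (nat_lit 5) (nat_lit 13) (nat_lit 4) (nat_lit 11) (nat_lit 4) (nat_lit 317) (nat_lit 293) (nat_lit 290)) (XT.nd (nat_lit 78) (nat_lit 0) (nat_lit 0) (XT.lf (nat_lit 0) (nat_lit 1265382665) (nat_lit 76) (nat_lit 8187262479) (nat_lit 76) (nat_lit 6732926121) (nat_lit 10) (nat_lit 4) (nat_lit 11) (nat_lit 5) (nat_lit 11) (nat_lit 4) (nat_lit 318) (nat_lit 293) (nat_lit 289)) (XT.lf (nat_lit 0) (nat_lit 12520226668) (nat_lit 76) (nat_lit 3476275570) (nat_lit 76) (nat_lit 1768675576) (nat_lit 10) (nat_lit 4) (nat_lit 11) (nat_lit 5) (nat_lit 11) (nat_lit 4) (nat_lit 319) (nat_lit 293) (nat_lit 288)))) (XT.nd (nat_lit 78) (nat_lit 76) (nat_lit 0) (XT.lf (nat_lit 0) (nat_lit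 3498476027) (nat_lit 152) (nat_lit 14250487290) (nat_lit 0) (nat_lit 1822102771) (nat_lit 8) (nat_lit 5) (nat_lit 10) (nat_lit 4) (nat_lit 8) (nat_lit 4) (nat_lit 320) (nat_lit 293) (nat_lit 287)) (XT.nd (nat_lit 78) (nat_lit 76) (nat_lit 0) (XT.lf (nat_lit 0) (nat_lit 9434848249) (nat_lit 152) (nat_lit 4599520955) (nat_lit 0) (nat_lit 7591950041) (nat_lit 8) (nat_lit 5) (nat_lit 10) (nat_lit 4) (nat_lit 8) (nat_lit 4) (nat_lit 321) (nat_lit 293) (nat_lit 286)) (XT.lf (nat_lit 0) (nat_lit 6379763070) (nat_lit 76) (nat_lit 9804751810) (nat_lit 76) (nat_lit 7817049297) (nat_lit 7) (nat_lit 4) (nat_lit 8) (nat_lit 5) (nat_lit 8) (nat_lit 4) (nat_lit 322) (nat_lit 293) (nat_lit 285))))))) (XT.nd (nat_lit 858) (nat_lit 0) (nat_lit 0) (XT.nd (nat_lit 390) (nat_lit 152) (nat_lit 0) (XT.nd (nat_lit 156) (nat_lit 76) (nat_lit 0) (XT.nd (nat_lit 78) (nat_lit 152) (nat_lit 0) (XT.lf (nat_lit 0)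 (nat_lit 18866806061) (nat_lit 76) (nat_lit 4996277018) (nat_lit 76) (nat_lit 2882657717) (nat_lit 7) (nat_lit 4) (nat_lit 8) (nat_lit 5) (nat_lit 8) (nat_lit 4) (nat_lit 323) (nat_lit 293) (nat_lit 284)) (XT.lf (nat_lit 0) (nat_lit 2387414944) (nat_lit 152) (nat_lit 27065987900) (nat_lit 0) (nat_lit 454273934) (nat_lit 5) (nat_lit 5) (nat_lit 7) (nat_lit 4) (nat_lit 5) (nat_lit 4) (nat_lit 324) (nat_lit 293) (nat_lit 283))) (XT.nd (nat_lit 78) (nat_lit 76) (nat_lit 0) (XT.lf (nat_lit 0) (nat_lit 8529761876) (nat_lit 152) (nat_lit 18423262533) (nat_lit 0) (nat_lit 6513828534) (nat_lit 5) (nat_lit 5) (nat_lit 7) (nat_lit 4) (nat_lit 5) (nat_lit 4) (nat_lit 325) (nat_lit 293) (nat_lit 282)) (XT.nd (nat_lit 78) (nat_lit 76) (nat_lit 0) (XT.lf (nat_lit 0) (nat_lit 15339121010) (nat_lit 152) (nat_lit 9007805591) (nat_lit 0) (nat_lit 13251194337) (nat_lit 5) (nat_lit 5) (nat_lit 7) (nat_lit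 4) (nat_lit 5) (nat_lit 4) (nat_lit 326) (nat_lit 293) (nat_lit 281)) (XT.lf (nat_lit 0) (nat_lit 1497956868) (nat_lit 76) (nat_lit 21512789270) (nat_lit 76) (nat_lit 19362259699) (nat_lit 4) (nat_lit 4) (nat_lit 5) (nat_lit 5) (nat_lit 5) (nat_lit 4) (nat_lit 327) (nat_lit 293) (nat_lit 280))))) (XT.nd (nat_lit 234) (nat_lit 152) (nat_lit 0) (XT.nd (nat_lit 78) (nat_lit 0) (nat_lit 0) (XT.lf (nat_lit 0) (nat_lit 14157265413) (nat_lit 76) (nat_lit 17936395856) (nat_lit 76) (nat_lit 15731428983) (nat_lit 4) (nat_lit 4) (nat_lit 5) (nat_lit 5) (nat_lit 5) (nat_lit 4) (nat_lit 328) (nat_lit 293) (nat_lit 279)) (XT.nd (nat_lit 78) (nat_lit 0) (nat_lit 0) (XT.lf (nat_lit 0) (nat_lit 28337493894) (nat_lit 76) (nat_lit 14018636011) (nat_lit 76) (nat_lit 11766332353) (nat_lit 4) (nat_lit 4) (nat_lit 5) (nat_lit 5) (nat_lit 5) (nat_lit 4) (nat_lit 329) (nat_lit 293) (nat_lit 278)) (XT.lf (nat_lit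 0) (nat_lit 44316081562) (nat_lit 76) (nat_lit 9682857911) (nat_lit 76) (nat_lit 7389391831) (nat_lit 4) (nat_lit 4) (nat_lit 5) (nat_lit 5) (nat_lit 5) (nat_lit 4) (nat_lit 330) (nat_lit 293) (nat_lit 277)))) (XT.nd (nat_lit 78) (nat_lit 152) (nat_lit 0) (XT.lf (nat_lit 0) (nat_lit 62405652960) (nat_lit 76) (nat_lit 4844231114) (nat_lit 76) (nat_lit 2514971625) (nat_lit 4) (nat_lit 4) (nat_lit 5) (nat_lit 5) (nat_lit 5) (nat_lit 4) (nat_lit 331) (nat_lit 293) (nat_lit 276)) (XT.nd (nat_lit 78) (nat_lit 0) (nat_lit 0) (XT.lf (nat_lit 0) (nat_lit 2882745220) (nat_lit 152) (nat_lit 75655612000) (nat_lit 0) (nat_lit 830237226) (nat_lit 2) (nat_lit 5) (nat_lit 4) (nat_lit 4) (nat_lit 2) (nat_lit 4) (nat_lit 332) (nat_lit 293) (nat_lit 275)) (XT.lf (nat_lit 0) (nat_lit 9341092538) (nat_lit 152) (nat_lit 73712539929) (nat_lit 0) (nat_lit 7265049796) (nat_lit 2) (nat_lit 5) (nat_lit 4) (nat_lit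 4) (nat_lit 2) (nat_lit 4) (nat_lit 333) (nat_lit 293) (nat_lit 274)))))) (XT.nd (nat_lit 390) (nat_lit 0) (nat_lit 0) (XT.nd (nat_lit 156) (nat_lit 0) (nat_lit 0) (XT.nd (nat_lit 78) (nat_lit 0) (nat_lit 0) (XT.lf (nat_lit 0) (nat_lit 16659301957) (nat_lit 152) (nat_lit 71705538894) (nat_lit 0) (nat_lit 14562794216) (nat_lit 2) (nat_lit 5) (nat_lit 4) (nat_lit 4) (nat_lit 2) (nat_lit 4) (nat_lit 334) (nat_lit 293) (nat_lit 273)) (XT.lf (nat_lit 0) (nat_lit 24980555833) (nat_lit 152) (nat_lit 69595341484) (nat_lit 0) (nat_lit 22866252442) (nat_lit 2) (nat_lit 5) (nat_lit 4) (nat_lit 4) (nat_lit 2) (nat_lit 4) (nat_lit 335) (nat_lit 293) (nat_lit 272))) (XT.nd (nat_lit 78) (nat_lit 0) (nat_lit 0) (XT.lf (nat_lit 0) (nat_lit 34467661309) (nat_lit 152) (nat_lit 67340661228) (nat_lit 0) (nat_lit 32337883439) (nat_lit 2) (nat_lit 5) (nat_lit 4) (nat_lit 4) (nat_lit 2) (nat_lit 4) (nat_lit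 336) (nat_lit 293) (nat_lit 271)) (XT.nd (nat_lit 78) (nat_lit 0) (nat_lit 0) (XT.lf (nat_lit 0) (nat_lit 45306235666) (nat_lit 152) (nat_lit 64897384816) (nat_lit 0) (nat_lit 43163001727) (nat_lit 2) (nat_lit 5) (nat_lit 4) (nat_lit 4) (nat_lit 2) (nat_lit 4) (nat_lit 337) (nat_lit 293) (nat_lit 270)) (XT.lf (nat_lit 0) (nat_lit 57708337967) (nat_lit 152) (nat_lit 62217709015) (nat_lit 0) (nat_lit 55553403099) (nat_lit 2) (nat_lit 5) (nat_lit 4) (nat_lit 4) (nat_lit 2) (nat_lit 4) (nat_lit 338) (nat_lit 293) (nat_lit 269))))) (XT.nd (nat_lit 234) (nat_lit 0) (nat_lit 0) (XT.nd (nat_lit 78) (nat_lit 0) (nat_lit 0) (XT.lf (nat_lit 0) (nat_lit 71916618039) (nat_lit 152) (nat_lit 59249205384) (nat_lit 0) (nat_lit 69751508450) (nat_lit 2) (nat_lit 5) (nat_lit 4) (nat_lit 4) (nat_lit 2) (nat_lit 4) (nat_lit 339) (nat_lit 293) (nat_lit 268)) (XT.nd (nat_lit 78) (nat_lit 0) (nat_lit 0) (XT.lf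 (nat_lit 0) (nat_lit 88209063971) (nat_lit 152) (nat_lit 55933794504) (nat_lit 0) (nat_lit 86035106799) (nat_lit 2) (nat_lit 5) (nat_lit 4) (nat_lit 4) (nat_lit 2) (nat_lit 4) (nat_lit 340) (nat_lit 293) (nat_lit 267)) (XT.lf (nat_lit 0) (nat_lit 106904441010) (nat_lit 152) (nat_lit 52206609642) (nat_lit 0) (nat_lit 104722790287) (nat_lit 2) (nat_lit 5) (nat_lit 4) (nat_lit 4) (nat_lit 2) (nat_lit 4) (nat_lit 341) (nat_lit 293) (nat_lit 266)))) (XT.nd (nat_lit 78) (nat_lit 0) (nat_lit 0) (XT.lf (nat_lit 0) (nat_lit 128368528271) (nat_lit 152) (nat_lit 47994727615) (nat_lit 0) (nat_lit 126180187504) (nat_lit 2) (nat_lit 5) (nat_lit 4) (nat_lit 4) (nat_lit 2) (nat_lit 4) (nat_lit 342) (nat_lit 293) (nat_lit 265)) (XT.nd (nat_lit 78) (nat_lit 0) (nat_lit 0) (XT.lf (nat_lit 0) (nat_lit 153021275289) (nat_lit 152) (nat_lit 43215742036) (nat_lit 0) (nat_lit 150827117091) (nat_lit 2) (nat_lit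 5) (nat_lit 4) (nat_lit 4) (nat_lit 2) (nat_lit 4) (nat_lit 343) (nat_lit 293) (nat_lit 264)) (XT.lf (nat_lit 0) (nat_lit 181345018416) (nat_lit 152) (nat_lit 37776151012) (nat_lit 0) (nat_lit 179145801585) (nat_lit 2) (nat_lit 5) (nat_lit 4) (nat_lit 4) (nat_lit 2) (nat_lit 4) (nat_lit 344) (nat_lit 293) (nat_lit 263))))))))
noncomputable def xc35 : XT := (XT.nd (nat_lit 1716) (nat_lit 0) (nat_lit 0) (XT.nd (nat_lit 858) (nat_lit 0) (nat_lit 0) (XT.nd (nat_lit 390) (nat_lit 0) (nat_lit 0) (XT.nd (nat_lit 156) (nat_lit 76) (nat_lit 0) (XT.nd (nat_lit 78) (nat_lit 0) (nat_lit 0) (XT.lf (nat_lit 0) (nat_lit 213893917846) (nat_lit 152) (nat_lit 31569527763) (nat_lit 0) (nat_lit 211690302202) (nat_lit 2) (nat_lit 5) (nat_lit 4) (nat_lit 4) (nat_lit 2) (nat_lit 4) (nat_lit 345) (nat_lit 293) (nat_lit 262)) (XT.lf (nat_lit 0) (nat_lit 251304799872) (nat_lit 152) (nat_lit 24474438356) (nat_lit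 0) (nat_lit 249097359173) (nat_lit 2) (nat_lit 5) (nat_lit 4) (nat_lit 4) (nat_lit 2) (nat_lit 4) (nat_lit 346) (nat_lit 293) (nat_lit 261))) (XT.nd (nat_lit 78) (nat_lit 76) (nat_lit 0) (XT.lf (nat_lit 0) (nat_lit 294309616532) (nat_lit 152) (nat_lit 16352065825) (nat_lit 0) (nat_lit 292098849699) (nat_lit 2) (nat_lit 5) (nat_lit 4) (nat_lit 4) (nat_lit 2) (nat_lit 4) (nat_lit 347) (nat_lit 293) (nat_lit 260)) (XT.nd (nat_lit 78) (nat_lit 76) (nat_lit 0) (XT.lf (nat_lit 0) (nat_lit 343749766414) (nat_lit 152) (nat_lit 7043494184) (nat_lit 0) (nat_lit 341536107290) (nat_lit 2) (nat_lit 5) (nat_lit 4) (nat_lit 4) (nat_lit 2) (nat_lit 4) (nat_lit 348) (nat_lit 293) (nat_lit 259)) (XT.lf (nat_lit 0) (nat_lit 3988483144) (nat_lit 76) (nat_lit 396769228236) (nat_lit 76) (nat_lit 394553054077) (nat_lit 1) (nat_lit 4) (nat_lit 2) (nat_lit 5) (nat_lit 2) (nat_lit 4) (nat_lit 349) (nat_lit 293)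 (nat_lit 258))))) (XT.nd (nat_lit 234) (nat_lit 0) (nat_lit 0) (XT.nd (nat_lit 78) (nat_lit 0) (nat_lit 0) (XT.lf (nat_lit 0) (nat_lit 17440158379) (nat_lit 76) (nat_lit 449232130624) (nat_lit 76) (nat_lit 447013769477) (nat_lit 1) (nat_lit 4) (nat_lit 2) (nat_lit 5) (nat_lit 2) (nat_lit 4) (nat_lit 350) (nat_lit 293) (nat_lit 257)) (XT.nd (nat_lit 78) (nat_lit 0) (nat_lit 0) (XT.lf (nat_lit 0) (nat_lit 32886374995) (nat_lit 76) (nat_lit 509576598503) (nat_lit 76) (nat_lit 507356335628) (nat_lit 1) (nat_lit 4) (nat_lit 2) (nat_lit 5) (nat_lit 2) (nat_lit 4) (nat_lit 351) (nat_lit 293) (nat_lit 256)) (XT.lf (nat_lit 0) (nat_lit 50629341577) (nat_lit 76) (nat_lit 578983284504) (nat_lit 76) (nat_lit 576761367953) (nat_lit 1) (nat_lit 4) (nat_lit 2) (nat_lit 5) (nat_lit 2) (nat_lit 4) (nat_lit 352) (nat_lit 293) (nat_lit 255)))) (XT.nd (nat_lit 78) (nat_lit 0) (nat_lit 0) (XT.lf (nat_lit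 0) (nat_lit 71016203125) (nat_lit 76) (nat_lit 658810145529) (nat_lit 76) (nat_lit 656586790998) (nat_lit 1) (nat_lit 4) (nat_lit 2) (nat_lit 5) (nat_lit 2) (nat_lit 4) (nat_lit 353) (nat_lit 293) (nat_lit 254)) (XT.nd (nat_lit 78) (nat_lit 0) (nat_lit 0) (XT.lf (nat_lit 0) (nat_lit 94445833015) (nat_lit 76) (nat_lit 750619011467) (nat_lit 76) (nat_lit 748394406519) (nat_lit 1) (nat_lit 4) (nat_lit 2) (nat_lit 5) (nat_lit 2) (nat_lit 4) (nat_lit 354) (nat_lit 293) (nat_lit 253)) (XT.lf (nat_lit 0) (nat_lit 121376637050) (nat_lit 76) (nat_lit 856206142738) (nat_lit 76) (nat_lit 853980450471) (nat_lit 1) (nat_lit 4) (nat_lit 2) (nat_lit 5) (nat_lit 2) (nat_lit 4) (nat_lit 355) (nat_lit 293) (nat_lit 252)))))) (XT.nd (nat_lit 390) (nat_lit 0) (nat_lit 0) (XT.nd (nat_lit 156) (nat_lit 0) (nat_lit 0) (XT.nd (nat_lit 78) (nat_lit 0) (nat_lit 0) (XT.lf (nat_lit 0) (nat_lit 152335522265) (nat_lit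 76) (nat_lit 977637374520) (nat_lit 76) (nat_lit 975410736758) (nat_lit 1) (nat_lit 4) (nat_lit 2) (nat_lit 5) (nat_lit 2) (nat_lit 4) (nat_lit 356) (nat_lit 293) (nat_lit 251)) (XT.lf (nat_lit 0) (nat_lit 187928205981) (nat_lit 76) (nat_lit 1117288535260) (nat_lit 76) (nat_lit 1115061075328) (nat_lit 1) (nat_lit 4) (nat_lit 2) (nat_lit 5) (nat_lit 2) (nat_lit 4) (nat_lit 357) (nat_lit 293) (nat_lit 250))) (XT.nd (nat_lit 78) (nat_lit 0) (nat_lit 0) (XT.lf (nat_lit 0) (nat_lit 228851066791) (nat_lit 76) (nat_lit 1277891930277) (nat_lit 76) (nat_lit 1275663755415) (nat_lit 1) (nat_lit 4) (nat_lit 2) (nat_lit 5) (nat_lit 2) (nat_lit 4) (nat_lit 358) (nat_lit 293) (nat_lit 249)) (XT.nd (nat_lit 78) (nat_lit 0) (nat_lit 0) (XT.lf (nat_lit 0) (nat_lit 275904769364) (nat_lit 76) (nat_lit 1462589799909) (nat_lit 76) (nat_lit 1460361003369) (nat_lit 1) (nat_lit 4) (nat_lit 2) (nat_lit 5) (nat_lit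 2) (nat_lit 4) (nat_lit 359) (nat_lit 293) (nat_lit 248)) (XT.lf (nat_lit 0) (nat_lit 330009929618) (nat_lit 76) (nat_lit 1674995798126) (nat_lit 76) (nat_lit 1672766460996) (nat_lit 1) (nat_lit 4) (nat_lit 2) (nat_lit 5) (nat_lit 2) (nat_lit 4) (nat_lit 360) (nat_lit 293) (nat_lit 247))))) (XT.nd (nat_lit 234) (nat_lit 0) (nat_lit 0) (XT.nd (nat_lit 78) (nat_lit 0) (nat_lit 0) (XT.lf (nat_lit 0) (nat_lit 392225126778) (nat_lit 76) (nat_lit 1919265694459) (nat_lit 76) (nat_lit 1917035887251) (nat_lit 1) (nat_lit 4) (nat_lit 2) (nat_lit 5) (nat_lit 2) (nat_lit 4) (nat_lit 361) (nat_lit 293) (nat_lit 246)) (XT.nd (nat_lit 78) (nat_lit 0) (nat_lit 0) (XT.lf (nat_lit 0) (nat_lit 463767614699) (nat_lit 76) (nat_lit 2200178682532) (nat_lit 76) (nat_lit 2197948466560) (nat_lit 1) (nat_lit 4) (nat_lit 2) (nat_lit 5) (nat_lit 2) (nat_lit 4) (nat_lit 362) (nat_lit 293) (nat_lit 245)) (XT.lf (nat_lit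 0) (nat_lit 546037137712) (nat_lit 76) (nat_lit 2523230886024) (nat_lit 76) (nat_lit 2521000314605) (nat_lit 1) (nat_lit 4) (nat_lit 2) (nat_lit 5) (nat_lit 2) (nat_lit 4) (nat_lit 363) (nat_lit 293) (nat_lit 244)))) (XT.nd (nat_lit 78) (nat_lit 0) (nat_lit 0) (XT.lf (nat_lit 0) (nat_lit 640643316918) (nat_lit 76) (nat_lit 2894742891526) (nat_lit 76) (nat_lit 2892512011023) (nat_lit 1) (nat_lit 4) (nat_lit 2) (nat_lit 5) (nat_lit 2) (nat_lit 4) (nat_lit 364) (nat_lit 293) (nat_lit 243)) (XT.nd (nat_lit 78) (nat_lit 0) (nat_lit 0) (XT.lf (nat_lit 0) (nat_lit 749437142781) (nat_lit 76) (nat_lit 3321983412188) (nat_lit 76) (nat_lit 3319752262917) (nat_lit 1) (nat_lit 4) (nat_lit 2) (nat_lit 5) (nat_lit 2) (nat_lit 4) (nat_lit 365) (nat_lit 293) (nat_lit 242)) (XT.lf (nat_lit 0) (nat_lit 874547190153) (nat_lit 76) (nat_lit 3813311501676) (nat_lit 76) (nat_lit 3811080118693) (nat_lit 1) (nat_lit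 4) (nat_lit 2) (nat_lit 5) (nat_lit 2) (nat_lit 4) (nat_lit 366) (nat_lit 293) (nat_lit 241))))))) (XT.nd (nat_lit 858) (nat_lit 0) (nat_lit 0) (XT.nd (nat_lit 390) (nat_lit 0) (nat_lit 0) (XT.nd (nat_lit 156) (nat_lit 0) (nat_lit 0) (XT.nd (nat_lit 78) (nat_lit 0) (nat_lit 0) (XT.lf (nat_lit 0) (nat_lit 1018421264311) (nat_lit 76) (nat_lit 4378340100871) (nat_lit 76) (nat_lit 4376108514660) (nat_lit 1) (nat_lit 4) (nat_lit 2) (nat_lit 5) (nat_lit 2) (nat_lit 4) (nat_lit 367) (nat_lit 293) (nat_lit 240)) (XT.lf (nat_lit 0) (nat_lit 1183874292791) (nat_lit 76) (nat_lit 5028124117149) (nat_lit 76) (nat_lit 5025892354218) (nat_lit 1) (nat_lit 4) (nat_lit 2) (nat_lit 5) (nat_lit 2) (nat_lit 4) (nat_lit 368) (nat_lit 293) (nat_lit 239))) (XT.nd (nat_lit 78) (nat_lit 0) (nat_lit 0) (XT.lf (nat_lit 0) (nat_lit 1374143400063) (nat_lit 76) (nat_lit 5775376716045) (nat_lit 76) (nat_lit 5773144799445)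 (nat_lit 1) (nat_lit 4) (nat_lit 2) (nat_lit 5) (nat_lit 2) (nat_lit 4) (nat_lit 369) (nat_lit 293) (nat_lit 238)) (XT.nd (nat_lit 78) (nat_lit 0) (nat_lit 0) (XT.lf (nat_lit 0) (nat_lit 1592951242575) (nat_lit 76) (nat_lit 6634718057103) (nat_lit 76) (nat_lit 6632486006877) (nat_lit 1) (nat_lit 4) (nat_lit 2) (nat_lit 5) (nat_lit 2) (nat_lit 4) (nat_lit 370) (nat_lit 293) (nat_lit 237)) (XT.lf (nat_lit 0) (nat_lit 1844578843333) (nat_lit 76) (nat_lit 7622961340474) (nat_lit 76) (nat_lit 7620729174053) (nat_lit 1) (nat_lit 4) (nat_lit 2) (nat_lit 5) (nat_lit 2) (nat_lit 4) (nat_lit 371) (nat_lit 293) (nat_lit 236))))) (XT.nd (nat_lit 234) (nat_lit 0) (nat_lit 0) (XT.nd (nat_lit 78) (nat_lit 0) (nat_lit 0) (XT.lf (nat_lit 0) (nat_lit 2133949351046) (nat_lit 76) (nat_lit 8759441760834) (nat_lit 76) (nat_lit 8757209493372) (nat_lit 1) (nat_lit 4) (nat_lit 2) (nat_lit 5) (nat_lit 2) (nat_lit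 4) (nat_lit 372) (nat_lit 293) (nat_lit 235)) (XT.nd (nat_lit 78) (nat_lit 0) (nat_lit 0) (XT.lf (nat_lit 0) (nat_lit 2466724362605) (nat_lit 76) (nat_lit 10066394804666) (nat_lit 76) (nat_lit 10064162449343) (nat_lit 1) (nat_lit 4) (nat_lit 2) (nat_lit 5) (nat_lit 2) (nat_lit 4) (nat_lit 373) (nat_lit 293) (nat_lit 234)) (XT.lf (nat_lit 0) (nat_lit 2849414693452) (nat_lit 76) (nat_lit 11569391292394) (nat_lit 76) (nat_lit 11567158860671) (nat_lit 1) (nat_lit 4) (nat_lit 2) (nat_lit 5) (nat_lit 2) (nat_lit 4) (nat_lit 374) (nat_lit 293) (nat_lit 233)))) (XT.nd (nat_lit 78) (nat_lit 0) (nat_lit 0) (XT.lf (nat_lit 0) (nat_lit 3289507763106) (nat_lit 76) (nat_lit 13297837677040) (nat_lit 76) (nat_lit 13295605178881) (nat_lit 1) (nat_lit 4) (nat_lit 2) (nat_lit 5) (nat_lit 2) (nat_lit 4) (nat_lit 375) (nat_lit 293) (nat_lit 232)) (XT.nd (nat_lit 78) (nat_lit 0) (nat_lit 0) (XT.lf (nat_lit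 0) (nat_lit 3795614088146) (nat_lit 76) (nat_lit 15285551387866) (nat_lit 76) (nat_lit 15283318831937) (nat_lit 1) (nat_lit 4) (nat_lit 2) (nat_lit 5) (nat_lit 2) (nat_lit 4) (nat_lit 376) (nat_lit 293) (nat_lit 231)) (XT.lf (nat_lit 0) (nat_lit 4377635748844) (nat_lit 76) (nat_lit 17571422475738) (nat_lit 76) (nat_lit 17569189869575) (nat_lit 1) (nat_lit 4) (nat_lit 2) (nat_lit 5) (nat_lit 2) (nat_lit 4) (nat_lit 377) (nat_lit 293) (nat_lit 230)))))) (XT.nd (nat_lit 390) (nat_lit 0) (nat_lit 0) (XT.nd (nat_lit 156) (nat_lit 0) (nat_lit 0) (XT.nd (nat_lit 78) (nat_lit 0) (nat_lit 0) (XT.lf (nat_lit 0) (nat_lit 5046960125519) (nat_lit 76) (nat_lit 20200174505419) (nat_lit 76) (nat_lit 20197941855573) (nat_lit 1) (nat_lit 4) (nat_lit 2) (nat_lit 5) (nat_lit 2) (nat_lit 4) (nat_lit 378) (nat_lit 293) (nat_lit 229)) (XT.lf (nat_lit 0) (nat_lit 5816682695105) (nat_lit 76) (nat_lit 23223239581836)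 (nat_lit 76) (nat_lit 23221006894005) (nat_lit 1) (nat_lit 4) (nat_lit 2) (nat_lit 5) (nat_lit 2) (nat_lit 4) (nat_lit 379) (nat_lit 293) (nat_lit 228))) (XT.nd (nat_lit 78) (nat_lit 0) (nat_lit 0) (XT.lf (nat_lit 0) (nat_lit 6701863247008) (nat_lit 76) (nat_lit 26699764630398) (nat_lit 76) (nat_lit 26697531909537) (nat_lit 1) (nat_lit 4) (nat_lit 2) (nat_lit 5) (nat_lit 2) (nat_lit 4) (nat_lit 380) (nat_lit 293) (nat_lit 227)) (XT.nd (nat_lit 78) (nat_lit 0) (nat_lit 0) (XT.lf (nat_lit 0) (nat_lit 7719820531155) (nat_lit 76) (nat_lit 30697768619447) (nat_lit 76) (nat_lit 30695535869864) (nat_lit 1) (nat_lit 4) (nat_lit 2) (nat_lit 5) (nat_lit 2) (nat_lit 4) (nat_lit 381) (nat_lit 293) (nat_lit 226)) (XT.lf (nat_lit 0) (nat_lit 8890471103107) (nat_lit 76) (nat_lit 35295473366159) (nat_lit 76) (nat_lit 35293240591600) (nat_lit 1) (nat_lit 4) (nat_lit 2) (nat_lit 5) (nat_lit 2) (nat_lit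 4) (nat_lit 382) (nat_lit 293) (nat_lit 225))))) (XT.nd (nat_lit 234) (nat_lit 0) (nat_lit 0) (XT.nd (nat_lit 78) (nat_lit 0) (nat_lit 0) (XT.lf (nat_lit 0) (nat_lit 10236718995792) (nat_lit 76) (nat_lit 40582833963405) (nat_lit 76) (nat_lit 40580601167128) (nat_lit 1) (nat_lit 4) (nat_lit 2) (nat_lit 5) (nat_lit 2) (nat_lit 4) (nat_lit 383) (nat_lit 293) (nat_lit 224)) (XT.nd (nat_lit 78) (nat_lit 0) (nat_lit 0) (XT.lf (nat_lit 0) (nat_lit 11784903841895) (nat_lit 76) (nat_lit 46663298770696) (nat_lit 76) (nat_lit 46661065955534) (nat_lit 1) (nat_lit 4) (nat_lit 2) (nat_lit 5) (nat_lit 2) (nat_lit 4) (nat_lit 384) (nat_lit 293) (nat_lit 223)) (XT.lf (nat_lit 0) (nat_lit 13565316214490) (nat_lit 76) (nat_lit 53655833403827) (nat_lit 76) (nat_lit 53653600572244) (nat_lit 1) (nat_lit 4) (nat_lit 2) (nat_lit 5) (nat_lit 2) (nat_lit 4) (nat_lit 385) (nat_lit 293) (nat_lit 222)))) (XT.nd (nat_lit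 41106) (nat_lit 0) (nat_lit 1140) (XT.lf (nat_lit 0) (nat_lit 15612790268694) (nat_lit 76) (nat_lit 61697248323012) (nat_lit 76) (nat_lit 61695015477148) (nat_lit 1) (nat_lit 4) (nat_lit 2) (nat_lit 5) (nat_lit 2) (nat_lit 4) (nat_lit 386) (nat_lit 293) (nat_lit 221)) (XT.nd (nat_lit 78) (nat_lit 76) (nat_lit 0) (XT.lf (nat_lit 0) (nat_lit 1431228330) (nat_lit 152) (nat_lit 2207120065) (nat_lit 0) (nat_lit 1431228330) (nat_lit 17) (nat_lit 5) (nat_lit 19) (nat_lit 4) (nat_lit 17) (nat_lit 4) (nat_lit 312) (nat_lit 294) (nat_lit 294)) (XT.lf (nat_lit 0) (nat_lit 4062347192) (nat_lit 76) (nat_lit 3736468504) (nat_lit 76) (nat_lit 3062782196) (nat_lit 16) (nat_lit 4) (nat_lit 17) (nat_lit 5) (nat_lit 17) (nat_lit 4) (nat_lit 313) (nat_lit 294) (nat_lit 293))))))))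
noncomputable def xc36 : XT := (XT.nd (nat_lit 1638) (nat_lit 76) (nat_lit 0) (XT.nd (nat_lit 780) (nat_lit 380) (nat_lit 0) (XT.nd (nat_lit 390) (nat_lit 304) (nat_lit 0) (XT.nd (nat_lit 156) (nat_lit 228) (nat_lit 0) (XT.nd (nat_lit 78) (nat_lit 0) (nat_lit 0) (XT.lf (nat_lit 0) (nat_lit 1469075820) (nat_lit 152) (nat_lit 9862163530) (nat_lit 0) (nat_lit 373858003) (nat_lit 14) (nat_lit 5) (nat_lit 16) (nat_lit 4) (nat_lit 14) (nat_lit 4) (nat_lit 314) (nat_lit 294) (nat_lit 292)) (XT.lf (nat_lit 0) (nat_lit 6440798403) (nat_lit 152) (nat_lit 1299173361) (nat_lit 0) (nat_lit 4902620903) (nat_lit 14) (nat_lit 5) (nat_lit 16) (nat_lit 4) (nat_lit 14) (nat_lit 4) (nat_lit 315) (nat_lit 294) (nat_lit 291))) (XT.nd (nat_lit 78) (nat_lit 152) (nat_lit 0) (XT.lf (nat_lit 0) (nat_lit 8541511837) (nat_lit 76) (nat_lit 3556009353) (nat_lit 76) (nat_lit 1632649520) (nat_lit 13) (nat_lit 4) (nat_lit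 14) (nat_lit 5) (nat_lit 14) (nat_lit 4) (nat_lit 316) (nat_lit 294) (nat_lit 290)) (XT.nd (nat_lit 78) (nat_lit 0) (nat_lit 0) (XT.lf (nat_lit 0) (nat_lit 3204078508) (nat_lit 152) (nat_lit 10528534733) (nat_lit 0) (nat_lit 1240338514) (nat_lit 11) (nat_lit 5) (nat_lit 13) (nat_lit 4) (nat_lit 11) (nat_lit 4) (nat_lit 317) (nat_lit 294) (nat_lit 289)) (XT.lf (nat_lit 0) (nat_lit 8651412806) (nat_lit 152) (nat_lit 1297055449) (nat_lit 0) (nat_lit 6434409176) (nat_lit 11) (nat_lit 5) (nat_lit 13) (nat_lit 4) (nat_lit 11) (nat_lit 4) (nat_lit 318) (nat_lit 294) (nat_lit 288))))) (XT.nd (nat_lit 156) (nat_lit 76) (nat_lit 0) (XT.nd (nat_lit 78) (nat_lit 152) (nat_lit 0) (XT.lf (nat_lit 0) (nat_lit 9484205156) (nat_lit 76) (nat_lit 5475471201) (nat_lit 76) (nat_lit 3038238322) (nat_lit 10) (nat_lit 4) (nat_lit 11) (nat_lit 5) (nat_lit 11) (nat_lit 4) (nat_lit 319) (nat_lit 294) (nat_lit 287))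 (XT.lf (nat_lit 0) (nat_lit 1536920279) (nat_lit 76) (nat_lit 400594536) (nat_lit 152) (nat_lit 17934906492) (nat_lit 8) (nat_lit 5) (nat_lit 9) (nat_lit 5) (nat_lit 10) (nat_lit 4) (nat_lit 320) (nat_lit 294) (nat_lit 286))) (XT.nd (nat_lit 78) (nat_lit 76) (nat_lit 0) (XT.lf (nat_lit 0) (nat_lit 7698539361) (nat_lit 152) (nat_lit 8987620363) (nat_lit 0) (nat_lit 5267877164) (nat_lit 8) (nat_lit 5) (nat_lit 10) (nat_lit 4) (nat_lit 8) (nat_lit 4) (nat_lit 321) (nat_lit 294) (nat_lit 285)) (XT.nd (nat_lit 78) (nat_lit 0) (nat_lit 0) (XT.lf (nat_lit 0) (nat_lit 1257683850) (nat_lit 76) (nat_lit 12840375669) (nat_lit 76) (nat_lit 10283796684) (nat_lit 7) (nat_lit 4) (nat_lit 8) (nat_lit 5) (nat_lit 8) (nat_lit 4) (nat_lit 322) (nat_lit 294) (nat_lit 284)) (XT.lf (nat_lit 0) (nat_lit 13479385255) (nat_lit 76) (nat_lit 8166209933) (nat_lit 76) (nat_lit 5500138089) (nat_lit 7) (nat_lit 4)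 (nat_lit 8) (nat_lit 5) (nat_lit 8) (nat_lit 4) (nat_lit 323) (nat_lit 294) (nat_lit 283)))))) (XT.nd (nat_lit 390) (nat_lit 152) (nat_lit 0) (XT.nd (nat_lit 156) (nat_lit 76) (nat_lit 0) (XT.nd (nat_lit 78) (nat_lit 152) (nat_lit 0) (XT.lf (nat_lit 0) (nat_lit 27038268470) (nat_lit 76) (nat_lit 3042018877) (nat_lit 76) (nat_lit 280735851) (nat_lit 7) (nat_lit 4) (nat_lit 8) (nat_lit 5) (nat_lit 8) (nat_lit 4) (nat_lit 324) (nat_lit 294) (nat_lit 282)) (XT.lf (nat_lit 0) (nat_lit 5484116598) (nat_lit 152) (nat_lit 25487221972) (nat_lit 0) (nat_lit 3011007591) (nat_lit 5) (nat_lit 5) (nat_lit 7) (nat_lit 4) (nat_lit 5) (nat_lit 4) (nat_lit 325) (nat_lit 294) (nat_lit 281))) (XT.nd (nat_lit 78) (nat_lit 76) (nat_lit 0) (XT.lf (nat_lit 0) (nat_lit 12190608255) (nat_lit 152) (nat_lit 16283565728) (nat_lit 0) (nat_lit 9654896351) (nat_lit 5) (nat_lit 5) (nat_lit 7) (nat_lit 4) (nat_lit 5)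 (nat_lit 4) (nat_lit 326) (nat_lit 294) (nat_lit 280)) (XT.nd (nat_lit 78) (nat_lit 76) (nat_lit 0) (XT.lf (nat_lit 0) (nat_lit 19710756204) (nat_lit 152) (nat_lit 6095336269) (nat_lit 0) (nat_lit 17120606997) (nat_lit 5) (nat_lit 5) (nat_lit 7) (nat_lit 4) (nat_lit 5) (nat_lit 4) (nat_lit 327) (nat_lit 294) (nat_lit 279)) (XT.lf (nat_lit 0) (nat_lit 5792488734) (nat_lit 76) (nat_lit 22639059644) (nat_lit 76) (nat_lit 20001573653) (nat_lit 4) (nat_lit 4) (nat_lit 5) (nat_lit 5) (nat_lit 5) (nat_lit 4) (nat_lit 328) (nat_lit 294) (nat_lit 278))))) (XT.nd (nat_lit 234) (nat_lit 152) (nat_lit 0) (XT.nd (nat_lit 78) (nat_lit 0) (nat_lit 0) (XT.lf (nat_lit 0) (nat_lit 19819845082) (nat_lit 76) (nat_lit 18800204786) (nat_lit 76) (nat_lit 16121556373) (nat_lit 4) (nat_lit 4) (nat_lit 5) (nat_lit 5) (nat_lit 5) (nat_lit 4) (nat_lit 329) (nat_lit 294) (nat_lit 277)) (XT.nd (nat_lit 78) (nat_lit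 0) (nat_lit 0) (XT.lf (nat_lit 0) (nat_lit 35665500462) (nat_lit 76) (nat_lit 14533039718) (nat_lit 76) (nat_lit 11818597895) (nat_lit 4) (nat_lit 4) (nat_lit 5) (nat_lit 5) (nat_lit 5) (nat_lit 4) (nat_lit 330) (nat_lit 294) (nat_lit 276)) (XT.lf (nat_lit 0) (nat_lit 53639478565) (nat_lit 76) (nat_lit 9754076428) (nat_lit 76) (nat_lit 7008509901) (nat_lit 4) (nat_lit 4) (nat_lit 5) (nat_lit 5) (nat_lit 5) (nat_lit 4) (nat_lit 331) (nat_lit 294) (nat_lit 275)))) (XT.nd (nat_lit 78) (nat_lit 152) (nat_lit 0) (XT.lf (nat_lit 0) (nat_lit 74093444182) (nat_lit 76) (nat_lit 4369813461) (nat_lit 76) (nat_lit 1597181974) (nat_lit 4) (nat_lit 4) (nat_lit 5) (nat_lit 5) (nat_lit 5) (nat_lit 4) (nat_lit 332) (nat_lit 294) (nat_lit 274)) (XT.nd (nat_lit 78) (nat_lit 0) (nat_lit 0) (XT.lf (nat_lit 0) (nat_lit 4487623720) (nat_lit 152) (nat_lit 84554017866) (nat_lit 0) (nat_lit 2056174820) (nat_lit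 2) (nat_lit 5) (nat_lit 4) (nat_lit 4) (nat_lit 2) (nat_lit 4) (nat_lit 333) (nat_lit 294) (nat_lit 273)) (XT.lf (nat_lit 0) (nat_lit 11761792695) (nat_lit 152) (nat_lit 82639041845) (nat_lit 0) (nat_lit 9312548144) (nat_lit 2) (nat_lit 5) (nat_lit 4) (nat_lit 4) (nat_lit 2) (nat_lit 4) (nat_lit 334) (nat_lit 294) (nat_lit 272))))))) (XT.nd (nat_lit 858) (nat_lit 76) (nat_lit 0) (XT.nd (nat_lit 390) (nat_lit 0) (nat_lit 0) (XT.nd (nat_lit 156) (nat_lit 0) (nat_lit 0) (XT.nd (nat_lit 78) (nat_lit 0) (nat_lit 0) (XT.lf (nat_lit 0) (nat_lit 20044750533) (nat_lit 152) (nat_lit 80608866187) (nat_lit 0) (nat_lit 17580031504) (nat_lit 2) (nat_lit 5) (nat_lit 4) (nat_lit 4) (nat_lit 2) (nat_lit 4) (nat_lit 335) (nat_lit 294) (nat_lit 271)) (XT.lf (nat_lit 0) (nat_lit 29498555107) (nat_lit 152) (nat_lit 78423770062) (nat_lit 0) (nat_lit 27020380008) (nat_lit 2) (nat_lit 5) (nat_lit 4) (nat_lit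 4) (nat_lit 2) (nat_lit 4) (nat_lit 336) (nat_lit 294) (nat_lit 270))) (XT.nd (nat_lit 78) (nat_lit 0) (nat_lit 0) (XT.lf (nat_lit 0) (nat_lit 40308172156) (nat_lit 152) (nat_lit 76041001591) (nat_lit 0) (nat_lit 37818296129) (nat_lit 2) (nat_lit 5) (nat_lit 4) (nat_lit 4) (nat_lit 2) (nat_lit 4) (nat_lit 337) (nat_lit 294) (nat_lit 269)) (XT.nd (nat_lit 78) (nat_lit 0) (nat_lit 0) (XT.lf (nat_lit 0) (nat_lit 52685094190) (nat_lit 152) (nat_lit 73413941390) (nat_lit 0) (nat_lit 50185043442) (nat_lit 2) (nat_lit 5) (nat_lit 4) (nat_lit 4) (nat_lit 2) (nat_lit 4) (nat_lit 338) (nat_lit 294) (nat_lit 268)) (XT.lf (nat_lit 0) (nat_lit 66871478379) (nat_lit 152) (nat_lit 70491190455) (nat_lit 0) (nat_lit 64362580047) (nat_lit 2) (nat_lit 5) (nat_lit 4) (nat_lit 4) (nat_lit 2) (nat_lit 4) (nat_lit 339) (nat_lit 294) (nat_lit 267))))) (XT.nd (nat_lit 234) (nat_lit 0) (nat_lit 0) (XT.nd (nat_lit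 78) (nat_lit 0) (nat_lit 0) (XT.lf (nat_lit 0) (nat_lit 83144884412) (nat_lit 152) (nat_lit 67215564528) (nat_lit 0) (nat_lit 80628292529) (nat_lit 2) (nat_lit 5) (nat_lit 4) (nat_lit 4) (nat_lit 2) (nat_lit 4) (nat_lit 340) (nat_lit 294) (nat_lit 266)) (XT.nd (nat_lit 78) (nat_lit 0) (nat_lit 0) (XT.lf (nat_lit 0) (nat_lit 101823705016) (nat_lit 152) (nat_lit 63522975278) (nat_lit 0) (nat_lit 99300423090) (nat_lit 2) (nat_lit 5) (nat_lit 4) (nat_lit 4) (nat_lit 2) (nat_lit 4) (nat_lit 341) (nat_lit 294) (nat_lit 265)) (XT.lf (nat_lit 0) (nat_lit 123273395379) (nat_lit 152) (nat_lit 59341176391) (nat_lit 0) (nat_lit 120744296022) (nat_lit 2) (nat_lit 5) (nat_lit 4) (nat_lit 4) (nat_lit 2) (nat_lit 4) (nat_lit 342) (nat_lit 294) (nat_lit 264)))) (XT.nd (nat_lit 78) (nat_lit 0) (nat_lit 0) (XT.lf (nat_lit 0) (nat_lit 147913623353) (nat_lit 152) (nat_lit 54588350064) (nat_lit 0) (nat_lit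 145379465362) (nat_lit 2) (nat_lit 5) (nat_lit 4) (nat_lit 4) (nat_lit 2) (nat_lit 4) (nat_lit 343) (nat_lit 294) (nat_lit 263)) (XT.nd (nat_lit 78) (nat_lit 0) (nat_lit 0) (XT.lf (nat_lit 0) (nat_lit 176226480357) (nat_lit 152) (nat_lit 49171506216) (nat_lit 0) (nat_lit 173687923553) (nat_lit 2) (nat_lit 5) (nat_lit 4) (nat_lit 4) (nat_lit 2) (nat_lit 4) (nat_lit 344) (nat_lit 294) (nat_lit 262)) (XT.lf (nat_lit 0) (nat_lit 208765913592) (nat_lit 152) (nat_lit 42984663121) (nat_lit 0) (nat_lit 206223531733) (nat_lit 2) (nat_lit 5) (nat_lit 4) (nat_lit 4) (nat_lit 2) (nat_lit 4) (nat_lit 345) (nat_lit 294) (nat_lit 261)))))) (XT.nd (nat_lit 390) (nat_lit 0) (nat_lit 0) (XT.nd (nat_lit 156) (nat_lit 76) (nat_lit 0) (XT.nd (nat_lit 78) (nat_lit 0) (nat_lit 0) (XT.lf (nat_lit 0) (nat_lit 246168564143) (nat_lit 152) (nat_lit 35906773847) (nat_lit 0) (nat_lit 243622856150) (nat_lit 2) (nat_lit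 5) (nat_lit 4) (nat_lit 4) (nat_lit 2) (nat_lit 4) (nat_lit 346) (nat_lit 294) (nat_lit 260)) (XT.lf (nat_lit 0) (nat_lit 289166223000) (nat_lit 152) (nat_lit 27799357952) (nat_lit 0) (nat_lit 286617622717) (nat_lit 2) (nat_lit 5) (nat_lit 4) (nat_lit 4) (nat_lit 2) (nat_lit 4) (nat_lit 347) (nat_lit 294) (nat_lit 259))) (XT.nd (nat_lit 78) (nat_lit 76) (nat_lit 0) (XT.lf (nat_lit 0) (nat_lit 338600148706) (nat_lit 152) (nat_lit 18503792083) (nat_lit 0) (nat_lit 336049033387) (nat_lit 2) (nat_lit 5) (nat_lit 4) (nat_lit 4) (nat_lit 2) (nat_lit 4) (nat_lit 348) (nat_lit 294) (nat_lit 258)) (XT.nd (nat_lit 78) (nat_lit 76) (nat_lit 0) (XT.lf (nat_lit 0) (nat_lit 395437526762) (nat_lit 152) (nat_lit 7838206472) (nat_lit 0) (nat_lit 392884224456) (nat_lit 2) (nat_lit 5) (nat_lit 4) (nat_lit 4) (nat_lit 2) (nat_lit 4) (nat_lit 349) (nat_lit 294) (nat_lit 257)) (XT.lf (nat_lit 0) (nat_lit 4836666916)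 (nat_lit 76) (nat_lit 456154001974) (nat_lit 76) (nat_lit 453598797939) (nat_lit 1) (nat_lit 4) (nat_lit 2) (nat_lit 5) (nat_lit 2) (nat_lit 4) (nat_lit 350) (nat_lit 294) (nat_lit 256))))) (XT.nd (nat_lit 234) (nat_lit 0) (nat_lit 0) (XT.nd (nat_lit 78) (nat_lit 0) (nat_lit 0) (XT.lf (nat_lit 0) (nat_lit 20273496311) (nat_lit 76) (nat_lit 516503375872) (nat_lit 76) (nat_lit 513946518161) (nat_lit 1) (nat_lit 4) (nat_lit 2) (nat_lit 5) (nat_lit 2) (nat_lit 4) (nat_lit 351) (nat_lit 294) (nat_lit 255)) (XT.nd (nat_lit 78) (nat_lit 0) (nat_lit 0) (XT.lf (nat_lit 0) (nat_lit 38008300092) (nat_lit 76) (nat_lit 585914327977) (nat_lit 76) (nat_lit 583356032287) (nat_lit 1) (nat_lit 4) (nat_lit 2) (nat_lit 5) (nat_lit 2) (nat_lit 4) (nat_lit 352) (nat_lit 294) (nat_lit 254)) (XT.lf (nat_lit 0) (nat_lit 58388063551) (nat_lit 76) (nat_lit 665744898658) (nat_lit 76) (nat_lit 663185352550) (nat_lit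 1) (nat_lit 4) (nat_lit 2) (nat_lit 5) (nat_lit 2) (nat_lit 4) (nat_lit 353) (nat_lit 294) (nat_lit 253)))) (XT.nd (nat_lit 78) (nat_lit 0) (nat_lit 0) (XT.lf (nat_lit 0) (nat_lit 81811521191) (nat_lit 76) (nat_lit 757556990383) (nat_lit 76) (nat_lit 754996356956) (nat_lit 1) (nat_lit 4) (nat_lit 2) (nat_lit 5) (nat_lit 2) (nat_lit 4) (nat_lit 354) (nat_lit 294) (nat_lit 252)) (XT.nd (nat_lit 78) (nat_lit 0) (nat_lit 0) (XT.lf (nat_lit 0) (nat_lit 108736958052) (nat_lit 76) (nat_lit 863146926686) (nat_lit 76) (nat_lit 860585347765) (nat_lit 1) (nat_lit 4) (nat_lit 2) (nat_lit 5) (nat_lit 2) (nat_lit 4) (nat_lit 355) (nat_lit 294) (nat_lit 251)) (XT.lf (nat_lit 0) (nat_lit 139691176159) (nat_lit 76) (nat_lit 984580597627) (nat_lit 76) (nat_lit 982018196535) (nat_lit 1) (nat_lit 4) (nat_lit 2) (nat_lit 5) (nat_lit 2) (nat_lit 4) (nat_lit 356) (nat_lit 294) (nat_lit 250))))))))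
noncomputable def xc37 : XT := (XT.nd (nat_lit 1716) (nat_lit 0) (nat_lit 0) (XT.nd (nat_lit 858) (nat_lit 0) (nat_lit 0) (XT.nd (nat_lit 390) (nat_lit 0) (nat_lit 0) (XT.nd (nat_lit 156) (nat_lit 0) (nat_lit 0) (XT.nd (nat_lit 78) (nat_lit 0) (nat_lit 0) (XT.lf (nat_lit 0) (nat_lit 175279801520) (nat_lit 76) (nat_lit 1124233879374) (nat_lit 76) (nat_lit 1121670763353) (nat_lit 1) (nat_lit 4) (nat_lit 2) (nat_lit 5) (nat_lit 2) (nat_lit 4) (nat_lit 357) (nat_lit 294) (nat_lit 249)) (XT.lf (nat_lit 0) (nat_lit 216199133326) (nat_lit 76) (nat_lit 1284839118746) (nat_lit 76) (nat_lit 1282275381046) (nat_lit 1) (nat_lit 4) (nat_lit 2) (nat_lit 5) (nat_lit 2) (nat_lit 4) (nat_lit 358) (nat_lit 294) (nat_lit 248))) (XT.nd (nat_lit 78) (nat_lit 0) (nat_lit 0) (XT.lf (nat_lit 0) (nat_lit 263249767199) (nat_lit 76) (nat_lit 1469538592164) (nat_lit 76) (nat_lit 1466974313874) (nat_lit 1) (nat_lit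 4) (nat_lit 2) (nat_lit 5) (nat_lit 2) (nat_lit 4) (nat_lit 359) (nat_lit 294) (nat_lit 247)) (XT.nd (nat_lit 78) (nat_lit 0) (nat_lit 0) (XT.lf (nat_lit 0) (nat_lit 317352259020) (nat_lit 76) (nat_lit 1681945984978) (nat_lit 76) (nat_lit 1679381236610) (nat_lit 1) (nat_lit 4) (nat_lit 2) (nat_lit 5) (nat_lit 2) (nat_lit 4) (nat_lit 360) (nat_lit 294) (nat_lit 246)) (XT.lf (nat_lit 0) (nat_lit 379565135802) (nat_lit 76) (nat_lit 1926217094004) (nat_lit 76) (nat_lit 1923651936873) (nat_lit 1) (nat_lit 4) (nat_lit 2) (nat_lit 5) (nat_lit 2) (nat_lit 4) (nat_lit 361) (nat_lit 294) (nat_lit 245))))) (XT.nd (nat_lit 234) (nat_lit 0) (nat_lit 0) (XT.nd (nat_lit 78) (nat_lit 0) (nat_lit 0) (XT.lf (nat_lit 0) (nat_lit 451105606004) (nat_lit 76) (nat_lit 2207131136592) (nat_lit 76) (nat_lit 2204565624014) (nat_lit 1) (nat_lit 4) (nat_lit 2) (nat_lit 5) (nat_lit 2) (nat_lit 4) (nat_lit 362) (nat_lit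 294) (nat_lit 244)) (XT.nd (nat_lit 78) (nat_lit 0) (nat_lit 0) (XT.lf (nat_lit 0) (nat_lit 533373374478) (nat_lit 76) (nat_lit 2530184257054) (nat_lit 76) (nat_lit 2527618435392) (nat_lit 1) (nat_lit 4) (nat_lit 2) (nat_lit 5) (nat_lit 2) (nat_lit 4) (nat_lit 363) (nat_lit 294) (nat_lit 243)) (XT.lf (nat_lit 0) (nat_lit 627978027998) (nat_lit 76) (nat_lit 2901697059921) (nat_lit 76) (nat_lit 2899130969491) (nat_lit 1) (nat_lit 4) (nat_lit 2) (nat_lit 5) (nat_lit 2) (nat_lit 4) (nat_lit 364) (nat_lit 294) (nat_lit 242)))) (XT.nd (nat_lit 78) (nat_lit 0) (nat_lit 0) (XT.lf (nat_lit 0) (nat_lit 736770527177) (nat_lit 76) (nat_lit 3328938273945) (nat_lit 76) (nat_lit 3326371949802) (nat_lit 1) (nat_lit 4) (nat_lit 2) (nat_lit 5) (nat_lit 2) (nat_lit 4) (nat_lit 365) (nat_lit 294) (nat_lit 241)) (XT.nd (nat_lit 78) (nat_lit 0) (nat_lit 0) (XT.lf (nat_lit 0) (nat_lit 861879420912) (nat_lit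 76) (nat_lit 3820266966355) (nat_lit 76) (nat_lit 3817700438985) (nat_lit 1) (nat_lit 4) (nat_lit 2) (nat_lit 5) (nat_lit 2) (nat_lit 4) (nat_lit 366) (nat_lit 294) (nat_lit 240)) (XT.lf (nat_lit 0) (nat_lit 1005752491906) (nat_lit 76) (nat_lit 4385296089831) (nat_lit 76) (nat_lit 4382729385741) (nat_lit 1) (nat_lit 4) (nat_lit 2) (nat_lit 5) (nat_lit 2) (nat_lit 4) (nat_lit 367) (nat_lit 294) (nat_lit 239)))))) (XT.nd (nat_lit 390) (nat_lit 0) (nat_lit 0) (XT.nd (nat_lit 156) (nat_lit 0) (nat_lit 0) (XT.nd (nat_lit 78) (nat_lit 0) (nat_lit 0) (XT.lf (nat_lit 0) (nat_lit 1171204648070) (nat_lit 76) (nat_lit 5035080562005) (nat_lit 76) (nat_lit 5032513704246) (nat_lit 1) (nat_lit 4) (nat_lit 2) (nat_lit 5) (nat_lit 2) (nat_lit 4) (nat_lit 368) (nat_lit 294) (nat_lit 238)) (XT.lf (nat_lit 0) (nat_lit 1361472996807) (nat_lit 76) (nat_lit 5782333557332) (nat_lit 76) (nat_lit 5779766565948)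 (nat_lit 1) (nat_lit 4) (nat_lit 2) (nat_lit 5) (nat_lit 2) (nat_lit 4) (nat_lit 369) (nat_lit 294) (nat_lit 237))) (XT.nd (nat_lit 78) (nat_lit 0) (nat_lit 0) (XT.lf (nat_lit 0) (nat_lit 1580280179723) (nat_lit 76) (nat_lit 6641675243114) (nat_lit 76) (nat_lit 6639108135533) (nat_lit 1) (nat_lit 4) (nat_lit 2) (nat_lit 5) (nat_lit 2) (nat_lit 4) (nat_lit 370) (nat_lit 294) (nat_lit 236)) (XT.nd (nat_lit 78) (nat_lit 0) (nat_lit 0) (XT.lf (nat_lit 0) (nat_lit 1831907206919) (nat_lit 76) (nat_lit 7629918826244) (nat_lit 76) (nat_lit 7627351617623) (nat_lit 1) (nat_lit 4) (nat_lit 2) (nat_lit 5) (nat_lit 2) (nat_lit 4) (nat_lit 371) (nat_lit 294) (nat_lit 235)) (XT.lf (nat_lit 0) (nat_lit 2121277215882) (nat_lit 76) (nat_lit 8766399507264) (nat_lit 76) (nat_lit 8763832210782) (nat_lit 1) (nat_lit 4) (nat_lit 2) (nat_lit 5) (nat_lit 2) (nat_lit 4) (nat_lit 372) (nat_lit 294) (nat_lit 234)))))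 (XT.nd (nat_lit 234) (nat_lit 0) (nat_lit 0) (XT.nd (nat_lit 78) (nat_lit 0) (nat_lit 0) (XT.lf (nat_lit 0) (nat_lit 2454051793746) (nat_lit 76) (nat_lit 10073352777757) (nat_lit 76) (nat_lit 10070785404874) (nat_lit 1) (nat_lit 4) (nat_lit 2) (nat_lit 5) (nat_lit 2) (nat_lit 4) (nat_lit 373) (nat_lit 294) (nat_lit 233)) (XT.nd (nat_lit 78) (nat_lit 0) (nat_lit 0) (XT.lf (nat_lit 0) (nat_lit 2836741747467) (nat_lit 76) (nat_lit 11576349462582) (nat_lit 76) (nat_lit 11573782023264) (nat_lit 1) (nat_lit 4) (nat_lit 2) (nat_lit 5) (nat_lit 2) (nat_lit 4) (nat_lit 374) (nat_lit 294) (nat_lit 232)) (XT.lf (nat_lit 0) (nat_lit 3276834489185) (nat_lit 76) (nat_lit 13304796018615) (nat_lit 76) (nat_lit 13302228521527) (nat_lit 1) (nat_lit 4) (nat_lit 2) (nat_lit 5) (nat_lit 2) (nat_lit 4) (nat_lit 375) (nat_lit 294) (nat_lit 231)))) (XT.nd (nat_lit 78) (nat_lit 0) (nat_lit 0) (XT.lf (nat_lit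 0) (nat_lit 3782940529063) (nat_lit 76) (nat_lit 15292509878475) (nat_lit 76) (nat_lit 15289942331152) (nat_lit 1) (nat_lit 4) (nat_lit 2) (nat_lit 5) (nat_lit 2) (nat_lit 4) (nat_lit 376) (nat_lit 294) (nat_lit 230)) (XT.nd (nat_lit 78) (nat_lit 0) (nat_lit 0) (XT.lf (nat_lit 0) (nat_lit 4364961941795) (nat_lit 76) (nat_lit 17578381095942) (nat_lit 76) (nat_lit 17575813504936) (nat_lit 1) (nat_lit 4) (nat_lit 2) (nat_lit 5) (nat_lit 2) (nat_lit 4) (nat_lit 377) (nat_lit 294) (nat_lit 229)) (XT.lf (nat_lit 0) (nat_lit 5034286102846) (nat_lit 76) (nat_lit 20207133238313) (nat_lit 76) (nat_lit 20204565609322) (nat_lit 1) (nat_lit 4) (nat_lit 2) (nat_lit 5) (nat_lit 2) (nat_lit 4) (nat_lit 378) (nat_lit 294) (nat_lit 228))))))) (XT.nd (nat_lit 41730) (nat_lit 0) (nat_lit 456) (XT.nd (nat_lit 390) (nat_lit 0) (nat_lit 0) (XT.nd (nat_lit 156) (nat_lit 0) (nat_lit 0) (XT.nd (nat_lit 78) (nat_lit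 0) (nat_lit 0) (XT.lf (nat_lit 0) (nat_lit 5804008484934) (nat_lit 76) (nat_lit 23230198412722) (nat_lit 76) (nat_lit 23227630750701) (nat_lit 1) (nat_lit 4) (nat_lit 2) (nat_lit 5) (nat_lit 2) (nat_lit 4) (nat_lit 379) (nat_lit 294) (nat_lit 227)) (XT.lf (nat_lit 0) (nat_lit 6689188873795) (nat_lit 76) (nat_lit 26706723546494) (nat_lit 76) (nat_lit 26704155855752) (nat_lit 1) (nat_lit 4) (nat_lit 2) (nat_lit 5) (nat_lit 2) (nat_lit 4) (nat_lit 380) (nat_lit 294) (nat_lit 226))) (XT.nd (nat_lit 78) (nat_lit 0) (nat_lit 0) (XT.lf (nat_lit 0) (nat_lit 7707146016167) (nat_lit 76) (nat_lit 30704727609639) (nat_lit 76) (nat_lit 30702159893921) (nat_lit 1) (nat_lit 4) (nat_lit 2) (nat_lit 5) (nat_lit 2) (nat_lit 4) (nat_lit 381) (nat_lit 294) (nat_lit 225)) (XT.nd (nat_lit 78) (nat_lit 0) (nat_lit 0) (XT.lf (nat_lit 0) (nat_lit 8877796464835) (nat_lit 76) (nat_lit 35302432420782) (nat_lit 76)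 (nat_lit 35299864683346) (nat_lit 1) (nat_lit 4) (nat_lit 2) (nat_lit 5) (nat_lit 2) (nat_lit 4) (nat_lit 382) (nat_lit 294) (nat_lit 224)) (XT.lf (nat_lit 0) (nat_lit 10224044250318) (nat_lit 76) (nat_lit 40589793074055) (nat_lit 76) (nat_lit 40587225317734) (nat_lit 1) (nat_lit 4) (nat_lit 2) (nat_lit 5) (nat_lit 2) (nat_lit 4) (nat_lit 383) (nat_lit 294) (nat_lit 223))))) (XT.nd (nat_lit 41106) (nat_lit 0) (nat_lit 1216) (XT.nd (nat_lit 78) (nat_lit 0) (nat_lit 0) (XT.lf (nat_lit 0) (nat_lit 11772229003201) (nat_lit 76) (nat_lit 46670257930065) (nat_lit 76) (nat_lit 46667690157322) (nat_lit 1) (nat_lit 4) (nat_lit 2) (nat_lit 5) (nat_lit 2) (nat_lit 4) (nat_lit 384) (nat_lit 294) (nat_lit 222)) (XT.nd (nat_lit 78) (nat_lit 0) (nat_lit 0) (XT.lf (nat_lit 0) (nat_lit 13552641294735) (nat_lit 76) (nat_lit 53662792605561) (nat_lit 76) (nat_lit 53660224818538) (nat_lit 1) (nat_lit 4) (nat_lit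 2) (nat_lit 5) (nat_lit 2) (nat_lit 4) (nat_lit 385) (nat_lit 294) (nat_lit 221)) (XT.lf (nat_lit 0) (nat_lit 15600115278451) (nat_lit 76) (nat_lit 61704207561584) (nat_lit 76) (nat_lit 61701639762144) (nat_lit 1) (nat_lit 4) (nat_lit 2) (nat_lit 5) (nat_lit 2) (nat_lit 4) (nat_lit 386) (nat_lit 294) (nat_lit 220)))) (XT.nd (nat_lit 78) (nat_lit 304) (nat_lit 0) (XT.lf (nat_lit 0) (nat_lit 2031295844) (nat_lit 152) (nat_lit 409668243) (nat_lit 0) (nat_lit 2031295844) (nat_lit 21) (nat_lit 5) (nat_lit 23) (nat_lit 4) (nat_lit 21) (nat_lit 4) (nat_lit 310) (nat_lit 295) (nat_lit 295)) (XT.nd (nat_lit 78) (nat_lit 152) (nat_lit 0) (XT.lf (nat_lit 0) (nat_lit 6979898860) (nat_lit 152) (nat_lit 1715913403) (nat_lit 152) (nat_lit 824963261) (nat_lit 19) (nat_lit 4) (nat_lit 21) (nat_lit 5) (nat_lit 21) (nat_lit 4) (nat_lit 311) (nat_lit 295) (nat_lit 294)) (XT.lf (nat_lit 0) (nat_lit 3404763340)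 (nat_lit 152) (nat_lit 4813197635) (nat_lit 0) (nat_lit 1956337778) (nat_lit 17) (nat_lit 5) (nat_lit 19) (nat_lit 4) (nat_lit 17) (nat_lit 4) (nat_lit 312) (nat_lit 295) (nat_lit 293)))))) (XT.nd (nat_lit 390) (nat_lit 304) (nat_lit 0) (XT.nd (nat_lit 156) (nat_lit 228) (nat_lit 0) (XT.nd (nat_lit 78) (nat_lit 152) (nat_lit 0) (XT.lf (nat_lit 0) (nat_lit 3243577585) (nat_lit 76) (nat_lit 4861526003) (nat_lit 76) (nat_lit 2827286259) (nat_lit 16) (nat_lit 4) (nat_lit 17) (nat_lit 5) (nat_lit 17) (nat_lit 4) (nat_lit 313) (nat_lit 295) (nat_lit 292)) (XT.lf (nat_lit 0) (nat_lit 490246759) (nat_lit 76) (nat_lit 920864933) (nat_lit 152) (nat_lit 10404373476) (nat_lit 14) (nat_lit 5) (nat_lit 15) (nat_lit 5) (nat_lit 16) (nat_lit 4) (nat_lit 314) (nat_lit 295) (nat_lit 291))) (XT.nd (nat_lit 78) (nat_lit 228) (nat_lit 0) (XT.lf (nat_lit 0) (nat_lit 6151938583) (nat_lit 152) (nat_lit 3080944139)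 (nat_lit 0) (nat_lit 3554892441) (nat_lit 14) (nat_lit 5) (nat_lit 16) (nat_lit 4) (nat_lit 14) (nat_lit 4) (nat_lit 315) (nat_lit 295) (nat_lit 290)) (XT.nd (nat_lit 78) (nat_lit 152) (nat_lit 0) (XT.lf (nat_lit 0) (nat_lit 6245005916) (nat_lit 76) (nat_lit 5300940616) (nat_lit 76) (nat_lit 2368953315) (nat_lit 13) (nat_lit 4) (nat_lit 14) (nat_lit 5) (nat_lit 14) (nat_lit 4) (nat_lit 316) (nat_lit 295) (nat_lit 289)) (XT.lf (nat_lit 0) (nat_lit 1475989396) (nat_lit 76) (nat_lit 709698919) (nat_lit 152) (nat_lit 13028816898) (nat_lit 11) (nat_lit 5) (nat_lit 12) (nat_lit 5) (nat_lit 13) (nat_lit 4) (nat_lit 317) (nat_lit 295) (nat_lit 288))))) (XT.nd (nat_lit 234) (nat_lit 152) (nat_lit 0) (XT.nd (nat_lit 78) (nat_lit 152) (nat_lit 0) (XT.lf (nat_lit 0) (nat_lit 7441360331) (nat_lit 152) (nat_lit 4793598297) (nat_lit 0) (nat_lit 4418313271) (nat_lit 11) (nat_lit 5) (nat_lit 13) (nat_lit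 4) (nat_lit 11) (nat_lit 4) (nat_lit 318) (nat_lit 295) (nat_lit 287)) (XT.nd (nat_lit 78) (nat_lit 76) (nat_lit 0) (XT.lf (nat_lit 0) (nat_lit 5344367140) (nat_lit 76) (nat_lit 8092726039) (nat_lit 76) (nat_lit 4878175284) (nat_lit 10) (nat_lit 4) (nat_lit 11) (nat_lit 5) (nat_lit 11) (nat_lit 4) (nat_lit 319) (nat_lit 295) (nat_lit 286)) (XT.lf (nat_lit 0) (nat_lit 57755355) (nat_lit 152) (nat_lit 3256901692) (nat_lit 76) (nat_lit 16917150459) (nat_lit 9) (nat_lit 5) (nat_lit 11) (nat_lit 5) (nat_lit 10) (nat_lit 4) (nat_lit 320) (nat_lit 295) (nat_lit 285)))) (XT.nd (nat_lit 78) (nat_lit 76) (nat_lit 0) (XT.lf (nat_lit 0) (nat_lit 5404972134) (nat_lit 152) (nat_lit 14631585017) (nat_lit 0) (nat_lit 2338989513) (nat_lit 8) (nat_lit 5) (nat_lit 10) (nat_lit 4) (nat_lit 8) (nat_lit 4) (nat_lit 321) (nat_lit 295) (nat_lit 284)) (XT.nd (nat_lit 78) (nat_lit 76) (nat_lit 0) (XT.lf (nat_lit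 0) (nat_lit 11632368985) (nat_lit 152) (nat_lit 4739967561) (nat_lit 0) (nat_lit 8456893505) (nat_lit 8) (nat_lit 5) (nat_lit 10) (nat_lit 4) (nat_lit 8) (nat_lit 4) (nat_lit 322) (nat_lit 295) (nat_lit 283)) (XT.lf (nat_lit 0) (nat_lit 6787777927) (nat_lit 76) (nat_lit 12062732325) (nat_lit 76) (nat_lit 8792045663) (nat_lit 7) (nat_lit 4) (nat_lit 8) (nat_lit 5) (nat_lit 8) (nat_lit 4) (nat_lit 323) (nat_lit 295) (nat_lit 282))))))))
noncomputable def xc38 : XT := (XT.nd (nat_lit 1638) (nat_lit 76) (nat_lit 0) (XT.nd (nat_lit 780) (nat_lit 152) (nat_lit 0) (XT.nd (nat_lit 390) (nat_lit 76) (nat_lit 0) (XT.nd (nat_lit 156) (nat_lit 0) (nat_lit 0) (XT.nd (nat_lit 78) (nat_lit 152) (nat_lit 0) (XT.lf (nat_lit 0) (nat_lit 20146024782) (nat_lit 76) (nat_lit 7040098211) (nat_lit 76) (nat_lit 3686619217) (nat_lit 7) (nat_lit 4) (nat_lit 8) (nat_lit 5) (nat_lit 8) (nat_lit 4) (nat_lit 324) (nat_lit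 295) (nat_lit 281)) (XT.lf (nat_lit 0) (nat_lit 478568046) (nat_lit 76) (nat_lit 1337264684) (nat_lit 152) (nat_lit 32784255424) (nat_lit 5) (nat_lit 5) (nat_lit 6) (nat_lit 5) (nat_lit 7) (nat_lit 4) (nat_lit 325) (nat_lit 295) (nat_lit 280))) (XT.nd (nat_lit 78) (nat_lit 0) (nat_lit 0) (XT.lf (nat_lit 0) (nat_lit 8377501129) (nat_lit 152) (nat_lit 25046665107) (nat_lit 0) (nat_lit 5344392239) (nat_lit 5) (nat_lit 5) (nat_lit 7) (nat_lit 4) (nat_lit 5) (nat_lit 4) (nat_lit 326) (nat_lit 295) (nat_lit 279)) (XT.nd (nat_lit 78) (nat_lit 0) (nat_lit 0) (XT.lf (nat_lit 0) (nat_lit 15819866486) (nat_lit 152) (nat_lit 15018587405) (nat_lit 0) (nat_lit 12739420812) (nat_lit 5) (nat_lit 5) (nat_lit 7) (nat_lit 4) (nat_lit 5) (nat_lit 4) (nat_lit 327) (nat_lit 295) (nat_lit 278)) (XT.lf (nat_lit 0) (nat_lit 24233167019) (nat_lit 152) (nat_lit 3785712202) (nat_lit 0) (nat_lit 21111558923) (nat_lit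 5) (nat_lit 5) (nat_lit 7) (nat_lit 4) (nat_lit 5) (nat_lit 4) (nat_lit 328) (nat_lit 295) (nat_lit 277))))) (XT.nd (nat_lit 156) (nat_lit 0) (nat_lit 0) (XT.nd (nat_lit 78) (nat_lit 0) (nat_lit 0) (XT.lf (nat_lit 0) (nat_lit 9738744528) (nat_lit 76) (nat_lit 24446526897) (nat_lit 76) (nat_lit 21289125391) (nat_lit 4) (nat_lit 4) (nat_lit 5) (nat_lit 5) (nat_lit 5) (nat_lit 4) (nat_lit 329) (nat_lit 295) (nat_lit 276)) (XT.lf (nat_lit 0) (nat_lit 25468806613) (nat_lit 76) (nat_lit 20239025335) (nat_lit 76) (nat_lit 17050499125) (nat_lit 4) (nat_lit 4) (nat_lit 5) (nat_lit 5) (nat_lit 5) (nat_lit 4) (nat_lit 330) (nat_lit 295) (nat_lit 275))) (XT.nd (nat_lit 78) (nat_lit 0) (nat_lit 0) (XT.lf (nat_lit 0) (nat_lit 43342268809) (nat_lit 76) (nat_lit 15511943355) (nat_lit 76) (nat_lit 12296352184) (nat_lit 4) (nat_lit 4) (nat_lit 5) (nat_lit 5) (nat_lit 5) (nat_lit 4) (nat_lit 331) (nat_lit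 295) (nat_lit 274)) (XT.nd (nat_lit 78) (nat_lit 0) (nat_lit 0) (XT.lf (nat_lit 0) (nat_lit 63708829287) (nat_lit 76) (nat_lit 10172794570) (nat_lit 76) (nat_lit 6933668651) (nat_lit 4) (nat_lit 4) (nat_lit 5) (nat_lit 5) (nat_lit 5) (nat_lit 4) (nat_lit 332) (nat_lit 295) (nat_lit 273)) (XT.lf (nat_lit 0) (nat_lit 86966964232) (nat_lit 76) (nat_lit 4117117373) (nat_lit 76) (nat_lit 857526457) (nat_lit 4) (nat_lit 4) (nat_lit 5) (nat_lit 5) (nat_lit 5) (nat_lit 4) (nat_lit 333) (nat_lit 295) (nat_lit 272)))))) (XT.nd (nat_lit 390) (nat_lit 0) (nat_lit 0) (XT.nd (nat_lit 156) (nat_lit 0) (nat_lit 0) (XT.nd (nat_lit 78) (nat_lit 0) (nat_lit 0) (XT.lf (nat_lit 0) (nat_lit 6047320562) (nat_lit 152) (nat_lit 95384617005) (nat_lit 0) (nat_lit 3197419199) (nat_lit 2) (nat_lit 5) (nat_lit 4) (nat_lit 4) (nat_lit 2) (nat_lit 4) (nat_lit 334) (nat_lit 295) (nat_lit 271)) (XT.lf (nat_lit 0) (nat_lit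 14296977497) (nat_lit 152) (nat_lit 93424025477) (nat_lit 0) (nat_lit 11433620066) (nat_lit 2) (nat_lit 5) (nat_lit 4) (nat_lit 4) (nat_lit 2) (nat_lit 4) (nat_lit 335) (nat_lit 295) (nat_lit 270))) (XT.nd (nat_lit 78) (nat_lit 0) (nat_lit 0) (XT.lf (nat_lit 0) (nat_lit 23721824764) (nat_lit 152) (nat_lit 91299437293) (nat_lit 0) (nat_lit 20846766403) (nat_lit 2) (nat_lit 5) (nat_lit 4) (nat_lit 4) (nat_lit 2) (nat_lit 4) (nat_lit 336) (nat_lit 295) (nat_lit 269)) (XT.nd (nat_lit 78) (nat_lit 0) (nat_lit 0) (XT.lf (nat_lit 0) (nat_lit 34506261547) (nat_lit 152) (nat_lit 88969284422) (nat_lit 0) (nat_lit 31621028466) (nat_lit 2) (nat_lit 5) (nat_lit 4) (nat_lit 4) (nat_lit 2) (nat_lit 4) (nat_lit 337) (nat_lit 295) (nat_lit 268)) (XT.lf (nat_lit 0) (nat_lit 46861287697) (nat_lit 152) (nat_lit 86387976917) (nat_lit 0) (nat_lit 43967207032) (nat_lit 2) (nat_lit 5) (nat_lit 4) (nat_lit 4)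 (nat_lit 2) (nat_lit 4) (nat_lit 338) (nat_lit 295) (nat_lit 267))))) (XT.nd (nat_lit 234) (nat_lit 0) (nat_lit 0) (XT.nd (nat_lit 78) (nat_lit 0) (nat_lit 0) (XT.lf (nat_lit 0) (nat_lit 61028631986) (nat_lit 152) (nat_lit 83505010935) (nat_lit 0) (nat_lit 58126857770) (nat_lit 2) (nat_lit 5) (nat_lit 4) (nat_lit 4) (nat_lit 2) (nat_lit 4) (nat_lit 339) (nat_lit 295) (nat_lit 266)) (XT.nd (nat_lit 78) (nat_lit 0) (nat_lit 0) (XT.lf (nat_lit 0) (nat_lit 77285481585) (nat_lit 152) (nat_lit 80263980620) (nat_lit 0) (nat_lit 74377017325) (nat_lit 2) (nat_lit 5) (nat_lit 4) (nat_lit 4) (nat_lit 2) (nat_lit 4) (nat_lit 340) (nat_lit 295) (nat_lit 265)) (XT.lf (nat_lit 0) (nat_lit 95949905290) (nat_lit 152) (nat_lit 76601474510) (nat_lit 0) (nat_lit 93035623601) (nat_lit 2) (nat_lit 5) (nat_lit 4) (nat_lit 4) (nat_lit 2) (nat_lit 4) (nat_lit 341) (nat_lit 295) (nat_lit 264)))) (XT.nd (nat_lit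 78) (nat_lit 0) (nat_lit 0) (XT.lf (nat_lit 0) (nat_lit 117387076610) (nat_lit 152) (nat_lit 72445834875) (nat_lit 0) (nat_lit 114467736285) (nat_lit 2) (nat_lit 5) (nat_lit 4) (nat_lit 4) (nat_lit 2) (nat_lit 4) (nat_lit 342) (nat_lit 295) (nat_lit 263)) (XT.nd (nat_lit 78) (nat_lit 0) (nat_lit 0) (XT.lf (nat_lit 0) (nat_lit 142016418460) (nat_lit 152) (nat_lit 67715755724) (nat_lit 0) (nat_lit 139092679323) (nat_lit 2) (nat_lit 5) (nat_lit 4) (nat_lit 4) (nat_lit 2) (nat_lit 4) (nat_lit 343) (nat_lit 295) (nat_lit 262)) (XT.lf (nat_lit 0) (nat_lit 170319809269) (nat_lit 152) (nat_lit 62318692030) (nat_lit 0) (nat_lit 167392245077) (nat_lit 2) (nat_lit 5) (nat_lit 4) (nat_lit 4) (nat_lit 2) (nat_lit 4) (nat_lit 344) (nat_lit 295) (nat_lit 261))))))) (XT.nd (nat_lit 858) (nat_lit 0) (nat_lit 0) (XT.nd (nat_lit 390) (nat_lit 76) (nat_lit 0) (XT.nd (nat_lit 156) (nat_lit 0) (nat_lit 0)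 (XT.nd (nat_lit 78) (nat_lit 0) (nat_lit 0) (XT.lf (nat_lit 0) (nat_lit 202851011030) (nat_lit 152) (nat_lit 56149049067) (nat_lit 0) (nat_lit 199920120704) (nat_lit 2) (nat_lit 5) (nat_lit 4) (nat_lit 4) (nat_lit 2) (nat_lit 4) (nat_lit 345) (nat_lit 295) (nat_lit 260)) (XT.lf (nat_lit 0) (nat_lit 240246503778) (nat_lit 152) (nat_lit 49086116431) (nat_lit 0) (nat_lit 237312721161) (nat_lit 2) (nat_lit 5) (nat_lit 4) (nat_lit 4) (nat_lit 2) (nat_lit 4) (nat_lit 346) (nat_lit 295) (nat_lit 259))) (XT.nd (nat_lit 78) (nat_lit 0) (nat_lit 0) (XT.lf (nat_lit 0) (nat_lit 283237938458) (nat_lit 152) (nat_lit 40991706308) (nat_lit 0) (nat_lit 280301640806) (nat_lit 2) (nat_lit 5) (nat_lit 4) (nat_lit 4) (nat_lit 2) (nat_lit 4) (nat_lit 347) (nat_lit 295) (nat_lit 258)) (XT.nd (nat_lit 78) (nat_lit 0) (nat_lit 0) (XT.lf (nat_lit 0) (nat_lit 332666451836) (nat_lit 152) (nat_lit 31707449806) (nat_lit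 0) (nat_lit 329727967197) (nat_lit 2) (nat_lit 5) (nat_lit 4) (nat_lit 4) (nat_lit 2) (nat_lit 4) (nat_lit 348) (nat_lit 295) (nat_lit 257)) (XT.lf (nat_lit 0) (nat_lit 389499123521) (nat_lit 152) (nat_lit 21051698427) (nat_lit 0) (nat_lit 386558737153) (nat_lit 2) (nat_lit 5) (nat_lit 4) (nat_lit 4) (nat_lit 2) (nat_lit 4) (nat_lit 349) (nat_lit 295) (nat_lit 256))))) (XT.nd (nat_lit 234) (nat_lit 0) (nat_lit 0) (XT.nd (nat_lit 78) (nat_lit 76) (nat_lit 0) (XT.lf (nat_lit 0) (nat_lit 454847897089) (nat_lit 152) (nat_lit 8815970078) (nat_lit 0) (nat_lit 451905857045) (nat_lit 2) (nat_lit 5) (nat_lit 4) (nat_lit 4) (nat_lit 2) (nat_lit 4) (nat_lit 350) (nat_lit 295) (nat_lit 255)) (XT.nd (nat_lit 78) (nat_lit 0) (nat_lit 0) (XT.lf (nat_lit 0) (nat_lit 5751135802) (nat_lit 76) (nat_lit 524478341969) (nat_lit 76) (nat_lit 521534863945) (nat_lit 1) (nat_lit 4) (nat_lit 2) (nat_lit 5) (nat_lit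 2) (nat_lit 4) (nat_lit 351) (nat_lit 295) (nat_lit 254)) (XT.lf (nat_lit 0) (nat_lit 23478841495) (nat_lit 76) (nat_lit 593893003730) (nat_lit 76) (nat_lit 590948275289) (nat_lit 1) (nat_lit 4) (nat_lit 2) (nat_lit 5) (nat_lit 2) (nat_lit 4) (nat_lit 352) (nat_lit 295) (nat_lit 253)))) (XT.nd (nat_lit 78) (nat_lit 0) (nat_lit 0) (XT.lf (nat_lit 0) (nat_lit 43852432704) (nat_lit 76) (nat_lit 673726800198) (nat_lit 76) (nat_lit 670780984437) (nat_lit 1) (nat_lit 4) (nat_lit 2) (nat_lit 5) (nat_lit 2) (nat_lit 4) (nat_lit 353) (nat_lit 295) (nat_lit 252)) (XT.nd (nat_lit 78) (nat_lit 0) (nat_lit 0) (XT.lf (nat_lit 0) (nat_lit 67270523169) (nat_lit 76) (nat_lit 765541696955) (nat_lit 76) (nat_lit 762594935700) (nat_lit 1) (nat_lit 4) (nat_lit 2) (nat_lit 5) (nat_lit 2) (nat_lit 4) (nat_lit 354) (nat_lit 295) (nat_lit 251)) (XT.lf (nat_lit 0) (nat_lit 94191292922) (nat_lit 76) (nat_lit 871134072418)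 (nat_lit 76) (nat_lit 868186488993) (nat_lit 1) (nat_lit 4) (nat_lit 2) (nat_lit 5) (nat_lit 2) (nat_lit 4) (nat_lit 355) (nat_lit 295) (nat_lit 250)))))) (XT.nd (nat_lit 390) (nat_lit 0) (nat_lit 0) (XT.nd (nat_lit 156) (nat_lit 0) (nat_lit 0) (XT.nd (nat_lit 78) (nat_lit 0) (nat_lit 0) (XT.lf (nat_lit 0) (nat_lit 125141452675) (nat_lit 76) (nat_lit 992569864365) (nat_lit 76) (nat_lit 989621566011) (nat_lit 1) (nat_lit 4) (nat_lit 2) (nat_lit 5) (nat_lit 2) (nat_lit 4) (nat_lit 356) (nat_lit 295) (nat_lit 249)) (XT.lf (nat_lit 0) (nat_lit 160726549031) (nat_lit 76) (nat_lit 1132224990467) (nat_lit 76) (nat_lit 1129276070434) (nat_lit 1) (nat_lit 4) (nat_lit 2) (nat_lit 5) (nat_lit 2) (nat_lit 4) (nat_lit 357) (nat_lit 295) (nat_lit 248))) (XT.nd (nat_lit 78) (nat_lit 0) (nat_lit 0) (XT.lf (nat_lit 0) (nat_lit 201642812138) (nat_lit 76) (nat_lit 1292831833625) (nat_lit 76) (nat_lit 1289882373002)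 (nat_lit 1) (nat_lit 4) (nat_lit 2) (nat_lit 5) (nat_lit 2) (nat_lit 4) (nat_lit 358) (nat_lit 295) (nat_lit 247)) (XT.nd (nat_lit 78) (nat_lit 0) (nat_lit 0) (XT.lf (nat_lit 0) (nat_lit 248690777577) (nat_lit 76) (nat_lit 1477532701640) (nat_lit 76) (nat_lit 1474582770939) (nat_lit 1) (nat_lit 4) (nat_lit 2) (nat_lit 5) (nat_lit 2) (nat_lit 4) (nat_lit 359) (nat_lit 295) (nat_lit 246)) (XT.lf (nat_lit 0) (nat_lit 302790949020) (nat_lit 76) (nat_lit 1689941307147) (nat_lit 76) (nat_lit 1686990967683) (nat_lit 1) (nat_lit 4) (nat_lit 2) (nat_lit 5) (nat_lit 2) (nat_lit 4) (nat_lit 360) (nat_lit 295) (nat_lit 245))))) (XT.nd (nat_lit 234) (nat_lit 0) (nat_lit 0) (XT.nd (nat_lit 78) (nat_lit 0) (nat_lit 0) (XT.lf (nat_lit 0) (nat_lit 365001808082) (nat_lit 76) (nat_lit 1934213470689) (nat_lit 76) (nat_lit 1931262775778) (nat_lit 1) (nat_lit 4) (nat_lit 2) (nat_lit 5) (nat_lit 2) (nat_lit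 4) (nat_lit 361) (nat_lit 295) (nat_lit 244)) (XT.nd (nat_lit 78) (nat_lit 0) (nat_lit 0) (XT.lf (nat_lit 0) (nat_lit 436540523745) (nat_lit 76) (nat_lit 2215128430247) (nat_lit 76) (nat_lit 2212177426252) (nat_lit 1) (nat_lit 4) (nat_lit 2) (nat_lit 5) (nat_lit 2) (nat_lit 4) (nat_lit 362) (nat_lit 295) (nat_lit 243)) (XT.lf (nat_lit 0) (nat_lit 518806766533) (nat_lit 76) (nat_lit 2538182348075) (nat_lit 76) (nat_lit 2535231075311) (nat_lit 1) (nat_lit 4) (nat_lit 2) (nat_lit 5) (nat_lit 2) (nat_lit 4) (nat_lit 363) (nat_lit 295) (nat_lit 242)))) (XT.nd (nat_lit 78) (nat_lit 0) (nat_lit 0) (XT.lf (nat_lit 0) (nat_lit 613410093370) (nat_lit 76) (nat_lit 2909695844303) (nat_lit 76) (nat_lit 2906744337827) (nat_lit 1) (nat_lit 4) (nat_lit 2) (nat_lit 5) (nat_lit 2) (nat_lit 4) (nat_lit 364) (nat_lit 295) (nat_lit 241)) (XT.nd (nat_lit 78) (nat_lit 0) (nat_lit 0) (XT.lf (nat_lit 0) (nat_lit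 722201438911) (nat_lit 76) (nat_lit 3336937661249) (nat_lit 76) (nat_lit 3333985951545) (nat_lit 1) (nat_lit 4) (nat_lit 2) (nat_lit 5) (nat_lit 2) (nat_lit 4) (nat_lit 365) (nat_lit 295) (nat_lit 240)) (XT.lf (nat_lit 0) (nat_lit 847309329483) (nat_lit 76) (nat_lit 3828266877940) (nat_lit 76) (nat_lit 3825314991517) (nat_lit 1) (nat_lit 4) (nat_lit 2) (nat_lit 5) (nat_lit 2) (nat_lit 4) (nat_lit 366) (nat_lit 295) (nat_lit 239))))))))
noncomputable def xc39 : XT := (XT.nd (nat_lit 42432) (nat_lit 0) (nat_lit 228) (XT.nd (nat_lit 858) (nat_lit 0) (nat_lit 0) (XT.nd (nat_lit 390) (nat_lit 0) (nat_lit 0) (XT.nd (nat_lit 156) (nat_lit 0) (nat_lit 0) (XT.nd (nat_lit 78) (nat_lit 0) (nat_lit 0) (XT.lf (nat_lit 0) (nat_lit 991181528161) (nat_lit 76) (nat_lit 4393296457312) (nat_lit 76) (nat_lit 4390344417219) (nat_lit 1) (nat_lit 4) (nat_lit 2) (nat_lit 5) (nat_lit 2) (nat_lit 4) (nat_lit 367)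 (nat_lit 295) (nat_lit 238)) (XT.lf (nat_lit 0) (nat_lit 1156632925790) (nat_lit 76) (nat_lit 5043081325917) (nat_lit 76) (nat_lit 5040129152199) (nat_lit 1) (nat_lit 4) (nat_lit 2) (nat_lit 5) (nat_lit 2) (nat_lit 4) (nat_lit 368) (nat_lit 295) (nat_lit 237))) (XT.nd (nat_lit 78) (nat_lit 0) (nat_lit 0) (XT.lf (nat_lit 0) (nat_lit 1346900614931) (nat_lit 76) (nat_lit 5790334665968) (nat_lit 76) (nat_lit 5787382376054) (nat_lit 1) (nat_lit 4) (nat_lit 2) (nat_lit 5) (nat_lit 2) (nat_lit 4) (nat_lit 369) (nat_lit 295) (nat_lit 236)) (XT.nd (nat_lit 78) (nat_lit 0) (nat_lit 0) (XT.lf (nat_lit 0) (nat_lit 1565707224285) (nat_lit 76) (nat_lit 6649676651508) (nat_lit 76) (nat_lit 6646724260554) (nat_lit 1) (nat_lit 4) (nat_lit 2) (nat_lit 5) (nat_lit 2) (nat_lit 4) (nat_lit 370) (nat_lit 295) (nat_lit 235)) (XT.lf (nat_lit 0) (nat_lit 1817333752731) (nat_lit 76) (nat_lit 7637920495299) (nat_lit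 76) (nat_lit 7634968016484) (nat_lit 1) (nat_lit 4) (nat_lit 2) (nat_lit 5) (nat_lit 2) (nat_lit 4) (nat_lit 371) (nat_lit 295) (nat_lit 234))))) (XT.nd (nat_lit 234) (nat_lit 0) (nat_lit 0) (XT.nd (nat_lit 78) (nat_lit 0) (nat_lit 0) (XT.lf (nat_lit 0) (nat_lit 2106703327999) (nat_lit 76) (nat_lit 8774401402979) (nat_lit 76) (nat_lit 8771448847763) (nat_lit 1) (nat_lit 4) (nat_lit 2) (nat_lit 5) (nat_lit 2) (nat_lit 4) (nat_lit 372) (nat_lit 295) (nat_lit 233)) (XT.nd (nat_lit 78) (nat_lit 0) (nat_lit 0) (XT.lf (nat_lit 0) (nat_lit 2439477528737) (nat_lit 76) (nat_lit 10081354870569) (nat_lit 76) (nat_lit 10078402248918) (nat_lit 1) (nat_lit 4) (nat_lit 2) (nat_lit 5) (nat_lit 2) (nat_lit 4) (nat_lit 373) (nat_lit 295) (nat_lit 232)) (XT.lf (nat_lit 0) (nat_lit 2822167154522) (nat_lit 76) (nat_lit 11584351726782) (nat_lit 76) (nat_lit 11581399047361) (nat_lit 1) (nat_lit 4) (nat_lit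 2) (nat_lit 5) (nat_lit 2) (nat_lit 4) (nat_lit 374) (nat_lit 295) (nat_lit 231)))) (XT.nd (nat_lit 78) (nat_lit 0) (nat_lit 0) (XT.lf (nat_lit 0) (nat_lit 3262259611079) (nat_lit 76) (nat_lit 13312798431849) (nat_lit 76) (nat_lit 13309845702193) (nat_lit 1) (nat_lit 4) (nat_lit 2) (nat_lit 5) (nat_lit 2) (nat_lit 4) (nat_lit 375) (nat_lit 295) (nat_lit 230)) (XT.nd (nat_lit 78) (nat_lit 0) (nat_lit 0) (XT.lf (nat_lit 0) (nat_lit 3768365402990) (nat_lit 76) (nat_lit 15300512421303) (nat_lit 76) (nat_lit 15297559647964) (nat_lit 1) (nat_lit 4) (nat_lit 2) (nat_lit 5) (nat_lit 2) (nat_lit 4) (nat_lit 376) (nat_lit 295) (nat_lit 229)) (XT.lf (nat_lit 0) (nat_lit 4350386600099) (nat_lit 76) (nat_lit 17586383751460) (nat_lit 76) (nat_lit 17583430940136) (nat_lit 1) (nat_lit 4) (nat_lit 2) (nat_lit 5) (nat_lit 2) (nat_lit 4) (nat_lit 377) (nat_lit 295) (nat_lit 228)))))) (XT.nd (nat_lit 390)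 (nat_lit 0) (nat_lit 0) (XT.nd (nat_lit 156) (nat_lit 0) (nat_lit 0) (XT.nd (nat_lit 78) (nat_lit 0) (nat_lit 0) (XT.lf (nat_lit 0) (nat_lit 5019710573652) (nat_lit 76) (nat_lit 20215135991823) (nat_lit 76) (nat_lit 20212183147469) (nat_lit 1) (nat_lit 4) (nat_lit 2) (nat_lit 5) (nat_lit 2) (nat_lit 4) (nat_lit 378) (nat_lit 295) (nat_lit 227)) (XT.lf (nat_lit 0) (nat_lit 5789432792698) (nat_lit 76) (nat_lit 23238201251442) (nat_lit 76) (nat_lit 23235248378366) (nat_lit 1) (nat_lit 4) (nat_lit 2) (nat_lit 5) (nat_lit 2) (nat_lit 4) (nat_lit 379) (nat_lit 295) (nat_lit 226))) (XT.nd (nat_lit 78) (nat_lit 0) (nat_lit 0) (XT.lf (nat_lit 0) (nat_lit 6674613039782) (nat_lit 76) (nat_lit 26714726459310) (nat_lit 76) (nat_lit 26711773561259) (nat_lit 1) (nat_lit 4) (nat_lit 2) (nat_lit 5) (nat_lit 2) (nat_lit 4) (nat_lit 380) (nat_lit 295) (nat_lit 225)) (XT.nd (nat_lit 78) (nat_lit 0) (nat_lit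 0) (XT.lf (nat_lit 0) (nat_lit 7692570058871) (nat_lit 76) (nat_lit 30712730586886) (nat_lit 76) (nat_lit 30709777667117) (nat_lit 1) (nat_lit 4) (nat_lit 2) (nat_lit 5) (nat_lit 2) (nat_lit 4) (nat_lit 381) (nat_lit 295) (nat_lit 224)) (XT.lf (nat_lit 0) (nat_lit 8863220400337) (nat_lit 76) (nat_lit 35310435454056) (nat_lit 76) (nat_lit 35307482515402) (nat_lit 1) (nat_lit 4) (nat_lit 2) (nat_lit 5) (nat_lit 2) (nat_lit 4) (nat_lit 382) (nat_lit 295) (nat_lit 223))))) (XT.nd (nat_lit 234) (nat_lit 0) (nat_lit 0) (XT.nd (nat_lit 78) (nat_lit 0) (nat_lit 0) (XT.lf (nat_lit 0) (nat_lit 10209468092600) (nat_lit 76) (nat_lit 40597796156049) (nat_lit 76) (nat_lit 40594843200973) (nat_lit 1) (nat_lit 4) (nat_lit 2) (nat_lit 5) (nat_lit 2) (nat_lit 4) (nat_lit 383) (nat_lit 295) (nat_lit 222)) (XT.nd (nat_lit 78) (nat_lit 0) (nat_lit 0) (XT.lf (nat_lit 0) (nat_lit 11757652764422) (nat_lit 76)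 (nat_lit 46678261054424) (nat_lit 76) (nat_lit 46675308085068) (nat_lit 1) (nat_lit 4) (nat_lit 2) (nat_lit 5) (nat_lit 2) (nat_lit 4) (nat_lit 384) (nat_lit 295) (nat_lit 221)) (XT.lf (nat_lit 0) (nat_lit 13538064985468) (nat_lit 76) (nat_lit 53670795766758) (nat_lit 76) (nat_lit 53667842784985) (nat_lit 1) (nat_lit 4) (nat_lit 2) (nat_lit 5) (nat_lit 2) (nat_lit 4) (nat_lit 385) (nat_lit 295) (nat_lit 220)))) (XT.nd (nat_lit 40794) (nat_lit 0) (nat_lit 1520) (XT.lf (nat_lit 0) (nat_lit 15585538907891) (nat_lit 76) (nat_lit 61712210754815) (nat_lit 76) (nat_lit 61709257762244) (nat_lit 1) (nat_lit 4) (nat_lit 2) (nat_lit 5) (nat_lit 2) (nat_lit 4) (nat_lit 386) (nat_lit 295) (nat_lit 219)) (XT.nd (nat_lit 78) (nat_lit 152) (nat_lit 0) (XT.lf (nat_lit 0) (nat_lit 1191082256) (nat_lit 152) (nat_lit 1406860776) (nat_lit 152) (nat_lit 1406860776) (nat_lit 23) (nat_lit 4) (nat_lit 25) (nat_lit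 5) (nat_lit 25) (nat_lit 4) (nat_lit 308) (nat_lit 296) (nat_lit 296)) (XT.lf (nat_lit 0) (nat_lit 779496411) (nat_lit 76) (nat_lit 131097995) (nat_lit 152) (nat_lit 7555682280) (nat_lit 21) (nat_lit 5) (nat_lit 22) (nat_lit 5) (nat_lit 23) (nat_lit 4) (nat_lit 309) (nat_lit 296) (nat_lit 295))))))) (XT.nd (nat_lit 858) (nat_lit 456) (nat_lit 0) (XT.nd (nat_lit 390) (nat_lit 380) (nat_lit 0) (XT.nd (nat_lit 156) (nat_lit 304) (nat_lit 0) (XT.nd (nat_lit 78) (nat_lit 152) (nat_lit 0) (XT.lf (nat_lit 0) (nat_lit 4870847910) (nat_lit 152) (nat_lit 1151188167) (nat_lit 0) (nat_lit 2955305103) (nat_lit 21) (nat_lit 5) (nat_lit 23) (nat_lit 4) (nat_lit 21) (nat_lit 4) (nat_lit 310) (nat_lit 296) (nat_lit 294)) (XT.lf (nat_lit 0) (nat_lit 6298848708) (nat_lit 152) (nat_lit 2988900295) (nat_lit 152) (nat_lit 298618234) (nat_lit 19) (nat_lit 4) (nat_lit 21) (nat_lit 5) (nat_lit 21) (nat_lit 4)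 (nat_lit 311) (nat_lit 296) (nat_lit 293))) (XT.nd (nat_lit 78) (nat_lit 152) (nat_lit 0) (XT.lf (nat_lit 0) (nat_lit 3593868164) (nat_lit 152) (nat_lit 6017875839) (nat_lit 0) (nat_lit 668678277) (nat_lit 17) (nat_lit 5) (nat_lit 19) (nat_lit 4) (nat_lit 17) (nat_lit 4) (nat_lit 312) (nat_lit 296) (nat_lit 292)) (XT.nd (nat_lit 78) (nat_lit 76) (nat_lit 0) (XT.lf (nat_lit 0) (nat_lit 1590018968) (nat_lit 76) (nat_lit 6459966688) (nat_lit 76) (nat_lit 3025373166) (nat_lit 16) (nat_lit 4) (nat_lit 17) (nat_lit 5) (nat_lit 17) (nat_lit 4) (nat_lit 313) (nat_lit 296) (nat_lit 291)) (XT.lf (nat_lit 0) (nat_lit 1037594615) (nat_lit 152) (nat_lit 1646724783) (nat_lit 76) (nat_lit 9304485211) (nat_lit 15) (nat_lit 5) (nat_lit 17) (nat_lit 5) (nat_lit 16) (nat_lit 4) (nat_lit 314) (nat_lit 296) (nat_lit 290))))) (XT.nd (nat_lit 234) (nat_lit 152) (nat_lit 0) (XT.nd (nat_lit 78) (nat_lit 152)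 (nat_lit 0) (XT.lf (nat_lit 0) (nat_lit 5459363726) (nat_lit 152) (nat_lit 5797091790) (nat_lit 0) (nat_lit 1752637170) (nat_lit 14) (nat_lit 5) (nat_lit 16) (nat_lit 4) (nat_lit 14) (nat_lit 4) (nat_lit 315) (nat_lit 296) (nat_lit 289)) (XT.nd (nat_lit 78) (nat_lit 76) (nat_lit 0) (XT.lf (nat_lit 0) (nat_lit 2967236089) (nat_lit 76) (nat_lit 7604652365) (nat_lit 76) (nat_lit 3606672628) (nat_lit 13) (nat_lit 4) (nat_lit 14) (nat_lit 5) (nat_lit 14) (nat_lit 4) (nat_lit 316) (nat_lit 296) (nat_lit 288)) (XT.lf (nat_lit 0) (nat_lit 852991973) (nat_lit 152) (nat_lit 2417310630) (nat_lit 76) (nat_lit 12246418315) (nat_lit 12) (nat_lit 5) (nat_lit 14) (nat_lit 5) (nat_lit 13) (nat_lit 4) (nat_lit 317) (nat_lit 296) (nat_lit 287)))) (XT.nd (nat_lit 78) (nat_lit 76) (nat_lit 0) (XT.lf (nat_lit 0) (nat_lit 5746415983) (nat_lit 152) (nat_lit 9405309616) (nat_lit 0) (nat_lit 1858178919) (nat_lit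 11) (nat_lit 5) (nat_lit 13) (nat_lit 4) (nat_lit 11) (nat_lit 4) (nat_lit 318) (nat_lit 296) (nat_lit 286)) (XT.nd (nat_lit 78) (nat_lit 0) (nat_lit 0) (XT.lf (nat_lit 0) (nat_lit 19715791) (nat_lit 76) (nat_lit 11379247245) (nat_lit 76) (nat_lit 7324485229) (nat_lit 10) (nat_lit 4) (nat_lit 11) (nat_lit 5) (nat_lit 11) (nat_lit 4) (nat_lit 319) (nat_lit 296) (nat_lit 285)) (XT.lf (nat_lit 0) (nat_lit 11425229964) (nat_lit 76) (nat_lit 6716099464) (nat_lit 76) (nat_lit 2516533142) (nat_lit 10) (nat_lit 4) (nat_lit 11) (nat_lit 5) (nat_lit 11) (nat_lit 4) (nat_lit 320) (nat_lit 296) (nat_lit 284)))))) (XT.nd (nat_lit 390) (nat_lit 228) (nat_lit 0) (XT.nd (nat_lit 156) (nat_lit 76) (nat_lit 0) (XT.nd (nat_lit 78) (nat_lit 0) (nat_lit 0) (XT.lf (nat_lit 0) (nat_lit 1191808835) (nat_lit 76) (nat_lit 1374373464) (nat_lit 152) (nat_lit 20324376723) (nat_lit 8) (nat_lit 5) (nat_lit 9) (nat_lit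 5) (nat_lit 10) (nat_lit 4) (nat_lit 321) (nat_lit 296) (nat_lit 283)) (XT.lf (nat_lit 0) (nat_lit 8632282058) (nat_lit 152) (nat_lit 11960413329) (nat_lit 0) (nat_lit 4775781215) (nat_lit 8) (nat_lit 5) (nat_lit 10) (nat_lit 4) (nat_lit 8) (nat_lit 4) (nat_lit 322) (nat_lit 296) (nat_lit 282))) (XT.nd (nat_lit 78) (nat_lit 76) (nat_lit 0) (XT.lf (nat_lit 0) (nat_lit 15478584422) (nat_lit 152) (nat_lit 1219737094) (nat_lit 0) (nat_lit 11539291247) (nat_lit 8) (nat_lit 5) (nat_lit 10) (nat_lit 4) (nat_lit 8) (nat_lit 4) (nat_lit 323) (nat_lit 296) (nat_lit 281)) (XT.nd (nat_lit 78) (nat_lit 0) (nat_lit 0) (XT.lf (nat_lit 0) (nat_lit 11844841780) (nat_lit 76) (nat_lit 11827756772) (nat_lit 76) (nat_lit 7816470265) (nat_lit 7) (nat_lit 4) (nat_lit 8) (nat_lit 5) (nat_lit 8) (nat_lit 4) (nat_lit 324) (nat_lit 296) (nat_lit 280)) (XT.lf (nat_lit 0) (nat_lit 26680012990) (nat_lit 76) (nat_lit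 6318386506) (nat_lit 76) (nat_lit 2244497101) (nat_lit 7) (nat_lit 4) (nat_lit 8) (nat_lit 5) (nat_lit 8) (nat_lit 4) (nat_lit 325) (nat_lit 296) (nat_lit 279))))) (XT.nd (nat_lit 234) (nat_lit 76) (nat_lit 0) (XT.nd (nat_lit 78) (nat_lit 0) (nat_lit 0) (XT.lf (nat_lit 0) (nat_lit 3825195363) (nat_lit 152) (nat_lit 35468555671) (nat_lit 0) (nat_lit 235346052) (nat_lit 5) (nat_lit 5) (nat_lit 7) (nat_lit 4) (nat_lit 5) (nat_lit 4) (nat_lit 326) (nat_lit 296) (nat_lit 278)) (XT.nd (nat_lit 78) (nat_lit 0) (nat_lit 0) (XT.lf (nat_lit 0) (nat_lit 11199923684) (nat_lit 152) (nat_lit 25579740366) (nat_lit 0) (nat_lit 7568911952) (nat_lit 5) (nat_lit 5) (nat_lit 7) (nat_lit 4) (nat_lit 5) (nat_lit 4) (nat_lit 327) (nat_lit 296) (nat_lit 277)) (XT.lf (nat_lit 0) (nat_lit 19554409403) (nat_lit 152) (nat_lit 14467962900) (nat_lit 0) (nat_lit 15887604261) (nat_lit 5) (nat_lit 5) (nat_lit 7) (nat_lit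 4) (nat_lit 5) (nat_lit 4) (nat_lit 328) (nat_lit 296) (nat_lit 276)))) (XT.nd (nat_lit 78) (nat_lit 76) (nat_lit 0) (XT.lf (nat_lit 0) (nat_lit 29052109849) (nat_lit 152) (nat_lit 1915818932) (nat_lit 0) (nat_lit 25354180003) (nat_lit 5) (nat_lit 5) (nat_lit 7) (nat_lit 4) (nat_lit 5) (nat_lit 4) (nat_lit 329) (nat_lit 296) (nat_lit 275)) (XT.nd (nat_lit 78) (nat_lit 0) (nat_lit 0) (XT.lf (nat_lit 0) (nat_lit 13526499485) (nat_lit 76) (nat_lit 26912453610) (nat_lit 76) (nat_lit 23187458804) (nat_lit 4) (nat_lit 4) (nat_lit 5) (nat_lit 5) (nat_lit 5) (nat_lit 4) (nat_lit 330) (nat_lit 296) (nat_lit 274)) (XT.lf (nat_lit 0) (nat_lit 31312556542) (nat_lit 76) (nat_lit 22230485812) (nat_lit 76) (nat_lit 18481956258) (nat_lit 4) (nat_lit 4) (nat_lit 5) (nat_lit 5) (nat_lit 5) (nat_lit 4) (nat_lit 331) (nat_lit 296) (nat_lit 273))))))))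
noncomputable def xc40 : XT := (XT.nd (nat_lit 1638) (nat_lit 0) (nat_lit 0) (XT.nd (nat_lit 780) (nat_lit 76) (nat_lit 0) (XT.nd (nat_lit 390) (nat_lit 0) (nat_lit 0) (XT.nd (nat_lit 156) (nat_lit 152) (nat_lit 0) (XT.nd (nat_lit 78) (nat_lit 0) (nat_lit 0) (XT.lf (nat_lit 0) (nat_lit 51603112553) (nat_lit 76) (nat_lit 16930566751) (nat_lit 76) (nat_lit 13161572199) (nat_lit 4) (nat_lit 4) (nat_lit 5) (nat_lit 5) (nat_lit 5) (nat_lit 4) (nat_lit 332) (nat_lit 296) (nat_lit 272)) (XT.lf (nat_lit 0) (nat_lit 74795156657) (nat_lit 76) (nat_lit 10909002358) (nat_lit 76) (nat_lit 7122212155) (nat_lit 4) (nat_lit 4) (nat_lit 5) (nat_lit 5) (nat_lit 5) (nat_lit 4) (nat_lit 333) (nat_lit 296) (nat_lit 271))) (XT.nd (nat_lit 78) (nat_lit 152) (nat_lit 0) (XT.lf (nat_lit 0) (nat_lit 101342446238) (nat_lit 76) (nat_lit 4047979416) (nat_lit 76) (nat_lit 245714735) (nat_lit 4) (nat_lit 4) (nat_lit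 5) (nat_lit 5) (nat_lit 5) (nat_lit 4) (nat_lit 334) (nat_lit 296) (nat_lit 270)) (XT.nd (nat_lit 78) (nat_lit 0) (nat_lit 0) (XT.lf (nat_lit 0) (nat_lit 7624780297) (nat_lit 152) (nat_lit 108291550734) (nat_lit 0) (nat_lit 4306762253) (nat_lit 2) (nat_lit 5) (nat_lit 4) (nat_lit 4) (nat_lit 2) (nat_lit 4) (nat_lit 335) (nat_lit 296) (nat_lit 269)) (XT.lf (nat_lit 0) (nat_lit 17024447297) (nat_lit 152) (nat_lit 106219578150) (nat_lit 0) (nat_lit 13696254532) (nat_lit 2) (nat_lit 5) (nat_lit 4) (nat_lit 4) (nat_lit 2) (nat_lit 4) (nat_lit 336) (nat_lit 296) (nat_lit 268))))) (XT.nd (nat_lit 156) (nat_lit 0) (nat_lit 0) (XT.nd (nat_lit 78) (nat_lit 0) (nat_lit 0) (XT.lf (nat_lit 0) (nat_lit 27786988196) (nat_lit 152) (nat_lit 103935177975) (nat_lit 0) (nat_lit 24449947847) (nat_lit 2) (nat_lit 5) (nat_lit 4) (nat_lit 4) (nat_lit 2) (nat_lit 4) (nat_lit 337) (nat_lit 296) (nat_lit 267))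 (XT.lf (nat_lit 0) (nat_lit 40122974446) (nat_lit 152) (nat_lit 101393655423) (nat_lit 0) (nat_lit 36778240547) (nat_lit 2) (nat_lit 5) (nat_lit 4) (nat_lit 4) (nat_lit 2) (nat_lit 4) (nat_lit 338) (nat_lit 296) (nat_lit 266))) (XT.nd (nat_lit 78) (nat_lit 0) (nat_lit 0) (XT.lf (nat_lit 0) (nat_lit 54273762301) (nat_lit 152) (nat_lit 98545285052) (nat_lit 0) (nat_lit 50922338358) (nat_lit 2) (nat_lit 5) (nat_lit 4) (nat_lit 4) (nat_lit 2) (nat_lit 4) (nat_lit 339) (nat_lit 296) (nat_lit 265)) (XT.nd (nat_lit 78) (nat_lit 0) (nat_lit 0) (XT.lf (nat_lit 0) (nat_lit 70516215001) (nat_lit 152) (nat_lit 95334337878) (nat_lit 0) (nat_lit 67158973628) (nat_lit 2) (nat_lit 5) (nat_lit 4) (nat_lit 4) (nat_lit 2) (nat_lit 4) (nat_lit 340) (nat_lit 296) (nat_lit 264)) (XT.lf (nat_lit 0) (nat_lit 89168119664) (nat_lit 152) (nat_lit 91697991020) (nat_lit 0) (nat_lit 85805819656) (nat_lit 2) (nat_lit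 5) (nat_lit 4) (nat_lit 4) (nat_lit 2) (nat_lit 4) (nat_lit 341) (nat_lit 296) (nat_lit 263)))))) (XT.nd (nat_lit 390) (nat_lit 76) (nat_lit 0) (XT.nd (nat_lit 156) (nat_lit 0) (nat_lit 0) (XT.nd (nat_lit 78) (nat_lit 0) (nat_lit 0) (XT.lf (nat_lit 0) (nat_lit 110594404859) (nat_lit 152) (nat_lit 87565098561) (nat_lit 0) (nat_lit 107227706038) (nat_lit 2) (nat_lit 5) (nat_lit 4) (nat_lit 4) (nat_lit 2) (nat_lit 4) (nat_lit 342) (nat_lit 296) (nat_lit 262)) (XT.lf (nat_lit 0) (nat_lit 135214280514) (nat_lit 152) (nat_lit 82854799563) (nat_lit 0) (nat_lit 131843756639) (nat_lit 2) (nat_lit 5) (nat_lit 4) (nat_lit 4) (nat_lit 2) (nat_lit 4) (nat_lit 343) (nat_lit 296) (nat_lit 261))) (XT.nd (nat_lit 78) (nat_lit 0) (nat_lit 0) (XT.lf (nat_lit 0) (nat_lit 163509439849) (nat_lit 152) (nat_lit 77474936002) (nat_lit 0) (nat_lit 160135589840) (nat_lit 2) (nat_lit 5) (nat_lit 4) (nat_lit 4) (nat_lit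 2) (nat_lit 4) (nat_lit 344) (nat_lit 296) (nat_lit 260)) (XT.nd (nat_lit 78) (nat_lit 0) (nat_lit 0) (XT.lf (nat_lit 0) (nat_lit 196033483807) (nat_lit 152) (nat_lit 71320249677) (nat_lit 0) (nat_lit 192656741507) (nat_lit 2) (nat_lit 5) (nat_lit 4) (nat_lit 4) (nat_lit 2) (nat_lit 4) (nat_lit 345) (nat_lit 296) (nat_lit 259)) (XT.lf (nat_lit 0) (nat_lit 233422752378) (nat_lit 152) (nat_lit 64270322812) (nat_lit 0) (nat_lit 230043495043) (nat_lit 2) (nat_lit 5) (nat_lit 4) (nat_lit 4) (nat_lit 2) (nat_lit 4) (nat_lit 346) (nat_lit 296) (nat_lit 258))))) (XT.nd (nat_lit 234) (nat_lit 76) (nat_lit 0) (XT.nd (nat_lit 78) (nat_lit 0) (nat_lit 0) (XT.lf (nat_lit 0) (nat_lit 276408774731) (nat_lit 152) (nat_lit 56187222056) (nat_lit 0) (nat_lit 273027330408) (nat_lit 2) (nat_lit 5) (nat_lit 4) (nat_lit 4) (nat_lit 2) (nat_lit 4) (nat_lit 347) (nat_lit 296) (nat_lit 257)) (XT.nd (nat_lit 78)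 (nat_lit 0) (nat_lit 0) (XT.lf (nat_lit 0) (nat_lit 325832581736) (nat_lit 152) (nat_lit 46912799786) (nat_lit 0) (nat_lit 322449235686) (nat_lit 2) (nat_lit 5) (nat_lit 4) (nat_lit 4) (nat_lit 2) (nat_lit 4) (nat_lit 348) (nat_lit 296) (nat_lit 256)) (XT.lf (nat_lit 0) (nat_lit 382661160924) (nat_lit 152) (nat_lit 36265599912) (nat_lit 0) (nat_lit 379276161196) (nat_lit 2) (nat_lit 5) (nat_lit 4) (nat_lit 4) (nat_lit 2) (nat_lit 4) (nat_lit 349) (nat_lit 296) (nat_lit 255)))) (XT.nd (nat_lit 78) (nat_lit 76) (nat_lit 0) (XT.lf (nat_lit 0) (nat_lit 448006375799) (nat_lit 152) (nat_lit 24037307656) (nat_lit 0) (nat_lit 444619938092) (nat_lit 2) (nat_lit 5) (nat_lit 4) (nat_lit 4) (nat_lit 2) (nat_lit 4) (nat_lit 350) (nat_lit 296) (nat_lit 254)) (XT.nd (nat_lit 78) (nat_lit 76) (nat_lit 0) (XT.lf (nat_lit 0) (nat_lit 523146719696) (nat_lit 152) (nat_lit 9988673821) (nat_lit 0) (nat_lit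 519759031572) (nat_lit 2) (nat_lit 5) (nat_lit 4) (nat_lit 4) (nat_lit 2) (nat_lit 4) (nat_lit 351) (nat_lit 296) (nat_lit 253)) (XT.lf (nat_lit 0) (nat_lit 6756693770) (nat_lit 76) (nat_lit 603075416288) (nat_lit 76) (nat_lit 599686640845) (nat_lit 1) (nat_lit 4) (nat_lit 2) (nat_lit 5) (nat_lit 2) (nat_lit 4) (nat_lit 352) (nat_lit 296) (nat_lit 252))))))) (XT.nd (nat_lit 858) (nat_lit 0) (nat_lit 0) (XT.nd (nat_lit 390) (nat_lit 0) (nat_lit 0) (XT.nd (nat_lit 156) (nat_lit 0) (nat_lit 0) (XT.nd (nat_lit 78) (nat_lit 0) (nat_lit 0) (XT.lf (nat_lit 0) (nat_lit 27124917804) (nat_lit 76) (nat_lit 682912017789) (nat_lit 76) (nat_lit 679522296850) (nat_lit 1) (nat_lit 4) (nat_lit 2) (nat_lit 5) (nat_lit 2) (nat_lit 4) (nat_lit 353) (nat_lit 296) (nat_lit 251)) (XT.lf (nat_lit 0) (nat_lit 50538341161) (nat_lit 76) (nat_lit 774729353705) (nat_lit 76) (nat_lit 771338810597) (nat_lit 1) (nat_lit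 4) (nat_lit 2) (nat_lit 5) (nat_lit 2) (nat_lit 4) (nat_lit 354) (nat_lit 296) (nat_lit 250))) (XT.nd (nat_lit 78) (nat_lit 0) (nat_lit 0) (XT.lf (nat_lit 0) (nat_lit 77455052559) (nat_lit 76) (nat_lit 880323850175) (nat_lit 76) (nat_lit 876932592137) (nat_lit 1) (nat_lit 4) (nat_lit 2) (nat_lit 5) (nat_lit 2) (nat_lit 4) (nat_lit 355) (nat_lit 296) (nat_lit 249)) (XT.nd (nat_lit 78) (nat_lit 0) (nat_lit 0) (XT.lf (nat_lit 0) (nat_lit 108401683308) (nat_lit 76) (nat_lit 1001761486477) (nat_lit 76) (nat_lit 998369606761) (nat_lit 1) (nat_lit 4) (nat_lit 2) (nat_lit 5) (nat_lit 2) (nat_lit 4) (nat_lit 356) (nat_lit 296) (nat_lit 248)) (XT.lf (nat_lit 0) (nat_lit 143983710965) (nat_lit 76) (nat_lit 1141418216365) (nat_lit 76) (nat_lit 1138025796059) (nat_lit 1) (nat_lit 4) (nat_lit 2) (nat_lit 5) (nat_lit 2) (nat_lit 4) (nat_lit 357) (nat_lit 296) (nat_lit 247))))) (XT.nd (nat_lit 234) (nat_lit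 0) (nat_lit 0) (XT.nd (nat_lit 78) (nat_lit 0) (nat_lit 0) (XT.lf (nat_lit 0) (nat_lit 184897305637) (nat_lit 76) (nat_lit 1302026454120) (nat_lit 76) (nat_lit 1298633563736) (nat_lit 1) (nat_lit 4) (nat_lit 2) (nat_lit 5) (nat_lit 2) (nat_lit 4) (nat_lit 358) (nat_lit 296) (nat_lit 246)) (XT.nd (nat_lit 78) (nat_lit 0) (nat_lit 0) (XT.lf (nat_lit 0) (nat_lit 231942950699) (nat_lit 76) (nat_lit 1486728534828) (nat_lit 76) (nat_lit 1483335235680) (nat_lit 1) (nat_lit 4) (nat_lit 2) (nat_lit 5) (nat_lit 2) (nat_lit 4) (nat_lit 359) (nat_lit 296) (nat_lit 245)) (XT.lf (nat_lit 0) (nat_lit 286041104422) (nat_lit 76) (nat_lit 1699138194850) (nat_lit 76) (nat_lit 1695744540256) (nat_lit 1) (nat_lit 4) (nat_lit 2) (nat_lit 5) (nat_lit 2) (nat_lit 4) (nat_lit 360) (nat_lit 296) (nat_lit 244)))) (XT.nd (nat_lit 78) (nat_lit 0) (nat_lit 0) (XT.lf (nat_lit 0) (nat_lit 348250208946) (nat_lit 76)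 (nat_lit 1943411275362) (nat_lit 76) (nat_lit 1940017311684) (nat_lit 1) (nat_lit 4) (nat_lit 2) (nat_lit 5) (nat_lit 2) (nat_lit 4) (nat_lit 361) (nat_lit 296) (nat_lit 243)) (XT.nd (nat_lit 78) (nat_lit 0) (nat_lit 0) (XT.lf (nat_lit 0) (nat_lit 419787398923) (nat_lit 76) (nat_lit 2224327032286) (nat_lit 76) (nat_lit 2220932799839) (nat_lit 1) (nat_lit 4) (nat_lit 2) (nat_lit 5) (nat_lit 2) (nat_lit 4) (nat_lit 362) (nat_lit 296) (nat_lit 242)) (XT.lf (nat_lit 0) (nat_lit 502052315028) (nat_lit 76) (nat_lit 2547381643474) (nat_lit 76) (nat_lit 2543987177315) (nat_lit 1) (nat_lit 4) (nat_lit 2) (nat_lit 5) (nat_lit 2) (nat_lit 4) (nat_lit 363) (nat_lit 296) (nat_lit 241)))))) (XT.nd (nat_lit 390) (nat_lit 0) (nat_lit 0) (XT.nd (nat_lit 156) (nat_lit 0) (nat_lit 0) (XT.nd (nat_lit 78) (nat_lit 0) (nat_lit 0) (XT.lf (nat_lit 0) (nat_lit 596654488227) (nat_lit 76) (nat_lit 2918895742625)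 (nat_lit 76) (nat_lit 2915501073238) (nat_lit 1) (nat_lit 4) (nat_lit 2) (nat_lit 5) (nat_lit 2) (nat_lit 4) (nat_lit 364) (nat_lit 296) (nat_lit 240)) (XT.lf (nat_lit 0) (nat_lit 705444830605) (nat_lit 76) (nat_lit 3346138083852) (nat_lit 76) (nat_lit 3342743237745) (nat_lit 1) (nat_lit 4) (nat_lit 2) (nat_lit 5) (nat_lit 2) (nat_lit 4) (nat_lit 365) (nat_lit 296) (nat_lit 239))) (XT.nd (nat_lit 78) (nat_lit 0) (nat_lit 0) (XT.lf (nat_lit 0) (nat_lit 830551848861) (nat_lit 76) (nat_lit 3837467756439) (nat_lit 76) (nat_lit 3834072756664) (nat_lit 1) (nat_lit 4) (nat_lit 2) (nat_lit 5) (nat_lit 2) (nat_lit 4) (nat_lit 366) (nat_lit 296) (nat_lit 238)) (XT.nd (nat_lit 78) (nat_lit 0) (nat_lit 0) (XT.lf (nat_lit 0) (nat_lit 974423289003) (nat_lit 76) (nat_lit 4402497732243) (nat_lit 76) (nat_lit 4399102598841) (nat_lit 1) (nat_lit 4) (nat_lit 2) (nat_lit 5) (nat_lit 2) (nat_lit 4) (nat_lit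 367) (nat_lit 296) (nat_lit 237)) (XT.lf (nat_lit 0) (nat_lit 1139874027036) (nat_lit 76) (nat_lit 5052282945571) (nat_lit 76) (nat_lit 5048887695974) (nat_lit 1) (nat_lit 4) (nat_lit 2) (nat_lit 5) (nat_lit 2) (nat_lit 4) (nat_lit 368) (nat_lit 296) (nat_lit 236))))) (XT.nd (nat_lit 234) (nat_lit 0) (nat_lit 0) (XT.nd (nat_lit 78) (nat_lit 0) (nat_lit 0) (XT.lf (nat_lit 0) (nat_lit 1330141142615) (nat_lit 76) (nat_lit 5799536585381) (nat_lit 76) (nat_lit 5796141234743) (nat_lit 1) (nat_lit 4) (nat_lit 2) (nat_lit 5) (nat_lit 2) (nat_lit 4) (nat_lit 369) (nat_lit 296) (nat_lit 235)) (XT.nd (nat_lit 78) (nat_lit 0) (nat_lit 0) (XT.lf (nat_lit 0) (nat_lit 1548947253220) (nat_lit 76) (nat_lit 6658878831581) (nat_lit 76) (nat_lit 6655483393083) (nat_lit 1) (nat_lit 4) (nat_lit 2) (nat_lit 5) (nat_lit 2) (nat_lit 4) (nat_lit 370) (nat_lit 296) (nat_lit 234)) (XT.lf (nat_lit 0) (nat_lit 1800573347970)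 (nat_lit 76) (nat_lit 7647122902033) (nat_lit 76) (nat_lit 7643727387133) (nat_lit 1) (nat_lit 4) (nat_lit 2) (nat_lit 5) (nat_lit 2) (nat_lit 4) (nat_lit 371) (nat_lit 296) (nat_lit 233)))) (XT.nd (nat_lit 78) (nat_lit 0) (nat_lit 0) (XT.lf (nat_lit 0) (nat_lit 2089942546113) (nat_lit 76) (nat_lit 8783604006810) (nat_lit 76) (nat_lit 8780208425475) (nat_lit 1) (nat_lit 4) (nat_lit 2) (nat_lit 5) (nat_lit 2) (nat_lit 4) (nat_lit 372) (nat_lit 296) (nat_lit 232)) (XT.nd (nat_lit 78) (nat_lit 0) (nat_lit 0) (XT.lf (nat_lit 0) (nat_lit 2422716418914) (nat_lit 76) (nat_lit 10090557645788) (nat_lit 76) (nat_lit 10087162006683) (nat_lit 1) (nat_lit 4) (nat_lit 2) (nat_lit 5) (nat_lit 2) (nat_lit 4) (nat_lit 373) (nat_lit 296) (nat_lit 231)) (XT.lf (nat_lit 0) (nat_lit 2805405759538) (nat_lit 76) (nat_lit 11593554651034) (nat_lit 76) (nat_lit 11590158961695) (nat_lit 1) (nat_lit 4) (nat_lit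 2) (nat_lit 5) (nat_lit 2) (nat_lit 4) (nat_lit 374) (nat_lit 296) (nat_lit 230))))))))
noncomputable def xc41 : XT := (XT.nd (nat_lit 42042) (nat_lit 0) (nat_lit 228) (XT.nd (nat_lit 858) (nat_lit 0) (nat_lit 0) (XT.nd (nat_lit 390) (nat_lit 0) (nat_lit 0) (XT.nd (nat_lit 156) (nat_lit 0) (nat_lit 0) (XT.nd (nat_lit 78) (nat_lit 0) (nat_lit 0) (XT.lf (nat_lit 0) (nat_lit 3245497968128) (nat_lit 76) (nat_lit 13322001485695) (nat_lit 76) (nat_lit 13318605752673) (nat_lit 1) (nat_lit 4) (nat_lit 2) (nat_lit 5) (nat_lit 2) (nat_lit 4) (nat_lit 375) (nat_lit 296) (nat_lit 229)) (XT.lf (nat_lit 0) (nat_lit 3751603544416) (nat_lit 76) (nat_lit 15309715587840) (nat_lit 76) (nat_lit 15306319816833) (nat_lit 1) (nat_lit 4) (nat_lit 2) (nat_lit 5) (nat_lit 2) (nat_lit 4) (nat_lit 376) (nat_lit 296) (nat_lit 228))) (XT.nd (nat_lit 78) (nat_lit 0) (nat_lit 0) (XT.lf (nat_lit 0) (nat_lit 4333624554026)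 (nat_lit 76) (nat_lit 17595587015989) (nat_lit 76) (nat_lit 17592191211951) (nat_lit 1) (nat_lit 4) (nat_lit 2) (nat_lit 5) (nat_lit 2) (nat_lit 4) (nat_lit 377) (nat_lit 296) (nat_lit 227)) (XT.nd (nat_lit 78) (nat_lit 0) (nat_lit 0) (XT.lf (nat_lit 0) (nat_lit 5002948364538) (nat_lit 76) (nat_lit 20224339341562) (nat_lit 76) (nat_lit 20220943508803) (nat_lit 1) (nat_lit 4) (nat_lit 2) (nat_lit 5) (nat_lit 2) (nat_lit 4) (nat_lit 378) (nat_lit 296) (nat_lit 226)) (XT.lf (nat_lit 0) (nat_lit 5772670441808) (nat_lit 76) (nat_lit 23247404675277) (nat_lit 76) (nat_lit 23244008817542) (nat_lit 1) (nat_lit 4) (nat_lit 2) (nat_lit 5) (nat_lit 2) (nat_lit 4) (nat_lit 379) (nat_lit 296) (nat_lit 225))))) (XT.nd (nat_lit 234) (nat_lit 0) (nat_lit 0) (XT.nd (nat_lit 78) (nat_lit 0) (nat_lit 0) (XT.lf (nat_lit 0) (nat_lit 6657850565609) (nat_lit 76) (nat_lit 26723929947576) (nat_lit 76) (nat_lit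 26720534068124) (nat_lit 1) (nat_lit 4) (nat_lit 2) (nat_lit 5) (nat_lit 2) (nat_lit 4) (nat_lit 380) (nat_lit 296) (nat_lit 224)) (XT.nd (nat_lit 78) (nat_lit 0) (nat_lit 0) (XT.lf (nat_lit 0) (nat_lit 7675807477495) (nat_lit 76) (nat_lit 30721934131179) (nat_lit 76) (nat_lit 30718538232842) (nat_lit 1) (nat_lit 4) (nat_lit 2) (nat_lit 5) (nat_lit 2) (nat_lit 4) (nat_lit 381) (nat_lit 296) (nat_lit 223)) (XT.lf (nat_lit 0) (nat_lit 8846457725741) (nat_lit 76) (nat_lit 35319639047069) (nat_lit 76) (nat_lit 35316243132309) (nat_lit 1) (nat_lit 4) (nat_lit 2) (nat_lit 5) (nat_lit 2) (nat_lit 4) (nat_lit 382) (nat_lit 296) (nat_lit 222)))) (XT.nd (nat_lit 78) (nat_lit 0) (nat_lit 0) (XT.lf (nat_lit 0) (nat_lit 10192705336943) (nat_lit 76) (nat_lit 40606999791425) (nat_lit 76) (nat_lit 40603603862386) (nat_lit 1) (nat_lit 4) (nat_lit 2) (nat_lit 5) (nat_lit 2) (nat_lit 4) (nat_lit 383) (nat_lit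 296) (nat_lit 221)) (XT.nd (nat_lit 78) (nat_lit 0) (nat_lit 0) (XT.lf (nat_lit 0) (nat_lit 11740889938277) (nat_lit 76) (nat_lit 46687464726639) (nat_lit 76) (nat_lit 46684068785183) (nat_lit 1) (nat_lit 4) (nat_lit 2) (nat_lit 5) (nat_lit 2) (nat_lit 4) (nat_lit 384) (nat_lit 296) (nat_lit 220)) (XT.lf (nat_lit 0) (nat_lit 13521302098031) (nat_lit 76) (nat_lit 53679999471007) (nat_lit 76) (nat_lit 53676603518753) (nat_lit 1) (nat_lit 4) (nat_lit 2) (nat_lit 5) (nat_lit 2) (nat_lit 4) (nat_lit 385) (nat_lit 296) (nat_lit 219)))))) (XT.nd (nat_lit 40716) (nat_lit 0) (nat_lit 1216) (XT.nd (nat_lit 234) (nat_lit 0) (nat_lit 0) (XT.nd (nat_lit 156) (nat_lit 0) (nat_lit 0) (XT.lf (nat_lit 0) (nat_lit 15568775967155) (nat_lit 76) (nat_lit 61721414486920) (nat_lit 76) (nat_lit 61718018525276) (nat_lit 1) (nat_lit 4) (nat_lit 2) (nat_lit 5) (nat_lit 2) (nat_lit 4) (nat_lit 386) (nat_lit 296)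 (nat_lit 218)) (XT.lf (nat_lit 0) (nat_lit 20631154807678) (nat_lit 76) (nat_lit 81603813271014) (nat_lit 76) (nat_lit 81600417294107) (nat_lit 1) (nat_lit 4) (nat_lit 2) (nat_lit 5) (nat_lit 2) (nat_lit 4) (nat_lit 388) (nat_lit 296) (nat_lit 216))) (XT.nd (nat_lit 78) (nat_lit 0) (nat_lit 0) (XT.lf (nat_lit 0) (nat_lit 23745106321609) (nat_lit 76) (nat_lit 93833800493668) (nat_lit 76) (nat_lit 93830404510587) (nat_lit 1) (nat_lit 4) (nat_lit 2) (nat_lit 5) (nat_lit 2) (nat_lit 4) (nat_lit 389) (nat_lit 296) (nat_lit 215)) (XT.nd (nat_lit 40326) (nat_lit 0) (nat_lit 2204) (XT.lf (nat_lit 0) (nat_lit 27326150497111) (nat_lit 76) (nat_lit 107898285833961) (nat_lit 76) (nat_lit 107894889845512) (nat_lit 1) (nat_lit 4) (nat_lit 2) (nat_lit 5) (nat_lit 2) (nat_lit 4) (nat_lit 390) (nat_lit 296) (nat_lit 214)) (XT.lf (nat_lit 0) (nat_lit 2779677162) (nat_lit 228) (nat_lit 438555360) (nat_lit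 228) (nat_lit 438555360) (nat_lit 30) (nat_lit 4) (nat_lit 33) (nat_lit 5) (nat_lit 33) (nat_lit 4) (nat_lit 306) (nat_lit 297) (nat_lit 297))))) (XT.nd (nat_lit 234) (nat_lit 304) (nat_lit 0) (XT.nd (nat_lit 78) (nat_lit 304) (nat_lit 0) (XT.lf (nat_lit 0) (nat_lit 2620244176) (nat_lit 380) (nat_lit 3754394451) (nat_lit 0) (nat_lit 1265220378) (nat_lit 25) (nat_lit 5) (nat_lit 30) (nat_lit 4) (nat_lit 25) (nat_lit 4) (nat_lit 307) (nat_lit 297) (nat_lit 296)) (XT.nd (nat_lit 78) (nat_lit 152) (nat_lit 0) (XT.lf (nat_lit 0) (nat_lit 2087271722) (nat_lit 152) (nat_lit 4244501128) (nat_lit 152) (nat_lit 1711195766) (nat_lit 23) (nat_lit 4) (nat_lit 25) (nat_lit 5) (nat_lit 25) (nat_lit 4) (nat_lit 308) (nat_lit 297) (nat_lit 295)) (XT.lf (nat_lit 0) (nat_lit 65695465) (nat_lit 76) (nat_lit 1619696856) (nat_lit 152) (nat_lit 6842204236) (nat_lit 21) (nat_lit 5) (nat_lit 22) (nat_lit 5) (nat_lit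 23) (nat_lit 4) (nat_lit 309) (nat_lit 297) (nat_lit 294)))) (XT.nd (nat_lit 78) (nat_lit 304) (nat_lit 0) (XT.lf (nat_lit 0) (nat_lit 5395887473) (nat_lit 152) (nat_lit 2153235956) (nat_lit 0) (nat_lit 1527323849) (nat_lit 21) (nat_lit 5) (nat_lit 23) (nat_lit 4) (nat_lit 21) (nat_lit 4) (nat_lit 310) (nat_lit 297) (nat_lit 293)) (XT.nd (nat_lit 78) (nat_lit 152) (nat_lit 0) (XT.lf (nat_lit 0) (nat_lit 4923423509) (nat_lit 152) (nat_lit 4668830201) (nat_lit 152) (nat_lit 126580268) (nat_lit 19) (nat_lit 4) (nat_lit 21) (nat_lit 5) (nat_lit 21) (nat_lit 4) (nat_lit 311) (nat_lit 297) (nat_lit 292)) (XT.lf (nat_lit 0) (nat_lit 2354138899) (nat_lit 76) (nat_lit 1125955525) (nat_lit 152) (nat_lit 6972512426) (nat_lit 17) (nat_lit 5) (nat_lit 18) (nat_lit 5) (nat_lit 19) (nat_lit 4) (nat_lit 312) (nat_lit 297) (nat_lit 291))))))) (XT.nd (nat_lit 858) (nat_lit 304) (nat_lit 0) (XT.nd (nat_lit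 390) (nat_lit 380) (nat_lit 0) (XT.nd (nat_lit 156) (nat_lit 152) (nat_lit 0) (XT.nd (nat_lit 78) (nat_lit 152) (nat_lit 0) (XT.lf (nat_lit 0) (nat_lit 7670921014) (nat_lit 152) (nat_lit 847825246) (nat_lit 0) (nat_lit 2768775144) (nat_lit 17) (nat_lit 5) (nat_lit 19) (nat_lit 4) (nat_lit 17) (nat_lit 4) (nat_lit 313) (nat_lit 297) (nat_lit 290)) (XT.lf (nat_lit 0) (nat_lit 308399317) (nat_lit 152) (nat_lit 4624269669) (nat_lit 76) (nat_lit 7300700320) (nat_lit 15) (nat_lit 5) (nat_lit 17) (nat_lit 5) (nat_lit 16) (nat_lit 4) (nat_lit 314) (nat_lit 297) (nat_lit 289))) (XT.nd (nat_lit 78) (nat_lit 76) (nat_lit 0) (XT.lf (nat_lit 0) (nat_lit 3781920783) (nat_lit 76) (nat_lit 592121144) (nat_lit 152) (nat_lit 8933155662) (nat_lit 14) (nat_lit 5) (nat_lit 15) (nat_lit 5) (nat_lit 16) (nat_lit 4) (nat_lit 315) (nat_lit 297) (nat_lit 288)) (XT.nd (nat_lit 78) (nat_lit 76) (nat_lit 0) (XT.lf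 (nat_lit 0) (nat_lit 9212435385) (nat_lit 152) (nat_lit 1235213841) (nat_lit 0) (nat_lit 4070241869) (nat_lit 14) (nat_lit 5) (nat_lit 16) (nat_lit 4) (nat_lit 14) (nat_lit 4) (nat_lit 316) (nat_lit 297) (nat_lit 287)) (XT.lf (nat_lit 0) (nat_lit 8596879505) (nat_lit 76) (nat_lit 6326923361) (nat_lit 76) (nat_lit 964500595) (nat_lit 13) (nat_lit 4) (nat_lit 14) (nat_lit 5) (nat_lit 14) (nat_lit 4) (nat_lit 317) (nat_lit 297) (nat_lit 286))))) (XT.nd (nat_lit 234) (nat_lit 152) (nat_lit 0) (XT.nd (nat_lit 78) (nat_lit 76) (nat_lit 0) (XT.lf (nat_lit 0) (nat_lit 2169584525) (nat_lit 76) (nat_lit 1422746165) (nat_lit 152) (nat_lit 13858585257) (nat_lit 11) (nat_lit 5) (nat_lit 12) (nat_lit 5) (nat_lit 13) (nat_lit 4) (nat_lit 318) (nat_lit 297) (nat_lit 285)) (XT.nd (nat_lit 78) (nat_lit 76) (nat_lit 0) (XT.lf (nat_lit 0) (nat_lit 9078449916) (nat_lit 152) (nat_lit 6006889886) (nat_lit 0)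 (nat_lit 4104144340) (nat_lit 11) (nat_lit 5) (nat_lit 13) (nat_lit 4) (nat_lit 11) (nat_lit 4) (nat_lit 319) (nat_lit 297) (nat_lit 284)) (XT.lf (nat_lit 0) (nat_lit 4613288597) (nat_lit 76) (nat_lit 10833494783) (nat_lit 76) (nat_lit 5733272418) (nat_lit 10) (nat_lit 4) (nat_lit 11) (nat_lit 5) (nat_lit 11) (nat_lit 4) (nat_lit 320) (nat_lit 297) (nat_lit 283)))) (XT.nd (nat_lit 78) (nat_lit 152) (nat_lit 0) (XT.lf (nat_lit 0) (nat_lit 17130853969) (nat_lit 76) (nat_lit 5764697385) (nat_lit 76) (nat_lit 554982161) (nat_lit 10) (nat_lit 4) (nat_lit 11) (nat_lit 5) (nat_lit 11) (nat_lit 4) (nat_lit 321) (nat_lit 297) (nat_lit 282)) (XT.nd (nat_lit 78) (nat_lit 0) (nat_lit 0) (XT.lf (nat_lit 0) (nat_lit 4987023379) (nat_lit 152) (nat_lit 20656890760) (nat_lit 0) (nat_lit 374043896) (nat_lit 8) (nat_lit 5) (nat_lit 10) (nat_lit 4) (nat_lit 8) (nat_lit 4) (nat_lit 322) (nat_lit 297) (nat_lit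 281)) (XT.lf (nat_lit 0) (nat_lit 11754394010) (nat_lit 152) (nat_lit 10075148720) (nat_lit 0) (nat_lit 7069421194) (nat_lit 8) (nat_lit 5) (nat_lit 10) (nat_lit 4) (nat_lit 8) (nat_lit 4) (nat_lit 323) (nat_lit 297) (nat_lit 280)))))) (XT.nd (nat_lit 390) (nat_lit 76) (nat_lit 0) (XT.nd (nat_lit 156) (nat_lit 152) (nat_lit 0) (XT.nd (nat_lit 78) (nat_lit 0) (nat_lit 0) (XT.lf (nat_lit 0) (nat_lit 1972305014) (nat_lit 76) (nat_lit 17498666140) (nat_lit 76) (nat_lit 12751090427) (nat_lit 7) (nat_lit 4) (nat_lit 8) (nat_lit 5) (nat_lit 8) (nat_lit 4) (nat_lit 324) (nat_lit 297) (nat_lit 279)) (XT.lf (nat_lit 0) (nat_lit 16675554560) (nat_lit 76) (nat_lit 12056071212) (nat_lit 76) (nat_lit 7254058197) (nat_lit 7) (nat_lit 4) (nat_lit 8) (nat_lit 5) (nat_lit 8) (nat_lit 4) (nat_lit 325) (nat_lit 297) (nat_lit 278))) (XT.nd (nat_lit 78) (nat_lit 152) (nat_lit 0) (XT.lf (nat_lit 0) (nat_lit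 33337655385) (nat_lit 76) (nat_lit 5921927895) (nat_lit 76) (nat_lit 1072578095) (nat_lit 7) (nat_lit 4) (nat_lit 8) (nat_lit 5) (nat_lit 8) (nat_lit 4) (nat_lit 326) (nat_lit 297) (nat_lit 277)) (XT.nd (nat_lit 78) (nat_lit 0) (nat_lit 0) (XT.lf (nat_lit 0) (nat_lit 5760537610) (nat_lit 152) (nat_lit 37985426406) (nat_lit 0) (nat_lit 1507918288) (nat_lit 5) (nat_lit 5) (nat_lit 7) (nat_lit 4) (nat_lit 5) (nat_lit 4) (nat_lit 327) (nat_lit 297) (nat_lit 276)) (XT.lf (nat_lit 0) (nat_lit 14063880013) (nat_lit 152) (nat_lit 26978951321) (nat_lit 0) (nat_lit 9780135986) (nat_lit 5) (nat_lit 5) (nat_lit 7) (nat_lit 4) (nat_lit 5) (nat_lit 4) (nat_lit 328) (nat_lit 297) (nat_lit 275))))) (XT.nd (nat_lit 234) (nat_lit 0) (nat_lit 0) (XT.nd (nat_lit 78) (nat_lit 76) (nat_lit 0) (XT.lf (nat_lit 0) (nat_lit 23517108010) (nat_lit 152) (nat_lit 14518374640) (nat_lit 0) (nat_lit 19206299023) (nat_lit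 5) (nat_lit 5) (nat_lit 7) (nat_lit 4) (nat_lit 5) (nat_lit 4) (nat_lit 329) (nat_lit 297) (nat_lit 274)) (XT.nd (nat_lit 78) (nat_lit 76) (nat_lit 0) (XT.lf (nat_lit 0) (nat_lit 34305176063) (nat_lit 152) (nat_lit 359902471) (nat_lit 0) (nat_lit 29970832328) (nat_lit 5) (nat_lit 5) (nat_lit 7) (nat_lit 4) (nat_lit 5) (nat_lit 4) (nat_lit 330) (nat_lit 297) (nat_lit 273)) (XT.lf (nat_lit 0) (nat_lit 17314977831) (nat_lit 76) (nat_lit 30041153545) (nat_lit 76) (nat_lit 25686344812) (nat_lit 4) (nat_lit 4) (nat_lit 5) (nat_lit 5) (nat_lit 5) (nat_lit 4) (nat_lit 331) (nat_lit 297) (nat_lit 272)))) (XT.nd (nat_lit 78) (nat_lit 0) (nat_lit 0) (XT.lf (nat_lit 0) (nat_lit 37539443000) (nat_lit 76) (nat_lit 24775347287) (nat_lit 76) (nat_lit 20402742903) (nat_lit 4) (nat_lit 4) (nat_lit 5) (nat_lit 5) (nat_lit 5) (nat_lit 4) (nat_lit 332) (nat_lit 297) (nat_lit 271)) (XT.nd (nat_lit 78) (nat_lit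 0) (nat_lit 0) (XT.lf (nat_lit 0) (nat_lit 60674016807) (nat_lit 76) (nat_lit 18783446201) (nat_lit 76) (nat_lit 14395367338) (nat_lit 4) (nat_lit 4) (nat_lit 5) (nat_lit 5) (nat_lit 5) (nat_lit 4) (nat_lit 333) (nat_lit 297) (nat_lit 270)) (XT.lf (nat_lit 0) (nat_lit 87171332217) (nat_lit 76) (nat_lit 11948217440) (nat_lit 76) (nat_lit 7546682508) (nat_lit 4) (nat_lit 4) (nat_lit 5) (nat_lit 5) (nat_lit 5) (nat_lit 4) (nat_lit 334) (nat_lit 297) (nat_lit 269))))))))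
noncomputable def xc42 : XT := (XT.nd (nat_lit 1638) (nat_lit 0) (nat_lit 0) (XT.nd (nat_lit 780) (nat_lit 76) (nat_lit 0) (XT.nd (nat_lit 390) (nat_lit 0) (nat_lit 0) (XT.nd (nat_lit 156) (nat_lit 0) (nat_lit 0) (XT.nd (nat_lit 78) (nat_lit 76) (nat_lit 0) (XT.lf (nat_lit 0) (nat_lit 252619754) (nat_lit 152) (nat_lit 3870103389) (nat_lit 76) (nat_lit 117283990089) (nat_lit 3) (nat_lit 5) (nat_lit 5) (nat_lit 5) (nat_lit 4) (nat_lit 4) (nat_lit 335) (nat_lit 297) (nat_lit 268)) (XT.lf (nat_lit 0) (nat_lit 9275387058) (nat_lit 152) (nat_lit 123476108431) (nat_lit 0) (nat_lit 5428943074) (nat_lit 2) (nat_lit 5) (nat_lit 4) (nat_lit 4) (nat_lit 2) (nat_lit 4) (nat_lit 336) (nat_lit 297) (nat_lit 267))) (XT.nd (nat_lit 78) (nat_lit 0) (nat_lit 0) (XT.lf (nat_lit 0) (nat_lit 20018888058) (nat_lit 152) (nat_lit 121231493210) (nat_lit 0) (nat_lit 16164750523) (nat_lit 2) (nat_lit 5) (nat_lit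 4) (nat_lit 4) (nat_lit 2) (nat_lit 4) (nat_lit 337) (nat_lit 297) (nat_lit 266)) (XT.nd (nat_lit 78) (nat_lit 0) (nat_lit 0) (XT.lf (nat_lit 0) (nat_lit 32338317874) (nat_lit 152) (nat_lit 118724566269) (nat_lit 0) (nat_lit 28477490295) (nat_lit 2) (nat_lit 5) (nat_lit 4) (nat_lit 4) (nat_lit 2) (nat_lit 4) (nat_lit 338) (nat_lit 297) (nat_lit 265)) (XT.lf (nat_lit 0) (nat_lit 46474708830) (nat_lit 152) (nat_lit 115906279038) (nat_lit 0) (nat_lit 42608063821) (nat_lit 2) (nat_lit 5) (nat_lit 4) (nat_lit 4) (nat_lit 2) (nat_lit 4) (nat_lit 339) (nat_lit 297) (nat_lit 264))))) (XT.nd (nat_lit 156) (nat_lit 0) (nat_lit 0) (XT.nd (nat_lit 78) (nat_lit 0) (nat_lit 0) (XT.lf (nat_lit 0) (nat_lit 62704642487) (nat_lit 152) (nat_lit 112721491116) (nat_lit 0) (nat_lit 58832938844) (nat_lit 2) (nat_lit 5) (nat_lit 4) (nat_lit 4) (nat_lit 2) (nat_lit 4) (nat_lit 340) (nat_lit 297) (nat_lit 263))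 (XT.lf (nat_lit 0) (nat_lit 81345661026) (nat_lit 152) (nat_lit 109107891434) (nat_lit 0) (nat_lit 77469558570) (nat_lit 2) (nat_lit 5) (nat_lit 4) (nat_lit 4) (nat_lit 2) (nat_lit 4) (nat_lit 341) (nat_lit 297) (nat_lit 262))) (XT.nd (nat_lit 78) (nat_lit 0) (nat_lit 0) (XT.lf (nat_lit 0) (nat_lit 102762480026) (nat_lit 152) (nat_lit 104994779129) (nat_lit 0) (nat_lit 98882552515) (nat_lit 2) (nat_lit 5) (nat_lit 4) (nat_lit 4) (nat_lit 2) (nat_lit 4) (nat_lit 342) (nat_lit 297) (nat_lit 261)) (XT.nd (nat_lit 78) (nat_lit 0) (nat_lit 0) (XT.lf (nat_lit 0) (nat_lit 127374124207) (nat_lit 152) (nat_lit 100301680264) (nat_lit 0) (nat_lit 123490870562) (nat_lit 2) (nat_lit 5) (nat_lit 4) (nat_lit 4) (nat_lit 2) (nat_lit 4) (nat_lit 343) (nat_lit 297) (nat_lit 260)) (XT.lf (nat_lit 0) (nat_lit 155662125739) (nat_lit 152) (nat_lit 94936773340) (nat_lit 0) (nat_lit 151775979803) (nat_lit 2)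 (nat_lit 5) (nat_lit 4) (nat_lit 4) (nat_lit 2) (nat_lit 4) (nat_lit 344) (nat_lit 297) (nat_lit 259)))))) (XT.nd (nat_lit 390) (nat_lit 76) (nat_lit 0) (XT.nd (nat_lit 156) (nat_lit 0) (nat_lit 0) (XT.nd (nat_lit 78) (nat_lit 0) (nat_lit 0) (XT.lf (nat_lit 0) (nat_lit 188179945520) (nat_lit 152) (nat_lit 88795092787) (nat_lit 0) (nat_lit 184291284549) (nat_lit 2) (nat_lit 5) (nat_lit 4) (nat_lit 4) (nat_lit 2) (nat_lit 4) (nat_lit 345) (nat_lit 297) (nat_lit 258)) (XT.lf (nat_lit 0) (nat_lit 225563801764) (nat_lit 152) (nat_lit 81756475289) (nat_lit 0) (nat_lit 221672953805) (nat_lit 2) (nat_lit 5) (nat_lit 4) (nat_lit 4) (nat_lit 2) (nat_lit 4) (nat_lit 346) (nat_lit 297) (nat_lit 257))) (XT.nd (nat_lit 78) (nat_lit 0) (nat_lit 0) (XT.lf (nat_lit 0) (nat_lit 268545117744) (nat_lit 152) (nat_lit 73683208765) (nat_lit 0) (nat_lit 264652368058) (nat_lit 2) (nat_lit 5) (nat_lit 4) (nat_lit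 4) (nat_lit 2) (nat_lit 4) (nat_lit 347) (nat_lit 297) (nat_lit 256)) (XT.nd (nat_lit 78) (nat_lit 0) (nat_lit 0) (XT.lf (nat_lit 0) (nat_lit 317964832253) (nat_lit 152) (nat_lit 64417338000) (nat_lit 0) (nat_lit 314070428889) (nat_lit 2) (nat_lit 5) (nat_lit 4) (nat_lit 4) (nat_lit 2) (nat_lit 4) (nat_lit 348) (nat_lit 297) (nat_lit 255)) (XT.lf (nat_lit 0) (nat_lit 374789852747) (nat_lit 152) (nat_lit 53777574219) (nat_lit 0) (nat_lit 370894011404) (nat_lit 2) (nat_lit 5) (nat_lit 4) (nat_lit 4) (nat_lit 2) (nat_lit 4) (nat_lit 349) (nat_lit 297) (nat_lit 254))))) (XT.nd (nat_lit 234) (nat_lit 76) (nat_lit 0) (XT.nd (nat_lit 78) (nat_lit 0) (nat_lit 0) (XT.lf (nat_lit 0) (nat_lit 440131973106) (nat_lit 152) (nat_lit 41555748130) (nat_lit 0) (nat_lit 436234881346) (nat_lit 2) (nat_lit 5) (nat_lit 4) (nat_lit 4) (nat_lit 2) (nat_lit 4) (nat_lit 350) (nat_lit 297) (nat_lit 253)) (XT.nd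 (nat_lit 78) (nat_lit 0) (nat_lit 0) (XT.lf (nat_lit 0) (nat_lit 515269626120) (nat_lit 152) (nat_lit 27512737049) (nat_lit 0) (nat_lit 511371447041) (nat_lit 2) (nat_lit 5) (nat_lit 4) (nat_lit 4) (nat_lit 2) (nat_lit 4) (nat_lit 351) (nat_lit 297) (nat_lit 252)) (XT.lf (nat_lit 0) (nat_lit 601672896303) (nat_lit 152) (nat_lit 11373786411) (nat_lit 0) (nat_lit 597773771729) (nat_lit 2) (nat_lit 5) (nat_lit 4) (nat_lit 4) (nat_lit 2) (nat_lit 4) (nat_lit 352) (nat_lit 297) (nat_lit 251)))) (XT.nd (nat_lit 78) (nat_lit 0) (nat_lit 0) (XT.lf (nat_lit 0) (nat_lit 7878241387) (nat_lit 76) (nat_lit 693480262209) (nat_lit 76) (nat_lit 689580315466) (nat_lit 1) (nat_lit 4) (nat_lit 2) (nat_lit 5) (nat_lit 2) (nat_lit 4) (nat_lit 353) (nat_lit 297) (nat_lit 250)) (XT.nd (nat_lit 78) (nat_lit 0) (nat_lit 0) (XT.lf (nat_lit 0) (nat_lit 31287606390) (nat_lit 76) (nat_lit 785299719133) (nat_lit 76)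 (nat_lit 781399057459) (nat_lit 1) (nat_lit 4) (nat_lit 2) (nat_lit 5) (nat_lit 2) (nat_lit 4) (nat_lit 354) (nat_lit 297) (nat_lit 249)) (XT.lf (nat_lit 0) (nat_lit 58200788783) (nat_lit 76) (nat_lit 890896059957) (nat_lit 76) (nat_lit 886994776605) (nat_lit 1) (nat_lit 4) (nat_lit 2) (nat_lit 5) (nat_lit 2) (nat_lit 4) (nat_lit 355) (nat_lit 297) (nat_lit 248))))))) (XT.nd (nat_lit 858) (nat_lit 0) (nat_lit 0) (XT.nd (nat_lit 390) (nat_lit 0) (nat_lit 0) (XT.nd (nat_lit 156) (nat_lit 0) (nat_lit 0) (XT.nd (nat_lit 78) (nat_lit 0) (nat_lit 0) (XT.lf (nat_lit 0) (nat_lit 89144350833) (nat_lit 76) (nat_lit 1012335300046) (nat_lit 76) (nat_lit 1008433476104) (nat_lit 1) (nat_lit 4) (nat_lit 2) (nat_lit 5) (nat_lit 2) (nat_lit 4) (nat_lit 356) (nat_lit 297) (nat_lit 247)) (XT.lf (nat_lit 0) (nat_lit 124723710056) (nat_lit 76) (nat_lit 1151993424531) (nat_lit 76) (nat_lit 1148091130511) (nat_lit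 1) (nat_lit 4) (nat_lit 2) (nat_lit 5) (nat_lit 2) (nat_lit 4) (nat_lit 357) (nat_lit 297) (nat_lit 246))) (XT.nd (nat_lit 78) (nat_lit 0) (nat_lit 0) (XT.lf (nat_lit 0) (nat_lit 165634984350) (nat_lit 76) (nat_lit 1312602874979) (nat_lit 76) (nat_lit 1308700172195) (nat_lit 1) (nat_lit 4) (nat_lit 2) (nat_lit 5) (nat_lit 2) (nat_lit 4) (nat_lit 358) (nat_lit 297) (nat_lit 245)) (XT.nd (nat_lit 78) (nat_lit 0) (nat_lit 0) (XT.lf (nat_lit 0) (nat_lit 212678611692) (nat_lit 76) (nat_lit 1497306010202) (nat_lit 76) (nat_lit 1493402951972) (nat_lit 1) (nat_lit 4) (nat_lit 2) (nat_lit 5) (nat_lit 2) (nat_lit 4) (nat_lit 359) (nat_lit 297) (nat_lit 244)) (XT.lf (nat_lit 0) (nat_lit 266775010877) (nat_lit 76) (nat_lit 1709716587195) (nat_lit 76) (nat_lit 1705813219881) (nat_lit 1) (nat_lit 4) (nat_lit 2) (nat_lit 5) (nat_lit 2) (nat_lit 4) (nat_lit 360) (nat_lit 297) (nat_lit 243))))) (XT.nd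 (nat_lit 234) (nat_lit 0) (nat_lit 0) (XT.nd (nat_lit 78) (nat_lit 0) (nat_lit 0) (XT.lf (nat_lit 0) (nat_lit 328982589714) (nat_lit 76) (nat_lit 1953990465072) (nat_lit 76) (nat_lit 1950086828989) (nat_lit 1) (nat_lit 4) (nat_lit 2) (nat_lit 5) (nat_lit 2) (nat_lit 4) (nat_lit 361) (nat_lit 297) (nat_lit 242)) (XT.nd (nat_lit 78) (nat_lit 0) (nat_lit 0) (XT.lf (nat_lit 0) (nat_lit 400518453008) (nat_lit 76) (nat_lit 2234906915356) (nat_lit 76) (nat_lit 2231003045562) (nat_lit 1) (nat_lit 4) (nat_lit 2) (nat_lit 5) (nat_lit 2) (nat_lit 4) (nat_lit 362) (nat_lit 297) (nat_lit 241)) (XT.lf (nat_lit 0) (nat_lit 482782215475) (nat_lit 76) (nat_lit 2557962129468) (nat_lit 76) (nat_lit 2554058056445) (nat_lit 1) (nat_lit 4) (nat_lit 2) (nat_lit 5) (nat_lit 2) (nat_lit 4) (nat_lit 363) (nat_lit 297) (nat_lit 240)))) (XT.nd (nat_lit 78) (nat_lit 0) (nat_lit 0) (XT.lf (nat_lit 0) (nat_lit 577383385511)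 (nat_lit 76) (nat_lit 2929476752899) (nat_lit 76) (nat_lit 2925572503157) (nat_lit 1) (nat_lit 4) (nat_lit 2) (nat_lit 5) (nat_lit 2) (nat_lit 4) (nat_lit 364) (nat_lit 297) (nat_lit 239)) (XT.nd (nat_lit 78) (nat_lit 0) (nat_lit 0) (XT.lf (nat_lit 0) (nat_lit 686172855573) (nat_lit 76) (nat_lit 3356719550022) (nat_lit 76) (nat_lit 3352815146611) (nat_lit 1) (nat_lit 4) (nat_lit 2) (nat_lit 5) (nat_lit 2) (nat_lit 4) (nat_lit 365) (nat_lit 297) (nat_lit 238)) (XT.lf (nat_lit 0) (nat_lit 811279115294) (nat_lit 76) (nat_lit 3848049619041) (nat_lit 76) (nat_lit 3844145082004) (nat_lit 1) (nat_lit 4) (nat_lit 2) (nat_lit 5) (nat_lit 2) (nat_lit 4) (nat_lit 366) (nat_lit 297) (nat_lit 237)))))) (XT.nd (nat_lit 390) (nat_lit 0) (nat_lit 0) (XT.nd (nat_lit 156) (nat_lit 0) (nat_lit 0) (XT.nd (nat_lit 78) (nat_lit 0) (nat_lit 0) (XT.lf (nat_lit 0) (nat_lit 955149895840) (nat_lit 76) (nat_lit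 4413079939567) (nat_lit 76) (nat_lit 4409175286334) (nat_lit 1) (nat_lit 4) (nat_lit 2) (nat_lit 5) (nat_lit 2) (nat_lit 4) (nat_lit 367) (nat_lit 297) (nat_lit 236)) (XT.lf (nat_lit 0) (nat_lit 1120600060310) (nat_lit 76) (nat_lit 5062865452655) (nat_lit 76) (nat_lit 5058960698382) (nat_lit 1) (nat_lit 4) (nat_lit 2) (nat_lit 5) (nat_lit 2) (nat_lit 4) (nat_lit 368) (nat_lit 297) (nat_lit 235))) (XT.nd (nat_lit 78) (nat_lit 0) (nat_lit 0) (XT.lf (nat_lit 0) (nat_lit 1310866677140) (nat_lit 76) (nat_lit 5810119353125) (nat_lit 76) (nat_lit 5806214510991) (nat_lit 1) (nat_lit 4) (nat_lit 2) (nat_lit 5) (nat_lit 2) (nat_lit 4) (nat_lit 369) (nat_lit 297) (nat_lit 234)) (XT.nd (nat_lit 78) (nat_lit 0) (nat_lit 0) (XT.lf (nat_lit 0) (nat_lit 1529672354050) (nat_lit 76) (nat_lit 6669461825986) (nat_lit 76) (nat_lit 6665556907451) (nat_lit 1) (nat_lit 4) (nat_lit 2) (nat_lit 5) (nat_lit 2)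 (nat_lit 4) (nat_lit 370) (nat_lit 297) (nat_lit 233)) (XT.lf (nat_lit 0) (nat_lit 1781298071675) (nat_lit 76) (nat_lit 7657706093534) (nat_lit 76) (nat_lit 7653801108564) (nat_lit 1) (nat_lit 4) (nat_lit 2) (nat_lit 5) (nat_lit 2) (nat_lit 4) (nat_lit 371) (nat_lit 297) (nat_lit 232))))) (XT.nd (nat_lit 234) (nat_lit 0) (nat_lit 0) (XT.nd (nat_lit 78) (nat_lit 0) (nat_lit 0) (XT.lf (nat_lit 0) (nat_lit 2070666941881) (nat_lit 76) (nat_lit 8794187369700) (nat_lit 76) (nat_lit 8790282326959) (nat_lit 1) (nat_lit 4) (nat_lit 2) (nat_lit 5) (nat_lit 2) (nat_lit 4) (nat_lit 372) (nat_lit 297) (nat_lit 231)) (XT.nd (nat_lit 78) (nat_lit 0) (nat_lit 0) (XT.lf (nat_lit 0) (nat_lit 2403440529521) (nat_lit 76) (nat_lit 10101141157711) (nat_lit 76) (nat_lit 10097236064736) (nat_lit 1) (nat_lit 4) (nat_lit 2) (nat_lit 5) (nat_lit 2) (nat_lit 4) (nat_lit 373) (nat_lit 297) (nat_lit 230)) (XT.lf (nat_lit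 0) (nat_lit 2786129622178) (nat_lit 76) (nat_lit 11604138292552) (nat_lit 76) (nat_lit 11600233155894) (nat_lit 1) (nat_lit 4) (nat_lit 2) (nat_lit 5) (nat_lit 2) (nat_lit 4) (nat_lit 374) (nat_lit 297) (nat_lit 229)))) (XT.nd (nat_lit 78) (nat_lit 0) (nat_lit 0) (XT.lf (nat_lit 0) (nat_lit 3226221615145) (nat_lit 76) (nat_lit 13332585239903) (nat_lit 76) (nat_lit 13328680065260) (nat_lit 1) (nat_lit 4) (nat_lit 2) (nat_lit 5) (nat_lit 2) (nat_lit 4) (nat_lit 375) (nat_lit 297) (nat_lit 228)) (XT.nd (nat_lit 78) (nat_lit 0) (nat_lit 0) (XT.lf (nat_lit 0) (nat_lit 3732327003935) (nat_lit 76) (nat_lit 15320299440039) (nat_lit 76) (nat_lit 15316394232367) (nat_lit 1) (nat_lit 4) (nat_lit 2) (nat_lit 5) (nat_lit 2) (nat_lit 4) (nat_lit 376) (nat_lit 297) (nat_lit 227)) (XT.lf (nat_lit 0) (nat_lit 4314347850503) (nat_lit 76) (nat_lit 17606170953398) (nat_lit 76) (nat_lit 17602265717004) (nat_lit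 1) (nat_lit 4) (nat_lit 2) (nat_lit 5) (nat_lit 2) (nat_lit 4) (nat_lit 377) (nat_lit 297) (nat_lit 226))))))))
noncomputable def xc43 : XT := (XT.nd (nat_lit 41808) (nat_lit 0) (nat_lit 228) (XT.nd (nat_lit 858) (nat_lit 0) (nat_lit 0) (XT.nd (nat_lit 390) (nat_lit 0) (nat_lit 0) (XT.nd (nat_lit 156) (nat_lit 0) (nat_lit 0) (XT.nd (nat_lit 78) (nat_lit 0) (nat_lit 0) (XT.lf (nat_lit 0) (nat_lit 4983671519238) (nat_lit 76) (nat_lit 20234923353067) (nat_lit 76) (nat_lit 20231018091697) (nat_lit 1) (nat_lit 4) (nat_lit 2) (nat_lit 5) (nat_lit 2) (nat_lit 4) (nat_lit 378) (nat_lit 297) (nat_lit 225)) (XT.lf (nat_lit 0) (nat_lit 5753393473225) (nat_lit 76) (nat_lit 23257988751214) (nat_lit 76) (nat_lit 23254083468126) (nat_lit 1) (nat_lit 4) (nat_lit 2) (nat_lit 5) (nat_lit 2) (nat_lit 4) (nat_lit 379) (nat_lit 297) (nat_lit 224))) (XT.nd (nat_lit 78) (nat_lit 0) (nat_lit 0) (XT.lf (nat_lit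 0) (nat_lit 6638573489824) (nat_lit 76) (nat_lit 26734514079540) (nat_lit 76) (nat_lit 26730608777567) (nat_lit 1) (nat_lit 4) (nat_lit 2) (nat_lit 5) (nat_lit 2) (nat_lit 4) (nat_lit 380) (nat_lit 297) (nat_lit 223)) (XT.nd (nat_lit 78) (nat_lit 0) (nat_lit 0) (XT.lf (nat_lit 0) (nat_lit 7656530308490) (nat_lit 76) (nat_lit 30732518311862) (nat_lit 76) (nat_lit 30728612993467) (nat_lit 1) (nat_lit 4) (nat_lit 2) (nat_lit 5) (nat_lit 2) (nat_lit 4) (nat_lit 381) (nat_lit 297) (nat_lit 222)) (XT.lf (nat_lit 0) (nat_lit 8827180475675) (nat_lit 76) (nat_lit 35330223270117) (nat_lit 76) (nat_lit 35326317937442) (nat_lit 1) (nat_lit 4) (nat_lit 2) (nat_lit 5) (nat_lit 2) (nat_lit 4) (nat_lit 382) (nat_lit 297) (nat_lit 221))))) (XT.nd (nat_lit 234) (nat_lit 0) (nat_lit 0) (XT.nd (nat_lit 78) (nat_lit 0) (nat_lit 0) (XT.lf (nat_lit 0) (nat_lit 10173428016390) (nat_lit 76) (nat_lit 40617584051312)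 (nat_lit 76) (nat_lit 40613678706220) (nat_lit 1) (nat_lit 4) (nat_lit 2) (nat_lit 5) (nat_lit 2) (nat_lit 4) (nat_lit 383) (nat_lit 297) (nat_lit 220)) (XT.nd (nat_lit 78) (nat_lit 0) (nat_lit 0) (XT.lf (nat_lit 0) (nat_lit 11721612556430) (nat_lit 76) (nat_lit 46698049018559) (nat_lit 76) (nat_lit 46694143662670) (nat_lit 1) (nat_lit 4) (nat_lit 2) (nat_lit 5) (nat_lit 2) (nat_lit 4) (nat_lit 384) (nat_lit 297) (nat_lit 219)) (XT.lf (nat_lit 0) (nat_lit 13502024662885) (nat_lit 76) (nat_lit 53690583790783) (nat_lit 76) (nat_lit 53686678425504) (nat_lit 1) (nat_lit 4) (nat_lit 2) (nat_lit 5) (nat_lit 2) (nat_lit 4) (nat_lit 385) (nat_lit 297) (nat_lit 218)))) (XT.nd (nat_lit 78) (nat_lit 0) (nat_lit 0) (XT.lf (nat_lit 0) (nat_lit 15549498485662) (nat_lit 76) (nat_lit 61731998830917) (nat_lit 76) (nat_lit 61728093457474) (nat_lit 1) (nat_lit 4) (nat_lit 2) (nat_lit 5) (nat_lit 2) (nat_lit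 4) (nat_lit 386) (nat_lit 297) (nat_lit 217)) (XT.nd (nat_lit 78) (nat_lit 0) (nat_lit 0) (XT.lf (nat_lit 0) (nat_lit 17904093295208) (nat_lit 76) (nat_lit 70979626172357) (nat_lit 76) (nat_lit 70975720791814) (nat_lit 1) (nat_lit 4) (nat_lit 2) (nat_lit 5) (nat_lit 2) (nat_lit 4) (nat_lit 387) (nat_lit 297) (nat_lit 216)) (XT.lf (nat_lit 0) (nat_lit 20611877250839) (nat_lit 76) (nat_lit 81614397654390) (nat_lit 76) (nat_lit 81610492267673) (nat_lit 1) (nat_lit 4) (nat_lit 2) (nat_lit 5) (nat_lit 2) (nat_lit 4) (nat_lit 388) (nat_lit 297) (nat_lit 215)))))) (XT.nd (nat_lit 40482) (nat_lit 0) (nat_lit 1292) (XT.nd (nat_lit 40248) (nat_lit 0) (nat_lit 2128) (XT.nd (nat_lit 78) (nat_lit 0) (nat_lit 0) (XT.lf (nat_lit 0) (nat_lit 23725828734296) (nat_lit 76) (nat_lit 93844384892970) (nat_lit 76) (nat_lit 93840479500885) (nat_lit 1) (nat_lit 4) (nat_lit 2) (nat_lit 5) (nat_lit 2) (nat_lit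 4) (nat_lit 389) (nat_lit 297) (nat_lit 214)) (XT.lf (nat_lit 0) (nat_lit 27306872883300) (nat_lit 76) (nat_lit 107908870247113) (nat_lit 76) (nat_lit 107904964850360) (nat_lit 1) (nat_lit 4) (nat_lit 2) (nat_lit 5) (nat_lit 2) (nat_lit 4) (nat_lit 390) (nat_lit 297) (nat_lit 213))) (XT.nd (nat_lit 78) (nat_lit 304) (nat_lit 0) (XT.lf (nat_lit 0) (nat_lit 576186211) (nat_lit 228) (nat_lit 2257229478) (nat_lit 0) (nat_lit 576186211) (nat_lit 33) (nat_lit 5) (nat_lit 36) (nat_lit 4) (nat_lit 33) (nat_lit 4) (nat_lit 304) (nat_lit 298) (nat_lit 298)) (XT.nd (nat_lit 78) (nat_lit 76) (nat_lit 0) (XT.lf (nat_lit 0) (nat_lit 56738125) (nat_lit 228) (nat_lit 4391676983) (nat_lit 228) (nat_lit 2599658010) (nat_lit 30) (nat_lit 4) (nat_lit 33) (nat_lit 5) (nat_lit 33) (nat_lit 4) (nat_lit 305) (nat_lit 298) (nat_lit 297)) (XT.lf (nat_lit 0) (nat_lit 608435622) (nat_lit 304) (nat_lit 2042159752)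 (nat_lit 76) (nat_lit 4691614920) (nat_lit 29) (nat_lit 5) (nat_lit 33) (nat_lit 5) (nat_lit 30) (nat_lit 4) (nat_lit 306) (nat_lit 298) (nat_lit 296))))) (XT.nd (nat_lit 234) (nat_lit 304) (nat_lit 0) (XT.nd (nat_lit 78) (nat_lit 228) (nat_lit 0) (XT.lf (nat_lit 0) (nat_lit 3356966847) (nat_lit 304) (nat_lit 392934076) (nat_lit 380) (nat_lit 3955305634) (nat_lit 25) (nat_lit 5) (nat_lit 29) (nat_lit 5) (nat_lit 30) (nat_lit 4) (nat_lit 307) (nat_lit 298) (nat_lit 295)) (XT.nd (nat_lit 78) (nat_lit 76) (nat_lit 0) (XT.lf (nat_lit 0) (nat_lit 1196823712) (nat_lit 152) (nat_lit 6031528004) (nat_lit 152) (nat_lit 915352610) (nat_lit 23) (nat_lit 4) (nat_lit 25) (nat_lit 5) (nat_lit 25) (nat_lit 4) (nat_lit 308) (nat_lit 298) (nat_lit 294)) (XT.lf (nat_lit 0) (nat_lit 2233736378) (nat_lit 228) (nat_lit 1204592322) (nat_lit 76) (nat_lit 5211880062) (nat_lit 22) (nat_lit 5) (nat_lit 25) (nat_lit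 5) (nat_lit 23) (nat_lit 4) (nat_lit 309) (nat_lit 298) (nat_lit 293)))) (XT.nd (nat_lit 78) (nat_lit 228) (nat_lit 0) (XT.lf (nat_lit 0) (nat_lit 5385660944) (nat_lit 76) (nat_lit 273653351) (nat_lit 152) (nat_lit 3582763190) (nat_lit 21) (nat_lit 5) (nat_lit 22) (nat_lit 5) (nat_lit 23) (nat_lit 4) (nat_lit 310) (nat_lit 298) (nat_lit 292)) (XT.nd (nat_lit 78) (nat_lit 76) (nat_lit 0) (XT.lf (nat_lit 0) (nat_lit 2826712771) (nat_lit 152) (nat_lit 6788571315) (nat_lit 152) (nat_lit 305483402) (nat_lit 19) (nat_lit 4) (nat_lit 21) (nat_lit 5) (nat_lit 21) (nat_lit 4) (nat_lit 311) (nat_lit 298) (nat_lit 291)) (XT.lf (nat_lit 0) (nat_lit 3080829233) (nat_lit 228) (nat_lit 368708696) (nat_lit 76) (nat_lit 7241741396) (nat_lit 18) (nat_lit 5) (nat_lit 21) (nat_lit 5) (nat_lit 19) (nat_lit 4) (nat_lit 312) (nat_lit 298) (nat_lit 290))))))) (XT.nd (nat_lit 858) (nat_lit 304) (nat_lit 0) (XT.nd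 (nat_lit 390) (nat_lit 380) (nat_lit 0) (XT.nd (nat_lit 156) (nat_lit 228) (nat_lit 0) (XT.nd (nat_lit 78) (nat_lit 76) (nat_lit 0) (XT.lf (nat_lit 0) (nat_lit 7024989594) (nat_lit 152) (nat_lit 3978984720) (nat_lit 0) (nat_lit 559379827) (nat_lit 17) (nat_lit 5) (nat_lit 19) (nat_lit 4) (nat_lit 17) (nat_lit 4) (nat_lit 313) (nat_lit 298) (nat_lit 289)) (XT.lf (nat_lit 0) (nat_lit 3970324534) (nat_lit 76) (nat_lit 7690852900) (nat_lit 76) (nat_lit 890301975) (nat_lit 16) (nat_lit 4) (nat_lit 17) (nat_lit 5) (nat_lit 17) (nat_lit 4) (nat_lit 314) (nat_lit 298) (nat_lit 288))) (XT.nd (nat_lit 78) (nat_lit 152) (nat_lit 0) (XT.lf (nat_lit 0) (nat_lit 2984404299) (nat_lit 152) (nat_lit 675334864) (nat_lit 76) (nat_lit 10011733349) (nat_lit 15) (nat_lit 5) (nat_lit 17) (nat_lit 5) (nat_lit 16) (nat_lit 4) (nat_lit 315) (nat_lit 298) (nat_lit 287)) (XT.nd (nat_lit 78) (nat_lit 76) (nat_lit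 0) (XT.lf (nat_lit 0) (nat_lit 7553401625) (nat_lit 152) (nat_lit 6202879286) (nat_lit 0) (nat_lit 1166386195) (nat_lit 14) (nat_lit 5) (nat_lit 16) (nat_lit 4) (nat_lit 14) (nat_lit 4) (nat_lit 316) (nat_lit 298) (nat_lit 286)) (XT.lf (nat_lit 0) (nat_lit 2948994196) (nat_lit 76) (nat_lit 9986069930) (nat_lit 76) (nat_lit 3407550805) (nat_lit 13) (nat_lit 4) (nat_lit 14) (nat_lit 5) (nat_lit 14) (nat_lit 4) (nat_lit 317) (nat_lit 298) (nat_lit 285))))) (XT.nd (nat_lit 234) (nat_lit 228) (nat_lit 0) (XT.nd (nat_lit 78) (nat_lit 76) (nat_lit 0) (XT.lf (nat_lit 0) (nat_lit 1182224763) (nat_lit 152) (nat_lit 4203260836) (nat_lit 76) (nat_lit 12562659257) (nat_lit 12) (nat_lit 5) (nat_lit 14) (nat_lit 5) (nat_lit 13) (nat_lit 4) (nat_lit 318) (nat_lit 298) (nat_lit 284)) (XT.nd (nat_lit 78) (nat_lit 0) (nat_lit 0) (XT.lf (nat_lit 0) (nat_lit 6211318769) (nat_lit 152) (nat_lit 13323854213)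 (nat_lit 0) (nat_lit 220146262) (nat_lit 11) (nat_lit 5) (nat_lit 13) (nat_lit 4) (nat_lit 11) (nat_lit 4) (nat_lit 319) (nat_lit 298) (nat_lit 283)) (XT.lf (nat_lit 0) (nat_lit 12307946354) (nat_lit 152) (nat_lit 3271465016) (nat_lit 0) (nat_lit 6207280987) (nat_lit 11) (nat_lit 5) (nat_lit 13) (nat_lit 4) (nat_lit 11) (nat_lit 4) (nat_lit 320) (nat_lit 298) (nat_lit 282)))) (XT.nd (nat_lit 78) (nat_lit 152) (nat_lit 0) (XT.lf (nat_lit 0) (nat_lit 8776446678) (nat_lit 76) (nat_lit 10755199871) (nat_lit 76) (nat_lit 4559323322) (nat_lit 10) (nat_lit 4) (nat_lit 11) (nat_lit 5) (nat_lit 11) (nat_lit 4) (nat_lit 321) (nat_lit 298) (nat_lit 281)) (XT.nd (nat_lit 78) (nat_lit 76) (nat_lit 0) (XT.lf (nat_lit 0) (nat_lit 1029776689) (nat_lit 152) (nat_lit 4064648998) (nat_lit 76) (nat_lit 21635280306) (nat_lit 9) (nat_lit 5) (nat_lit 11) (nat_lit 5) (nat_lit 10) (nat_lit 4) (nat_lit 322) (nat_lit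 298) (nat_lit 280)) (XT.lf (nat_lit 0) (nat_lit 7324007011) (nat_lit 152) (nat_lit 20556009931) (nat_lit 0) (nat_lit 1801692043) (nat_lit 8) (nat_lit 5) (nat_lit 10) (nat_lit 4) (nat_lit 8) (nat_lit 4) (nat_lit 323) (nat_lit 298) (nat_lit 279)))))) (XT.nd (nat_lit 390) (nat_lit 76) (nat_lit 0) (XT.nd (nat_lit 156) (nat_lit 152) (nat_lit 0) (XT.nd (nat_lit 78) (nat_lit 76) (nat_lit 0) (XT.lf (nat_lit 0) (nat_lit 14899231480) (nat_lit 152) (nat_lit 8804321512) (nat_lit 0) (nat_lit 9322479211) (nat_lit 8) (nat_lit 5) (nat_lit 10) (nat_lit 4) (nat_lit 8) (nat_lit 4) (nat_lit 324) (nat_lit 298) (nat_lit 278)) (XT.lf (nat_lit 0) (nat_lit 4923791213) (nat_lit 76) (nat_lit 18779249474) (nat_lit 76) (nat_lit 13155160420) (nat_lit 7) (nat_lit 4) (nat_lit 8) (nat_lit 5) (nat_lit 8) (nat_lit 4) (nat_lit 325) (nat_lit 298) (nat_lit 277))) (XT.nd (nat_lit 78) (nat_lit 152) (nat_lit 0) (XT.lf (nat_lit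 0) (nat_lit 21486140307) (nat_lit 76) (nat_lit 12695597905) (nat_lit 76) (nat_lit 7030346430) (nat_lit 7) (nat_lit 4) (nat_lit 8) (nat_lit 5) (nat_lit 8) (nat_lit 4) (nat_lit 326) (nat_lit 298) (nat_lit 276)) (XT.nd (nat_lit 78) (nat_lit 152) (nat_lit 0) (XT.lf (nat_lit 0) (nat_lit 40346349399) (nat_lit 76) (nat_lit 5793796219) (nat_lit 76) (nat_lit 92751334) (nat_lit 7) (nat_lit 4) (nat_lit 8) (nat_lit 5) (nat_lit 8) (nat_lit 4) (nat_lit 327) (nat_lit 298) (nat_lit 275)) (XT.lf (nat_lit 0) (nat_lit 7654155449) (nat_lit 152) (nat_lit 41563457672) (nat_lit 0) (nat_lit 2669660154) (nat_lit 5) (nat_lit 5) (nat_lit 7) (nat_lit 4) (nat_lit 5) (nat_lit 4) (nat_lit 328) (nat_lit 298) (nat_lit 274))))) (XT.nd (nat_lit 234) (nat_lit 0) (nat_lit 0) (XT.nd (nat_lit 78) (nat_lit 76) (nat_lit 0) (XT.lf (nat_lit 0) (nat_lit 17068711752) (nat_lit 152) (nat_lit 29182504719) (nat_lit 0) (nat_lit 12060681708)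 (nat_lit 5) (nat_lit 5) (nat_lit 7) (nat_lit 4) (nat_lit 5) (nat_lit 4) (nat_lit 329) (nat_lit 298) (nat_lit 273)) (XT.nd (nat_lit 78) (nat_lit 76) (nat_lit 0) (XT.lf (nat_lit 0) (nat_lit 27823152244) (nat_lit 152) (nat_lit 15093270575) (nat_lit 0) (nat_lit 22794657202) (nat_lit 5) (nat_lit 5) (nat_lit 7) (nat_lit 4) (nat_lit 5) (nat_lit 4) (nat_lit 330) (nat_lit 298) (nat_lit 272)) (XT.lf (nat_lit 0) (nat_lit 1075667003) (nat_lit 76) (nat_lit 39096763965) (nat_lit 76) (nat_lit 34050473273) (nat_lit 4) (nat_lit 4) (nat_lit 5) (nat_lit 5) (nat_lit 5) (nat_lit 4) (nat_lit 331) (nat_lit 298) (nat_lit 271)))) (XT.nd (nat_lit 78) (nat_lit 0) (nat_lit 0) (XT.lf (nat_lit 0) (nat_lit 21242661876) (nat_lit 76) (nat_lit 33860621014) (nat_lit 76) (nat_lit 28798855843) (nat_lit 4) (nat_lit 4) (nat_lit 5) (nat_lit 5) (nat_lit 5) (nat_lit 4) (nat_lit 332) (nat_lit 298) (nat_lit 270)) (XT.nd (nat_lit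 78) (nat_lit 0) (nat_lit 0) (XT.lf (nat_lit 0) (nat_lit 44327261512) (nat_lit 76) (nat_lit 27894514108) (nat_lit 76) (nat_lit 22819292869) (nat_lit 4) (nat_lit 4) (nat_lit 5) (nat_lit 5) (nat_lit 5) (nat_lit 4) (nat_lit 333) (nat_lit 298) (nat_lit 269)) (XT.lf (nat_lit 0) (nat_lit 70781121121) (nat_lit 76) (nat_lit 21081715069) (nat_lit 76) (nat_lit 15994792900) (nat_lit 4) (nat_lit 4) (nat_lit 5) (nat_lit 5) (nat_lit 5) (nat_lit 4) (nat_lit 334) (nat_lit 298) (nat_lit 268))))))))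
noncomputable def xc44 : XT := (XT.nd (nat_lit 1638) (nat_lit 0) (nat_lit 0) (XT.nd (nat_lit 780) (nat_lit 76) (nat_lit 0) (XT.nd (nat_lit 390) (nat_lit 0) (nat_lit 0) (XT.nd (nat_lit 156) (nat_lit 76) (nat_lit 0) (XT.nd (nat_lit 78) (nat_lit 76) (nat_lit 0) (XT.lf (nat_lit 0) (nat_lit 101121816218) (nat_lit 76) (nat_lit 13288930002) (nat_lit 76) (nat_lit 8191833112) (nat_lit 4) (nat_lit 4) (nat_lit 5) (nat_lit 5) (nat_lit 5) (nat_lit 4) (nat_lit 335) (nat_lit 298) (nat_lit 267)) (XT.lf (nat_lit 0) (nat_lit 676172596) (nat_lit 152) (nat_lit 3652173390) (nat_lit 76) (nat_lit 135231451114) (nat_lit 3) (nat_lit 5) (nat_lit 5) (nat_lit 5) (nat_lit 4) (nat_lit 4) (nat_lit 336) (nat_lit 298) (nat_lit 266))) (XT.nd (nat_lit 78) (nat_lit 0) (nat_lit 0) (XT.lf (nat_lit 0) (nat_lit 11049976566) (nat_lit 152) (nat_lit 141196636294) (nat_lit 0) (nat_lit 6603334806) (nat_lit 2) (nat_lit 5) (nat_lit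 4) (nat_lit 4) (nat_lit 2) (nat_lit 4) (nat_lit 337) (nat_lit 298) (nat_lit 265)) (XT.nd (nat_lit 78) (nat_lit 0) (nat_lit 0) (XT.lf (nat_lit 0) (nat_lit 23355009484) (nat_lit 152) (nat_lit 138719792493) (nat_lit 0) (nat_lit 18902550294) (nat_lit 2) (nat_lit 5) (nat_lit 4) (nat_lit 4) (nat_lit 2) (nat_lit 4) (nat_lit 338) (nat_lit 298) (nat_lit 264)) (XT.lf (nat_lit 0) (nat_lit 37478881397) (nat_lit 152) (nat_lit 135927664515) (nat_lit 0) (nat_lit 33021363572) (nat_lit 2) (nat_lit 5) (nat_lit 4) (nat_lit 4) (nat_lit 2) (nat_lit 4) (nat_lit 339) (nat_lit 298) (nat_lit 263))))) (XT.nd (nat_lit 156) (nat_lit 0) (nat_lit 0) (XT.nd (nat_lit 78) (nat_lit 0) (nat_lit 0) (XT.lf (nat_lit 0) (nat_lit 53697928929) (nat_lit 152) (nat_lit 132765623769) (nat_lit 0) (nat_lit 49236012292) (nat_lit 2) (nat_lit 5) (nat_lit 4) (nat_lit 4) (nat_lit 2) (nat_lit 4) (nat_lit 340) (nat_lit 298) (nat_lit 262))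 (XT.lf (nat_lit 0) (nat_lit 72329481273) (nat_lit 152) (nat_lit 129171804240) (nat_lit 0) (nat_lit 67863739581) (nat_lit 2) (nat_lit 5) (nat_lit 4) (nat_lit 4) (nat_lit 2) (nat_lit 4) (nat_lit 341) (nat_lit 298) (nat_lit 261))) (XT.nd (nat_lit 78) (nat_lit 0) (nat_lit 0) (XT.lf (nat_lit 0) (nat_lit 93738068799) (nat_lit 152) (nat_lit 125075892068) (nat_lit 0) (nat_lit 89269000973) (nat_lit 2) (nat_lit 5) (nat_lit 4) (nat_lit 4) (nat_lit 2) (nat_lit 4) (nat_lit 342) (nat_lit 298) (nat_lit 260)) (XT.nd (nat_lit 78) (nat_lit 0) (nat_lit 0) (XT.lf (nat_lit 0) (nat_lit 118342555177) (nat_lit 152) (nat_lit 120397749841) (nat_lit 0) (nat_lit 113870595061) (nat_lit 2) (nat_lit 5) (nat_lit 4) (nat_lit 4) (nat_lit 2) (nat_lit 4) (nat_lit 343) (nat_lit 298) (nat_lit 259)) (XT.lf (nat_lit 0) (nat_lit 146624332532) (nat_lit 152) (nat_lit 115045848688) (nat_lit 0) (nat_lit 142149857380) (nat_lit 2)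 (nat_lit 5) (nat_lit 4) (nat_lit 4) (nat_lit 2) (nat_lit 4) (nat_lit 344) (nat_lit 298) (nat_lit 258)))))) (XT.nd (nat_lit 390) (nat_lit 76) (nat_lit 0) (XT.nd (nat_lit 156) (nat_lit 0) (nat_lit 0) (XT.nd (nat_lit 78) (nat_lit 0) (nat_lit 0) (XT.lf (nat_lit 0) (nat_lit 179136739985) (nat_lit 152) (nat_lit 108915477502) (nat_lit 0) (nat_lit 174660077846) (nat_lit 2) (nat_lit 5) (nat_lit 4) (nat_lit 4) (nat_lit 2) (nat_lit 4) (nat_lit 345) (nat_lit 298) (nat_lit 257)) (XT.lf (nat_lit 0) (nat_lit 216515889857) (nat_lit 152) (nat_lit 101886694236) (nat_lit 0) (nat_lit 212037325990) (nat_lit 2) (nat_lit 5) (nat_lit 4) (nat_lit 4) (nat_lit 2) (nat_lit 4) (nat_lit 346) (nat_lit 298) (nat_lit 256))) (XT.nd (nat_lit 78) (nat_lit 0) (nat_lit 0) (XT.lf (nat_lit 0) (nat_lit 259493113341) (nat_lit 152) (nat_lit 93821979218) (nat_lit 0) (nat_lit 255012895796) (nat_lit 2) (nat_lit 5) (nat_lit 4) (nat_lit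 4) (nat_lit 2) (nat_lit 4) (nat_lit 347) (nat_lit 298) (nat_lit 255)) (XT.nd (nat_lit 78) (nat_lit 0) (nat_lit 0) (XT.lf (nat_lit 0) (nat_lit 308909269156) (nat_lit 152) (nat_lit 84563544546) (nat_lit 0) (nat_lit 304427613632) (nat_lit 2) (nat_lit 5) (nat_lit 4) (nat_lit 4) (nat_lit 2) (nat_lit 4) (nat_lit 348) (nat_lit 298) (nat_lit 254)) (XT.lf (nat_lit 0) (nat_lit 365731195134) (nat_lit 152) (nat_lit 73930246932) (nat_lit 0) (nat_lit 361248289193) (nat_lit 2) (nat_lit 5) (nat_lit 4) (nat_lit 4) (nat_lit 2) (nat_lit 4) (nat_lit 349) (nat_lit 298) (nat_lit 253))))) (XT.nd (nat_lit 234) (nat_lit 76) (nat_lit 0) (XT.nd (nat_lit 78) (nat_lit 0) (nat_lit 0) (XT.lf (nat_lit 0) (nat_lit 431070624610) (nat_lit 152) (nat_lit 61714043597) (nat_lit 0) (nat_lit 426586631350) (nat_lit 2) (nat_lit 5) (nat_lit 4) (nat_lit 4) (nat_lit 2) (nat_lit 4) (nat_lit 350) (nat_lit 298) (nat_lit 252)) (XT.nd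 (nat_lit 78) (nat_lit 0) (nat_lit 0) (XT.lf (nat_lit 0) (nat_lit 506205937725) (nat_lit 152) (nat_lit 47675921867) (nat_lit 0) (nat_lit 501720998970) (nat_lit 2) (nat_lit 5) (nat_lit 4) (nat_lit 4) (nat_lit 2) (nat_lit 4) (nat_lit 351) (nat_lit 298) (nat_lit 251)) (XT.lf (nat_lit 0) (nat_lit 592607173214) (nat_lit 152) (nat_lit 31541222839) (nat_lit 0) (nat_lit 588121412289) (nat_lit 2) (nat_lit 5) (nat_lit 4) (nat_lit 4) (nat_lit 2) (nat_lit 4) (nat_lit 352) (nat_lit 298) (nat_lit 250)))) (XT.nd (nat_lit 78) (nat_lit 76) (nat_lit 0) (XT.lf (nat_lit 0) (nat_lit 691964790033) (nat_lit 152) (nat_lit 12994267618) (nat_lit 0) (nat_lit 687478314178) (nat_lit 2) (nat_lit 5) (nat_lit 4) (nat_lit 4) (nat_lit 2) (nat_lit 4) (nat_lit 353) (nat_lit 298) (nat_lit 249)) (XT.nd (nat_lit 78) (nat_lit 0) (nat_lit 0) (XT.lf (nat_lit 0) (nat_lit 9141674043) (nat_lit 76) (nat_lit 797459604737) (nat_lit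 76) (nat_lit 792972507204) (nat_lit 1) (nat_lit 4) (nat_lit 2) (nat_lit 5) (nat_lit 2) (nat_lit 4) (nat_lit 354) (nat_lit 298) (nat_lit 248)) (XT.lf (nat_lit 0) (nat_lit 36051787738) (nat_lit 76) (nat_lit 903057549348) (nat_lit 76) (nat_lit 898569911225) (nat_lit 1) (nat_lit 4) (nat_lit 2) (nat_lit 5) (nat_lit 2) (nat_lit 4) (nat_lit 355) (nat_lit 298) (nat_lit 247))))))) (XT.nd (nat_lit 858) (nat_lit 0) (nat_lit 0) (XT.nd (nat_lit 390) (nat_lit 0) (nat_lit 0) (XT.nd (nat_lit 156) (nat_lit 0) (nat_lit 0) (XT.nd (nat_lit 78) (nat_lit 0) (nat_lit 0) (XT.lf (nat_lit 0) (nat_lit 66992681353) (nat_lit 76) (nat_lit 1024498184033) (nat_lit 76) (nat_lit 1020010075832) (nat_lit 1) (nat_lit 4) (nat_lit 2) (nat_lit 5) (nat_lit 2) (nat_lit 4) (nat_lit 356) (nat_lit 298) (nat_lit 246)) (XT.lf (nat_lit 0) (nat_lit 102569720198) (nat_lit 76) (nat_lit 1164157521211) (nat_lit 76) (nat_lit 1159669004247)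 (nat_lit 1) (nat_lit 4) (nat_lit 2) (nat_lit 5) (nat_lit 2) (nat_lit 4) (nat_lit 357) (nat_lit 298) (nat_lit 245))) (XT.nd (nat_lit 78) (nat_lit 0) (nat_lit 0) (XT.lf (nat_lit 0) (nat_lit 143478976773) (nat_lit 76) (nat_lit 1324768026175) (nat_lit 76) (nat_lit 1320279153764) (nat_lit 1) (nat_lit 4) (nat_lit 2) (nat_lit 5) (nat_lit 2) (nat_lit 4) (nat_lit 358) (nat_lit 298) (nat_lit 244)) (XT.nd (nat_lit 78) (nat_lit 0) (nat_lit 0) (XT.lf (nat_lit 0) (nat_lit 190520849576) (nat_lit 76) (nat_lit 1509472078368) (nat_lit 76) (nat_lit 1504982896873) (nat_lit 1) (nat_lit 4) (nat_lit 2) (nat_lit 5) (nat_lit 2) (nat_lit 4) (nat_lit 359) (nat_lit 298) (nat_lit 243)) (XT.lf (nat_lit 0) (nat_lit 244615723075) (nat_lit 76) (nat_lit 1721883452726) (nat_lit 76) (nat_lit 1717394002462) (nat_lit 1) (nat_lit 4) (nat_lit 2) (nat_lit 5) (nat_lit 2) (nat_lit 4) (nat_lit 360) (nat_lit 298) (nat_lit 242)))))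 (XT.nd (nat_lit 234) (nat_lit 0) (nat_lit 0) (XT.nd (nat_lit 78) (nat_lit 0) (nat_lit 0) (XT.lf (nat_lit 0) (nat_lit 306821975229) (nat_lit 76) (nat_lit 1966158023964) (nat_lit 76) (nat_lit 1961668339988) (nat_lit 1) (nat_lit 4) (nat_lit 2) (nat_lit 5) (nat_lit 2) (nat_lit 4) (nat_lit 361) (nat_lit 298) (nat_lit 241)) (XT.nd (nat_lit 78) (nat_lit 0) (nat_lit 0) (XT.lf (nat_lit 0) (nat_lit 378356684885) (nat_lit 76) (nat_lit 2247075077172) (nat_lit 76) (nat_lit 2242585189968) (nat_lit 1) (nat_lit 4) (nat_lit 2) (nat_lit 5) (nat_lit 2) (nat_lit 4) (nat_lit 362) (nat_lit 298) (nat_lit 240)) (XT.lf (nat_lit 0) (nat_lit 460619444189) (nat_lit 76) (nat_lit 2570130815564) (nat_lit 76) (nat_lit 2565640751640) (nat_lit 1) (nat_lit 4) (nat_lit 2) (nat_lit 5) (nat_lit 2) (nat_lit 4) (nat_lit 363) (nat_lit 298) (nat_lit 239)))) (XT.nd (nat_lit 78) (nat_lit 0) (nat_lit 0) (XT.lf (nat_lit 0) (nat_lit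 555219741909) (nat_lit 76) (nat_lit 2941645894891) (nat_lit 76) (nat_lit 2937155677299) (nat_lit 1) (nat_lit 4) (nat_lit 2) (nat_lit 5) (nat_lit 2) (nat_lit 4) (nat_lit 364) (nat_lit 298) (nat_lit 238)) (XT.nd (nat_lit 78) (nat_lit 0) (nat_lit 0) (XT.lf (nat_lit 0) (nat_lit 664008453436) (nat_lit 76) (nat_lit 3368889088446) (nat_lit 76) (nat_lit 3364398737227) (nat_lit 1) (nat_lit 4) (nat_lit 2) (nat_lit 5) (nat_lit 2) (nat_lit 4) (nat_lit 365) (nat_lit 298) (nat_lit 237)) (XT.lf (nat_lit 0) (nat_lit 789114053560) (nat_lit 76) (nat_lit 3860219502188) (nat_lit 76) (nat_lit 3855729034773) (nat_lit 1) (nat_lit 4) (nat_lit 2) (nat_lit 5) (nat_lit 2) (nat_lit 4) (nat_lit 366) (nat_lit 298) (nat_lit 236)))))) (XT.nd (nat_lit 390) (nat_lit 0) (nat_lit 0) (XT.nd (nat_lit 156) (nat_lit 0) (nat_lit 0) (XT.nd (nat_lit 78) (nat_lit 0) (nat_lit 0) (XT.lf (nat_lit 0) (nat_lit 932984260544) (nat_lit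 76) (nat_lit 4425250122473) (nat_lit 76) (nat_lit 4420759554019) (nat_lit 1) (nat_lit 4) (nat_lit 2) (nat_lit 5) (nat_lit 2) (nat_lit 4) (nat_lit 367) (nat_lit 298) (nat_lit 235)) (XT.lf (nat_lit 0) (nat_lit 1098433926265) (nat_lit 76) (nat_lit 5075035896221) (nat_lit 76) (nat_lit 5070545239905) (nat_lit 1) (nat_lit 4) (nat_lit 2) (nat_lit 5) (nat_lit 2) (nat_lit 4) (nat_lit 368) (nat_lit 298) (nat_lit 234))) (XT.nd (nat_lit 78) (nat_lit 0) (nat_lit 0) (XT.lf (nat_lit 0) (nat_lit 1288700109400) (nat_lit 76) (nat_lit 5822290023352) (nat_lit 76) (nat_lit 5817799290635) (nat_lit 1) (nat_lit 4) (nat_lit 2) (nat_lit 5) (nat_lit 2) (nat_lit 4) (nat_lit 369) (nat_lit 298) (nat_lit 233)) (XT.nd (nat_lit 78) (nat_lit 0) (nat_lit 0) (XT.lf (nat_lit 0) (nat_lit 1507505409183) (nat_lit 76) (nat_lit 6681632693310) (nat_lit 76) (nat_lit 6677141894158) (nat_lit 1) (nat_lit 4) (nat_lit 2) (nat_lit 5)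 (nat_lit 2) (nat_lit 4) (nat_lit 370) (nat_lit 298) (nat_lit 232)) (XT.lf (nat_lit 0) (nat_lit 1759130798872) (nat_lit 76) (nat_lit 7669877132246) (nat_lit 76) (nat_lit 7665386275324) (nat_lit 1) (nat_lit 4) (nat_lit 2) (nat_lit 5) (nat_lit 2) (nat_lit 4) (nat_lit 371) (nat_lit 298) (nat_lit 231))))) (XT.nd (nat_lit 234) (nat_lit 0) (nat_lit 0) (XT.nd (nat_lit 78) (nat_lit 0) (nat_lit 0) (XT.lf (nat_lit 0) (nat_lit 2048499383917) (nat_lit 76) (nat_lit 8806358557444) (nat_lit 76) (nat_lit 8801867650288) (nat_lit 1) (nat_lit 4) (nat_lit 2) (nat_lit 5) (nat_lit 2) (nat_lit 4) (nat_lit 372) (nat_lit 298) (nat_lit 230)) (XT.nd (nat_lit 78) (nat_lit 0) (nat_lit 0) (XT.lf (nat_lit 0) (nat_lit 2381272723590) (nat_lit 76) (nat_lit 10113312475050) (nat_lit 76) (nat_lit 10108821524211) (nat_lit 1) (nat_lit 4) (nat_lit 2) (nat_lit 5) (nat_lit 2) (nat_lit 4) (nat_lit 373) (nat_lit 298) (nat_lit 229))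 (XT.lf (nat_lit 0) (nat_lit 2763961600625) (nat_lit 76) (nat_lit 11616309722581) (nat_lit 76) (nat_lit 11611818733757) (nat_lit 1) (nat_lit 4) (nat_lit 2) (nat_lit 5) (nat_lit 2) (nat_lit 4) (nat_lit 374) (nat_lit 298) (nat_lit 228)))) (XT.nd (nat_lit 78) (nat_lit 0) (nat_lit 0) (XT.lf (nat_lit 0) (nat_lit 3204053406093) (nat_lit 76) (nat_lit 13344756767924) (nat_lit 76) (nat_lit 13340265746070) (nat_lit 1) (nat_lit 4) (nat_lit 2) (nat_lit 5) (nat_lit 2) (nat_lit 4) (nat_lit 375) (nat_lit 298) (nat_lit 227)) (XT.nd (nat_lit 78) (nat_lit 0) (nat_lit 0) (XT.lf (nat_lit 0) (nat_lit 3710158631841) (nat_lit 76) (nat_lit 15332471053271) (nat_lit 76) (nat_lit 15327980002695) (nat_lit 1) (nat_lit 4) (nat_lit 2) (nat_lit 5) (nat_lit 2) (nat_lit 4) (nat_lit 376) (nat_lit 298) (nat_lit 226)) (XT.lf (nat_lit 0) (nat_lit 4292179336633) (nat_lit 76) (nat_lit 17618342640726) (nat_lit 76) (nat_lit 17613851565175)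 (nat_lit 1) (nat_lit 4) (nat_lit 2) (nat_lit 5) (nat_lit 2) (nat_lit 4) (nat_lit 377) (nat_lit 298) (nat_lit 225))))))))
noncomputable def xc45 : XT := (XT.nd (nat_lit 41652) (nat_lit 0) (nat_lit 228) (XT.nd (nat_lit 858) (nat_lit 0) (nat_lit 0) (XT.nd (nat_lit 390) (nat_lit 0) (nat_lit 0) (XT.nd (nat_lit 156) (nat_lit 0) (nat_lit 0) (XT.nd (nat_lit 78) (nat_lit 0) (nat_lit 0) (XT.lf (nat_lit 0) (nat_lit 4961502882085) (nat_lit 76) (nat_lit 20247095104826) (nat_lit 76) (nat_lit 20242604007557) (nat_lit 1) (nat_lit 4) (nat_lit 2) (nat_lit 5) (nat_lit 2) (nat_lit 4) (nat_lit 378) (nat_lit 298) (nat_lit 224)) (XT.lf (nat_lit 0) (nat_lit 5731224728869) (nat_lit 76) (nat_lit 23270160559000) (nat_lit 76) (nat_lit 23265669442845) (nat_lit 1) (nat_lit 4) (nat_lit 2) (nat_lit 5) (nat_lit 2) (nat_lit 4) (nat_lit 379) (nat_lit 298) (nat_lit 223))) (XT.nd (nat_lit 78) (nat_lit 0) (nat_lit 0) (XT.lf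 (nat_lit 0) (nat_lit 6616404652248) (nat_lit 76) (nat_lit 26746685936045) (nat_lit 76) (nat_lit 26742194803469) (nat_lit 1) (nat_lit 4) (nat_lit 2) (nat_lit 5) (nat_lit 2) (nat_lit 4) (nat_lit 380) (nat_lit 298) (nat_lit 222)) (XT.nd (nat_lit 78) (nat_lit 0) (nat_lit 0) (XT.lf (nat_lit 0) (nat_lit 7634361389853) (nat_lit 76) (nat_lit 30744690210732) (nat_lit 76) (nat_lit 30740199063876) (nat_lit 1) (nat_lit 4) (nat_lit 2) (nat_lit 5) (nat_lit 2) (nat_lit 4) (nat_lit 381) (nat_lit 298) (nat_lit 221)) (XT.lf (nat_lit 0) (nat_lit 8805011486551) (nat_lit 76) (nat_lit 35342395205825) (nat_lit 76) (nat_lit 35337904046552) (nat_lit 1) (nat_lit 4) (nat_lit 2) (nat_lit 5) (nat_lit 2) (nat_lit 4) (nat_lit 382) (nat_lit 298) (nat_lit 220))))) (XT.nd (nat_lit 234) (nat_lit 0) (nat_lit 0) (XT.nd (nat_lit 78) (nat_lit 0) (nat_lit 0) (XT.lf (nat_lit 0) (nat_lit 10151258965972) (nat_lit 76) (nat_lit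 40629756019054) (nat_lit 76) (nat_lit 40625264848983) (nat_lit 1) (nat_lit 4) (nat_lit 2) (nat_lit 5) (nat_lit 2) (nat_lit 4) (nat_lit 383) (nat_lit 298) (nat_lit 219)) (XT.nd (nat_lit 78) (nat_lit 0) (nat_lit 0) (XT.lf (nat_lit 0) (nat_lit 11699443452714) (nat_lit 76) (nat_lit 46710221014157) (nat_lit 76) (nat_lit 46705729834697) (nat_lit 1) (nat_lit 4) (nat_lit 2) (nat_lit 5) (nat_lit 2) (nat_lit 4) (nat_lit 384) (nat_lit 298) (nat_lit 218)) (XT.lf (nat_lit 0) (nat_lit 13479855512822) (nat_lit 76) (nat_lit 53702755810602) (nat_lit 76) (nat_lit 53698264622978) (nat_lit 1) (nat_lit 4) (nat_lit 2) (nat_lit 5) (nat_lit 2) (nat_lit 4) (nat_lit 385) (nat_lit 298) (nat_lit 217)))) (XT.nd (nat_lit 78) (nat_lit 0) (nat_lit 0) (XT.lf (nat_lit 0) (nat_lit 15527329295298) (nat_lit 76) (nat_lit 61744170871800) (nat_lit 76) (nat_lit 61739679677075) (nat_lit 1) (nat_lit 4) (nat_lit 2) (nat_lit 5)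 (nat_lit 2) (nat_lit 4) (nat_lit 386) (nat_lit 298) (nat_lit 216)) (XT.nd (nat_lit 78) (nat_lit 0) (nat_lit 0) (XT.lf (nat_lit 0) (nat_lit 17881924069798) (nat_lit 76) (nat_lit 70991798231554) (nat_lit 76) (nat_lit 70987307030656) (nat_lit 1) (nat_lit 4) (nat_lit 2) (nat_lit 5) (nat_lit 2) (nat_lit 4) (nat_lit 387) (nat_lit 298) (nat_lit 215)) (XT.lf (nat_lit 0) (nat_lit 20589707994956) (nat_lit 76) (nat_lit 81626569729514) (nat_lit 76) (nat_lit 81622078523248) (nat_lit 1) (nat_lit 4) (nat_lit 2) (nat_lit 5) (nat_lit 2) (nat_lit 4) (nat_lit 388) (nat_lit 298) (nat_lit 214)))))) (XT.nd (nat_lit 40326) (nat_lit 0) (nat_lit 1520) (XT.nd (nat_lit 40092) (nat_lit 0) (nat_lit 2432) (XT.nd (nat_lit 78) (nat_lit 0) (nat_lit 0) (XT.lf (nat_lit 0) (nat_lit 23703659451914) (nat_lit 76) (nat_lit 93856556981943) (nat_lit 76) (nat_lit 93852065771009) (nat_lit 1) (nat_lit 4) (nat_lit 2) (nat_lit 5)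 (nat_lit 2) (nat_lit 4) (nat_lit 389) (nat_lit 298) (nat_lit 213)) (XT.lf (nat_lit 0) (nat_lit 27284703577875) (nat_lit 76) (nat_lit 107921042348128) (nat_lit 76) (nat_lit 107916551133135) (nat_lit 1) (nat_lit 4) (nat_lit 2) (nat_lit 5) (nat_lit 2) (nat_lit 4) (nat_lit 390) (nat_lit 298) (nat_lit 212))) (XT.nd (nat_lit 78) (nat_lit 228) (nat_lit 0) (XT.lf (nat_lit 0) (nat_lit 208867865) (nat_lit 76) (nat_lit 1527350971) (nat_lit 76) (nat_lit 1527350971) (nat_lit 36) (nat_lit 4) (nat_lit 37) (nat_lit 5) (nat_lit 37) (nat_lit 4) (nat_lit 302) (nat_lit 299) (nat_lit 299)) (XT.nd (nat_lit 78) (nat_lit 152) (nat_lit 0) (XT.lf (nat_lit 0) (nat_lit 104142085) (nat_lit 152) (nat_lit 2146039608) (nat_lit 76) (nat_lit 4407839046) (nat_lit 35) (nat_lit 5) (nat_lit 37) (nat_lit 5) (nat_lit 36) (nat_lit 4) (nat_lit 303) (nat_lit 299) (nat_lit 298)) (XT.lf (nat_lit 0) (nat_lit 2056739898) (nat_lit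 152) (nat_lit 960705129) (nat_lit 228) (nat_lit 3831867064) (nat_lit 33) (nat_lit 5) (nat_lit 35) (nat_lit 5) (nat_lit 36) (nat_lit 4) (nat_lit 304) (nat_lit 299) (nat_lit 297))))) (XT.nd (nat_lit 234) (nat_lit 304) (nat_lit 0) (XT.nd (nat_lit 78) (nat_lit 608) (nat_lit 0) (XT.lf (nat_lit 0) (nat_lit 6066548892) (nat_lit 228) (nat_lit 393891222) (nat_lit 0) (nat_lit 655430732) (nat_lit 33) (nat_lit 5) (nat_lit 36) (nat_lit 4) (nat_lit 33) (nat_lit 4) (nat_lit 305) (nat_lit 299) (nat_lit 296)) (XT.nd (nat_lit 78) (nat_lit 304) (nat_lit 0) (XT.lf (nat_lit 0) (nat_lit 1806322735) (nat_lit 304) (nat_lit 2882548078) (nat_lit 76) (nat_lit 2744162335) (nat_lit 29) (nat_lit 5) (nat_lit 33) (nat_lit 5) (nat_lit 30) (nat_lit 4) (nat_lit 306) (nat_lit 299) (nat_lit 295)) (XT.lf (nat_lit 0) (nat_lit 2226895033) (nat_lit 304) (nat_lit 2503950806) (nat_lit 380) (nat_lit 3098151376) (nat_lit 25) (nat_lit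 5) (nat_lit 29) (nat_lit 5) (nat_lit 30) (nat_lit 4) (nat_lit 307) (nat_lit 299) (nat_lit 294)))) (XT.nd (nat_lit 78) (nat_lit 304) (nat_lit 0) (XT.lf (nat_lit 0) (nat_lit 7915860130) (nat_lit 380) (nat_lit 279305557) (nat_lit 0) (nat_lit 116715620) (nat_lit 25) (nat_lit 5) (nat_lit 30) (nat_lit 4) (nat_lit 25) (nat_lit 4) (nat_lit 308) (nat_lit 299) (nat_lit 293)) (XT.nd (nat_lit 78) (nat_lit 76) (nat_lit 0) (XT.lf (nat_lit 0) (nat_lit 2542291916) (nat_lit 228) (nat_lit 3107956144) (nat_lit 76) (nat_lit 3189873649) (nat_lit 22) (nat_lit 5) (nat_lit 25) (nat_lit 5) (nat_lit 23) (nat_lit 4) (nat_lit 309) (nat_lit 299) (nat_lit 292)) (XT.lf (nat_lit 0) (nat_lit 3096827042) (nat_lit 76) (nat_lit 2644753010) (nat_lit 152) (nat_lit 3724597683) (nat_lit 21) (nat_lit 5) (nat_lit 22) (nat_lit 5) (nat_lit 23) (nat_lit 4) (nat_lit 310) (nat_lit 299) (nat_lit 291))))))) (XT.nd (nat_lit 858) (nat_lit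 532) (nat_lit 0) (XT.nd (nat_lit 390) (nat_lit 304) (nat_lit 0) (XT.nd (nat_lit 156) (nat_lit 228) (nat_lit 0) (XT.nd (nat_lit 78) (nat_lit 228) (nat_lit 0) (XT.lf (nat_lit 0) (nat_lit 9358628453) (nat_lit 152) (nat_lit 29429993) (nat_lit 0) (nat_lit 807859536) (nat_lit 21) (nat_lit 5) (nat_lit 23) (nat_lit 4) (nat_lit 21) (nat_lit 4) (nat_lit 311) (nat_lit 299) (nat_lit 290)) (XT.lf (nat_lit 0) (nat_lit 2474262928) (nat_lit 228) (nat_lit 3674063304) (nat_lit 76) (nat_lit 4839882845) (nat_lit 18) (nat_lit 5) (nat_lit 21) (nat_lit 5) (nat_lit 19) (nat_lit 4) (nat_lit 312) (nat_lit 299) (nat_lit 289))) (XT.nd (nat_lit 78) (nat_lit 152) (nat_lit 0) (XT.lf (nat_lit 0) (nat_lit 3800938471) (nat_lit 76) (nat_lit 2329224042) (nat_lit 152) (nat_lit 5773499911) (nat_lit 17) (nat_lit 5) (nat_lit 18) (nat_lit 5) (nat_lit 19) (nat_lit 4) (nat_lit 313) (nat_lit 299) (nat_lit 288)) (XT.nd (nat_lit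 78) (nat_lit 152) (nat_lit 0) (XT.lf (nat_lit 0) (nat_lit 10405012465) (nat_lit 152) (nat_lit 582912582) (nat_lit 0) (nat_lit 1958184558) (nat_lit 17) (nat_lit 5) (nat_lit 19) (nat_lit 4) (nat_lit 17) (nat_lit 4) (nat_lit 314) (nat_lit 299) (nat_lit 287)) (XT.lf (nat_lit 0) (nat_lit 1354037548) (nat_lit 152) (nat_lit 5788910814) (nat_lit 76) (nat_lit 6952479919) (nat_lit 15) (nat_lit 5) (nat_lit 17) (nat_lit 5) (nat_lit 16) (nat_lit 4) (nat_lit 315) (nat_lit 299) (nat_lit 286))))) (XT.nd (nat_lit 234) (nat_lit 152) (nat_lit 0) (XT.nd (nat_lit 78) (nat_lit 76) (nat_lit 0) (XT.lf (nat_lit 0) (nat_lit 3000987438) (nat_lit 76) (nat_lit 2543807087) (nat_lit 152) (nat_lit 9858644113) (nat_lit 14) (nat_lit 5) (nat_lit 15) (nat_lit 5) (nat_lit 16) (nat_lit 4) (nat_lit 316) (nat_lit 299) (nat_lit 285)) (XT.nd (nat_lit 78) (nat_lit 76) (nat_lit 0) (XT.lf (nat_lit 0) (nat_lit 10615674366) (nat_lit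 152) (nat_lit 3562050084) (nat_lit 0) (nat_lit 2692348725) (nat_lit 14) (nat_lit 5) (nat_lit 16) (nat_lit 4) (nat_lit 14) (nat_lit 4) (nat_lit 317) (nat_lit 299) (nat_lit 284)) (XT.lf (nat_lit 0) (nat_lit 6800274370) (nat_lit 76) (nat_lit 9893825503) (nat_lit 76) (nat_lit 1825695556) (nat_lit 13) (nat_lit 4) (nat_lit 14) (nat_lit 5) (nat_lit 14) (nat_lit 4) (nat_lit 318) (nat_lit 299) (nat_lit 283)))) (XT.nd (nat_lit 78) (nat_lit 76) (nat_lit 0) (XT.lf (nat_lit 0) (nat_lit 3017519883) (nat_lit 152) (nat_lit 1706378986) (nat_lit 76) (nat_lit 15666718440) (nat_lit 12) (nat_lit 5) (nat_lit 14) (nat_lit 5) (nat_lit 13) (nat_lit 4) (nat_lit 319) (nat_lit 299) (nat_lit 282)) (XT.nd (nat_lit 78) (nat_lit 0) (nat_lit 0) (XT.lf (nat_lit 0) (nat_lit 8767128715) (nat_lit 152) (nat_lit 12160294647) (nat_lit 0) (nat_lit 1546659503) (nat_lit 11) (nat_lit 5) (nat_lit 13) (nat_lit 4) (nat_lit 11) (nat_lit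 4) (nat_lit 320) (nat_lit 299) (nat_lit 281)) (XT.lf (nat_lit 0) (nat_lit 15566409724) (nat_lit 152) (nat_lit 1012499813) (nat_lit 0) (nat_lit 8263148180) (nat_lit 11) (nat_lit 5) (nat_lit 13) (nat_lit 4) (nat_lit 11) (nat_lit 4) (nat_lit 321) (nat_lit 299) (nat_lit 280)))))) (XT.nd (nat_lit 390) (nat_lit 228) (nat_lit 0) (XT.nd (nat_lit 156) (nat_lit 152) (nat_lit 0) (XT.nd (nat_lit 78) (nat_lit 76) (nat_lit 0) (XT.lf (nat_lit 0) (nat_lit 12717612955) (nat_lit 76) (nat_lit 11080525878) (nat_lit 76) (nat_lit 3705271002) (nat_lit 10) (nat_lit 4) (nat_lit 11) (nat_lit 5) (nat_lit 11) (nat_lit 4) (nat_lit 322) (nat_lit 299) (nat_lit 279)) (XT.lf (nat_lit 0) (nat_lit 2402531716) (nat_lit 152) (nat_lit 2272414584) (nat_lit 76) (nat_lit 25880947760) (nat_lit 9) (nat_lit 5) (nat_lit 11) (nat_lit 5) (nat_lit 10) (nat_lit 4) (nat_lit 323) (nat_lit 299) (nat_lit 278))) (XT.nd (nat_lit 78) (nat_lit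 76) (nat_lit 0) (XT.lf (nat_lit 0) (nat_lit 9624067514) (nat_lit 152) (nat_lit 21220194451) (nat_lit 0) (nat_lit 3109028317) (nat_lit 8) (nat_lit 5) (nat_lit 10) (nat_lit 4) (nat_lit 8) (nat_lit 4) (nat_lit 324) (nat_lit 299) (nat_lit 277)) (XT.nd (nat_lit 78) (nat_lit 76) (nat_lit 0) (XT.lf (nat_lit 0) (nat_lit 18178863552) (nat_lit 152) (nat_lit 8021302809) (nat_lit 0) (nat_lit 11622661934) (nat_lit 8) (nat_lit 5) (nat_lit 10) (nat_lit 4) (nat_lit 8) (nat_lit 4) (nat_lit 325) (nat_lit 299) (nat_lit 276)) (XT.lf (nat_lit 0) (nat_lit 7670405601) (nat_lit 76) (nat_lit 20579716035) (nat_lit 76) (nat_lit 13987721007) (nat_lit 7) (nat_lit 4) (nat_lit 8) (nat_lit 5) (nat_lit 8) (nat_lit 4) (nat_lit 326) (nat_lit 299) (nat_lit 275))))) (XT.nd (nat_lit 234) (nat_lit 76) (nat_lit 0) (XT.nd (nat_lit 78) (nat_lit 152) (nat_lit 0) (XT.lf (nat_lit 0) (nat_lit 26455188054) (nat_lit 76) (nat_lit 13716093365)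 (nat_lit 76) (nat_lit 7092973633) (nat_lit 7) (nat_lit 4) (nat_lit 8) (nat_lit 5) (nat_lit 8) (nat_lit 4) (nat_lit 327) (nat_lit 299) (nat_lit 274)) (XT.nd (nat_lit 78) (nat_lit 76) (nat_lit 0) (XT.lf (nat_lit 0) (nat_lit 688585639) (nat_lit 152) (nat_lit 5169725566) (nat_lit 76) (nat_lit 47192092964) (nat_lit 6) (nat_lit 5) (nat_lit 8) (nat_lit 5) (nat_lit 7) (nat_lit 4) (nat_lit 328) (nat_lit 299) (nat_lit 273)) (XT.lf (nat_lit 0) (nat_lit 9580756799) (nat_lit 152) (nat_lit 46195116061) (nat_lit 0) (nat_lit 3777522503) (nat_lit 5) (nat_lit 5) (nat_lit 7) (nat_lit 4) (nat_lit 5) (nat_lit 4) (nat_lit 329) (nat_lit 299) (nat_lit 272)))) (XT.nd (nat_lit 78) (nat_lit 76) (nat_lit 0) (XT.lf (nat_lit 0) (nat_lit 20305955934) (nat_lit 152) (nat_lit 32166088895) (nat_lit 0) (nat_lit 14484925987) (nat_lit 5) (nat_lit 5) (nat_lit 7) (nat_lit 4) (nat_lit 5) (nat_lit 4) (nat_lit 330) (nat_lit 299)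 (nat_lit 271)) (XT.nd (nat_lit 78) (nat_lit 76) (nat_lit 0) (XT.lf (nat_lit 0) (nat_lit 32585266315) (nat_lit 152) (nat_lit 16145268525) (nat_lit 0) (nat_lit 26748761889) (nat_lit 5) (nat_lit 5) (nat_lit 7) (nat_lit 4) (nat_lit 5) (nat_lit 4) (nat_lit 331) (nat_lit 299) (nat_lit 270)) (XT.lf (nat_lit 0) (nat_lit 2393919116) (nat_lit 76) (nat_lit 44364143288) (nat_lit 76) (nat_lit 38514182794) (nat_lit 4) (nat_lit 4) (nat_lit 5) (nat_lit 5) (nat_lit 5) (nat_lit 4) (nat_lit 332) (nat_lit 299) (nat_lit 269))))))))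
noncomputable def xc46 : XT := (XT.nd (nat_lit 1638) (nat_lit 76) (nat_lit 0) (XT.nd (nat_lit 780) (nat_lit 0) (nat_lit 0) (XT.nd (nat_lit 390) (nat_lit 76) (nat_lit 0) (XT.nd (nat_lit 156) (nat_lit 76) (nat_lit 0) (XT.nd (nat_lit 78) (nat_lit 0) (nat_lit 0) (XT.lf (nat_lit 0) (nat_lit 25435062951) (nat_lit 76) (nat_lit 38420466104) (nat_lit 76) (nat_lit 32558804681) (nat_lit 4) (nat_lit 4) (nat_lit 5) (nat_lit 5) (nat_lit 5) (nat_lit 4) (nat_lit 333) (nat_lit 299) (nat_lit 268)) (XT.lf (nat_lit 0) (nat_lit 51851134907) (nat_lit 76) (nat_lit 31627171170) (nat_lit 76) (nat_lit 25755335026) (nat_lit 4) (nat_lit 4) (nat_lit 5) (nat_lit 5) (nat_lit 5) (nat_lit 4) (nat_lit 334) (nat_lit 299) (nat_lit 267))) (XT.nd (nat_lit 78) (nat_lit 76) (nat_lit 0) (XT.lf (nat_lit 0) (nat_lit 82158971175) (nat_lit 76) (nat_lit 23851346195) (nat_lit 76) (nat_lit 17970662467) (nat_lit 4) (nat_lit 4) (nat_lit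 5) (nat_lit 5) (nat_lit 5) (nat_lit 4) (nat_lit 335) (nat_lit 299) (nat_lit 266)) (XT.nd (nat_lit 78) (nat_lit 76) (nat_lit 0) (XT.lf (nat_lit 0) (nat_lit 116951551159) (nat_lit 76) (nat_lit 14940855472) (nat_lit 76) (nat_lit 9052478193) (nat_lit 4) (nat_lit 4) (nat_lit 5) (nat_lit 5) (nat_lit 5) (nat_lit 4) (nat_lit 336) (nat_lit 299) (nat_lit 265)) (XT.lf (nat_lit 0) (nat_lit 1069212762) (nat_lit 152) (nat_lit 3596259884) (nat_lit 76) (nat_lit 155784495823) (nat_lit 3) (nat_lit 5) (nat_lit 5) (nat_lit 5) (nat_lit 4) (nat_lit 4) (nat_lit 337) (nat_lit 299) (nat_lit 264))))) (XT.nd (nat_lit 156) (nat_lit 0) (nat_lit 0) (XT.nd (nat_lit 78) (nat_lit 0) (nat_lit 0) (XT.lf (nat_lit 0) (nat_lit 12997288892) (nat_lit 152) (nat_lit 161770545044) (nat_lit 0) (nat_lit 7866084760) (nat_lit 2) (nat_lit 5) (nat_lit 4) (nat_lit 4) (nat_lit 2) (nat_lit 4) (nat_lit 338) (nat_lit 299) (nat_lit 263))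 (XT.lf (nat_lit 0) (nat_lit 27110274681) (nat_lit 152) (nat_lit 159001164242) (nat_lit 0) (nat_lit 21974671736) (nat_lit 2) (nat_lit 5) (nat_lit 4) (nat_lit 4) (nat_lit 2) (nat_lit 4) (nat_lit 339) (nat_lit 299) (nat_lit 262))) (XT.nd (nat_lit 78) (nat_lit 0) (nat_lit 0) (XT.lf (nat_lit 0) (nat_lit 43319856019) (nat_lit 152) (nat_lit 155858903649) (nat_lit 0) (nat_lit 38180428019) (nat_lit 2) (nat_lit 5) (nat_lit 4) (nat_lit 4) (nat_lit 2) (nat_lit 4) (nat_lit 340) (nat_lit 299) (nat_lit 261)) (XT.nd (nat_lit 78) (nat_lit 0) (nat_lit 0) (XT.lf (nat_lit 0) (nat_lit 61943176889) (nat_lit 152) (nat_lit 152282284253) (nat_lit 0) (nat_lit 56800422754) (nat_lit 2) (nat_lit 5) (nat_lit 4) (nat_lit 4) (nat_lit 2) (nat_lit 4) (nat_lit 341) (nat_lit 299) (nat_lit 260)) (XT.lf (nat_lit 0) (nat_lit 83344606612) (nat_lit 152) (nat_lit 148201328719) (nat_lit 0) (nat_lit 78198960187) (nat_lit 2) (nat_lit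 5) (nat_lit 4) (nat_lit 4) (nat_lit 2) (nat_lit 4) (nat_lit 342) (nat_lit 299) (nat_lit 259)))))) (XT.nd (nat_lit 390) (nat_lit 0) (nat_lit 0) (XT.nd (nat_lit 156) (nat_lit 0) (nat_lit 0) (XT.nd (nat_lit 78) (nat_lit 0) (nat_lit 0) (XT.lf (nat_lit 0) (nat_lit 107942868813) (nat_lit 152) (nat_lit 143536192263) (nat_lit 0) (nat_lit 102794707352) (nat_lit 2) (nat_lit 5) (nat_lit 4) (nat_lit 4) (nat_lit 2) (nat_lit 4) (nat_lit 343) (nat_lit 299) (nat_lit 258)) (XT.lf (nat_lit 0) (nat_lit 136219233840) (nat_lit 152) (nat_lit 138195600477) (nat_lit 0) (nat_lit 131068885392) (nat_lit 2) (nat_lit 5) (nat_lit 4) (nat_lit 4) (nat_lit 2) (nat_lit 4) (nat_lit 344) (nat_lit 299) (nat_lit 257))) (XT.nd (nat_lit 78) (nat_lit 0) (nat_lit 0) (XT.lf (nat_lit 0) (nat_lit 168726934921) (nat_lit 152) (nat_lit 132075063523) (nat_lit 0) (nat_lit 163574684745) (nat_lit 2) (nat_lit 5) (nat_lit 4) (nat_lit 4)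 (nat_lit 2) (nat_lit 4) (nat_lit 345) (nat_lit 299) (nat_lit 256)) (XT.nd (nat_lit 78) (nat_lit 0) (nat_lit 0) (XT.lf (nat_lit 0) (nat_lit 206101992296) (nat_lit 152) (nat_lit 125054831763) (nat_lit 0) (nat_lit 200948088443) (nat_lit 2) (nat_lit 5) (nat_lit 4) (nat_lit 4) (nat_lit 2) (nat_lit 4) (nat_lit 346) (nat_lit 299) (nat_lit 255)) (XT.lf (nat_lit 0) (nat_lit 249075657086) (nat_lit 152) (nat_lit 116997552837) (nat_lit 0) (nat_lit 243920315254) (nat_lit 2) (nat_lit 5) (nat_lit 4) (nat_lit 4) (nat_lit 2) (nat_lit 4) (nat_lit 347) (nat_lit 299) (nat_lit 254))))) (XT.nd (nat_lit 234) (nat_lit 0) (nat_lit 0) (XT.nd (nat_lit 78) (nat_lit 0) (nat_lit 0) (XT.lf (nat_lit 0) (nat_lit 298488718385) (nat_lit 152) (nat_lit 107745584332) (nat_lit 0) (nat_lit 293332126136) (nat_lit 2) (nat_lit 5) (nat_lit 4) (nat_lit 4) (nat_lit 2) (nat_lit 4) (nat_lit 348) (nat_lit 299) (nat_lit 253)) (XT.nd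 (nat_lit 78) (nat_lit 0) (nat_lit 0) (XT.lf (nat_lit 0) (nat_lit 355307953480) (nat_lit 152) (nat_lit 97117909472) (nat_lit 0) (nat_lit 350150273912) (nat_lit 2) (nat_lit 5) (nat_lit 4) (nat_lit 4) (nat_lit 2) (nat_lit 4) (nat_lit 349) (nat_lit 299) (nat_lit 252)) (XT.lf (nat_lit 0) (nat_lit 420645043057) (nat_lit 152) (nat_lit 84906595488) (nat_lit 0) (nat_lit 415486417994) (nat_lit 2) (nat_lit 5) (nat_lit 4) (nat_lit 4) (nat_lit 2) (nat_lit 4) (nat_lit 350) (nat_lit 299) (nat_lit 251)))) (XT.nd (nat_lit 78) (nat_lit 0) (nat_lit 0) (XT.lf (nat_lit 0) (nat_lit 495778321478) (nat_lit 152) (nat_lit 70872725368) (nat_lit 0) (nat_lit 490618874245) (nat_lit 2) (nat_lit 5) (nat_lit 4) (nat_lit 4) (nat_lit 2) (nat_lit 4) (nat_lit 351) (nat_lit 299) (nat_lit 250)) (XT.nd (nat_lit 78) (nat_lit 0) (nat_lit 0) (XT.lf (nat_lit 0) (nat_lit 582177787668) (nat_lit 152) (nat_lit 54741723392) (nat_lit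 0) (nat_lit 577017625504) (nat_lit 2) (nat_lit 5) (nat_lit 4) (nat_lit 4) (nat_lit 2) (nat_lit 4) (nat_lit 352) (nat_lit 299) (nat_lit 249)) (XT.lf (nat_lit 0) (nat_lit 681533865965) (nat_lit 152) (nat_lit 36197983000) (nat_lit 0) (nat_lit 676373082124) (nat_lit 2) (nat_lit 5) (nat_lit 4) (nat_lit 4) (nat_lit 2) (nat_lit 4) (nat_lit 353) (nat_lit 299) (nat_lit 248))))))) (XT.nd (nat_lit 858) (nat_lit 0) (nat_lit 0) (XT.nd (nat_lit 390) (nat_lit 0) (nat_lit 0) (XT.nd (nat_lit 156) (nat_lit 0) (nat_lit 0) (XT.nd (nat_lit 78) (nat_lit 76) (nat_lit 0) (XT.lf (nat_lit 0) (nat_lit 795790479641) (nat_lit 152) (nat_lit 14878691879) (nat_lit 0) (nat_lit 790629155210) (nat_lit 2) (nat_lit 5) (nat_lit 4) (nat_lit 4) (nat_lit 2) (nat_lit 4) (nat_lit 354) (nat_lit 299) (nat_lit 247)) (XT.lf (nat_lit 0) (nat_lit 10574699401) (nat_lit 76) (nat_lit 917046260530) (nat_lit 76) (nat_lit 911884466021) (nat_lit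 1) (nat_lit 4) (nat_lit 2) (nat_lit 5) (nat_lit 2) (nat_lit 4) (nat_lit 355) (nat_lit 299) (nat_lit 246))) (XT.nd (nat_lit 78) (nat_lit 0) (nat_lit 0) (XT.lf (nat_lit 0) (nat_lit 41513272639) (nat_lit 76) (nat_lit 1038488107909) (nat_lit 76) (nat_lit 1033325904636) (nat_lit 1) (nat_lit 4) (nat_lit 2) (nat_lit 5) (nat_lit 2) (nat_lit 4) (nat_lit 356) (nat_lit 299) (nat_lit 245)) (XT.nd (nat_lit 78) (nat_lit 0) (nat_lit 0) (XT.lf (nat_lit 0) (nat_lit 77088293765) (nat_lit 76) (nat_lit 1178148499602) (nat_lit 76) (nat_lit 1172985940883) (nat_lit 1) (nat_lit 4) (nat_lit 2) (nat_lit 5) (nat_lit 2) (nat_lit 4) (nat_lit 357) (nat_lit 299) (nat_lit 244)) (XT.lf (nat_lit 0) (nat_lit 117995795801) (nat_lit 76) (nat_lit 1338759921536) (nat_lit 76) (nat_lit 1333597053732) (nat_lit 1) (nat_lit 4) (nat_lit 2) (nat_lit 5) (nat_lit 2) (nat_lit 4) (nat_lit 358) (nat_lit 299) (nat_lit 243))))) (XT.nd (nat_lit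 234) (nat_lit 0) (nat_lit 0) (XT.nd (nat_lit 78) (nat_lit 0) (nat_lit 0) (XT.lf (nat_lit 0) (nat_lit 165036142918) (nat_lit 76) (nat_lit 1523464771095) (nat_lit 76) (nat_lit 1518301634523) (nat_lit 1) (nat_lit 4) (nat_lit 2) (nat_lit 5) (nat_lit 2) (nat_lit 4) (nat_lit 359) (nat_lit 299) (nat_lit 242)) (XT.nd (nat_lit 78) (nat_lit 0) (nat_lit 0) (XT.lf (nat_lit 0) (nat_lit 219129689733) (nat_lit 76) (nat_lit 1735876838814) (nat_lit 76) (nat_lit 1730713468530) (nat_lit 1) (nat_lit 4) (nat_lit 2) (nat_lit 5) (nat_lit 2) (nat_lit 4) (nat_lit 360) (nat_lit 299) (nat_lit 241)) (XT.lf (nat_lit 0) (nat_lit 281334788250) (nat_lit 76) (nat_lit 1980152012974) (nat_lit 76) (nat_lit 1974988439463) (nat_lit 1) (nat_lit 4) (nat_lit 2) (nat_lit 5) (nat_lit 2) (nat_lit 4) (nat_lit 361) (nat_lit 299) (nat_lit 240)))) (XT.nd (nat_lit 78) (nat_lit 0) (nat_lit 0) (XT.lf (nat_lit 0) (nat_lit 352868494743)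 (nat_lit 76) (nat_lit 2261069590463) (nat_lit 76) (nat_lit 2255905840231) (nat_lit 1) (nat_lit 4) (nat_lit 2) (nat_lit 5) (nat_lit 2) (nat_lit 4) (nat_lit 362) (nat_lit 299) (nat_lit 239)) (XT.nd (nat_lit 78) (nat_lit 0) (nat_lit 0) (XT.lf (nat_lit 0) (nat_lit 435130381731) (nat_lit 76) (nat_lit 2584125784751) (nat_lit 76) (nat_lit 2578961880850) (nat_lit 1) (nat_lit 4) (nat_lit 2) (nat_lit 5) (nat_lit 2) (nat_lit 4) (nat_lit 363) (nat_lit 299) (nat_lit 238)) (XT.lf (nat_lit 0) (nat_lit 529729920915) (nat_lit 76) (nat_lit 2955641260510) (nat_lit 76) (nat_lit 2950477222983) (nat_lit 1) (nat_lit 4) (nat_lit 2) (nat_lit 5) (nat_lit 2) (nat_lit 4) (nat_lit 364) (nat_lit 299) (nat_lit 237)))))) (XT.nd (nat_lit 390) (nat_lit 0) (nat_lit 0) (XT.nd (nat_lit 156) (nat_lit 0) (nat_lit 0) (XT.nd (nat_lit 78) (nat_lit 0) (nat_lit 0) (XT.lf (nat_lit 0) (nat_lit 638517972846) (nat_lit 76) (nat_lit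 3382884798787) (nat_lit 76) (nat_lit 3377720645065) (nat_lit 1) (nat_lit 4) (nat_lit 2) (nat_lit 5) (nat_lit 2) (nat_lit 4) (nat_lit 365) (nat_lit 299) (nat_lit 236)) (XT.lf (nat_lit 0) (nat_lit 763622999408) (nat_lit 76) (nat_lit 3874215512288) (nat_lit 76) (nat_lit 3869051257526) (nat_lit 1) (nat_lit 4) (nat_lit 2) (nat_lit 5) (nat_lit 2) (nat_lit 4) (nat_lit 366) (nat_lit 299) (nat_lit 235))) (XT.nd (nat_lit 78) (nat_lit 0) (nat_lit 0) (XT.lf (nat_lit 0) (nat_lit 907492707643) (nat_lit 76) (nat_lit 4439246393234) (nat_lit 76) (nat_lit 4434082050610) (nat_lit 1) (nat_lit 4) (nat_lit 2) (nat_lit 5) (nat_lit 2) (nat_lit 4) (nat_lit 367) (nat_lit 299) (nat_lit 234)) (XT.nd (nat_lit 78) (nat_lit 0) (nat_lit 0) (XT.lf (nat_lit 0) (nat_lit 1072941939669) (nat_lit 76) (nat_lit 5089032393643) (nat_lit 76) (nat_lit 5083867974618) (nat_lit 1) (nat_lit 4) (nat_lit 2) (nat_lit 5) (nat_lit 2) (nat_lit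 4) (nat_lit 368) (nat_lit 299) (nat_lit 233)) (XT.lf (nat_lit 0) (nat_lit 1263207745677) (nat_lit 76) (nat_lit 5836286717870) (nat_lit 76) (nat_lit 5831122232410) (nat_lit 1) (nat_lit 4) (nat_lit 2) (nat_lit 5) (nat_lit 2) (nat_lit 4) (nat_lit 369) (nat_lit 299) (nat_lit 232))))) (XT.nd (nat_lit 234) (nat_lit 0) (nat_lit 0) (XT.nd (nat_lit 78) (nat_lit 0) (nat_lit 0) (XT.lf (nat_lit 0) (nat_lit 1482012717525) (nat_lit 76) (nat_lit 6695629559216) (nat_lit 76) (nat_lit 6690465015986) (nat_lit 1) (nat_lit 4) (nat_lit 2) (nat_lit 5) (nat_lit 2) (nat_lit 4) (nat_lit 370) (nat_lit 299) (nat_lit 231)) (XT.nd (nat_lit 78) (nat_lit 0) (nat_lit 0) (XT.lf (nat_lit 0) (nat_lit 1733637822052) (nat_lit 76) (nat_lit 7683874147186) (nat_lit 76) (nat_lit 7678709553721) (nat_lit 1) (nat_lit 4) (nat_lit 2) (nat_lit 5) (nat_lit 2) (nat_lit 4) (nat_lit 371) (nat_lit 299) (nat_lit 230)) (XT.lf (nat_lit 0)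 (nat_lit 2023006159130) (nat_lit 76) (nat_lit 8820355701978) (nat_lit 76) (nat_lit 8815191064831) (nat_lit 1) (nat_lit 4) (nat_lit 2) (nat_lit 5) (nat_lit 2) (nat_lit 4) (nat_lit 372) (nat_lit 299) (nat_lit 229)))) (XT.nd (nat_lit 78) (nat_lit 0) (nat_lit 0) (XT.lf (nat_lit 0) (nat_lit 2355779283180) (nat_lit 76) (nat_lit 10127309732274) (nat_lit 76) (nat_lit 10122145057143) (nat_lit 1) (nat_lit 4) (nat_lit 2) (nat_lit 5) (nat_lit 2) (nat_lit 4) (nat_lit 373) (nat_lit 299) (nat_lit 228)) (XT.nd (nat_lit 78) (nat_lit 0) (nat_lit 0) (XT.lf (nat_lit 0) (nat_lit 2738467972717) (nat_lit 76) (nat_lit 11630307077797) (nat_lit 76) (nat_lit 11625142369635) (nat_lit 1) (nat_lit 4) (nat_lit 2) (nat_lit 5) (nat_lit 2) (nat_lit 4) (nat_lit 374) (nat_lit 299) (nat_lit 227)) (XT.lf (nat_lit 0) (nat_lit 3178559615143) (nat_lit 76) (nat_lit 13358754208351) (nat_lit 76) (nat_lit 13353589471467) (nat_lit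 1) (nat_lit 4) (nat_lit 2) (nat_lit 5) (nat_lit 2) (nat_lit 4) (nat_lit 375) (nat_lit 299) (nat_lit 226))))))))
noncomputable def xc47 : XT := (XT.nd (nat_lit 41496) (nat_lit 0) (nat_lit 456) (XT.nd (nat_lit 858) (nat_lit 0) (nat_lit 0) (XT.nd (nat_lit 390) (nat_lit 0) (nat_lit 0) (XT.nd (nat_lit 156) (nat_lit 0) (nat_lit 0) (XT.nd (nat_lit 78) (nat_lit 0) (nat_lit 0) (XT.lf (nat_lit 0) (nat_lit 3684664699115) (nat_lit 76) (nat_lit 15346468567793) (nat_lit 76) (nat_lit 15341303805934) (nat_lit 1) (nat_lit 4) (nat_lit 2) (nat_lit 5) (nat_lit 2) (nat_lit 4) (nat_lit 376) (nat_lit 299) (nat_lit 225)) (XT.lf (nat_lit 0) (nat_lit 4266685280624) (nat_lit 76) (nat_lit 17632340219680) (nat_lit 76) (nat_lit 17627175436102) (nat_lit 1) (nat_lit 4) (nat_lit 2) (nat_lit 5) (nat_lit 2) (nat_lit 4) (nat_lit 377) (nat_lit 299) (nat_lit 224))) (XT.nd (nat_lit 78) (nat_lit 0) (nat_lit 0) (XT.lf (nat_lit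 0) (nat_lit 4936008718873) (nat_lit 76) (nat_lit 20261092739807) (nat_lit 76) (nat_lit 20255927937344) (nat_lit 1) (nat_lit 4) (nat_lit 2) (nat_lit 5) (nat_lit 2) (nat_lit 4) (nat_lit 378) (nat_lit 299) (nat_lit 223)) (XT.nd (nat_lit 78) (nat_lit 0) (nat_lit 0) (XT.lf (nat_lit 0) (nat_lit 5705730472437) (nat_lit 76) (nat_lit 23284158242700) (nat_lit 76) (nat_lit 23278993423815) (nat_lit 1) (nat_lit 4) (nat_lit 2) (nat_lit 5) (nat_lit 2) (nat_lit 4) (nat_lit 379) (nat_lit 299) (nat_lit 222)) (XT.lf (nat_lit 0) (nat_lit 6590910314755) (nat_lit 76) (nat_lit 26760683662110) (nat_lit 76) (nat_lit 26755518828946) (nat_lit 1) (nat_lit 4) (nat_lit 2) (nat_lit 5) (nat_lit 2) (nat_lit 4) (nat_lit 380) (nat_lit 299) (nat_lit 221))))) (XT.nd (nat_lit 234) (nat_lit 0) (nat_lit 0) (XT.nd (nat_lit 78) (nat_lit 0) (nat_lit 0) (XT.lf (nat_lit 0) (nat_lit 7608866981873) (nat_lit 76) (nat_lit 30758687973635)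 (nat_lit 76) (nat_lit 30753523128054) (nat_lit 1) (nat_lit 4) (nat_lit 2) (nat_lit 5) (nat_lit 2) (nat_lit 4) (nat_lit 381) (nat_lit 299) (nat_lit 220)) (XT.nd (nat_lit 78) (nat_lit 0) (nat_lit 0) (XT.lf (nat_lit 0) (nat_lit 8779517017277) (nat_lit 76) (nat_lit 35356393000762) (nat_lit 76) (nat_lit 35351228144383) (nat_lit 1) (nat_lit 4) (nat_lit 2) (nat_lit 5) (nat_lit 2) (nat_lit 4) (nat_lit 382) (nat_lit 299) (nat_lit 219)) (XT.lf (nat_lit 0) (nat_lit 10125764443399) (nat_lit 76) (nat_lit 40643753841847) (nat_lit 76) (nat_lit 40638588976078) (nat_lit 1) (nat_lit 4) (nat_lit 2) (nat_lit 5) (nat_lit 2) (nat_lit 4) (nat_lit 383) (nat_lit 299) (nat_lit 218)))) (XT.nd (nat_lit 78) (nat_lit 0) (nat_lit 0) (XT.lf (nat_lit 0) (nat_lit 11673948883795) (nat_lit 76) (nat_lit 46724218861171) (nat_lit 76) (nat_lit 46719053987238) (nat_lit 1) (nat_lit 4) (nat_lit 2) (nat_lit 5) (nat_lit 2) (nat_lit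 4) (nat_lit 384) (nat_lit 299) (nat_lit 217)) (XT.nd (nat_lit 78) (nat_lit 0) (nat_lit 0) (XT.lf (nat_lit 0) (nat_lit 13454360903601) (nat_lit 76) (nat_lit 53716753678679) (nat_lit 76) (nat_lit 53711588797647) (nat_lit 1) (nat_lit 4) (nat_lit 2) (nat_lit 5) (nat_lit 2) (nat_lit 4) (nat_lit 385) (nat_lit 299) (nat_lit 216)) (XT.lf (nat_lit 0) (nat_lit 15501834651032) (nat_lit 76) (nat_lit 61758168758192) (nat_lit 76) (nat_lit 61753003870986) (nat_lit 1) (nat_lit 4) (nat_lit 2) (nat_lit 5) (nat_lit 2) (nat_lit 4) (nat_lit 386) (nat_lit 299) (nat_lit 215)))))) (XT.nd (nat_lit 40170) (nat_lit 0) (nat_lit 2128) (XT.nd (nat_lit 156) (nat_lit 0) (nat_lit 0) (XT.nd (nat_lit 78) (nat_lit 0) (nat_lit 0) (XT.lf (nat_lit 0) (nat_lit 17856429395059) (nat_lit 76) (nat_lit 71005796133873) (nat_lit 76) (nat_lit 71000631241299) (nat_lit 1) (nat_lit 4) (nat_lit 2) (nat_lit 5) (nat_lit 2) (nat_lit 4) (nat_lit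 387) (nat_lit 299) (nat_lit 214)) (XT.lf (nat_lit 0) (nat_lit 20564213293718) (nat_lit 76) (nat_lit 81640567645682) (nat_lit 76) (nat_lit 81635402748439) (nat_lit 1) (nat_lit 4) (nat_lit 2) (nat_lit 5) (nat_lit 2) (nat_lit 4) (nat_lit 388) (nat_lit 299) (nat_lit 213))) (XT.nd (nat_lit 78) (nat_lit 0) (nat_lit 0) (XT.lf (nat_lit 0) (nat_lit 23678164727633) (nat_lit 76) (nat_lit 93870554910154) (nat_lit 76) (nat_lit 93865390008852) (nat_lit 1) (nat_lit 4) (nat_lit 2) (nat_lit 5) (nat_lit 2) (nat_lit 4) (nat_lit 389) (nat_lit 299) (nat_lit 212)) (XT.nd (nat_lit 39858) (nat_lit 0) (nat_lit 2812) (XT.lf (nat_lit 0) (nat_lit 27259208833557) (nat_lit 76) (nat_lit 107935040286811) (nat_lit 76) (nat_lit 107929875381979) (nat_lit 1) (nat_lit 4) (nat_lit 2) (nat_lit 5) (nat_lit 2) (nat_lit 4) (nat_lit 390) (nat_lit 299) (nat_lit 211)) (XT.lf (nat_lit 0) (nat_lit 1073741823) (nat_lit 0) (nat_lit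 0) (nat_lit 0) (nat_lit 0) (nat_lit 38) (nat_lit 0) (nat_lit 1) (nat_lit 0) (nat_lit 1) (nat_lit 0) (nat_lit 300) (nat_lit 300) (nat_lit 300))))) (XT.nd (nat_lit 234) (nat_lit 456) (nat_lit 0) (XT.nd (nat_lit 78) (nat_lit 152) (nat_lit 0) (XT.lf (nat_lit 0) (nat_lit 3004469676) (nat_lit 76) (nat_lit 3179550283) (nat_lit 0) (nat_lit 279032820) (nat_lit 37) (nat_lit 5) (nat_lit 38) (nat_lit 0) (nat_lit 37) (nat_lit 4) (nat_lit 301) (nat_lit 300) (nat_lit 299)) (XT.nd (nat_lit 78) (nat_lit 76) (nat_lit 0) (XT.lf (nat_lit 0) (nat_lit 234234419) (nat_lit 76) (nat_lit 5713404476) (nat_lit 76) (nat_lit 618022528) (nat_lit 36) (nat_lit 4) (nat_lit 37) (nat_lit 5) (nat_lit 37) (nat_lit 4) (nat_lit 302) (nat_lit 300) (nat_lit 298)) (XT.lf (nat_lit 0) (nat_lit 2095152095) (nat_lit 152) (nat_lit 2651626761) (nat_lit 76) (nat_lit 1969685846) (nat_lit 35) (nat_lit 5) (nat_lit 37) (nat_lit 5) (nat_lit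 36) (nat_lit 4) (nat_lit 303) (nat_lit 300) (nat_lit 297)))) (XT.nd (nat_lit 78) (nat_lit 304) (nat_lit 0) (XT.lf (nat_lit 0) (nat_lit 1327379769) (nat_lit 152) (nat_lit 3451970235) (nat_lit 228) (nat_lit 2163420420) (nat_lit 33) (nat_lit 5) (nat_lit 35) (nat_lit 5) (nat_lit 36) (nat_lit 4) (nat_lit 304) (nat_lit 300) (nat_lit 296)) (XT.nd (nat_lit 78) (nat_lit 228) (nat_lit 0) (XT.lf (nat_lit 0) (nat_lit 344507907) (nat_lit 228) (nat_lit 1381646834) (nat_lit 76) (nat_lit 5512744091) (nat_lit 32) (nat_lit 5) (nat_lit 35) (nat_lit 5) (nat_lit 33) (nat_lit 5) (nat_lit 305) (nat_lit 300) (nat_lit 295)) (XT.lf (nat_lit 0) (nat_lit 2818073999) (nat_lit 304) (nat_lit 4255509515) (nat_lit 76) (nat_lit 519685672) (nat_lit 29) (nat_lit 5) (nat_lit 33) (nat_lit 5) (nat_lit 30) (nat_lit 4) (nat_lit 306) (nat_lit 300) (nat_lit 294))))))) (XT.nd (nat_lit 858) (nat_lit 532) (nat_lit 0) (XT.nd (nat_lit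 390) (nat_lit 532) (nat_lit 0) (XT.nd (nat_lit 156) (nat_lit 228) (nat_lit 0) (XT.nd (nat_lit 78) (nat_lit 76) (nat_lit 0) (XT.lf (nat_lit 0) (nat_lit 539275533) (nat_lit 304) (nat_lit 4985485774) (nat_lit 380) (nat_lit 2497518164) (nat_lit 25) (nat_lit 5) (nat_lit 29) (nat_lit 5) (nat_lit 30) (nat_lit 4) (nat_lit 307) (nat_lit 300) (nat_lit 293)) (XT.lf (nat_lit 0) (nat_lit 38953258) (nat_lit 380) (nat_lit 2334209533) (nat_lit 76) (nat_lit 6153126723) (nat_lit 24) (nat_lit 5) (nat_lit 29) (nat_lit 5) (nat_lit 25) (nat_lit 5) (nat_lit 308) (nat_lit 300) (nat_lit 292))) (XT.nd (nat_lit 78) (nat_lit 76) (nat_lit 0) (XT.lf (nat_lit 0) (nat_lit 2614375580) (nat_lit 228) (nat_lit 5687484394) (nat_lit 76) (nat_lit 799599157) (nat_lit 22) (nat_lit 5) (nat_lit 25) (nat_lit 5) (nat_lit 23) (nat_lit 4) (nat_lit 309) (nat_lit 300) (nat_lit 291)) (XT.nd (nat_lit 78) (nat_lit 0) (nat_lit 0) (XT.lf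 (nat_lit 0) (nat_lit 91765469) (nat_lit 76) (nat_lit 5483105015) (nat_lit 152) (nat_lit 4188675692) (nat_lit 21) (nat_lit 5) (nat_lit 22) (nat_lit 5) (nat_lit 23) (nat_lit 4) (nat_lit 310) (nat_lit 300) (nat_lit 290)) (XT.lf (nat_lit 0) (nat_lit 7052835382) (nat_lit 76) (nat_lit 1996673962) (nat_lit 152) (nat_lit 1465322886) (nat_lit 21) (nat_lit 5) (nat_lit 22) (nat_lit 5) (nat_lit 23) (nat_lit 4) (nat_lit 311) (nat_lit 300) (nat_lit 289))))) (XT.nd (nat_lit 234) (nat_lit 228) (nat_lit 0) (XT.nd (nat_lit 78) (nat_lit 76) (nat_lit 0) (XT.lf (nat_lit 0) (nat_lit 1551048035) (nat_lit 228) (nat_lit 7836176629) (nat_lit 76) (nat_lit 1976602914) (nat_lit 18) (nat_lit 5) (nat_lit 21) (nat_lit 5) (nat_lit 19) (nat_lit 4) (nat_lit 312) (nat_lit 300) (nat_lit 288)) (XT.nd (nat_lit 78) (nat_lit 76) (nat_lit 0) (XT.lf (nat_lit 0) (nat_lit 4958289444) (nat_lit 228) (nat_lit 845548760) (nat_lit 76)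 (nat_lit 6512862680) (nat_lit 18) (nat_lit 5) (nat_lit 21) (nat_lit 5) (nat_lit 19) (nat_lit 4) (nat_lit 313) (nat_lit 300) (nat_lit 287)) (XT.lf (nat_lit 0) (nat_lit 7597084007) (nat_lit 76) (nat_lit 1423477971) (nat_lit 152) (nat_lit 4370578118) (nat_lit 17) (nat_lit 5) (nat_lit 18) (nat_lit 5) (nat_lit 19) (nat_lit 4) (nat_lit 314) (nat_lit 300) (nat_lit 286)))) (XT.nd (nat_lit 78) (nat_lit 152) (nat_lit 0) (XT.lf (nat_lit 0) (nat_lit 2578420398) (nat_lit 76) (nat_lit 11253108506) (nat_lit 76) (nat_lit 774510346) (nat_lit 16) (nat_lit 4) (nat_lit 17) (nat_lit 5) (nat_lit 17) (nat_lit 4) (nat_lit 315) (nat_lit 300) (nat_lit 285)) (XT.nd (nat_lit 78) (nat_lit 76) (nat_lit 0) (XT.lf (nat_lit 0) (nat_lit 3286243259) (nat_lit 152) (nat_lit 3604678846) (nat_lit 76) (nat_lit 9057850785) (nat_lit 15) (nat_lit 5) (nat_lit 17) (nat_lit 5) (nat_lit 16) (nat_lit 4) (nat_lit 316) (nat_lit 300)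 (nat_lit 284)) (XT.lf (nat_lit 0) (nat_lit 6364951026) (nat_lit 76) (nat_lit 1635782849) (nat_lit 152) (nat_lit 9468192210) (nat_lit 14) (nat_lit 5) (nat_lit 15) (nat_lit 5) (nat_lit 16) (nat_lit 4) (nat_lit 317) (nat_lit 300) (nat_lit 283)))))) (XT.nd (nat_lit 390) (nat_lit 228) (nat_lit 0) (XT.nd (nat_lit 156) (nat_lit 228) (nat_lit 0) (XT.nd (nat_lit 78) (nat_lit 76) (nat_lit 0) (XT.lf (nat_lit 0) (nat_lit 13666825141) (nat_lit 152) (nat_lit 1395971136) (nat_lit 0) (nat_lit 4117754608) (nat_lit 14) (nat_lit 5) (nat_lit 16) (nat_lit 4) (nat_lit 14) (nat_lit 4) (nat_lit 318) (nat_lit 300) (nat_lit 282)) (XT.lf (nat_lit 0) (nat_lit 10397957147) (nat_lit 76) (nat_lit 10175513758) (nat_lit 76) (nat_lit 516950366) (nat_lit 13) (nat_lit 4) (nat_lit 14) (nat_lit 5) (nat_lit 14) (nat_lit 4) (nat_lit 319) (nat_lit 300) (nat_lit 281))) (XT.nd (nat_lit 78) (nat_lit 76) (nat_lit 0) (XT.lf (nat_lit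 0) (nat_lit 441731958) (nat_lit 76) (nat_lit 4300364103) (nat_lit 152) (nat_lit 18515523834) (nat_lit 11) (nat_lit 5) (nat_lit 12) (nat_lit 5) (nat_lit 13) (nat_lit 4) (nat_lit 320) (nat_lit 300) (nat_lit 280)) (XT.nd (nat_lit 78) (nat_lit 76) (nat_lit 0) (XT.lf (nat_lit 0) (nat_lit 11310260125) (nat_lit 152) (nat_lit 11593308448) (nat_lit 0) (nat_lit 2756723684) (nat_lit 11) (nat_lit 5) (nat_lit 13) (nat_lit 4) (nat_lit 11) (nat_lit 4) (nat_lit 321) (nat_lit 300) (nat_lit 279)) (XT.lf (nat_lit 0) (nat_lit 1004181237) (nat_lit 76) (nat_lit 18006651038) (nat_lit 76) (nat_lit 9390511700) (nat_lit 10) (nat_lit 4) (nat_lit 11) (nat_lit 5) (nat_lit 11) (nat_lit 4) (nat_lit 322) (nat_lit 300) (nat_lit 278))))) (XT.nd (nat_lit 234) (nat_lit 76) (nat_lit 0) (XT.nd (nat_lit 78) (nat_lit 152) (nat_lit 0) (XT.lf (nat_lit 0) (nat_lit 16609904634) (nat_lit 76) (nat_lit 11768726519) (nat_lit 76) (nat_lit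 3098149879) (nat_lit 10) (nat_lit 4) (nat_lit 11) (nat_lit 5) (nat_lit 11) (nat_lit 4) (nat_lit 323) (nat_lit 300) (nat_lit 277)) (XT.nd (nat_lit 78) (nat_lit 76) (nat_lit 0) (XT.lf (nat_lit 0) (nat_lit 3684112625) (nat_lit 152) (nat_lit 797071278) (nat_lit 76) (nat_lit 30519517454) (nat_lit 9) (nat_lit 5) (nat_lit 11) (nat_lit 5) (nat_lit 10) (nat_lit 4) (nat_lit 324) (nat_lit 300) (nat_lit 276)) (XT.lf (nat_lit 0) (nat_lit 11976153597) (nat_lit 152) (nat_lit 22573948027) (nat_lit 0) (nat_lit 4359565905) (nat_lit 8) (nat_lit 5) (nat_lit 10) (nat_lit 4) (nat_lit 8) (nat_lit 4) (nat_lit 325) (nat_lit 300) (nat_lit 275)))) (XT.nd (nat_lit 78) (nat_lit 76) (nat_lit 0) (XT.lf (nat_lit 0) (nat_lit 21695672177) (nat_lit 152) (nat_lit 7633823803) (nat_lit 0) (nat_lit 14047959780) (nat_lit 8) (nat_lit 5) (nat_lit 10) (nat_lit 4) (nat_lit 8) (nat_lit 4) (nat_lit 326) (nat_lit 300) (nat_lit 274))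 (XT.nd (nat_lit 78) (nat_lit 0) (nat_lit 0) (XT.lf (nat_lit 0) (nat_lit 10339337486) (nat_lit 76) (nat_lit 22898113244) (nat_lit 76) (nat_lit 15223335887) (nat_lit 7) (nat_lit 4) (nat_lit 8) (nat_lit 5) (nat_lit 8) (nat_lit 4) (nat_lit 327) (nat_lit 300) (nat_lit 273)) (XT.lf (nat_lit 0) (nat_lit 31743788909) (nat_lit 76) (nat_lit 15105194156) (nat_lit 76) (nat_lit 7406882051) (nat_lit 7) (nat_lit 4) (nat_lit 8) (nat_lit 5) (nat_lit 8) (nat_lit 4) (nat_lit 328) (nat_lit 300) (nat_lit 272))))))))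
noncomputable def xc48 : XT := (XT.nd (nat_lit 1638) (nat_lit 76) (nat_lit 0) (XT.nd (nat_lit 780) (nat_lit 76) (nat_lit 0) (XT.nd (nat_lit 390) (nat_lit 76) (nat_lit 0) (XT.nd (nat_lit 156) (nat_lit 76) (nat_lit 0) (XT.nd (nat_lit 78) (nat_lit 76) (nat_lit 0) (XT.lf (nat_lit 0) (nat_lit 1386016173) (nat_lit 152) (nat_lit 4738842330) (nat_lit 76) (nat_lit 54793813412) (nat_lit 6) (nat_lit 5) (nat_lit 8) (nat_lit 5) (nat_lit 7) (nat_lit 4) (nat_lit 329) (nat_lit 300) (nat_lit 271)) (XT.lf (nat_lit 0) (nat_lit 11606511553) (nat_lit 152) (nat_lit 51912390834) (nat_lit 0) (nat_lit 4879056984) (nat_lit 5) (nat_lit 5) (nat_lit 7) (nat_lit 4) (nat_lit 5) (nat_lit 4) (nat_lit 330) (nat_lit 300) (nat_lit 270))) (XT.nd (nat_lit 78) (nat_lit 76) (nat_lit 0) (XT.lf (nat_lit 0) (nat_lit 23863711267) (nat_lit 152) (nat_lit 35937095589) (nat_lit 0) (nat_lit 17122800630) (nat_lit 5) (nat_lit 5) (nat_lit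 7) (nat_lit 4) (nat_lit 5) (nat_lit 4) (nat_lit 331) (nat_lit 300) (nat_lit 269)) (XT.nd (nat_lit 78) (nat_lit 76) (nat_lit 0) (XT.lf (nat_lit 0) (nat_lit 37918153603) (nat_lit 152) (nat_lit 17650618247) (nat_lit 0) (nat_lit 31165542037) (nat_lit 5) (nat_lit 5) (nat_lit 7) (nat_lit 4) (nat_lit 5) (nat_lit 4) (nat_lit 332) (nat_lit 300) (nat_lit 268)) (XT.lf (nat_lit 0) (nat_lit 3627791151) (nat_lit 76) (nat_lit 50567244727) (nat_lit 76) (nat_lit 43804458439) (nat_lit 4) (nat_lit 4) (nat_lit 5) (nat_lit 5) (nat_lit 5) (nat_lit 4) (nat_lit 333) (nat_lit 300) (nat_lit 267))))) (XT.nd (nat_lit 156) (nat_lit 76) (nat_lit 0) (XT.nd (nat_lit 78) (nat_lit 0) (nat_lit 0) (XT.lf (nat_lit 0) (nat_lit 30011004278) (nat_lit 76) (nat_lit 43790909885) (nat_lit 76) (nat_lit 37019276015) (nat_lit 4) (nat_lit 4) (nat_lit 5) (nat_lit 5) (nat_lit 5) (nat_lit 4) (nat_lit 334) (nat_lit 300) (nat_lit 266))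 (XT.lf (nat_lit 0) (nat_lit 60290267652) (nat_lit 76) (nat_lit 36029832816) (nat_lit 76) (nat_lit 29250505395) (nat_lit 4) (nat_lit 4) (nat_lit 5) (nat_lit 5) (nat_lit 5) (nat_lit 4) (nat_lit 335) (nat_lit 300) (nat_lit 265))) (XT.nd (nat_lit 78) (nat_lit 76) (nat_lit 0) (XT.lf (nat_lit 0) (nat_lit 95058001641) (nat_lit 76) (nat_lit 27132166359) (nat_lit 76) (nat_lit 20346148894) (nat_lit 4) (nat_lit 4) (nat_lit 5) (nat_lit 5) (nat_lit 5) (nat_lit 4) (nat_lit 336) (nat_lit 300) (nat_lit 264)) (XT.nd (nat_lit 78) (nat_lit 76) (nat_lit 0) (XT.lf (nat_lit 0) (nat_lit 134994444520) (nat_lit 76) (nat_lit 16923825736) (nat_lit 76) (nat_lit 10131990841) (nat_lit 4) (nat_lit 4) (nat_lit 5) (nat_lit 5) (nat_lit 5) (nat_lit 4) (nat_lit 337) (nat_lit 300) (nat_lit 263)) (XT.lf (nat_lit 0) (nat_lit 1450096964) (nat_lit 152) (nat_lit 3679185056) (nat_lit 76) (nat_lit 179355063989) (nat_lit 3) (nat_lit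 5) (nat_lit 5) (nat_lit 5) (nat_lit 4) (nat_lit 4) (nat_lit 338) (nat_lit 300) (nat_lit 262)))))) (XT.nd (nat_lit 390) (nat_lit 0) (nat_lit 0) (XT.nd (nat_lit 156) (nat_lit 0) (nat_lit 0) (XT.nd (nat_lit 78) (nat_lit 0) (nat_lit 0) (XT.lf (nat_lit 0) (nat_lit 15166024639) (nat_lit 152) (nat_lit 185578216257) (nat_lit 0) (nat_lit 9251857384) (nat_lit 2) (nat_lit 5) (nat_lit 4) (nat_lit 4) (nat_lit 2) (nat_lit 4) (nat_lit 339) (nat_lit 300) (nat_lit 261)) (XT.lf (nat_lit 0) (nat_lit 31367374503) (nat_lit 152) (nat_lit 182453155797) (nat_lit 0) (nat_lit 25449881114) (nat_lit 2) (nat_lit 5) (nat_lit 4) (nat_lit 4) (nat_lit 2) (nat_lit 4) (nat_lit 340) (nat_lit 300) (nat_lit 260))) (XT.nd (nat_lit 78) (nat_lit 0) (nat_lit 0) (XT.lf (nat_lit 0) (nat_lit 49983537569) (nat_lit 152) (nat_lit 178891493039) (nat_lit 0) (nat_lit 44063151890) (nat_lit 2) (nat_lit 5) (nat_lit 4) (nat_lit 4) (nat_lit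 2) (nat_lit 4) (nat_lit 341) (nat_lit 300) (nat_lit 259)) (XT.nd (nat_lit 78) (nat_lit 0) (nat_lit 0) (XT.lf (nat_lit 0) (nat_lit 71378743116) (nat_lit 152) (nat_lit 174823543276) (nat_lit 0) (nat_lit 65455842401) (nat_lit 2) (nat_lit 5) (nat_lit 4) (nat_lit 4) (nat_lit 2) (nat_lit 4) (nat_lit 342) (nat_lit 300) (nat_lit 258)) (XT.lf (nat_lit 0) (nat_lit 95971592989) (nat_lit 152) (nat_lit 170169716187) (nat_lit 0) (nat_lit 90046505287) (nat_lit 2) (nat_lit 5) (nat_lit 4) (nat_lit 4) (nat_lit 2) (nat_lit 4) (nat_lit 343) (nat_lit 300) (nat_lit 257))))) (XT.nd (nat_lit 234) (nat_lit 0) (nat_lit 0) (XT.nd (nat_lit 78) (nat_lit 0) (nat_lit 0) (XT.lf (nat_lit 0) (nat_lit 124243251644) (nat_lit 152) (nat_lit 164838958633) (nat_lit 0) (nat_lit 118316262214) (nat_lit 2) (nat_lit 5) (nat_lit 4) (nat_lit 4) (nat_lit 2) (nat_lit 4) (nat_lit 344) (nat_lit 300) (nat_lit 256)) (XT.nd (nat_lit 78)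 (nat_lit 0) (nat_lit 0) (XT.lf (nat_lit 0) (nat_lit 156746860228) (nat_lit 152) (nat_lit 158726973185) (nat_lit 0) (nat_lit 150818217121) (nat_lit 2) (nat_lit 5) (nat_lit 4) (nat_lit 4) (nat_lit 2) (nat_lit 4) (nat_lit 345) (nat_lit 300) (nat_lit 255)) (XT.lf (nat_lit 0) (nat_lit 194118358910) (nat_lit 152) (nat_lit 151714177517) (nat_lit 0) (nat_lit 188188277823) (nat_lit 2) (nat_lit 5) (nat_lit 4) (nat_lit 4) (nat_lit 2) (nat_lit 4) (nat_lit 346) (nat_lit 300) (nat_lit 254)))) (XT.nd (nat_lit 78) (nat_lit 0) (nat_lit 0) (XT.lf (nat_lit 0) (nat_lit 237088929184) (nat_lit 152) (nat_lit 143663364758) (nat_lit 0) (nat_lit 231157597680) (nat_lit 2) (nat_lit 5) (nat_lit 4) (nat_lit 4) (nat_lit 2) (nat_lit 4) (nat_lit 347) (nat_lit 300) (nat_lit 253)) (XT.nd (nat_lit 78) (nat_lit 0) (nat_lit 0) (XT.lf (nat_lit 0) (nat_lit 286499299600) (nat_lit 152) (nat_lit 134417019007) (nat_lit 0) (nat_lit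 280566880777) (nat_lit 2) (nat_lit 5) (nat_lit 4) (nat_lit 4) (nat_lit 2) (nat_lit 4) (nat_lit 348) (nat_lit 300) (nat_lit 252)) (XT.lf (nat_lit 0) (nat_lit 343316194796) (nat_lit 152) (nat_lit 123794233498) (nat_lit 0) (nat_lit 337382830478) (nat_lit 2) (nat_lit 5) (nat_lit 4) (nat_lit 4) (nat_lit 2) (nat_lit 4) (nat_lit 349) (nat_lit 300) (nat_lit 251))))))) (XT.nd (nat_lit 858) (nat_lit 0) (nat_lit 0) (XT.nd (nat_lit 390) (nat_lit 76) (nat_lit 0) (XT.nd (nat_lit 156) (nat_lit 0) (nat_lit 0) (XT.nd (nat_lit 78) (nat_lit 0) (nat_lit 0) (XT.lf (nat_lit 0) (nat_lit 408651249679) (nat_lit 152) (nat_lit 111587171125) (nat_lit 0) (nat_lit 402717063191) (nat_lit 2) (nat_lit 5) (nat_lit 4) (nat_lit 4) (nat_lit 2) (nat_lit 4) (nat_lit 350) (nat_lit 300) (nat_lit 250)) (XT.lf (nat_lit 0) (nat_lit 483782758800) (nat_lit 152) (nat_lit 97556998057) (nat_lit 0) (nat_lit 477847857382) (nat_lit 2)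 (nat_lit 5) (nat_lit 4) (nat_lit 4) (nat_lit 2) (nat_lit 4) (nat_lit 351) (nat_lit 300) (nat_lit 249))) (XT.nd (nat_lit 78) (nat_lit 0) (nat_lit 0) (XT.lf (nat_lit 0) (nat_lit 570180686468) (nat_lit 152) (nat_lit 81429210909) (nat_lit 0) (nat_lit 564245163372) (nat_lit 2) (nat_lit 5) (nat_lit 4) (nat_lit 4) (nat_lit 2) (nat_lit 4) (nat_lit 352) (nat_lit 300) (nat_lit 248)) (XT.nd (nat_lit 78) (nat_lit 0) (nat_lit 0) (XT.lf (nat_lit 0) (nat_lit 669535426921) (nat_lit 152) (nat_lit 62888266019) (nat_lit 0) (nat_lit 663599363235) (nat_lit 2) (nat_lit 5) (nat_lit 4) (nat_lit 4) (nat_lit 2) (nat_lit 4) (nat_lit 353) (nat_lit 300) (nat_lit 247)) (XT.lf (nat_lit 0) (nat_lit 783790877254) (nat_lit 152) (nat_lit 41571405769) (nat_lit 0) (nat_lit 777854343490) (nat_lit 2) (nat_lit 5) (nat_lit 4) (nat_lit 4) (nat_lit 2) (nat_lit 4) (nat_lit 354) (nat_lit 300) (nat_lit 246))))) (XT.nd (nat_lit 234)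 (nat_lit 0) (nat_lit 0) (XT.nd (nat_lit 78) (nat_lit 76) (nat_lit 0) (XT.lf (nat_lit 0) (nat_lit 915182470191) (nat_lit 152) (nat_lit 17061561156) (nat_lit 0) (nat_lit 909245527663) (nat_lit 2) (nat_lit 5) (nat_lit 4) (nat_lit 4) (nat_lit 2) (nat_lit 4) (nat_lit 355) (nat_lit 300) (nat_lit 245)) (XT.nd (nat_lit 78) (nat_lit 0) (nat_lit 0) (XT.lf (nat_lit 0) (nat_lit 12207614521) (nat_lit 76) (nat_lit 1054578787574) (nat_lit 76) (nat_lit 1048641489600) (nat_lit 1) (nat_lit 4) (nat_lit 2) (nat_lit 5) (nat_lit 2) (nat_lit 4) (nat_lit 356) (nat_lit 300) (nat_lit 244)) (XT.lf (nat_lit 0) (nat_lit 47780881108) (nat_lit 76) (nat_lit 1194240096238) (nat_lit 76) (nat_lit 1188302489180) (nat_lit 1) (nat_lit 4) (nat_lit 2) (nat_lit 5) (nat_lit 2) (nat_lit 4) (nat_lit 357) (nat_lit 300) (nat_lit 243)))) (XT.nd (nat_lit 78) (nat_lit 0) (nat_lit 0) (XT.lf (nat_lit 0) (nat_lit 88686857458) (nat_lit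 76) (nat_lit 1354852315537) (nat_lit 76) (nat_lit 1348914439710) (nat_lit 1) (nat_lit 4) (nat_lit 2) (nat_lit 5) (nat_lit 2) (nat_lit 4) (nat_lit 358) (nat_lit 300) (nat_lit 242)) (XT.nd (nat_lit 78) (nat_lit 0) (nat_lit 0) (XT.lf (nat_lit 0) (nat_lit 135725877892) (nat_lit 76) (nat_lit 1539557858456) (nat_lit 76) (nat_lit 1533619748918) (nat_lit 1) (nat_lit 4) (nat_lit 2) (nat_lit 5) (nat_lit 2) (nat_lit 4) (nat_lit 359) (nat_lit 300) (nat_lit 241)) (XT.lf (nat_lit 0) (nat_lit 189818271070) (nat_lit 76) (nat_lit 1751970529098) (nat_lit 76) (nat_lit 1746032216332) (nat_lit 1) (nat_lit 4) (nat_lit 2) (nat_lit 5) (nat_lit 2) (nat_lit 4) (nat_lit 360) (nat_lit 300) (nat_lit 240)))))) (XT.nd (nat_lit 390) (nat_lit 0) (nat_lit 0) (XT.nd (nat_lit 156) (nat_lit 0) (nat_lit 0) (XT.nd (nat_lit 78) (nat_lit 0) (nat_lit 0) (XT.lf (nat_lit 0) (nat_lit 252022366423) (nat_lit 76) (nat_lit 1996246227539)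 (nat_lit 76) (nat_lit 1990307738053) (nat_lit 1) (nat_lit 4) (nat_lit 2) (nat_lit 5) (nat_lit 2) (nat_lit 4) (nat_lit 361) (nat_lit 300) (nat_lit 239)) (XT.lf (nat_lit 0) (nat_lit 323555200600) (nat_lit 76) (nat_lit 2277164260924) (nat_lit 76) (nat_lit 2271225617768) (nat_lit 1) (nat_lit 4) (nat_lit 2) (nat_lit 5) (nat_lit 2) (nat_lit 4) (nat_lit 362) (nat_lit 300) (nat_lit 238))) (XT.nd (nat_lit 78) (nat_lit 0) (nat_lit 0) (XT.lf (nat_lit 0) (nat_lit 405816329052) (nat_lit 76) (nat_lit 2600220851643) (nat_lit 76) (nat_lit 2594282074862) (nat_lit 1) (nat_lit 4) (nat_lit 2) (nat_lit 5) (nat_lit 2) (nat_lit 4) (nat_lit 363) (nat_lit 300) (nat_lit 237)) (XT.nd (nat_lit 78) (nat_lit 0) (nat_lit 0) (XT.lf (nat_lit 0) (nat_lit 500415208641) (nat_lit 76) (nat_lit 2971736672126) (nat_lit 76) (nat_lit 2965797779148) (nat_lit 1) (nat_lit 4) (nat_lit 2) (nat_lit 5) (nat_lit 2) (nat_lit 4) (nat_lit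 364) (nat_lit 300) (nat_lit 236)) (XT.lf (nat_lit 0) (nat_lit 609202687009) (nat_lit 76) (nat_lit 3398980510162) (nat_lit 76) (nat_lit 3393041516145) (nat_lit 1) (nat_lit 4) (nat_lit 2) (nat_lit 5) (nat_lit 2) (nat_lit 4) (nat_lit 365) (nat_lit 300) (nat_lit 235))))) (XT.nd (nat_lit 234) (nat_lit 0) (nat_lit 0) (XT.nd (nat_lit 78) (nat_lit 0) (nat_lit 0) (XT.lf (nat_lit 0) (nat_lit 734307214822) (nat_lit 76) (nat_lit 3890311484323) (nat_lit 76) (nat_lit 3884372402445) (nat_lit 1) (nat_lit 4) (nat_lit 2) (nat_lit 5) (nat_lit 2) (nat_lit 4) (nat_lit 366) (nat_lit 300) (nat_lit 234)) (XT.nd (nat_lit 78) (nat_lit 0) (nat_lit 0) (XT.lf (nat_lit 0) (nat_lit 878176489362) (nat_lit 76) (nat_lit 4455342591930) (nat_lit 76) (nat_lit 4449403433651) (nat_lit 1) (nat_lit 4) (nat_lit 2) (nat_lit 5) (nat_lit 2) (nat_lit 4) (nat_lit 367) (nat_lit 300) (nat_lit 233)) (XT.lf (nat_lit 0) (nat_lit 1043625344262)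 (nat_lit 76) (nat_lit 5105128789435) (nat_lit 76) (nat_lit 5099189564721) (nat_lit 1) (nat_lit 4) (nat_lit 2) (nat_lit 5) (nat_lit 2) (nat_lit 4) (nat_lit 368) (nat_lit 300) (nat_lit 232)))) (XT.nd (nat_lit 78) (nat_lit 0) (nat_lit 0) (XT.lf (nat_lit 0) (nat_lit 1233890822334) (nat_lit 76) (nat_lit 5852383285051) (nat_lit 76) (nat_lit 5846444002566) (nat_lit 1) (nat_lit 4) (nat_lit 2) (nat_lit 5) (nat_lit 2) (nat_lit 4) (nat_lit 369) (nat_lit 300) (nat_lit 231)) (XT.nd (nat_lit 78) (nat_lit 0) (nat_lit 0) (XT.lf (nat_lit 0) (nat_lit 1452695509020) (nat_lit 76) (nat_lit 6711726275430) (nat_lit 76) (nat_lit 6705786942711) (nat_lit 1) (nat_lit 4) (nat_lit 2) (nat_lit 5) (nat_lit 2) (nat_lit 4) (nat_lit 370) (nat_lit 300) (nat_lit 230)) (XT.lf (nat_lit 0) (nat_lit 1704320365581) (nat_lit 76) (nat_lit 7699970992994) (nat_lit 76) (nat_lit 7694031616592) (nat_lit 1) (nat_lit 4) (nat_lit 2) (nat_lit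 5) (nat_lit 2) (nat_lit 4) (nat_lit 371) (nat_lit 300) (nat_lit 229))))))))
noncomputable def xc49 : XT := (XT.nd (nat_lit 41496) (nat_lit 0) (nat_lit 684) (XT.nd (nat_lit 780) (nat_lit 0) (nat_lit 0) (XT.nd (nat_lit 390) (nat_lit 0) (nat_lit 0) (XT.nd (nat_lit 156) (nat_lit 0) (nat_lit 0) (XT.nd (nat_lit 78) (nat_lit 0) (nat_lit 0) (XT.lf (nat_lit 0) (nat_lit 1993688487036) (nat_lit 76) (nat_lit 8836452660477) (nat_lit 76) (nat_lit 8830513246091) (nat_lit 1) (nat_lit 4) (nat_lit 2) (nat_lit 5) (nat_lit 2) (nat_lit 4) (nat_lit 372) (nat_lit 300) (nat_lit 228)) (XT.lf (nat_lit 0) (nat_lit 2326461423588) (nat_lit 76) (nat_lit 10143406788765) (nat_lit 76) (nat_lit 10137467341348) (nat_lit 1) (nat_lit 4) (nat_lit 2) (nat_lit 5) (nat_lit 2) (nat_lit 4) (nat_lit 373) (nat_lit 300) (nat_lit 227))) (XT.nd (nat_lit 78) (nat_lit 0) (nat_lit 0) (XT.lf (nat_lit 0) (nat_lit 2709149950082) (nat_lit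 76) (nat_lit 11646404219498) (nat_lit 76) (nat_lit 11640464743360) (nat_lit 1) (nat_lit 4) (nat_lit 2) (nat_lit 5) (nat_lit 2) (nat_lit 4) (nat_lit 374) (nat_lit 300) (nat_lit 226)) (XT.nd (nat_lit 78) (nat_lit 0) (nat_lit 0) (XT.lf (nat_lit 0) (nat_lit 3149241450732) (nat_lit 76) (nat_lit 13374851424148) (nat_lit 76) (nat_lit 13368911923033) (nat_lit 1) (nat_lit 4) (nat_lit 2) (nat_lit 5) (nat_lit 2) (nat_lit 4) (nat_lit 375) (nat_lit 300) (nat_lit 225)) (XT.lf (nat_lit 0) (nat_lit 3655346411421) (nat_lit 76) (nat_lit 15362565848021) (nat_lit 76) (nat_lit 15356626325189) (nat_lit 1) (nat_lit 4) (nat_lit 2) (nat_lit 5) (nat_lit 2) (nat_lit 4) (nat_lit 376) (nat_lit 300) (nat_lit 224))))) (XT.nd (nat_lit 156) (nat_lit 0) (nat_lit 0) (XT.nd (nat_lit 78) (nat_lit 0) (nat_lit 0) (XT.lf (nat_lit 0) (nat_lit 4237366885727) (nat_lit 76) (nat_lit 17648437555935) (nat_lit 76) (nat_lit 17642498014217)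 (nat_lit 1) (nat_lit 4) (nat_lit 2) (nat_lit 5) (nat_lit 2) (nat_lit 4) (nat_lit 377) (nat_lit 300) (nat_lit 223)) (XT.lf (nat_lit 0) (nat_lit 4906690230757) (nat_lit 76) (nat_lit 20277190124781) (nat_lit 76) (nat_lit 20271250566642) (nat_lit 1) (nat_lit 4) (nat_lit 2) (nat_lit 5) (nat_lit 2) (nat_lit 4) (nat_lit 378) (nat_lit 300) (nat_lit 222))) (XT.nd (nat_lit 78) (nat_lit 0) (nat_lit 0) (XT.lf (nat_lit 0) (nat_lit 5676411903260) (nat_lit 76) (nat_lit 23300255670038) (nat_lit 76) (nat_lit 23294316097620) (nat_lit 1) (nat_lit 4) (nat_lit 2) (nat_lit 5) (nat_lit 2) (nat_lit 4) (nat_lit 379) (nat_lit 300) (nat_lit 221)) (XT.nd (nat_lit 78) (nat_lit 0) (nat_lit 0) (XT.lf (nat_lit 0) (nat_lit 6561591675091) (nat_lit 76) (nat_lit 26776781126288) (nat_lit 76) (nat_lit 26770841541452) (nat_lit 1) (nat_lit 4) (nat_lit 2) (nat_lit 5) (nat_lit 2) (nat_lit 4) (nat_lit 380) (nat_lit 300) (nat_lit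 220)) (XT.lf (nat_lit 0) (nat_lit 7579548280915) (nat_lit 76) (nat_lit 30774785469847) (nat_lit 76) (nat_lit 30768845874213) (nat_lit 1) (nat_lit 4) (nat_lit 2) (nat_lit 5) (nat_lit 2) (nat_lit 4) (nat_lit 381) (nat_lit 300) (nat_lit 219)))))) (XT.nd (nat_lit 390) (nat_lit 0) (nat_lit 0) (XT.nd (nat_lit 156) (nat_lit 0) (nat_lit 0) (XT.nd (nat_lit 78) (nat_lit 0) (nat_lit 0) (XT.lf (nat_lit 0) (nat_lit 8750198263020) (nat_lit 76) (nat_lit 35372490524829) (nat_lit 76) (nat_lit 35366550919806) (nat_lit 1) (nat_lit 4) (nat_lit 2) (nat_lit 5) (nat_lit 2) (nat_lit 4) (nat_lit 382) (nat_lit 300) (nat_lit 218)) (XT.lf (nat_lit 0) (nat_lit 10096445642796) (nat_lit 76) (nat_lit 40659851390135) (nat_lit 76) (nat_lit 40653911776948) (nat_lit 1) (nat_lit 4) (nat_lit 2) (nat_lit 5) (nat_lit 2) (nat_lit 4) (nat_lit 383) (nat_lit 300) (nat_lit 217))) (XT.nd (nat_lit 78) (nat_lit 0) (nat_lit 0) (XT.lf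 (nat_lit 0) (nat_lit 11644630042889) (nat_lit 76) (nat_lit 46740316430523) (nat_lit 76) (nat_lit 46734376810236) (nat_lit 1) (nat_lit 4) (nat_lit 2) (nat_lit 5) (nat_lit 2) (nat_lit 4) (nat_lit 384) (nat_lit 300) (nat_lit 216)) (XT.nd (nat_lit 78) (nat_lit 0) (nat_lit 0) (XT.lf (nat_lit 0) (nat_lit 13425042027651) (nat_lit 76) (nat_lit 53732851266346) (nat_lit 76) (nat_lit 53726911639886) (nat_lit 1) (nat_lit 4) (nat_lit 2) (nat_lit 5) (nat_lit 2) (nat_lit 4) (nat_lit 385) (nat_lit 300) (nat_lit 215)) (XT.lf (nat_lit 0) (nat_lit 15472515744608) (nat_lit 76) (nat_lit 61774266361785) (nat_lit 76) (nat_lit 61768326729956) (nat_lit 1) (nat_lit 4) (nat_lit 2) (nat_lit 5) (nat_lit 2) (nat_lit 4) (nat_lit 386) (nat_lit 300) (nat_lit 214))))) (XT.nd (nat_lit 234) (nat_lit 0) (nat_lit 0) (XT.nd (nat_lit 78) (nat_lit 0) (nat_lit 0) (XT.lf (nat_lit 0) (nat_lit 17827110462136) (nat_lit 76) (nat_lit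 71021893751316) (nat_lit 76) (nat_lit 71015954114818) (nat_lit 1) (nat_lit 4) (nat_lit 2) (nat_lit 5) (nat_lit 2) (nat_lit 4) (nat_lit 387) (nat_lit 300) (nat_lit 213)) (XT.nd (nat_lit 78) (nat_lit 0) (nat_lit 0) (XT.lf (nat_lit 0) (nat_lit 20534894337752) (nat_lit 76) (nat_lit 81656665275167) (nat_lit 76) (nat_lit 81650725634610) (nat_lit 1) (nat_lit 4) (nat_lit 2) (nat_lit 5) (nat_lit 2) (nat_lit 4) (nat_lit 388) (nat_lit 300) (nat_lit 212)) (XT.lf (nat_lit 0) (nat_lit 23648845751631) (nat_lit 76) (nat_lit 93886652550111) (nat_lit 76) (nat_lit 93880712906024) (nat_lit 1) (nat_lit 4) (nat_lit 2) (nat_lit 5) (nat_lit 2) (nat_lit 4) (nat_lit 389) (nat_lit 300) (nat_lit 211)))) (XT.nd (nat_lit 39936) (nat_lit 0) (nat_lit 2508) (XT.lf (nat_lit 0) (nat_lit 27229889840132) (nat_lit 76) (nat_lit 107951137935874) (nat_lit 76) (nat_lit 107945198288718) (nat_lit 1) (nat_lit 4) (nat_lit 2) (nat_lit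 5) (nat_lit 2) (nat_lit 4) (nat_lit 390) (nat_lit 300) (nat_lit 210)) (XT.nd (nat_lit 78) (nat_lit 228) (nat_lit 0) (XT.lf (nat_lit 0) (nat_lit 1433951436) (nat_lit 0) (nat_lit 1433951436) (nat_lit 76) (nat_lit 394902687) (nat_lit 37) (nat_lit 5) (nat_lit 37) (nat_lit 3) (nat_lit 38) (nat_lit 0) (nat_lit 301) (nat_lit 301) (nat_lit 298)) (XT.lf (nat_lit 0) (nat_lit 1604696773) (nat_lit 228) (nat_lit 453002707) (nat_lit 228) (nat_lit 4598051485) (nat_lit 34) (nat_lit 3) (nat_lit 37) (nat_lit 3) (nat_lit 37) (nat_lit 5) (nat_lit 302) (nat_lit 301) (nat_lit 297))))))) (XT.nd (nat_lit 858) (nat_lit 608) (nat_lit 0) (XT.nd (nat_lit 390) (nat_lit 836) (nat_lit 0) (XT.nd (nat_lit 156) (nat_lit 304) (nat_lit 0) (XT.nd (nat_lit 78) (nat_lit 76) (nat_lit 0) (XT.lf (nat_lit 76) (nat_lit 3238980827) (nat_lit 0) (nat_lit 749212951) (nat_lit 228) (nat_lit 2856368978) (nat_lit 35) (nat_lit 5) (nat_lit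 34) (nat_lit 3) (nat_lit 37) (nat_lit 5) (nat_lit 303) (nat_lit 301) (nat_lit 296)) (XT.lf (nat_lit 0) (nat_lit 162632018) (nat_lit 152) (nat_lit 6257546824) (nat_lit 228) (nat_lit 689085576) (nat_lit 33) (nat_lit 5) (nat_lit 35) (nat_lit 5) (nat_lit 36) (nat_lit 4) (nat_lit 304) (nat_lit 301) (nat_lit 295))) (XT.nd (nat_lit 78) (nat_lit 228) (nat_lit 0) (XT.lf (nat_lit 0) (nat_lit 1523859413) (nat_lit 228) (nat_lit 2922208514) (nat_lit 76) (nat_lit 2975153193) (nat_lit 32) (nat_lit 5) (nat_lit 35) (nat_lit 5) (nat_lit 33) (nat_lit 5) (nat_lit 305) (nat_lit 301) (nat_lit 294)) (XT.nd (nat_lit 78) (nat_lit 0) (nat_lit 0) (XT.lf (nat_lit 0) (nat_lit 1532277200) (nat_lit 228) (nat_lit 2223268140) (nat_lit 304) (nat_lit 4056699006) (nat_lit 29) (nat_lit 5) (nat_lit 32) (nat_lit 5) (nat_lit 33) (nat_lit 5) (nat_lit 306) (nat_lit 301) (nat_lit 293)) (XT.lf (nat_lit 0) (nat_lit 6219185023) (nat_lit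 304) (nat_lit 1584100477) (nat_lit 76) (nat_lit 474748751) (nat_lit 29) (nat_lit 5) (nat_lit 33) (nat_lit 5) (nat_lit 30) (nat_lit 4) (nat_lit 307) (nat_lit 301) (nat_lit 292))))) (XT.nd (nat_lit 234) (nat_lit 304) (nat_lit 0) (XT.nd (nat_lit 78) (nat_lit 152) (nat_lit 0) (XT.lf (nat_lit 0) (nat_lit 239757314) (nat_lit 380) (nat_lit 5042458174) (nat_lit 76) (nat_lit 3527169724) (nat_lit 24) (nat_lit 5) (nat_lit 29) (nat_lit 5) (nat_lit 25) (nat_lit 5) (nat_lit 308) (nat_lit 301) (nat_lit 291)) (XT.nd (nat_lit 78) (nat_lit 0) (nat_lit 0) (XT.lf (nat_lit 0) (nat_lit 340844138) (nat_lit 152) (nat_lit 2201722186) (nat_lit 228) (nat_lit 6883092534) (nat_lit 22) (nat_lit 5) (nat_lit 24) (nat_lit 5) (nat_lit 25) (nat_lit 5) (nat_lit 309) (nat_lit 301) (nat_lit 290)) (XT.lf (nat_lit 0) (nat_lit 5308649281) (nat_lit 228) (nat_lit 3359958845) (nat_lit 76) (nat_lit 1448483946) (nat_lit 22) (nat_lit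 5) (nat_lit 25) (nat_lit 5) (nat_lit 23) (nat_lit 4) (nat_lit 310) (nat_lit 301) (nat_lit 289)))) (XT.nd (nat_lit 78) (nat_lit 228) (nat_lit 0) (XT.lf (nat_lit 0) (nat_lit 3141603579) (nat_lit 76) (nat_lit 5397055985) (nat_lit 152) (nat_lit 2366573177) (nat_lit 21) (nat_lit 5) (nat_lit 22) (nat_lit 5) (nat_lit 23) (nat_lit 4) (nat_lit 311) (nat_lit 301) (nat_lit 288)) (XT.nd (nat_lit 78) (nat_lit 152) (nat_lit 0) (XT.lf (nat_lit 0) (nat_lit 405988503) (nat_lit 152) (nat_lit 1078951572) (nat_lit 76) (nat_lit 10323613789) (nat_lit 20) (nat_lit 5) (nat_lit 22) (nat_lit 5) (nat_lit 21) (nat_lit 5) (nat_lit 312) (nat_lit 301) (nat_lit 287)) (XT.lf (nat_lit 0) (nat_lit 3620998351) (nat_lit 228) (nat_lit 6072799611) (nat_lit 76) (nat_lit 3096569359) (nat_lit 18) (nat_lit 5) (nat_lit 21) (nat_lit 5) (nat_lit 19) (nat_lit 4) (nat_lit 313) (nat_lit 301) (nat_lit 286)))))) (XT.nd (nat_lit 390) (nat_lit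 304) (nat_lit 0) (XT.nd (nat_lit 156) (nat_lit 228) (nat_lit 0) (XT.nd (nat_lit 78) (nat_lit 0) (nat_lit 0) (XT.lf (nat_lit 0) (nat_lit 1737812310) (nat_lit 76) (nat_lit 5633825835) (nat_lit 152) (nat_lit 6540004967) (nat_lit 17) (nat_lit 5) (nat_lit 18) (nat_lit 5) (nat_lit 19) (nat_lit 4) (nat_lit 314) (nat_lit 301) (nat_lit 285)) (XT.lf (nat_lit 0) (nat_lit 11175969682) (nat_lit 76) (nat_lit 687941310) (nat_lit 152) (nat_lit 3310515097) (nat_lit 17) (nat_lit 5) (nat_lit 18) (nat_lit 5) (nat_lit 19) (nat_lit 4) (nat_lit 315) (nat_lit 301) (nat_lit 284))) (XT.nd (nat_lit 78) (nat_lit 76) (nat_lit 0) (XT.lf (nat_lit 0) (nat_lit 692173495) (nat_lit 152) (nat_lit 11140472765) (nat_lit 76) (nat_lit 4742900979) (nat_lit 15) (nat_lit 5) (nat_lit 17) (nat_lit 5) (nat_lit 16) (nat_lit 4) (nat_lit 316) (nat_lit 301) (nat_lit 283)) (XT.nd (nat_lit 78) (nat_lit 76) (nat_lit 0) (XT.lf (nat_lit 0)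 (nat_lit 5086627824) (nat_lit 152) (nat_lit 1837200264) (nat_lit 76) (nat_lit 11219930200) (nat_lit 15) (nat_lit 5) (nat_lit 17) (nat_lit 5) (nat_lit 16) (nat_lit 4) (nat_lit 317) (nat_lit 301) (nat_lit 282)) (XT.lf (nat_lit 0) (nat_lit 9522956798) (nat_lit 76) (nat_lit 906030956) (nat_lit 152) (nat_lit 9475000610) (nat_lit 14) (nat_lit 5) (nat_lit 15) (nat_lit 5) (nat_lit 16) (nat_lit 4) (nat_lit 318) (nat_lit 301) (nat_lit 281))))) (XT.nd (nat_lit 234) (nat_lit 76) (nat_lit 0) (XT.nd (nat_lit 78) (nat_lit 152) (nat_lit 0) (XT.lf (nat_lit 0) (nat_lit 479172569) (nat_lit 76) (nat_lit 16360579951) (nat_lit 76) (nat_lit 5048528009) (nat_lit 13) (nat_lit 4) (nat_lit 14) (nat_lit 5) (nat_lit 14) (nat_lit 4) (nat_lit 319) (nat_lit 301) (nat_lit 280)) (XT.nd (nat_lit 78) (nat_lit 76) (nat_lit 0) (XT.lf (nat_lit 0) (nat_lit 548569486) (nat_lit 152) (nat_lit 10215419877) (nat_lit 76) (nat_lit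 13329473398) (nat_lit 12) (nat_lit 5) (nat_lit 14) (nat_lit 5) (nat_lit 13) (nat_lit 4) (nat_lit 320) (nat_lit 301) (nat_lit 279)) (XT.lf (nat_lit 0) (nat_lit 2470820879) (nat_lit 76) (nat_lit 4011810974) (nat_lit 152) (nat_lit 20108644583) (nat_lit 11) (nat_lit 5) (nat_lit 12) (nat_lit 5) (nat_lit 13) (nat_lit 4) (nat_lit 321) (nat_lit 301) (nat_lit 278)))) (XT.nd (nat_lit 78) (nat_lit 76) (nat_lit 0) (XT.lf (nat_lit 0) (nat_lit 13935390525) (nat_lit 152) (nat_lit 11524342223) (nat_lit 0) (nat_lit 3909790087) (nat_lit 11) (nat_lit 5) (nat_lit 13) (nat_lit 4) (nat_lit 11) (nat_lit 4) (nat_lit 322) (nat_lit 301) (nat_lit 277)) (XT.nd (nat_lit 78) (nat_lit 0) (nat_lit 0) (XT.lf (nat_lit 0) (nat_lit 2880590802) (nat_lit 76) (nat_lit 19860798049) (nat_lit 76) (nat_lit 9787860827) (nat_lit 10) (nat_lit 4) (nat_lit 11) (nat_lit 5) (nat_lit 11) (nat_lit 4) (nat_lit 323) (nat_lit 301) (nat_lit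 276)) (XT.lf (nat_lit 0) (nat_lit 20602070658) (nat_lit 76) (nat_lit 12797643633) (nat_lit 76) (nat_lit 2683543989) (nat_lit 10) (nat_lit 4) (nat_lit 11) (nat_lit 5) (nat_lit 11) (nat_lit 4) (nat_lit 324) (nat_lit 301) (nat_lit 275))))))))
noncomputable def xc50 : XT := (XT.nd (nat_lit 1638) (nat_lit 76) (nat_lit 0) (XT.nd (nat_lit 780) (nat_lit 152) (nat_lit 0) (XT.nd (nat_lit 390) (nat_lit 228) (nat_lit 0) (XT.nd (nat_lit 156) (nat_lit 76) (nat_lit 0) (XT.nd (nat_lit 78) (nat_lit 0) (nat_lit 0) (XT.lf (nat_lit 0) (nat_lit 501310432) (nat_lit 76) (nat_lit 4452737700) (nat_lit 152) (nat_lit 35188860722) (nat_lit 8) (nat_lit 5) (nat_lit 9) (nat_lit 5) (nat_lit 10) (nat_lit 4) (nat_lit 325) (nat_lit 301) (nat_lit 274)) (XT.lf (nat_lit 0) (nat_lit 14459514977) (nat_lit 152) (nat_lit 24576845077) (nat_lit 0) (nat_lit 5606456057) (nat_lit 8) (nat_lit 5) (nat_lit 10) (nat_lit 4) (nat_lit 8)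 (nat_lit 4) (nat_lit 326) (nat_lit 301) (nat_lit 273))) (XT.nd (nat_lit 78) (nat_lit 76) (nat_lit 0) (XT.lf (nat_lit 0) (nat_lit 25547360691) (nat_lit 152) (nat_lit 7576118978) (nat_lit 0) (nat_lit 16670767023) (nat_lit 8) (nat_lit 5) (nat_lit 10) (nat_lit 4) (nat_lit 8) (nat_lit 4) (nat_lit 327) (nat_lit 301) (nat_lit 272)) (XT.nd (nat_lit 78) (nat_lit 0) (nat_lit 0) (XT.lf (nat_lit 0) (nat_lit 13038344759) (nat_lit 76) (nat_lit 25751688305) (nat_lit 76) (nat_lit 16854629639) (nat_lit 7) (nat_lit 4) (nat_lit 8) (nat_lit 5) (nat_lit 8) (nat_lit 4) (nat_lit 328) (nat_lit 301) (nat_lit 271)) (XT.lf (nat_lit 0) (nat_lit 37503710855) (nat_lit 76) (nat_lit 16865632474) (nat_lit 76) (nat_lit 7950778157) (nat_lit 7) (nat_lit 4) (nat_lit 8) (nat_lit 5) (nat_lit 8) (nat_lit 4) (nat_lit 329) (nat_lit 301) (nat_lit 270))))) (XT.nd (nat_lit 156) (nat_lit 76) (nat_lit 0) (XT.nd (nat_lit 78) (nat_lit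 76) (nat_lit 0) (XT.lf (nat_lit 0) (nat_lit 2043175830) (nat_lit 152) (nat_lit 4537500761) (nat_lit 76) (nat_lit 63408277865) (nat_lit 6) (nat_lit 5) (nat_lit 8) (nat_lit 5) (nat_lit 7) (nat_lit 4) (nat_lit 330) (nat_lit 301) (nat_lit 269)) (XT.lf (nat_lit 0) (nat_lit 13792585627) (nat_lit 152) (nat_lit 58782808903) (nat_lit 0) (nat_lit 6015381397) (nat_lit 5) (nat_lit 5) (nat_lit 7) (nat_lit 4) (nat_lit 5) (nat_lit 4) (nat_lit 331) (nat_lit 301) (nat_lit 268))) (XT.nd (nat_lit 78) (nat_lit 76) (nat_lit 0) (XT.lf (nat_lit 0) (nat_lit 27830309123) (nat_lit 152) (nat_lit 40530755096) (nat_lit 0) (nat_lit 20042930172) (nat_lit 5) (nat_lit 5) (nat_lit 7) (nat_lit 4) (nat_lit 5) (nat_lit 4) (nat_lit 332) (nat_lit 301) (nat_lit 267)) (XT.nd (nat_lit 78) (nat_lit 76) (nat_lit 0) (XT.lf (nat_lit 0) (nat_lit 43942434180) (nat_lit 152) (nat_lit 19605250260) (nat_lit 0) (nat_lit 36146207645) (nat_lit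 5) (nat_lit 5) (nat_lit 7) (nat_lit 4) (nat_lit 5) (nat_lit 4) (nat_lit 333) (nat_lit 301) (nat_lit 266)) (XT.lf (nat_lit 0) (nat_lit 4833422332) (nat_lit 76) (nat_lit 57810917406) (nat_lit 76) (nat_lit 50006997320) (nat_lit 4) (nat_lit 4) (nat_lit 5) (nat_lit 5) (nat_lit 5) (nat_lit 4) (nat_lit 334) (nat_lit 301) (nat_lit 265)))))) (XT.nd (nat_lit 390) (nat_lit 76) (nat_lit 0) (XT.nd (nat_lit 156) (nat_lit 76) (nat_lit 0) (XT.nd (nat_lit 78) (nat_lit 0) (nat_lit 0) (XT.lf (nat_lit 0) (nat_lit 35087839710) (nat_lit 76) (nat_lit 50062664603) (nat_lit 76) (nat_lit 42252054473) (nat_lit 4) (nat_lit 4) (nat_lit 5) (nat_lit 5) (nat_lit 5) (nat_lit 4) (nat_lit 335) (nat_lit 301) (nat_lit 264)) (XT.lf (nat_lit 0) (nat_lit 69833968486) (nat_lit 76) (nat_lit 41176149682) (nat_lit 76) (nat_lit 33359722123) (nat_lit 4) (nat_lit 4) (nat_lit 5) (nat_lit 5) (nat_lit 5) (nat_lit 4) (nat_lit 336) (nat_lit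 301) (nat_lit 263))) (XT.nd (nat_lit 78) (nat_lit 76) (nat_lit 0) (XT.lf (nat_lit 0) (nat_lit 109751624224) (nat_lit 76) (nat_lit 30977506047) (nat_lit 76) (nat_lit 23156019853) (nat_lit 4) (nat_lit 4) (nat_lit 5) (nat_lit 5) (nat_lit 5) (nat_lit 4) (nat_lit 337) (nat_lit 301) (nat_lit 262)) (XT.nd (nat_lit 78) (nat_lit 76) (nat_lit 0) (XT.lf (nat_lit 0) (nat_lit 155621804535) (nat_lit 76) (nat_lit 19267195017) (nat_lit 76) (nat_lit 11441310011) (nat_lit 4) (nat_lit 4) (nat_lit 5) (nat_lit 5) (nat_lit 5) (nat_lit 4) (nat_lit 338) (nat_lit 301) (nat_lit 261)) (XT.lf (nat_lit 0) (nat_lit 1834342917) (nat_lit 152) (nat_lit 3885872788) (nat_lit 76) (nat_lit 206411740444) (nat_lit 3) (nat_lit 5) (nat_lit 5) (nat_lit 5) (nat_lit 4) (nat_lit 4) (nat_lit 339) (nat_lit 301) (nat_lit 260))))) (XT.nd (nat_lit 234) (nat_lit 0) (nat_lit 0) (XT.nd (nat_lit 78) (nat_lit 0) (nat_lit 0) (XT.lf (nat_lit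 0) (nat_lit 17606631483) (nat_lit 152) (nat_lit 213068702538) (nat_lit 0) (nat_lit 10795295660) (nat_lit 2) (nat_lit 5) (nat_lit 4) (nat_lit 4) (nat_lit 2) (nat_lit 4) (nat_lit 340) (nat_lit 301) (nat_lit 259)) (XT.nd (nat_lit 78) (nat_lit 0) (nat_lit 0) (XT.lf (nat_lit 0) (nat_lit 36216570372) (nat_lit 152) (nat_lit 209520045551) (nat_lit 0) (nat_lit 29402719514) (nat_lit 2) (nat_lit 5) (nat_lit 4) (nat_lit 4) (nat_lit 2) (nat_lit 4) (nat_lit 341) (nat_lit 301) (nat_lit 258)) (XT.lf (nat_lit 0) (nat_lit 57606363591) (nat_lit 152) (nat_lit 205463405155) (nat_lit 0) (nat_lit 50790325746) (nat_lit 2) (nat_lit 5) (nat_lit 4) (nat_lit 4) (nat_lit 2) (nat_lit 4) (nat_lit 342) (nat_lit 301) (nat_lit 257)))) (XT.nd (nat_lit 78) (nat_lit 0) (nat_lit 0) (XT.lf (nat_lit 0) (nat_lit 82194507092) (nat_lit 152) (nat_lit 200819412298) (nat_lit 0) (nat_lit 75376567519) (nat_lit 2) (nat_lit 5) (nat_lit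 4) (nat_lit 4) (nat_lit 2) (nat_lit 4) (nat_lit 343) (nat_lit 301) (nat_lit 256)) (XT.nd (nat_lit 78) (nat_lit 0) (nat_lit 0) (XT.lf (nat_lit 0) (nat_lit 110462073250) (nat_lit 152) (nat_lit 195497206251) (nat_lit 0) (nat_lit 103642480000) (nat_lit 2) (nat_lit 5) (nat_lit 4) (nat_lit 4) (nat_lit 2) (nat_lit 4) (nat_lit 344) (nat_lit 301) (nat_lit 255)) (XT.lf (nat_lit 0) (nat_lit 142962123141) (nat_lit 152) (nat_lit 189392656894) (nat_lit 0) (nat_lit 136141091912) (nat_lit 2) (nat_lit 5) (nat_lit 4) (nat_lit 4) (nat_lit 2) (nat_lit 4) (nat_lit 345) (nat_lit 301) (nat_lit 254))))))) (XT.nd (nat_lit 858) (nat_lit 76) (nat_lit 0) (XT.nd (nat_lit 390) (nat_lit 0) (nat_lit 0) (XT.nd (nat_lit 156) (nat_lit 0) (nat_lit 0) (XT.nd (nat_lit 78) (nat_lit 0) (nat_lit 0) (XT.lf (nat_lit 0) (nat_lit 180330527306) (nat_lit 152) (nat_lit 182386327394) (nat_lit 0) (nat_lit 173508245660) (nat_lit 2) (nat_lit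 5) (nat_lit 4) (nat_lit 4) (nat_lit 2) (nat_lit 4) (nat_lit 346) (nat_lit 301) (nat_lit 253)) (XT.lf (nat_lit 0) (nat_lit 223298406697) (nat_lit 152) (nat_lit 174341137389) (nat_lit 0) (nat_lit 216475037731) (nat_lit 2) (nat_lit 5) (nat_lit 4) (nat_lit 4) (nat_lit 2) (nat_lit 4) (nat_lit 347) (nat_lit 301) (nat_lit 252))) (XT.nd (nat_lit 78) (nat_lit 0) (nat_lit 0) (XT.lf (nat_lit 0) (nat_lit 272706437214) (nat_lit 152) (nat_lit 165099680989) (nat_lit 0) (nat_lit 265882122754) (nat_lit 2) (nat_lit 5) (nat_lit 4) (nat_lit 4) (nat_lit 2) (nat_lit 4) (nat_lit 348) (nat_lit 301) (nat_lit 251)) (XT.nd (nat_lit 78) (nat_lit 0) (nat_lit 0) (XT.lf (nat_lit 0) (nat_lit 329521297716) (nat_lit 152) (nat_lit 154481147090) (nat_lit 0) (nat_lit 322696161086) (nat_lit 2) (nat_lit 5) (nat_lit 4) (nat_lit 4) (nat_lit 2) (nat_lit 4) (nat_lit 349) (nat_lit 301) (nat_lit 250)) (XT.lf (nat_lit 0) (nat_lit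 394854583299) (nat_lit 152) (nat_lit 142277781769) (nat_lit 0) (nat_lit 388028731739) (nat_lit 2) (nat_lit 5) (nat_lit 4) (nat_lit 4) (nat_lit 2) (nat_lit 4) (nat_lit 350) (nat_lit 301) (nat_lit 249))))) (XT.nd (nat_lit 234) (nat_lit 0) (nat_lit 0) (XT.nd (nat_lit 78) (nat_lit 0) (nat_lit 0) (XT.lf (nat_lit 0) (nat_lit 469984553899) (nat_lit 152) (nat_lit 128250823529) (nat_lit 0) (nat_lit 463158080660) (nat_lit 2) (nat_lit 5) (nat_lit 4) (nat_lit 4) (nat_lit 2) (nat_lit 4) (nat_lit 351) (nat_lit 301) (nat_lit 248)) (XT.nd (nat_lit 78) (nat_lit 0) (nat_lit 0) (XT.lf (nat_lit 0) (nat_lit 556381143723) (nat_lit 152) (nat_lit 112125831883) (nat_lit 0) (nat_lit 549554129894) (nat_lit 2) (nat_lit 5) (nat_lit 4) (nat_lit 4) (nat_lit 2) (nat_lit 4) (nat_lit 352) (nat_lit 301) (nat_lit 247)) (XT.lf (nat_lit 0) (nat_lit 655734720832) (nat_lit 152) (nat_lit 93587317864) (nat_lit 0) (nat_lit 648907236926)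 (nat_lit 2) (nat_lit 5) (nat_lit 4) (nat_lit 4) (nat_lit 2) (nat_lit 4) (nat_lit 353) (nat_lit 301) (nat_lit 246)))) (XT.nd (nat_lit 78) (nat_lit 0) (nat_lit 0) (XT.lf (nat_lit 0) (nat_lit 769989159563) (nat_lit 152) (nat_lit 72272571417) (nat_lit 0) (nat_lit 763161266893) (nat_lit 2) (nat_lit 5) (nat_lit 4) (nat_lit 4) (nat_lit 2) (nat_lit 4) (nat_lit 354) (nat_lit 301) (nat_lit 245)) (XT.nd (nat_lit 78) (nat_lit 0) (nat_lit 0) (XT.lf (nat_lit 0) (nat_lit 901379872845) (nat_lit 152) (nat_lit 47764564891) (nat_lit 0) (nat_lit 894551624728) (nat_lit 2) (nat_lit 5) (nat_lit 4) (nat_lit 4) (nat_lit 2) (nat_lit 4) (nat_lit 355) (nat_lit 301) (nat_lit 244)) (XT.lf (nat_lit 0) (nat_lit 1052477548548) (nat_lit 152) (nat_lit 19583793813) (nat_lit 0) (nat_lit 1045648991347) (nat_lit 2) (nat_lit 5) (nat_lit 4) (nat_lit 4) (nat_lit 2) (nat_lit 4) (nat_lit 356) (nat_lit 301) (nat_lit 243)))))) (XT.nd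 (nat_lit 390) (nat_lit 0) (nat_lit 0) (XT.nd (nat_lit 156) (nat_lit 0) (nat_lit 0) (XT.nd (nat_lit 78) (nat_lit 0) (nat_lit 0) (XT.lf (nat_lit 0) (nat_lit 14074076328) (nat_lit 76) (nat_lit 1212747146704) (nat_lit 76) (nat_lit 1205918320734) (nat_lit 1) (nat_lit 4) (nat_lit 2) (nat_lit 5) (nat_lit 2) (nat_lit 4) (nat_lit 357) (nat_lit 301) (nat_lit 242)) (XT.lf (nat_lit 0) (nat_lit 54978725995) (nat_lit 76) (nat_lit 1373360059364) (nat_lit 76) (nat_lit 1366530999682) (nat_lit 1) (nat_lit 4) (nat_lit 2) (nat_lit 5) (nat_lit 2) (nat_lit 4) (nat_lit 358) (nat_lit 301) (nat_lit 241))) (XT.nd (nat_lit 78) (nat_lit 0) (nat_lit 0) (XT.lf (nat_lit 0) (nat_lit 102016592791) (nat_lit 76) (nat_lit 1558066205206) (nat_lit 76) (nat_lit 1551236942297) (nat_lit 1) (nat_lit 4) (nat_lit 2) (nat_lit 5) (nat_lit 2) (nat_lit 4) (nat_lit 359) (nat_lit 301) (nat_lit 240)) (XT.nd (nat_lit 78) (nat_lit 0) (nat_lit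 0) (XT.lf (nat_lit 0) (nat_lit 156107982805) (nat_lit 76) (nat_lit 1770479400129) (nat_lit 76) (nat_lit 1763649960500) (nat_lit 1) (nat_lit 4) (nat_lit 2) (nat_lit 5) (nat_lit 2) (nat_lit 4) (nat_lit 360) (nat_lit 301) (nat_lit 239)) (XT.lf (nat_lit 0) (nat_lit 218311205843) (nat_lit 76) (nat_lit 2014755554466) (nat_lit 76) (nat_lit 2007925961168) (nat_lit 1) (nat_lit 4) (nat_lit 2) (nat_lit 5) (nat_lit 2) (nat_lit 4) (nat_lit 361) (nat_lit 301) (nat_lit 238))))) (XT.nd (nat_lit 234) (nat_lit 0) (nat_lit 0) (XT.nd (nat_lit 78) (nat_lit 0) (nat_lit 0) (XT.lf (nat_lit 0) (nat_lit 289843281484) (nat_lit 76) (nat_lit 2295673984282) (nat_lit 76) (nat_lit 2288844257358) (nat_lit 1) (nat_lit 4) (nat_lit 2) (nat_lit 5) (nat_lit 2) (nat_lit 4) (nat_lit 362) (nat_lit 301) (nat_lit 237)) (XT.nd (nat_lit 78) (nat_lit 0) (nat_lit 0) (XT.lf (nat_lit 0) (nat_lit 372103750340) (nat_lit 76) (nat_lit 2618730919725)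 (nat_lit 76) (nat_lit 2611901076605) (nat_lit 1) (nat_lit 4) (nat_lit 2) (nat_lit 5) (nat_lit 2) (nat_lit 4) (nat_lit 363) (nat_lit 301) (nat_lit 236)) (XT.lf (nat_lit 0) (nat_lit 466702056367) (nat_lit 76) (nat_lit 2990247039966) (nat_lit 76) (nat_lit 2983417095806) (nat_lit 1) (nat_lit 4) (nat_lit 2) (nat_lit 5) (nat_lit 2) (nat_lit 4) (nat_lit 364) (nat_lit 301) (nat_lit 235)))) (XT.nd (nat_lit 78) (nat_lit 0) (nat_lit 0) (XT.lf (nat_lit 0) (nat_lit 575489035986) (nat_lit 76) (nat_lit 3417491138662) (nat_lit 76) (nat_lit 3410661106642) (nat_lit 1) (nat_lit 4) (nat_lit 2) (nat_lit 5) (nat_lit 2) (nat_lit 4) (nat_lit 365) (nat_lit 301) (nat_lit 234)) (XT.nd (nat_lit 78) (nat_lit 0) (nat_lit 0) (XT.lf (nat_lit 0) (nat_lit 700593130104) (nat_lit 76) (nat_lit 3908822339485) (nat_lit 76) (nat_lit 3901992231063) (nat_lit 1) (nat_lit 4) (nat_lit 2) (nat_lit 5) (nat_lit 2) (nat_lit 4) (nat_lit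 366) (nat_lit 301) (nat_lit 233)) (XT.lf (nat_lit 0) (nat_lit 844462027517) (nat_lit 76) (nat_lit 4473853644188) (nat_lit 76) (nat_lit 4467023469331) (nat_lit 1) (nat_lit 4) (nat_lit 2) (nat_lit 5) (nat_lit 2) (nat_lit 4) (nat_lit 367) (nat_lit 301) (nat_lit 232))))))))
noncomputable def xc51 : XT := (XT.nd (nat_lit 41730) (nat_lit 0) (nat_lit 760) (XT.nd (nat_lit 858) (nat_lit 0) (nat_lit 0) (XT.nd (nat_lit 390) (nat_lit 0) (nat_lit 0) (XT.nd (nat_lit 156) (nat_lit 0) (nat_lit 0) (XT.nd (nat_lit 78) (nat_lit 0) (nat_lit 0) (XT.lf (nat_lit 0) (nat_lit 1009910554481) (nat_lit 76) (nat_lit 5123640013081) (nat_lit 76) (nat_lit 5116809780454) (nat_lit 1) (nat_lit 4) (nat_lit 2) (nat_lit 5) (nat_lit 2) (nat_lit 4) (nat_lit 368) (nat_lit 301) (nat_lit 231)) (XT.lf (nat_lit 0) (nat_lit 1200175747392) (nat_lit 76) (nat_lit 5870894657730) (nat_lit 76) (nat_lit 5864064374868) (nat_lit 1) (nat_lit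 4) (nat_lit 2) (nat_lit 5) (nat_lit 2) (nat_lit 4) (nat_lit 369) (nat_lit 301) (nat_lit 230))) (XT.nd (nat_lit 78) (nat_lit 0) (nat_lit 0) (XT.lf (nat_lit 0) (nat_lit 1418980186112) (nat_lit 76) (nat_lit 6730237777704) (nat_lit 76) (nat_lit 6723407451159) (nat_lit 1) (nat_lit 4) (nat_lit 2) (nat_lit 5) (nat_lit 2) (nat_lit 4) (nat_lit 370) (nat_lit 301) (nat_lit 229)) (XT.nd (nat_lit 78) (nat_lit 0) (nat_lit 0) (XT.lf (nat_lit 0) (nat_lit 1670604827049) (nat_lit 76) (nat_lit 7718482607958) (nat_lit 76) (nat_lit 7711652243429) (nat_lit 1) (nat_lit 4) (nat_lit 2) (nat_lit 5) (nat_lit 2) (nat_lit 4) (nat_lit 371) (nat_lit 301) (nat_lit 228)) (XT.lf (nat_lit 0) (nat_lit 1959972761006) (nat_lit 76) (nat_lit 8854964373433) (nat_lit 76) (nat_lit 8848133975874) (nat_lit 1) (nat_lit 4) (nat_lit 2) (nat_lit 5) (nat_lit 2) (nat_lit 4) (nat_lit 372) (nat_lit 301) (nat_lit 227))))) (XT.nd (nat_lit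 234) (nat_lit 0) (nat_lit 0) (XT.nd (nat_lit 78) (nat_lit 0) (nat_lit 0) (XT.lf (nat_lit 0) (nat_lit 2292745534515) (nat_lit 76) (nat_lit 10161918586931) (nat_lit 76) (nat_lit 10155088160650) (nat_lit 1) (nat_lit 4) (nat_lit 2) (nat_lit 5) (nat_lit 2) (nat_lit 4) (nat_lit 373) (nat_lit 301) (nat_lit 226)) (XT.nd (nat_lit 78) (nat_lit 0) (nat_lit 0) (XT.lf (nat_lit 0) (nat_lit 2675433919234) (nat_lit 76) (nat_lit 11664916091760) (nat_lit 76) (nat_lit 11658085640504) (nat_lit 1) (nat_lit 4) (nat_lit 2) (nat_lit 5) (nat_lit 2) (nat_lit 4) (nat_lit 374) (nat_lit 301) (nat_lit 225)) (XT.lf (nat_lit 0) (nat_lit 3115525296601) (nat_lit 76) (nat_lit 13393363360841) (nat_lit 76) (nat_lit 13386532887866) (nat_lit 1) (nat_lit 4) (nat_lit 2) (nat_lit 5) (nat_lit 2) (nat_lit 4) (nat_lit 375) (nat_lit 301) (nat_lit 224)))) (XT.nd (nat_lit 78) (nat_lit 0) (nat_lit 0) (XT.lf (nat_lit 0) (nat_lit 3621630150087)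 (nat_lit 76) (nat_lit 15381077840742) (nat_lit 76) (nat_lit 15374247348882) (nat_lit 1) (nat_lit 4) (nat_lit 2) (nat_lit 5) (nat_lit 2) (nat_lit 4) (nat_lit 376) (nat_lit 301) (nat_lit 223)) (XT.nd (nat_lit 78) (nat_lit 0) (nat_lit 0) (XT.lf (nat_lit 0) (nat_lit 4203650531173) (nat_lit 76) (nat_lit 17666949597374) (nat_lit 76) (nat_lit 17660119089093) (nat_lit 1) (nat_lit 4) (nat_lit 2) (nat_lit 5) (nat_lit 2) (nat_lit 4) (nat_lit 377) (nat_lit 301) (nat_lit 222)) (XT.lf (nat_lit 0) (nat_lit 4872973795142) (nat_lit 76) (nat_lit 20295702208585) (nat_lit 76) (nat_lit 20288871686024) (nat_lit 1) (nat_lit 4) (nat_lit 2) (nat_lit 5) (nat_lit 2) (nat_lit 4) (nat_lit 378) (nat_lit 301) (nat_lit 221)))))) (XT.nd (nat_lit 390) (nat_lit 0) (nat_lit 0) (XT.nd (nat_lit 156) (nat_lit 0) (nat_lit 0) (XT.nd (nat_lit 78) (nat_lit 0) (nat_lit 0) (XT.lf (nat_lit 0) (nat_lit 5642695397158) (nat_lit 76)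 (nat_lit 23318767790681) (nat_lit 76) (nat_lit 23311937255703) (nat_lit 1) (nat_lit 4) (nat_lit 2) (nat_lit 5) (nat_lit 2) (nat_lit 4) (nat_lit 379) (nat_lit 301) (nat_lit 220)) (XT.lf (nat_lit 0) (nat_lit 6527875107695) (nat_lit 76) (nat_lit 26795293278964) (nat_lit 76) (nat_lit 26788462733188) (nat_lit 1) (nat_lit 4) (nat_lit 2) (nat_lit 5) (nat_lit 2) (nat_lit 4) (nat_lit 380) (nat_lit 301) (nat_lit 219))) (XT.nd (nat_lit 78) (nat_lit 0) (nat_lit 0) (XT.lf (nat_lit 0) (nat_lit 7545831660220) (nat_lit 76) (nat_lit 30793297650379) (nat_lit 76) (nat_lit 30786467095213) (nat_lit 1) (nat_lit 4) (nat_lit 2) (nat_lit 5) (nat_lit 2) (nat_lit 4) (nat_lit 381) (nat_lit 301) (nat_lit 218)) (XT.nd (nat_lit 78) (nat_lit 0) (nat_lit 0) (XT.lf (nat_lit 0) (nat_lit 8716481595979) (nat_lit 76) (nat_lit 35391002729583) (nat_lit 76) (nat_lit 35384172166253) (nat_lit 1) (nat_lit 4) (nat_lit 2) (nat_lit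 5) (nat_lit 2) (nat_lit 4) (nat_lit 382) (nat_lit 301) (nat_lit 217)) (XT.lf (nat_lit 0) (nat_lit 10062728935453) (nat_lit 76) (nat_lit 40678363615952) (nat_lit 76) (nat_lit 40671533045522) (nat_lit 1) (nat_lit 4) (nat_lit 2) (nat_lit 5) (nat_lit 2) (nat_lit 4) (nat_lit 383) (nat_lit 301) (nat_lit 216))))) (XT.nd (nat_lit 234) (nat_lit 0) (nat_lit 0) (XT.nd (nat_lit 78) (nat_lit 0) (nat_lit 0) (XT.lf (nat_lit 0) (nat_lit 11610913300502) (nat_lit 76) (nat_lit 46758828674655) (nat_lit 76) (nat_lit 46751998098052) (nat_lit 1) (nat_lit 4) (nat_lit 2) (nat_lit 5) (nat_lit 2) (nat_lit 4) (nat_lit 384) (nat_lit 301) (nat_lit 215)) (XT.nd (nat_lit 78) (nat_lit 0) (nat_lit 0) (XT.lf (nat_lit 0) (nat_lit 13391325254790) (nat_lit 76) (nat_lit 53751363526405) (nat_lit 76) (nat_lit 53744532944433) (nat_lit 1) (nat_lit 4) (nat_lit 2) (nat_lit 5) (nat_lit 2) (nat_lit 4) (nat_lit 385) (nat_lit 301) (nat_lit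 214)) (XT.lf (nat_lit 0) (nat_lit 15438798945248) (nat_lit 76) (nat_lit 61792778635693) (nat_lit 76) (nat_lit 61785948049053) (nat_lit 1) (nat_lit 4) (nat_lit 2) (nat_lit 5) (nat_lit 2) (nat_lit 4) (nat_lit 386) (nat_lit 301) (nat_lit 213)))) (XT.nd (nat_lit 78) (nat_lit 0) (nat_lit 0) (XT.lf (nat_lit 0) (nat_lit 17793393639734) (nat_lit 76) (nat_lit 71040406037266) (nat_lit 76) (nat_lit 71033575446567) (nat_lit 1) (nat_lit 4) (nat_lit 2) (nat_lit 5) (nat_lit 2) (nat_lit 4) (nat_lit 387) (nat_lit 301) (nat_lit 212)) (XT.nd (nat_lit 78) (nat_lit 0) (nat_lit 0) (XT.lf (nat_lit 0) (nat_lit 20501177495313) (nat_lit 76) (nat_lit 81675177571589) (nat_lit 76) (nat_lit 81668346977360) (nat_lit 1) (nat_lit 4) (nat_lit 2) (nat_lit 5) (nat_lit 2) (nat_lit 4) (nat_lit 388) (nat_lit 301) (nat_lit 211)) (XT.lf (nat_lit 0) (nat_lit 23615128891768) (nat_lit 76) (nat_lit 93905164855639) (nat_lit 76) (nat_lit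 93898334258340) (nat_lit 1) (nat_lit 4) (nat_lit 2) (nat_lit 5) (nat_lit 2) (nat_lit 4) (nat_lit 389) (nat_lit 301) (nat_lit 210))))))) (XT.nd (nat_lit 858) (nat_lit 760) (nat_lit 0) (XT.nd (nat_lit 390) (nat_lit 760) (nat_lit 0) (XT.nd (nat_lit 156) (nat_lit 228) (nat_lit 0) (XT.nd (nat_lit 78) (nat_lit 0) (nat_lit 0) (XT.lf (nat_lit 0) (nat_lit 1865968370) (nat_lit 228) (nat_lit 769809824) (nat_lit 228) (nat_lit 769809824) (nat_lit 34) (nat_lit 3) (nat_lit 37) (nat_lit 3) (nat_lit 37) (nat_lit 5) (nat_lit 302) (nat_lit 302) (nat_lit 296)) (XT.lf (nat_lit 76) (nat_lit 1937764478) (nat_lit 0) (nat_lit 3952529327) (nat_lit 228) (nat_lit 1144029026) (nat_lit 35) (nat_lit 5) (nat_lit 34) (nat_lit 3) (nat_lit 37) (nat_lit 5) (nat_lit 303) (nat_lit 302) (nat_lit 295))) (XT.nd (nat_lit 78) (nat_lit 0) (nat_lit 76) (XT.lf (nat_lit 0) (nat_lit 724316253) (nat_lit 228) (nat_lit 1455019511) (nat_lit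 304) (nat_lit 5144935728) (nat_lit 31) (nat_lit 5) (nat_lit 34) (nat_lit 3) (nat_lit 35) (nat_lit 5) (nat_lit 304) (nat_lit 302) (nat_lit 294)) (XT.nd (nat_lit 78) (nat_lit 0) (nat_lit 0) (XT.lf (nat_lit 0) (nat_lit 2574013741) (nat_lit 228) (nat_lit 4971056513) (nat_lit 76) (nat_lit 132533804) (nat_lit 32) (nat_lit 5) (nat_lit 35) (nat_lit 5) (nat_lit 33) (nat_lit 5) (nat_lit 305) (nat_lit 302) (nat_lit 293)) (XT.lf (nat_lit 0) (nat_lit 4618449557) (nat_lit 228) (nat_lit 765098793) (nat_lit 76) (nat_lit 2713488928) (nat_lit 32) (nat_lit 5) (nat_lit 35) (nat_lit 5) (nat_lit 33) (nat_lit 5) (nat_lit 306) (nat_lit 302) (nat_lit 292))))) (XT.nd (nat_lit 234) (nat_lit 228) (nat_lit 0) (XT.nd (nat_lit 78) (nat_lit 380) (nat_lit 0) (XT.lf (nat_lit 0) (nat_lit 4239585187) (nat_lit 228) (nat_lit 2674062235) (nat_lit 304) (nat_lit 1674726447) (nat_lit 29) (nat_lit 5) (nat_lit 32) (nat_lit 5) (nat_lit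 33) (nat_lit 5) (nat_lit 307) (nat_lit 302) (nat_lit 291)) (XT.nd (nat_lit 78) (nat_lit 0) (nat_lit 0) (XT.lf (nat_lit 0) (nat_lit 240018420) (nat_lit 380) (nat_lit 8435082672) (nat_lit 76) (nat_lit 494899577) (nat_lit 24) (nat_lit 5) (nat_lit 29) (nat_lit 5) (nat_lit 25) (nat_lit 5) (nat_lit 308) (nat_lit 302) (nat_lit 290)) (XT.lf (nat_lit 0) (nat_lit 2435422170) (nat_lit 380) (nat_lit 3194617508) (nat_lit 76) (nat_lit 4172529802) (nat_lit 24) (nat_lit 5) (nat_lit 29) (nat_lit 5) (nat_lit 25) (nat_lit 5) (nat_lit 309) (nat_lit 302) (nat_lit 289)))) (XT.nd (nat_lit 78) (nat_lit 76) (nat_lit 0) (XT.lf (nat_lit 0) (nat_lit 2877806996) (nat_lit 152) (nat_lit 2027078550) (nat_lit 228) (nat_lit 5633770414) (nat_lit 22) (nat_lit 5) (nat_lit 24) (nat_lit 5) (nat_lit 25) (nat_lit 5) (nat_lit 310) (nat_lit 302) (nat_lit 288)) (XT.nd (nat_lit 78) (nat_lit 76) (nat_lit 0) (XT.lf (nat_lit 0) (nat_lit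 7845678140) (nat_lit 228) (nat_lit 1458925671) (nat_lit 76) (nat_lit 2065714886) (nat_lit 22) (nat_lit 5) (nat_lit 25) (nat_lit 5) (nat_lit 23) (nat_lit 4) (nat_lit 311) (nat_lit 302) (nat_lit 287)) (XT.lf (nat_lit 0) (nat_lit 5908551707) (nat_lit 76) (nat_lit 5519646683) (nat_lit 152) (nat_lit 868701786) (nat_lit 21) (nat_lit 5) (nat_lit 22) (nat_lit 5) (nat_lit 23) (nat_lit 4) (nat_lit 312) (nat_lit 302) (nat_lit 286)))))) (XT.nd (nat_lit 390) (nat_lit 304) (nat_lit 0) (XT.nd (nat_lit 156) (nat_lit 228) (nat_lit 0) (XT.nd (nat_lit 78) (nat_lit 0) (nat_lit 0) (XT.lf (nat_lit 0) (nat_lit 989089252) (nat_lit 152) (nat_lit 986495509) (nat_lit 228) (nat_lit 11375825374) (nat_lit 18) (nat_lit 5) (nat_lit 20) (nat_lit 5) (nat_lit 21) (nat_lit 5) (nat_lit 313) (nat_lit 302) (nat_lit 285)) (XT.lf (nat_lit 0) (nat_lit 5553405654) (nat_lit 228) (nat_lit 4761561887) (nat_lit 76) (nat_lit 4183720932)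 (nat_lit 18) (nat_lit 5) (nat_lit 21) (nat_lit 5) (nat_lit 19) (nat_lit 4) (nat_lit 314) (nat_lit 302) (nat_lit 284))) (XT.nd (nat_lit 78) (nat_lit 152) (nat_lit 0) (XT.lf (nat_lit 0) (nat_lit 4119634656) (nat_lit 76) (nat_lit 5653631574) (nat_lit 152) (nat_lit 6029136374) (nat_lit 17) (nat_lit 5) (nat_lit 18) (nat_lit 5) (nat_lit 19) (nat_lit 4) (nat_lit 315) (nat_lit 302) (nat_lit 283)) (XT.nd (nat_lit 78) (nat_lit 152) (nat_lit 0) (XT.lf (nat_lit 0) (nat_lit 14696843830) (nat_lit 76) (nat_lit 73508040) (nat_lit 152) (nat_lit 2509814676) (nat_lit 17) (nat_lit 5) (nat_lit 18) (nat_lit 5) (nat_lit 19) (nat_lit 4) (nat_lit 316) (nat_lit 302) (nat_lit 282)) (XT.lf (nat_lit 0) (nat_lit 1932910889) (nat_lit 152) (nat_lit 10804430280) (nat_lit 76) (nat_lit 6152946385) (nat_lit 15) (nat_lit 5) (nat_lit 17) (nat_lit 5) (nat_lit 16) (nat_lit 4) (nat_lit 317) (nat_lit 302) (nat_lit 281))))) (XT.nd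 (nat_lit 234) (nat_lit 152) (nat_lit 0) (XT.nd (nat_lit 78) (nat_lit 152) (nat_lit 0) (XT.lf (nat_lit 0) (nat_lit 6838240580) (nat_lit 152) (nat_lit 367464304) (nat_lit 76) (nat_lit 13510406912) (nat_lit 15) (nat_lit 5) (nat_lit 17) (nat_lit 5) (nat_lit 16) (nat_lit 4) (nat_lit 318) (nat_lit 302) (nat_lit 280)) (XT.nd (nat_lit 78) (nat_lit 76) (nat_lit 0) (XT.lf (nat_lit 0) (nat_lit 12617383771) (nat_lit 76) (nat_lit 304605301) (nat_lit 152) (nat_lit 9827501793) (nat_lit 14) (nat_lit 5) (nat_lit 15) (nat_lit 5) (nat_lit 16) (nat_lit 4) (nat_lit 319) (nat_lit 302) (nat_lit 279)) (XT.lf (nat_lit 0) (nat_lit 2245889662) (nat_lit 76) (nat_lit 18024078914) (nat_lit 76) (nat_lit 4765222334) (nat_lit 13) (nat_lit 4) (nat_lit 14) (nat_lit 5) (nat_lit 14) (nat_lit 4) (nat_lit 320) (nat_lit 302) (nat_lit 278)))) (XT.nd (nat_lit 78) (nat_lit 76) (nat_lit 0) (XT.lf (nat_lit 0) (nat_lit 1455154748)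 (nat_lit 152) (nat_lit 10192876767) (nat_lit 76) (nat_lit 15935281131) (nat_lit 12) (nat_lit 5) (nat_lit 14) (nat_lit 5) (nat_lit 13) (nat_lit 4) (nat_lit 321) (nat_lit 302) (nat_lit 277)) (XT.nd (nat_lit 78) (nat_lit 0) (nat_lit 0) (XT.lf (nat_lit 0) (nat_lit 4325624826) (nat_lit 76) (nat_lit 3907641036) (nat_lit 152) (nat_lit 22229510021) (nat_lit 11) (nat_lit 5) (nat_lit 12) (nat_lit 5) (nat_lit 13) (nat_lit 4) (nat_lit 322) (nat_lit 302) (nat_lit 276)) (XT.lf (nat_lit 0) (nat_lit 16727847597) (nat_lit 152) (nat_lit 11885914168) (nat_lit 0) (nat_lit 5055470584) (nat_lit 11) (nat_lit 5) (nat_lit 13) (nat_lit 4) (nat_lit 11) (nat_lit 4) (nat_lit 323) (nat_lit 302) (nat_lit 275))))))))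
noncomputable def xc52 : XT := (XT.nd (nat_lit 1638) (nat_lit 76) (nat_lit 0) (XT.nd (nat_lit 780) (nat_lit 228) (nat_lit 0) (XT.nd (nat_lit 390) (nat_lit 228) (nat_lit 0) (XT.nd (nat_lit 156) (nat_lit 152) (nat_lit 0) (XT.nd (nat_lit 78) (nat_lit 0) (nat_lit 0) (XT.lf (nat_lit 0) (nat_lit 4617618839) (nat_lit 76) (nat_lit 22199577005) (nat_lit 76) (nat_lit 10491406583) (nat_lit 10) (nat_lit 4) (nat_lit 11) (nat_lit 5) (nat_lit 11) (nat_lit 4) (nat_lit 324) (nat_lit 302) (nat_lit 274)) (XT.lf (nat_lit 0) (nat_lit 24827111185) (nat_lit 76) (nat_lit 14160472133) (nat_lit 76) (nat_lit 2421177007) (nat_lit 10) (nat_lit 4) (nat_lit 11) (nat_lit 5) (nat_lit 11) (nat_lit 4) (nat_lit 325) (nat_lit 302) (nat_lit 273))) (XT.nd (nat_lit 78) (nat_lit 0) (nat_lit 0) (XT.lf (nat_lit 0) (nat_lit 1716410472) (nat_lit 76) (nat_lit 4554645601) (nat_lit 152) (nat_lit 39806977223) (nat_lit 8) (nat_lit 5)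 (nat_lit 9) (nat_lit 5) (nat_lit 10) (nat_lit 4) (nat_lit 326) (nat_lit 302) (nat_lit 272)) (XT.nd (nat_lit 78) (nat_lit 0) (nat_lit 0) (XT.lf (nat_lit 0) (nat_lit 17147866300) (nat_lit 152) (nat_lit 27217477582) (nat_lit 0) (nat_lit 6895783836) (nat_lit 8) (nat_lit 5) (nat_lit 10) (nat_lit 4) (nat_lit 8) (nat_lit 4) (nat_lit 327) (nat_lit 302) (nat_lit 271)) (XT.lf (nat_lit 0) (nat_lit 29831137904) (nat_lit 152) (nat_lit 7803063558) (nat_lit 0) (nat_lit 19561259789) (nat_lit 8) (nat_lit 5) (nat_lit 10) (nat_lit 4) (nat_lit 8) (nat_lit 4) (nat_lit 328) (nat_lit 302) (nat_lit 270))))) (XT.nd (nat_lit 156) (nat_lit 152) (nat_lit 0) (XT.nd (nat_lit 78) (nat_lit 0) (nat_lit 0) (XT.lf (nat_lit 0) (nat_lit 15862230046) (nat_lit 76) (nat_lit 29175014764) (nat_lit 76) (nat_lit 18889662170) (nat_lit 7) (nat_lit 4) (nat_lit 8) (nat_lit 5) (nat_lit 8) (nat_lit 4) (nat_lit 329) (nat_lit 302) (nat_lit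 269)) (XT.lf (nat_lit 0) (nat_lit 43884166242) (nat_lit 76) (nat_lit 19013367096) (nat_lit 76) (nat_lit 8714558433) (nat_lit 7) (nat_lit 4) (nat_lit 8) (nat_lit 5) (nat_lit 8) (nat_lit 4) (nat_lit 330) (nat_lit 302) (nat_lit 268))) (XT.nd (nat_lit 78) (nat_lit 76) (nat_lit 0) (XT.lf (nat_lit 0) (nat_lit 2689355214) (nat_lit 152) (nat_lit 4528395880) (nat_lit 76) (nat_lit 73218493036) (nat_lit 6) (nat_lit 5) (nat_lit 8) (nat_lit 5) (nat_lit 7) (nat_lit 4) (nat_lit 331) (nat_lit 302) (nat_lit 267)) (XT.nd (nat_lit 78) (nat_lit 0) (nat_lit 0) (XT.lf (nat_lit 0) (nat_lit 16198031007) (nat_lit 152) (nat_lit 66907269515) (nat_lit 0) (nat_lit 7223522909) (nat_lit 5) (nat_lit 5) (nat_lit 7) (nat_lit 4) (nat_lit 5) (nat_lit 4) (nat_lit 332) (nat_lit 302) (nat_lit 266)) (XT.lf (nat_lit 0) (nat_lit 32297514218) (nat_lit 152) (nat_lit 46007793818) (nat_lit 0) (nat_lit 23315312569) (nat_lit 5) (nat_lit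 5) (nat_lit 7) (nat_lit 4) (nat_lit 5) (nat_lit 4) (nat_lit 333) (nat_lit 302) (nat_lit 265)))))) (XT.nd (nat_lit 390) (nat_lit 152) (nat_lit 0) (XT.nd (nat_lit 156) (nat_lit 0) (nat_lit 0) (XT.nd (nat_lit 78) (nat_lit 76) (nat_lit 0) (XT.lf (nat_lit 0) (nat_lit 50788285156) (nat_lit 152) (nat_lit 22022059937) (nat_lit 0) (nat_lit 41799393463) (nat_lit 5) (nat_lit 5) (nat_lit 7) (nat_lit 4) (nat_lit 5) (nat_lit 4) (nat_lit 334) (nat_lit 302) (nat_lit 264)) (XT.lf (nat_lit 0) (nat_lit 6058596369) (nat_lit 76) (nat_lit 66224396960) (nat_lit 76) (nat_lit 57229687837) (nat_lit 4) (nat_lit 4) (nat_lit 5) (nat_lit 5) (nat_lit 5) (nat_lit 4) (nat_lit 335) (nat_lit 302) (nat_lit 263))) (XT.nd (nat_lit 78) (nat_lit 0) (nat_lit 0) (XT.lf (nat_lit 0) (nat_lit 40785938003) (nat_lit 76) (nat_lit 57347579027) (nat_lit 76) (nat_lit 48347811269) (nat_lit 4) (nat_lit 4) (nat_lit 5) (nat_lit 5) (nat_lit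 5) (nat_lit 4) (nat_lit 336) (nat_lit 302) (nat_lit 262)) (XT.nd (nat_lit 78) (nat_lit 0) (nat_lit 0) (XT.lf (nat_lit 0) (nat_lit 80687257096) (nat_lit 76) (nat_lit 47157367555) (nat_lit 76) (nat_lit 38153200985) (nat_lit 4) (nat_lit 4) (nat_lit 5) (nat_lit 5) (nat_lit 5) (nat_lit 4) (nat_lit 337) (nat_lit 302) (nat_lit 261)) (XT.lf (nat_lit 0) (nat_lit 126543231628) (nat_lit 76) (nat_lit 35454388841) (nat_lit 76) (nat_lit 26446397216) (nat_lit 4) (nat_lit 4) (nat_lit 5) (nat_lit 5) (nat_lit 5) (nat_lit 4) (nat_lit 338) (nat_lit 302) (nat_lit 260))))) (XT.nd (nat_lit 234) (nat_lit 0) (nat_lit 0) (XT.nd (nat_lit 78) (nat_lit 152) (nat_lit 0) (XT.lf (nat_lit 0) (nat_lit 179251043711) (nat_lit 76) (nat_lit 22009671563) (nat_lit 76) (nat_lit 12998353804) (nat_lit 4) (nat_lit 4) (nat_lit 5) (nat_lit 5) (nat_lit 5) (nat_lit 4) (nat_lit 339) (nat_lit 302) (nat_lit 259)) (XT.nd (nat_lit 78) (nat_lit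 76) (nat_lit 0) (XT.lf (nat_lit 0) (nat_lit 2235567254) (nat_lit 152) (nat_lit 4207740453) (nat_lit 76) (nat_lit 237489506695) (nat_lit 3) (nat_lit 5) (nat_lit 5) (nat_lit 5) (nat_lit 4) (nat_lit 4) (nat_lit 340) (nat_lit 302) (nat_lit 258)) (XT.lf (nat_lit 0) (nat_lit 20372921591) (nat_lit 152) (nat_lit 244767196079) (nat_lit 0) (nat_lit 12532291082) (nat_lit 2) (nat_lit 5) (nat_lit 4) (nat_lit 4) (nat_lit 2) (nat_lit 4) (nat_lit 341) (nat_lit 302) (nat_lit 257)))) (XT.nd (nat_lit 78) (nat_lit 0) (nat_lit 0) (XT.lf (nat_lit 0) (nat_lit 41758008437) (nat_lit 152) (nat_lit 240720389915) (nat_lit 0) (nat_lit 33915476200) (nat_lit 2) (nat_lit 5) (nat_lit 4) (nat_lit 4) (nat_lit 2) (nat_lit 4) (nat_lit 342) (nat_lit 302) (nat_lit 256)) (XT.nd (nat_lit 78) (nat_lit 0) (nat_lit 0) (XT.lf (nat_lit 0) (nat_lit 66342059442) (nat_lit 152) (nat_lit 236084948564) (nat_lit 0) (nat_lit 58497873528)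 (nat_lit 2) (nat_lit 5) (nat_lit 4) (nat_lit 4) (nat_lit 2) (nat_lit 4) (nat_lit 343) (nat_lit 302) (nat_lit 255)) (XT.lf (nat_lit 0) (nat_lit 94606066906) (nat_lit 152) (nat_lit 230770178609) (nat_lit 0) (nat_lit 86760443013) (nat_lit 2) (nat_lit 5) (nat_lit 4) (nat_lit 4) (nat_lit 2) (nat_lit 4) (nat_lit 344) (nat_lit 302) (nat_lit 254))))))) (XT.nd (nat_lit 858) (nat_lit 76) (nat_lit 0) (XT.nd (nat_lit 390) (nat_lit 0) (nat_lit 0) (XT.nd (nat_lit 156) (nat_lit 0) (nat_lit 0) (XT.nd (nat_lit 78) (nat_lit 0) (nat_lit 0) (XT.lf (nat_lit 0) (nat_lit 127103022281) (nat_lit 152) (nat_lit 224672095419) (nat_lit 0) (nat_lit 119256147971) (nat_lit 2) (nat_lit 5) (nat_lit 4) (nat_lit 4) (nat_lit 2) (nat_lit 4) (nat_lit 345) (nat_lit 302) (nat_lit 253)) (XT.lf (nat_lit 0) (nat_lit 164468735563) (nat_lit 152) (nat_lit 217671388673) (nat_lit 0) (nat_lit 156620773933) (nat_lit 2) (nat_lit 5) (nat_lit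 4) (nat_lit 4) (nat_lit 2) (nat_lit 4) (nat_lit 346) (nat_lit 302) (nat_lit 252))) (XT.nd (nat_lit 78) (nat_lit 0) (nat_lit 0) (XT.lf (nat_lit 0) (nat_lit 207434275055) (nat_lit 152) (nat_lit 209631088020) (nat_lit 0) (nat_lit 199585367930) (nat_lit 2) (nat_lit 5) (nat_lit 4) (nat_lit 4) (nat_lit 2) (nat_lit 4) (nat_lit 347) (nat_lit 302) (nat_lit 251)) (XT.nd (nat_lit 78) (nat_lit 0) (nat_lit 0) (XT.lf (nat_lit 0) (nat_lit 256840270878) (nat_lit 152) (nat_lit 200393883229) (nat_lit 0) (nat_lit 248990541584) (nat_lit 2) (nat_lit 5) (nat_lit 4) (nat_lit 4) (nat_lit 2) (nat_lit 4) (nat_lit 348) (nat_lit 302) (nat_lit 250)) (XT.lf (nat_lit 0) (nat_lit 313653362080) (nat_lit 152) (nat_lit 189779046383) (nat_lit 0) (nat_lit 305802917856) (nat_lit 2) (nat_lit 5) (nat_lit 4) (nat_lit 4) (nat_lit 2) (nat_lit 4) (nat_lit 349) (nat_lit 302) (nat_lit 249))))) (XT.nd (nat_lit 234) (nat_lit 0) (nat_lit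 0) (XT.nd (nat_lit 78) (nat_lit 0) (nat_lit 0) (XT.lf (nat_lit 0) (nat_lit 378985109142) (nat_lit 152) (nat_lit 177578895889) (nat_lit 0) (nat_lit 371134043239) (nat_lit 2) (nat_lit 5) (nat_lit 4) (nat_lit 4) (nat_lit 2) (nat_lit 4) (nat_lit 350) (nat_lit 302) (nat_lit 248)) (XT.nd (nat_lit 78) (nat_lit 0) (nat_lit 0) (XT.lf (nat_lit 0) (nat_lit 454113741897) (nat_lit 152) (nat_lit 163554733151) (nat_lit 0) (nat_lit 446262135405) (nat_lit 2) (nat_lit 5) (nat_lit 4) (nat_lit 4) (nat_lit 2) (nat_lit 4) (nat_lit 351) (nat_lit 302) (nat_lit 247)) (XT.lf (nat_lit 0) (nat_lit 540509168378) (nat_lit 152) (nat_lit 147432172377) (nat_lit 0) (nat_lit 532657091807) (nat_lit 2) (nat_lit 5) (nat_lit 4) (nat_lit 4) (nat_lit 2) (nat_lit 4) (nat_lit 352) (nat_lit 302) (nat_lit 246)))) (XT.nd (nat_lit 78) (nat_lit 0) (nat_lit 0) (XT.lf (nat_lit 0) (nat_lit 639861733885) (nat_lit 152) (nat_lit 128895772161)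 (nat_lit 0) (nat_lit 632009248551) (nat_lit 2) (nat_lit 5) (nat_lit 4) (nat_lit 4) (nat_lit 2) (nat_lit 4) (nat_lit 353) (nat_lit 302) (nat_lit 245)) (XT.nd (nat_lit 78) (nat_lit 0) (nat_lit 0) (XT.lf (nat_lit 0) (nat_lit 754115292960) (nat_lit 152) (nat_lit 107582863801) (nat_lit 0) (nat_lit 746262452180) (nat_lit 2) (nat_lit 5) (nat_lit 4) (nat_lit 4) (nat_lit 2) (nat_lit 4) (nat_lit 354) (nat_lit 302) (nat_lit 244)) (XT.lf (nat_lit 0) (nat_lit 885505241326) (nat_lit 152) (nat_lit 83076455613) (nat_lit 0) (nat_lit 877652091461) (nat_lit 2) (nat_lit 5) (nat_lit 4) (nat_lit 4) (nat_lit 2) (nat_lit 4) (nat_lit 355) (nat_lit 302) (nat_lit 243)))))) (XT.nd (nat_lit 390) (nat_lit 0) (nat_lit 0) (XT.nd (nat_lit 156) (nat_lit 76) (nat_lit 0) (XT.nd (nat_lit 78) (nat_lit 0) (nat_lit 0) (XT.lf (nat_lit 0) (nat_lit 1036602251884) (nat_lit 152) (nat_lit 54897074394) (nat_lit 0) (nat_lit 1028748833250)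 (nat_lit 2) (nat_lit 5) (nat_lit 4) (nat_lit 4) (nat_lit 2) (nat_lit 4) (nat_lit 356) (nat_lit 302) (nat_lit 242)) (XT.lf (nat_lit 0) (nat_lit 1210362570493) (nat_lit 152) (nat_lit 22493384423) (nat_lit 0) (nat_lit 1202508918148) (nat_lit 2) (nat_lit 5) (nat_lit 4) (nat_lit 4) (nat_lit 2) (nat_lit 4) (nat_lit 357) (nat_lit 302) (nat_lit 241))) (XT.nd (nat_lit 78) (nat_lit 0) (nat_lit 0) (XT.lf (nat_lit 0) (nat_lit 16211894491) (nat_lit 76) (nat_lit 1394645261049) (nat_lit 76) (nat_lit 1386791405476) (nat_lit 1) (nat_lit 4) (nat_lit 2) (nat_lit 5) (nat_lit 2) (nat_lit 4) (nat_lit 358) (nat_lit 302) (nat_lit 240)) (XT.nd (nat_lit 78) (nat_lit 0) (nat_lit 0) (XT.lf (nat_lit 0) (nat_lit 63248758124) (nat_lit 76) (nat_lit 1579351931172) (nat_lit 76) (nat_lit 1571497898879) (nat_lit 1) (nat_lit 4) (nat_lit 2) (nat_lit 5) (nat_lit 2) (nat_lit 4) (nat_lit 359) (nat_lit 302) (nat_lit 239)) (XT.lf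 (nat_lit 0) (nat_lit 117339275822) (nat_lit 76) (nat_lit 1791765581990) (nat_lit 76) (nat_lit 1783911396028) (nat_lit 1) (nat_lit 4) (nat_lit 2) (nat_lit 5) (nat_lit 2) (nat_lit 4) (nat_lit 360) (nat_lit 302) (nat_lit 238))))) (XT.nd (nat_lit 234) (nat_lit 0) (nat_lit 0) (XT.nd (nat_lit 78) (nat_lit 0) (nat_lit 0) (XT.lf (nat_lit 0) (nat_lit 179541740324) (nat_lit 76) (nat_lit 2036042132759) (nat_lit 76) (nat_lit 2028187813172) (nat_lit 1) (nat_lit 4) (nat_lit 2) (nat_lit 5) (nat_lit 2) (nat_lit 4) (nat_lit 361) (nat_lit 302) (nat_lit 237)) (XT.nd (nat_lit 78) (nat_lit 0) (nat_lit 0) (XT.lf (nat_lit 0) (nat_lit 251073156369) (nat_lit 76) (nat_lit 2316960907298) (nat_lit 76) (nat_lit 2309106471514) (nat_lit 1) (nat_lit 4) (nat_lit 2) (nat_lit 5) (nat_lit 2) (nat_lit 4) (nat_lit 362) (nat_lit 302) (nat_lit 236)) (XT.lf (nat_lit 0) (nat_lit 333333051663) (nat_lit 76) (nat_lit 2640018142500)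 (nat_lit 76) (nat_lit 2632163605676) (nat_lit 1) (nat_lit 4) (nat_lit 2) (nat_lit 5) (nat_lit 2) (nat_lit 4) (nat_lit 363) (nat_lit 302) (nat_lit 235)))) (XT.nd (nat_lit 78) (nat_lit 0) (nat_lit 0) (XT.lf (nat_lit 0) (nat_lit 427930858941) (nat_lit 76) (nat_lit 3011534523401) (nat_lit 76) (nat_lit 3003679898717) (nat_lit 1) (nat_lit 4) (nat_lit 2) (nat_lit 5) (nat_lit 2) (nat_lit 4) (nat_lit 364) (nat_lit 302) (nat_lit 234)) (XT.nd (nat_lit 78) (nat_lit 0) (nat_lit 0) (XT.lf (nat_lit 0) (nat_lit 536717404865) (nat_lit 76) (nat_lit 3438778848759) (nat_lit 76) (nat_lit 3430924147673) (nat_lit 1) (nat_lit 4) (nat_lit 2) (nat_lit 5) (nat_lit 2) (nat_lit 4) (nat_lit 365) (nat_lit 302) (nat_lit 233)) (XT.lf (nat_lit 0) (nat_lit 661821121856) (nat_lit 76) (nat_lit 3930110246678) (nat_lit 76) (nat_lit 3922255479157) (nat_lit 1) (nat_lit 4) (nat_lit 2) (nat_lit 5) (nat_lit 2) (nat_lit 4) (nat_lit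 366) (nat_lit 302) (nat_lit 232))))))))
noncomputable def xc53 : XT := (XT.nd (nat_lit 41886) (nat_lit 0) (nat_lit 760) (XT.nd (nat_lit 858) (nat_lit 0) (nat_lit 0) (XT.nd (nat_lit 390) (nat_lit 0) (nat_lit 0) (XT.nd (nat_lit 156) (nat_lit 0) (nat_lit 0) (XT.nd (nat_lit 78) (nat_lit 0) (nat_lit 0) (XT.lf (nat_lit 0) (nat_lit 805689691334) (nat_lit 76) (nat_lit 4495141722769) (nat_lit 76) (nat_lit 4487286897478) (nat_lit 1) (nat_lit 4) (nat_lit 2) (nat_lit 5) (nat_lit 2) (nat_lit 4) (nat_lit 367) (nat_lit 302) (nat_lit 231)) (XT.lf (nat_lit 0) (nat_lit 971137933136) (nat_lit 76) (nat_lit 5144928240696) (nat_lit 76) (nat_lit 5137073365170) (nat_lit 1) (nat_lit 4) (nat_lit 2) (nat_lit 5) (nat_lit 2) (nat_lit 4) (nat_lit 368) (nat_lit 302) (nat_lit 230))) (XT.nd (nat_lit 78) (nat_lit 0) (nat_lit 0) (XT.lf (nat_lit 0) (nat_lit 1161402878081) (nat_lit 76) (nat_lit 5892183014939) (nat_lit 76)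 (nat_lit 5884328095730) (nat_lit 1) (nat_lit 4) (nat_lit 2) (nat_lit 5) (nat_lit 2) (nat_lit 4) (nat_lit 369) (nat_lit 302) (nat_lit 229)) (XT.nd (nat_lit 78) (nat_lit 0) (nat_lit 0) (XT.lf (nat_lit 0) (nat_lit 1380207101177) (nat_lit 76) (nat_lit 6751526247603) (nat_lit 76) (nat_lit 6743671290410) (nat_lit 1) (nat_lit 4) (nat_lit 2) (nat_lit 5) (nat_lit 2) (nat_lit 4) (nat_lit 370) (nat_lit 302) (nat_lit 228)) (XT.lf (nat_lit 0) (nat_lit 1631831554616) (nat_lit 76) (nat_lit 7739771175849) (nat_lit 76) (nat_lit 7731916185626) (nat_lit 1) (nat_lit 4) (nat_lit 2) (nat_lit 5) (nat_lit 2) (nat_lit 4) (nat_lit 371) (nat_lit 302) (nat_lit 227))))) (XT.nd (nat_lit 234) (nat_lit 0) (nat_lit 0) (XT.nd (nat_lit 78) (nat_lit 0) (nat_lit 0) (XT.lf (nat_lit 0) (nat_lit 1921199325530) (nat_lit 76) (nat_lit 8876253026534) (nat_lit 76) (nat_lit 8868398007589) (nat_lit 1) (nat_lit 4) (nat_lit 2) (nat_lit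 5) (nat_lit 2) (nat_lit 4) (nat_lit 372) (nat_lit 302) (nat_lit 226)) (XT.nd (nat_lit 78) (nat_lit 0) (nat_lit 0) (XT.lf (nat_lit 0) (nat_lit 2253971957264) (nat_lit 76) (nat_lit 10183207314129) (nat_lit 76) (nat_lit 10175352270208) (nat_lit 1) (nat_lit 4) (nat_lit 2) (nat_lit 5) (nat_lit 2) (nat_lit 4) (nat_lit 373) (nat_lit 302) (nat_lit 225)) (XT.lf (nat_lit 0) (nat_lit 2636660218699) (nat_lit 76) (nat_lit 11686204883389) (nat_lit 76) (nat_lit 11678349817750) (nat_lit 1) (nat_lit 4) (nat_lit 2) (nat_lit 5) (nat_lit 2) (nat_lit 4) (nat_lit 374) (nat_lit 302) (nat_lit 224)))) (XT.nd (nat_lit 78) (nat_lit 0) (nat_lit 0) (XT.lf (nat_lit 0) (nat_lit 3076751488864) (nat_lit 76) (nat_lit 13414652208496) (nat_lit 76) (nat_lit 13406797123973) (nat_lit 1) (nat_lit 4) (nat_lit 2) (nat_lit 5) (nat_lit 2) (nat_lit 4) (nat_lit 375) (nat_lit 302) (nat_lit 223)) (XT.nd (nat_lit 78) (nat_lit 0) (nat_lit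 0) (XT.lf (nat_lit 0) (nat_lit 3582856249130) (nat_lit 76) (nat_lit 15402366737117) (nat_lit 76) (nat_lit 15394511636171) (nat_lit 1) (nat_lit 4) (nat_lit 2) (nat_lit 5) (nat_lit 2) (nat_lit 4) (nat_lit 376) (nat_lit 302) (nat_lit 222)) (XT.lf (nat_lit 0) (nat_lit 4164876549156) (nat_lit 76) (nat_lit 17688238536114) (nat_lit 76) (nat_lit 17680383420888) (nat_lit 1) (nat_lit 4) (nat_lit 2) (nat_lit 5) (nat_lit 2) (nat_lit 4) (nat_lit 377) (nat_lit 302) (nat_lit 221)))))) (XT.nd (nat_lit 390) (nat_lit 0) (nat_lit 0) (XT.nd (nat_lit 156) (nat_lit 0) (nat_lit 0) (XT.nd (nat_lit 78) (nat_lit 0) (nat_lit 0) (XT.lf (nat_lit 0) (nat_lit 4834199742637) (nat_lit 76) (nat_lit 20316991184163) (nat_lit 76) (nat_lit 20309136056521) (nat_lit 1) (nat_lit 4) (nat_lit 2) (nat_lit 5) (nat_lit 2) (nat_lit 4) (nat_lit 378) (nat_lit 302) (nat_lit 220)) (XT.lf (nat_lit 0) (nat_lit 5603921283359) (nat_lit 76)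 (nat_lit 23340056798293) (nat_lit 76) (nat_lit 23332201659853) (nat_lit 1) (nat_lit 4) (nat_lit 2) (nat_lit 5) (nat_lit 2) (nat_lit 4) (nat_lit 379) (nat_lit 302) (nat_lit 219))) (XT.nd (nat_lit 78) (nat_lit 0) (nat_lit 0) (XT.lf (nat_lit 0) (nat_lit 6489100940597) (nat_lit 76) (nat_lit 26816582314431) (nat_lit 76) (nat_lit 26808727166602) (nat_lit 1) (nat_lit 4) (nat_lit 2) (nat_lit 5) (nat_lit 2) (nat_lit 4) (nat_lit 380) (nat_lit 302) (nat_lit 218)) (XT.nd (nat_lit 78) (nat_lit 0) (nat_lit 0) (XT.lf (nat_lit 0) (nat_lit 7507057446776) (nat_lit 76) (nat_lit 30814586710068) (nat_lit 76) (nat_lit 30806731554074) (nat_lit 1) (nat_lit 4) (nat_lit 2) (nat_lit 5) (nat_lit 2) (nat_lit 4) (nat_lit 381) (nat_lit 302) (nat_lit 217)) (XT.lf (nat_lit 0) (nat_lit 8677707342233) (nat_lit 76) (nat_lit 35412291810335) (nat_lit 76) (nat_lit 35404436647241) (nat_lit 1) (nat_lit 4) (nat_lit 2) (nat_lit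 5) (nat_lit 2) (nat_lit 4) (nat_lit 382) (nat_lit 302) (nat_lit 216))))) (XT.nd (nat_lit 234) (nat_lit 0) (nat_lit 0) (XT.nd (nat_lit 78) (nat_lit 0) (nat_lit 0) (XT.lf (nat_lit 0) (nat_lit 10023954646662) (nat_lit 76) (nat_lit 40699652715019) (nat_lit 76) (nat_lit 40691797545752) (nat_lit 1) (nat_lit 4) (nat_lit 2) (nat_lit 5) (nat_lit 2) (nat_lit 4) (nat_lit 383) (nat_lit 302) (nat_lit 215)) (XT.nd (nat_lit 78) (nat_lit 0) (nat_lit 0) (XT.lf (nat_lit 0) (nat_lit 11572138981238) (nat_lit 76) (nat_lit 46780117789649) (nat_lit 76) (nat_lit 46772262615013) (nat_lit 1) (nat_lit 4) (nat_lit 2) (nat_lit 5) (nat_lit 2) (nat_lit 4) (nat_lit 384) (nat_lit 302) (nat_lit 214)) (XT.lf (nat_lit 0) (nat_lit 13352550909027) (nat_lit 76) (nat_lit 53772652655248) (nat_lit 76) (nat_lit 53764797475944) (nat_lit 1) (nat_lit 4) (nat_lit 2) (nat_lit 5) (nat_lit 2) (nat_lit 4) (nat_lit 385) (nat_lit 302) (nat_lit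 213)))) (XT.nd (nat_lit 78) (nat_lit 0) (nat_lit 0) (XT.lf (nat_lit 0) (nat_lit 15400024576442) (nat_lit 76) (nat_lit 61814067776578) (nat_lit 76) (nat_lit 61806212593215) (nat_lit 1) (nat_lit 4) (nat_lit 2) (nat_lit 5) (nat_lit 2) (nat_lit 4) (nat_lit 386) (nat_lit 302) (nat_lit 212)) (XT.nd (nat_lit 78) (nat_lit 0) (nat_lit 0) (XT.lf (nat_lit 0) (nat_lit 17754619250891) (nat_lit 76) (nat_lit 71061695188623) (nat_lit 76) (nat_lit 71053840001730) (nat_lit 1) (nat_lit 4) (nat_lit 2) (nat_lit 5) (nat_lit 2) (nat_lit 4) (nat_lit 387) (nat_lit 302) (nat_lit 211)) (XT.lf (nat_lit 0) (nat_lit 20462403089047) (nat_lit 76) (nat_lit 81696466732052) (nat_lit 76) (nat_lit 81688611542090) (nat_lit 1) (nat_lit 4) (nat_lit 2) (nat_lit 5) (nat_lit 2) (nat_lit 4) (nat_lit 388) (nat_lit 302) (nat_lit 210))))))) (XT.nd (nat_lit 858) (nat_lit 684) (nat_lit 0) (XT.nd (nat_lit 390) (nat_lit 684) (nat_lit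 0) (XT.nd (nat_lit 156) (nat_lit 152) (nat_lit 0) (XT.nd (nat_lit 78) (nat_lit 0) (nat_lit 0) (XT.lf (nat_lit 0) (nat_lit 103778768) (nat_lit 0) (nat_lit 103778768) (nat_lit 228) (nat_lit 3441855661) (nat_lit 31) (nat_lit 5) (nat_lit 31) (nat_lit 3) (nat_lit 34) (nat_lit 3) (nat_lit 303) (nat_lit 303) (nat_lit 294)) (XT.lf (nat_lit 0) (nat_lit 2033408881) (nat_lit 228) (nat_lit 3584493110) (nat_lit 304) (nat_lit 1986368455) (nat_lit 31) (nat_lit 5) (nat_lit 34) (nat_lit 3) (nat_lit 35) (nat_lit 5) (nat_lit 304) (nat_lit 303) (nat_lit 293))) (XT.nd (nat_lit 78) (nat_lit 152) (nat_lit 0) (XT.lf (nat_lit 76) (nat_lit 284271387) (nat_lit 0) (nat_lit 3370824662) (nat_lit 304) (nat_lit 4337030987) (nat_lit 32) (nat_lit 5) (nat_lit 31) (nat_lit 5) (nat_lit 35) (nat_lit 5) (nat_lit 305) (nat_lit 303) (nat_lit 292)) (XT.nd (nat_lit 78) (nat_lit 152) (nat_lit 0) (XT.lf (nat_lit 76) (nat_lit 4964903877)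 (nat_lit 0) (nat_lit 508449410) (nat_lit 304) (nat_lit 2972414169) (nat_lit 32) (nat_lit 5) (nat_lit 31) (nat_lit 5) (nat_lit 35) (nat_lit 5) (nat_lit 306) (nat_lit 303) (nat_lit 291)) (XT.lf (nat_lit 0) (nat_lit 1188468331) (nat_lit 228) (nat_lit 6339076841) (nat_lit 304) (nat_lit 1445953611) (nat_lit 29) (nat_lit 5) (nat_lit 32) (nat_lit 5) (nat_lit 33) (nat_lit 5) (nat_lit 307) (nat_lit 303) (nat_lit 290))))) (XT.nd (nat_lit 234) (nat_lit 304) (nat_lit 0) (XT.nd (nat_lit 78) (nat_lit 304) (nat_lit 0) (XT.lf (nat_lit 0) (nat_lit 305444849) (nat_lit 304) (nat_lit 2842458867) (nat_lit 76) (nat_lit 6427432216) (nat_lit 28) (nat_lit 5) (nat_lit 32) (nat_lit 5) (nat_lit 29) (nat_lit 5) (nat_lit 308) (nat_lit 303) (nat_lit 289)) (XT.nd (nat_lit 78) (nat_lit 0) (nat_lit 0) (XT.lf (nat_lit 0) (nat_lit 2154022278) (nat_lit 380) (nat_lit 7435815167) (nat_lit 76) (nat_lit 670251574) (nat_lit 24)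 (nat_lit 5) (nat_lit 29) (nat_lit 5) (nat_lit 25) (nat_lit 5) (nat_lit 309) (nat_lit 303) (nat_lit 288)) (XT.lf (nat_lit 0) (nat_lit 4433779927) (nat_lit 380) (nat_lit 1704653695) (nat_lit 76) (nat_lit 4886337151) (nat_lit 24) (nat_lit 5) (nat_lit 29) (nat_lit 5) (nat_lit 25) (nat_lit 5) (nat_lit 310) (nat_lit 303) (nat_lit 287)))) (XT.nd (nat_lit 78) (nat_lit 152) (nat_lit 0) (XT.lf (nat_lit 0) (nat_lit 5189127374) (nat_lit 152) (nat_lit 1949361909) (nat_lit 228) (nat_lit 4753477943) (nat_lit 22) (nat_lit 5) (nat_lit 24) (nat_lit 5) (nat_lit 25) (nat_lit 5) (nat_lit 311) (nat_lit 303) (nat_lit 286)) (XT.nd (nat_lit 78) (nat_lit 76) (nat_lit 0) (XT.lf (nat_lit 0) (nat_lit 154539597) (nat_lit 76) (nat_lit 10190632493) (nat_lit 152) (nat_lit 2529857649) (nat_lit 21) (nat_lit 5) (nat_lit 22) (nat_lit 5) (nat_lit 23) (nat_lit 4) (nat_lit 312) (nat_lit 303) (nat_lit 285)) (XT.lf (nat_lit 0)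 (nat_lit 366228771) (nat_lit 152) (nat_lit 5442774861) (nat_lit 76) (nat_lit 8145346672) (nat_lit 20) (nat_lit 5) (nat_lit 22) (nat_lit 5) (nat_lit 21) (nat_lit 5) (nat_lit 313) (nat_lit 303) (nat_lit 284)))))) (XT.nd (nat_lit 390) (nat_lit 304) (nat_lit 0) (XT.nd (nat_lit 156) (nat_lit 228) (nat_lit 0) (XT.nd (nat_lit 78) (nat_lit 0) (nat_lit 0) (XT.lf (nat_lit 0) (nat_lit 2915254534) (nat_lit 152) (nat_lit 540106675) (nat_lit 228) (nat_lit 11719640016) (nat_lit 18) (nat_lit 5) (nat_lit 20) (nat_lit 5) (nat_lit 21) (nat_lit 5) (nat_lit 314) (nat_lit 303) (nat_lit 283)) (XT.lf (nat_lit 0) (nat_lit 7436894801) (nat_lit 228) (nat_lit 3795525723) (nat_lit 76) (nat_lit 5282104152) (nat_lit 18) (nat_lit 5) (nat_lit 21) (nat_lit 5) (nat_lit 19) (nat_lit 4) (nat_lit 315) (nat_lit 303) (nat_lit 282))) (XT.nd (nat_lit 78) (nat_lit 152) (nat_lit 0) (XT.lf (nat_lit 0) (nat_lit 6341474372) (nat_lit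 76) (nat_lit 5877655035) (nat_lit 152) (nat_lit 5805439278) (nat_lit 17) (nat_lit 5) (nat_lit 18) (nat_lit 5) (nat_lit 19) (nat_lit 4) (nat_lit 316) (nat_lit 303) (nat_lit 281)) (XT.nd (nat_lit 78) (nat_lit 152) (nat_lit 0) (XT.lf (nat_lit 0) (nat_lit 17856936992) (nat_lit 152) (nat_lit 1466234274) (nat_lit 0) (nat_lit 417310347) (nat_lit 17) (nat_lit 5) (nat_lit 19) (nat_lit 4) (nat_lit 17) (nat_lit 4) (nat_lit 317) (nat_lit 303) (nat_lit 280)) (XT.lf (nat_lit 0) (nat_lit 3082515855) (nat_lit 152) (nat_lit 10907428736) (nat_lit 76) (nat_lit 7604138066) (nat_lit 15) (nat_lit 5) (nat_lit 17) (nat_lit 5) (nat_lit 16) (nat_lit 4) (nat_lit 318) (nat_lit 303) (nat_lit 279))))) (XT.nd (nat_lit 234) (nat_lit 152) (nat_lit 0) (XT.nd (nat_lit 78) (nat_lit 76) (nat_lit 0) (XT.lf (nat_lit 0) (nat_lit 984799336) (nat_lit 76) (nat_lit 7667493451) (nat_lit 152) (nat_lit 15052294639) (nat_lit 14) (nat_lit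 5) (nat_lit 15) (nat_lit 5) (nat_lit 16) (nat_lit 4) (nat_lit 319) (nat_lit 303) (nat_lit 278)) (XT.nd (nat_lit 78) (nat_lit 76) (nat_lit 0) (XT.lf (nat_lit 0) (nat_lit 15571063651) (nat_lit 152) (nat_lit 10294848820) (nat_lit 0) (nat_lit 188782355) (nat_lit 14) (nat_lit 5) (nat_lit 16) (nat_lit 4) (nat_lit 14) (nat_lit 4) (nat_lit 320) (nat_lit 303) (nat_lit 277)) (XT.lf (nat_lit 0) (nat_lit 3864316558) (nat_lit 76) (nat_lit 20129892619) (nat_lit 76) (nat_lit 4693174020) (nat_lit 13) (nat_lit 4) (nat_lit 14) (nat_lit 5) (nat_lit 14) (nat_lit 4) (nat_lit 321) (nat_lit 303) (nat_lit 276)))) (XT.nd (nat_lit 78) (nat_lit 76) (nat_lit 0) (XT.lf (nat_lit 0) (nat_lit 2296717064) (nat_lit 152) (nat_lit 10546113695) (nat_lit 76) (nat_lit 18784088782) (nat_lit 12) (nat_lit 5) (nat_lit 14) (nat_lit 5) (nat_lit 13) (nat_lit 4) (nat_lit 322) (nat_lit 303) (nat_lit 275)) (XT.nd (nat_lit 78) (nat_lit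 0) (nat_lit 0) (XT.lf (nat_lit 0) (nat_lit 6096722474) (nat_lit 76) (nat_lit 3959993934) (nat_lit 152) (nat_lit 24886861855) (nat_lit 11) (nat_lit 5) (nat_lit 12) (nat_lit 5) (nat_lit 13) (nat_lit 4) (nat_lit 323) (nat_lit 303) (nat_lit 274)) (XT.lf (nat_lit 0) (nat_lit 19767949872) (nat_lit 152) (nat_lit 12635092870) (nat_lit 0) (nat_lit 6236635773) (nat_lit 11) (nat_lit 5) (nat_lit 13) (nat_lit 4) (nat_lit 11) (nat_lit 4) (nat_lit 324) (nat_lit 303) (nat_lit 273))))))))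
noncomputable def xc54 : XT := (XT.nd (nat_lit 1638) (nat_lit 76) (nat_lit 0) (XT.nd (nat_lit 780) (nat_lit 228) (nat_lit 0) (XT.nd (nat_lit 390) (nat_lit 228) (nat_lit 0) (XT.nd (nat_lit 156) (nat_lit 152) (nat_lit 0) (XT.nd (nat_lit 78) (nat_lit 0) (nat_lit 0) (XT.lf (nat_lit 0) (nat_lit 6296983341) (nat_lit 76) (nat_lit 25045323952) (nat_lit 76) (nat_lit 11486944892) (nat_lit 10) (nat_lit 4) (nat_lit 11) (nat_lit 5) (nat_lit 11) (nat_lit 4) (nat_lit 325) (nat_lit 303) (nat_lit 272)) (XT.lf (nat_lit 0) (nat_lit 29409196712) (nat_lit 76) (nat_lit 15863508514) (nat_lit 76) (nat_lit 2281594707) (nat_lit 10) (nat_lit 4) (nat_lit 11) (nat_lit 5) (nat_lit 11) (nat_lit 4) (nat_lit 326) (nat_lit 303) (nat_lit 271))) (XT.nd (nat_lit 78) (nat_lit 0) (nat_lit 0) (XT.lf (nat_lit 0) (nat_lit 2835802837) (nat_lit 76) (nat_lit 4809863043) (nat_lit 152) (nat_lit 45278808224) (nat_lit 8) (nat_lit 5)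 (nat_lit 9) (nat_lit 5) (nat_lit 10) (nat_lit 4) (nat_lit 327) (nat_lit 303) (nat_lit 270)) (XT.nd (nat_lit 78) (nat_lit 0) (nat_lit 0) (XT.lf (nat_lit 0) (nat_lit 20112805471) (nat_lit 152) (nat_lit 30509252900) (nat_lit 0) (nat_lit 8269175509) (nat_lit 8) (nat_lit 5) (nat_lit 10) (nat_lit 4) (nat_lit 8) (nat_lit 4) (nat_lit 328) (nat_lit 303) (nat_lit 269)) (XT.lf (nat_lit 0) (nat_lit 34647338352) (nat_lit 152) (nat_lit 8285830641) (nat_lit 0) (nat_lit 22790252321) (nat_lit 8) (nat_lit 5) (nat_lit 10) (nat_lit 4) (nat_lit 8) (nat_lit 4) (nat_lit 329) (nat_lit 303) (nat_lit 268))))) (XT.nd (nat_lit 156) (nat_lit 152) (nat_lit 0) (XT.nd (nat_lit 78) (nat_lit 0) (nat_lit 0) (XT.lf (nat_lit 0) (nat_lit 18897998256) (nat_lit 76) (nat_lit 33218997197) (nat_lit 76) (nat_lit 21350210237) (nat_lit 7) (nat_lit 4) (nat_lit 8) (nat_lit 5) (nat_lit 8) (nat_lit 4) (nat_lit 330) (nat_lit 303) (nat_lit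 267)) (XT.lf (nat_lit 0) (nat_lit 51037603094) (nat_lit 76) (nat_lit 21576441915) (nat_lit 76) (nat_lit 9697480234) (nat_lit 7) (nat_lit 4) (nat_lit 8) (nat_lit 5) (nat_lit 8) (nat_lit 4) (nat_lit 331) (nat_lit 303) (nat_lit 266))) (XT.nd (nat_lit 78) (nat_lit 76) (nat_lit 0) (XT.lf (nat_lit 0) (nat_lit 3349622776) (nat_lit 152) (nat_lit 4686120295) (nat_lit 76) (nat_lit 84427333903) (nat_lit 6) (nat_lit 5) (nat_lit 8) (nat_lit 5) (nat_lit 7) (nat_lit 4) (nat_lit 332) (nat_lit 303) (nat_lit 265)) (XT.nd (nat_lit 78) (nat_lit 0) (nat_lit 0) (XT.lf (nat_lit 0) (nat_lit 18882221508) (nat_lit 152) (nat_lit 76419382080) (nat_lit 0) (nat_lit 8538306016) (nat_lit 5) (nat_lit 5) (nat_lit 7) (nat_lit 4) (nat_lit 5) (nat_lit 4) (nat_lit 333) (nat_lit 303) (nat_lit 264)) (XT.lf (nat_lit 0) (nat_lit 37363433394) (nat_lit 152) (nat_lit 52453329967) (nat_lit 0) (nat_lit 27013700473) (nat_lit 5) (nat_lit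 5) (nat_lit 7) (nat_lit 4) (nat_lit 5) (nat_lit 4) (nat_lit 334) (nat_lit 303) (nat_lit 263)))))) (XT.nd (nat_lit 390) (nat_lit 152) (nat_lit 0) (XT.nd (nat_lit 156) (nat_lit 0) (nat_lit 0) (XT.nd (nat_lit 78) (nat_lit 76) (nat_lit 0) (XT.lf (nat_lit 0) (nat_lit 58598955794) (nat_lit 152) (nat_lit 24929166385) (nat_lit 0) (nat_lit 48244164237) (nat_lit 5) (nat_lit 5) (nat_lit 7) (nat_lit 4) (nat_lit 5) (nat_lit 4) (nat_lit 335) (nat_lit 303) (nat_lit 262)) (XT.lf (nat_lit 0) (nat_lit 7345579161) (nat_lit 76) (nat_lit 75962851925) (nat_lit 76) (nat_lit 65603661556) (nat_lit 4) (nat_lit 4) (nat_lit 5) (nat_lit 5) (nat_lit 5) (nat_lit 4) (nat_lit 336) (nat_lit 303) (nat_lit 261))) (XT.nd (nat_lit 78) (nat_lit 0) (nat_lit 0) (XT.lf (nat_lit 0) (nat_lit 47232692475) (nat_lit 76) (nat_lit 65779972769) (nat_lit 76) (nat_lit 55416957345) (nat_lit 4) (nat_lit 4) (nat_lit 5) (nat_lit 5) (nat_lit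 5) (nat_lit 4) (nat_lit 337) (nat_lit 303) (nat_lit 260)) (XT.nd (nat_lit 78) (nat_lit 0) (nat_lit 0) (XT.lf (nat_lit 0) (nat_lit 93076314156) (nat_lit 76) (nat_lit 54083369982) (nat_lit 76) (nat_lit 43717028424) (nat_lit 4) (nat_lit 4) (nat_lit 5) (nat_lit 5) (nat_lit 5) (nat_lit 4) (nat_lit 338) (nat_lit 303) (nat_lit 259)) (XT.lf (nat_lit 0) (nat_lit 145773384630) (nat_lit 76) (nat_lit 40644196988) (nat_lit 76) (nat_lit 30274963140) (nat_lit 4) (nat_lit 4) (nat_lit 5) (nat_lit 5) (nat_lit 5) (nat_lit 4) (nat_lit 339) (nat_lit 303) (nat_lit 258))))) (XT.nd (nat_lit 234) (nat_lit 0) (nat_lit 0) (XT.nd (nat_lit 78) (nat_lit 152) (nat_lit 0) (XT.lf (nat_lit 0) (nat_lit 206354933535) (nat_lit 76) (nat_lit 25199513446) (nat_lit 76) (nat_lit 14827764562) (nat_lit 4) (nat_lit 4) (nat_lit 5) (nat_lit 5) (nat_lit 5) (nat_lit 4) (nat_lit 340) (nat_lit 303) (nat_lit 257)) (XT.nd (nat_lit 78) (nat_lit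 76) (nat_lit 0) (XT.lf (nat_lit 0) (nat_lit 2666231566) (nat_lit 152) (nat_lit 4641538003) (nat_lit 76) (nat_lit 273200649285) (nat_lit 3) (nat_lit 5) (nat_lit 5) (nat_lit 5) (nat_lit 4) (nat_lit 4) (nat_lit 341) (nat_lit 303) (nat_lit 256)) (XT.lf (nat_lit 0) (nat_lit 23523601142) (nat_lit 152) (nat_lit 281284308127) (nat_lit 0) (nat_lit 14501133664) (nat_lit 2) (nat_lit 5) (nat_lit 4) (nat_lit 4) (nat_lit 2) (nat_lit 4) (nat_lit 342) (nat_lit 303) (nat_lit 255)))) (XT.nd (nat_lit 78) (nat_lit 0) (nat_lit 0) (XT.lf (nat_lit 0) (nat_lit 48104093453) (nat_lit 152) (nat_lit 276656302868) (nat_lit 0) (nat_lit 39080187996) (nat_lit 2) (nat_lit 5) (nat_lit 4) (nat_lit 4) (nat_lit 2) (nat_lit 4) (nat_lit 343) (nat_lit 303) (nat_lit 254)) (XT.nd (nat_lit 78) (nat_lit 0) (nat_lit 0) (XT.lf (nat_lit 0) (nat_lit 76365006402) (nat_lit 152) (nat_lit 271347999080) (nat_lit 0) (nat_lit 67339850527)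 (nat_lit 2) (nat_lit 5) (nat_lit 4) (nat_lit 4) (nat_lit 2) (nat_lit 4) (nat_lit 344) (nat_lit 303) (nat_lit 253)) (XT.lf (nat_lit 0) (nat_lit 108859270893) (nat_lit 152) (nat_lit 265255538645) (nat_lit 0) (nat_lit 99833027700) (nat_lit 2) (nat_lit 5) (nat_lit 4) (nat_lit 4) (nat_lit 2) (nat_lit 4) (nat_lit 345) (nat_lit 303) (nat_lit 252))))))) (XT.nd (nat_lit 858) (nat_lit 76) (nat_lit 0) (XT.nd (nat_lit 390) (nat_lit 0) (nat_lit 0) (XT.nd (nat_lit 156) (nat_lit 0) (nat_lit 0) (XT.nd (nat_lit 78) (nat_lit 0) (nat_lit 0) (XT.lf (nat_lit 0) (nat_lit 146222644276) (nat_lit 152) (nat_lit 258259721249) (nat_lit 0) (nat_lit 137195455588) (nat_lit 2) (nat_lit 5) (nat_lit 4) (nat_lit 4) (nat_lit 2) (nat_lit 4) (nat_lit 346) (nat_lit 303) (nat_lit 251)) (XT.lf (nat_lit 0) (nat_lit 189186149074) (nat_lit 152) (nat_lit 250223672206) (nat_lit 0) (nat_lit 180158138216) (nat_lit 2) (nat_lit 5) (nat_lit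 4) (nat_lit 4) (nat_lit 2) (nat_lit 4) (nat_lit 347) (nat_lit 303) (nat_lit 250))) (XT.nd (nat_lit 78) (nat_lit 0) (nat_lit 0) (XT.lf (nat_lit 0) (nat_lit 238590375597) (nat_lit 152) (nat_lit 240990164468) (nat_lit 0) (nat_lit 229561649809) (nat_lit 2) (nat_lit 5) (nat_lit 4) (nat_lit 4) (nat_lit 2) (nat_lit 4) (nat_lit 348) (nat_lit 303) (nat_lit 249)) (XT.nd (nat_lit 78) (nat_lit 0) (nat_lit 0) (XT.lf (nat_lit 0) (nat_lit 295401928278) (nat_lit 152) (nat_lit 230378542449) (nat_lit 0) (nat_lit 286372580812) (nat_lit 2) (nat_lit 5) (nat_lit 4) (nat_lit 4) (nat_lit 2) (nat_lit 4) (nat_lit 349) (nat_lit 303) (nat_lit 248)) (XT.lf (nat_lit 0) (nat_lit 360732337496) (nat_lit 152) (nat_lit 218181187458) (nat_lit 0) (nat_lit 351702449439) (nat_lit 2) (nat_lit 5) (nat_lit 4) (nat_lit 4) (nat_lit 2) (nat_lit 4) (nat_lit 350) (nat_lit 303) (nat_lit 247))))) (XT.nd (nat_lit 234) (nat_lit 0) (nat_lit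 0) (XT.nd (nat_lit 78) (nat_lit 0) (nat_lit 0) (XT.lf (nat_lit 0) (nat_lit 435859806908) (nat_lit 152) (nat_lit 204159455592) (nat_lit 0) (nat_lit 426829448773) (nat_lit 2) (nat_lit 5) (nat_lit 4) (nat_lit 4) (nat_lit 2) (nat_lit 4) (nat_lit 351) (nat_lit 303) (nat_lit 246)) (XT.nd (nat_lit 78) (nat_lit 0) (nat_lit 0) (XT.lf (nat_lit 0) (nat_lit 522254221785) (nat_lit 152) (nat_lit 188039008619) (nat_lit 0) (nat_lit 513223454888) (nat_lit 2) (nat_lit 5) (nat_lit 4) (nat_lit 4) (nat_lit 2) (nat_lit 4) (nat_lit 352) (nat_lit 303) (nat_lit 245)) (XT.lf (nat_lit 0) (nat_lit 621605907638) (nat_lit 152) (nat_lit 169504446491) (nat_lit 0) (nat_lit 612574785293) (nat_lit 2) (nat_lit 5) (nat_lit 4) (nat_lit 4) (nat_lit 2) (nat_lit 4) (nat_lit 353) (nat_lit 303) (nat_lit 244)))) (XT.nd (nat_lit 78) (nat_lit 0) (nat_lit 0) (XT.lf (nat_lit 0) (nat_lit 735858701796) (nat_lit 152) (nat_lit 148193136469)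 (nat_lit 0) (nat_lit 726827270368) (nat_lit 2) (nat_lit 5) (nat_lit 4) (nat_lit 4) (nat_lit 2) (nat_lit 4) (nat_lit 354) (nat_lit 303) (nat_lit 243)) (XT.nd (nat_lit 78) (nat_lit 0) (nat_lit 0) (XT.lf (nat_lit 0) (nat_lit 867247985016) (nat_lit 152) (nat_lit 123688118140) (nat_lit 0) (nat_lit 858216284819) (nat_lit 2) (nat_lit 5) (nat_lit 4) (nat_lit 4) (nat_lit 2) (nat_lit 4) (nat_lit 355) (nat_lit 303) (nat_lit 242)) (XT.lf (nat_lit 0) (nat_lit 1018344417187) (nat_lit 152) (nat_lit 95509945493) (nat_lit 0) (nat_lit 1009312483278) (nat_lit 2) (nat_lit 5) (nat_lit 4) (nat_lit 4) (nat_lit 2) (nat_lit 4) (nat_lit 356) (nat_lit 303) (nat_lit 241)))))) (XT.nd (nat_lit 390) (nat_lit 0) (nat_lit 0) (XT.nd (nat_lit 156) (nat_lit 76) (nat_lit 0) (XT.nd (nat_lit 78) (nat_lit 0) (nat_lit 0) (XT.lf (nat_lit 0) (nat_lit 1192104232851) (nat_lit 152) (nat_lit 63107306456) (nat_lit 0) (nat_lit 1183072095714)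 (nat_lit 2) (nat_lit 5) (nat_lit 4) (nat_lit 4) (nat_lit 2) (nat_lit 4) (nat_lit 357) (nat_lit 303) (nat_lit 240)) (XT.lf (nat_lit 0) (nat_lit 1391927080576) (nat_lit 152) (nat_lit 25846236350) (nat_lit 0) (nat_lit 1382894766719) (nat_lit 2) (nat_lit 5) (nat_lit 4) (nat_lit 4) (nat_lit 2) (nat_lit 4) (nat_lit 358) (nat_lit 303) (nat_lit 239))) (XT.nd (nat_lit 78) (nat_lit 0) (nat_lit 0) (XT.lf (nat_lit 0) (nat_lit 18663872777) (nat_lit 76) (nat_lit 1603831496209) (nat_lit 76) (nat_lit 1594799028683) (nat_lit 1) (nat_lit 4) (nat_lit 2) (nat_lit 5) (nat_lit 2) (nat_lit 4) (nat_lit 359) (nat_lit 303) (nat_lit 238)) (XT.nd (nat_lit 78) (nat_lit 0) (nat_lit 0) (XT.lf (nat_lit 0) (nat_lit 72753631940) (nat_lit 76) (nat_lit 1816245543459) (nat_lit 76) (nat_lit 1807212942308) (nat_lit 1) (nat_lit 4) (nat_lit 2) (nat_lit 5) (nat_lit 2) (nat_lit 4) (nat_lit 360) (nat_lit 303) (nat_lit 237)) (XT.lf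 (nat_lit 0) (nat_lit 134955436846) (nat_lit 76) (nat_lit 2060522438951) (nat_lit 76) (nat_lit 2051489721604) (nat_lit 1) (nat_lit 4) (nat_lit 2) (nat_lit 5) (nat_lit 2) (nat_lit 4) (nat_lit 361) (nat_lit 303) (nat_lit 236))))) (XT.nd (nat_lit 234) (nat_lit 0) (nat_lit 0) (XT.nd (nat_lit 78) (nat_lit 0) (nat_lit 0) (XT.lf (nat_lit 0) (nat_lit 206486279329) (nat_lit 76) (nat_lit 2341441513249) (nat_lit 76) (nat_lit 2332408694862) (nat_lit 1) (nat_lit 4) (nat_lit 2) (nat_lit 5) (nat_lit 2) (nat_lit 4) (nat_lit 362) (nat_lit 303) (nat_lit 235)) (XT.nd (nat_lit 78) (nat_lit 0) (nat_lit 0) (XT.lf (nat_lit 0) (nat_lit 288745675874) (nat_lit 76) (nat_lit 2664499009111) (nat_lit 76) (nat_lit 2655466102863) (nat_lit 1) (nat_lit 4) (nat_lit 2) (nat_lit 5) (nat_lit 2) (nat_lit 4) (nat_lit 363) (nat_lit 303) (nat_lit 234)) (XT.lf (nat_lit 0) (nat_lit 383343049456) (nat_lit 76) (nat_lit 3036015616673)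 (nat_lit 76) (nat_lit 3026982634024) (nat_lit 1) (nat_lit 4) (nat_lit 2) (nat_lit 5) (nat_lit 2) (nat_lit 4) (nat_lit 364) (nat_lit 303) (nat_lit 233)))) (XT.nd (nat_lit 78) (nat_lit 0) (nat_lit 0) (XT.lf (nat_lit 0) (nat_lit 492129218254) (nat_lit 76) (nat_lit 3463260139128) (nat_lit 76) (nat_lit 3454227090043) (nat_lit 1) (nat_lit 4) (nat_lit 2) (nat_lit 5) (nat_lit 2) (nat_lit 4) (nat_lit 365) (nat_lit 303) (nat_lit 232)) (XT.nd (nat_lit 78) (nat_lit 0) (nat_lit 0) (XT.lf (nat_lit 0) (nat_lit 617232607309) (nat_lit 76) (nat_lit 3954591708435) (nat_lit 76) (nat_lit 3945558601580) (nat_lit 1) (nat_lit 4) (nat_lit 2) (nat_lit 5) (nat_lit 2) (nat_lit 4) (nat_lit 366) (nat_lit 303) (nat_lit 231)) (XT.lf (nat_lit 0) (nat_lit 761100891626) (nat_lit 76) (nat_lit 4519623333559) (nat_lit 76) (nat_lit 4510590176470) (nat_lit 1) (nat_lit 4) (nat_lit 2) (nat_lit 5) (nat_lit 2) (nat_lit 4) (nat_lit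 367) (nat_lit 303) (nat_lit 230))))))))
noncomputable def xc55 : XT := (XT.nd (nat_lit 42042) (nat_lit 0) (nat_lit 684) (XT.nd (nat_lit 858) (nat_lit 0) (nat_lit 0) (XT.nd (nat_lit 390) (nat_lit 0) (nat_lit 0) (XT.nd (nat_lit 156) (nat_lit 0) (nat_lit 0) (XT.nd (nat_lit 78) (nat_lit 0) (nat_lit 0) (XT.lf (nat_lit 0) (nat_lit 926548885461) (nat_lit 76) (nat_lit 5169409981080) (nat_lit 76) (nat_lit 5160376780308) (nat_lit 1) (nat_lit 4) (nat_lit 2) (nat_lit 5) (nat_lit 2) (nat_lit 4) (nat_lit 368) (nat_lit 303) (nat_lit 229)) (XT.lf (nat_lit 0) (nat_lit 1116813614782) (nat_lit 76) (nat_lit 5916664868014) (nat_lit 76) (nat_lit 5907631629257) (nat_lit 1) (nat_lit 4) (nat_lit 2) (nat_lit 5) (nat_lit 2) (nat_lit 4) (nat_lit 369) (nat_lit 303) (nat_lit 228))) (XT.nd (nat_lit 78) (nat_lit 0) (nat_lit 0) (XT.lf (nat_lit 0) (nat_lit 1335617650380) (nat_lit 76) (nat_lit 6776008198670) (nat_lit 76)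 (nat_lit 6766974926883) (nat_lit 1) (nat_lit 4) (nat_lit 2) (nat_lit 5) (nat_lit 2) (nat_lit 4) (nat_lit 370) (nat_lit 303) (nat_lit 227)) (XT.nd (nat_lit 78) (nat_lit 0) (nat_lit 0) (XT.lf (nat_lit 0) (nat_lit 1587241940777) (nat_lit 76) (nat_lit 7764253212126) (nat_lit 76) (nat_lit 7755219911617) (nat_lit 1) (nat_lit 4) (nat_lit 2) (nat_lit 5) (nat_lit 2) (nat_lit 4) (nat_lit 371) (nat_lit 303) (nat_lit 226)) (XT.lf (nat_lit 0) (nat_lit 1876609569916) (nat_lit 76) (nat_lit 8900735136907) (nat_lit 76) (nat_lit 8891701811423) (nat_lit 1) (nat_lit 4) (nat_lit 2) (nat_lit 5) (nat_lit 2) (nat_lit 4) (nat_lit 372) (nat_lit 303) (nat_lit 225))))) (XT.nd (nat_lit 234) (nat_lit 0) (nat_lit 0) (XT.nd (nat_lit 78) (nat_lit 0) (nat_lit 0) (XT.lf (nat_lit 0) (nat_lit 2209382078367) (nat_lit 76) (nat_lit 10207689488933) (nat_lit 76) (nat_lit 10198656141730) (nat_lit 1) (nat_lit 4) (nat_lit 2) (nat_lit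 5) (nat_lit 2) (nat_lit 4) (nat_lit 373) (nat_lit 303) (nat_lit 224)) (XT.nd (nat_lit 78) (nat_lit 0) (nat_lit 0) (XT.lf (nat_lit 0) (nat_lit 2592070232599) (nat_lit 76) (nat_lit 11710687114220) (nat_lit 76) (nat_lit 11701653748132) (nat_lit 1) (nat_lit 4) (nat_lit 2) (nat_lit 5) (nat_lit 2) (nat_lit 4) (nat_lit 374) (nat_lit 303) (nat_lit 223)) (XT.lf (nat_lit 0) (nat_lit 3032161409544) (nat_lit 76) (nat_lit 13439134488047) (nat_lit 76) (nat_lit 13430101105537) (nat_lit 1) (nat_lit 4) (nat_lit 2) (nat_lit 5) (nat_lit 2) (nat_lit 4) (nat_lit 375) (nat_lit 303) (nat_lit 222)))) (XT.nd (nat_lit 78) (nat_lit 0) (nat_lit 0) (XT.lf (nat_lit 0) (nat_lit 3538266088749) (nat_lit 76) (nat_lit 15426849059032) (nat_lit 76) (nat_lit 15417815662242) (nat_lit 1) (nat_lit 4) (nat_lit 2) (nat_lit 5) (nat_lit 2) (nat_lit 4) (nat_lit 376) (nat_lit 303) (nat_lit 221)) (XT.nd (nat_lit 78) (nat_lit 0) (nat_lit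 0) (XT.lf (nat_lit 0) (nat_lit 4120286318287) (nat_lit 76) (nat_lit 17712720894867) (nat_lit 76) (nat_lit 17703687485661) (nat_lit 1) (nat_lit 4) (nat_lit 2) (nat_lit 5) (nat_lit 2) (nat_lit 4) (nat_lit 377) (nat_lit 303) (nat_lit 220)) (XT.lf (nat_lit 0) (nat_lit 4789609450475) (nat_lit 76) (nat_lit 20341473574951) (nat_lit 76) (nat_lit 20332440154947) (nat_lit 1) (nat_lit 4) (nat_lit 2) (nat_lit 5) (nat_lit 2) (nat_lit 4) (nat_lit 378) (nat_lit 303) (nat_lit 219)))))) (XT.nd (nat_lit 390) (nat_lit 0) (nat_lit 0) (XT.nd (nat_lit 156) (nat_lit 0) (nat_lit 0) (XT.nd (nat_lit 78) (nat_lit 0) (nat_lit 0) (XT.lf (nat_lit 0) (nat_lit 5559330937898) (nat_lit 76) (nat_lit 23364539216936) (nat_lit 76) (nat_lit 23355505787542) (nat_lit 1) (nat_lit 4) (nat_lit 2) (nat_lit 5) (nat_lit 2) (nat_lit 4) (nat_lit 379) (nat_lit 303) (nat_lit 218)) (XT.lf (nat_lit 0) (nat_lit 6444510548790) (nat_lit 76)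 (nat_lit 26841064757296) (nat_lit 76) (nat_lit 26832031319738) (nat_lit 1) (nat_lit 4) (nat_lit 2) (nat_lit 5) (nat_lit 2) (nat_lit 4) (nat_lit 380) (nat_lit 303) (nat_lit 217))) (XT.nd (nat_lit 78) (nat_lit 0) (nat_lit 0) (XT.lf (nat_lit 0) (nat_lit 7462467014667) (nat_lit 76) (nat_lit 30839069173995) (nat_lit 76) (nat_lit 30830035729338) (nat_lit 1) (nat_lit 4) (nat_lit 2) (nat_lit 5) (nat_lit 2) (nat_lit 4) (nat_lit 381) (nat_lit 303) (nat_lit 216)) (XT.nd (nat_lit 78) (nat_lit 0) (nat_lit 0) (XT.lf (nat_lit 0) (nat_lit 8633116875079) (nat_lit 76) (nat_lit 35436774292577) (nat_lit 76) (nat_lit 35427740841746) (nat_lit 1) (nat_lit 4) (nat_lit 2) (nat_lit 5) (nat_lit 2) (nat_lit 4) (nat_lit 382) (nat_lit 303) (nat_lit 215)) (XT.lf (nat_lit 0) (nat_lit 9979364149035) (nat_lit 76) (nat_lit 40724135213189) (nat_lit 76) (nat_lit 40715101756989) (nat_lit 1) (nat_lit 4) (nat_lit 2) (nat_lit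 5) (nat_lit 2) (nat_lit 4) (nat_lit 383) (nat_lit 303) (nat_lit 214))))) (XT.nd (nat_lit 234) (nat_lit 0) (nat_lit 0) (XT.nd (nat_lit 78) (nat_lit 0) (nat_lit 0) (XT.lf (nat_lit 0) (nat_lit 11527548457111) (nat_lit 76) (nat_lit 46804600301667) (nat_lit 76) (nat_lit 46795566840799) (nat_lit 1) (nat_lit 4) (nat_lit 2) (nat_lit 5) (nat_lit 2) (nat_lit 4) (nat_lit 384) (nat_lit 303) (nat_lit 213)) (XT.nd (nat_lit 78) (nat_lit 0) (nat_lit 0) (XT.lf (nat_lit 0) (nat_lit 13307960361858) (nat_lit 76) (nat_lit 53797135179308) (nat_lit 76) (nat_lit 53788101714382) (nat_lit 1) (nat_lit 4) (nat_lit 2) (nat_lit 5) (nat_lit 2) (nat_lit 4) (nat_lit 385) (nat_lit 303) (nat_lit 212)) (XT.lf (nat_lit 0) (nat_lit 15355434009237) (nat_lit 76) (nat_lit 61838550311111) (nat_lit 76) (nat_lit 61829516842654) (nat_lit 1) (nat_lit 4) (nat_lit 2) (nat_lit 5) (nat_lit 2) (nat_lit 4) (nat_lit 386) (nat_lit 303) (nat_lit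 211)))) (XT.nd (nat_lit 40404) (nat_lit 0) (nat_lit 2280) (XT.lf (nat_lit 0) (nat_lit 17710028666262) (nat_lit 76) (nat_lit 71086177732262) (nat_lit 76) (nat_lit 71077144260736) (nat_lit 1) (nat_lit 4) (nat_lit 2) (nat_lit 5) (nat_lit 2) (nat_lit 4) (nat_lit 387) (nat_lit 303) (nat_lit 210)) (XT.nd (nat_lit 78) (nat_lit 0) (nat_lit 0) (XT.lf (nat_lit 0) (nat_lit 836789823) (nat_lit 0) (nat_lit 836789823) (nat_lit 228) (nat_lit 2304279596) (nat_lit 31) (nat_lit 5) (nat_lit 31) (nat_lit 3) (nat_lit 34) (nat_lit 3) (nat_lit 304) (nat_lit 304) (nat_lit 292)) (XT.lf (nat_lit 0) (nat_lit 4782212637) (nat_lit 228) (nat_lit 2441961841) (nat_lit 304) (nat_lit 1147676084) (nat_lit 31) (nat_lit 5) (nat_lit 34) (nat_lit 3) (nat_lit 35) (nat_lit 5) (nat_lit 305) (nat_lit 304) (nat_lit 291))))))) (XT.nd (nat_lit 858) (nat_lit 608) (nat_lit 0) (XT.nd (nat_lit 390) (nat_lit 456) (nat_lit 0) (XT.nd (nat_lit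 156) (nat_lit 532) (nat_lit 0) (XT.nd (nat_lit 78) (nat_lit 0) (nat_lit 0) (XT.lf (nat_lit 76) (nat_lit 1930744366) (nat_lit 0) (nat_lit 4464064256) (nat_lit 304) (nat_lit 2461775387) (nat_lit 32) (nat_lit 5) (nat_lit 31) (nat_lit 5) (nat_lit 35) (nat_lit 5) (nat_lit 306) (nat_lit 304) (nat_lit 290)) (XT.lf (nat_lit 76) (nat_lit 7104276216) (nat_lit 0) (nat_lit 1095687164) (nat_lit 304) (nat_lit 1221919558) (nat_lit 32) (nat_lit 5) (nat_lit 31) (nat_lit 5) (nat_lit 35) (nat_lit 5) (nat_lit 307) (nat_lit 304) (nat_lit 289))) (XT.nd (nat_lit 78) (nat_lit 304) (nat_lit 0) (XT.lf (nat_lit 0) (nat_lit 276426388) (nat_lit 304) (nat_lit 7076191618) (nat_lit 76) (nat_lit 2704837009) (nat_lit 28) (nat_lit 5) (nat_lit 32) (nat_lit 5) (nat_lit 29) (nat_lit 5) (nat_lit 308) (nat_lit 304) (nat_lit 288)) (XT.nd (nat_lit 78) (nat_lit 304) (nat_lit 0) (XT.lf (nat_lit 0) (nat_lit 1908857171) (nat_lit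 304) (nat_lit 1696881202) (nat_lit 76) (nat_lit 7169031142) (nat_lit 28) (nat_lit 5) (nat_lit 32) (nat_lit 5) (nat_lit 29) (nat_lit 5) (nat_lit 309) (nat_lit 304) (nat_lit 287)) (XT.lf (nat_lit 0) (nat_lit 3897164255) (nat_lit 380) (nat_lit 6838877495) (nat_lit 76) (nat_lit 847248334) (nat_lit 24) (nat_lit 5) (nat_lit 29) (nat_lit 5) (nat_lit 25) (nat_lit 5) (nat_lit 310) (nat_lit 304) (nat_lit 286))))) (XT.nd (nat_lit 234) (nat_lit 228) (nat_lit 0) (XT.nd (nat_lit 78) (nat_lit 228) (nat_lit 0) (XT.lf (nat_lit 0) (nat_lit 6333663120) (nat_lit 380) (nat_lit 471386578) (nat_lit 76) (nat_lit 5685773832) (nat_lit 24) (nat_lit 5) (nat_lit 29) (nat_lit 5) (nat_lit 25) (nat_lit 5) (nat_lit 311) (nat_lit 304) (nat_lit 285)) (XT.nd (nat_lit 78) (nat_lit 76) (nat_lit 0) (XT.lf (nat_lit 0) (nat_lit 7388781416) (nat_lit 152) (nat_lit 1953086859) (nat_lit 228) (nat_lit 4161881083) (nat_lit 22) (nat_lit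 5) (nat_lit 24) (nat_lit 5) (nat_lit 25) (nat_lit 5) (nat_lit 312) (nat_lit 304) (nat_lit 284)) (XT.lf (nat_lit 0) (nat_lit 1687185543) (nat_lit 76) (nat_lit 11267534954) (nat_lit 152) (nat_lit 1691052500) (nat_lit 21) (nat_lit 5) (nat_lit 22) (nat_lit 5) (nat_lit 23) (nat_lit 4) (nat_lit 313) (nat_lit 304) (nat_lit 283)))) (XT.nd (nat_lit 78) (nat_lit 152) (nat_lit 0) (XT.lf (nat_lit 0) (nat_lit 1386227215) (nat_lit 152) (nat_lit 4850904416) (nat_lit 76) (nat_lit 9664216277) (nat_lit 20) (nat_lit 5) (nat_lit 22) (nat_lit 5) (nat_lit 21) (nat_lit 5) (nat_lit 314) (nat_lit 304) (nat_lit 282)) (XT.nd (nat_lit 78) (nat_lit 0) (nat_lit 0) (XT.lf (nat_lit 0) (nat_lit 4696816357) (nat_lit 152) (nat_lit 171698736) (nat_lit 228) (nat_lit 12447295535) (nat_lit 18) (nat_lit 5) (nat_lit 20) (nat_lit 5) (nat_lit 21) (nat_lit 5) (nat_lit 315) (nat_lit 304) (nat_lit 281)) (XT.lf (nat_lit 0) (nat_lit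 9346741535) (nat_lit 228) (nat_lit 3094328724) (nat_lit 76) (nat_lit 6430431177) (nat_lit 18) (nat_lit 5) (nat_lit 21) (nat_lit 5) (nat_lit 19) (nat_lit 4) (nat_lit 316) (nat_lit 304) (nat_lit 280)))))) (XT.nd (nat_lit 390) (nat_lit 304) (nat_lit 0) (XT.nd (nat_lit 156) (nat_lit 228) (nat_lit 0) (XT.nd (nat_lit 78) (nat_lit 0) (nat_lit 0) (XT.lf (nat_lit 0) (nat_lit 8505470210) (nat_lit 76) (nat_lit 6287453555) (nat_lit 152) (nat_lit 5823274034) (nat_lit 17) (nat_lit 5) (nat_lit 18) (nat_lit 5) (nat_lit 19) (nat_lit 4) (nat_lit 317) (nat_lit 304) (nat_lit 279)) (XT.lf (nat_lit 0) (nat_lit 21196749921) (nat_lit 152) (nat_lit 551132388) (nat_lit 0) (nat_lit 853682907) (nat_lit 17) (nat_lit 5) (nat_lit 19) (nat_lit 4) (nat_lit 17) (nat_lit 4) (nat_lit 318) (nat_lit 304) (nat_lit 278))) (XT.nd (nat_lit 78) (nat_lit 76) (nat_lit 0) (XT.lf (nat_lit 0) (nat_lit 4194925999) (nat_lit 152) (nat_lit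 11395969447) (nat_lit 76) (nat_lit 9144191459) (nat_lit 15) (nat_lit 5) (nat_lit 17) (nat_lit 5) (nat_lit 16) (nat_lit 4) (nat_lit 319) (nat_lit 304) (nat_lit 277)) (XT.nd (nat_lit 78) (nat_lit 0) (nat_lit 0) (XT.lf (nat_lit 0) (nat_lit 2227930400) (nat_lit 76) (nat_lit 8332810829) (nat_lit 152) (nat_lit 16607419079) (nat_lit 14) (nat_lit 5) (nat_lit 15) (nat_lit 5) (nat_lit 16) (nat_lit 4) (nat_lit 320) (nat_lit 304) (nat_lit 276)) (XT.lf (nat_lit 0) (nat_lit 18455140010) (nat_lit 152) (nat_lit 10823900850) (nat_lit 0) (nat_lit 601139535) (nat_lit 14) (nat_lit 5) (nat_lit 16) (nat_lit 4) (nat_lit 14) (nat_lit 4) (nat_lit 321) (nat_lit 304) (nat_lit 275))))) (XT.nd (nat_lit 234) (nat_lit 76) (nat_lit 0) (XT.nd (nat_lit 78) (nat_lit 152) (nat_lit 0) (XT.lf (nat_lit 0) (nat_lit 5412995003) (nat_lit 76) (nat_lit 22697355240) (nat_lit 76) (nat_lit 4802192343) (nat_lit 13) (nat_lit 4) (nat_lit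 14) (nat_lit 5) (nat_lit 14) (nat_lit 4) (nat_lit 322) (nat_lit 304) (nat_lit 274)) (XT.nd (nat_lit 78) (nat_lit 76) (nat_lit 0) (XT.lf (nat_lit 0) (nat_lit 3112520731) (nat_lit 152) (nat_lit 11239036732) (nat_lit 76) (nat_lit 21948405677) (nat_lit 12) (nat_lit 5) (nat_lit 14) (nat_lit 5) (nat_lit 13) (nat_lit 4) (nat_lit 323) (nat_lit 304) (nat_lit 273)) (XT.lf (nat_lit 0) (nat_lit 7859816043) (nat_lit 76) (nat_lit 4150368632) (nat_lit 152) (nat_lit 28107925411) (nat_lit 11) (nat_lit 5) (nat_lit 12) (nat_lit 5) (nat_lit 13) (nat_lit 4) (nat_lit 324) (nat_lit 304) (nat_lit 272)))) (XT.nd (nat_lit 78) (nat_lit 76) (nat_lit 0) (XT.lf (nat_lit 0) (nat_lit 23134598033) (nat_lit 152) (nat_lit 13748724723) (nat_lit 0) (nat_lit 7491862406) (nat_lit 11) (nat_lit 5) (nat_lit 13) (nat_lit 4) (nat_lit 11) (nat_lit 4) (nat_lit 325) (nat_lit 304) (nat_lit 271)) (XT.nd (nat_lit 78) (nat_lit 0) (nat_lit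 0) (XT.lf (nat_lit 0) (nat_lit 7987634190) (nat_lit 76) (nat_lit 28436005642) (nat_lit 76) (nat_lit 12772805017) (nat_lit 10) (nat_lit 4) (nat_lit 11) (nat_lit 5) (nat_lit 11) (nat_lit 4) (nat_lit 326) (nat_lit 304) (nat_lit 270)) (XT.lf (nat_lit 0) (nat_lit 34469361738) (nat_lit 76) (nat_lit 17924672267) (nat_lit 76) (nat_lit 2243675991) (nat_lit 10) (nat_lit 4) (nat_lit 11) (nat_lit 5) (nat_lit 11) (nat_lit 4) (nat_lit 327) (nat_lit 304) (nat_lit 269))))))))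
noncomputable def xc56 : XT := (XT.nd (nat_lit 1638) (nat_lit 76) (nat_lit 0) (XT.nd (nat_lit 780) (nat_lit 152) (nat_lit 0) (XT.nd (nat_lit 390) (nat_lit 228) (nat_lit 0) (XT.nd (nat_lit 156) (nat_lit 76) (nat_lit 0) (XT.nd (nat_lit 78) (nat_lit 0) (nat_lit 0) (XT.lf (nat_lit 0) (nat_lit 3912916774) (nat_lit 76) (nat_lit 5207728587) (nat_lit 152) (nat_lit 51693150757) (nat_lit 8) (nat_lit 5) (nat_lit 9) (nat_lit 5) (nat_lit 10) (nat_lit 4) (nat_lit 328) (nat_lit 304) (nat_lit 268)) (XT.lf (nat_lit 0) (nat_lit 23426708694) (nat_lit 152) (nat_lit 34487647400) (nat_lit 0) (nat_lit 9765902760) (nat_lit 8) (nat_lit 5) (nat_lit 10) (nat_lit 4) (nat_lit 8) (nat_lit 4) (nat_lit 329) (nat_lit 304) (nat_lit 267))) (XT.nd (nat_lit 78) (nat_lit 76) (nat_lit 0) (XT.lf (nat_lit 0) (nat_lit 40102684671) (nat_lit 152) (nat_lit 9008710945) (nat_lit 0) (nat_lit 26431704017) (nat_lit 8) (nat_lit 5) (nat_lit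 10) (nat_lit 4) (nat_lit 8) (nat_lit 4) (nat_lit 330) (nat_lit 304) (nat_lit 266)) (XT.nd (nat_lit 78) (nat_lit 0) (nat_lit 0) (XT.lf (nat_lit 0) (nat_lit 22229056182) (nat_lit 76) (nat_lit 37950603085) (nat_lit 76) (nat_lit 24270774847) (nat_lit 7) (nat_lit 4) (nat_lit 8) (nat_lit 5) (nat_lit 8) (nat_lit 4) (nat_lit 331) (nat_lit 304) (nat_lit 265)) (XT.lf (nat_lit 0) (nat_lit 59124859374) (nat_lit 76) (nat_lit 24594435428) (nat_lit 76) (nat_lit 10906913639) (nat_lit 7) (nat_lit 4) (nat_lit 8) (nat_lit 5) (nat_lit 8) (nat_lit 4) (nat_lit 332) (nat_lit 304) (nat_lit 264))))) (XT.nd (nat_lit 156) (nat_lit 76) (nat_lit 0) (XT.nd (nat_lit 78) (nat_lit 76) (nat_lit 0) (XT.lf (nat_lit 0) (nat_lit 4046292491) (nat_lit 152) (nat_lit 4994682976) (nat_lit 76) (nat_lit 97262373052) (nat_lit 6) (nat_lit 5) (nat_lit 8) (nat_lit 5) (nat_lit 7) (nat_lit 4) (nat_lit 333) (nat_lit 304) (nat_lit 263))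 (XT.lf (nat_lit 0) (nat_lit 21906982598) (nat_lit 152) (nat_lit 87486086849) (nat_lit 0) (nat_lit 9993913674) (nat_lit 5) (nat_lit 5) (nat_lit 7) (nat_lit 4) (nat_lit 5) (nat_lit 4) (nat_lit 334) (nat_lit 304) (nat_lit 262))) (XT.nd (nat_lit 78) (nat_lit 76) (nat_lit 0) (XT.lf (nat_lit 0) (nat_lit 43135276981) (nat_lit 152) (nat_lit 59976805512) (nat_lit 0) (nat_lit 31217809244) (nat_lit 5) (nat_lit 5) (nat_lit 7) (nat_lit 4) (nat_lit 5) (nat_lit 4) (nat_lit 335) (nat_lit 304) (nat_lit 261)) (XT.nd (nat_lit 78) (nat_lit 76) (nat_lit 0) (XT.lf (nat_lit 0) (nat_lit 67534302273) (nat_lit 152) (nat_lit 28368955299) (nat_lit 0) (nat_lit 55613009482) (nat_lit 5) (nat_lit 5) (nat_lit 7) (nat_lit 4) (nat_lit 5) (nat_lit 4) (nat_lit 336) (nat_lit 304) (nat_lit 260)) (XT.lf (nat_lit 0) (nat_lit 8733384531) (nat_lit 76) (nat_lit 87209677007) (nat_lit 76) (nat_lit 75285058081) (nat_lit 4) (nat_lit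 4) (nat_lit 5) (nat_lit 5) (nat_lit 5) (nat_lit 4) (nat_lit 337) (nat_lit 304) (nat_lit 259)))))) (XT.nd (nat_lit 390) (nat_lit 76) (nat_lit 0) (XT.nd (nat_lit 156) (nat_lit 76) (nat_lit 0) (XT.nd (nat_lit 78) (nat_lit 0) (nat_lit 0) (XT.lf (nat_lit 0) (nat_lit 54566264603) (nat_lit 76) (nat_lit 75518618504) (nat_lit 76) (nat_lit 63591107288) (nat_lit 4) (nat_lit 4) (nat_lit 5) (nat_lit 5) (nat_lit 5) (nat_lit 4) (nat_lit 338) (nat_lit 304) (nat_lit 258)) (XT.lf (nat_lit 0) (nat_lit 107253994547) (nat_lit 76) (nat_lit 62084266627) (nat_lit 76) (nat_lit 50154240375) (nat_lit 4) (nat_lit 4) (nat_lit 5) (nat_lit 5) (nat_lit 5) (nat_lit 4) (nat_lit 339) (nat_lit 304) (nat_lit 257))) (XT.nd (nat_lit 78) (nat_lit 76) (nat_lit 0) (XT.lf (nat_lit 0) (nat_lit 167827421252) (nat_lit 76) (nat_lit 46643775361) (nat_lit 76) (nat_lit 34711562121) (nat_lit 4) (nat_lit 4) (nat_lit 5) (nat_lit 5) (nat_lit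 5) (nat_lit 4) (nat_lit 340) (nat_lit 304) (nat_lit 256)) (XT.nd (nat_lit 78) (nat_lit 76) (nat_lit 0) (XT.lf (nat_lit 0) (nat_lit 237471676981) (nat_lit 76) (nat_lit 28895048136) (nat_lit 76) (nat_lit 16960933169) (nat_lit 4) (nat_lit 4) (nat_lit 5) (nat_lit 5) (nat_lit 5) (nat_lit 4) (nat_lit 341) (nat_lit 304) (nat_lit 255)) (XT.lf (nat_lit 0) (nat_lit 3138248890) (nat_lit 152) (nat_lit 5188533529) (nat_lit 76) (nat_lit 314247073018) (nat_lit 3) (nat_lit 5) (nat_lit 5) (nat_lit 5) (nat_lit 4) (nat_lit 4) (nat_lit 342) (nat_lit 304) (nat_lit 254))))) (XT.nd (nat_lit 234) (nat_lit 0) (nat_lit 0) (XT.nd (nat_lit 78) (nat_lit 0) (nat_lit 0) (XT.lf (nat_lit 0) (nat_lit 27123779357) (nat_lit 152) (nat_lit 323327262577) (nat_lit 0) (nat_lit 16743599684) (nat_lit 2) (nat_lit 5) (nat_lit 4) (nat_lit 4) (nat_lit 2) (nat_lit 4) (nat_lit 343) (nat_lit 304) (nat_lit 253)) (XT.nd (nat_lit 78) (nat_lit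 0) (nat_lit 0) (XT.lf (nat_lit 0) (nat_lit 55382001422) (nat_lit 152) (nat_lit 318024581543) (nat_lit 0) (nat_lit 45000734430) (nat_lit 2) (nat_lit 5) (nat_lit 4) (nat_lit 4) (nat_lit 2) (nat_lit 4) (nat_lit 344) (nat_lit 304) (nat_lit 252)) (XT.lf (nat_lit 0) (nat_lit 87873926015) (nat_lit 152) (nat_lit 311937010459) (nat_lit 0) (nat_lit 77491713528) (nat_lit 2) (nat_lit 5) (nat_lit 4) (nat_lit 4) (nat_lit 2) (nat_lit 4) (nat_lit 345) (nat_lit 304) (nat_lit 251)))) (XT.nd (nat_lit 78) (nat_lit 0) (nat_lit 0) (XT.lf (nat_lit 0) (nat_lit 125235264704) (nat_lit 152) (nat_lit 304945444673) (nat_lit 0) (nat_lit 114852230047) (nat_lit 2) (nat_lit 5) (nat_lit 4) (nat_lit 4) (nat_lit 2) (nat_lit 4) (nat_lit 346) (nat_lit 304) (nat_lit 250)) (XT.nd (nat_lit 78) (nat_lit 0) (nat_lit 0) (XT.lf (nat_lit 0) (nat_lit 168197000202) (nat_lit 152) (nat_lit 296913092682) (nat_lit 0) (nat_lit 157813250615)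 (nat_lit 2) (nat_lit 5) (nat_lit 4) (nat_lit 4) (nat_lit 2) (nat_lit 4) (nat_lit 347) (nat_lit 304) (nat_lit 249)) (XT.lf (nat_lit 0) (nat_lit 217599688204) (nat_lit 152) (nat_lit 287682799772) (nat_lit 0) (nat_lit 207215316939) (nat_lit 2) (nat_lit 5) (nat_lit 4) (nat_lit 4) (nat_lit 2) (nat_lit 4) (nat_lit 348) (nat_lit 304) (nat_lit 248))))))) (XT.nd (nat_lit 858) (nat_lit 76) (nat_lit 0) (XT.nd (nat_lit 390) (nat_lit 0) (nat_lit 0) (XT.nd (nat_lit 156) (nat_lit 0) (nat_lit 0) (XT.nd (nat_lit 78) (nat_lit 0) (nat_lit 0) (XT.lf (nat_lit 0) (nat_lit 274409903040) (nat_lit 152) (nat_lit 277073973255) (nat_lit 0) (nat_lit 264024991186) (nat_lit 2) (nat_lit 5) (nat_lit 4) (nat_lit 4) (nat_lit 2) (nat_lit 4) (nat_lit 349) (nat_lit 304) (nat_lit 247)) (XT.lf (nat_lit 0) (nat_lit 339739148914) (nat_lit 152) (nat_lit 264879049136) (nat_lit 0) (nat_lit 329353766982) (nat_lit 2) (nat_lit 5) (nat_lit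 4) (nat_lit 4) (nat_lit 2) (nat_lit 4) (nat_lit 350) (nat_lit 304) (nat_lit 246))) (XT.nd (nat_lit 78) (nat_lit 0) (nat_lit 0) (XT.lf (nat_lit 0) (nat_lit 414865606723) (nat_lit 152) (nat_lit 250859431072) (nat_lit 0) (nat_lit 404479816027) (nat_lit 2) (nat_lit 5) (nat_lit 4) (nat_lit 4) (nat_lit 2) (nat_lit 4) (nat_lit 351) (nat_lit 304) (nat_lit 245)) (XT.nd (nat_lit 78) (nat_lit 0) (nat_lit 0) (XT.lf (nat_lit 0) (nat_lit 501259141947) (nat_lit 152) (nat_lit 234740822187) (nat_lit 0) (nat_lit 490872995804) (nat_lit 2) (nat_lit 5) (nat_lit 4) (nat_lit 4) (nat_lit 2) (nat_lit 4) (nat_lit 352) (nat_lit 304) (nat_lit 244)) (XT.lf (nat_lit 0) (nat_lit 600610062882) (nat_lit 152) (nat_lit 216207858396) (nat_lit 0) (nat_lit 590223607655) (nat_lit 2) (nat_lit 5) (nat_lit 4) (nat_lit 4) (nat_lit 2) (nat_lit 4) (nat_lit 353) (nat_lit 304) (nat_lit 243))))) (XT.nd (nat_lit 234) (nat_lit 0) (nat_lit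 0) (XT.nd (nat_lit 78) (nat_lit 0) (nat_lit 0) (XT.lf (nat_lit 0) (nat_lit 714862191895) (nat_lit 152) (nat_lit 194897938233) (nat_lit 0) (nat_lit 704475467900) (nat_lit 2) (nat_lit 5) (nat_lit 4) (nat_lit 4) (nat_lit 2) (nat_lit 4) (nat_lit 354) (nat_lit 304) (nat_lit 242)) (XT.nd (nat_lit 78) (nat_lit 0) (nat_lit 0) (XT.lf (nat_lit 0) (nat_lit 846250896728) (nat_lit 152) (nat_lit 170394128477) (nat_lit 0) (nat_lit 835863939021) (nat_lit 2) (nat_lit 5) (nat_lit 4) (nat_lit 4) (nat_lit 2) (nat_lit 4) (nat_lit 355) (nat_lit 304) (nat_lit 241)) (XT.lf (nat_lit 0) (nat_lit 997346825954) (nat_lit 152) (nat_lit 142217006764) (nat_lit 0) (nat_lit 986959665019) (nat_lit 2) (nat_lit 5) (nat_lit 4) (nat_lit 4) (nat_lit 2) (nat_lit 4) (nat_lit 356) (nat_lit 304) (nat_lit 240)))) (XT.nd (nat_lit 78) (nat_lit 0) (nat_lit 0) (XT.lf (nat_lit 0) (nat_lit 1171106204274) (nat_lit 152) (nat_lit 109815281581)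 (nat_lit 0) (nat_lit 1160718866619) (nat_lit 2) (nat_lit 5) (nat_lit 4) (nat_lit 4) (nat_lit 2) (nat_lit 4) (nat_lit 357) (nat_lit 304) (nat_lit 239)) (XT.nd (nat_lit 78) (nat_lit 0) (nat_lit 0) (XT.lf (nat_lit 0) (nat_lit 1370928671699) (nat_lit 152) (nat_lit 72555006131) (nat_lit 0) (nat_lit 1360541180375) (nat_lit 2) (nat_lit 5) (nat_lit 4) (nat_lit 4) (nat_lit 2) (nat_lit 4) (nat_lit 358) (nat_lit 304) (nat_lit 238)) (XT.lf (nat_lit 0) (nat_lit 1600723798245) (nat_lit 152) (nat_lit 29707175026) (nat_lit 0) (nat_lit 1590336173295) (nat_lit 2) (nat_lit 5) (nat_lit 4) (nat_lit 4) (nat_lit 2) (nat_lit 4) (nat_lit 359) (nat_lit 304) (nat_lit 237)))))) (XT.nd (nat_lit 390) (nat_lit 0) (nat_lit 0) (XT.nd (nat_lit 156) (nat_lit 0) (nat_lit 0) (XT.nd (nat_lit 78) (nat_lit 0) (nat_lit 0) (XT.lf (nat_lit 0) (nat_lit 21478723344) (nat_lit 76) (nat_lit 1844398240303) (nat_lit 76) (nat_lit 1834010499157)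 (nat_lit 1) (nat_lit 4) (nat_lit 2) (nat_lit 5) (nat_lit 2) (nat_lit 4) (nat_lit 360) (nat_lit 304) (nat_lit 236)) (XT.lf (nat_lit 0) (nat_lit 83679954688) (nat_lit 76) (nat_lit 2088675435554) (nat_lit 76) (nat_lit 2078287593368) (nat_lit 1) (nat_lit 4) (nat_lit 2) (nat_lit 5) (nat_lit 2) (nat_lit 4) (nat_lit 361) (nat_lit 304) (nat_lit 235))) (XT.nd (nat_lit 78) (nat_lit 0) (nat_lit 0) (XT.lf (nat_lit 0) (nat_lit 155210298422) (nat_lit 76) (nat_lit 2369594770512) (nat_lit 76) (nat_lit 2359206840465) (nat_lit 1) (nat_lit 4) (nat_lit 2) (nat_lit 5) (nat_lit 2) (nat_lit 4) (nat_lit 362) (nat_lit 304) (nat_lit 234)) (XT.nd (nat_lit 78) (nat_lit 0) (nat_lit 0) (XT.lf (nat_lit 0) (nat_lit 237469261272) (nat_lit 76) (nat_lit 2692652493035) (nat_lit 76) (nat_lit 2682264486587) (nat_lit 1) (nat_lit 4) (nat_lit 2) (nat_lit 5) (nat_lit 2) (nat_lit 4) (nat_lit 363) (nat_lit 304) (nat_lit 233)) (XT.lf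 (nat_lit 0) (nat_lit 332066257727) (nat_lit 76) (nat_lit 3064169297694) (nat_lit 76) (nat_lit 3053781224811) (nat_lit 1) (nat_lit 4) (nat_lit 2) (nat_lit 5) (nat_lit 2) (nat_lit 4) (nat_lit 364) (nat_lit 304) (nat_lit 232))))) (XT.nd (nat_lit 234) (nat_lit 0) (nat_lit 0) (XT.nd (nat_lit 78) (nat_lit 0) (nat_lit 0) (XT.lf (nat_lit 0) (nat_lit 440852098589) (nat_lit 76) (nat_lit 3491413991536) (nat_lit 76) (nat_lit 3481025860883) (nat_lit 1) (nat_lit 4) (nat_lit 2) (nat_lit 5) (nat_lit 2) (nat_lit 4) (nat_lit 365) (nat_lit 304) (nat_lit 231)) (XT.nd (nat_lit 78) (nat_lit 0) (nat_lit 0) (XT.lf (nat_lit 0) (nat_lit 565955202483) (nat_lit 76) (nat_lit 3982745709877) (nat_lit 76) (nat_lit 3972357528989) (nat_lit 1) (nat_lit 4) (nat_lit 2) (nat_lit 5) (nat_lit 2) (nat_lit 4) (nat_lit 366) (nat_lit 304) (nat_lit 230)) (XT.lf (nat_lit 0) (nat_lit 709823238833) (nat_lit 76) (nat_lit 4547777464595)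 (nat_lit 76) (nat_lit 4537389240025) (nat_lit 1) (nat_lit 4) (nat_lit 2) (nat_lit 5) (nat_lit 2) (nat_lit 4) (nat_lit 367) (nat_lit 304) (nat_lit 229)))) (XT.nd (nat_lit 78) (nat_lit 0) (nat_lit 0) (XT.lf (nat_lit 0) (nat_lit 875271017045) (nat_lit 76) (nat_lit 5197564224807) (nat_lit 76) (nat_lit 5187175962252) (nat_lit 1) (nat_lit 4) (nat_lit 2) (nat_lit 5) (nat_lit 2) (nat_lit 4) (nat_lit 368) (nat_lit 304) (nat_lit 228)) (XT.nd (nat_lit 78) (nat_lit 0) (nat_lit 0) (XT.lf (nat_lit 0) (nat_lit 1065535558868) (nat_lit 76) (nat_lit 5944819209732) (nat_lit 76) (nat_lit 5934430914147) (nat_lit 1) (nat_lit 4) (nat_lit 2) (nat_lit 5) (nat_lit 2) (nat_lit 4) (nat_lit 369) (nat_lit 304) (nat_lit 227)) (XT.lf (nat_lit 0) (nat_lit 1284339431424) (nat_lit 76) (nat_lit 6804162625598) (nat_lit 76) (nat_lit 6793774301291) (nat_lit 1) (nat_lit 4) (nat_lit 2) (nat_lit 5) (nat_lit 2) (nat_lit 4) (nat_lit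 370) (nat_lit 304) (nat_lit 226))))))))
noncomputable def xc57 : XT := (XT.nd (nat_lit 42198) (nat_lit 0) (nat_lit 456) (XT.nd (nat_lit 858) (nat_lit 0) (nat_lit 0) (XT.nd (nat_lit 390) (nat_lit 0) (nat_lit 0) (XT.nd (nat_lit 156) (nat_lit 0) (nat_lit 0) (XT.nd (nat_lit 78) (nat_lit 0) (nat_lit 0) (XT.lf (nat_lit 0) (nat_lit 1535963580045) (nat_lit 76) (nat_lit 7792407713151) (nat_lit 76) (nat_lit 7782019363868) (nat_lit 1) (nat_lit 4) (nat_lit 2) (nat_lit 5) (nat_lit 2) (nat_lit 4) (nat_lit 371) (nat_lit 304) (nat_lit 225)) (XT.lf (nat_lit 0) (nat_lit 1825331085901) (nat_lit 76) (nat_lit 8928889702363) (nat_lit 76) (nat_lit 8918501331362) (nat_lit 1) (nat_lit 4) (nat_lit 2) (nat_lit 5) (nat_lit 2) (nat_lit 4) (nat_lit 372) (nat_lit 304) (nat_lit 224))) (XT.nd (nat_lit 78) (nat_lit 0) (nat_lit 0) (XT.lf (nat_lit 0) (nat_lit 2158103487149) (nat_lit 76) (nat_lit 10235844110415) (nat_lit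 76) (nat_lit 10225455720530) (nat_lit 1) (nat_lit 4) (nat_lit 2) (nat_lit 5) (nat_lit 2) (nat_lit 4) (nat_lit 373) (nat_lit 304) (nat_lit 223)) (XT.nd (nat_lit 78) (nat_lit 0) (nat_lit 0) (XT.lf (nat_lit 0) (nat_lit 2540791548161) (nat_lit 76) (nat_lit 11738841784422) (nat_lit 76) (nat_lit 11728453378114) (nat_lit 1) (nat_lit 4) (nat_lit 2) (nat_lit 5) (nat_lit 2) (nat_lit 4) (nat_lit 374) (nat_lit 304) (nat_lit 222)) (XT.lf (nat_lit 0) (nat_lit 2980882644045) (nat_lit 76) (nat_lit 13467289200613) (nat_lit 76) (nat_lit 13456900780026) (nat_lit 1) (nat_lit 4) (nat_lit 2) (nat_lit 5) (nat_lit 2) (nat_lit 4) (nat_lit 375) (nat_lit 304) (nat_lit 221))))) (XT.nd (nat_lit 234) (nat_lit 0) (nat_lit 0) (XT.nd (nat_lit 78) (nat_lit 0) (nat_lit 0) (XT.lf (nat_lit 0) (nat_lit 3486987252763) (nat_lit 76) (nat_lit 15455003808437) (nat_lit 76) (nat_lit 15444615375432) (nat_lit 1) (nat_lit 4) (nat_lit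 2) (nat_lit 5) (nat_lit 2) (nat_lit 4) (nat_lit 376) (nat_lit 304) (nat_lit 220)) (XT.nd (nat_lit 78) (nat_lit 0) (nat_lit 0) (XT.lf (nat_lit 0) (nat_lit 4069007421007) (nat_lit 76) (nat_lit 17740875676306) (nat_lit 76) (nat_lit 17730487232504) (nat_lit 1) (nat_lit 4) (nat_lit 2) (nat_lit 5) (nat_lit 2) (nat_lit 4) (nat_lit 377) (nat_lit 304) (nat_lit 219)) (XT.lf (nat_lit 0) (nat_lit 4738330499896) (nat_lit 76) (nat_lit 20369628384245) (nat_lit 76) (nat_lit 20359239931054) (nat_lit 1) (nat_lit 4) (nat_lit 2) (nat_lit 5) (nat_lit 2) (nat_lit 4) (nat_lit 378) (nat_lit 304) (nat_lit 218)))) (XT.nd (nat_lit 78) (nat_lit 0) (nat_lit 0) (XT.lf (nat_lit 0) (nat_lit 5508051940973) (nat_lit 76) (nat_lit 23392694050452) (nat_lit 76) (nat_lit 23382305589096) (nat_lit 1) (nat_lit 4) (nat_lit 2) (nat_lit 5) (nat_lit 2) (nat_lit 4) (nat_lit 379) (nat_lit 304) (nat_lit 217)) (XT.nd (nat_lit 78) (nat_lit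 0) (nat_lit 0) (XT.lf (nat_lit 0) (nat_lit 6393231511563) (nat_lit 76) (nat_lit 26869219611875) (nat_lit 76) (nat_lit 26858831143420) (nat_lit 1) (nat_lit 4) (nat_lit 2) (nat_lit 5) (nat_lit 2) (nat_lit 4) (nat_lit 380) (nat_lit 304) (nat_lit 216)) (XT.lf (nat_lit 0) (nat_lit 7411187942395) (nat_lit 76) (nat_lit 30867224046890) (nat_lit 76) (nat_lit 30856835572261) (nat_lit 1) (nat_lit 4) (nat_lit 2) (nat_lit 5) (nat_lit 2) (nat_lit 4) (nat_lit 381) (nat_lit 304) (nat_lit 215)))))) (XT.nd (nat_lit 40872) (nat_lit 0) (nat_lit 1976) (XT.nd (nat_lit 156) (nat_lit 0) (nat_lit 0) (XT.nd (nat_lit 78) (nat_lit 0) (nat_lit 0) (XT.lf (nat_lit 0) (nat_lit 8581837772334) (nat_lit 76) (nat_lit 35464929181398) (nat_lit 76) (nat_lit 35454540701401) (nat_lit 1) (nat_lit 4) (nat_lit 2) (nat_lit 5) (nat_lit 2) (nat_lit 4) (nat_lit 382) (nat_lit 304) (nat_lit 214)) (XT.lf (nat_lit 0) (nat_lit 9928085019791)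 (nat_lit 76) (nat_lit 40752290115859) (nat_lit 76) (nat_lit 40741901631193) (nat_lit 1) (nat_lit 4) (nat_lit 2) (nat_lit 5) (nat_lit 2) (nat_lit 4) (nat_lit 383) (nat_lit 304) (nat_lit 213))) (XT.nd (nat_lit 78) (nat_lit 0) (nat_lit 0) (XT.lf (nat_lit 0) (nat_lit 11476269304825) (nat_lit 76) (nat_lit 46832755216380) (nat_lit 76) (nat_lit 46822366727655) (nat_lit 1) (nat_lit 4) (nat_lit 2) (nat_lit 5) (nat_lit 2) (nat_lit 4) (nat_lit 384) (nat_lit 304) (nat_lit 212)) (XT.nd (nat_lit 78) (nat_lit 0) (nat_lit 0) (XT.lf (nat_lit 0) (nat_lit 13256681189534) (nat_lit 76) (nat_lit 53825290104493) (nat_lit 76) (nat_lit 53814901612238) (nat_lit 1) (nat_lit 4) (nat_lit 2) (nat_lit 5) (nat_lit 2) (nat_lit 4) (nat_lit 385) (nat_lit 304) (nat_lit 211)) (XT.lf (nat_lit 0) (nat_lit 15304154819490) (nat_lit 76) (nat_lit 61866705245402) (nat_lit 76) (nat_lit 61856316750077) (nat_lit 1) (nat_lit 4) (nat_lit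 2) (nat_lit 5) (nat_lit 2) (nat_lit 4) (nat_lit 386) (nat_lit 304) (nat_lit 210))))) (XT.nd (nat_lit 234) (nat_lit 304) (nat_lit 0) (XT.nd (nat_lit 78) (nat_lit 0) (nat_lit 0) (XT.lf (nat_lit 0) (nat_lit 1504799215) (nat_lit 0) (nat_lit 1504799215) (nat_lit 228) (nat_lit 1399369993) (nat_lit 31) (nat_lit 5) (nat_lit 31) (nat_lit 3) (nat_lit 34) (nat_lit 3) (nat_lit 305) (nat_lit 305) (nat_lit 290)) (XT.nd (nat_lit 78) (nat_lit 0) (nat_lit 0) (XT.lf (nat_lit 0) (nat_lit 7347402698) (nat_lit 228) (nat_lit 1537779568) (nat_lit 304) (nat_lit 460358583) (nat_lit 31) (nat_lit 5) (nat_lit 34) (nat_lit 3) (nat_lit 35) (nat_lit 5) (nat_lit 306) (nat_lit 305) (nat_lit 289)) (XT.lf (nat_lit 76) (nat_lit 3433083635) (nat_lit 0) (nat_lit 5577995931) (nat_lit 304) (nat_lit 921166272) (nat_lit 32) (nat_lit 5) (nat_lit 31) (nat_lit 5) (nat_lit 35) (nat_lit 5) (nat_lit 307) (nat_lit 305) (nat_lit 288))))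 (XT.nd (nat_lit 78) (nat_lit 0) (nat_lit 76) (XT.lf (nat_lit 0) (nat_lit 232802584) (nat_lit 304) (nat_lit 1401435418) (nat_lit 380) (nat_lit 8979491590) (nat_lit 27) (nat_lit 5) (nat_lit 31) (nat_lit 5) (nat_lit 32) (nat_lit 5) (nat_lit 308) (nat_lit 305) (nat_lit 287)) (XT.nd (nat_lit 78) (nat_lit 0) (nat_lit 0) (XT.lf (nat_lit 0) (nat_lit 1672321299) (nat_lit 304) (nat_lit 6770710365) (nat_lit 76) (nat_lit 2917070468) (nat_lit 28) (nat_lit 5) (nat_lit 32) (nat_lit 5) (nat_lit 29) (nat_lit 5) (nat_lit 309) (nat_lit 305) (nat_lit 286)) (XT.lf (nat_lit 0) (nat_lit 3372951793) (nat_lit 304) (nat_lit 762795994) (nat_lit 76) (nat_lit 8076131821) (nat_lit 28) (nat_lit 5) (nat_lit 32) (nat_lit 5) (nat_lit 29) (nat_lit 5) (nat_lit 310) (nat_lit 305) (nat_lit 285))))))) (XT.nd (nat_lit 858) (nat_lit 532) (nat_lit 0) (XT.nd (nat_lit 390) (nat_lit 456) (nat_lit 0) (XT.nd (nat_lit 156) (nat_lit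 152) (nat_lit 0) (XT.nd (nat_lit 78) (nat_lit 152) (nat_lit 0) (XT.lf (nat_lit 0) (nat_lit 5555492114) (nat_lit 380) (nat_lit 6569956796) (nat_lit 76) (nat_lit 1032149592) (nat_lit 24) (nat_lit 5) (nat_lit 29) (nat_lit 5) (nat_lit 25) (nat_lit 5) (nat_lit 311) (nat_lit 305) (nat_lit 284)) (XT.lf (nat_lit 0) (nat_lit 640827956) (nat_lit 152) (nat_lit 7603118404) (nat_lit 228) (nat_lit 5974620319) (nat_lit 22) (nat_lit 5) (nat_lit 24) (nat_lit 5) (nat_lit 25) (nat_lit 5) (nat_lit 312) (nat_lit 305) (nat_lit 283))) (XT.nd (nat_lit 78) (nat_lit 152) (nat_lit 0) (XT.lf (nat_lit 0) (nat_lit 9571794233) (nat_lit 152) (nat_lit 2027766835) (nat_lit 228) (nat_lit 3799684190) (nat_lit 22) (nat_lit 5) (nat_lit 24) (nat_lit 5) (nat_lit 25) (nat_lit 5) (nat_lit 313) (nat_lit 305) (nat_lit 282)) (XT.nd (nat_lit 78) (nat_lit 76) (nat_lit 0) (XT.lf (nat_lit 0) (nat_lit 3081635780) (nat_lit 76) (nat_lit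 12616120839) (nat_lit 152) (nat_lit 1023512798) (nat_lit 21) (nat_lit 5) (nat_lit 22) (nat_lit 5) (nat_lit 23) (nat_lit 4) (nat_lit 314) (nat_lit 305) (nat_lit 281)) (XT.lf (nat_lit 0) (nat_lit 2323888427) (nat_lit 152) (nat_lit 4513673028) (nat_lit 76) (nat_lit 11338474506) (nat_lit 20) (nat_lit 5) (nat_lit 22) (nat_lit 5) (nat_lit 21) (nat_lit 5) (nat_lit 315) (nat_lit 305) (nat_lit 280))))) (XT.nd (nat_lit 234) (nat_lit 228) (nat_lit 0) (XT.nd (nat_lit 78) (nat_lit 76) (nat_lit 0) (XT.lf (nat_lit 0) (nat_lit 6281322761) (nat_lit 228) (nat_lit 13398862189) (nat_lit 76) (nat_lit 129700265) (nat_lit 18) (nat_lit 5) (nat_lit 21) (nat_lit 5) (nat_lit 19) (nat_lit 4) (nat_lit 316) (nat_lit 305) (nat_lit 279)) (XT.nd (nat_lit 78) (nat_lit 76) (nat_lit 0) (XT.lf (nat_lit 0) (nat_lit 11349367142) (nat_lit 228) (nat_lit 2597777952) (nat_lit 76) (nat_lit 7664191622) (nat_lit 18) (nat_lit 5) (nat_lit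 21) (nat_lit 5) (nat_lit 19) (nat_lit 4) (nat_lit 317) (nat_lit 305) (nat_lit 278)) (XT.lf (nat_lit 0) (nat_lit 10698322637) (nat_lit 76) (nat_lit 6873785398) (nat_lit 152) (nat_lit 6051788854) (nat_lit 17) (nat_lit 5) (nat_lit 18) (nat_lit 5) (nat_lit 19) (nat_lit 4) (nat_lit 318) (nat_lit 305) (nat_lit 277)))) (XT.nd (nat_lit 78) (nat_lit 152) (nat_lit 0) (XT.lf (nat_lit 0) (nat_lit 246383582) (nat_lit 76) (nat_lit 24640097969) (nat_lit 76) (nat_lit 1028182340) (nat_lit 16) (nat_lit 4) (nat_lit 17) (nat_lit 5) (nat_lit 17) (nat_lit 4) (nat_lit 319) (nat_lit 305) (nat_lit 276)) (XT.nd (nat_lit 78) (nat_lit 76) (nat_lit 0) (XT.lf (nat_lit 0) (nat_lit 5315683058) (nat_lit 152) (nat_lit 12237634354) (nat_lit 76) (nat_lit 10817848672) (nat_lit 15) (nat_lit 5) (nat_lit 17) (nat_lit 5) (nat_lit 16) (nat_lit 4) (nat_lit 320) (nat_lit 305) (nat_lit 275)) (XT.lf (nat_lit 0) (nat_lit 3390408175)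 (nat_lit 76) (nat_lit 9216148983) (nat_lit 152) (nat_lit 18567174848) (nat_lit 14) (nat_lit 5) (nat_lit 15) (nat_lit 5) (nat_lit 16) (nat_lit 4) (nat_lit 321) (nat_lit 305) (nat_lit 274)))))) (XT.nd (nat_lit 390) (nat_lit 304) (nat_lit 0) (XT.nd (nat_lit 156) (nat_lit 152) (nat_lit 0) (XT.nd (nat_lit 78) (nat_lit 76) (nat_lit 0) (XT.lf (nat_lit 0) (nat_lit 21638092910) (nat_lit 152) (nat_lit 11679867609) (nat_lit 0) (nat_lit 981699748) (nat_lit 14) (nat_lit 5) (nat_lit 16) (nat_lit 4) (nat_lit 14) (nat_lit 4) (nat_lit 322) (nat_lit 305) (nat_lit 273)) (XT.lf (nat_lit 0) (nat_lit 6957670878) (nat_lit 76) (nat_lit 25760165503) (nat_lit 76) (nat_lit 5072647637) (nat_lit 13) (nat_lit 4) (nat_lit 14) (nat_lit 5) (nat_lit 14) (nat_lit 4) (nat_lit 323) (nat_lit 305) (nat_lit 272))) (XT.nd (nat_lit 78) (nat_lit 76) (nat_lit 0) (XT.lf (nat_lit 0) (nat_lit 3935766409) (nat_lit 152) (nat_lit 12252685046)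 (nat_lit 76) (nat_lit 25502824243) (nat_lit 12) (nat_lit 5) (nat_lit 14) (nat_lit 5) (nat_lit 13) (nat_lit 4) (nat_lit 324) (nat_lit 305) (nat_lit 271)) (XT.nd (nat_lit 78) (nat_lit 0) (nat_lit 0) (XT.lf (nat_lit 0) (nat_lit 9680440773) (nat_lit 76) (nat_lit 4467725899) (nat_lit 152) (nat_lit 31936994583) (nat_lit 11) (nat_lit 5) (nat_lit 12) (nat_lit 5) (nat_lit 13) (nat_lit 4) (nat_lit 325) (nat_lit 305) (nat_lit 270)) (XT.lf (nat_lit 0) (nat_lit 26908345908) (nat_lit 152) (nat_lit 15220007286) (nat_lit 0) (nat_lit 8857404540) (nat_lit 11) (nat_lit 5) (nat_lit 13) (nat_lit 4) (nat_lit 11) (nat_lit 4) (nat_lit 326) (nat_lit 305) (nat_lit 269))))) (XT.nd (nat_lit 234) (nat_lit 76) (nat_lit 0) (XT.nd (nat_lit 78) (nat_lit 152) (nat_lit 0) (XT.lf (nat_lit 0) (nat_lit 9749940639) (nat_lit 76) (nat_lit 32424569510) (nat_lit 76) (nat_lit 14358153664) (nat_lit 10) (nat_lit 4) (nat_lit 11) (nat_lit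 5) (nat_lit 11) (nat_lit 4) (nat_lit 327) (nat_lit 305) (nat_lit 268)) (XT.nd (nat_lit 78) (nat_lit 152) (nat_lit 0) (XT.lf (nat_lit 0) (nat_lit 40130341060) (nat_lit 76) (nat_lit 20372645301) (nat_lit 76) (nat_lit 2292773386) (nat_lit 10) (nat_lit 4) (nat_lit 11) (nat_lit 5) (nat_lit 11) (nat_lit 4) (nat_lit 328) (nat_lit 305) (nat_lit 267)) (XT.lf (nat_lit 0) (nat_lit 4992666019) (nat_lit 76) (nat_lit 5744189265) (nat_lit 152) (nat_lit 59161695241) (nat_lit 8) (nat_lit 5) (nat_lit 9) (nat_lit 5) (nat_lit 10) (nat_lit 4) (nat_lit 329) (nat_lit 305) (nat_lit 266)))) (XT.nd (nat_lit 78) (nat_lit 76) (nat_lit 0) (XT.lf (nat_lit 0) (nat_lit 27165276360) (nat_lit 152) (nat_lit 39208625560) (nat_lit 0) (nat_lit 11424626303) (nat_lit 8) (nat_lit 5) (nat_lit 10) (nat_lit 4) (nat_lit 8) (nat_lit 4) (nat_lit 330) (nat_lit 305) (nat_lit 265)) (XT.nd (nat_lit 78) (nat_lit 76) (nat_lit 0) (XT.lf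 (nat_lit 0) (nat_lit 46313358122) (nat_lit 152) (nat_lit 9966827196) (nat_lit 0) (nat_lit 30565014514) (nat_lit 8) (nat_lit 5) (nat_lit 10) (nat_lit 4) (nat_lit 8) (nat_lit 4) (nat_lit 331) (nat_lit 305) (nat_lit 264)) (XT.lf (nat_lit 0) (nat_lit 25938732710) (nat_lit 76) (nat_lit 43453217221) (nat_lit 76) (nat_lit 27698183569) (nat_lit 7) (nat_lit 4) (nat_lit 8) (nat_lit 5) (nat_lit 8) (nat_lit 4) (nat_lit 332) (nat_lit 305) (nat_lit 263))))))))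
noncomputable def xc58 : XT := (XT.nd (nat_lit 1638) (nat_lit 76) (nat_lit 0) (XT.nd (nat_lit 780) (nat_lit 152) (nat_lit 0) (XT.nd (nat_lit 390) (nat_lit 76) (nat_lit 0) (XT.nd (nat_lit 156) (nat_lit 76) (nat_lit 0) (XT.nd (nat_lit 78) (nat_lit 76) (nat_lit 0) (XT.lf (nat_lit 0) (nat_lit 68319951845) (nat_lit 76) (nat_lit 28118403936) (nat_lit 76) (nat_lit 12357552854) (nat_lit 7) (nat_lit 4) (nat_lit 8) (nat_lit 5) (nat_lit 8) (nat_lit 4) (nat_lit 333) (nat_lit 305) (nat_lit 262)) (XT.lf (nat_lit 0) (nat_lit 4800099350) (nat_lit 152) (nat_lit 5445696112) (nat_lit 76) (nat_lit 111980983500) (nat_lit 6) (nat_lit 5) (nat_lit 8) (nat_lit 5) (nat_lit 7) (nat_lit 4) (nat_lit 334) (nat_lit 305) (nat_lit 261))) (XT.nd (nat_lit 78) (nat_lit 0) (nat_lit 0) (XT.lf (nat_lit 0) (nat_lit 25338533098) (nat_lit 152) (nat_lit 100309413833) (nat_lit 0) (nat_lit 11625221334) (nat_lit 5) (nat_lit 5) (nat_lit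 7) (nat_lit 4) (nat_lit 5) (nat_lit 4) (nat_lit 335) (nat_lit 305) (nat_lit 260)) (XT.nd (nat_lit 78) (nat_lit 0) (nat_lit 0) (XT.lf (nat_lit 0) (nat_lit 49732092972) (nat_lit 152) (nat_lit 68712816735) (nat_lit 0) (nat_lit 36015455073) (nat_lit 5) (nat_lit 5) (nat_lit 7) (nat_lit 4) (nat_lit 5) (nat_lit 4) (nat_lit 336) (nat_lit 305) (nat_lit 259)) (XT.lf (nat_lit 0) (nat_lit 77774468870) (nat_lit 152) (nat_lit 32397768504) (nat_lit 0) (nat_lit 64054938680) (nat_lit 5) (nat_lit 5) (nat_lit 7) (nat_lit 4) (nat_lit 5) (nat_lit 4) (nat_lit 337) (nat_lit 305) (nat_lit 258))))) (XT.nd (nat_lit 156) (nat_lit 0) (nat_lit 0) (XT.nd (nat_lit 78) (nat_lit 0) (nat_lit 0) (XT.lf (nat_lit 0) (nat_lit 10259625478) (nat_lit 76) (nat_lit 100179519706) (nat_lit 76) (nat_lit 86457474481) (nat_lit 4) (nat_lit 4) (nat_lit 5) (nat_lit 5) (nat_lit 5) (nat_lit 4) (nat_lit 338) (nat_lit 305) (nat_lit 257))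 (XT.lf (nat_lit 0) (nat_lit 62939233222) (nat_lit 76) (nat_lit 86749360104) (nat_lit 76) (nat_lit 73025127892) (nat_lit 4) (nat_lit 4) (nat_lit 5) (nat_lit 5) (nat_lit 5) (nat_lit 4) (nat_lit 339) (nat_lit 305) (nat_lit 256))) (XT.nd (nat_lit 78) (nat_lit 0) (nat_lit 0) (XT.lf (nat_lit 0) (nat_lit 123505597145) (nat_lit 76) (nat_lit 71312514295) (nat_lit 76) (nat_lit 57586380354) (nat_lit 4) (nat_lit 4) (nat_lit 5) (nat_lit 5) (nat_lit 5) (nat_lit 4) (nat_lit 340) (nat_lit 305) (nat_lit 255)) (XT.nd (nat_lit 78) (nat_lit 0) (nat_lit 0) (XT.lf (nat_lit 0) (nat_lit 193143711324) (nat_lit 76) (nat_lit 53566957033) (nat_lit 76) (nat_lit 39839169416) (nat_lit 4) (nat_lit 4) (nat_lit 5) (nat_lit 5) (nat_lit 5) (nat_lit 4) (nat_lit 341) (nat_lit 305) (nat_lit 254)) (XT.lf (nat_lit 0) (nat_lit 273216060601) (nat_lit 76) (nat_lit 33165492633) (nat_lit 76) (nat_lit 19436267037) (nat_lit 4) (nat_lit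 4) (nat_lit 5) (nat_lit 5) (nat_lit 5) (nat_lit 4) (nat_lit 342) (nat_lit 305) (nat_lit 253)))))) (XT.nd (nat_lit 390) (nat_lit 0) (nat_lit 0) (XT.nd (nat_lit 156) (nat_lit 0) (nat_lit 0) (XT.nd (nat_lit 78) (nat_lit 76) (nat_lit 0) (XT.lf (nat_lit 0) (nat_lit 3663491017) (nat_lit 152) (nat_lit 5853970327) (nat_lit 76) (nat_lit 361434286213) (nat_lit 3) (nat_lit 5) (nat_lit 5) (nat_lit 5) (nat_lit 4) (nat_lit 4) (nat_lit 343) (nat_lit 305) (nat_lit 252)) (XT.lf (nat_lit 0) (nat_lit 31246514913) (nat_lit 152) (nat_lit 371713163481) (nat_lit 0) (nat_lit 19306025058) (nat_lit 2) (nat_lit 5) (nat_lit 4) (nat_lit 4) (nat_lit 2) (nat_lit 4) (nat_lit 344) (nat_lit 305) (nat_lit 251))) (XT.nd (nat_lit 78) (nat_lit 0) (nat_lit 0) (XT.lf (nat_lit 0) (nat_lit 63736404812) (nat_lit 152) (nat_lit 365629844006) (nat_lit 0) (nat_lit 51795092787) (nat_lit 2) (nat_lit 5) (nat_lit 4) (nat_lit 4) (nat_lit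 2) (nat_lit 4) (nat_lit 345) (nat_lit 305) (nat_lit 250)) (XT.nd (nat_lit 78) (nat_lit 0) (nat_lit 0) (XT.lf (nat_lit 0) (nat_lit 101095974201) (nat_lit 152) (nat_lit 358641975273) (nat_lit 0) (nat_lit 89153947247) (nat_lit 2) (nat_lit 5) (nat_lit 4) (nat_lit 4) (nat_lit 2) (nat_lit 4) (nat_lit 346) (nat_lit 305) (nat_lit 249)) (XT.lf (nat_lit 0) (nat_lit 144056171178) (nat_lit 152) (nat_lit 350612838110) (nat_lit 0) (nat_lit 132113522545) (nat_lit 2) (nat_lit 5) (nat_lit 4) (nat_lit 4) (nat_lit 2) (nat_lit 4) (nat_lit 347) (nat_lit 305) (nat_lit 248))))) (XT.nd (nat_lit 234) (nat_lit 0) (nat_lit 0) (XT.nd (nat_lit 78) (nat_lit 0) (nat_lit 0) (XT.lf (nat_lit 0) (nat_lit 193457521335) (nat_lit 152) (nat_lit 341385340702) (nat_lit 0) (nat_lit 181514332113) (nat_lit 2) (nat_lit 5) (nat_lit 4) (nat_lit 4) (nat_lit 2) (nat_lit 4) (nat_lit 348) (nat_lit 305) (nat_lit 247)) (XT.nd (nat_lit 78)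 (nat_lit 0) (nat_lit 0) (XT.lf (nat_lit 0) (nat_lit 250266572828) (nat_lit 152) (nat_lit 330778945057) (nat_lit 0) (nat_lit 238322913528) (nat_lit 2) (nat_lit 5) (nat_lit 4) (nat_lit 4) (nat_lit 2) (nat_lit 4) (nat_lit 349) (nat_lit 305) (nat_lit 246)) (XT.lf (nat_lit 0) (nat_lit 315594807100) (nat_lit 152) (nat_lit 318586134739) (nat_lit 0) (nat_lit 303650739036) (nat_lit 2) (nat_lit 5) (nat_lit 4) (nat_lit 4) (nat_lit 2) (nat_lit 4) (nat_lit 350) (nat_lit 305) (nat_lit 245)))) (XT.nd (nat_lit 78) (nat_lit 0) (nat_lit 0) (XT.lf (nat_lit 0) (nat_lit 390720385254) (nat_lit 152) (nat_lit 304568354763) (nat_lit 0) (nat_lit 378775961744) (nat_lit 2) (nat_lit 5) (nat_lit 4) (nat_lit 4) (nat_lit 2) (nat_lit 4) (nat_lit 351) (nat_lit 305) (nat_lit 244)) (XT.nd (nat_lit 78) (nat_lit 0) (nat_lit 0) (XT.lf (nat_lit 0) (nat_lit 477113155561) (nat_lit 152) (nat_lit 288451344216) (nat_lit 0) (nat_lit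 465168422966) (nat_lit 2) (nat_lit 5) (nat_lit 4) (nat_lit 4) (nat_lit 2) (nat_lit 4) (nat_lit 352) (nat_lit 305) (nat_lit 243)) (XT.lf (nat_lit 0) (nat_lit 576463411351) (nat_lit 152) (nat_lit 269919770284) (nat_lit 0) (nat_lit 564518409987) (nat_lit 2) (nat_lit 5) (nat_lit 4) (nat_lit 4) (nat_lit 2) (nat_lit 4) (nat_lit 353) (nat_lit 305) (nat_lit 242))))))) (XT.nd (nat_lit 858) (nat_lit 0) (nat_lit 0) (XT.nd (nat_lit 390) (nat_lit 76) (nat_lit 0) (XT.nd (nat_lit 156) (nat_lit 0) (nat_lit 0) (XT.nd (nat_lit 78) (nat_lit 0) (nat_lit 0) (XT.lf (nat_lit 0) (nat_lit 690714961977) (nat_lit 152) (nat_lit 248611058694) (nat_lit 0) (nat_lit 678769726902) (nat_lit 2) (nat_lit 5) (nat_lit 4) (nat_lit 4) (nat_lit 2) (nat_lit 4) (nat_lit 354) (nat_lit 305) (nat_lit 241)) (XT.lf (nat_lit 0) (nat_lit 822103163865) (nat_lit 152) (nat_lit 224108299871) (nat_lit 0) (nat_lit 810157725562) (nat_lit 2)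 (nat_lit 5) (nat_lit 4) (nat_lit 4) (nat_lit 2) (nat_lit 4) (nat_lit 355) (nat_lit 305) (nat_lit 240))) (XT.nd (nat_lit 78) (nat_lit 0) (nat_lit 0) (XT.lf (nat_lit 0) (nat_lit 973198655746) (nat_lit 152) (nat_lit 195932092012) (nat_lit 0) (nat_lit 961253040724) (nat_lit 2) (nat_lit 5) (nat_lit 4) (nat_lit 4) (nat_lit 2) (nat_lit 4) (nat_lit 356) (nat_lit 305) (nat_lit 239)) (XT.nd (nat_lit 78) (nat_lit 0) (nat_lit 0) (XT.lf (nat_lit 0) (nat_lit 1146957653767) (nat_lit 152) (nat_lit 163531161485) (nat_lit 0) (nat_lit 1135011885075) (nat_lit 2) (nat_lit 5) (nat_lit 4) (nat_lit 4) (nat_lit 2) (nat_lit 4) (nat_lit 357) (nat_lit 305) (nat_lit 238)) (XT.lf (nat_lit 0) (nat_lit 1346779790498) (nat_lit 152) (nat_lit 126271577041) (nat_lit 0) (nat_lit 1334833888181) (nat_lit 2) (nat_lit 5) (nat_lit 4) (nat_lit 4) (nat_lit 2) (nat_lit 4) (nat_lit 358) (nat_lit 305) (nat_lit 237))))) (XT.nd (nat_lit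 234) (nat_lit 0) (nat_lit 0) (XT.nd (nat_lit 78) (nat_lit 76) (nat_lit 0) (XT.lf (nat_lit 0) (nat_lit 1576574629483) (nat_lit 152) (nat_lit 83424346811) (nat_lit 0) (nat_lit 1564628610969) (nat_lit 2) (nat_lit 5) (nat_lit 4) (nat_lit 4) (nat_lit 2) (nat_lit 4) (nat_lit 359) (nat_lit 305) (nat_lit 236)) (XT.nd (nat_lit 78) (nat_lit 76) (nat_lit 0) (XT.lf (nat_lit 0) (nat_lit 1840838156702) (nat_lit 152) (nat_lit 34151155419) (nat_lit 0) (nat_lit 1828892037149) (nat_lit 2) (nat_lit 5) (nat_lit 4) (nat_lit 4) (nat_lit 2) (nat_lit 4) (nat_lit 360) (nat_lit 305) (nat_lit 235)) (XT.lf (nat_lit 0) (nat_lit 24712077895) (nat_lit 76) (nat_lit 2121051942066) (nat_lit 76) (nat_lit 2109105734652) (nat_lit 1) (nat_lit 4) (nat_lit 2) (nat_lit 5) (nat_lit 2) (nat_lit 4) (nat_lit 361) (nat_lit 305) (nat_lit 234)))) (XT.nd (nat_lit 78) (nat_lit 0) (nat_lit 0) (XT.lf (nat_lit 0) (nat_lit 96241987934) (nat_lit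 76) (nat_lit 2401971503686) (nat_lit 76) (nat_lit 2390025219870) (nat_lit 1) (nat_lit 4) (nat_lit 2) (nat_lit 5) (nat_lit 2) (nat_lit 4) (nat_lit 362) (nat_lit 305) (nat_lit 233)) (XT.nd (nat_lit 78) (nat_lit 0) (nat_lit 0) (XT.lf (nat_lit 0) (nat_lit 178500573657) (nat_lit 76) (nat_lit 2725029423305) (nat_lit 76) (nat_lit 2713083073054) (nat_lit 1) (nat_lit 4) (nat_lit 2) (nat_lit 5) (nat_lit 2) (nat_lit 4) (nat_lit 363) (nat_lit 305) (nat_lit 232)) (XT.lf (nat_lit 0) (nat_lit 273097242177) (nat_lit 76) (nat_lit 3096546399352) (nat_lit 76) (nat_lit 3084599991331) (nat_lit 1) (nat_lit 4) (nat_lit 2) (nat_lit 5) (nat_lit 2) (nat_lit 4) (nat_lit 364) (nat_lit 305) (nat_lit 231)))))) (XT.nd (nat_lit 390) (nat_lit 0) (nat_lit 0) (XT.nd (nat_lit 156) (nat_lit 0) (nat_lit 0) (XT.nd (nat_lit 78) (nat_lit 0) (nat_lit 0) (XT.lf (nat_lit 0) (nat_lit 381882797878) (nat_lit 76) (nat_lit 3523791242228)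 (nat_lit 76) (nat_lit 3511844783972) (nat_lit 1) (nat_lit 4) (nat_lit 2) (nat_lit 5) (nat_lit 2) (nat_lit 4) (nat_lit 365) (nat_lit 305) (nat_lit 230)) (XT.lf (nat_lit 0) (nat_lit 506985653805) (nat_lit 76) (nat_lit 4015123090162) (nat_lit 76) (nat_lit 4003176588224) (nat_lit 1) (nat_lit 4) (nat_lit 2) (nat_lit 5) (nat_lit 2) (nat_lit 4) (nat_lit 366) (nat_lit 305) (nat_lit 229))) (XT.nd (nat_lit 78) (nat_lit 0) (nat_lit 0) (XT.lf (nat_lit 0) (nat_lit 650853474531) (nat_lit 76) (nat_lit 4580154957572) (nat_lit 76) (nat_lit 4568208417648) (nat_lit 1) (nat_lit 4) (nat_lit 2) (nat_lit 5) (nat_lit 2) (nat_lit 4) (nat_lit 367) (nat_lit 305) (nat_lit 228)) (XT.nd (nat_lit 78) (nat_lit 0) (nat_lit 0) (XT.lf (nat_lit 0) (nat_lit 816301065246) (nat_lit 76) (nat_lit 5229941815775) (nat_lit 76) (nat_lit 5217995242821) (nat_lit 1) (nat_lit 4) (nat_lit 2) (nat_lit 5) (nat_lit 2) (nat_lit 4) (nat_lit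 368) (nat_lit 305) (nat_lit 227)) (XT.lf (nat_lit 0) (nat_lit 1006565444026) (nat_lit 76) (nat_lit 5977196885910) (nat_lit 76) (nat_lit 5965250284235) (nat_lit 1) (nat_lit 4) (nat_lit 2) (nat_lit 5) (nat_lit 2) (nat_lit 4) (nat_lit 369) (nat_lit 305) (nat_lit 226))))) (XT.nd (nat_lit 234) (nat_lit 0) (nat_lit 0) (XT.nd (nat_lit 78) (nat_lit 0) (nat_lit 0) (XT.lf (nat_lit 0) (nat_lit 1225369174806) (nat_lit 76) (nat_lit 6836540375872) (nat_lit 76) (nat_lit 6824593749222) (nat_lit 1) (nat_lit 4) (nat_lit 2) (nat_lit 5) (nat_lit 2) (nat_lit 4) (nat_lit 370) (nat_lit 305) (nat_lit 225)) (XT.nd (nat_lit 78) (nat_lit 0) (nat_lit 0) (XT.lf (nat_lit 0) (nat_lit 1476993200144) (nat_lit 76) (nat_lit 7824785527856) (nat_lit 76) (nat_lit 7812838879487) (nat_lit 1) (nat_lit 4) (nat_lit 2) (nat_lit 5) (nat_lit 2) (nat_lit 4) (nat_lit 371) (nat_lit 305) (nat_lit 224)) (XT.lf (nat_lit 0) (nat_lit 1766360598797)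 (nat_lit 76) (nat_lit 8961267573095) (nat_lit 76) (nat_lit 8949320905842) (nat_lit 1) (nat_lit 4) (nat_lit 2) (nat_lit 5) (nat_lit 2) (nat_lit 4) (nat_lit 372) (nat_lit 305) (nat_lit 223)))) (XT.nd (nat_lit 78) (nat_lit 0) (nat_lit 0) (XT.lf (nat_lit 0) (nat_lit 2099132906825) (nat_lit 76) (nat_lit 10268222029867) (nat_lit 76) (nat_lit 10256275346191) (nat_lit 1) (nat_lit 4) (nat_lit 2) (nat_lit 5) (nat_lit 2) (nat_lit 4) (nat_lit 373) (nat_lit 305) (nat_lit 222)) (XT.nd (nat_lit 78) (nat_lit 0) (nat_lit 0) (XT.lf (nat_lit 0) (nat_lit 2481820886777) (nat_lit 76) (nat_lit 11771219746238) (nat_lit 76) (nat_lit 11759273048283) (nat_lit 1) (nat_lit 4) (nat_lit 2) (nat_lit 5) (nat_lit 2) (nat_lit 4) (nat_lit 374) (nat_lit 305) (nat_lit 221)) (XT.lf (nat_lit 0) (nat_lit 2921911912173) (nat_lit 76) (nat_lit 13499667199268) (nat_lit 76) (nat_lit 13487720488896) (nat_lit 1) (nat_lit 4) (nat_lit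 2) (nat_lit 5) (nat_lit 2) (nat_lit 4) (nat_lit 375) (nat_lit 305) (nat_lit 220))))))))
noncomputable def xc59 : XT := (XT.nd (nat_lit 42198) (nat_lit 0) (nat_lit 304) (XT.nd (nat_lit 858) (nat_lit 0) (nat_lit 0) (XT.nd (nat_lit 390) (nat_lit 0) (nat_lit 0) (XT.nd (nat_lit 156) (nat_lit 0) (nat_lit 0) (XT.nd (nat_lit 78) (nat_lit 0) (nat_lit 0) (XT.lf (nat_lit 0) (nat_lit 3428016459597) (nat_lit 76) (nat_lit 15487381839126) (nat_lit 76) (nat_lit 15475435117955) (nat_lit 1) (nat_lit 4) (nat_lit 2) (nat_lit 5) (nat_lit 2) (nat_lit 4) (nat_lit 376) (nat_lit 305) (nat_lit 219)) (XT.lf (nat_lit 0) (nat_lit 4010036574543) (nat_lit 76) (nat_lit 17773253734850) (nat_lit 76) (nat_lit 17761307004291) (nat_lit 1) (nat_lit 4) (nat_lit 2) (nat_lit 5) (nat_lit 2) (nat_lit 4) (nat_lit 377) (nat_lit 305) (nat_lit 218))) (XT.nd (nat_lit 78) (nat_lit 0) (nat_lit 0) (XT.lf (nat_lit 0) (nat_lit 4679359607085)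 (nat_lit 76) (nat_lit 20402006467011) (nat_lit 76) (nat_lit 20390059728287) (nat_lit 1) (nat_lit 4) (nat_lit 2) (nat_lit 5) (nat_lit 2) (nat_lit 4) (nat_lit 378) (nat_lit 305) (nat_lit 217)) (XT.nd (nat_lit 78) (nat_lit 0) (nat_lit 0) (XT.lf (nat_lit 0) (nat_lit 5449081007861) (nat_lit 76) (nat_lit 23425072154281) (nat_lit 76) (nat_lit 23413125408457) (nat_lit 1) (nat_lit 4) (nat_lit 2) (nat_lit 5) (nat_lit 2) (nat_lit 4) (nat_lit 379) (nat_lit 305) (nat_lit 216)) (XT.lf (nat_lit 0) (nat_lit 6334260543406) (nat_lit 76) (nat_lit 26901597734020) (nat_lit 76) (nat_lit 26889650982022) (nat_lit 1) (nat_lit 4) (nat_lit 2) (nat_lit 5) (nat_lit 2) (nat_lit 4) (nat_lit 380) (nat_lit 305) (nat_lit 215))))) (XT.nd (nat_lit 234) (nat_lit 0) (nat_lit 0) (XT.nd (nat_lit 78) (nat_lit 0) (nat_lit 0) (XT.lf (nat_lit 0) (nat_lit 7352216943764) (nat_lit 76) (nat_lit 30899602184961) (nat_lit 76) (nat_lit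 30887655427595) (nat_lit 1) (nat_lit 4) (nat_lit 2) (nat_lit 5) (nat_lit 2) (nat_lit 4) (nat_lit 381) (nat_lit 305) (nat_lit 214)) (XT.nd (nat_lit 78) (nat_lit 0) (nat_lit 0) (XT.lf (nat_lit 0) (nat_lit 8522866747204) (nat_lit 76) (nat_lit 35497307333318) (nat_lit 76) (nat_lit 35485360571284) (nat_lit 1) (nat_lit 4) (nat_lit 2) (nat_lit 5) (nat_lit 2) (nat_lit 4) (nat_lit 382) (nat_lit 305) (nat_lit 213)) (XT.lf (nat_lit 0) (nat_lit 9869113971618) (nat_lit 76) (nat_lit 40784668279821) (nat_lit 76) (nat_lit 40772721513728) (nat_lit 1) (nat_lit 4) (nat_lit 2) (nat_lit 5) (nat_lit 2) (nat_lit 4) (nat_lit 383) (nat_lit 305) (nat_lit 212)))) (XT.nd (nat_lit 78) (nat_lit 0) (nat_lit 0) (XT.lf (nat_lit 0) (nat_lit 11417298236615) (nat_lit 76) (nat_lit 46865133390814) (nat_lit 76) (nat_lit 46853186621191) (nat_lit 1) (nat_lit 4) (nat_lit 2) (nat_lit 5) (nat_lit 2) (nat_lit 4) (nat_lit 384) (nat_lit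 305) (nat_lit 211)) (XT.nd (nat_lit 78) (nat_lit 0) (nat_lit 0) (XT.lf (nat_lit 0) (nat_lit 13197710103901) (nat_lit 76) (nat_lit 53857668288033) (nat_lit 76) (nat_lit 53845721515341) (nat_lit 1) (nat_lit 4) (nat_lit 2) (nat_lit 5) (nat_lit 2) (nat_lit 4) (nat_lit 385) (nat_lit 305) (nat_lit 210)) (XT.lf (nat_lit 0) (nat_lit 15245183718706) (nat_lit 76) (nat_lit 61899083436860) (nat_lit 76) (nat_lit 61887136661499) (nat_lit 1) (nat_lit 4) (nat_lit 2) (nat_lit 5) (nat_lit 2) (nat_lit 4) (nat_lit 386) (nat_lit 305) (nat_lit 209)))))) (XT.nd (nat_lit 40872) (nat_lit 0) (nat_lit 1520) (XT.nd (nat_lit 40638) (nat_lit 0) (nat_lit 1976) (XT.nd (nat_lit 40560) (nat_lit 0) (nat_lit 2280) (XT.lf (nat_lit 0) (nat_lit 17599778347406) (nat_lit 76) (nat_lit 71146710872814) (nat_lit 76) (nat_lit 71134764095132) (nat_lit 1) (nat_lit 4) (nat_lit 2) (nat_lit 5) (nat_lit 2) (nat_lit 4) (nat_lit 387) (nat_lit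 305) (nat_lit 208)) (XT.lf (nat_lit 0) (nat_lit 2140720170) (nat_lit 0) (nat_lit 2140720170) (nat_lit 228) (nat_lit 663678863) (nat_lit 31) (nat_lit 5) (nat_lit 31) (nat_lit 3) (nat_lit 34) (nat_lit 3) (nat_lit 306) (nat_lit 306) (nat_lit 288))) (XT.nd (nat_lit 78) (nat_lit 304) (nat_lit 0) (XT.lf (nat_lit 0) (nat_lit 9719992472) (nat_lit 0) (nat_lit 132242772) (nat_lit 228) (nat_lit 681016826) (nat_lit 31) (nat_lit 5) (nat_lit 31) (nat_lit 3) (nat_lit 34) (nat_lit 3) (nat_lit 307) (nat_lit 306) (nat_lit 287)) (XT.nd (nat_lit 78) (nat_lit 0) (nat_lit 0) (XT.lf (nat_lit 0) (nat_lit 350541526) (nat_lit 304) (nat_lit 6381801328) (nat_lit 380) (nat_lit 4496177199) (nat_lit 27) (nat_lit 5) (nat_lit 31) (nat_lit 5) (nat_lit 32) (nat_lit 5) (nat_lit 308) (nat_lit 306) (nat_lit 286)) (XT.lf (nat_lit 0) (nat_lit 1411699370) (nat_lit 304) (nat_lit 700024517) (nat_lit 380) (nat_lit 9920028255) (nat_lit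 27) (nat_lit 5) (nat_lit 31) (nat_lit 5) (nat_lit 32) (nat_lit 5) (nat_lit 309) (nat_lit 306) (nat_lit 285))))) (XT.nd (nat_lit 234) (nat_lit 228) (nat_lit 0) (XT.nd (nat_lit 78) (nat_lit 304) (nat_lit 0) (XT.lf (nat_lit 0) (nat_lit 2947313882) (nat_lit 304) (nat_lit 6752736583) (nat_lit 76) (nat_lit 3208323218) (nat_lit 28) (nat_lit 5) (nat_lit 32) (nat_lit 5) (nat_lit 29) (nat_lit 5) (nat_lit 310) (nat_lit 306) (nat_lit 284)) (XT.nd (nat_lit 78) (nat_lit 0) (nat_lit 0) (XT.lf (nat_lit 0) (nat_lit 23656150) (nat_lit 304) (nat_lit 4746778299) (nat_lit 380) (nat_lit 9137650803) (nat_lit 24) (nat_lit 5) (nat_lit 28) (nat_lit 5) (nat_lit 29) (nat_lit 5) (nat_lit 311) (nat_lit 306) (nat_lit 283)) (XT.lf (nat_lit 0) (nat_lit 7200727630) (nat_lit 380) (nat_lit 6576431546) (nat_lit 76) (nat_lit 1230687726) (nat_lit 24) (nat_lit 5) (nat_lit 29) (nat_lit 5) (nat_lit 25) (nat_lit 5) (nat_lit 312)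 (nat_lit 306) (nat_lit 282)))) (XT.nd (nat_lit 78) (nat_lit 76) (nat_lit 0) (XT.lf (nat_lit 0) (nat_lit 1671470066) (nat_lit 152) (nat_lit 8553774815) (nat_lit 228) (nat_lit 6013005492) (nat_lit 22) (nat_lit 5) (nat_lit 24) (nat_lit 5) (nat_lit 25) (nat_lit 5) (nat_lit 313) (nat_lit 306) (nat_lit 281)) (XT.nd (nat_lit 78) (nat_lit 76) (nat_lit 0) (XT.lf (nat_lit 0) (nat_lit 11820187644) (nat_lit 152) (nat_lit 2166878513) (nat_lit 228) (nat_lit 3623716928) (nat_lit 22) (nat_lit 5) (nat_lit 24) (nat_lit 5) (nat_lit 25) (nat_lit 5) (nat_lit 314) (nat_lit 306) (nat_lit 280)) (XT.lf (nat_lit 0) (nat_lit 4406922663) (nat_lit 76) (nat_lit 14250282361) (nat_lit 152) (nat_lit 480482004) (nat_lit 21) (nat_lit 5) (nat_lit 22) (nat_lit 5) (nat_lit 23) (nat_lit 4) (nat_lit 315) (nat_lit 306) (nat_lit 279))))))) (XT.nd (nat_lit 858) (nat_lit 456) (nat_lit 0) (XT.nd (nat_lit 390) (nat_lit 380) (nat_lit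 0) (XT.nd (nat_lit 156) (nat_lit 152) (nat_lit 0) (XT.nd (nat_lit 78) (nat_lit 152) (nat_lit 0) (XT.lf (nat_lit 0) (nat_lit 3224250239) (nat_lit 152) (nat_lit 4385531506) (nat_lit 76) (nat_lit 13209095048) (nat_lit 20) (nat_lit 5) (nat_lit 22) (nat_lit 5) (nat_lit 21) (nat_lit 5) (nat_lit 316) (nat_lit 306) (nat_lit 278)) (XT.lf (nat_lit 0) (nat_lit 7745794547) (nat_lit 228) (nat_lit 14573300142) (nat_lit 76) (nat_lit 383238582) (nat_lit 18) (nat_lit 5) (nat_lit 21) (nat_lit 5) (nat_lit 19) (nat_lit 4) (nat_lit 317) (nat_lit 306) (nat_lit 277))) (XT.nd (nat_lit 78) (nat_lit 152) (nat_lit 0) (XT.lf (nat_lit 0) (nat_lit 13505922971) (nat_lit 228) (nat_lit 2261017362) (nat_lit 76) (nat_lit 9017371040) (nat_lit 18) (nat_lit 5) (nat_lit 21) (nat_lit 5) (nat_lit 19) (nat_lit 4) (nat_lit 318) (nat_lit 306) (nat_lit 276)) (XT.nd (nat_lit 78) (nat_lit 76) (nat_lit 0) (XT.lf (nat_lit 0) (nat_lit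 12996478893) (nat_lit 76) (nat_lit 7635071591) (nat_lit 152) (nat_lit 6471862450) (nat_lit 17) (nat_lit 5) (nat_lit 18) (nat_lit 5) (nat_lit 19) (nat_lit 4) (nat_lit 319) (nat_lit 306) (nat_lit 275)) (XT.lf (nat_lit 0) (nat_lit 995723422) (nat_lit 76) (nat_lit 28031313224) (nat_lit 76) (nat_lit 713233267) (nat_lit 16) (nat_lit 4) (nat_lit 17) (nat_lit 5) (nat_lit 17) (nat_lit 4) (nat_lit 320) (nat_lit 306) (nat_lit 274))))) (XT.nd (nat_lit 234) (nat_lit 228) (nat_lit 0) (XT.nd (nat_lit 78) (nat_lit 76) (nat_lit 0) (XT.lf (nat_lit 0) (nat_lit 6484693861) (nat_lit 152) (nat_lit 13417150576) (nat_lit 76) (nat_lit 12668902905) (nat_lit 15) (nat_lit 5) (nat_lit 17) (nat_lit 5) (nat_lit 16) (nat_lit 4) (nat_lit 321) (nat_lit 306) (nat_lit 273)) (XT.nd (nat_lit 78) (nat_lit 0) (nat_lit 0) (XT.lf (nat_lit 0) (nat_lit 4525274289) (nat_lit 76) (nat_lit 10321381560) (nat_lit 152) (nat_lit 20950468774)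 (nat_lit 14) (nat_lit 5) (nat_lit 15) (nat_lit 5) (nat_lit 16) (nat_lit 4) (nat_lit 322) (nat_lit 306) (nat_lit 272)) (XT.lf (nat_lit 0) (nat_lit 25197365938) (nat_lit 152) (nat_lit 12851417982) (nat_lit 0) (nat_lit 1348530727) (nat_lit 14) (nat_lit 5) (nat_lit 16) (nat_lit 4) (nat_lit 14) (nat_lit 4) (nat_lit 323) (nat_lit 306) (nat_lit 271)))) (XT.nd (nat_lit 78) (nat_lit 152) (nat_lit 0) (XT.lf (nat_lit 0) (nat_lit 8555368107) (nat_lit 76) (nat_lit 29365745699) (nat_lit 76) (nat_lit 5493375740) (nat_lit 13) (nat_lit 4) (nat_lit 14) (nat_lit 5) (nat_lit 14) (nat_lit 4) (nat_lit 324) (nat_lit 306) (nat_lit 270)) (XT.nd (nat_lit 78) (nat_lit 76) (nat_lit 0) (XT.lf (nat_lit 0) (nat_lit 4795596450) (nat_lit 152) (nat_lit 13582302589) (nat_lit 76) (nat_lit 29526476775) (nat_lit 12) (nat_lit 5) (nat_lit 14) (nat_lit 5) (nat_lit 13) (nat_lit 4) (nat_lit 325) (nat_lit 306) (nat_lit 269)) (XT.lf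 (nat_lit 0) (nat_lit 11617688231) (nat_lit 76) (nat_lit 4907111228) (nat_lit 152) (nat_lit 36434825707) (nat_lit 11) (nat_lit 5) (nat_lit 12) (nat_lit 5) (nat_lit 13) (nat_lit 4) (nat_lit 326) (nat_lit 306) (nat_lit 268)))))) (XT.nd (nat_lit 390) (nat_lit 228) (nat_lit 0) (XT.nd (nat_lit 156) (nat_lit 152) (nat_lit 0) (XT.nd (nat_lit 78) (nat_lit 76) (nat_lit 0) (XT.lf (nat_lit 0) (nat_lit 31174131382) (nat_lit 152) (nat_lit 17056107701) (nat_lit 0) (nat_lit 10368822611) (nat_lit 11) (nat_lit 5) (nat_lit 13) (nat_lit 4) (nat_lit 11) (nat_lit 4) (nat_lit 327) (nat_lit 306) (nat_lit 267)) (XT.lf (nat_lit 0) (nat_lit 11639018745) (nat_lit 76) (nat_lit 37078926409) (nat_lit 76) (nat_lit 16261916709) (nat_lit 10) (nat_lit 4) (nat_lit 11) (nat_lit 5) (nat_lit 11) (nat_lit 4) (nat_lit 328) (nat_lit 306) (nat_lit 266))) (XT.nd (nat_lit 78) (nat_lit 152) (nat_lit 0) (XT.lf (nat_lit 0) (nat_lit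 46520837445) (nat_lit 76) (nat_lit 23246517289) (nat_lit 76) (nat_lit 2419332868) (nat_lit 10) (nat_lit 4) (nat_lit 11) (nat_lit 5) (nat_lit 11) (nat_lit 4) (nat_lit 329) (nat_lit 306) (nat_lit 265)) (XT.nd (nat_lit 78) (nat_lit 0) (nat_lit 0) (XT.lf (nat_lit 0) (nat_lit 6114202390) (nat_lit 76) (nat_lit 6420790351) (nat_lit 152) (nat_lit 67820124855) (nat_lit 8) (nat_lit 5) (nat_lit 9) (nat_lit 5) (nat_lit 10) (nat_lit 4) (nat_lit 330) (nat_lit 306) (nat_lit 264)) (XT.lf (nat_lit 0) (nat_lit 31409868466) (nat_lit 152) (nat_lit 44748014707) (nat_lit 0) (nat_lit 13284889722) (nat_lit 8) (nat_lit 5) (nat_lit 10) (nat_lit 4) (nat_lit 8) (nat_lit 4) (nat_lit 331) (nat_lit 306) (nat_lit 263))))) (XT.nd (nat_lit 234) (nat_lit 152) (nat_lit 0) (XT.nd (nat_lit 78) (nat_lit 76) (nat_lit 0) (XT.lf (nat_lit 0) (nat_lit 53408014581) (nat_lit 152) (nat_lit 11164542851) (nat_lit 0) (nat_lit 35277218407)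 (nat_lit 8) (nat_lit 5) (nat_lit 10) (nat_lit 4) (nat_lit 8) (nat_lit 4) (nat_lit 332) (nat_lit 306) (nat_lit 262)) (XT.nd (nat_lit 78) (nat_lit 0) (nat_lit 0) (XT.lf (nat_lit 0) (nat_lit 30113337021) (nat_lit 76) (nat_lit 49827550409) (nat_lit 76) (nat_lit 31691695600) (nat_lit 7) (nat_lit 4) (nat_lit 8) (nat_lit 5) (nat_lit 8) (nat_lit 4) (nat_lit 333) (nat_lit 306) (nat_lit 261)) (XT.lf (nat_lit 0) (nat_lit 78814722365) (nat_lit 76) (nat_lit 32211252008) (nat_lit 76) (nat_lit 14070998387) (nat_lit 7) (nat_lit 4) (nat_lit 8) (nat_lit 5) (nat_lit 8) (nat_lit 4) (nat_lit 334) (nat_lit 306) (nat_lit 260)))) (XT.nd (nat_lit 78) (nat_lit 76) (nat_lit 0) (XT.lf (nat_lit 0) (nat_lit 5631163769) (nat_lit 152) (nat_lit 6037076570) (nat_lit 76) (nat_lit 128875865990) (nat_lit 6) (nat_lit 5) (nat_lit 8) (nat_lit 5) (nat_lit 7) (nat_lit 4) (nat_lit 335) (nat_lit 306) (nat_lit 259)) (XT.nd (nat_lit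 78) (nat_lit 0) (nat_lit 0) (XT.lf (nat_lit 0) (nat_lit 29249334318) (nat_lit 152) (nat_lit 115129295819) (nat_lit 0) (nat_lit 13468982310) (nat_lit 5) (nat_lit 5) (nat_lit 7) (nat_lit 4) (nat_lit 5) (nat_lit 4) (nat_lit 336) (nat_lit 306) (nat_lit 258)) (XT.lf (nat_lit 0) (nat_lit 57287577575) (nat_lit 152) (nat_lit 78822756559) (nat_lit 0) (nat_lit 41504710530) (nat_lit 5) (nat_lit 5) (nat_lit 7) (nat_lit 4) (nat_lit 5) (nat_lit 4) (nat_lit 337) (nat_lit 306) (nat_lit 257))))))))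
noncomputable def xc60 : XT := (XT.nd (nat_lit 1638) (nat_lit 76) (nat_lit 0) (XT.nd (nat_lit 780) (nat_lit 0) (nat_lit 0) (XT.nd (nat_lit 390) (nat_lit 152) (nat_lit 0) (XT.nd (nat_lit 156) (nat_lit 0) (nat_lit 0) (XT.nd (nat_lit 78) (nat_lit 76) (nat_lit 0) (XT.lf (nat_lit 0) (nat_lit 89523831076) (nat_lit 152) (nat_lit 37086144487) (nat_lit 0) (nat_lit 73738777044) (nat_lit 5) (nat_lit 5) (nat_lit 7) (nat_lit 4) (nat_lit 5) (nat_lit 4) (nat_lit 338) (nat_lit 306) (nat_lit 256)) (XT.lf (nat_lit 0) (nat_lit 11962072716) (nat_lit 76) (nat_lit 115122055335) (nat_lit 76) (nat_lit 99335099576) (nat_lit 4) (nat_lit 4) (nat_lit 5) (nat_lit 5) (nat_lit 5) (nat_lit 4) (nat_lit 339) (nat_lit 306) (nat_lit 255))) (XT.nd (nat_lit 78) (nat_lit 0) (nat_lit 0) (XT.lf (nat_lit 0) (nat_lit 72522295089) (nat_lit 76) (nat_lit 99688379488) (nat_lit 76) (nat_lit 83899770052) (nat_lit 4) (nat_lit 4) (nat_lit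 5) (nat_lit 5) (nat_lit 5) (nat_lit 4) (nat_lit 340) (nat_lit 306) (nat_lit 254)) (XT.nd (nat_lit 78) (nat_lit 0) (nat_lit 0) (XT.lf (nat_lit 0) (nat_lit 142155068789) (nat_lit 76) (nat_lit 81945578716) (nat_lit 76) (nat_lit 66155531300) (nat_lit 4) (nat_lit 4) (nat_lit 5) (nat_lit 5) (nat_lit 5) (nat_lit 4) (nat_lit 341) (nat_lit 306) (nat_lit 253)) (XT.lf (nat_lit 0) (nat_lit 222222774172) (nat_lit 76) (nat_lit 61546511263) (nat_lit 76) (nat_lit 45755213430) (nat_lit 4) (nat_lit 4) (nat_lit 5) (nat_lit 5) (nat_lit 5) (nat_lit 4) (nat_lit 342) (nat_lit 306) (nat_lit 252))))) (XT.nd (nat_lit 156) (nat_lit 76) (nat_lit 0) (XT.nd (nat_lit 78) (nat_lit 76) (nat_lit 0) (XT.lf (nat_lit 0) (nat_lit 314291953300) (nat_lit 76) (nat_lit 38092064942) (nat_lit 76) (nat_lit 22299679790) (nat_lit 4) (nat_lit 4) (nat_lit 5) (nat_lit 5) (nat_lit 5) (nat_lit 4) (nat_lit 343) (nat_lit 306) (nat_lit 251))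 (XT.lf (nat_lit 0) (nat_lit 4254228123) (nat_lit 152) (nat_lit 6646740180) (nat_lit 76) (nat_lit 415687351446) (nat_lit 3) (nat_lit 5) (nat_lit 5) (nat_lit 5) (nat_lit 4) (nat_lit 4) (nat_lit 344) (nat_lit 306) (nat_lit 250))) (XT.nd (nat_lit 78) (nat_lit 0) (nat_lit 0) (XT.lf (nat_lit 0) (nat_lit 35974451434) (nat_lit 152) (nat_lit 427384551248) (nat_lit 0) (nat_lit 22240405507) (nat_lit 2) (nat_lit 5) (nat_lit 4) (nat_lit 4) (nat_lit 2) (nat_lit 4) (nat_lit 345) (nat_lit 306) (nat_lit 249)) (XT.nd (nat_lit 78) (nat_lit 0) (nat_lit 0) (XT.lf (nat_lit 0) (nat_lit 73332482302) (nat_lit 152) (nat_lit 420399897343) (nat_lit 0) (nat_lit 59597814696) (nat_lit 2) (nat_lit 5) (nat_lit 4) (nat_lit 4) (nat_lit 2) (nat_lit 4) (nat_lit 346) (nat_lit 306) (nat_lit 248)) (XT.lf (nat_lit 0) (nat_lit 116291341434) (nat_lit 152) (nat_lit 412373555681) (nat_lit 0) (nat_lit 102556133239) (nat_lit 2) (nat_lit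 5) (nat_lit 4) (nat_lit 4) (nat_lit 2) (nat_lit 4) (nat_lit 347) (nat_lit 306) (nat_lit 247)))))) (XT.nd (nat_lit 390) (nat_lit 0) (nat_lit 0) (XT.nd (nat_lit 156) (nat_lit 0) (nat_lit 0) (XT.nd (nat_lit 78) (nat_lit 0) (nat_lit 0) (XT.lf (nat_lit 0) (nat_lit 165691528248) (nat_lit 152) (nat_lit 403148489146) (nat_lit 0) (nat_lit 151955849975) (nat_lit 2) (nat_lit 5) (nat_lit 4) (nat_lit 4) (nat_lit 2) (nat_lit 4) (nat_lit 348) (nat_lit 306) (nat_lit 246)) (XT.lf (nat_lit 0) (nat_lit 222499568139) (nat_lit 152) (nat_lit 392544207302) (nat_lit 0) (nat_lit 208763481102) (nat_lit 2) (nat_lit 5) (nat_lit 4) (nat_lit 4) (nat_lit 2) (nat_lit 4) (nat_lit 349) (nat_lit 306) (nat_lit 245))) (XT.nd (nat_lit 78) (nat_lit 0) (nat_lit 0) (XT.lf (nat_lit 0) (nat_lit 287826922756) (nat_lit 152) (nat_lit 380353235073) (nat_lit 0) (nat_lit 274090480272) (nat_lit 2) (nat_lit 5) (nat_lit 4) (nat_lit 4)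 (nat_lit 2) (nat_lit 4) (nat_lit 350) (nat_lit 306) (nat_lit 244)) (XT.nd (nat_lit 78) (nat_lit 0) (nat_lit 0) (XT.lf (nat_lit 0) (nat_lit 362951735993) (nat_lit 152) (nat_lit 366337053434) (nat_lit 0) (nat_lit 349214984425) (nat_lit 2) (nat_lit 5) (nat_lit 4) (nat_lit 4) (nat_lit 2) (nat_lit 4) (nat_lit 351) (nat_lit 306) (nat_lit 243)) (XT.lf (nat_lit 0) (nat_lit 449343841155) (nat_lit 152) (nat_lit 350221432746) (nat_lit 0) (nat_lit 435606820818) (nat_lit 2) (nat_lit 5) (nat_lit 4) (nat_lit 4) (nat_lit 2) (nat_lit 4) (nat_lit 352) (nat_lit 306) (nat_lit 242))))) (XT.nd (nat_lit 234) (nat_lit 0) (nat_lit 0) (XT.nd (nat_lit 78) (nat_lit 0) (nat_lit 0) (XT.lf (nat_lit 0) (nat_lit 548693518557) (nat_lit 152) (nat_lit 331691067387) (nat_lit 0) (nat_lit 534956264509) (nat_lit 2) (nat_lit 5) (nat_lit 4) (nat_lit 4) (nat_lit 2) (nat_lit 4) (nat_lit 353) (nat_lit 306) (nat_lit 241)) (XT.nd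 (nat_lit 78) (nat_lit 0) (nat_lit 0) (XT.lf (nat_lit 0) (nat_lit 662944566238) (nat_lit 152) (nat_lit 310383406730) (nat_lit 0) (nat_lit 649207108962) (nat_lit 2) (nat_lit 5) (nat_lit 4) (nat_lit 4) (nat_lit 2) (nat_lit 4) (nat_lit 354) (nat_lit 306) (nat_lit 240)) (XT.lf (nat_lit 0) (nat_lit 794332330782) (nat_lit 152) (nat_lit 285881561761) (nat_lit 0) (nat_lit 780594696786) (nat_lit 2) (nat_lit 5) (nat_lit 4) (nat_lit 4) (nat_lit 2) (nat_lit 4) (nat_lit 355) (nat_lit 306) (nat_lit 239)))) (XT.nd (nat_lit 78) (nat_lit 0) (nat_lit 0) (XT.lf (nat_lit 0) (nat_lit 945427442365) (nat_lit 152) (nat_lit 257706148559) (nat_lit 0) (nat_lit 931689654700) (nat_lit 2) (nat_lit 5) (nat_lit 4) (nat_lit 4) (nat_lit 2) (nat_lit 4) (nat_lit 356) (nat_lit 306) (nat_lit 238)) (XT.nd (nat_lit 78) (nat_lit 0) (nat_lit 0) (XT.lf (nat_lit 0) (nat_lit 1119186109691) (nat_lit 152) (nat_lit 225305909037) (nat_lit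 0) (nat_lit 1105448188400) (nat_lit 2) (nat_lit 5) (nat_lit 4) (nat_lit 4) (nat_lit 2) (nat_lit 4) (nat_lit 357) (nat_lit 306) (nat_lit 237)) (XT.lf (nat_lit 0) (nat_lit 1319007958861) (nat_lit 152) (nat_lit 188046925468) (nat_lit 0) (nat_lit 1305269921374) (nat_lit 2) (nat_lit 5) (nat_lit 4) (nat_lit 4) (nat_lit 2) (nat_lit 4) (nat_lit 358) (nat_lit 306) (nat_lit 236))))))) (XT.nd (nat_lit 858) (nat_lit 0) (nat_lit 0) (XT.nd (nat_lit 390) (nat_lit 0) (nat_lit 0) (XT.nd (nat_lit 156) (nat_lit 76) (nat_lit 0) (XT.nd (nat_lit 78) (nat_lit 0) (nat_lit 0) (XT.lf (nat_lit 0) (nat_lit 1548802547794) (nat_lit 152) (nat_lit 145200217736) (nat_lit 0) (nat_lit 1535064409267) (nat_lit 2) (nat_lit 5) (nat_lit 4) (nat_lit 4) (nat_lit 2) (nat_lit 4) (nat_lit 359) (nat_lit 306) (nat_lit 235)) (XT.lf (nat_lit 0) (nat_lit 1813065857576) (nat_lit 152) (nat_lit 95927480692) (nat_lit 0) (nat_lit 1799327631188)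 (nat_lit 2) (nat_lit 5) (nat_lit 4) (nat_lit 4) (nat_lit 2) (nat_lit 4) (nat_lit 360) (nat_lit 306) (nat_lit 234))) (XT.nd (nat_lit 78) (nat_lit 76) (nat_lit 0) (XT.lf (nat_lit 0) (nat_lit 2116968257312) (nat_lit 152) (nat_lit 39264682523) (nat_lit 0) (nat_lit 2103229954523) (nat_lit 2) (nat_lit 5) (nat_lit 4) (nat_lit 4) (nat_lit 2) (nat_lit 4) (nat_lit 361) (nat_lit 306) (nat_lit 233)) (XT.nd (nat_lit 78) (nat_lit 0) (nat_lit 0) (XT.lf (nat_lit 0) (nat_lit 28427620051) (nat_lit 76) (nat_lit 2439205170592) (nat_lit 76) (nat_lit 2425466801368) (nat_lit 1) (nat_lit 4) (nat_lit 2) (nat_lit 5) (nat_lit 2) (nat_lit 4) (nat_lit 362) (nat_lit 306) (nat_lit 232)) (XT.lf (nat_lit 0) (nat_lit 110685877839) (nat_lit 76) (nat_lit 2762263261600) (nat_lit 76) (nat_lit 2748524834606) (nat_lit 1) (nat_lit 4) (nat_lit 2) (nat_lit 5) (nat_lit 2) (nat_lit 4) (nat_lit 363) (nat_lit 306) (nat_lit 231)))))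 (XT.nd (nat_lit 234) (nat_lit 0) (nat_lit 0) (XT.nd (nat_lit 78) (nat_lit 0) (nat_lit 0) (XT.lf (nat_lit 0) (nat_lit 205282261197) (nat_lit 76) (nat_lit 3133780386680) (nat_lit 76) (nat_lit 3120041909451) (nat_lit 1) (nat_lit 4) (nat_lit 2) (nat_lit 5) (nat_lit 2) (nat_lit 4) (nat_lit 364) (nat_lit 306) (nat_lit 230)) (XT.nd (nat_lit 78) (nat_lit 0) (nat_lit 0) (XT.lf (nat_lit 0) (nat_lit 314067568931) (nat_lit 76) (nat_lit 3561025359150) (nat_lit 76) (nat_lit 3547286838239) (nat_lit 1) (nat_lit 4) (nat_lit 2) (nat_lit 5) (nat_lit 2) (nat_lit 4) (nat_lit 365) (nat_lit 306) (nat_lit 229)) (XT.lf (nat_lit 0) (nat_lit 439170209235) (nat_lit 76) (nat_lit 4052357319775) (nat_lit 76) (nat_lit 4038618760879) (nat_lit 1) (nat_lit 4) (nat_lit 2) (nat_lit 5) (nat_lit 2) (nat_lit 4) (nat_lit 366) (nat_lit 306) (nat_lit 228)))) (XT.nd (nat_lit 78) (nat_lit 0) (nat_lit 0) (XT.lf (nat_lit 0) (nat_lit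 583037842463) (nat_lit 76) (nat_lit 4617389285177) (nat_lit 76) (nat_lit 4603650693250) (nat_lit 1) (nat_lit 4) (nat_lit 2) (nat_lit 5) (nat_lit 2) (nat_lit 4) (nat_lit 367) (nat_lit 306) (nat_lit 227)) (XT.nd (nat_lit 78) (nat_lit 0) (nat_lit 0) (XT.lf (nat_lit 0) (nat_lit 748485270135) (nat_lit 76) (nat_lit 5267176228590) (nat_lit 76) (nat_lit 5253437607941) (nat_lit 1) (nat_lit 4) (nat_lit 2) (nat_lit 5) (nat_lit 2) (nat_lit 4) (nat_lit 368) (nat_lit 306) (nat_lit 226)) (XT.lf (nat_lit 0) (nat_lit 938749507140) (nat_lit 76) (nat_lit 6014431372821) (nat_lit 76) (nat_lit 6000692727197) (nat_lit 1) (nat_lit 4) (nat_lit 2) (nat_lit 5) (nat_lit 2) (nat_lit 4) (nat_lit 369) (nat_lit 306) (nat_lit 225)))))) (XT.nd (nat_lit 390) (nat_lit 0) (nat_lit 0) (XT.nd (nat_lit 156) (nat_lit 0) (nat_lit 0) (XT.nd (nat_lit 78) (nat_lit 0) (nat_lit 0) (XT.lf (nat_lit 0) (nat_lit 1157553114637) (nat_lit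 76) (nat_lit 6873774927215) (nat_lit 76) (nat_lit 6860036259873) (nat_lit 1) (nat_lit 4) (nat_lit 2) (nat_lit 5) (nat_lit 2) (nat_lit 4) (nat_lit 370) (nat_lit 306) (nat_lit 224)) (XT.lf (nat_lit 0) (nat_lit 1409177032772) (nat_lit 76) (nat_lit 7862020135225) (nat_lit 76) (nat_lit 7848281448998) (nat_lit 1) (nat_lit 4) (nat_lit 2) (nat_lit 5) (nat_lit 2) (nat_lit 4) (nat_lit 371) (nat_lit 306) (nat_lit 223))) (XT.nd (nat_lit 78) (nat_lit 0) (nat_lit 0) (XT.lf (nat_lit 0) (nat_lit 1698544338205) (nat_lit 76) (nat_lit 8998502229184) (nat_lit 76) (nat_lit 8984763526535) (nat_lit 1) (nat_lit 4) (nat_lit 2) (nat_lit 5) (nat_lit 2) (nat_lit 4) (nat_lit 372) (nat_lit 306) (nat_lit 222)) (XT.nd (nat_lit 78) (nat_lit 0) (nat_lit 0) (XT.lf (nat_lit 0) (nat_lit 2031316565173) (nat_lit 76) (nat_lit 10305456728320) (nat_lit 76) (nat_lit 10291718011392) (nat_lit 1) (nat_lit 4) (nat_lit 2) (nat_lit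 5) (nat_lit 2) (nat_lit 4) (nat_lit 373) (nat_lit 306) (nat_lit 221)) (XT.lf (nat_lit 0) (nat_lit 2414004474637) (nat_lit 76) (nat_lit 11808454481530) (nat_lit 76) (nat_lit 11794715752184) (nat_lit 1) (nat_lit 4) (nat_lit 2) (nat_lit 5) (nat_lit 2) (nat_lit 4) (nat_lit 374) (nat_lit 306) (nat_lit 220))))) (XT.nd (nat_lit 234) (nat_lit 0) (nat_lit 0) (XT.nd (nat_lit 78) (nat_lit 0) (nat_lit 0) (XT.lf (nat_lit 0) (nat_lit 2854095438739) (nat_lit 76) (nat_lit 13536901966594) (nat_lit 76) (nat_lit 13523163226450) (nat_lit 1) (nat_lit 4) (nat_lit 2) (nat_lit 5) (nat_lit 2) (nat_lit 4) (nat_lit 375) (nat_lit 306) (nat_lit 219)) (XT.nd (nat_lit 78) (nat_lit 0) (nat_lit 0) (XT.lf (nat_lit 0) (nat_lit 3360199932865) (nat_lit 76) (nat_lit 15524616634307) (nat_lit 76) (nat_lit 15510877884774) (nat_lit 1) (nat_lit 4) (nat_lit 2) (nat_lit 5) (nat_lit 2) (nat_lit 4) (nat_lit 376) (nat_lit 306) (nat_lit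 218)) (XT.lf (nat_lit 0) (nat_lit 3942220001464) (nat_lit 76) (nat_lit 17810488554253) (nat_lit 76) (nat_lit 17796749796556) (nat_lit 1) (nat_lit 4) (nat_lit 2) (nat_lit 5) (nat_lit 2) (nat_lit 4) (nat_lit 377) (nat_lit 306) (nat_lit 217)))) (XT.nd (nat_lit 78) (nat_lit 0) (nat_lit 0) (XT.lf (nat_lit 0) (nat_lit 4611542993705) (nat_lit 76) (nat_lit 20439241307477) (nat_lit 76) (nat_lit 20425502542680) (nat_lit 1) (nat_lit 4) (nat_lit 2) (nat_lit 5) (nat_lit 2) (nat_lit 4) (nat_lit 378) (nat_lit 306) (nat_lit 216)) (XT.nd (nat_lit 78) (nat_lit 0) (nat_lit 0) (XT.lf (nat_lit 0) (nat_lit 5381264359435) (nat_lit 76) (nat_lit 23462307013062) (nat_lit 76) (nat_lit 23448568242092) (nat_lit 1) (nat_lit 4) (nat_lit 2) (nat_lit 5) (nat_lit 2) (nat_lit 4) (nat_lit 379) (nat_lit 306) (nat_lit 215)) (XT.lf (nat_lit 0) (nat_lit 6266443864507) (nat_lit 76) (nat_lit 26938832608727) (nat_lit 76) (nat_lit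 26925093832388) (nat_lit 1) (nat_lit 4) (nat_lit 2) (nat_lit 5) (nat_lit 2) (nat_lit 4) (nat_lit 380) (nat_lit 306) (nat_lit 214))))))))
noncomputable def xc61 : XT := (XT.nd (nat_lit 41964) (nat_lit 0) (nat_lit 304) (XT.nd (nat_lit 41106) (nat_lit 0) (nat_lit 1444) (XT.nd (nat_lit 390) (nat_lit 0) (nat_lit 0) (XT.nd (nat_lit 156) (nat_lit 0) (nat_lit 0) (XT.nd (nat_lit 78) (nat_lit 0) (nat_lit 0) (XT.lf (nat_lit 0) (nat_lit 7284400238366) (nat_lit 76) (nat_lit 30936837073517) (nat_lit 76) (nat_lit 30923098292510) (nat_lit 1) (nat_lit 4) (nat_lit 2) (nat_lit 5) (nat_lit 2) (nat_lit 4) (nat_lit 381) (nat_lit 306) (nat_lit 213)) (XT.lf (nat_lit 0) (nat_lit 8455050018764) (nat_lit 76) (nat_lit 35534542233917) (nat_lit 76) (nat_lit 35520803448851) (nat_lit 1) (nat_lit 4) (nat_lit 2) (nat_lit 5) (nat_lit 2) (nat_lit 4) (nat_lit 382) (nat_lit 306) (nat_lit 212))) (XT.nd (nat_lit 78) (nat_lit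 0) (nat_lit 0) (XT.lf (nat_lit 0) (nat_lit 9801297223141) (nat_lit 76) (nat_lit 40821903190892) (nat_lit 76) (nat_lit 40808164402296) (nat_lit 1) (nat_lit 4) (nat_lit 2) (nat_lit 5) (nat_lit 2) (nat_lit 4) (nat_lit 383) (nat_lit 306) (nat_lit 211)) (XT.nd (nat_lit 78) (nat_lit 0) (nat_lit 0) (XT.lf (nat_lit 0) (nat_lit 11349481470714) (nat_lit 76) (nat_lit 46902368310991) (nat_lit 76) (nat_lit 46888629519326) (nat_lit 1) (nat_lit 4) (nat_lit 2) (nat_lit 5) (nat_lit 2) (nat_lit 4) (nat_lit 384) (nat_lit 306) (nat_lit 210)) (XT.lf (nat_lit 0) (nat_lit 13129893322849) (nat_lit 76) (nat_lit 53894903216129) (nat_lit 76) (nat_lit 53881164421794) (nat_lit 1) (nat_lit 4) (nat_lit 2) (nat_lit 5) (nat_lit 2) (nat_lit 4) (nat_lit 385) (nat_lit 306) (nat_lit 209))))) (XT.nd (nat_lit 858) (nat_lit 0) (nat_lit 0) (XT.nd (nat_lit 78) (nat_lit 0) (nat_lit 0) (XT.lf (nat_lit 0) (nat_lit 15177366924479)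 (nat_lit 76) (nat_lit 61936318371841) (nat_lit 76) (nat_lit 61922579575185) (nat_lit 1) (nat_lit 4) (nat_lit 2) (nat_lit 5) (nat_lit 2) (nat_lit 4) (nat_lit 386) (nat_lit 306) (nat_lit 208)) (XT.nd (nat_lit 78) (nat_lit 0) (nat_lit 0) (XT.lf (nat_lit 0) (nat_lit 17531961541723) (nat_lit 76) (nat_lit 71183945813782) (nat_lit 76) (nat_lit 71170207015109) (nat_lit 1) (nat_lit 4) (nat_lit 2) (nat_lit 5) (nat_lit 2) (nat_lit 4) (nat_lit 387) (nat_lit 306) (nat_lit 207)) (XT.lf (nat_lit 0) (nat_lit 20239745330135) (nat_lit 76) (nat_lit 81818717383209) (nat_lit 76) (nat_lit 81804978582781) (nat_lit 1) (nat_lit 4) (nat_lit 2) (nat_lit 5) (nat_lit 2) (nat_lit 4) (nat_lit 388) (nat_lit 306) (nat_lit 206)))) (XT.nd (nat_lit 78) (nat_lit 0) (nat_lit 0) (XT.lf (nat_lit 0) (nat_lit 72510039666088) (nat_lit 76) (nat_lit 287109351789873) (nat_lit 76) (nat_lit 287095612981071) (nat_lit 1) (nat_lit 4)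 (nat_lit 2) (nat_lit 5) (nat_lit 2) (nat_lit 4) (nat_lit 397) (nat_lit 306) (nat_lit 197)) (XT.nd (nat_lit 78) (nat_lit 0) (nat_lit 0) (XT.lf (nat_lit 0) (nat_lit 83464535065662) (nat_lit 76) (nat_lit 330132934311892) (nat_lit 76) (nat_lit 330119195502656) (nat_lit 1) (nat_lit 4) (nat_lit 2) (nat_lit 5) (nat_lit 2) (nat_lit 4) (nat_lit 398) (nat_lit 306) (nat_lit 196)) (XT.lf (nat_lit 0) (nat_lit 96062204770569) (nat_lit 76) (nat_lit 379610054214619) (nat_lit 76) (nat_lit 379596315405006) (nat_lit 1) (nat_lit 4) (nat_lit 2) (nat_lit 5) (nat_lit 2) (nat_lit 4) (nat_lit 399) (nat_lit 306) (nat_lit 195)))))) (XT.nd (nat_lit 390) (nat_lit 456) (nat_lit 0) (XT.nd (nat_lit 156) (nat_lit 0) (nat_lit 76) (XT.nd (nat_lit 78) (nat_lit 380) (nat_lit 0) (XT.lf (nat_lit 0) (nat_lit 2771999139) (nat_lit 0) (nat_lit 2771999139) (nat_lit 228) (nat_lit 48223789) (nat_lit 31) (nat_lit 5) (nat_lit 31) (nat_lit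 3) (nat_lit 34) (nat_lit 3) (nat_lit 307) (nat_lit 307) (nat_lit 286)) (XT.lf (nat_lit 0) (nat_lit 419339964) (nat_lit 380) (nat_lit 250246907) (nat_lit 380) (nat_lit 11276159062) (nat_lit 26) (nat_lit 3) (nat_lit 31) (nat_lit 3) (nat_lit 31) (nat_lit 5) (nat_lit 308) (nat_lit 307) (nat_lit 285))) (XT.nd (nat_lit 78) (nat_lit 0) (nat_lit 0) (XT.lf (nat_lit 0) (nat_lit 1397884841) (nat_lit 304) (nat_lit 6546353080) (nat_lit 380) (nat_lit 4817223715) (nat_lit 27) (nat_lit 5) (nat_lit 31) (nat_lit 5) (nat_lit 32) (nat_lit 5) (nat_lit 309) (nat_lit 307) (nat_lit 284)) (XT.nd (nat_lit 78) (nat_lit 0) (nat_lit 76) (XT.lf (nat_lit 0) (nat_lit 2488464786) (nat_lit 304) (nat_lit 115707806) (nat_lit 380) (nat_lit 11100745481) (nat_lit 27) (nat_lit 5) (nat_lit 31) (nat_lit 5) (nat_lit 32) (nat_lit 5) (nat_lit 310) (nat_lit 307) (nat_lit 283)) (XT.lf (nat_lit 0) (nat_lit 4163811257) (nat_lit 304)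 (nat_lit 6984111844) (nat_lit 76) (nat_lit 3578941970) (nat_lit 28) (nat_lit 5) (nat_lit 32) (nat_lit 5) (nat_lit 29) (nat_lit 5) (nat_lit 311) (nat_lit 307) (nat_lit 282))))) (XT.nd (nat_lit 234) (nat_lit 152) (nat_lit 0) (XT.nd (nat_lit 78) (nat_lit 152) (nat_lit 0) (XT.lf (nat_lit 0) (nat_lit 773215470) (nat_lit 304) (nat_lit 5417066426) (nat_lit 380) (nat_lit 9696978479) (nat_lit 24) (nat_lit 5) (nat_lit 28) (nat_lit 5) (nat_lit 29) (nat_lit 5) (nat_lit 312) (nat_lit 307) (nat_lit 281)) (XT.nd (nat_lit 78) (nat_lit 152) (nat_lit 0) (XT.lf (nat_lit 0) (nat_lit 8894758664) (nat_lit 380) (nat_lit 6822617435) (nat_lit 76) (nat_lit 1448346231) (nat_lit 24) (nat_lit 5) (nat_lit 29) (nat_lit 5) (nat_lit 25) (nat_lit 5) (nat_lit 313) (nat_lit 307) (nat_lit 280)) (XT.lf (nat_lit 0) (nat_lit 2628820381) (nat_lit 152) (nat_lit 9693316387) (nat_lit 228) (nat_lit 6266330324) (nat_lit 22) (nat_lit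 5) (nat_lit 24) (nat_lit 5) (nat_lit 25) (nat_lit 5) (nat_lit 314) (nat_lit 307) (nat_lit 279)))) (XT.nd (nat_lit 78) (nat_lit 152) (nat_lit 0) (XT.lf (nat_lit 0) (nat_lit 14207676490) (nat_lit 152) (nat_lit 2367106246) (nat_lit 228) (nat_lit 3603251865) (nat_lit 22) (nat_lit 5) (nat_lit 24) (nat_lit 5) (nat_lit 25) (nat_lit 5) (nat_lit 315) (nat_lit 307) (nat_lit 278)) (XT.nd (nat_lit 78) (nat_lit 76) (nat_lit 0) (XT.lf (nat_lit 0) (nat_lit 5720544440) (nat_lit 76) (nat_lit 16192545620) (nat_lit 152) (nat_lit 25856600) (nat_lit 21) (nat_lit 5) (nat_lit 22) (nat_lit 5) (nat_lit 23) (nat_lit 4) (nat_lit 316) (nat_lit 307) (nat_lit 277)) (XT.lf (nat_lit 0) (nat_lit 4125111629) (nat_lit 152) (nat_lit 4434520040) (nat_lit 76) (nat_lit 15318889829) (nat_lit 20) (nat_lit 5) (nat_lit 22) (nat_lit 5) (nat_lit 21) (nat_lit 5) (nat_lit 317) (nat_lit 307) (nat_lit 276))))))) (XT.nd (nat_lit 858)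 (nat_lit 456) (nat_lit 0) (XT.nd (nat_lit 390) (nat_lit 304) (nat_lit 0) (XT.nd (nat_lit 156) (nat_lit 228) (nat_lit 0) (XT.nd (nat_lit 78) (nat_lit 0) (nat_lit 0) (XT.lf (nat_lit 0) (nat_lit 9302577431) (nat_lit 228) (nat_lit 16127619265) (nat_lit 76) (nat_lit 617724956) (nat_lit 18) (nat_lit 5) (nat_lit 21) (nat_lit 5) (nat_lit 19) (nat_lit 4) (nat_lit 318) (nat_lit 307) (nat_lit 275)) (XT.lf (nat_lit 0) (nat_lit 15875214636) (nat_lit 228) (nat_lit 2050886577) (nat_lit 76) (nat_lit 10523890250) (nat_lit 18) (nat_lit 5) (nat_lit 21) (nat_lit 5) (nat_lit 19) (nat_lit 4) (nat_lit 319) (nat_lit 307) (nat_lit 274))) (XT.nd (nat_lit 78) (nat_lit 152) (nat_lit 0) (XT.lf (nat_lit 0) (nat_lit 15470266690) (nat_lit 76) (nat_lit 8576338667) (nat_lit 152) (nat_lit 7073874533) (nat_lit 17) (nat_lit 5) (nat_lit 18) (nat_lit 5) (nat_lit 19) (nat_lit 4) (nat_lit 320) (nat_lit 307) (nat_lit 273)) (XT.nd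 (nat_lit 78) (nat_lit 76) (nat_lit 0) (XT.lf (nat_lit 0) (nat_lit 1683745302) (nat_lit 76) (nat_lit 32005538041) (nat_lit 76) (nat_lit 465453474) (nat_lit 16) (nat_lit 4) (nat_lit 17) (nat_lit 5) (nat_lit 17) (nat_lit 4) (nat_lit 321) (nat_lit 307) (nat_lit 272)) (XT.lf (nat_lit 0) (nat_lit 7738425043) (nat_lit 152) (nat_lit 14933595427) (nat_lit 76) (nat_lit 14741924113) (nat_lit 15) (nat_lit 5) (nat_lit 17) (nat_lit 5) (nat_lit 16) (nat_lit 4) (nat_lit 322) (nat_lit 307) (nat_lit 271))))) (XT.nd (nat_lit 234) (nat_lit 152) (nat_lit 0) (XT.nd (nat_lit 78) (nat_lit 76) (nat_lit 0) (XT.lf (nat_lit 0) (nat_lit 5677641908) (nat_lit 76) (nat_lit 11659993505) (nat_lit 152) (nat_lit 23789233948) (nat_lit 14) (nat_lit 5) (nat_lit 15) (nat_lit 5) (nat_lit 16) (nat_lit 4) (nat_lit 323) (nat_lit 307) (nat_lit 270)) (XT.nd (nat_lit 78) (nat_lit 76) (nat_lit 0) (XT.lf (nat_lit 0) (nat_lit 29214066551)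 (nat_lit 152) (nat_lit 14340242386) (nat_lit 0) (nat_lit 1716841352) (nat_lit 14) (nat_lit 5) (nat_lit 16) (nat_lit 4) (nat_lit 14) (nat_lit 4) (nat_lit 324) (nat_lit 307) (nat_lit 269)) (XT.lf (nat_lit 0) (nat_lit 10257612149) (nat_lit 76) (nat_lit 33575186284) (nat_lit 76) (nat_lit 6060165435) (nat_lit 13) (nat_lit 4) (nat_lit 14) (nat_lit 5) (nat_lit 14) (nat_lit 4) (nat_lit 325) (nat_lit 307) (nat_lit 268)))) (XT.nd (nat_lit 78) (nat_lit 76) (nat_lit 0) (XT.lf (nat_lit 0) (nat_lit 5718690231) (nat_lit 152) (nat_lit 15235311331) (nat_lit 76) (nat_lit 34105337815) (nat_lit 12) (nat_lit 5) (nat_lit 14) (nat_lit 5) (nat_lit 13) (nat_lit 4) (nat_lit 326) (nat_lit 307) (nat_lit 267)) (XT.nd (nat_lit 78) (nat_lit 0) (nat_lit 0) (XT.lf (nat_lit 0) (nat_lit 13727208264) (nat_lit 76) (nat_lit 5468679950) (nat_lit 152) (nat_lit 41678712653) (nat_lit 11) (nat_lit 5) (nat_lit 12) (nat_lit 5) (nat_lit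 13) (nat_lit 4) (nat_lit 327) (nat_lit 307) (nat_lit 266)) (XT.lf (nat_lit 0) (nat_lit 36023811458) (nat_lit 152) (nat_lit 19276602740) (nat_lit 0) (nat_lit 12062374653) (nat_lit 11) (nat_lit 5) (nat_lit 13) (nat_lit 4) (nat_lit 11) (nat_lit 4) (nat_lit 328) (nat_lit 307) (nat_lit 265)))))) (XT.nd (nat_lit 390) (nat_lit 228) (nat_lit 0) (XT.nd (nat_lit 156) (nat_lit 152) (nat_lit 0) (XT.nd (nat_lit 78) (nat_lit 0) (nat_lit 0) (XT.lf (nat_lit 0) (nat_lit 13707432623) (nat_lit 76) (nat_lit 42482482930) (nat_lit 76) (nat_lit 18512198541) (nat_lit 10) (nat_lit 4) (nat_lit 11) (nat_lit 5) (nat_lit 11) (nat_lit 4) (nat_lit 329) (nat_lit 307) (nat_lit 264)) (XT.lf (nat_lit 0) (nat_lit 53779450946) (nat_lit 76) (nat_lit 26595857978) (nat_lit 76) (nat_lit 2617880038) (nat_lit 10) (nat_lit 4) (nat_lit 11) (nat_lit 5) (nat_lit 11) (nat_lit 4) (nat_lit 330) (nat_lit 307) (nat_lit 263))) (XT.nd (nat_lit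 78) (nat_lit 0) (nat_lit 0) (XT.lf (nat_lit 0) (nat_lit 7313099454) (nat_lit 76) (nat_lit 7244001679) (nat_lit 152) (nat_lit 77829949123) (nat_lit 8) (nat_lit 5) (nat_lit 9) (nat_lit 5) (nat_lit 10) (nat_lit 4) (nat_lit 331) (nat_lit 307) (nat_lit 262)) (XT.nd (nat_lit 78) (nat_lit 0) (nat_lit 0) (XT.lf (nat_lit 0) (nat_lit 36249742423) (nat_lit 152) (nat_lit 51201687848) (nat_lit 0) (nat_lit 15388450759) (nat_lit 8) (nat_lit 5) (nat_lit 10) (nat_lit 4) (nat_lit 8) (nat_lit 4) (nat_lit 332) (nat_lit 307) (nat_lit 261)) (XT.lf (nat_lit 0) (nat_lit 61530863453) (nat_lit 152) (nat_lit 12614416397) (nat_lit 0) (nat_lit 40665172976) (nat_lit 8) (nat_lit 5) (nat_lit 10) (nat_lit 4) (nat_lit 8) (nat_lit 4) (nat_lit 333) (nat_lit 307) (nat_lit 260))))) (XT.nd (nat_lit 234) (nat_lit 76) (nat_lit 0) (XT.nd (nat_lit 78) (nat_lit 76) (nat_lit 0) (XT.lf (nat_lit 0) (nat_lit 34844926917) (nat_lit 76)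 (nat_lit 57193063389) (nat_lit 76) (nat_lit 36323547857) (nat_lit 7) (nat_lit 4) (nat_lit 8) (nat_lit 5) (nat_lit 8) (nat_lit 4) (nat_lit 334) (nat_lit 307) (nat_lit 259)) (XT.nd (nat_lit 78) (nat_lit 76) (nat_lit 0) (XT.lf (nat_lit 0) (nat_lit 90823530148) (nat_lit 76) (nat_lit 36948488000) (nat_lit 76) (nat_lit 16075646334) (nat_lit 7) (nat_lit 4) (nat_lit 8) (nat_lit 5) (nat_lit 8) (nat_lit 4) (nat_lit 335) (nat_lit 307) (nat_lit 258)) (XT.lf (nat_lit 0) (nat_lit 6559807723) (nat_lit 152) (nat_lit 6772147350) (nat_lit 76) (nat_lit 148281147563) (nat_lit 6) (nat_lit 5) (nat_lit 8) (nat_lit 5) (nat_lit 7) (nat_lit 4) (nat_lit 336) (nat_lit 307) (nat_lit 257)))) (XT.nd (nat_lit 78) (nat_lit 0) (nat_lit 0) (XT.lf (nat_lit 0) (nat_lit 33719926342) (nat_lit 152) (nat_lit 132227400899) (nat_lit 0) (nat_lit 15564927218) (nat_lit 5) (nat_lit 5) (nat_lit 7) (nat_lit 4) (nat_lit 5) (nat_lit 4)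 (nat_lit 337) (nat_lit 307) (nat_lit 256)) (XT.nd (nat_lit 78) (nat_lit 0) (nat_lit 0) (XT.lf (nat_lit 0) (nat_lit 65953054972) (nat_lit 152) (nat_lit 90497222832) (nat_lit 0) (nat_lit 47796154121) (nat_lit 5) (nat_lit 5) (nat_lit 7) (nat_lit 4) (nat_lit 5) (nat_lit 4) (nat_lit 338) (nat_lit 307) (nat_lit 255)) (XT.lf (nat_lit 0) (nat_lit 103015310747) (nat_lit 152) (nat_lit 42519546847) (nat_lit 0) (nat_lit 84856756219) (nat_lit 5) (nat_lit 5) (nat_lit 7) (nat_lit 4) (nat_lit 5) (nat_lit 4) (nat_lit 339) (nat_lit 307) (nat_lit 254))))))))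
noncomputable def xc62 : XT := (XT.nd (nat_lit 1638) (nat_lit 76) (nat_lit 0) (XT.nd (nat_lit 780) (nat_lit 0) (nat_lit 0) (XT.nd (nat_lit 390) (nat_lit 152) (nat_lit 0) (XT.nd (nat_lit 156) (nat_lit 0) (nat_lit 0) (XT.nd (nat_lit 78) (nat_lit 0) (nat_lit 0) (XT.lf (nat_lit 0) (nat_lit 13880015696) (nat_lit 76) (nat_lit 132326550912) (nat_lit 76) (nat_lit 114166558404) (nat_lit 4) (nat_lit 4) (nat_lit 5) (nat_lit 5) (nat_lit 5) (nat_lit 4) (nat_lit 340) (nat_lit 307) (nat_lit 253)) (XT.lf (nat_lit 0) (nat_lit 83508145502) (nat_lit 76) (nat_lit 114586147087) (nat_lit 76) (nat_lit 96424904162) (nat_lit 4) (nat_lit 4) (nat_lit 5) (nat_lit 5) (nat_lit 5) (nat_lit 4) (nat_lit 341) (nat_lit 307) (nat_lit 252))) (XT.nd (nat_lit 78) (nat_lit 0) (nat_lit 0) (XT.lf (nat_lit 0) (nat_lit 163571812716) (nat_lit 76) (nat_lit 94189163936) (nat_lit 76) (nat_lit 76026833692) (nat_lit 4) (nat_lit 4) (nat_lit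 5) (nat_lit 5) (nat_lit 5) (nat_lit 4) (nat_lit 342) (nat_lit 307) (nat_lit 251)) (XT.nd (nat_lit 78) (nat_lit 0) (nat_lit 0) (XT.lf (nat_lit 0) (nat_lit 255637480393) (nat_lit 76) (nat_lit 70736530051) (nat_lit 76) (nat_lit 52573254312) (nat_lit 4) (nat_lit 4) (nat_lit 5) (nat_lit 5) (nat_lit 5) (nat_lit 4) (nat_lit 343) (nat_lit 307) (nat_lit 250)) (XT.lf (nat_lit 0) (nat_lit 361506433334) (nat_lit 76) (nat_lit 43769389552) (nat_lit 76) (nat_lit 25605291643) (nat_lit 4) (nat_lit 4) (nat_lit 5) (nat_lit 5) (nat_lit 5) (nat_lit 4) (nat_lit 344) (nat_lit 307) (nat_lit 249))))) (XT.nd (nat_lit 156) (nat_lit 0) (nat_lit 0) (XT.nd (nat_lit 78) (nat_lit 76) (nat_lit 0) (XT.lf (nat_lit 0) (nat_lit 4923525634) (nat_lit 152) (nat_lit 7579232723) (nat_lit 76) (nat_lit 478069128870) (nat_lit 3) (nat_lit 5) (nat_lit 5) (nat_lit 5) (nat_lit 4) (nat_lit 4) (nat_lit 345) (nat_lit 307) (nat_lit 248))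 (XT.lf (nat_lit 0) (nat_lit 41401590252) (nat_lit 152) (nat_lit 491427518053) (nat_lit 0) (nat_lit 25605560238) (nat_lit 2) (nat_lit 5) (nat_lit 4) (nat_lit 4) (nat_lit 2) (nat_lit 4) (nat_lit 346) (nat_lit 307) (nat_lit 247))) (XT.nd (nat_lit 78) (nat_lit 0) (nat_lit 0) (XT.lf (nat_lit 0) (nat_lit 84359286041) (nat_lit 152) (nat_lit 483403607263) (nat_lit 0) (nat_lit 68562785948) (nat_lit 2) (nat_lit 5) (nat_lit 4) (nat_lit 4) (nat_lit 2) (nat_lit 4) (nat_lit 347) (nat_lit 307) (nat_lit 246)) (XT.nd (nat_lit 78) (nat_lit 0) (nat_lit 0) (XT.lf (nat_lit 0) (nat_lit 133758461253) (nat_lit 152) (nat_lit 474180654529) (nat_lit 0) (nat_lit 117961552396) (nat_lit 2) (nat_lit 5) (nat_lit 4) (nat_lit 4) (nat_lit 2) (nat_lit 4) (nat_lit 348) (nat_lit 307) (nat_lit 245)) (XT.lf (nat_lit 0) (nat_lit 190565621489) (nat_lit 152) (nat_lit 463578210774) (nat_lit 0) (nat_lit 174768357186) (nat_lit 2)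 (nat_lit 5) (nat_lit 4) (nat_lit 4) (nat_lit 2) (nat_lit 4) (nat_lit 349) (nat_lit 307) (nat_lit 244)))))) (XT.nd (nat_lit 390) (nat_lit 0) (nat_lit 0) (XT.nd (nat_lit 156) (nat_lit 0) (nat_lit 0) (XT.nd (nat_lit 78) (nat_lit 0) (nat_lit 0) (XT.lf (nat_lit 0) (nat_lit 255892211189) (nat_lit 152) (nat_lit 451388836882) (nat_lit 0) (nat_lit 240094637801) (nat_lit 2) (nat_lit 5) (nat_lit 4) (nat_lit 4) (nat_lit 2) (nat_lit 4) (nat_lit 350) (nat_lit 307) (nat_lit 243)) (XT.lf (nat_lit 0) (nat_lit 331016359281) (nat_lit 152) (nat_lit 437374045102) (nat_lit 0) (nat_lit 315218517125) (nat_lit 2) (nat_lit 5) (nat_lit 4) (nat_lit 4) (nat_lit 2) (nat_lit 4) (nat_lit 351) (nat_lit 307) (nat_lit 242))) (XT.nd (nat_lit 78) (nat_lit 0) (nat_lit 0) (XT.lf (nat_lit 0) (nat_lit 417407886055) (nat_lit 152) (nat_lit 421259632987) (nat_lit 0) (nat_lit 401609810187) (nat_lit 2) (nat_lit 5) (nat_lit 4) (nat_lit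 4) (nat_lit 2) (nat_lit 4) (nat_lit 352) (nat_lit 307) (nat_lit 241)) (XT.nd (nat_lit 78) (nat_lit 0) (nat_lit 0) (XT.lf (nat_lit 0) (nat_lit 516757060513) (nat_lit 152) (nat_lit 402730318561) (nat_lit 0) (nat_lit 500958781417) (nat_lit 2) (nat_lit 5) (nat_lit 4) (nat_lit 4) (nat_lit 2) (nat_lit 4) (nat_lit 353) (nat_lit 307) (nat_lit 240)) (XT.lf (nat_lit 0) (nat_lit 631007670850) (nat_lit 152) (nat_lit 381423571758) (nat_lit 0) (nat_lit 615209215035) (nat_lit 2) (nat_lit 5) (nat_lit 4) (nat_lit 4) (nat_lit 2) (nat_lit 4) (nat_lit 354) (nat_lit 307) (nat_lit 239))))) (XT.nd (nat_lit 234) (nat_lit 0) (nat_lit 0) (XT.nd (nat_lit 78) (nat_lit 0) (nat_lit 0) (XT.lf (nat_lit 0) (nat_lit 762395055095) (nat_lit 152) (nat_lit 356922521446) (nat_lit 0) (nat_lit 746596445610) (nat_lit 2) (nat_lit 5) (nat_lit 4) (nat_lit 4) (nat_lit 2) (nat_lit 4) (nat_lit 355) (nat_lit 307) (nat_lit 238)) (XT.nd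 (nat_lit 78) (nat_lit 0) (nat_lit 0) (XT.lf (nat_lit 0) (nat_lit 913489835983) (nat_lit 152) (nat_lit 328747799249) (nat_lit 0) (nat_lit 897691092873) (nat_lit 2) (nat_lit 5) (nat_lit 4) (nat_lit 4) (nat_lit 2) (nat_lit 4) (nat_lit 356) (nat_lit 307) (nat_lit 237)) (XT.lf (nat_lit 0) (nat_lit 1087248215748) (nat_lit 152) (nat_lit 296348160602) (nat_lit 0) (nat_lit 1071449356442) (nat_lit 2) (nat_lit 5) (nat_lit 4) (nat_lit 4) (nat_lit 2) (nat_lit 4) (nat_lit 357) (nat_lit 307) (nat_lit 236)))) (XT.nd (nat_lit 78) (nat_lit 0) (nat_lit 0) (XT.lf (nat_lit 0) (nat_lit 1287069814866) (nat_lit 152) (nat_lit 259089699532) (nat_lit 0) (nat_lit 1271270854519) (nat_lit 2) (nat_lit 5) (nat_lit 4) (nat_lit 4) (nat_lit 2) (nat_lit 4) (nat_lit 358) (nat_lit 307) (nat_lit 235)) (XT.nd (nat_lit 78) (nat_lit 0) (nat_lit 0) (XT.lf (nat_lit 0) (nat_lit 1516864186361) (nat_lit 152) (nat_lit 216243446148)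 (nat_lit 0) (nat_lit 1501065138154) (nat_lit 2) (nat_lit 5) (nat_lit 4) (nat_lit 4) (nat_lit 2) (nat_lit 4) (nat_lit 359) (nat_lit 307) (nat_lit 234)) (XT.lf (nat_lit 0) (nat_lit 1781127307067) (nat_lit 152) (nat_lit 166971104188) (nat_lit 0) (nat_lit 1765328182459) (nat_lit 2) (nat_lit 5) (nat_lit 4) (nat_lit 4) (nat_lit 2) (nat_lit 4) (nat_lit 360) (nat_lit 307) (nat_lit 233))))))) (XT.nd (nat_lit 858) (nat_lit 0) (nat_lit 0) (XT.nd (nat_lit 390) (nat_lit 0) (nat_lit 0) (XT.nd (nat_lit 156) (nat_lit 76) (nat_lit 0) (XT.nd (nat_lit 78) (nat_lit 0) (nat_lit 0) (XT.lf (nat_lit 0) (nat_lit 2085029542390) (nat_lit 152) (nat_lit 110308649571) (nat_lit 0) (nat_lit 2069230351346) (nat_lit 2) (nat_lit 5) (nat_lit 4) (nat_lit 4) (nat_lit 2) (nat_lit 4) (nat_lit 361) (nat_lit 307) (nat_lit 232)) (XT.lf (nat_lit 0) (nat_lit 2434516805629) (nat_lit 152) (nat_lit 45147469054) (nat_lit 0) (nat_lit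 2418717556815) (nat_lit 2) (nat_lit 5) (nat_lit 4) (nat_lit 4) (nat_lit 2) (nat_lit 4) (nat_lit 362) (nat_lit 307) (nat_lit 231))) (XT.nd (nat_lit 78) (nat_lit 0) (nat_lit 0) (XT.lf (nat_lit 0) (nat_lit 32698364550) (nat_lit 76) (nat_lit 2805082496061) (nat_lit 76) (nat_lit 2789283197013) (nat_lit 1) (nat_lit 4) (nat_lit 2) (nat_lit 5) (nat_lit 2) (nat_lit 4) (nat_lit 363) (nat_lit 307) (nat_lit 230)) (XT.nd (nat_lit 78) (nat_lit 0) (nat_lit 0) (XT.lf (nat_lit 0) (nat_lit 127294499942) (nat_lit 76) (nat_lit 3176599750736) (nat_lit 76) (nat_lit 3160800408005) (nat_lit 1) (nat_lit 4) (nat_lit 2) (nat_lit 5) (nat_lit 2) (nat_lit 4) (nat_lit 364) (nat_lit 307) (nat_lit 229)) (XT.lf (nat_lit 0) (nat_lit 236079592052) (nat_lit 76) (nat_lit 3603844835896) (nat_lit 76) (nat_lit 3588045455181) (nat_lit 1) (nat_lit 4) (nat_lit 2) (nat_lit 5) (nat_lit 2) (nat_lit 4) (nat_lit 365) (nat_lit 307) (nat_lit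 228))))) (XT.nd (nat_lit 234) (nat_lit 0) (nat_lit 0) (XT.nd (nat_lit 78) (nat_lit 0) (nat_lit 0) (XT.lf (nat_lit 0) (nat_lit 361182044858) (nat_lit 76) (nat_lit 4095176894513) (nat_lit 76) (nat_lit 4079377480767) (nat_lit 1) (nat_lit 4) (nat_lit 2) (nat_lit 5) (nat_lit 2) (nat_lit 4) (nat_lit 366) (nat_lit 307) (nat_lit 227)) (XT.nd (nat_lit 78) (nat_lit 0) (nat_lit 0) (XT.lf (nat_lit 0) (nat_lit 505049515044) (nat_lit 76) (nat_lit 4660208945124) (nat_lit 76) (nat_lit 4644409502657) (nat_lit 1) (nat_lit 4) (nat_lit 2) (nat_lit 5) (nat_lit 2) (nat_lit 4) (nat_lit 367) (nat_lit 307) (nat_lit 226)) (XT.lf (nat_lit 0) (nat_lit 670496800941) (nat_lit 76) (nat_lit 5309995962634) (nat_lit 76) (nat_lit 5294196495190) (nat_lit 1) (nat_lit 4) (nat_lit 2) (nat_lit 5) (nat_lit 2) (nat_lit 4) (nat_lit 368) (nat_lit 307) (nat_lit 225)))) (XT.nd (nat_lit 78) (nat_lit 0) (nat_lit 0) (XT.lf (nat_lit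 0) (nat_lit 860760914662) (nat_lit 76) (nat_lit 6057251171296) (nat_lit 76) (nat_lit 6041451682135) (nat_lit 1) (nat_lit 4) (nat_lit 2) (nat_lit 5) (nat_lit 2) (nat_lit 4) (nat_lit 369) (nat_lit 307) (nat_lit 224)) (XT.nd (nat_lit 78) (nat_lit 0) (nat_lit 0) (XT.lf (nat_lit 0) (nat_lit 1079564414956) (nat_lit 76) (nat_lit 6916594781717) (nat_lit 76) (nat_lit 6900795273671) (nat_lit 1) (nat_lit 4) (nat_lit 2) (nat_lit 5) (nat_lit 2) (nat_lit 4) (nat_lit 370) (nat_lit 307) (nat_lit 223)) (XT.lf (nat_lit 0) (nat_lit 1331188239872) (nat_lit 76) (nat_lit 7904840038447) (nat_lit 76) (nat_lit 7889040513979) (nat_lit 1) (nat_lit 4) (nat_lit 2) (nat_lit 5) (nat_lit 2) (nat_lit 4) (nat_lit 371) (nat_lit 307) (nat_lit 222)))))) (XT.nd (nat_lit 390) (nat_lit 0) (nat_lit 0) (XT.nd (nat_lit 156) (nat_lit 0) (nat_lit 0) (XT.nd (nat_lit 78) (nat_lit 0) (nat_lit 0) (XT.lf (nat_lit 0) (nat_lit 1620555464244)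 (nat_lit 76) (nat_lit 9041322174770) (nat_lit 76) (nat_lit 9025522636022) (nat_lit 1) (nat_lit 4) (nat_lit 2) (nat_lit 5) (nat_lit 2) (nat_lit 4) (nat_lit 372) (nat_lit 307) (nat_lit 221)) (XT.lf (nat_lit 0) (nat_lit 1953327620724) (nat_lit 76) (nat_lit 10348276710745) (nat_lit 76) (nat_lit 10332477159580) (nat_lit 1) (nat_lit 4) (nat_lit 2) (nat_lit 5) (nat_lit 2) (nat_lit 4) (nat_lit 373) (nat_lit 307) (nat_lit 220))) (XT.nd (nat_lit 78) (nat_lit 0) (nat_lit 0) (XT.lf (nat_lit 0) (nat_lit 2336015468894) (nat_lit 76) (nat_lit 11851274495988) (nat_lit 76) (nat_lit 11835474934026) (nat_lit 1) (nat_lit 4) (nat_lit 2) (nat_lit 5) (nat_lit 2) (nat_lit 4) (nat_lit 374) (nat_lit 307) (nat_lit 219)) (XT.nd (nat_lit 78) (nat_lit 0) (nat_lit 0) (XT.lf (nat_lit 0) (nat_lit 2776106379698) (nat_lit 76) (nat_lit 13579722008908) (nat_lit 76) (nat_lit 13563922437556) (nat_lit 1) (nat_lit 4) (nat_lit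 2) (nat_lit 5) (nat_lit 2) (nat_lit 4) (nat_lit 375) (nat_lit 307) (nat_lit 218)) (XT.lf (nat_lit 0) (nat_lit 3282210827477) (nat_lit 76) (nat_lit 15567436700842) (nat_lit 76) (nat_lit 15551637121326) (nat_lit 1) (nat_lit 4) (nat_lit 2) (nat_lit 5) (nat_lit 2) (nat_lit 4) (nat_lit 376) (nat_lit 307) (nat_lit 217))))) (XT.nd (nat_lit 234) (nat_lit 0) (nat_lit 0) (XT.nd (nat_lit 78) (nat_lit 0) (nat_lit 0) (XT.lf (nat_lit 0) (nat_lit 3864230855775) (nat_lit 76) (nat_lit 17853308641852) (nat_lit 76) (nat_lit 17837509055236) (nat_lit 1) (nat_lit 4) (nat_lit 2) (nat_lit 5) (nat_lit 2) (nat_lit 4) (nat_lit 377) (nat_lit 307) (nat_lit 216)) (XT.nd (nat_lit 78) (nat_lit 0) (nat_lit 0) (XT.lf (nat_lit 0) (nat_lit 4533553812971) (nat_lit 76) (nat_lit 20482061413391) (nat_lit 76) (nat_lit 20466261820601) (nat_lit 1) (nat_lit 4) (nat_lit 2) (nat_lit 5) (nat_lit 2) (nat_lit 4) (nat_lit 378) (nat_lit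 307) (nat_lit 215)) (XT.lf (nat_lit 0) (nat_lit 5303275148227) (nat_lit 76) (nat_lit 23505127134902) (nat_lit 76) (nat_lit 23489327536744) (nat_lit 1) (nat_lit 4) (nat_lit 2) (nat_lit 5) (nat_lit 2) (nat_lit 4) (nat_lit 379) (nat_lit 307) (nat_lit 214)))) (XT.nd (nat_lit 78) (nat_lit 0) (nat_lit 0) (XT.lf (nat_lit 0) (nat_lit 6188454626800) (nat_lit 76) (nat_lit 26981652744416) (nat_lit 76) (nat_lit 26965853141590) (nat_lit 1) (nat_lit 4) (nat_lit 2) (nat_lit 5) (nat_lit 2) (nat_lit 4) (nat_lit 380) (nat_lit 307) (nat_lit 213)) (XT.nd (nat_lit 78) (nat_lit 0) (nat_lit 0) (XT.lf (nat_lit 0) (nat_lit 7206410977617) (nat_lit 76) (nat_lit 30979657221249) (nat_lit 76) (nat_lit 30963857614364) (nat_lit 1) (nat_lit 4) (nat_lit 2) (nat_lit 5) (nat_lit 2) (nat_lit 4) (nat_lit 381) (nat_lit 307) (nat_lit 212)) (XT.lf (nat_lit 0) (nat_lit 8377060737977) (nat_lit 76) (nat_lit 35577362392121) (nat_lit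 76) (nat_lit 35561562781706) (nat_lit 1) (nat_lit 4) (nat_lit 2) (nat_lit 5) (nat_lit 2) (nat_lit 4) (nat_lit 382) (nat_lit 307) (nat_lit 211))))))))
noncomputable def xc63 : XT := (XT.nd (nat_lit 41964) (nat_lit 0) (nat_lit 228) (XT.nd (nat_lit 41106) (nat_lit 0) (nat_lit 1292) (XT.nd (nat_lit 390) (nat_lit 0) (nat_lit 0) (XT.nd (nat_lit 156) (nat_lit 0) (nat_lit 0) (XT.nd (nat_lit 78) (nat_lit 0) (nat_lit 0) (XT.lf (nat_lit 0) (nat_lit 9723307924931) (nat_lit 76) (nat_lit 40864723358202) (nat_lit 76) (nat_lit 40848923744717) (nat_lit 1) (nat_lit 4) (nat_lit 2) (nat_lit 5) (nat_lit 2) (nat_lit 4) (nat_lit 383) (nat_lit 307) (nat_lit 210)) (XT.lf (nat_lit 0) (nat_lit 11271492157354) (nat_lit 76) (nat_lit 46945188486219) (nat_lit 76) (nat_lit 46929388870065) (nat_lit 1) (nat_lit 4) (nat_lit 2) (nat_lit 5) (nat_lit 2) (nat_lit 4) (nat_lit 384) (nat_lit 307) (nat_lit 209))) (XT.nd (nat_lit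 78) (nat_lit 0) (nat_lit 0) (XT.lf (nat_lit 0) (nat_lit 13051903996314) (nat_lit 76) (nat_lit 53937723398242) (nat_lit 76) (nat_lit 53921923779767) (nat_lit 1) (nat_lit 4) (nat_lit 2) (nat_lit 5) (nat_lit 2) (nat_lit 4) (nat_lit 385) (nat_lit 307) (nat_lit 208)) (XT.nd (nat_lit 78) (nat_lit 0) (nat_lit 0) (XT.lf (nat_lit 0) (nat_lit 15099377586488) (nat_lit 76) (nat_lit 61979138559941) (nat_lit 76) (nat_lit 61963338939449) (nat_lit 1) (nat_lit 4) (nat_lit 2) (nat_lit 5) (nat_lit 2) (nat_lit 4) (nat_lit 386) (nat_lit 307) (nat_lit 207)) (XT.lf (nat_lit 0) (nat_lit 17453972193770) (nat_lit 76) (nat_lit 71226766007090) (nat_lit 76) (nat_lit 71210966384842) (nat_lit 1) (nat_lit 4) (nat_lit 2) (nat_lit 5) (nat_lit 2) (nat_lit 4) (nat_lit 387) (nat_lit 307) (nat_lit 206))))) (XT.nd (nat_lit 780) (nat_lit 0) (nat_lit 0) (XT.nd (nat_lit 624) (nat_lit 0) (nat_lit 0) (XT.lf (nat_lit 0) (nat_lit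 20161755973519) (nat_lit 76) (nat_lit 81861537581043) (nat_lit 76) (nat_lit 81845737957270) (nat_lit 1) (nat_lit 4) (nat_lit 2) (nat_lit 5) (nat_lit 2) (nat_lit 4) (nat_lit 388) (nat_lit 307) (nat_lit 205)) (XT.nd (nat_lit 78) (nat_lit 0) (nat_lit 0) (XT.lf (nat_lit 0) (nat_lit 62906402092455) (nat_lit 76) (nat_lit 249740361121717) (nat_lit 76) (nat_lit 249724561491096) (nat_lit 1) (nat_lit 4) (nat_lit 2) (nat_lit 5) (nat_lit 2) (nat_lit 4) (nat_lit 396) (nat_lit 307) (nat_lit 197)) (XT.lf (nat_lit 0) (nat_lit 72432050268138) (nat_lit 76) (nat_lit 287152172009310) (nat_lit 76) (nat_lit 287136372378254) (nat_lit 1) (nat_lit 4) (nat_lit 2) (nat_lit 5) (nat_lit 2) (nat_lit 4) (nat_lit 397) (nat_lit 307) (nat_lit 196)))) (XT.nd (nat_lit 78) (nat_lit 0) (nat_lit 0) (XT.lf (nat_lit 0) (nat_lit 83386545665572) (nat_lit 76) (nat_lit 330175754532448) (nat_lit 76) (nat_lit 330159954901015) (nat_lit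 1) (nat_lit 4) (nat_lit 2) (nat_lit 5) (nat_lit 2) (nat_lit 4) (nat_lit 398) (nat_lit 307) (nat_lit 195)) (XT.nd (nat_lit 39780) (nat_lit 0) (nat_lit 1900) (XT.lf (nat_lit 0) (nat_lit 95984215368616) (nat_lit 76) (nat_lit 379652874436148) (nat_lit 76) (nat_lit 379637074804387) (nat_lit 1) (nat_lit 4) (nat_lit 2) (nat_lit 5) (nat_lit 2) (nat_lit 4) (nat_lit 399) (nat_lit 307) (nat_lit 194)) (XT.lf (nat_lit 0) (nat_lit 441995562) (nat_lit 380) (nat_lit 2957232928) (nat_lit 380) (nat_lit 2957232928) (nat_lit 26) (nat_lit 3) (nat_lit 31) (nat_lit 3) (nat_lit 31) (nat_lit 5) (nat_lit 308) (nat_lit 308) (nat_lit 284)))))) (XT.nd (nat_lit 390) (nat_lit 456) (nat_lit 0) (XT.nd (nat_lit 156) (nat_lit 152) (nat_lit 0) (XT.nd (nat_lit 78) (nat_lit 0) (nat_lit 76) (XT.lf (nat_lit 76) (nat_lit 225752484) (nat_lit 0) (nat_lit 1122385488) (nat_lit 380) (nat_lit 12257739986) (nat_lit 27) (nat_lit 5)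 (nat_lit 26) (nat_lit 3) (nat_lit 31) (nat_lit 5) (nat_lit 309) (nat_lit 308) (nat_lit 283)) (XT.lf (nat_lit 0) (nat_lit 2359750619) (nat_lit 304) (nat_lit 6928897009) (nat_lit 380) (nat_lit 5272601175) (nat_lit 27) (nat_lit 5) (nat_lit 31) (nat_lit 5) (nat_lit 32) (nat_lit 5) (nat_lit 310) (nat_lit 308) (nat_lit 282))) (XT.nd (nat_lit 78) (nat_lit 228) (nat_lit 0) (XT.lf (nat_lit 76) (nat_lit 426095211) (nat_lit 0) (nat_lit 3107355206) (nat_lit 380) (nat_lit 12125052658) (nat_lit 28) (nat_lit 5) (nat_lit 27) (nat_lit 5) (nat_lit 32) (nat_lit 5) (nat_lit 311) (nat_lit 308) (nat_lit 281)) (XT.nd (nat_lit 78) (nat_lit 304) (nat_lit 0) (XT.lf (nat_lit 0) (nat_lit 5373940823) (nat_lit 304) (nat_lit 7440775708) (nat_lit 76) (nat_lit 4032131294) (nat_lit 28) (nat_lit 5) (nat_lit 32) (nat_lit 5) (nat_lit 29) (nat_lit 5) (nat_lit 312) (nat_lit 308) (nat_lit 280)) (XT.lf (nat_lit 0) (nat_lit 1453289207)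 (nat_lit 304) (nat_lit 6198073559) (nat_lit 380) (nat_lit 10538050813) (nat_lit 24) (nat_lit 5) (nat_lit 28) (nat_lit 5) (nat_lit 29) (nat_lit 5) (nat_lit 313) (nat_lit 308) (nat_lit 279))))) (XT.nd (nat_lit 234) (nat_lit 304) (nat_lit 0) (XT.nd (nat_lit 78) (nat_lit 152) (nat_lit 0) (XT.lf (nat_lit 0) (nat_lit 10693185613) (nat_lit 380) (nat_lit 7286252891) (nat_lit 76) (nat_lit 1690592757) (nat_lit 24) (nat_lit 5) (nat_lit 29) (nat_lit 5) (nat_lit 25) (nat_lit 5) (nat_lit 314) (nat_lit 308) (nat_lit 278)) (XT.nd (nat_lit 78) (nat_lit 0) (nat_lit 0) (XT.lf (nat_lit 0) (nat_lit 3557457090) (nat_lit 152) (nat_lit 11038788590) (nat_lit 228) (nat_lit 6715825436) (nat_lit 22) (nat_lit 5) (nat_lit 24) (nat_lit 5) (nat_lit 25) (nat_lit 5) (nat_lit 315) (nat_lit 308) (nat_lit 277)) (XT.lf (nat_lit 0) (nat_lit 16803448530) (nat_lit 152) (nat_lit 2627802396) (nat_lit 228) (nat_lit 3717257527)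 (nat_lit 22) (nat_lit 5) (nat_lit 24) (nat_lit 5) (nat_lit 25) (nat_lit 5) (nat_lit 316) (nat_lit 308) (nat_lit 276)))) (XT.nd (nat_lit 78) (nat_lit 152) (nat_lit 0) (XT.lf (nat_lit 0) (nat_lit 335715484) (nat_lit 152) (nat_lit 18120504163) (nat_lit 76) (nat_lit 6718808646) (nat_lit 20) (nat_lit 5) (nat_lit 22) (nat_lit 5) (nat_lit 21) (nat_lit 5) (nat_lit 317) (nat_lit 308) (nat_lit 275)) (XT.nd (nat_lit 78) (nat_lit 152) (nat_lit 0) (XT.lf (nat_lit 0) (nat_lit 5059359549) (nat_lit 152) (nat_lit 4639326634) (nat_lit 76) (nat_lit 17713835230) (nat_lit 20) (nat_lit 5) (nat_lit 22) (nat_lit 5) (nat_lit 21) (nat_lit 5) (nat_lit 318) (nat_lit 308) (nat_lit 274)) (XT.lf (nat_lit 0) (nat_lit 10996575541) (nat_lit 228) (nat_lit 18069124425) (nat_lit 76) (nat_lit 844221572) (nat_lit 18) (nat_lit 5) (nat_lit 21) (nat_lit 5) (nat_lit 19) (nat_lit 4) (nat_lit 319) (nat_lit 308) (nat_lit 273)))))))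 (XT.nd (nat_lit 858) (nat_lit 456) (nat_lit 0) (XT.nd (nat_lit 390) (nat_lit 304) (nat_lit 0) (XT.nd (nat_lit 156) (nat_lit 228) (nat_lit 0) (XT.nd (nat_lit 78) (nat_lit 76) (nat_lit 0) (XT.lf (nat_lit 0) (nat_lit 18516159001) (nat_lit 228) (nat_lit 1943182407) (nat_lit 76) (nat_lit 12218854546) (nat_lit 18) (nat_lit 5) (nat_lit 21) (nat_lit 5) (nat_lit 19) (nat_lit 4) (nat_lit 320) (nat_lit 308) (nat_lit 272)) (XT.lf (nat_lit 0) (nat_lit 18187264889) (nat_lit 76) (nat_lit 9708540952) (nat_lit 152) (nat_lit 7856114667) (nat_lit 17) (nat_lit 5) (nat_lit 18) (nat_lit 5) (nat_lit 19) (nat_lit 4) (nat_lit 321) (nat_lit 308) (nat_lit 271))) (XT.nd (nat_lit 78) (nat_lit 152) (nat_lit 0) (XT.lf (nat_lit 0) (nat_lit 2343613991) (nat_lit 76) (nat_lit 36632098678) (nat_lit 76) (nat_lit 267018352) (nat_lit 16) (nat_lit 4) (nat_lit 17) (nat_lit 5) (nat_lit 17) (nat_lit 4) (nat_lit 322) (nat_lit 308)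 (nat_lit 270)) (XT.nd (nat_lit 78) (nat_lit 76) (nat_lit 0) (XT.lf (nat_lit 0) (nat_lit 9111685663) (nat_lit 152) (nat_lit 16798490896) (nat_lit 76) (nat_lit 17083787983) (nat_lit 15) (nat_lit 5) (nat_lit 17) (nat_lit 5) (nat_lit 16) (nat_lit 4) (nat_lit 323) (nat_lit 308) (nat_lit 269)) (XT.lf (nat_lit 0) (nat_lit 6887380046) (nat_lit 76) (nat_lit 13250508380) (nat_lit 152) (nat_lit 27127898706) (nat_lit 14) (nat_lit 5) (nat_lit 15) (nat_lit 5) (nat_lit 16) (nat_lit 4) (nat_lit 324) (nat_lit 308) (nat_lit 268))))) (XT.nd (nat_lit 234) (nat_lit 152) (nat_lit 0) (XT.nd (nat_lit 78) (nat_lit 152) (nat_lit 0) (XT.lf (nat_lit 0) (nat_lit 33775454962) (nat_lit 152) (nat_lit 16159416140) (nat_lit 0) (nat_lit 2099910855) (nat_lit 14) (nat_lit 5) (nat_lit 16) (nat_lit 4) (nat_lit 14) (nat_lit 4) (nat_lit 325) (nat_lit 308) (nat_lit 267)) (XT.nd (nat_lit 78) (nat_lit 76) (nat_lit 0) (XT.lf (nat_lit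 0) (nat_lit 12113031911) (nat_lit 76) (nat_lit 38463697672) (nat_lit 76) (nat_lit 6774697496) (nat_lit 13) (nat_lit 4) (nat_lit 14) (nat_lit 5) (nat_lit 14) (nat_lit 4) (nat_lit 326) (nat_lit 308) (nat_lit 266)) (XT.lf (nat_lit 0) (nat_lit 6730561299) (nat_lit 152) (nat_lit 17229994310) (nat_lit 76) (nat_lit 39334476502) (nat_lit 12) (nat_lit 5) (nat_lit 14) (nat_lit 5) (nat_lit 13) (nat_lit 4) (nat_lit 327) (nat_lit 308) (nat_lit 265)))) (XT.nd (nat_lit 78) (nat_lit 76) (nat_lit 0) (XT.lf (nat_lit 0) (nat_lit 16063693510) (nat_lit 76) (nat_lit 6157036413) (nat_lit 152) (nat_lit 47763157048) (nat_lit 11) (nat_lit 5) (nat_lit 12) (nat_lit 5) (nat_lit 13) (nat_lit 4) (nat_lit 328) (nat_lit 308) (nat_lit 264)) (XT.nd (nat_lit 78) (nat_lit 76) (nat_lit 0) (XT.lf (nat_lit 0) (nat_lit 41558619751) (nat_lit 152) (nat_lit 21912576238) (nat_lit 0) (nat_lit 13976251569) (nat_lit 11) (nat_lit 5)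 (nat_lit 13) (nat_lit 4) (nat_lit 11) (nat_lit 4) (nat_lit 329) (nat_lit 308) (nat_lit 263)) (XT.lf (nat_lit 0) (nat_lit 16007450024) (nat_lit 76) (nat_lit 48735171105) (nat_lit 76) (nat_lit 21146112879) (nat_lit 10) (nat_lit 4) (nat_lit 11) (nat_lit 5) (nat_lit 11) (nat_lit 4) (nat_lit 330) (nat_lit 308) (nat_lit 262)))))) (XT.nd (nat_lit 390) (nat_lit 228) (nat_lit 0) (XT.nd (nat_lit 156) (nat_lit 76) (nat_lit 0) (XT.nd (nat_lit 78) (nat_lit 152) (nat_lit 0) (XT.lf (nat_lit 0) (nat_lit 62058457725) (nat_lit 76) (nat_lit 30481163401) (nat_lit 76) (nat_lit 2886287745) (nat_lit 10) (nat_lit 4) (nat_lit 11) (nat_lit 5) (nat_lit 11) (nat_lit 4) (nat_lit 331) (nat_lit 308) (nat_lit 261)) (XT.lf (nat_lit 0) (nat_lit 8623120482) (nat_lit 76) (nat_lit 8224811969) (nat_lit 152) (nat_lit 89381043035) (nat_lit 8) (nat_lit 5) (nat_lit 9) (nat_lit 5) (nat_lit 10) (nat_lit 4) (nat_lit 332) (nat_lit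 308) (nat_lit 260))) (XT.nd (nat_lit 78) (nat_lit 76) (nat_lit 0) (XT.lf (nat_lit 0) (nat_lit 41784287861) (nat_lit 152) (nat_lit 58686455911) (nat_lit 0) (nat_lit 17780519945) (nat_lit 8) (nat_lit 5) (nat_lit 10) (nat_lit 4) (nat_lit 8) (nat_lit 4) (nat_lit 333) (nat_lit 308) (nat_lit 259)) (XT.nd (nat_lit 78) (nat_lit 76) (nat_lit 0) (XT.lf (nat_lit 0) (nat_lit 70844913905) (nat_lit 152) (nat_lit 14336591800) (nat_lit 0) (nat_lit 46837819855) (nat_lit 8) (nat_lit 5) (nat_lit 10) (nat_lit 4) (nat_lit 8) (nat_lit 4) (nat_lit 334) (nat_lit 308) (nat_lit 258)) (XT.lf (nat_lit 0) (nat_lit 40233926326) (nat_lit 76) (nat_lit 65689890889) (nat_lit 76) (nat_lit 41679904548) (nat_lit 7) (nat_lit 4) (nat_lit 8) (nat_lit 5) (nat_lit 8) (nat_lit 4) (nat_lit 335) (nat_lit 308) (nat_lit 257))))) (XT.nd (nat_lit 234) (nat_lit 76) (nat_lit 0) (XT.nd (nat_lit 78) (nat_lit 152) (nat_lit 0) (XT.lf (nat_lit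 0) (nat_lit 104588155646) (nat_lit 76) (nat_lit 42419342062) (nat_lit 76) (nat_lit 18406840686) (nat_lit 7) (nat_lit 4) (nat_lit 8) (nat_lit 5) (nat_lit 8) (nat_lit 4) (nat_lit 336) (nat_lit 308) (nat_lit 256)) (XT.nd (nat_lit 78) (nat_lit 76) (nat_lit 0) (XT.lf (nat_lit 0) (nat_lit 7607271804) (nat_lit 152) (nat_lit 7659053984) (nat_lit 76) (nat_lit 170579199980) (nat_lit 6) (nat_lit 5) (nat_lit 8) (nat_lit 5) (nat_lit 7) (nat_lit 4) (nat_lit 337) (nat_lit 308) (nat_lit 255)) (XT.lf (nat_lit 0) (nat_lit 38840820303) (nat_lit 152) (nat_lit 151931991720) (nat_lit 0) (nat_lit 17956828919) (nat_lit 5) (nat_lit 5) (nat_lit 7) (nat_lit 4) (nat_lit 5) (nat_lit 4) (nat_lit 338) (nat_lit 308) (nat_lit 254)))) (XT.nd (nat_lit 78) (nat_lit 76) (nat_lit 0) (XT.lf (nat_lit 0) (nat_lit 75900713227) (nat_lit 152) (nat_lit 103959180766) (nat_lit 0) (nat_lit 55015283863) (nat_lit 5) (nat_lit 5) (nat_lit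 7) (nat_lit 4) (nat_lit 5) (nat_lit 4) (nat_lit 339) (nat_lit 308) (nat_lit 253)) (XT.nd (nat_lit 78) (nat_lit 76) (nat_lit 0) (XT.lf (nat_lit 0) (nat_lit 118515172584) (nat_lit 152) (nat_lit 48799543665) (nat_lit 0) (nat_lit 97628492803) (nat_lit 5) (nat_lit 5) (nat_lit 7) (nat_lit 4) (nat_lit 5) (nat_lit 4) (nat_lit 340) (nat_lit 308) (nat_lit 252)) (XT.lf (nat_lit 0) (nat_lit 16055501659) (nat_lit 76) (nat_lit 152127281963) (nat_lit 76) (nat_lit 131239514863) (nat_lit 4) (nat_lit 4) (nat_lit 5) (nat_lit 5) (nat_lit 5) (nat_lit 4) (nat_lit 341) (nat_lit 308) (nat_lit 251))))))))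
noncomputable def xc64 : XT := (XT.nd (nat_lit 1638) (nat_lit 76) (nat_lit 0) (XT.nd (nat_lit 780) (nat_lit 0) (nat_lit 0) (XT.nd (nat_lit 390) (nat_lit 76) (nat_lit 0) (XT.nd (nat_lit 156) (nat_lit 76) (nat_lit 0) (XT.nd (nat_lit 78) (nat_lit 0) (nat_lit 0) (XT.lf (nat_lit 0) (nat_lit 96115657422) (nat_lit 76) (nat_lit 131732111248) (nat_lit 76) (nat_lit 110843398653) (nat_lit 4) (nat_lit 4) (nat_lit 5) (nat_lit 5) (nat_lit 5) (nat_lit 4) (nat_lit 342) (nat_lit 308) (nat_lit 250)) (XT.lf (nat_lit 0) (nat_lit 188178271663) (nat_lit 76) (nat_lit 108281053395) (nat_lit 76) (nat_lit 87391518631) (nat_lit 4) (nat_lit 4) (nat_lit 5) (nat_lit 5) (nat_lit 5) (nat_lit 4) (nat_lit 343) (nat_lit 308) (nat_lit 249))) (XT.nd (nat_lit 78) (nat_lit 76) (nat_lit 0) (XT.lf (nat_lit 0) (nat_lit 294044569442) (nat_lit 76) (nat_lit 81315283358) (nat_lit 76) (nat_lit 60425033663) (nat_lit 4) (nat_lit 4)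 (nat_lit 5) (nat_lit 5) (nat_lit 5) (nat_lit 4) (nat_lit 344) (nat_lit 308) (nat_lit 248)) (XT.nd (nat_lit 78) (nat_lit 76) (nat_lit 0) (XT.lf (nat_lit 0) (nat_lit 415785847890) (nat_lit 76) (nat_lit 50307209983) (nat_lit 76) (nat_lit 29416338610) (nat_lit 4) (nat_lit 4) (nat_lit 5) (nat_lit 5) (nat_lit 5) (nat_lit 4) (nat_lit 345) (nat_lit 308) (nat_lit 247)) (XT.lf (nat_lit 0) (nat_lit 5685618406) (nat_lit 152) (nat_lit 8667332388) (nat_lit 76) (nat_lit 549801180400) (nat_lit 3) (nat_lit 5) (nat_lit 5) (nat_lit 5) (nat_lit 4) (nat_lit 4) (nat_lit 346) (nat_lit 308) (nat_lit 246))))) (XT.nd (nat_lit 156) (nat_lit 0) (nat_lit 0) (XT.nd (nat_lit 78) (nat_lit 0) (nat_lit 0) (XT.lf (nat_lit 0) (nat_lit 47635247394) (nat_lit 152) (nat_lit 565092711256) (nat_lit 0) (nat_lit 29468393445) (nat_lit 2) (nat_lit 5) (nat_lit 4) (nat_lit 4) (nat_lit 2) (nat_lit 4) (nat_lit 347) (nat_lit 308) (nat_lit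 245)) (XT.lf (nat_lit 0) (nat_lit 97033542951) (nat_lit 152) (nat_lit 555871596610) (nat_lit 0) (nat_lit 78866333556) (nat_lit 2) (nat_lit 5) (nat_lit 4) (nat_lit 4) (nat_lit 2) (nat_lit 4) (nat_lit 348) (nat_lit 308) (nat_lit 244))) (XT.nd (nat_lit 78) (nat_lit 0) (nat_lit 0) (XT.lf (nat_lit 0) (nat_lit 153839938270) (nat_lit 152) (nat_lit 545270751193) (nat_lit 0) (nat_lit 135672419790) (nat_lit 2) (nat_lit 5) (nat_lit 4) (nat_lit 4) (nat_lit 2) (nat_lit 4) (nat_lit 349) (nat_lit 308) (nat_lit 243)) (XT.nd (nat_lit 78) (nat_lit 0) (nat_lit 0) (XT.lf (nat_lit 0) (nat_lit 219165862824) (nat_lit 152) (nat_lit 533082767159) (nat_lit 0) (nat_lit 200998075576) (nat_lit 2) (nat_lit 5) (nat_lit 4) (nat_lit 4) (nat_lit 2) (nat_lit 4) (nat_lit 350) (nat_lit 308) (nat_lit 242)) (XT.lf (nat_lit 0) (nat_lit 294289432529) (nat_lit 152) (nat_lit 519069183952) (nat_lit 0) (nat_lit 276121411570) (nat_lit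 2) (nat_lit 5) (nat_lit 4) (nat_lit 4) (nat_lit 2) (nat_lit 4) (nat_lit 351) (nat_lit 308) (nat_lit 241)))))) (XT.nd (nat_lit 390) (nat_lit 0) (nat_lit 0) (XT.nd (nat_lit 156) (nat_lit 0) (nat_lit 0) (XT.nd (nat_lit 78) (nat_lit 0) (nat_lit 0) (XT.lf (nat_lit 0) (nat_lit 380680456358) (nat_lit 152) (nat_lit 502955822770) (nat_lit 0) (nat_lit 362512232171) (nat_lit 2) (nat_lit 5) (nat_lit 4) (nat_lit 4) (nat_lit 2) (nat_lit 4) (nat_lit 352) (nat_lit 308) (nat_lit 240)) (XT.lf (nat_lit 0) (nat_lit 480029193472) (nat_lit 152) (nat_lit 484427422199) (nat_lit 0) (nat_lit 461860792565) (nat_lit 2) (nat_lit 5) (nat_lit 4) (nat_lit 4) (nat_lit 2) (nat_lit 4) (nat_lit 353) (nat_lit 308) (nat_lit 239))) (XT.nd (nat_lit 78) (nat_lit 0) (nat_lit 0) (XT.lf (nat_lit 0) (nat_lit 594279423510) (nat_lit 152) (nat_lit 463121470052) (nat_lit 0) (nat_lit 576110868933) (nat_lit 2) (nat_lit 5) (nat_lit 4)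 (nat_lit 4) (nat_lit 2) (nat_lit 4) (nat_lit 354) (nat_lit 308) (nat_lit 238)) (XT.nd (nat_lit 78) (nat_lit 0) (nat_lit 0) (XT.lf (nat_lit 0) (nat_lit 725666477060) (nat_lit 152) (nat_lit 438621110746) (nat_lit 0) (nat_lit 707497788858) (nat_lit 2) (nat_lit 5) (nat_lit 4) (nat_lit 4) (nat_lit 2) (nat_lit 4) (nat_lit 355) (nat_lit 308) (nat_lit 237)) (XT.lf (nat_lit 0) (nat_lit 876760970388) (nat_lit 152) (nat_lit 410446989423) (nat_lit 0) (nat_lit 858592165989) (nat_lit 2) (nat_lit 5) (nat_lit 4) (nat_lit 4) (nat_lit 2) (nat_lit 4) (nat_lit 356) (nat_lit 308) (nat_lit 236))))) (XT.nd (nat_lit 234) (nat_lit 0) (nat_lit 0) (XT.nd (nat_lit 78) (nat_lit 0) (nat_lit 0) (XT.lf (nat_lit 0) (nat_lit 1050519100101) (nat_lit 152) (nat_lit 378047873275) (nat_lit 0) (nat_lit 1032350194662) (nat_lit 2) (nat_lit 5) (nat_lit 4) (nat_lit 4) (nat_lit 2) (nat_lit 4) (nat_lit 357) (nat_lit 308) (nat_lit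 235)) (XT.nd (nat_lit 78) (nat_lit 0) (nat_lit 0) (XT.lf (nat_lit 0) (nat_lit 1250340481781) (nat_lit 152) (nat_lit 340789866552) (nat_lit 0) (nat_lit 1232171488482) (nat_lit 2) (nat_lit 5) (nat_lit 4) (nat_lit 4) (nat_lit 2) (nat_lit 4) (nat_lit 358) (nat_lit 308) (nat_lit 234)) (XT.lf (nat_lit 0) (nat_lit 1480134664200) (nat_lit 152) (nat_lit 297944008253) (nat_lit 0) (nat_lit 1461965594500) (nat_lit 2) (nat_lit 5) (nat_lit 4) (nat_lit 4) (nat_lit 2) (nat_lit 4) (nat_lit 359) (nat_lit 308) (nat_lit 233)))) (XT.nd (nat_lit 78) (nat_lit 0) (nat_lit 0) (XT.lf (nat_lit 0) (nat_lit 1744397620493) (nat_lit 152) (nat_lit 248672009845) (nat_lit 0) (nat_lit 1726228484357) (nat_lit 2) (nat_lit 5) (nat_lit 4) (nat_lit 4) (nat_lit 2) (nat_lit 4) (nat_lit 360) (nat_lit 308) (nat_lit 232)) (XT.nd (nat_lit 78) (nat_lit 0) (nat_lit 0) (XT.lf (nat_lit 0) (nat_lit 2048299712847) (nat_lit 152) (nat_lit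 192009853969) (nat_lit 0) (nat_lit 2030130518942) (nat_lit 2) (nat_lit 5) (nat_lit 4) (nat_lit 4) (nat_lit 2) (nat_lit 4) (nat_lit 361) (nat_lit 308) (nat_lit 231)) (XT.lf (nat_lit 0) (nat_lit 2397786851766) (nat_lit 152) (nat_lit 126848933226) (nat_lit 0) (nat_lit 2379617607625) (nat_lit 2) (nat_lit 5) (nat_lit 4) (nat_lit 4) (nat_lit 2) (nat_lit 4) (nat_lit 362) (nat_lit 308) (nat_lit 230))))))) (XT.nd (nat_lit 858) (nat_lit 0) (nat_lit 0) (XT.nd (nat_lit 390) (nat_lit 0) (nat_lit 0) (XT.nd (nat_lit 156) (nat_lit 0) (nat_lit 0) (XT.nd (nat_lit 78) (nat_lit 76) (nat_lit 0) (XT.lf (nat_lit 0) (nat_lit 2799696829097) (nat_lit 152) (nat_lit 51914360037) (nat_lit 0) (nat_lit 2781527541274) (nat_lit 2) (nat_lit 5) (nat_lit 4) (nat_lit 4) (nat_lit 2) (nat_lit 4) (nat_lit 363) (nat_lit 308) (nat_lit 229)) (XT.lf (nat_lit 0) (nat_lit 37608110908) (nat_lit 76) (nat_lit 3225842261684) (nat_lit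 76) (nat_lit 3207672935876) (nat_lit 1) (nat_lit 4) (nat_lit 2) (nat_lit 5) (nat_lit 2) (nat_lit 4) (nat_lit 364) (nat_lit 308) (nat_lit 228))) (XT.nd (nat_lit 78) (nat_lit 0) (nat_lit 0) (XT.lf (nat_lit 0) (nat_lit 146393015521) (nat_lit 76) (nat_lit 3653087444836) (nat_lit 76) (nat_lit 3634918085998) (nat_lit 1) (nat_lit 4) (nat_lit 2) (nat_lit 5) (nat_lit 2) (nat_lit 4) (nat_lit 365) (nat_lit 308) (nat_lit 227)) (XT.nd (nat_lit 78) (nat_lit 0) (nat_lit 0) (XT.lf (nat_lit 0) (nat_lit 271495305284) (nat_lit 76) (nat_lit 4144419588663) (nat_lit 76) (nat_lit 4126250201103) (nat_lit 1) (nat_lit 4) (nat_lit 2) (nat_lit 5) (nat_lit 2) (nat_lit 4) (nat_lit 366) (nat_lit 308) (nat_lit 226)) (XT.lf (nat_lit 0) (nat_lit 415362633695) (nat_lit 76) (nat_lit 4709451713370) (nat_lit 76) (nat_lit 4691282300835) (nat_lit 1) (nat_lit 4) (nat_lit 2) (nat_lit 5) (nat_lit 2) (nat_lit 4) (nat_lit 367) (nat_lit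 308) (nat_lit 225))))) (XT.nd (nat_lit 234) (nat_lit 0) (nat_lit 0) (XT.nd (nat_lit 78) (nat_lit 0) (nat_lit 0) (XT.lf (nat_lit 0) (nat_lit 580809796308) (nat_lit 76) (nat_lit 5359238795311) (nat_lit 76) (nat_lit 5341069361058) (nat_lit 1) (nat_lit 4) (nat_lit 2) (nat_lit 5) (nat_lit 2) (nat_lit 4) (nat_lit 368) (nat_lit 308) (nat_lit 224)) (XT.nd (nat_lit 78) (nat_lit 0) (nat_lit 0) (XT.lf (nat_lit 0) (nat_lit 771073802827) (nat_lit 76) (nat_lit 6106494060001) (nat_lit 76) (nat_lit 6088324606862) (nat_lit 1) (nat_lit 4) (nat_lit 2) (nat_lit 5) (nat_lit 2) (nat_lit 4) (nat_lit 369) (nat_lit 308) (nat_lit 223)) (XT.lf (nat_lit 0) (nat_lit 989877209901) (nat_lit 76) (nat_lit 6965837719140) (nat_lit 76) (nat_lit 6947668249580) (nat_lit 1) (nat_lit 4) (nat_lit 2) (nat_lit 5) (nat_lit 2) (nat_lit 4) (nat_lit 370) (nat_lit 308) (nat_lit 222)))) (XT.nd (nat_lit 78) (nat_lit 0) (nat_lit 0) (XT.lf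 (nat_lit 0) (nat_lit 1241500953756) (nat_lit 76) (nat_lit 7954083018235) (nat_lit 76) (nat_lit 7935913534395) (nat_lit 1) (nat_lit 4) (nat_lit 2) (nat_lit 5) (nat_lit 2) (nat_lit 4) (nat_lit 371) (nat_lit 308) (nat_lit 221)) (XT.nd (nat_lit 78) (nat_lit 0) (nat_lit 0) (XT.lf (nat_lit 0) (nat_lit 1530868107640) (nat_lit 76) (nat_lit 9090565191397) (nat_lit 76) (nat_lit 9072395695140) (nat_lit 1) (nat_lit 4) (nat_lit 2) (nat_lit 5) (nat_lit 2) (nat_lit 4) (nat_lit 372) (nat_lit 308) (nat_lit 220)) (XT.lf (nat_lit 0) (nat_lit 1863640202827) (nat_lit 76) (nat_lit 10397519759405) (nat_lit 76) (nat_lit 10379350252351) (nat_lit 1) (nat_lit 4) (nat_lit 2) (nat_lit 5) (nat_lit 2) (nat_lit 4) (nat_lit 373) (nat_lit 308) (nat_lit 219)))))) (XT.nd (nat_lit 390) (nat_lit 0) (nat_lit 0) (XT.nd (nat_lit 156) (nat_lit 0) (nat_lit 0) (XT.nd (nat_lit 78) (nat_lit 0) (nat_lit 0) (XT.lf (nat_lit 0) (nat_lit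 2246327997698) (nat_lit 76) (nat_lit 11900517572504) (nat_lit 76) (nat_lit 11882348056060) (nat_lit 1) (nat_lit 4) (nat_lit 2) (nat_lit 5) (nat_lit 2) (nat_lit 4) (nat_lit 374) (nat_lit 308) (nat_lit 218)) (XT.lf (nat_lit 0) (nat_lit 2686418862156) (nat_lit 76) (nat_lit 13628965109646) (nat_lit 76) (nat_lit 13610795585037) (nat_lit 1) (nat_lit 4) (nat_lit 2) (nat_lit 5) (nat_lit 2) (nat_lit 4) (nat_lit 375) (nat_lit 308) (nat_lit 217))) (XT.nd (nat_lit 78) (nat_lit 0) (nat_lit 0) (XT.lf (nat_lit 0) (nat_lit 3192523269633) (nat_lit 76) (nat_lit 15616679822643) (nat_lit 76) (nat_lit 15598510290935) (nat_lit 1) (nat_lit 4) (nat_lit 2) (nat_lit 5) (nat_lit 2) (nat_lit 4) (nat_lit 376) (nat_lit 308) (nat_lit 216)) (XT.nd (nat_lit 78) (nat_lit 0) (nat_lit 0) (XT.lf (nat_lit 0) (nat_lit 3774543262886) (nat_lit 76) (nat_lit 17902551781968) (nat_lit 76) (nat_lit 17884382244086) (nat_lit 1) (nat_lit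 4) (nat_lit 2) (nat_lit 5) (nat_lit 2) (nat_lit 4) (nat_lit 377) (nat_lit 308) (nat_lit 215)) (XT.lf (nat_lit 0) (nat_lit 4443866189608) (nat_lit 76) (nat_lit 20531304569433) (nat_lit 76) (nat_lit 20513135026183) (nat_lit 1) (nat_lit 4) (nat_lit 2) (nat_lit 5) (nat_lit 2) (nat_lit 4) (nat_lit 378) (nat_lit 308) (nat_lit 214))))) (XT.nd (nat_lit 234) (nat_lit 0) (nat_lit 0) (XT.nd (nat_lit 78) (nat_lit 0) (nat_lit 0) (XT.lf (nat_lit 0) (nat_lit 5213587498366) (nat_lit 76) (nat_lit 23554370304794) (nat_lit 76) (nat_lit 23536200756876) (nat_lit 1) (nat_lit 4) (nat_lit 2) (nat_lit 5) (nat_lit 2) (nat_lit 4) (nat_lit 379) (nat_lit 308) (nat_lit 213)) (XT.nd (nat_lit 78) (nat_lit 0) (nat_lit 0) (XT.lf (nat_lit 0) (nat_lit 6098766953896) (nat_lit 76) (nat_lit 27030895926350) (nat_lit 76) (nat_lit 27012726374373) (nat_lit 1) (nat_lit 4) (nat_lit 2) (nat_lit 5) (nat_lit 2) (nat_lit 4) (nat_lit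 380) (nat_lit 308) (nat_lit 212)) (XT.lf (nat_lit 0) (nat_lit 7116723284676) (nat_lit 76) (nat_lit 31028900413655) (nat_lit 76) (nat_lit 31010730858148) (nat_lit 1) (nat_lit 4) (nat_lit 2) (nat_lit 5) (nat_lit 2) (nat_lit 4) (nat_lit 381) (nat_lit 308) (nat_lit 211)))) (XT.nd (nat_lit 78) (nat_lit 0) (nat_lit 0) (XT.lf (nat_lit 0) (nat_lit 8287373027613) (nat_lit 76) (nat_lit 35626605593633) (nat_lit 76) (nat_lit 35608436035057) (nat_lit 1) (nat_lit 4) (nat_lit 2) (nat_lit 5) (nat_lit 2) (nat_lit 4) (nat_lit 382) (nat_lit 308) (nat_lit 210)) (XT.nd (nat_lit 78) (nat_lit 0) (nat_lit 0) (XT.lf (nat_lit 0) (nat_lit 9633620199416) (nat_lit 76) (nat_lit 40913966567632) (nat_lit 76) (nat_lit 40895797006386) (nat_lit 1) (nat_lit 4) (nat_lit 2) (nat_lit 5) (nat_lit 2) (nat_lit 4) (nat_lit 383) (nat_lit 308) (nat_lit 209)) (XT.lf (nat_lit 0) (nat_lit 11181804418664) (nat_lit 76) (nat_lit 46994431702534)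 (nat_lit 76) (nat_lit 46976262138968) (nat_lit 1) (nat_lit 4) (nat_lit 2) (nat_lit 5) (nat_lit 2) (nat_lit 4) (nat_lit 384) (nat_lit 308) (nat_lit 208))))))))
noncomputable def xc65 : XT := (XT.nd (nat_lit 41886) (nat_lit 0) (nat_lit 228) (XT.nd (nat_lit 41028) (nat_lit 0) (nat_lit 1292) (XT.nd (nat_lit 858) (nat_lit 0) (nat_lit 0) (XT.nd (nat_lit 156) (nat_lit 0) (nat_lit 0) (XT.nd (nat_lit 78) (nat_lit 0) (nat_lit 0) (XT.lf (nat_lit 0) (nat_lit 12962216246168) (nat_lit 76) (nat_lit 53986966620545) (nat_lit 76) (nat_lit 53968797054960) (nat_lit 1) (nat_lit 4) (nat_lit 2) (nat_lit 5) (nat_lit 2) (nat_lit 4) (nat_lit 385) (nat_lit 308) (nat_lit 207)) (XT.lf (nat_lit 0) (nat_lit 15009689826380) (nat_lit 76) (nat_lit 62028381787451) (nat_lit 76) (nat_lit 62010212220111) (nat_lit 1) (nat_lit 4) (nat_lit 2) (nat_lit 5) (nat_lit 2) (nat_lit 4) (nat_lit 386) (nat_lit 308) (nat_lit 206))) (XT.nd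 (nat_lit 78) (nat_lit 0) (nat_lit 0) (XT.lf (nat_lit 0) (nat_lit 17364284424999) (nat_lit 76) (nat_lit 71276009239126) (nat_lit 76) (nat_lit 71257839670261) (nat_lit 1) (nat_lit 4) (nat_lit 2) (nat_lit 5) (nat_lit 2) (nat_lit 4) (nat_lit 387) (nat_lit 308) (nat_lit 205)) (XT.nd (nat_lit 546) (nat_lit 0) (nat_lit 0) (XT.lf (nat_lit 0) (nat_lit 20072068197216) (nat_lit 76) (nat_lit 81910780817017) (nat_lit 76) (nat_lit 81892611246824) (nat_lit 1) (nat_lit 4) (nat_lit 2) (nat_lit 5) (nat_lit 2) (nat_lit 4) (nat_lit 388) (nat_lit 308) (nat_lit 204)) (XT.lf (nat_lit 0) (nat_lit 54533541953527) (nat_lit 76) (nat_lit 217257594909003) (nat_lit 76) (nat_lit 217239425333289) (nat_lit 1) (nat_lit 4) (nat_lit 2) (nat_lit 5) (nat_lit 2) (nat_lit 4) (nat_lit 395) (nat_lit 308) (nat_lit 197))))) (XT.nd (nat_lit 156) (nat_lit 0) (nat_lit 0) (XT.nd (nat_lit 78) (nat_lit 0) (nat_lit 0) (XT.lf (nat_lit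 0) (nat_lit 62816714282350) (nat_lit 76) (nat_lit 249789604375356) (nat_lit 76) (nat_lit 249771434799208) (nat_lit 1) (nat_lit 4) (nat_lit 2) (nat_lit 5) (nat_lit 2) (nat_lit 4) (nat_lit 396) (nat_lit 308) (nat_lit 196)) (XT.lf (nat_lit 0) (nat_lit 72342362455892) (nat_lit 76) (nat_lit 287201415264067) (nat_lit 76) (nat_lit 287183245687543) (nat_lit 1) (nat_lit 4) (nat_lit 2) (nat_lit 5) (nat_lit 2) (nat_lit 4) (nat_lit 397) (nat_lit 308) (nat_lit 195))) (XT.nd (nat_lit 78) (nat_lit 0) (nat_lit 0) (XT.lf (nat_lit 0) (nat_lit 83296857851463) (nat_lit 76) (nat_lit 330224997788179) (nat_lit 76) (nat_lit 330206828211326) (nat_lit 1) (nat_lit 4) (nat_lit 2) (nat_lit 5) (nat_lit 2) (nat_lit 4) (nat_lit 398) (nat_lit 308) (nat_lit 194)) (XT.nd (nat_lit 39858) (nat_lit 0) (nat_lit 1900) (XT.lf (nat_lit 0) (nat_lit 95894527552889) (nat_lit 76) (nat_lit 379702117692726) (nat_lit 76) (nat_lit 379683948115587)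 (nat_lit 1) (nat_lit 4) (nat_lit 2) (nat_lit 5) (nat_lit 2) (nat_lit 4) (nat_lit 399) (nat_lit 308) (nat_lit 193)) (XT.lf (nat_lit 0) (nat_lit 880707541) (nat_lit 380) (nat_lit 3186279441) (nat_lit 380) (nat_lit 3186279441) (nat_lit 26) (nat_lit 3) (nat_lit 31) (nat_lit 3) (nat_lit 31) (nat_lit 5) (nat_lit 309) (nat_lit 309) (nat_lit 282)))))) (XT.nd (nat_lit 390) (nat_lit 456) (nat_lit 0) (XT.nd (nat_lit 156) (nat_lit 152) (nat_lit 0) (XT.nd (nat_lit 78) (nat_lit 0) (nat_lit 76) (XT.lf (nat_lit 76) (nat_lit 669188716) (nat_lit 0) (nat_lit 1545803677) (nat_lit 380) (nat_lit 13330676877) (nat_lit 27) (nat_lit 5) (nat_lit 26) (nat_lit 3) (nat_lit 31) (nat_lit 5) (nat_lit 310) (nat_lit 309) (nat_lit 281)) (XT.lf (nat_lit 0) (nat_lit 3282471664) (nat_lit 304) (nat_lit 7514992215) (nat_lit 380) (nat_lit 5861445153) (nat_lit 27) (nat_lit 5) (nat_lit 31) (nat_lit 5) (nat_lit 32) (nat_lit 5)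 (nat_lit 311) (nat_lit 309) (nat_lit 280))) (XT.nd (nat_lit 78) (nat_lit 228) (nat_lit 0) (XT.lf (nat_lit 76) (nat_lit 922647049) (nat_lit 0) (nat_lit 3653308095) (nat_lit 380) (nat_lit 13353395252) (nat_lit 28) (nat_lit 5) (nat_lit 27) (nat_lit 5) (nat_lit 32) (nat_lit 5) (nat_lit 312) (nat_lit 309) (nat_lit 279)) (XT.nd (nat_lit 78) (nat_lit 304) (nat_lit 0) (XT.lf (nat_lit 0) (nat_lit 6622797828) (nat_lit 304) (nat_lit 8110046762) (nat_lit 76) (nat_lit 4573698080) (nat_lit 28) (nat_lit 5) (nat_lit 32) (nat_lit 5) (nat_lit 29) (nat_lit 5) (nat_lit 313) (nat_lit 309) (nat_lit 278)) (XT.lf (nat_lit 0) (nat_lit 2097816741) (nat_lit 304) (nat_lit 7103926120) (nat_lit 380) (nat_lit 11654883624) (nat_lit 24) (nat_lit 5) (nat_lit 28) (nat_lit 5) (nat_lit 29) (nat_lit 5) (nat_lit 314) (nat_lit 309) (nat_lit 277))))) (XT.nd (nat_lit 234) (nat_lit 304) (nat_lit 0) (XT.nd (nat_lit 78) (nat_lit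 152) (nat_lit 0) (XT.lf (nat_lit 0) (nat_lit 12648175287) (nat_lit 380) (nat_lit 7955933994) (nat_lit 76) (nat_lit 1963081172) (nat_lit 24) (nat_lit 5) (nat_lit 29) (nat_lit 5) (nat_lit 25) (nat_lit 5) (nat_lit 315) (nat_lit 309) (nat_lit 276)) (XT.nd (nat_lit 78) (nat_lit 0) (nat_lit 0) (XT.lf (nat_lit 0) (nat_lit 4495093538) (nat_lit 152) (nat_lit 12612546194) (nat_lit 228) (nat_lit 7352345236) (nat_lit 22) (nat_lit 5) (nat_lit 24) (nat_lit 5) (nat_lit 25) (nat_lit 5) (nat_lit 316) (nat_lit 309) (nat_lit 275)) (XT.lf (nat_lit 0) (nat_lit 19675285709) (nat_lit 152) (nat_lit 2950615638) (nat_lit 228) (nat_lit 3952364403) (nat_lit 22) (nat_lit 5) (nat_lit 24) (nat_lit 5) (nat_lit 25) (nat_lit 5) (nat_lit 317) (nat_lit 309) (nat_lit 274)))) (XT.nd (nat_lit 78) (nat_lit 152) (nat_lit 0) (XT.lf (nat_lit 0) (nat_lit 660404264) (nat_lit 152) (nat_lit 20438256821) (nat_lit 76) (nat_lit 7811075097)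 (nat_lit 20) (nat_lit 5) (nat_lit 22) (nat_lit 5) (nat_lit 21) (nat_lit 5) (nat_lit 318) (nat_lit 309) (nat_lit 273)) (XT.nd (nat_lit 78) (nat_lit 152) (nat_lit 0) (XT.lf (nat_lit 0) (nat_lit 6056812574) (nat_lit 152) (nat_lit 4987118701) (nat_lit 76) (nat_lit 20444341082) (nat_lit 20) (nat_lit 5) (nat_lit 22) (nat_lit 5) (nat_lit 21) (nat_lit 5) (nat_lit 319) (nat_lit 309) (nat_lit 272)) (XT.lf (nat_lit 0) (nat_lit 12871855063) (nat_lit 228) (nat_lit 20418330344) (nat_lit 76) (nat_lit 1072055468) (nat_lit 18) (nat_lit 5) (nat_lit 21) (nat_lit 5) (nat_lit 19) (nat_lit 4) (nat_lit 320) (nat_lit 309) (nat_lit 271))))))) (XT.nd (nat_lit 858) (nat_lit 456) (nat_lit 0) (XT.nd (nat_lit 390) (nat_lit 304) (nat_lit 0) (XT.nd (nat_lit 156) (nat_lit 228) (nat_lit 0) (XT.nd (nat_lit 78) (nat_lit 76) (nat_lit 0) (XT.lf (nat_lit 0) (nat_lit 21489924757) (nat_lit 228) (nat_lit 1920605207) (nat_lit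 76) (nat_lit 14139683302) (nat_lit 18) (nat_lit 5) (nat_lit 21) (nat_lit 5) (nat_lit 19) (nat_lit 4) (nat_lit 321) (nat_lit 309) (nat_lit 270)) (XT.lf (nat_lit 0) (nat_lit 21215133975) (nat_lit 76) (nat_lit 11048188057) (nat_lit 152) (nat_lit 8823687976) (nat_lit 17) (nat_lit 5) (nat_lit 18) (nat_lit 5) (nat_lit 19) (nat_lit 4) (nat_lit 322) (nat_lit 309) (nat_lit 269))) (XT.nd (nat_lit 78) (nat_lit 152) (nat_lit 0) (XT.lf (nat_lit 0) (nat_lit 3003138618) (nat_lit 76) (nat_lit 41995140270) (nat_lit 76) (nat_lit 104233189) (nat_lit 16) (nat_lit 4) (nat_lit 17) (nat_lit 5) (nat_lit 17) (nat_lit 4) (nat_lit 323) (nat_lit 309) (nat_lit 268)) (XT.nd (nat_lit 78) (nat_lit 76) (nat_lit 0) (XT.lf (nat_lit 0) (nat_lit 10639116671) (nat_lit 152) (nat_lit 19034601887) (nat_lit 76) (nat_lit 19745089830) (nat_lit 15) (nat_lit 5) (nat_lit 17) (nat_lit 5) (nat_lit 16) (nat_lit 4) (nat_lit 324) (nat_lit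 309) (nat_lit 267)) (XT.lf (nat_lit 0) (nat_lit 8191255940) (nat_lit 76) (nat_lit 15118247850) (nat_lit 152) (nat_lit 31023381936) (nat_lit 14) (nat_lit 5) (nat_lit 15) (nat_lit 5) (nat_lit 16) (nat_lit 4) (nat_lit 325) (nat_lit 309) (nat_lit 266))))) (XT.nd (nat_lit 234) (nat_lit 152) (nat_lit 0) (XT.nd (nat_lit 78) (nat_lit 152) (nat_lit 0) (XT.lf (nat_lit 0) (nat_lit 38977333454) (nat_lit 152) (nat_lit 18332392754) (nat_lit 0) (nat_lit 2509826255) (nat_lit 14) (nat_lit 5) (nat_lit 16) (nat_lit 4) (nat_lit 14) (nat_lit 4) (nat_lit 326) (nat_lit 309) (nat_lit 265)) (XT.nd (nat_lit 78) (nat_lit 76) (nat_lit 0) (XT.lf (nat_lit 0) (nat_lit 14169516332) (nat_lit 76) (nat_lit 44121519577) (nat_lit 76) (nat_lit 7643837657) (nat_lit 13) (nat_lit 4) (nat_lit 14) (nat_lit 5) (nat_lit 14) (nat_lit 4) (nat_lit 327) (nat_lit 309) (nat_lit 264)) (XT.lf (nat_lit 0) (nat_lit 7856642684) (nat_lit 152)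 (nat_lit 19594747731) (nat_lit 76) (nat_lit 45320347799) (nat_lit 12) (nat_lit 5) (nat_lit 14) (nat_lit 5) (nat_lit 13) (nat_lit 4) (nat_lit 328) (nat_lit 309) (nat_lit 263)))) (XT.nd (nat_lit 78) (nat_lit 76) (nat_lit 0) (XT.lf (nat_lit 0) (nat_lit 18683004819) (nat_lit 76) (nat_lit 6980822098) (nat_lit 152) (nat_lit 54801080508) (nat_lit 11) (nat_lit 5) (nat_lit 12) (nat_lit 5) (nat_lit 13) (nat_lit 4) (nat_lit 329) (nat_lit 309) (nat_lit 262)) (XT.nd (nat_lit 78) (nat_lit 76) (nat_lit 0) (XT.lf (nat_lit 0) (nat_lit 47891646418) (nat_lit 152) (nat_lit 25006255178) (nat_lit 0) (nat_lit 16151721984) (nat_lit 11) (nat_lit 5) (nat_lit 13) (nat_lit 4) (nat_lit 11) (nat_lit 4) (nat_lit 330) (nat_lit 309) (nat_lit 261)) (XT.lf (nat_lit 0) (nat_lit 18592992864) (nat_lit 76) (nat_lit 55954948272) (nat_lit 76) (nat_lit 24209965203) (nat_lit 10) (nat_lit 4) (nat_lit 11) (nat_lit 5) (nat_lit 11)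 (nat_lit 4) (nat_lit 331) (nat_lit 309) (nat_lit 260)))))) (XT.nd (nat_lit 390) (nat_lit 228) (nat_lit 0) (XT.nd (nat_lit 156) (nat_lit 76) (nat_lit 0) (XT.nd (nat_lit 78) (nat_lit 152) (nat_lit 0) (XT.lf (nat_lit 0) (nat_lit 71527596241) (nat_lit 76) (nat_lit 34974643564) (nat_lit 76) (nat_lit 3225261683) (nat_lit 10) (nat_lit 4) (nat_lit 11) (nat_lit 5) (nat_lit 11) (nat_lit 4) (nat_lit 332) (nat_lit 309) (nat_lit 259)) (XT.lf (nat_lit 0) (nat_lit 10077689583) (nat_lit 76) (nat_lit 9378541355) (nat_lit 152) (nat_lit 102694892528) (nat_lit 8) (nat_lit 5) (nat_lit 9) (nat_lit 5) (nat_lit 10) (nat_lit 4) (nat_lit 333) (nat_lit 309) (nat_lit 258))) (XT.nd (nat_lit 78) (nat_lit 76) (nat_lit 0) (XT.lf (nat_lit 0) (nat_lit 48125340548) (nat_lit 152) (nat_lit 67341609466) (nat_lit 0) (nat_lit 20510963965) (nat_lit 8) (nat_lit 5) (nat_lit 10) (nat_lit 4) (nat_lit 8) (nat_lit 4) (nat_lit 334)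 (nat_lit 309) (nat_lit 257)) (XT.nd (nat_lit 78) (nat_lit 76) (nat_lit 0) (XT.lf (nat_lit 0) (nat_lit 81535485345) (nat_lit 152) (nat_lit 16358545934) (nat_lit 0) (nat_lit 53918593727) (nat_lit 8) (nat_lit 5) (nat_lit 10) (nat_lit 4) (nat_lit 8) (nat_lit 4) (nat_lit 335) (nat_lit 309) (nat_lit 256)) (XT.lf (nat_lit 0) (nat_lit 46391707428) (nat_lit 76) (nat_lit 75481270924) (nat_lit 76) (nat_lit 47862192319) (nat_lit 7) (nat_lit 4) (nat_lit 8) (nat_lit 5) (nat_lit 8) (nat_lit 4) (nat_lit 336) (nat_lit 309) (nat_lit 255))))) (XT.nd (nat_lit 234) (nat_lit 76) (nat_lit 0) (XT.nd (nat_lit 78) (nat_lit 152) (nat_lit 0) (XT.lf (nat_lit 0) (nat_lit 120383067822) (nat_lit 76) (nat_lit 48728240243) (nat_lit 76) (nat_lit 21107259909) (nat_lit 7) (nat_lit 4) (nat_lit 8) (nat_lit 5) (nat_lit 8) (nat_lit 4) (nat_lit 337) (nat_lit 309) (nat_lit 254)) (XT.nd (nat_lit 78) (nat_lit 76) (nat_lit 0) (XT.lf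 (nat_lit 0) (nat_lit 8796372345) (nat_lit 152) (nat_lit 8710433467) (nat_lit 76) (nat_lit 196208333500) (nat_lit 6) (nat_lit 5) (nat_lit 8) (nat_lit 5) (nat_lit 7) (nat_lit 4) (nat_lit 338) (nat_lit 309) (nat_lit 253)) (XT.lf (nat_lit 0) (nat_lit 44714508574) (nat_lit 152) (nat_lit 174623855269) (nat_lit 0) (nat_lit 20693576408) (nat_lit 5) (nat_lit 5) (nat_lit 7) (nat_lit 4) (nat_lit 5) (nat_lit 4) (nat_lit 339) (nat_lit 309) (nat_lit 252)))) (XT.nd (nat_lit 78) (nat_lit 76) (nat_lit 0) (XT.lf (nat_lit 0) (nat_lit 87327181276) (nat_lit 152) (nat_lit 119467896830) (nat_lit 0) (nat_lit 63305161792) (nat_lit 5) (nat_lit 5) (nat_lit 7) (nat_lit 4) (nat_lit 5) (nat_lit 4) (nat_lit 340) (nat_lit 309) (nat_lit 251)) (XT.nd (nat_lit 78) (nat_lit 76) (nat_lit 0) (XT.lf (nat_lit 0) (nat_lit 136328414616) (nat_lit 152) (nat_lit 56045422126) (nat_lit 0) (nat_lit 112305449636) (nat_lit 5) (nat_lit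 5) (nat_lit 7) (nat_lit 4) (nat_lit 5) (nat_lit 4) (nat_lit 341) (nat_lit 309) (nat_lit 250)) (XT.lf (nat_lit 0) (nat_lit 18534513947) (nat_lit 76) (nat_lit 174909889125) (nat_lit 76) (nat_lit 150886101977) (nat_lit 4) (nat_lit 4) (nat_lit 5) (nat_lit 5) (nat_lit 5) (nat_lit 4) (nat_lit 342) (nat_lit 309) (nat_lit 249))))))))
noncomputable def xc66 : XT := (XT.nd (nat_lit 1638) (nat_lit 76) (nat_lit 0) (XT.nd (nat_lit 780) (nat_lit 0) (nat_lit 0) (XT.nd (nat_lit 390) (nat_lit 76) (nat_lit 0) (XT.nd (nat_lit 156) (nat_lit 76) (nat_lit 0) (XT.nd (nat_lit 78) (nat_lit 0) (nat_lit 0) (XT.lf (nat_lit 0) (nat_lit 110594473026) (nat_lit 76) (nat_lit 151460201734) (nat_lit 76) (nat_lit 127435699655) (nat_lit 4) (nat_lit 4) (nat_lit 5) (nat_lit 5) (nat_lit 5) (nat_lit 4) (nat_lit 343) (nat_lit 309) (nat_lit 248)) (XT.lf (nat_lit 0) (nat_lit 216458461969) (nat_lit 76) (nat_lit 124495623403) (nat_lit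 76) (nat_lit 100470499646) (nat_lit 4) (nat_lit 4) (nat_lit 5) (nat_lit 5) (nat_lit 5) (nat_lit 4) (nat_lit 344) (nat_lit 309) (nat_lit 247))) (XT.nd (nat_lit 78) (nat_lit 76) (nat_lit 0) (XT.lf (nat_lit 0) (nat_lit 338197732734) (nat_lit 76) (nat_lit 93488586295) (nat_lit 76) (nat_lit 69462921948) (nat_lit 4) (nat_lit 4) (nat_lit 5) (nat_lit 5) (nat_lit 5) (nat_lit 4) (nat_lit 345) (nat_lit 309) (nat_lit 246)) (XT.nd (nat_lit 78) (nat_lit 76) (nat_lit 0) (XT.lf (nat_lit 0) (nat_lit 478194140618) (nat_lit 76) (nat_lit 57832430988) (nat_lit 76) (nat_lit 33806296563) (nat_lit 4) (nat_lit 4) (nat_lit 5) (nat_lit 5) (nat_lit 5) (nat_lit 4) (nat_lit 346) (nat_lit 309) (nat_lit 245)) (XT.lf (nat_lit 0) (nat_lit 6556278880) (nat_lit 152) (nat_lit 9930543594) (nat_lit 76) (nat_lit 632287752317) (nat_lit 3) (nat_lit 5) (nat_lit 5) (nat_lit 5) (nat_lit 4) (nat_lit 4) (nat_lit 347) (nat_lit 309)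 (nat_lit 244))))) (XT.nd (nat_lit 156) (nat_lit 0) (nat_lit 0) (XT.nd (nat_lit 78) (nat_lit 0) (nat_lit 0) (XT.lf (nat_lit 0) (nat_lit 54798242332) (nat_lit 152) (nat_lit 649819616429) (nat_lit 0) (nat_lit 33905286997) (nat_lit 2) (nat_lit 5) (nat_lit 4) (nat_lit 4) (nat_lit 2) (nat_lit 4) (nat_lit 348) (nat_lit 309) (nat_lit 243)) (XT.lf (nat_lit 0) (nat_lit 111603972505) (nat_lit 152) (nat_lit 639220160870) (nat_lit 0) (nat_lit 90710748402) (nat_lit 2) (nat_lit 5) (nat_lit 4) (nat_lit 4) (nat_lit 2) (nat_lit 4) (nat_lit 349) (nat_lit 309) (nat_lit 242))) (XT.nd (nat_lit 78) (nat_lit 0) (nat_lit 0) (XT.lf (nat_lit 0) (nat_lit 176929318673) (nat_lit 152) (nat_lit 627033385410) (nat_lit 0) (nat_lit 156035860857) (nat_lit 2) (nat_lit 5) (nat_lit 4) (nat_lit 4) (nat_lit 2) (nat_lit 4) (nat_lit 350) (nat_lit 309) (nat_lit 241)) (XT.nd (nat_lit 78) (nat_lit 0) (nat_lit 0) (XT.lf (nat_lit 0)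 (nat_lit 252052385433) (nat_lit 152) (nat_lit 613020853136) (nat_lit 0) (nat_lit 231158724389) (nat_lit 2) (nat_lit 5) (nat_lit 4) (nat_lit 4) (nat_lit 2) (nat_lit 4) (nat_lit 351) (nat_lit 309) (nat_lit 240)) (XT.lf (nat_lit 0) (nat_lit 338442971917) (nat_lit 152) (nat_lit 596908405808) (nat_lit 0) (nat_lit 317549134154) (nat_lit 2) (nat_lit 5) (nat_lit 4) (nat_lit 4) (nat_lit 2) (nat_lit 4) (nat_lit 352) (nat_lit 309) (nat_lit 239)))))) (XT.nd (nat_lit 390) (nat_lit 0) (nat_lit 0) (XT.nd (nat_lit 156) (nat_lit 0) (nat_lit 0) (XT.nd (nat_lit 78) (nat_lit 0) (nat_lit 0) (XT.lf (nat_lit 0) (nat_lit 437791328732) (nat_lit 152) (nat_lit 578380799893) (nat_lit 0) (nat_lit 416897337300) (nat_lit 2) (nat_lit 5) (nat_lit 4) (nat_lit 4) (nat_lit 2) (nat_lit 4) (nat_lit 353) (nat_lit 309) (nat_lit 238)) (XT.lf (nat_lit 0) (nat_lit 552041228076) (nat_lit 152) (nat_lit 557075538752) (nat_lit 0)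 (nat_lit 531147103018) (nat_lit 2) (nat_lit 5) (nat_lit 4) (nat_lit 4) (nat_lit 2) (nat_lit 4) (nat_lit 354) (nat_lit 309) (nat_lit 237))) (XT.nd (nat_lit 78) (nat_lit 0) (nat_lit 0) (XT.lf (nat_lit 0) (nat_lit 683427994065) (nat_lit 152) (nat_lit 532575780320) (nat_lit 0) (nat_lit 662533752811) (nat_lit 2) (nat_lit 5) (nat_lit 4) (nat_lit 4) (nat_lit 2) (nat_lit 4) (nat_lit 355) (nat_lit 309) (nat_lit 236)) (XT.nd (nat_lit 78) (nat_lit 0) (nat_lit 0) (XT.lf (nat_lit 0) (nat_lit 834522237340) (nat_lit 152) (nat_lit 504402181496) (nat_lit 0) (nat_lit 813627895046) (nat_lit 2) (nat_lit 5) (nat_lit 4) (nat_lit 4) (nat_lit 2) (nat_lit 4) (nat_lit 356) (nat_lit 309) (nat_lit 235)) (XT.lf (nat_lit 0) (nat_lit 1008280149616) (nat_lit 152) (nat_lit 472003519696) (nat_lit 0) (nat_lit 987385719461) (nat_lit 2) (nat_lit 5) (nat_lit 4) (nat_lit 4) (nat_lit 2) (nat_lit 4) (nat_lit 357) (nat_lit 309)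 (nat_lit 234))))) (XT.nd (nat_lit 234) (nat_lit 0) (nat_lit 0) (XT.nd (nat_lit 78) (nat_lit 0) (nat_lit 0) (XT.lf (nat_lit 0) (nat_lit 1208101342220) (nat_lit 152) (nat_lit 434745908058) (nat_lit 0) (nat_lit 1187206835664) (nat_lit 2) (nat_lit 5) (nat_lit 4) (nat_lit 4) (nat_lit 2) (nat_lit 4) (nat_lit 358) (nat_lit 309) (nat_lit 233)) (XT.nd (nat_lit 78) (nat_lit 0) (nat_lit 0) (XT.lf (nat_lit 0) (nat_lit 1437895360226) (nat_lit 152) (nat_lit 391900393310) (nat_lit 0) (nat_lit 1417000787234) (nat_lit 2) (nat_lit 5) (nat_lit 4) (nat_lit 4) (nat_lit 2) (nat_lit 4) (nat_lit 359) (nat_lit 309) (nat_lit 232)) (XT.lf (nat_lit 0) (nat_lit 1702158173550) (nat_lit 152) (nat_lit 342628693643) (nat_lit 0) (nat_lit 1681263542789) (nat_lit 2) (nat_lit 5) (nat_lit 4) (nat_lit 4) (nat_lit 2) (nat_lit 4) (nat_lit 360) (nat_lit 309) (nat_lit 231)))) (XT.nd (nat_lit 78) (nat_lit 0) (nat_lit 0) (XT.lf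 (nat_lit 0) (nat_lit 2006060141584) (nat_lit 152) (nat_lit 285966797541) (nat_lit 0) (nat_lit 1985165460588) (nat_lit 2) (nat_lit 5) (nat_lit 4) (nat_lit 4) (nat_lit 2) (nat_lit 4) (nat_lit 361) (nat_lit 309) (nat_lit 230)) (XT.nd (nat_lit 78) (nat_lit 0) (nat_lit 0) (XT.lf (nat_lit 0) (nat_lit 2355547172398) (nat_lit 152) (nat_lit 220806102689) (nat_lit 0) (nat_lit 2334652447719) (nat_lit 2) (nat_lit 5) (nat_lit 4) (nat_lit 4) (nat_lit 2) (nat_lit 4) (nat_lit 362) (nat_lit 309) (nat_lit 229)) (XT.lf (nat_lit 0) (nat_lit 2757457055725) (nat_lit 152) (nat_lit 145871725928) (nat_lit 0) (nat_lit 2736562293062) (nat_lit 2) (nat_lit 5) (nat_lit 4) (nat_lit 4) (nat_lit 2) (nat_lit 4) (nat_lit 363) (nat_lit 309) (nat_lit 228))))))) (XT.nd (nat_lit 858) (nat_lit 0) (nat_lit 0) (XT.nd (nat_lit 390) (nat_lit 0) (nat_lit 0) (XT.nd (nat_lit 156) (nat_lit 0) (nat_lit 0) (XT.nd (nat_lit 78) (nat_lit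 76) (nat_lit 0) (XT.lf (nat_lit 0) (nat_lit 3219653245805) (nat_lit 152) (nat_lit 59697559884) (nat_lit 0) (nat_lit 3198758450111) (nat_lit 2) (nat_lit 5) (nat_lit 4) (nat_lit 4) (nat_lit 2) (nat_lit 4) (nat_lit 364) (nat_lit 309) (nat_lit 227)) (XT.lf (nat_lit 0) (nat_lit 43253101969) (nat_lit 76) (nat_lit 3709716628319) (nat_lit 76) (nat_lit 3688821803903) (nat_lit 1) (nat_lit 4) (nat_lit 2) (nat_lit 5) (nat_lit 2) (nat_lit 4) (nat_lit 365) (nat_lit 309) (nat_lit 226))) (XT.nd (nat_lit 78) (nat_lit 0) (nat_lit 0) (XT.lf (nat_lit 0) (nat_lit 168355249957) (nat_lit 76) (nat_lit 4201048846242) (nat_lit 76) (nat_lit 4180153996851) (nat_lit 1) (nat_lit 4) (nat_lit 2) (nat_lit 5) (nat_lit 2) (nat_lit 4) (nat_lit 366) (nat_lit 309) (nat_lit 225)) (XT.nd (nat_lit 78) (nat_lit 0) (nat_lit 0) (XT.lf (nat_lit 0) (nat_lit 312222455084) (nat_lit 76) (nat_lit 4766081035380) (nat_lit 76) (nat_lit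 4745186164271) (nat_lit 1) (nat_lit 4) (nat_lit 2) (nat_lit 5) (nat_lit 2) (nat_lit 4) (nat_lit 367) (nat_lit 309) (nat_lit 224)) (XT.lf (nat_lit 0) (nat_lit 477669510494) (nat_lit 76) (nat_lit 5415868173348) (nat_lit 76) (nat_lit 5394973283354) (nat_lit 1) (nat_lit 4) (nat_lit 2) (nat_lit 5) (nat_lit 2) (nat_lit 4) (nat_lit 368) (nat_lit 309) (nat_lit 223))))) (XT.nd (nat_lit 234) (nat_lit 0) (nat_lit 0) (XT.nd (nat_lit 78) (nat_lit 0) (nat_lit 0) (XT.lf (nat_lit 0) (nat_lit 667933423793) (nat_lit 76) (nat_lit 6163123486757) (nat_lit 76) (nat_lit 6142228580341) (nat_lit 1) (nat_lit 4) (nat_lit 2) (nat_lit 5) (nat_lit 2) (nat_lit 4) (nat_lit 369) (nat_lit 309) (nat_lit 222)) (XT.nd (nat_lit 78) (nat_lit 0) (nat_lit 0) (XT.lf (nat_lit 0) (nat_lit 886736749807) (nat_lit 76) (nat_lit 7022467188261) (nat_lit 76) (nat_lit 7001572267566) (nat_lit 1) (nat_lit 4) (nat_lit 2) (nat_lit 5) (nat_lit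 2) (nat_lit 4) (nat_lit 370) (nat_lit 309) (nat_lit 221)) (XT.lf (nat_lit 0) (nat_lit 1138360423174) (nat_lit 76) (nat_lit 8010712524194) (nat_lit 76) (nat_lit 7989817591081) (nat_lit 1) (nat_lit 4) (nat_lit 2) (nat_lit 5) (nat_lit 2) (nat_lit 4) (nat_lit 371) (nat_lit 309) (nat_lit 220)))) (XT.nd (nat_lit 78) (nat_lit 0) (nat_lit 0) (XT.lf (nat_lit 0) (nat_lit 1427727515765) (nat_lit 76) (nat_lit 9147194729390) (nat_lit 76) (nat_lit 9126299785479) (nat_lit 1) (nat_lit 4) (nat_lit 2) (nat_lit 5) (nat_lit 2) (nat_lit 4) (nat_lit 372) (nat_lit 309) (nat_lit 219)) (XT.nd (nat_lit 78) (nat_lit 0) (nat_lit 0) (XT.lf (nat_lit 0) (nat_lit 1760499557652) (nat_lit 76) (nat_lit 10454149325254) (nat_lit 76) (nat_lit 10433254371954) (nat_lit 1) (nat_lit 4) (nat_lit 2) (nat_lit 5) (nat_lit 2) (nat_lit 4) (nat_lit 373) (nat_lit 309) (nat_lit 218)) (XT.lf (nat_lit 0) (nat_lit 2143187306178) (nat_lit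 76) (nat_lit 11957147162575) (nat_lit 76) (nat_lit 11936252201111) (nat_lit 1) (nat_lit 4) (nat_lit 2) (nat_lit 5) (nat_lit 2) (nat_lit 4) (nat_lit 374) (nat_lit 309) (nat_lit 217)))))) (XT.nd (nat_lit 390) (nat_lit 0) (nat_lit 0) (XT.nd (nat_lit 156) (nat_lit 0) (nat_lit 0) (XT.nd (nat_lit 78) (nat_lit 0) (nat_lit 0) (XT.lf (nat_lit 0) (nat_lit 2583278130333) (nat_lit 76) (nat_lit 13685594720779) (nat_lit 76) (nat_lit 13664699752215) (nat_lit 1) (nat_lit 4) (nat_lit 2) (nat_lit 5) (nat_lit 2) (nat_lit 4) (nat_lit 375) (nat_lit 309) (nat_lit 216)) (XT.lf (nat_lit 0) (nat_lit 3089382502766) (nat_lit 76) (nat_lit 15673309452092) (nat_lit 76) (nat_lit 15652414477354) (nat_lit 1) (nat_lit 4) (nat_lit 2) (nat_lit 5) (nat_lit 2) (nat_lit 4) (nat_lit 376) (nat_lit 309) (nat_lit 215))) (XT.nd (nat_lit 78) (nat_lit 0) (nat_lit 0) (XT.lf (nat_lit 0) (nat_lit 3671402465545) (nat_lit 76) (nat_lit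 17959181427343) (nat_lit 76) (nat_lit 17938286447237) (nat_lit 1) (nat_lit 4) (nat_lit 2) (nat_lit 5) (nat_lit 2) (nat_lit 4) (nat_lit 377) (nat_lit 309) (nat_lit 214)) (XT.nd (nat_lit 78) (nat_lit 0) (nat_lit 0) (XT.lf (nat_lit 0) (nat_lit 4340725365768) (nat_lit 76) (nat_lit 20587934228658) (nat_lit 76) (nat_lit 20567039243884) (nat_lit 1) (nat_lit 4) (nat_lit 2) (nat_lit 5) (nat_lit 2) (nat_lit 4) (nat_lit 378) (nat_lit 309) (nat_lit 213)) (XT.lf (nat_lit 0) (nat_lit 5110446651483) (nat_lit 76) (nat_lit 23610999976061) (nat_lit 76) (nat_lit 23590104987228) (nat_lit 1) (nat_lit 4) (nat_lit 2) (nat_lit 5) (nat_lit 2) (nat_lit 4) (nat_lit 379) (nat_lit 309) (nat_lit 212))))) (XT.nd (nat_lit 234) (nat_lit 0) (nat_lit 0) (XT.nd (nat_lit 78) (nat_lit 0) (nat_lit 0) (XT.lf (nat_lit 0) (nat_lit 5995626086977) (nat_lit 76) (nat_lit 27087525608089) (nat_lit 76) (nat_lit 27066630615726) (nat_lit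 1) (nat_lit 4) (nat_lit 2) (nat_lit 5) (nat_lit 2) (nat_lit 4) (nat_lit 380) (nat_lit 309) (nat_lit 211)) (XT.nd (nat_lit 78) (nat_lit 0) (nat_lit 0) (XT.lf (nat_lit 0) (nat_lit 7013582400333) (nat_lit 76) (nat_lit 31085530104500) (nat_lit 76) (nat_lit 31064635109067) (nat_lit 1) (nat_lit 4) (nat_lit 2) (nat_lit 5) (nat_lit 2) (nat_lit 4) (nat_lit 381) (nat_lit 309) (nat_lit 210)) (XT.lf (nat_lit 0) (nat_lit 8184232128119) (nat_lit 76) (nat_lit 35683235292396) (nat_lit 76) (nat_lit 35662340294295) (nat_lit 1) (nat_lit 4) (nat_lit 2) (nat_lit 5) (nat_lit 2) (nat_lit 4) (nat_lit 382) (nat_lit 309) (nat_lit 209)))) (XT.nd (nat_lit 78) (nat_lit 0) (nat_lit 0) (XT.lf (nat_lit 0) (nat_lit 9530479286748) (nat_lit 76) (nat_lit 40970596273280) (nat_lit 76) (nat_lit 40949701272858) (nat_lit 1) (nat_lit 4) (nat_lit 2) (nat_lit 5) (nat_lit 2) (nat_lit 4) (nat_lit 383) (nat_lit 309) (nat_lit 208))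 (XT.nd (nat_lit 78) (nat_lit 0) (nat_lit 0) (XT.lf (nat_lit 0) (nat_lit 11078663494539) (nat_lit 76) (nat_lit 47051061414170) (nat_lit 76) (nat_lit 47030166411730) (nat_lit 1) (nat_lit 4) (nat_lit 2) (nat_lit 5) (nat_lit 2) (nat_lit 4) (nat_lit 384) (nat_lit 309) (nat_lit 207)) (XT.lf (nat_lit 0) (nat_lit 12859075312082) (nat_lit 76) (nat_lit 54043596337387) (nat_lit 76) (nat_lit 54022701333192) (nat_lit 1) (nat_lit 4) (nat_lit 2) (nat_lit 5) (nat_lit 2) (nat_lit 4) (nat_lit 385) (nat_lit 309) (nat_lit 206))))))))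
noncomputable def xc67 : XT := (XT.nd (nat_lit 42042) (nat_lit 0) (nat_lit 228) (XT.nd (nat_lit 41184) (nat_lit 0) (nat_lit 1216) (XT.nd (nat_lit 780) (nat_lit 0) (nat_lit 0) (XT.nd (nat_lit 156) (nat_lit 0) (nat_lit 0) (XT.nd (nat_lit 78) (nat_lit 0) (nat_lit 0) (XT.lf (nat_lit 0) (nat_lit 14906548883631) (nat_lit 76) (nat_lit 62085011508820) (nat_lit 76) (nat_lit 62064116503099) (nat_lit 1) (nat_lit 4) (nat_lit 2) (nat_lit 5) (nat_lit 2) (nat_lit 4) (nat_lit 386) (nat_lit 309) (nat_lit 205)) (XT.lf (nat_lit 0) (nat_lit 17261143474717) (nat_lit 76) (nat_lit 71332638964432) (nat_lit 76) (nat_lit 71311743957384) (nat_lit 1) (nat_lit 4) (nat_lit 2) (nat_lit 5) (nat_lit 2) (nat_lit 4) (nat_lit 387) (nat_lit 309) (nat_lit 204))) (XT.nd (nat_lit 468) (nat_lit 0) (nat_lit 0) (XT.lf (nat_lit 0) (nat_lit 19968927240384) (nat_lit 76) (nat_lit 81967410545746) (nat_lit 76) (nat_lit 81946515537544)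 (nat_lit 1) (nat_lit 4) (nat_lit 2) (nat_lit 5) (nat_lit 2) (nat_lit 4) (nat_lit 388) (nat_lit 309) (nat_lit 203)) (XT.nd (nat_lit 78) (nat_lit 0) (nat_lit 0) (XT.lf (nat_lit 0) (nat_lit 47227642420500) (nat_lit 76) (nat_lit 189025520769308) (nat_lit 76) (nat_lit 189004625756739) (nat_lit 1) (nat_lit 4) (nat_lit 2) (nat_lit 5) (nat_lit 2) (nat_lit 4) (nat_lit 394) (nat_lit 309) (nat_lit 197)) (XT.lf (nat_lit 0) (nat_lit 54430400969444) (nat_lit 76) (nat_lit 217314224651974) (nat_lit 76) (nat_lit 217293329638971) (nat_lit 1) (nat_lit 4) (nat_lit 2) (nat_lit 5) (nat_lit 2) (nat_lit 4) (nat_lit 395) (nat_lit 309) (nat_lit 196))))) (XT.nd (nat_lit 40170) (nat_lit 0) (nat_lit 1900) (XT.nd (nat_lit 78) (nat_lit 0) (nat_lit 0) (XT.lf (nat_lit 0) (nat_lit 62713573296126) (nat_lit 76) (nat_lit 249846234119446) (nat_lit 76) (nat_lit 249825339106067) (nat_lit 1) (nat_lit 4) (nat_lit 2) (nat_lit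 5) (nat_lit 2) (nat_lit 4) (nat_lit 396) (nat_lit 309) (nat_lit 195)) (XT.nd (nat_lit 78) (nat_lit 0) (nat_lit 0) (XT.lf (nat_lit 0) (nat_lit 72239221467806) (nat_lit 76) (nat_lit 287258045009132) (nat_lit 76) (nat_lit 287237149995423) (nat_lit 1) (nat_lit 4) (nat_lit 2) (nat_lit 5) (nat_lit 2) (nat_lit 4) (nat_lit 397) (nat_lit 309) (nat_lit 194)) (XT.lf (nat_lit 0) (nat_lit 83193716861758) (nat_lit 76) (nat_lit 330281627534089) (nat_lit 76) (nat_lit 330260732520095) (nat_lit 1) (nat_lit 4) (nat_lit 2) (nat_lit 5) (nat_lit 2) (nat_lit 4) (nat_lit 398) (nat_lit 309) (nat_lit 193)))) (XT.nd (nat_lit 78) (nat_lit 0) (nat_lit 0) (XT.lf (nat_lit 0) (nat_lit 1294411136) (nat_lit 380) (nat_lit 3501999485) (nat_lit 380) (nat_lit 3501999485) (nat_lit 26) (nat_lit 3) (nat_lit 31) (nat_lit 3) (nat_lit 31) (nat_lit 5) (nat_lit 310) (nat_lit 310) (nat_lit 280)) (XT.nd (nat_lit 78) (nat_lit 0) (nat_lit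 76) (XT.lf (nat_lit 76) (nat_lit 1079263325) (nat_lit 0) (nat_lit 1970536509) (nat_lit 380) (nat_lit 14751280975) (nat_lit 27) (nat_lit 5) (nat_lit 26) (nat_lit 3) (nat_lit 31) (nat_lit 5) (nat_lit 311) (nat_lit 310) (nat_lit 279)) (XT.lf (nat_lit 0) (nat_lit 4204905514) (nat_lit 304) (nat_lit 8299526987) (nat_lit 380) (nat_lit 6587885972) (nat_lit 27) (nat_lit 5) (nat_lit 31) (nat_lit 5) (nat_lit 32) (nat_lit 5) (nat_lit 312) (nat_lit 310) (nat_lit 278)))))) (XT.nd (nat_lit 390) (nat_lit 380) (nat_lit 0) (XT.nd (nat_lit 156) (nat_lit 380) (nat_lit 0) (XT.nd (nat_lit 78) (nat_lit 0) (nat_lit 76) (XT.lf (nat_lit 76) (nat_lit 1388180255) (nat_lit 0) (nat_lit 4261682086) (nat_lit 380) (nat_lit 14909965747) (nat_lit 28) (nat_lit 5) (nat_lit 27) (nat_lit 5) (nat_lit 32) (nat_lit 5) (nat_lit 313) (nat_lit 310) (nat_lit 277)) (XT.lf (nat_lit 0) (nat_lit 7951012119) (nat_lit 304) (nat_lit 8988674531)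 (nat_lit 76) (nat_lit 5211924506) (nat_lit 28) (nat_lit 5) (nat_lit 32) (nat_lit 5) (nat_lit 29) (nat_lit 5) (nat_lit 314) (nat_lit 310) (nat_lit 276))) (XT.nd (nat_lit 78) (nat_lit 152) (nat_lit 0) (XT.lf (nat_lit 0) (nat_lit 2735010350) (nat_lit 304) (nat_lit 8151474605) (nat_lit 380) (nat_lit 13052360166) (nat_lit 24) (nat_lit 5) (nat_lit 28) (nat_lit 5) (nat_lit 29) (nat_lit 5) (nat_lit 315) (nat_lit 310) (nat_lit 275)) (XT.nd (nat_lit 78) (nat_lit 152) (nat_lit 0) (XT.lf (nat_lit 0) (nat_lit 14810816955) (nat_lit 380) (nat_lit 8829281120) (nat_lit 76) (nat_lit 2271834086) (nat_lit 24) (nat_lit 5) (nat_lit 29) (nat_lit 5) (nat_lit 25) (nat_lit 5) (nat_lit 316) (nat_lit 310) (nat_lit 274)) (XT.lf (nat_lit 0) (nat_lit 5474853133) (nat_lit 152) (nat_lit 14442378456) (nat_lit 228) (nat_lit 8174778106) (nat_lit 22) (nat_lit 5) (nat_lit 24) (nat_lit 5) (nat_lit 25) (nat_lit 5) (nat_lit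 317) (nat_lit 310) (nat_lit 273))))) (XT.nd (nat_lit 234) (nat_lit 228) (nat_lit 0) (XT.nd (nat_lit 78) (nat_lit 152) (nat_lit 0) (XT.lf (nat_lit 0) (nat_lit 22892226883) (nat_lit 152) (nat_lit 3339251752) (nat_lit 228) (nat_lit 4301376528) (nat_lit 22) (nat_lit 5) (nat_lit 24) (nat_lit 5) (nat_lit 25) (nat_lit 5) (nat_lit 318) (nat_lit 310) (nat_lit 272)) (XT.nd (nat_lit 78) (nat_lit 0) (nat_lit 0) (XT.lf (nat_lit 0) (nat_lit 966898897) (nat_lit 152) (nat_lit 23201293668) (nat_lit 76) (nat_lit 9046589029) (nat_lit 20) (nat_lit 5) (nat_lit 22) (nat_lit 5) (nat_lit 21) (nat_lit 5) (nat_lit 319) (nat_lit 310) (nat_lit 271)) (XT.lf (nat_lit 0) (nat_lit 7145711846) (nat_lit 152) (nat_lit 5471967658) (nat_lit 76) (nat_lit 23566516304) (nat_lit 20) (nat_lit 5) (nat_lit 22) (nat_lit 5) (nat_lit 21) (nat_lit 5) (nat_lit 320) (nat_lit 310) (nat_lit 270)))) (XT.nd (nat_lit 78) (nat_lit 76) (nat_lit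 0) (XT.lf (nat_lit 0) (nat_lit 14973365414) (nat_lit 228) (nat_lit 23207988973) (nat_lit 76) (nat_lit 1309386027) (nat_lit 18) (nat_lit 5) (nat_lit 21) (nat_lit 5) (nat_lit 19) (nat_lit 4) (nat_lit 321) (nat_lit 310) (nat_lit 269)) (XT.nd (nat_lit 78) (nat_lit 76) (nat_lit 0) (XT.lf (nat_lit 0) (nat_lit 24861876158) (nat_lit 228) (nat_lit 1971225621) (nat_lit 76) (nat_lit 16327176875) (nat_lit 18) (nat_lit 5) (nat_lit 21) (nat_lit 5) (nat_lit 19) (nat_lit 4) (nat_lit 322) (nat_lit 310) (nat_lit 268)) (XT.lf (nat_lit 0) (nat_lit 24624080331) (nat_lit 76) (nat_lit 12617224176) (nat_lit 152) (nat_lit 9987812899) (nat_lit 17) (nat_lit 5) (nat_lit 18) (nat_lit 5) (nat_lit 19) (nat_lit 4) (nat_lit 323) (nat_lit 310) (nat_lit 267))))))) (XT.nd (nat_lit 858) (nat_lit 304) (nat_lit 0) (XT.nd (nat_lit 390) (nat_lit 380) (nat_lit 0) (XT.nd (nat_lit 156) (nat_lit 152) (nat_lit 0) (XT.nd (nat_lit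 78) (nat_lit 0) (nat_lit 0) (XT.lf (nat_lit 0) (nat_lit 30523462) (nat_lit 152) (nat_lit 48162652826) (nat_lit 76) (nat_lit 3654369442) (nat_lit 15) (nat_lit 5) (nat_lit 17) (nat_lit 5) (nat_lit 16) (nat_lit 4) (nat_lit 324) (nat_lit 310) (nat_lit 266)) (XT.lf (nat_lit 0) (nat_lit 12356479944) (nat_lit 152) (nat_lit 21675302459) (nat_lit 76) (nat_lit 22781510130) (nat_lit 15) (nat_lit 5) (nat_lit 17) (nat_lit 5) (nat_lit 16) (nat_lit 4) (nat_lit 325) (nat_lit 310) (nat_lit 265))) (XT.nd (nat_lit 78) (nat_lit 76) (nat_lit 0) (XT.lf (nat_lit 0) (nat_lit 9624684510) (nat_lit 76) (nat_lit 17295371200) (nat_lit 152) (nat_lit 35545545879) (nat_lit 14) (nat_lit 5) (nat_lit 15) (nat_lit 5) (nat_lit 16) (nat_lit 4) (nat_lit 326) (nat_lit 310) (nat_lit 264)) (XT.nd (nat_lit 78) (nat_lit 76) (nat_lit 0) (XT.lf (nat_lit 0) (nat_lit 44926436496) (nat_lit 152) (nat_lit 20892508146) (nat_lit 0) (nat_lit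 2958079983) (nat_lit 14) (nat_lit 5) (nat_lit 16) (nat_lit 4) (nat_lit 14) (nat_lit 4) (nat_lit 327) (nat_lit 310) (nat_lit 263)) (XT.lf (nat_lit 0) (nat_lit 16476062597) (nat_lit 76) (nat_lit 50655261506) (nat_lit 76) (nat_lit 8679211442) (nat_lit 13) (nat_lit 4) (nat_lit 14) (nat_lit 5) (nat_lit 14) (nat_lit 4) (nat_lit 328) (nat_lit 310) (nat_lit 262))))) (XT.nd (nat_lit 234) (nat_lit 228) (nat_lit 0) (XT.nd (nat_lit 78) (nat_lit 76) (nat_lit 0) (XT.lf (nat_lit 0) (nat_lit 9123227699) (nat_lit 152) (nat_lit 22367800553) (nat_lit 76) (nat_lit 52183201347) (nat_lit 12) (nat_lit 5) (nat_lit 14) (nat_lit 5) (nat_lit 13) (nat_lit 4) (nat_lit 329) (nat_lit 310) (nat_lit 261)) (XT.nd (nat_lit 78) (nat_lit 0) (nat_lit 0) (XT.lf (nat_lit 0) (nat_lit 21644062183) (nat_lit 76) (nat_lit 7952505128) (nat_lit 152) (nat_lit 62925552530) (nat_lit 11) (nat_lit 5) (nat_lit 12) (nat_lit 5) (nat_lit 13)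 (nat_lit 4) (nat_lit 330) (nat_lit 310) (nat_lit 260)) (XT.lf (nat_lit 0) (nat_lit 55150428317) (nat_lit 152) (nat_lit 28611100831) (nat_lit 0) (nat_lit 18634240341) (nat_lit 11) (nat_lit 5) (nat_lit 13) (nat_lit 4) (nat_lit 11) (nat_lit 4) (nat_lit 331) (nat_lit 310) (nat_lit 259)))) (XT.nd (nat_lit 78) (nat_lit 152) (nat_lit 0) (XT.lf (nat_lit 0) (nat_lit 21521393844) (nat_lit 76) (nat_lit 64279760646) (nat_lit 76) (nat_lit 27759747615) (nat_lit 10) (nat_lit 4) (nat_lit 11) (nat_lit 5) (nat_lit 11) (nat_lit 4) (nat_lit 332) (nat_lit 310) (nat_lit 258)) (XT.nd (nat_lit 78) (nat_lit 152) (nat_lit 0) (XT.lf (nat_lit 0) (nat_lit 82377998330) (nat_lit 76) (nat_lit 40161335867) (nat_lit 76) (nat_lit 3637996702) (nat_lit 10) (nat_lit 4) (nat_lit 11) (nat_lit 5) (nat_lit 11) (nat_lit 4) (nat_lit 333) (nat_lit 310) (nat_lit 257)) (XT.lf (nat_lit 0) (nat_lit 11711158543) (nat_lit 76) (nat_lit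 10724836804) (nat_lit 152) (nat_lit 118028572939) (nat_lit 8) (nat_lit 5) (nat_lit 9) (nat_lit 5) (nat_lit 10) (nat_lit 4) (nat_lit 334) (nat_lit 310) (nat_lit 256)))))) (XT.nd (nat_lit 390) (nat_lit 152) (nat_lit 0) (XT.nd (nat_lit 156) (nat_lit 152) (nat_lit 0) (XT.nd (nat_lit 78) (nat_lit 0) (nat_lit 0) (XT.lf (nat_lit 0) (nat_lit 55399649764) (nat_lit 152) (nat_lit 77331081637) (nat_lit 0) (nat_lit 23635522381) (nat_lit 8) (nat_lit 5) (nat_lit 10) (nat_lit 4) (nat_lit 8) (nat_lit 4) (nat_lit 335) (nat_lit 310) (nat_lit 255)) (XT.lf (nat_lit 0) (nat_lit 93814076090) (nat_lit 152) (nat_lit 18715137173) (nat_lit 0) (nat_lit 62048046978) (nat_lit 8) (nat_lit 5) (nat_lit 10) (nat_lit 4) (nat_lit 8) (nat_lit 4) (nat_lit 336) (nat_lit 310) (nat_lit 254))) (XT.nd (nat_lit 78) (nat_lit 76) (nat_lit 0) (XT.lf (nat_lit 0) (nat_lit 53443236436) (nat_lit 76) (nat_lit 86756502320) (nat_lit 76)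 (nat_lit 54988819532) (nat_lit 7) (nat_lit 4) (nat_lit 8) (nat_lit 5) (nat_lit 8) (nat_lit 4) (nat_lit 337) (nat_lit 310) (nat_lit 253)) (XT.nd (nat_lit 78) (nat_lit 76) (nat_lit 0) (XT.lf (nat_lit 0) (nat_lit 138521200077) (nat_lit 76) (nat_lit 55996642156) (nat_lit 76) (nat_lit 24227521388) (nat_lit 7) (nat_lit 4) (nat_lit 8) (nat_lit 5) (nat_lit 8) (nat_lit 4) (nat_lit 338) (nat_lit 310) (nat_lit 252)) (XT.lf (nat_lit 0) (nat_lit 10152130480) (nat_lit 152) (nat_lit 9943290651) (nat_lit 76) (nat_lit 225671533258) (nat_lit 6) (nat_lit 5) (nat_lit 8) (nat_lit 5) (nat_lit 7) (nat_lit 4) (nat_lit 339) (nat_lit 310) (nat_lit 251))))) (XT.nd (nat_lit 234) (nat_lit 76) (nat_lit 0) (XT.nd (nat_lit 78) (nat_lit 0) (nat_lit 0) (XT.lf (nat_lit 0) (nat_lit 51457651003) (nat_lit 152) (nat_lit 200743380471) (nat_lit 0) (nat_lit 23830295782) (nat_lit 5) (nat_lit 5) (nat_lit 7) (nat_lit 4) (nat_lit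 5) (nat_lit 4) (nat_lit 340) (nat_lit 310) (nat_lit 250)) (XT.nd (nat_lit 78) (nat_lit 0) (nat_lit 0) (XT.lf (nat_lit 0) (nat_lit 100457533375) (nat_lit 152) (nat_lit 137323687365) (nat_lit 0) (nat_lit 72829355984) (nat_lit 5) (nat_lit 5) (nat_lit 7) (nat_lit 4) (nat_lit 5) (nat_lit 4) (nat_lit 341) (nat_lit 310) (nat_lit 249)) (XT.lf (nat_lit 0) (nat_lit 156804872380) (nat_lit 152) (nat_lit 64396240672) (nat_lit 0) (nat_lit 129175980059) (nat_lit 5) (nat_lit 5) (nat_lit 7) (nat_lit 4) (nat_lit 5) (nat_lit 4) (nat_lit 342) (nat_lit 310) (nat_lit 248)))) (XT.nd (nat_lit 78) (nat_lit 0) (nat_lit 0) (XT.lf (nat_lit 0) (nat_lit 21368140596) (nat_lit 76) (nat_lit 201118784493) (nat_lit 76) (nat_lit 173489270494) (nat_lit 4) (nat_lit 4) (nat_lit 5) (nat_lit 5) (nat_lit 5) (nat_lit 4) (nat_lit 343) (nat_lit 310) (nat_lit 247)) (XT.nd (nat_lit 78) (nat_lit 0) (nat_lit 0) (XT.lf (nat_lit 0) (nat_lit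 127230121855) (nat_lit 76) (nat_lit 174155242428) (nat_lit 76) (nat_lit 146525187839) (nat_lit 4) (nat_lit 4) (nat_lit 5) (nat_lit 5) (nat_lit 5) (nat_lit 4) (nat_lit 344) (nat_lit 310) (nat_lit 246)) (XT.lf (nat_lit 0) (nat_lit 248967646808) (nat_lit 76) (nat_lit 143149106421) (nat_lit 76) (nat_lit 115518581754) (nat_lit 4) (nat_lit 4) (nat_lit 5) (nat_lit 5) (nat_lit 5) (nat_lit 4) (nat_lit 345) (nat_lit 310) (nat_lit 245))))))))
noncomputable def xc68 : XT := (XT.nd (nat_lit 1638) (nat_lit 0) (nat_lit 0) (XT.nd (nat_lit 780) (nat_lit 76) (nat_lit 0) (XT.nd (nat_lit 390) (nat_lit 0) (nat_lit 0) (XT.nd (nat_lit 156) (nat_lit 152) (nat_lit 0) (XT.nd (nat_lit 78) (nat_lit 0) (nat_lit 0) (XT.lf (nat_lit 0) (nat_lit 388962536595) (nat_lit 76) (nat_lit 107493734681) (nat_lit 76) (nat_lit 79862801250) (nat_lit 4) (nat_lit 4) (nat_lit 5) (nat_lit 5) (nat_lit 5) (nat_lit 4) (nat_lit 346) (nat_lit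 310) (nat_lit 244)) (XT.lf (nat_lit 0) (nat_lit 549953821668) (nat_lit 76) (nat_lit 66491522107) (nat_lit 76) (nat_lit 38860233230) (nat_lit 4) (nat_lit 4) (nat_lit 5) (nat_lit 5) (nat_lit 5) (nat_lit 4) (nat_lit 347) (nat_lit 310) (nat_lit 243))) (XT.nd (nat_lit 78) (nat_lit 76) (nat_lit 0) (XT.lf (nat_lit 0) (nat_lit 7553193464) (nat_lit 152) (nat_lit 11392232012) (nat_lit 76) (nat_lit 727143312032) (nat_lit 3) (nat_lit 5) (nat_lit 5) (nat_lit 5) (nat_lit 4) (nat_lit 4) (nat_lit 348) (nat_lit 310) (nat_lit 242)) (XT.nd (nat_lit 78) (nat_lit 0) (nat_lit 0) (XT.lf (nat_lit 0) (nat_lit 63031368344) (nat_lit 152) (nat_lit 747264580431) (nat_lit 0) (nat_lit 39003658144) (nat_lit 2) (nat_lit 5) (nat_lit 4) (nat_lit 4) (nat_lit 2) (nat_lit 4) (nat_lit 349) (nat_lit 310) (nat_lit 241)) (XT.lf (nat_lit 0) (nat_lit 128356211566) (nat_lit 152) (nat_lit 735078855903) (nat_lit 0) (nat_lit 104328298138)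 (nat_lit 2) (nat_lit 5) (nat_lit 4) (nat_lit 4) (nat_lit 2) (nat_lit 4) (nat_lit 350) (nat_lit 310) (nat_lit 240))))) (XT.nd (nat_lit 156) (nat_lit 0) (nat_lit 0) (XT.nd (nat_lit 78) (nat_lit 0) (nat_lit 0) (XT.lf (nat_lit 0) (nat_lit 203478840982) (nat_lit 152) (nat_lit 721067237484) (nat_lit 0) (nat_lit 179450750835) (nat_lit 2) (nat_lit 5) (nat_lit 4) (nat_lit 4) (nat_lit 2) (nat_lit 4) (nat_lit 351) (nat_lit 310) (nat_lit 239)) (XT.lf (nat_lit 0) (nat_lit 289869047168) (nat_lit 152) (nat_lit 704955584813) (nat_lit 0) (nat_lit 265840803351) (nat_lit 2) (nat_lit 5) (nat_lit 4) (nat_lit 4) (nat_lit 2) (nat_lit 4) (nat_lit 352) (nat_lit 310) (nat_lit 238))) (XT.nd (nat_lit 78) (nat_lit 0) (nat_lit 0) (XT.lf (nat_lit 0) (nat_lit 389217073288) (nat_lit 152) (nat_lit 686428669903) (nat_lit 0) (nat_lit 365188695846) (nat_lit 2) (nat_lit 5) (nat_lit 4) (nat_lit 4) (nat_lit 2) (nat_lit 4) (nat_lit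 353) (nat_lit 310) (nat_lit 237)) (XT.nd (nat_lit 78) (nat_lit 0) (nat_lit 0) (XT.lf (nat_lit 0) (nat_lit 503466685071) (nat_lit 152) (nat_lit 665124009637) (nat_lit 0) (nat_lit 479438191433) (nat_lit 2) (nat_lit 5) (nat_lit 4) (nat_lit 4) (nat_lit 2) (nat_lit 4) (nat_lit 354) (nat_lit 310) (nat_lit 236)) (XT.lf (nat_lit 0) (nat_lit 634853201008) (nat_lit 152) (nat_lit 640624773704) (nat_lit 0) (nat_lit 610824606329) (nat_lit 2) (nat_lit 5) (nat_lit 4) (nat_lit 4) (nat_lit 2) (nat_lit 4) (nat_lit 355) (nat_lit 310) (nat_lit 235)))))) (XT.nd (nat_lit 390) (nat_lit 76) (nat_lit 0) (XT.nd (nat_lit 156) (nat_lit 0) (nat_lit 0) (XT.nd (nat_lit 78) (nat_lit 0) (nat_lit 0) (XT.lf (nat_lit 0) (nat_lit 785947226845) (nat_lit 152) (nat_lit 612451629228) (nat_lit 0) (nat_lit 761918544306) (nat_lit 2) (nat_lit 5) (nat_lit 4) (nat_lit 4) (nat_lit 2) (nat_lit 4) (nat_lit 356) (nat_lit 310) (nat_lit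 234)) (XT.lf (nat_lit 0) (nat_lit 959704950045) (nat_lit 152) (nat_lit 580053362512) (nat_lit 0) (nat_lit 935676191105) (nat_lit 2) (nat_lit 5) (nat_lit 4) (nat_lit 4) (nat_lit 2) (nat_lit 4) (nat_lit 357) (nat_lit 310) (nat_lit 233))) (XT.nd (nat_lit 78) (nat_lit 0) (nat_lit 0) (XT.lf (nat_lit 0) (nat_lit 1159525978236) (nat_lit 152) (nat_lit 542796094426) (nat_lit 0) (nat_lit 1135497152860) (nat_lit 2) (nat_lit 5) (nat_lit 4) (nat_lit 4) (nat_lit 2) (nat_lit 4) (nat_lit 358) (nat_lit 310) (nat_lit 232)) (XT.nd (nat_lit 78) (nat_lit 0) (nat_lit 0) (XT.lf (nat_lit 0) (nat_lit 1389319853273) (nat_lit 152) (nat_lit 499950878419) (nat_lit 0) (nat_lit 1365290970128) (nat_lit 2) (nat_lit 5) (nat_lit 4) (nat_lit 4) (nat_lit 2) (nat_lit 4) (nat_lit 359) (nat_lit 310) (nat_lit 231)) (XT.lf (nat_lit 0) (nat_lit 1653582542277) (nat_lit 152) (nat_lit 450679438526) (nat_lit 0) (nat_lit 1629553608897)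 (nat_lit 2) (nat_lit 5) (nat_lit 4) (nat_lit 4) (nat_lit 2) (nat_lit 4) (nat_lit 360) (nat_lit 310) (nat_lit 230))))) (XT.nd (nat_lit 234) (nat_lit 76) (nat_lit 0) (XT.nd (nat_lit 78) (nat_lit 0) (nat_lit 0) (XT.lf (nat_lit 0) (nat_lit 1957484402206) (nat_lit 152) (nat_lit 394017768315) (nat_lit 0) (nat_lit 1933455425143) (nat_lit 2) (nat_lit 5) (nat_lit 4) (nat_lit 4) (nat_lit 2) (nat_lit 4) (nat_lit 361) (nat_lit 310) (nat_lit 229)) (XT.nd (nat_lit 78) (nat_lit 0) (nat_lit 0) (XT.lf (nat_lit 0) (nat_lit 2306971339016) (nat_lit 152) (nat_lit 328857269890) (nat_lit 0) (nat_lit 2282942323969) (nat_lit 2) (nat_lit 5) (nat_lit 4) (nat_lit 4) (nat_lit 2) (nat_lit 4) (nat_lit 362) (nat_lit 310) (nat_lit 228)) (XT.lf (nat_lit 0) (nat_lit 2708881140601) (nat_lit 152) (nat_lit 253923063934) (nat_lit 0) (nat_lit 2684852092523) (nat_lit 2) (nat_lit 5) (nat_lit 4) (nat_lit 4) (nat_lit 2) (nat_lit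 4) (nat_lit 363) (nat_lit 310) (nat_lit 227)))) (XT.nd (nat_lit 78) (nat_lit 76) (nat_lit 0) (XT.lf (nat_lit 0) (nat_lit 3171077259600) (nat_lit 152) (nat_lit 167749046418) (nat_lit 0) (nat_lit 3147048182800) (nat_lit 2) (nat_lit 5) (nat_lit 4) (nat_lit 4) (nat_lit 2) (nat_lit 4) (nat_lit 364) (nat_lit 310) (nat_lit 226)) (XT.nd (nat_lit 78) (nat_lit 76) (nat_lit 0) (XT.lf (nat_lit 0) (nat_lit 3702602663559) (nat_lit 152) (nat_lit 68649203955) (nat_lit 0) (nat_lit 3678573561784) (nat_lit 2) (nat_lit 5) (nat_lit 4) (nat_lit 4) (nat_lit 2) (nat_lit 4) (nat_lit 365) (nat_lit 310) (nat_lit 225)) (XT.lf (nat_lit 0) (nat_lit 49743921271) (nat_lit 76) (nat_lit 4266172630985) (nat_lit 76) (nat_lit 4242143507491) (nat_lit 1) (nat_lit 4) (nat_lit 2) (nat_lit 5) (nat_lit 2) (nat_lit 4) (nat_lit 366) (nat_lit 310) (nat_lit 224))))))) (XT.nd (nat_lit 858) (nat_lit 0) (nat_lit 0) (XT.nd (nat_lit 390)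 (nat_lit 0) (nat_lit 0) (XT.nd (nat_lit 156) (nat_lit 0) (nat_lit 0) (XT.nd (nat_lit 78) (nat_lit 0) (nat_lit 0) (XT.lf (nat_lit 0) (nat_lit 193611019195) (nat_lit 76) (nat_lit 4831204876150) (nat_lit 76) (nat_lit 4807175733772) (nat_lit 1) (nat_lit 4) (nat_lit 2) (nat_lit 5) (nat_lit 2) (nat_lit 4) (nat_lit 367) (nat_lit 310) (nat_lit 223)) (XT.lf (nat_lit 0) (nat_lit 359057981386) (nat_lit 76) (nat_lit 5480992062837) (nat_lit 76) (nat_lit 5456962904037) (nat_lit 1) (nat_lit 4) (nat_lit 2) (nat_lit 5) (nat_lit 2) (nat_lit 4) (nat_lit 368) (nat_lit 310) (nat_lit 222))) (XT.nd (nat_lit 78) (nat_lit 0) (nat_lit 0) (XT.lf (nat_lit 0) (nat_lit 549321813624) (nat_lit 76) (nat_lit 6228247418611) (nat_lit 76) (nat_lit 6204218245531) (nat_lit 1) (nat_lit 4) (nat_lit 2) (nat_lit 5) (nat_lit 2) (nat_lit 4) (nat_lit 369) (nat_lit 310) (nat_lit 221)) (XT.nd (nat_lit 78) (nat_lit 0) (nat_lit 0) (XT.lf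 (nat_lit 0) (nat_lit 768125069150) (nat_lit 76) (nat_lit 7087591156954) (nat_lit 76) (nat_lit 7063561971456) (nat_lit 1) (nat_lit 4) (nat_lit 2) (nat_lit 5) (nat_lit 2) (nat_lit 4) (nat_lit 370) (nat_lit 310) (nat_lit 220)) (XT.lf (nat_lit 0) (nat_lit 1019748681224) (nat_lit 76) (nat_lit 8075836524921) (nat_lit 76) (nat_lit 8051807328626) (nat_lit 1) (nat_lit 4) (nat_lit 2) (nat_lit 5) (nat_lit 2) (nat_lit 4) (nat_lit 371) (nat_lit 310) (nat_lit 219))))) (XT.nd (nat_lit 234) (nat_lit 0) (nat_lit 0) (XT.nd (nat_lit 78) (nat_lit 0) (nat_lit 0) (XT.lf (nat_lit 0) (nat_lit 1309115720516) (nat_lit 76) (nat_lit 9212318757972) (nat_lit 76) (nat_lit 9188289552287) (nat_lit 1) (nat_lit 4) (nat_lit 2) (nat_lit 5) (nat_lit 2) (nat_lit 4) (nat_lit 372) (nat_lit 310) (nat_lit 218)) (XT.nd (nat_lit 78) (nat_lit 0) (nat_lit 0) (XT.lf (nat_lit 0) (nat_lit 1641887716057) (nat_lit 76) (nat_lit 10519273378058)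 (nat_lit 76) (nat_lit 10495244164209) (nat_lit 1) (nat_lit 4) (nat_lit 2) (nat_lit 5) (nat_lit 2) (nat_lit 4) (nat_lit 373) (nat_lit 310) (nat_lit 217)) (XT.lf (nat_lit 0) (nat_lit 2024575424280) (nat_lit 76) (nat_lit 12022271236441) (nat_lit 76) (nat_lit 11998242015493) (nat_lit 1) (nat_lit 4) (nat_lit 2) (nat_lit 5) (nat_lit 2) (nat_lit 4) (nat_lit 374) (nat_lit 310) (nat_lit 216)))) (XT.nd (nat_lit 78) (nat_lit 0) (nat_lit 0) (XT.lf (nat_lit 0) (nat_lit 2464666213391) (nat_lit 76) (nat_lit 13750718812961) (nat_lit 76) (nat_lit 13726689585839) (nat_lit 1) (nat_lit 4) (nat_lit 2) (nat_lit 5) (nat_lit 2) (nat_lit 4) (nat_lit 375) (nat_lit 310) (nat_lit 215)) (XT.nd (nat_lit 78) (nat_lit 0) (nat_lit 0) (XT.lf (nat_lit 0) (nat_lit 2970770555350) (nat_lit 76) (nat_lit 15738433560200) (nat_lit 76) (nat_lit 15714404327710) (nat_lit 1) (nat_lit 4) (nat_lit 2) (nat_lit 5) (nat_lit 2) (nat_lit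 4) (nat_lit 376) (nat_lit 310) (nat_lit 214)) (XT.lf (nat_lit 0) (nat_lit 3552790491630) (nat_lit 76) (nat_lit 18024305549300) (nat_lit 76) (nat_lit 18000276312142) (nat_lit 1) (nat_lit 4) (nat_lit 2) (nat_lit 5) (nat_lit 2) (nat_lit 4) (nat_lit 377) (nat_lit 310) (nat_lit 213)))))) (XT.nd (nat_lit 390) (nat_lit 0) (nat_lit 0) (XT.nd (nat_lit 156) (nat_lit 0) (nat_lit 0) (XT.nd (nat_lit 78) (nat_lit 0) (nat_lit 0) (XT.lf (nat_lit 0) (nat_lit 4222113368811) (nat_lit 76) (nat_lit 20653058362657) (nat_lit 76) (nat_lit 20629029121440) (nat_lit 1) (nat_lit 4) (nat_lit 2) (nat_lit 5) (nat_lit 2) (nat_lit 4) (nat_lit 378) (nat_lit 310) (nat_lit 212)) (XT.lf (nat_lit 0) (nat_lit 4991834634489) (nat_lit 76) (nat_lit 23676124120533) (nat_lit 76) (nat_lit 23652094875785) (nat_lit 1) (nat_lit 4) (nat_lit 2) (nat_lit 5) (nat_lit 2) (nat_lit 4) (nat_lit 379) (nat_lit 310) (nat_lit 211))) (XT.nd (nat_lit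 78) (nat_lit 0) (nat_lit 0) (XT.lf (nat_lit 0) (nat_lit 5877014052559) (nat_lit 76) (nat_lit 27152649761667) (nat_lit 76) (nat_lit 27128620513850) (nat_lit 1) (nat_lit 4) (nat_lit 2) (nat_lit 5) (nat_lit 2) (nat_lit 4) (nat_lit 380) (nat_lit 310) (nat_lit 210)) (XT.nd (nat_lit 78) (nat_lit 0) (nat_lit 0) (XT.lf (nat_lit 0) (nat_lit 6894970350765) (nat_lit 76) (nat_lit 31150654265996) (nat_lit 76) (nat_lit 31126625015510) (nat_lit 1) (nat_lit 4) (nat_lit 2) (nat_lit 5) (nat_lit 2) (nat_lit 4) (nat_lit 381) (nat_lit 310) (nat_lit 209)) (XT.lf (nat_lit 0) (nat_lit 8065620065376) (nat_lit 76) (nat_lit 35748359460777) (nat_lit 76) (nat_lit 35724330207971) (nat_lit 1) (nat_lit 4) (nat_lit 2) (nat_lit 5) (nat_lit 2) (nat_lit 4) (nat_lit 382) (nat_lit 310) (nat_lit 208))))) (XT.nd (nat_lit 234) (nat_lit 0) (nat_lit 0) (XT.nd (nat_lit 78) (nat_lit 0) (nat_lit 0) (XT.lf (nat_lit 0) (nat_lit 9411867212548)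 (nat_lit 76) (nat_lit 41035720447649) (nat_lit 76) (nat_lit 41011691192824) (nat_lit 1) (nat_lit 4) (nat_lit 2) (nat_lit 5) (nat_lit 2) (nat_lit 4) (nat_lit 383) (nat_lit 310) (nat_lit 207)) (XT.nd (nat_lit 78) (nat_lit 0) (nat_lit 0) (XT.lf (nat_lit 0) (nat_lit 10960051410378) (nat_lit 76) (nat_lit 47116185593745) (nat_lit 76) (nat_lit 47092156337166) (nat_lit 1) (nat_lit 4) (nat_lit 2) (nat_lit 5) (nat_lit 2) (nat_lit 4) (nat_lit 384) (nat_lit 310) (nat_lit 206)) (XT.lf (nat_lit 0) (nat_lit 12740463219258) (nat_lit 76) (nat_lit 54108720521489) (nat_lit 76) (nat_lit 54084691263384) (nat_lit 1) (nat_lit 4) (nat_lit 2) (nat_lit 5) (nat_lit 2) (nat_lit 4) (nat_lit 385) (nat_lit 310) (nat_lit 205)))) (XT.nd (nat_lit 78) (nat_lit 0) (nat_lit 0) (XT.lf (nat_lit 0) (nat_lit 14787936783274) (nat_lit 76) (nat_lit 62150135696859) (nat_lit 76) (nat_lit 62126106437427) (nat_lit 1) (nat_lit 4) (nat_lit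 2) (nat_lit 5) (nat_lit 2) (nat_lit 4) (nat_lit 386) (nat_lit 310) (nat_lit 204)) (XT.nd (nat_lit 78) (nat_lit 0) (nat_lit 0) (XT.lf (nat_lit 0) (nat_lit 17142531367811) (nat_lit 76) (nat_lit 71397763155895) (nat_lit 76) (nat_lit 71373733895308) (nat_lit 1) (nat_lit 4) (nat_lit 2) (nat_lit 5) (nat_lit 2) (nat_lit 4) (nat_lit 387) (nat_lit 310) (nat_lit 203)) (XT.lf (nat_lit 0) (nat_lit 19850315127782) (nat_lit 76) (nat_lit 82032534740185) (nat_lit 76) (nat_lit 82008505478595) (nat_lit 1) (nat_lit 4) (nat_lit 2) (nat_lit 5) (nat_lit 2) (nat_lit 4) (nat_lit 388) (nat_lit 310) (nat_lit 202))))))))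
noncomputable def xc69 : XT := (XT.nd (nat_lit 41730) (nat_lit 0) (nat_lit 228) (XT.nd (nat_lit 40872) (nat_lit 0) (nat_lit 1064) (XT.nd (nat_lit 390) (nat_lit 0) (nat_lit 0) (XT.nd (nat_lit 156) (nat_lit 0) (nat_lit 0) (XT.nd (nat_lit 78) (nat_lit 0) (nat_lit 0) (XT.lf (nat_lit 0) (nat_lit 40845761980772) (nat_lit 76) (nat_lit 164491772034683) (nat_lit 76) (nat_lit 164467742769729) (nat_lit 1) (nat_lit 4) (nat_lit 2) (nat_lit 5) (nat_lit 2) (nat_lit 4) (nat_lit 393) (nat_lit 310) (nat_lit 197)) (XT.lf (nat_lit 0) (nat_lit 47109030286342) (nat_lit 76) (nat_lit 189090644975012) (nat_lit 76) (nat_lit 189066615709625) (nat_lit 1) (nat_lit 4) (nat_lit 2) (nat_lit 5) (nat_lit 2) (nat_lit 4) (nat_lit 394) (nat_lit 310) (nat_lit 196))) (XT.nd (nat_lit 78) (nat_lit 0) (nat_lit 0) (XT.lf (nat_lit 0) (nat_lit 54311788833145) (nat_lit 76) (nat_lit 217379348858798) (nat_lit 76) (nat_lit 217355319593033)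 (nat_lit 1) (nat_lit 4) (nat_lit 2) (nat_lit 5) (nat_lit 2) (nat_lit 4) (nat_lit 395) (nat_lit 310) (nat_lit 195)) (XT.nd (nat_lit 78) (nat_lit 0) (nat_lit 0) (XT.lf (nat_lit 0) (nat_lit 62594961157965) (nat_lit 76) (nat_lit 249911358327243) (nat_lit 76) (nat_lit 249887329061151) (nat_lit 1) (nat_lit 4) (nat_lit 2) (nat_lit 5) (nat_lit 2) (nat_lit 4) (nat_lit 396) (nat_lit 310) (nat_lit 194)) (XT.lf (nat_lit 0) (nat_lit 72120609328026) (nat_lit 76) (nat_lit 287323169217774) (nat_lit 76) (nat_lit 287299139951397) (nat_lit 1) (nat_lit 4) (nat_lit 2) (nat_lit 5) (nat_lit 2) (nat_lit 4) (nat_lit 397) (nat_lit 310) (nat_lit 193))))) (XT.nd (nat_lit 40248) (nat_lit 0) (nat_lit 1976) (XT.nd (nat_lit 40092) (nat_lit 0) (nat_lit 1900) (XT.lf (nat_lit 0) (nat_lit 83075104720570) (nat_lit 76) (nat_lit 330346751743467) (nat_lit 76) (nat_lit 330322722476842) (nat_lit 1) (nat_lit 4) (nat_lit 2) (nat_lit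 5) (nat_lit 2) (nat_lit 4) (nat_lit 398) (nat_lit 310) (nat_lit 192)) (XT.nd (nat_lit 78) (nat_lit 0) (nat_lit 0) (XT.lf (nat_lit 0) (nat_lit 1701500945) (nat_lit 380) (nat_lit 3904636367) (nat_lit 380) (nat_lit 3904636367) (nat_lit 26) (nat_lit 3) (nat_lit 31) (nat_lit 3) (nat_lit 31) (nat_lit 5) (nat_lit 311) (nat_lit 311) (nat_lit 278)) (XT.lf (nat_lit 76) (nat_lit 1475327722) (nat_lit 0) (nat_lit 2411948577) (nat_lit 380) (nat_lit 16526167878) (nat_lit 27) (nat_lit 5) (nat_lit 26) (nat_lit 3) (nat_lit 31) (nat_lit 5) (nat_lit 312) (nat_lit 311) (nat_lit 277)))) (XT.nd (nat_lit 78) (nat_lit 0) (nat_lit 0) (XT.lf (nat_lit 0) (nat_lit 5160830832) (nat_lit 304) (nat_lit 9285314969) (nat_lit 380) (nat_lit 7460548299) (nat_lit 27) (nat_lit 5) (nat_lit 31) (nat_lit 5) (nat_lit 32) (nat_lit 5) (nat_lit 313) (nat_lit 311) (nat_lit 276)) (XT.nd (nat_lit 78) (nat_lit 0) (nat_lit 76) (XT.lf (nat_lit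 76) (nat_lit 1843769220) (nat_lit 0) (nat_lit 4946588672) (nat_lit 380) (nat_lit 16808888743) (nat_lit 28) (nat_lit 5) (nat_lit 27) (nat_lit 5) (nat_lit 32) (nat_lit 5) (nat_lit 314) (nat_lit 311) (nat_lit 275)) (XT.lf (nat_lit 0) (nat_lit 9396816767) (nat_lit 304) (nat_lit 10081490459) (nat_lit 76) (nat_lit 5957548127) (nat_lit 28) (nat_lit 5) (nat_lit 32) (nat_lit 5) (nat_lit 29) (nat_lit 5) (nat_lit 315) (nat_lit 311) (nat_lit 274)))))) (XT.nd (nat_lit 390) (nat_lit 380) (nat_lit 0) (XT.nd (nat_lit 156) (nat_lit 304) (nat_lit 0) (XT.nd (nat_lit 78) (nat_lit 0) (nat_lit 0) (XT.lf (nat_lit 0) (nat_lit 3389134188) (nat_lit 304) (nat_lit 9360554637) (nat_lit 380) (nat_lit 14744992262) (nat_lit 24) (nat_lit 5) (nat_lit 28) (nat_lit 5) (nat_lit 29) (nat_lit 5) (nat_lit 316) (nat_lit 311) (nat_lit 273)) (XT.lf (nat_lit 0) (nat_lit 17233131653) (nat_lit 380) (nat_lit 9911674821) (nat_lit 76)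 (nat_lit 2623415050) (nat_lit 24) (nat_lit 5) (nat_lit 29) (nat_lit 5) (nat_lit 25) (nat_lit 5) (nat_lit 317) (nat_lit 311) (nat_lit 272))) (XT.nd (nat_lit 78) (nat_lit 152) (nat_lit 0) (XT.lf (nat_lit 0) (nat_lit 6527079640) (nat_lit 152) (nat_lit 16561816761) (nat_lit 228) (nat_lit 9188957834) (nat_lit 22) (nat_lit 5) (nat_lit 24) (nat_lit 5) (nat_lit 25) (nat_lit 5) (nat_lit 318) (nat_lit 311) (nat_lit 271)) (XT.nd (nat_lit 78) (nat_lit 152) (nat_lit 0) (XT.lf (nat_lit 0) (nat_lit 26526929208) (nat_lit 152) (nat_lit 3799340852) (nat_lit 228) (nat_lit 4762203018) (nat_lit 22) (nat_lit 5) (nat_lit 24) (nat_lit 5) (nat_lit 25) (nat_lit 5) (nat_lit 319) (nat_lit 311) (nat_lit 270)) (XT.lf (nat_lit 0) (nat_lit 1268783633) (nat_lit 152) (nat_lit 26452601762) (nat_lit 76) (nat_lit 10451859174) (nat_lit 20) (nat_lit 5) (nat_lit 22) (nat_lit 5) (nat_lit 21) (nat_lit 5) (nat_lit 320) (nat_lit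 311) (nat_lit 269))))) (XT.nd (nat_lit 234) (nat_lit 228) (nat_lit 0) (XT.nd (nat_lit 78) (nat_lit 152) (nat_lit 0) (XT.lf (nat_lit 0) (nat_lit 8353959841) (nat_lit 152) (nat_lit 6093731541) (nat_lit 76) (nat_lit 27143477916) (nat_lit 20) (nat_lit 5) (nat_lit 22) (nat_lit 5) (nat_lit 21) (nat_lit 5) (nat_lit 321) (nat_lit 311) (nat_lit 268)) (XT.nd (nat_lit 78) (nat_lit 0) (nat_lit 0) (XT.lf (nat_lit 0) (nat_lit 17348468216) (nat_lit 228) (nat_lit 26482691348) (nat_lit 76) (nat_lit 1563655736) (nat_lit 18) (nat_lit 5) (nat_lit 21) (nat_lit 5) (nat_lit 19) (nat_lit 4) (nat_lit 322) (nat_lit 311) (nat_lit 267)) (XT.lf (nat_lit 0) (nat_lit 28703416704) (nat_lit 228) (nat_lit 2087347750) (nat_lit 76) (nat_lit 18826568020) (nat_lit 18) (nat_lit 5) (nat_lit 21) (nat_lit 5) (nat_lit 19) (nat_lit 4) (nat_lit 323) (nat_lit 311) (nat_lit 266)))) (XT.nd (nat_lit 78) (nat_lit 152) (nat_lit 0) (XT.lf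 (nat_lit 0) (nat_lit 28489092199) (nat_lit 76) (nat_lit 14443121913) (nat_lit 152) (nat_lit 11365434154) (nat_lit 17) (nat_lit 5) (nat_lit 18) (nat_lit 5) (nat_lit 19) (nat_lit 4) (nat_lit 324) (nat_lit 311) (nat_lit 265)) (XT.nd (nat_lit 78) (nat_lit 0) (nat_lit 0) (XT.lf (nat_lit 0) (nat_lit 140750479) (nat_lit 152) (nat_lit 55200537957) (nat_lit 76) (nat_lit 4267443836) (nat_lit 15) (nat_lit 5) (nat_lit 17) (nat_lit 5) (nat_lit 16) (nat_lit 4) (nat_lit 325) (nat_lit 311) (nat_lit 264)) (XT.lf (nat_lit 0) (nat_lit 14301820194) (nat_lit 152) (nat_lit 24764412791) (nat_lit 76) (nat_lit 26255187934) (nat_lit 15) (nat_lit 5) (nat_lit 17) (nat_lit 5) (nat_lit 16) (nat_lit 4) (nat_lit 326) (nat_lit 311) (nat_lit 263))))))) (XT.nd (nat_lit 858) (nat_lit 304) (nat_lit 0) (XT.nd (nat_lit 390) (nat_lit 228) (nat_lit 0) (XT.nd (nat_lit 156) (nat_lit 228) (nat_lit 0) (XT.nd (nat_lit 78) (nat_lit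 0) (nat_lit 0) (XT.lf (nat_lit 0) (nat_lit 11223200176) (nat_lit 76) (nat_lit 19821159809) (nat_lit 152) (nat_lit 40778063321) (nat_lit 14) (nat_lit 5) (nat_lit 15) (nat_lit 5) (nat_lit 16) (nat_lit 4) (nat_lit 327) (nat_lit 311) (nat_lit 262)) (XT.lf (nat_lit 0) (nat_lit 51742908982) (nat_lit 152) (nat_lit 23882911007) (nat_lit 0) (nat_lit 3456067813) (nat_lit 14) (nat_lit 5) (nat_lit 16) (nat_lit 4) (nat_lit 14) (nat_lit 4) (nat_lit 328) (nat_lit 311) (nat_lit 261))) (XT.nd (nat_lit 78) (nat_lit 152) (nat_lit 0) (XT.lf (nat_lit 0) (nat_lit 19084423832) (nat_lit 76) (nat_lit 58189667172) (nat_lit 76) (nat_lit 9897008574) (nat_lit 13) (nat_lit 4) (nat_lit 14) (nat_lit 5) (nat_lit 14) (nat_lit 4) (nat_lit 329) (nat_lit 311) (nat_lit 260)) (XT.nd (nat_lit 78) (nat_lit 76) (nat_lit 0) (XT.lf (nat_lit 0) (nat_lit 10558319501) (nat_lit 152) (nat_lit 25597330304) (nat_lit 76) (nat_lit 60059680701)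 (nat_lit 12) (nat_lit 5) (nat_lit 14) (nat_lit 5) (nat_lit 13) (nat_lit 4) (nat_lit 330) (nat_lit 311) (nat_lit 259)) (XT.lf (nat_lit 0) (nat_lit 25010600918) (nat_lit 76) (nat_lit 9088337204) (nat_lit 152) (nat_lit 72292029981) (nat_lit 11) (nat_lit 5) (nat_lit 12) (nat_lit 5) (nat_lit 13) (nat_lit 4) (nat_lit 331) (nat_lit 311) (nat_lit 258))))) (XT.nd (nat_lit 234) (nat_lit 152) (nat_lit 0) (XT.nd (nat_lit 78) (nat_lit 76) (nat_lit 0) (XT.lf (nat_lit 0) (nat_lit 63479729757) (nat_lit 152) (nat_lit 32792298943) (nat_lit 0) (nat_lit 21474563583) (nat_lit 11) (nat_lit 5) (nat_lit 13) (nat_lit 4) (nat_lit 11) (nat_lit 4) (nat_lit 332) (nat_lit 311) (nat_lit 257)) (XT.nd (nat_lit 78) (nat_lit 0) (nat_lit 0) (XT.lf (nat_lit 0) (nat_lit 24855048706) (nat_lit 76) (nat_lit 73869981932) (nat_lit 76) (nat_lit 31861923467) (nat_lit 10) (nat_lit 4) (nat_lit 11) (nat_lit 5) (nat_lit 11) (nat_lit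 4) (nat_lit 333) (nat_lit 311) (nat_lit 256)) (XT.lf (nat_lit 0) (nat_lit 94826390066) (nat_lit 76) (nat_lit 46140542498) (nat_lit 76) (nat_lit 4129968998) (nat_lit 10) (nat_lit 4) (nat_lit 11) (nat_lit 5) (nat_lit 11) (nat_lit 4) (nat_lit 334) (nat_lit 311) (nat_lit 255)))) (XT.nd (nat_lit 78) (nat_lit 0) (nat_lit 0) (XT.lf (nat_lit 0) (nat_lit 13559942361) (nat_lit 76) (nat_lit 12287826405) (nat_lit 152) (nat_lit 135679510322) (nat_lit 8) (nat_lit 5) (nat_lit 9) (nat_lit 5) (nat_lit 10) (nat_lit 4) (nat_lit 335) (nat_lit 311) (nat_lit 254)) (XT.nd (nat_lit 78) (nat_lit 0) (nat_lit 0) (XT.lf (nat_lit 0) (nat_lit 63751569353) (nat_lit 152) (nat_lit 88846230273) (nat_lit 0) (nat_lit 27217080470) (nat_lit 8) (nat_lit 5) (nat_lit 10) (nat_lit 4) (nat_lit 8) (nat_lit 4) (nat_lit 336) (nat_lit 311) (nat_lit 253)) (XT.lf (nat_lit 0) (nat_lit 107922685002) (nat_lit 152) (nat_lit 21448917654)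 (nat_lit 0) (nat_lit 71386758140) (nat_lit 8) (nat_lit 5) (nat_lit 10) (nat_lit 4) (nat_lit 8) (nat_lit 4) (nat_lit 337) (nat_lit 311) (nat_lit 252)))))) (XT.nd (nat_lit 390) (nat_lit 76) (nat_lit 0) (XT.nd (nat_lit 156) (nat_lit 152) (nat_lit 0) (XT.nd (nat_lit 78) (nat_lit 0) (nat_lit 0) (XT.lf (nat_lit 0) (nat_lit 61529871539) (nat_lit 76) (nat_lit 99734469735) (nat_lit 76) (nat_lit 63197292455) (nat_lit 7) (nat_lit 4) (nat_lit 8) (nat_lit 5) (nat_lit 8) (nat_lit 4) (nat_lit 338) (nat_lit 311) (nat_lit 251)) (XT.lf (nat_lit 0) (nat_lit 159360379773) (nat_lit 76) (nat_lit 64365262015) (nat_lit 76) (nat_lit 27826997416) (nat_lit 7) (nat_lit 4) (nat_lit 8) (nat_lit 5) (nat_lit 8) (nat_lit 4) (nat_lit 339) (nat_lit 311) (nat_lit 250))) (XT.nd (nat_lit 78) (nat_lit 76) (nat_lit 0) (XT.lf (nat_lit 0) (nat_lit 11702399795) (nat_lit 152) (nat_lit 11379050534) (nat_lit 76) (nat_lit 259546421835)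 (nat_lit 6) (nat_lit 5) (nat_lit 8) (nat_lit 5) (nat_lit 7) (nat_lit 4) (nat_lit 340) (nat_lit 311) (nat_lit 249)) (XT.nd (nat_lit 78) (nat_lit 0) (nat_lit 0) (XT.lf (nat_lit 0) (nat_lit 59203494226) (nat_lit 152) (nat_lit 230798892768) (nat_lit 0) (nat_lit 27429553127) (nat_lit 5) (nat_lit 5) (nat_lit 7) (nat_lit 4) (nat_lit 5) (nat_lit 4) (nat_lit 341) (nat_lit 311) (nat_lit 248)) (XT.lf (nat_lit 0) (nat_lit 115549811704) (nat_lit 152) (nat_lit 157873549362) (nat_lit 0) (nat_lit 83775248927) (nat_lit 5) (nat_lit 5) (nat_lit 7) (nat_lit 4) (nat_lit 5) (nat_lit 4) (nat_lit 342) (nat_lit 311) (nat_lit 247))))) (XT.nd (nat_lit 234) (nat_lit 0) (nat_lit 0) (XT.nd (nat_lit 78) (nat_lit 76) (nat_lit 0) (XT.lf (nat_lit 0) (nat_lit 180346166996) (nat_lit 152) (nat_lit 74013336679) (nat_lit 0) (nat_lit 148571063629) (nat_lit 5) (nat_lit 5) (nat_lit 7) (nat_lit 4) (nat_lit 5) (nat_lit 4) (nat_lit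 343) (nat_lit 311) (nat_lit 246)) (XT.nd (nat_lit 78) (nat_lit 0) (nat_lit 0) (XT.lf (nat_lit 0) (nat_lit 24613777229) (nat_lit 76) (nat_lit 231265741675) (nat_lit 76) (nat_lit 199490168230) (nat_lit 4) (nat_lit 4) (nat_lit 5) (nat_lit 5) (nat_lit 5) (nat_lit 4) (nat_lit 344) (nat_lit 311) (nat_lit 245)) (XT.lf (nat_lit 0) (nat_lit 146349784084) (nat_lit 76) (nat_lit 200260389234) (nat_lit 76) (nat_lit 168484407025) (nat_lit 4) (nat_lit 4) (nat_lit 5) (nat_lit 5) (nat_lit 5) (nat_lit 4) (nat_lit 345) (nat_lit 311) (nat_lit 244)))) (XT.nd (nat_lit 78) (nat_lit 0) (nat_lit 0) (XT.lf (nat_lit 0) (nat_lit 286343353787) (nat_lit 76) (nat_lit 164605698855) (nat_lit 76) (nat_lit 132829361200) (nat_lit 4) (nat_lit 4) (nat_lit 5) (nat_lit 5) (nat_lit 5) (nat_lit 4) (nat_lit 346) (nat_lit 311) (nat_lit 243)) (XT.nd (nat_lit 78) (nat_lit 0) (nat_lit 0) (XT.lf (nat_lit 0) (nat_lit 447333490960) (nat_lit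 76) (nat_lit 123604078771) (nat_lit 76) (nat_lit 91827432031) (nat_lit 4) (nat_lit 4) (nat_lit 5) (nat_lit 5) (nat_lit 5) (nat_lit 4) (nat_lit 347) (nat_lit 311) (nat_lit 242)) (XT.lf (nat_lit 0) (nat_lit 632470002637) (nat_lit 76) (nat_lit 76453323369) (nat_lit 76) (nat_lit 44676407861) (nat_lit 4) (nat_lit 4) (nat_lit 5) (nat_lit 5) (nat_lit 5) (nat_lit 4) (nat_lit 348) (nat_lit 311) (nat_lit 241))))))))
noncomputable def xc70 : XT := (XT.nd (nat_lit 1638) (nat_lit 0) (nat_lit 0) (XT.nd (nat_lit 780) (nat_lit 76) (nat_lit 0) (XT.nd (nat_lit 390) (nat_lit 0) (nat_lit 0) (XT.nd (nat_lit 156) (nat_lit 0) (nat_lit 0) (XT.nd (nat_lit 78) (nat_lit 76) (nat_lit 0) (XT.lf (nat_lit 0) (nat_lit 8696359819) (nat_lit 152) (nat_lit 13079975607) (nat_lit 76) (nat_lit 836224182649) (nat_lit 3) (nat_lit 5) (nat_lit 5) (nat_lit 5) (nat_lit 4) (nat_lit 4) (nat_lit 349) (nat_lit 311) (nat_lit 240)) (XT.lf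 (nat_lit 0) (nat_lit 72496198104) (nat_lit 152) (nat_lit 859333111759) (nat_lit 0) (nat_lit 44863717715) (nat_lit 2) (nat_lit 5) (nat_lit 4) (nat_lit 4) (nat_lit 2) (nat_lit 4) (nat_lit 350) (nat_lit 311) (nat_lit 239))) (XT.nd (nat_lit 78) (nat_lit 0) (nat_lit 0) (XT.lf (nat_lit 0) (nat_lit 147618447221) (nat_lit 152) (nat_lit 845322287996) (nat_lit 0) (nat_lit 119985813163) (nat_lit 2) (nat_lit 5) (nat_lit 4) (nat_lit 4) (nat_lit 2) (nat_lit 4) (nat_lit 351) (nat_lit 311) (nat_lit 238)) (XT.nd (nat_lit 78) (nat_lit 0) (nat_lit 0) (XT.lf (nat_lit 0) (nat_lit 234008322713) (nat_lit 152) (nat_lit 829211326330) (nat_lit 0) (nat_lit 206375555029) (nat_lit 2) (nat_lit 5) (nat_lit 4) (nat_lit 4) (nat_lit 2) (nat_lit 4) (nat_lit 352) (nat_lit 311) (nat_lit 237)) (XT.lf (nat_lit 0) (nat_lit 333356061272) (nat_lit 152) (nat_lit 810685012295) (nat_lit 0) (nat_lit 305723177392) (nat_lit 2) (nat_lit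 5) (nat_lit 4) (nat_lit 4) (nat_lit 2) (nat_lit 4) (nat_lit 353) (nat_lit 311) (nat_lit 236))))) (XT.nd (nat_lit 156) (nat_lit 0) (nat_lit 0) (XT.nd (nat_lit 78) (nat_lit 0) (nat_lit 0) (XT.lf (nat_lit 0) (nat_lit 447605423002) (nat_lit 152) (nat_lit 789380874528) (nat_lit 0) (nat_lit 419972438082) (nat_lit 2) (nat_lit 5) (nat_lit 4) (nat_lit 4) (nat_lit 2) (nat_lit 4) (nat_lit 354) (nat_lit 311) (nat_lit 235)) (XT.lf (nat_lit 0) (nat_lit 578991721502) (nat_lit 152) (nat_lit 764882092942) (nat_lit 0) (nat_lit 551358648721) (nat_lit 2) (nat_lit 5) (nat_lit 4) (nat_lit 4) (nat_lit 2) (nat_lit 4) (nat_lit 355) (nat_lit 311) (nat_lit 234))) (XT.nd (nat_lit 78) (nat_lit 0) (nat_lit 0) (XT.lf (nat_lit 0) (nat_lit 730085558263) (nat_lit 152) (nat_lit 736709343551) (nat_lit 0) (nat_lit 702452409081) (nat_lit 2) (nat_lit 5) (nat_lit 4) (nat_lit 4) (nat_lit 2) (nat_lit 4) (nat_lit 356) (nat_lit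 311) (nat_lit 233)) (XT.nd (nat_lit 78) (nat_lit 0) (nat_lit 0) (XT.lf (nat_lit 0) (nat_lit 903843117050) (nat_lit 152) (nat_lit 704311420387) (nat_lit 0) (nat_lit 876209901432) (nat_lit 2) (nat_lit 5) (nat_lit 4) (nat_lit 4) (nat_lit 2) (nat_lit 4) (nat_lit 357) (nat_lit 311) (nat_lit 232)) (XT.lf (nat_lit 0) (nat_lit 1103664002272) (nat_lit 152) (nat_lit 667054451041) (nat_lit 0) (nat_lit 1076030728885) (nat_lit 2) (nat_lit 5) (nat_lit 4) (nat_lit 4) (nat_lit 2) (nat_lit 4) (nat_lit 358) (nat_lit 311) (nat_lit 231)))))) (XT.nd (nat_lit 390) (nat_lit 76) (nat_lit 0) (XT.nd (nat_lit 156) (nat_lit 0) (nat_lit 0) (XT.nd (nat_lit 78) (nat_lit 0) (nat_lit 0) (XT.lf (nat_lit 0) (nat_lit 1333457752989) (nat_lit 152) (nat_lit 624209494809) (nat_lit 0) (nat_lit 1305824429366) (nat_lit 2) (nat_lit 5) (nat_lit 4) (nat_lit 4) (nat_lit 2) (nat_lit 4) (nat_lit 359) (nat_lit 311) (nat_lit 230)) (XT.lf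 (nat_lit 0) (nat_lit 1597720333888) (nat_lit 152) (nat_lit 574938280807) (nat_lit 0) (nat_lit 1570086966583) (nat_lit 2) (nat_lit 5) (nat_lit 4) (nat_lit 4) (nat_lit 2) (nat_lit 4) (nat_lit 360) (nat_lit 311) (nat_lit 229))) (XT.nd (nat_lit 78) (nat_lit 0) (nat_lit 0) (XT.lf (nat_lit 0) (nat_lit 1901622099813) (nat_lit 152) (nat_lit 518276807023) (nat_lit 0) (nat_lit 1873988694524) (nat_lit 2) (nat_lit 5) (nat_lit 4) (nat_lit 4) (nat_lit 2) (nat_lit 4) (nat_lit 361) (nat_lit 311) (nat_lit 228)) (XT.nd (nat_lit 78) (nat_lit 0) (nat_lit 0) (XT.lf (nat_lit 0) (nat_lit 2251108954880) (nat_lit 152) (nat_lit 453116479404) (nat_lit 0) (nat_lit 2223475516561) (nat_lit 2) (nat_lit 5) (nat_lit 4) (nat_lit 4) (nat_lit 2) (nat_lit 4) (nat_lit 362) (nat_lit 311) (nat_lit 227)) (XT.lf (nat_lit 0) (nat_lit 2653018685384) (nat_lit 152) (nat_lit 378182421975) (nat_lit 0) (nat_lit 2625385218343) (nat_lit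 2) (nat_lit 5) (nat_lit 4) (nat_lit 4) (nat_lit 2) (nat_lit 4) (nat_lit 363) (nat_lit 311) (nat_lit 226))))) (XT.nd (nat_lit 234) (nat_lit 76) (nat_lit 0) (XT.nd (nat_lit 78) (nat_lit 0) (nat_lit 0) (XT.lf (nat_lit 0) (nat_lit 3115214742574) (nat_lit 152) (nat_lit 292008533613) (nat_lit 0) (nat_lit 3087581250557) (nat_lit 2) (nat_lit 5) (nat_lit 4) (nat_lit 4) (nat_lit 2) (nat_lit 4) (nat_lit 364) (nat_lit 311) (nat_lit 225)) (XT.nd (nat_lit 78) (nat_lit 0) (nat_lit 0) (XT.lf (nat_lit 0) (nat_lit 3646740092786) (nat_lit 152) (nat_lit 192908803458) (nat_lit 0) (nat_lit 3619106579051) (nat_lit 2) (nat_lit 5) (nat_lit 4) (nat_lit 4) (nat_lit 2) (nat_lit 4) (nat_lit 365) (nat_lit 311) (nat_lit 224)) (XT.lf (nat_lit 0) (nat_lit 4257994145046) (nat_lit 152) (nat_lit 78944323746) (nat_lit 0) (nat_lit 4230360612426) (nat_lit 2) (nat_lit 5) (nat_lit 4) (nat_lit 4) (nat_lit 2) (nat_lit 4) (nat_lit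 366) (nat_lit 311) (nat_lit 223)))) (XT.nd (nat_lit 78) (nat_lit 0) (nat_lit 0) (XT.lf (nat_lit 0) (nat_lit 57207667501) (nat_lit 76) (nat_lit 4906097397782) (nat_lit 76) (nat_lit 4878463848740) (nat_lit 1) (nat_lit 4) (nat_lit 2) (nat_lit 5) (nat_lit 2) (nat_lit 4) (nat_lit 367) (nat_lit 311) (nat_lit 222)) (XT.nd (nat_lit 78) (nat_lit 0) (nat_lit 0) (XT.lf (nat_lit 0) (nat_lit 222654548631) (nat_lit 76) (nat_lit 5555884626833) (nat_lit 76) (nat_lit 5528251063511) (nat_lit 1) (nat_lit 4) (nat_lit 2) (nat_lit 5) (nat_lit 2) (nat_lit 4) (nat_lit 368) (nat_lit 311) (nat_lit 221)) (XT.lf (nat_lit 0) (nat_lit 412918310381) (nat_lit 76) (nat_lit 6303140019446) (nat_lit 76) (nat_lit 6275506443707) (nat_lit 1) (nat_lit 4) (nat_lit 2) (nat_lit 5) (nat_lit 2) (nat_lit 4) (nat_lit 369) (nat_lit 311) (nat_lit 220))))))) (XT.nd (nat_lit 858) (nat_lit 0) (nat_lit 0) (XT.nd (nat_lit 390) (nat_lit 0)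 (nat_lit 0) (XT.nd (nat_lit 156) (nat_lit 0) (nat_lit 0) (XT.nd (nat_lit 78) (nat_lit 0) (nat_lit 0) (XT.lf (nat_lit 0) (nat_lit 631721504614) (nat_lit 76) (nat_lit 7162483789822) (nat_lit 76) (nat_lit 7134850203286) (nat_lit 1) (nat_lit 4) (nat_lit 2) (nat_lit 5) (nat_lit 2) (nat_lit 4) (nat_lit 370) (nat_lit 311) (nat_lit 219)) (XT.lf (nat_lit 0) (nat_lit 883345063389) (nat_lit 76) (nat_lit 8150729185645) (nat_lit 76) (nat_lit 8123095589719) (nat_lit 1) (nat_lit 4) (nat_lit 2) (nat_lit 5) (nat_lit 2) (nat_lit 4) (nat_lit 371) (nat_lit 311) (nat_lit 218))) (XT.nd (nat_lit 78) (nat_lit 0) (nat_lit 0) (XT.lf (nat_lit 0) (nat_lit 1172712056334) (nat_lit 76) (nat_lit 9287211442918) (nat_lit 76) (nat_lit 9259577838827) (nat_lit 1) (nat_lit 4) (nat_lit 2) (nat_lit 5) (nat_lit 2) (nat_lit 4) (nat_lit 372) (nat_lit 311) (nat_lit 217)) (XT.nd (nat_lit 78) (nat_lit 0) (nat_lit 0) (XT.lf (nat_lit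 0) (nat_lit 1505484011573) (nat_lit 76) (nat_lit 10594166084067) (nat_lit 76) (nat_lit 10566532472876) (nat_lit 1) (nat_lit 4) (nat_lit 2) (nat_lit 5) (nat_lit 2) (nat_lit 4) (nat_lit 373) (nat_lit 311) (nat_lit 216)) (XT.lf (nat_lit 0) (nat_lit 1888171684752) (nat_lit 76) (nat_lit 12097163960766) (nat_lit 76) (nat_lit 12069530343402) (nat_lit 1) (nat_lit 4) (nat_lit 2) (nat_lit 5) (nat_lit 2) (nat_lit 4) (nat_lit 374) (nat_lit 311) (nat_lit 215))))) (XT.nd (nat_lit 234) (nat_lit 0) (nat_lit 0) (XT.nd (nat_lit 78) (nat_lit 0) (nat_lit 0) (XT.lf (nat_lit 0) (nat_lit 2328262443389) (nat_lit 76) (nat_lit 13825611553211) (nat_lit 76) (nat_lit 13797977930479) (nat_lit 1) (nat_lit 4) (nat_lit 2) (nat_lit 5) (nat_lit 2) (nat_lit 4) (nat_lit 375) (nat_lit 311) (nat_lit 214)) (XT.nd (nat_lit 78) (nat_lit 0) (nat_lit 0) (XT.lf (nat_lit 0) (nat_lit 2834366758849) (nat_lit 76) (nat_lit 15813326314300)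 (nat_lit 76) (nat_lit 15785692686899) (nat_lit 1) (nat_lit 4) (nat_lit 2) (nat_lit 5) (nat_lit 2) (nat_lit 4) (nat_lit 376) (nat_lit 311) (nat_lit 213)) (XT.lf (nat_lit 0) (nat_lit 3416386672087) (nat_lit 76) (nat_lit 18099198315443) (nat_lit 76) (nat_lit 18071564683983) (nat_lit 1) (nat_lit 4) (nat_lit 2) (nat_lit 5) (nat_lit 2) (nat_lit 4) (nat_lit 377) (nat_lit 311) (nat_lit 212)))) (XT.nd (nat_lit 78) (nat_lit 0) (nat_lit 0) (XT.lf (nat_lit 0) (nat_lit 4085709529231) (nat_lit 76) (nat_lit 20727951139272) (nat_lit 76) (nat_lit 20700317504282) (nat_lit 1) (nat_lit 4) (nat_lit 2) (nat_lit 5) (nat_lit 2) (nat_lit 4) (nat_lit 378) (nat_lit 311) (nat_lit 211)) (XT.nd (nat_lit 78) (nat_lit 0) (nat_lit 0) (XT.lf (nat_lit 0) (nat_lit 4855430777486) (nat_lit 76) (nat_lit 23751016906253) (nat_lit 76) (nat_lit 23723383268194) (nat_lit 1) (nat_lit 4) (nat_lit 2) (nat_lit 5) (nat_lit 2) (nat_lit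 4) (nat_lit 379) (nat_lit 311) (nat_lit 210)) (XT.lf (nat_lit 0) (nat_lit 5740610180404) (nat_lit 76) (nat_lit 27227542555305) (nat_lit 76) (nat_lit 27199908914578) (nat_lit 1) (nat_lit 4) (nat_lit 2) (nat_lit 5) (nat_lit 2) (nat_lit 4) (nat_lit 380) (nat_lit 311) (nat_lit 209)))))) (XT.nd (nat_lit 390) (nat_lit 0) (nat_lit 0) (XT.nd (nat_lit 156) (nat_lit 0) (nat_lit 0) (XT.nd (nat_lit 78) (nat_lit 0) (nat_lit 0) (XT.lf (nat_lit 0) (nat_lit 6758566465436) (nat_lit 76) (nat_lit 31225547066519) (nat_lit 76) (nat_lit 31197913423471) (nat_lit 1) (nat_lit 4) (nat_lit 2) (nat_lit 5) (nat_lit 2) (nat_lit 4) (nat_lit 381) (nat_lit 311) (nat_lit 208)) (XT.lf (nat_lit 0) (nat_lit 7929216168591) (nat_lit 76) (nat_lit 35823252267289) (nat_lit 76) (nat_lit 35795618622222) (nat_lit 1) (nat_lit 4) (nat_lit 2) (nat_lit 5) (nat_lit 2) (nat_lit 4) (nat_lit 382) (nat_lit 311) (nat_lit 207))) (XT.nd (nat_lit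 78) (nat_lit 0) (nat_lit 0) (XT.lf (nat_lit 0) (nat_lit 9275463305801) (nat_lit 76) (nat_lit 41110613259367) (nat_lit 76) (nat_lit 41082979612545) (nat_lit 1) (nat_lit 4) (nat_lit 2) (nat_lit 5) (nat_lit 2) (nat_lit 4) (nat_lit 383) (nat_lit 311) (nat_lit 206)) (XT.nd (nat_lit 78) (nat_lit 0) (nat_lit 0) (XT.lf (nat_lit 0) (nat_lit 10823647494968) (nat_lit 76) (nat_lit 47191078409990) (nat_lit 76) (nat_lit 47163444761642) (nat_lit 1) (nat_lit 4) (nat_lit 2) (nat_lit 5) (nat_lit 2) (nat_lit 4) (nat_lit 384) (nat_lit 311) (nat_lit 205)) (XT.lf (nat_lit 0) (nat_lit 12604059296315) (nat_lit 76) (nat_lit 54183613341671) (nat_lit 76) (nat_lit 54155979691996) (nat_lit 1) (nat_lit 4) (nat_lit 2) (nat_lit 5) (nat_lit 2) (nat_lit 4) (nat_lit 385) (nat_lit 311) (nat_lit 204))))) (XT.nd (nat_lit 546) (nat_lit 0) (nat_lit 0) (XT.nd (nat_lit 78) (nat_lit 0) (nat_lit 0) (XT.lf (nat_lit 0) (nat_lit 14651532853782)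 (nat_lit 76) (nat_lit 62225028520464) (nat_lit 76) (nat_lit 62197394869636) (nat_lit 1) (nat_lit 4) (nat_lit 2) (nat_lit 5) (nat_lit 2) (nat_lit 4) (nat_lit 386) (nat_lit 311) (nat_lit 203)) (XT.nd (nat_lit 390) (nat_lit 0) (nat_lit 0) (XT.lf (nat_lit 0) (nat_lit 17006127432623) (nat_lit 76) (nat_lit 71472655982476) (nat_lit 76) (nat_lit 71445022330645) (nat_lit 1) (nat_lit 4) (nat_lit 2) (nat_lit 5) (nat_lit 2) (nat_lit 4) (nat_lit 387) (nat_lit 311) (nat_lit 202)) (XT.lf (nat_lit 0) (nat_lit 35263037756173) (nat_lit 76) (nat_lit 143176340577710) (nat_lit 76) (nat_lit 143148706922515) (nat_lit 1) (nat_lit 4) (nat_lit 2) (nat_lit 5) (nat_lit 2) (nat_lit 4) (nat_lit 392) (nat_lit 311) (nat_lit 197)))) (XT.nd (nat_lit 78) (nat_lit 0) (nat_lit 0) (XT.lf (nat_lit 0) (nat_lit 40709358024028) (nat_lit 76) (nat_lit 164566664872530) (nat_lit 76) (nat_lit 164539031216901) (nat_lit 1) (nat_lit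 4) (nat_lit 2) (nat_lit 5) (nat_lit 2) (nat_lit 4) (nat_lit 393) (nat_lit 311) (nat_lit 196)) (XT.nd (nat_lit 78) (nat_lit 0) (nat_lit 0) (XT.lf (nat_lit 0) (nat_lit 46972626327457) (nat_lit 76) (nat_lit 189165537813979) (nat_lit 76) (nat_lit 189137904157973) (nat_lit 1) (nat_lit 4) (nat_lit 2) (nat_lit 5) (nat_lit 2) (nat_lit 4) (nat_lit 394) (nat_lit 311) (nat_lit 195)) (XT.lf (nat_lit 0) (nat_lit 54175384872398) (nat_lit 76) (nat_lit 217454241698737) (nat_lit 76) (nat_lit 217426608042403) (nat_lit 1) (nat_lit 4) (nat_lit 2) (nat_lit 5) (nat_lit 2) (nat_lit 4) (nat_lit 395) (nat_lit 311) (nat_lit 194))))))))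
noncomputable def xc71 : XT := (XT.nd (nat_lit 41886) (nat_lit 0) (nat_lit 76) (XT.nd (nat_lit 41028) (nat_lit 0) (nat_lit 836) (XT.nd (nat_lit 40560) (nat_lit 0) (nat_lit 1596) (XT.nd (nat_lit 40326) (nat_lit 0) (nat_lit 1900) (XT.nd (nat_lit 78) (nat_lit 0) (nat_lit 0) (XT.lf (nat_lit 0) (nat_lit 62458557195599) (nat_lit 76) (nat_lit 249986251168029) (nat_lit 76) (nat_lit 249958617511409) (nat_lit 1) (nat_lit 4) (nat_lit 2) (nat_lit 5) (nat_lit 2) (nat_lit 4) (nat_lit 396) (nat_lit 311) (nat_lit 193)) (XT.lf (nat_lit 0) (nat_lit 71984205364252) (nat_lit 76) (nat_lit 287398062059296) (nat_lit 76) (nat_lit 287370428402428) (nat_lit 1) (nat_lit 4) (nat_lit 2) (nat_lit 5) (nat_lit 2) (nat_lit 4) (nat_lit 397) (nat_lit 311) (nat_lit 192))) (XT.nd (nat_lit 78) (nat_lit 0) (nat_lit 0) (XT.lf (nat_lit 0) (nat_lit 2117730351) (nat_lit 380) (nat_lit 4397580940) (nat_lit 380) (nat_lit 4397580940)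 (nat_lit 26) (nat_lit 3) (nat_lit 31) (nat_lit 3) (nat_lit 31) (nat_lit 5) (nat_lit 312) (nat_lit 312) (nat_lit 276)) (XT.nd (nat_lit 78) (nat_lit 0) (nat_lit 76) (XT.lf (nat_lit 76) (nat_lit 1873696746) (nat_lit 0) (nat_lit 2884010498) (nat_lit 380) (nat_lit 18674049398) (nat_lit 27) (nat_lit 5) (nat_lit 26) (nat_lit 3) (nat_lit 31) (nat_lit 5) (nat_lit 313) (nat_lit 312) (nat_lit 275)) (XT.lf (nat_lit 0) (nat_lit 6180845431) (nat_lit 304) (nat_lit 10482164338) (nat_lit 380) (nat_lit 8492280396) (nat_lit 27) (nat_lit 5) (nat_lit 31) (nat_lit 5) (nat_lit 32) (nat_lit 5) (nat_lit 314) (nat_lit 312) (nat_lit 274))))) (XT.nd (nat_lit 234) (nat_lit 152) (nat_lit 0) (XT.nd (nat_lit 78) (nat_lit 228) (nat_lit 0) (XT.lf (nat_lit 76) (nat_lit 2307375758) (nat_lit 0) (nat_lit 5723098162) (nat_lit 380) (nat_lit 19074969225) (nat_lit 28) (nat_lit 5) (nat_lit 27) (nat_lit 5) (nat_lit 32) (nat_lit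 5) (nat_lit 315) (nat_lit 312) (nat_lit 273)) (XT.nd (nat_lit 78) (nat_lit 304) (nat_lit 0) (XT.lf (nat_lit 0) (nat_lit 10997759191) (nat_lit 304) (nat_lit 11400530472) (nat_lit 76) (nat_lit 6823834368) (nat_lit 28) (nat_lit 5) (nat_lit 32) (nat_lit 5) (nat_lit 29) (nat_lit 5) (nat_lit 316) (nat_lit 312) (nat_lit 272)) (XT.lf (nat_lit 0) (nat_lit 4081906801) (nat_lit 304) (nat_lit 10754323156) (nat_lit 380) (nat_lit 16756195220) (nat_lit 24) (nat_lit 5) (nat_lit 28) (nat_lit 5) (nat_lit 29) (nat_lit 5) (nat_lit 317) (nat_lit 312) (nat_lit 271)))) (XT.nd (nat_lit 78) (nat_lit 152) (nat_lit 0) (XT.lf (nat_lit 0) (nat_lit 19969853503) (nat_lit 380) (nat_lit 11215440436) (nat_lit 76) (nat_lit 3025098084) (nat_lit 24) (nat_lit 5) (nat_lit 29) (nat_lit 5) (nat_lit 25) (nat_lit 5) (nat_lit 318) (nat_lit 312) (nat_lit 270)) (XT.nd (nat_lit 78) (nat_lit 0) (nat_lit 0) (XT.lf (nat_lit 0) (nat_lit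 7680809667) (nat_lit 152) (nat_lit 19010612177) (nat_lit 228) (nat_lit 10406971084) (nat_lit 22) (nat_lit 5) (nat_lit 24) (nat_lit 5) (nat_lit 25) (nat_lit 5) (nat_lit 319) (nat_lit 312) (nat_lit 269)) (XT.lf (nat_lit 0) (nat_lit 30657853877) (nat_lit 152) (nat_lit 4338392329) (nat_lit 228) (nat_lit 5337115709) (nat_lit 22) (nat_lit 5) (nat_lit 24) (nat_lit 5) (nat_lit 25) (nat_lit 5) (nat_lit 320) (nat_lit 312) (nat_lit 268)))))) (XT.nd (nat_lit 390) (nat_lit 380) (nat_lit 0) (XT.nd (nat_lit 156) (nat_lit 228) (nat_lit 0) (XT.nd (nat_lit 78) (nat_lit 0) (nat_lit 0) (XT.lf (nat_lit 0) (nat_lit 1577702237) (nat_lit 152) (nat_lit 30247421361) (nat_lit 76) (nat_lit 12056146021) (nat_lit 20) (nat_lit 5) (nat_lit 22) (nat_lit 5) (nat_lit 21) (nat_lit 5) (nat_lit 321) (nat_lit 312) (nat_lit 267)) (XT.lf (nat_lit 0) (nat_lit 9710185174) (nat_lit 152) (nat_lit 6857295041) (nat_lit 76) (nat_lit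 31246745664) (nat_lit 20) (nat_lit 5) (nat_lit 22) (nat_lit 5) (nat_lit 21) (nat_lit 5) (nat_lit 322) (nat_lit 312) (nat_lit 266))) (XT.nd (nat_lit 78) (nat_lit 76) (nat_lit 0) (XT.lf (nat_lit 0) (nat_lit 20048355076) (nat_lit 228) (nat_lit 30298954429) (nat_lit 76) (nat_lit 1841955935) (nat_lit 18) (nat_lit 5) (nat_lit 21) (nat_lit 5) (nat_lit 19) (nat_lit 4) (nat_lit 323) (nat_lit 312) (nat_lit 265)) (XT.nd (nat_lit 78) (nat_lit 76) (nat_lit 0) (XT.lf (nat_lit 0) (nat_lit 33093813233) (nat_lit 228) (nat_lit 2264675459) (nat_lit 76) (nat_lit 21688598299) (nat_lit 18) (nat_lit 5) (nat_lit 21) (nat_lit 5) (nat_lit 19) (nat_lit 4) (nat_lit 324) (nat_lit 312) (nat_lit 264)) (XT.lf (nat_lit 0) (nat_lit 32892058917) (nat_lit 76) (nat_lit 16559166086) (nat_lit 152) (nat_lit 12979095645) (nat_lit 17) (nat_lit 5) (nat_lit 18) (nat_lit 5) (nat_lit 19) (nat_lit 4) (nat_lit 325) (nat_lit 312) (nat_lit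 263))))) (XT.nd (nat_lit 234) (nat_lit 152) (nat_lit 0) (XT.nd (nat_lit 78) (nat_lit 76) (nat_lit 0) (XT.lf (nat_lit 0) (nat_lit 241748493) (nat_lit 152) (nat_lit 63339588184) (nat_lit 76) (nat_lit 4956648485) (nat_lit 15) (nat_lit 5) (nat_lit 17) (nat_lit 5) (nat_lit 16) (nat_lit 4) (nat_lit 326) (nat_lit 312) (nat_lit 262)) (XT.nd (nat_lit 78) (nat_lit 76) (nat_lit 0) (XT.lf (nat_lit 0) (nat_lit 16516558825) (nat_lit 152) (nat_lit 28356439521) (nat_lit 76) (nat_lit 30236151406) (nat_lit 15) (nat_lit 5) (nat_lit 17) (nat_lit 5) (nat_lit 16) (nat_lit 4) (nat_lit 327) (nat_lit 312) (nat_lit 261)) (XT.lf (nat_lit 0) (nat_lit 13023741064) (nat_lit 76) (nat_lit 22742525030) (nat_lit 152) (nat_lit 46819676834) (nat_lit 14) (nat_lit 5) (nat_lit 15) (nat_lit 5) (nat_lit 16) (nat_lit 4) (nat_lit 328) (nat_lit 312) (nat_lit 260)))) (XT.nd (nat_lit 78) (nat_lit 152) (nat_lit 0) (XT.lf (nat_lit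 0) (nat_lit 59562951766) (nat_lit 152) (nat_lit 27356861184) (nat_lit 0) (nat_lit 4015518313) (nat_lit 14) (nat_lit 5) (nat_lit 16) (nat_lit 4) (nat_lit 14) (nat_lit 4) (nat_lit 329) (nat_lit 312) (nat_lit 259)) (XT.nd (nat_lit 78) (nat_lit 76) (nat_lit 0) (XT.lf (nat_lit 0) (nat_lit 22050642677) (nat_lit 76) (nat_lit 66869812099) (nat_lit 76) (nat_lit 11317979834) (nat_lit 13) (nat_lit 4) (nat_lit 14) (nat_lit 5) (nat_lit 14) (nat_lit 4) (nat_lit 330) (nat_lit 312) (nat_lit 258)) (XT.lf (nat_lit 0) (nat_lit 12192432376) (nat_lit 152) (nat_lit 29341927709) (nat_lit 76) (nat_lit 69105683204) (nat_lit 12) (nat_lit 5) (nat_lit 14) (nat_lit 5) (nat_lit 13) (nat_lit 4) (nat_lit 331) (nat_lit 312) (nat_lit 257))))))) (XT.nd (nat_lit 858) (nat_lit 228) (nat_lit 0) (XT.nd (nat_lit 390) (nat_lit 228) (nat_lit 0) (XT.nd (nat_lit 156) (nat_lit 228) (nat_lit 0) (XT.nd (nat_lit 78) (nat_lit 0) (nat_lit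 0) (XT.lf (nat_lit 0) (nat_lit 28852874918) (nat_lit 76) (nat_lit 10408454557) (nat_lit 152) (nat_lit 83081123380) (nat_lit 11) (nat_lit 5) (nat_lit 12) (nat_lit 5) (nat_lit 13) (nat_lit 4) (nat_lit 332) (nat_lit 312) (nat_lit 256)) (XT.lf (nat_lit 0) (nat_lit 73044590690) (nat_lit 152) (nat_lit 37627614853) (nat_lit 0) (nat_lit 24729916129) (nat_lit 11) (nat_lit 5) (nat_lit 13) (nat_lit 4) (nat_lit 11) (nat_lit 4) (nat_lit 333) (nat_lit 312) (nat_lit 255))) (XT.nd (nat_lit 78) (nat_lit 152) (nat_lit 0) (XT.lf (nat_lit 0) (nat_lit 28663038174) (nat_lit 76) (nat_lit 84911354223) (nat_lit 76) (nat_lit 36594492675) (nat_lit 10) (nat_lit 4) (nat_lit 11) (nat_lit 5) (nat_lit 11) (nat_lit 4) (nat_lit 334) (nat_lit 312) (nat_lit 254)) (XT.nd (nat_lit 78) (nat_lit 152) (nat_lit 0) (XT.lf (nat_lit 0) (nat_lit 109119680891) (nat_lit 76) (nat_lit 53027602135) (nat_lit 76) (nat_lit 4708838859) (nat_lit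 10) (nat_lit 4) (nat_lit 11) (nat_lit 5) (nat_lit 11) (nat_lit 4) (nat_lit 335) (nat_lit 312) (nat_lit 253)) (XT.lf (nat_lit 0) (nat_lit 15663582135) (nat_lit 76) (nat_lit 14096417440) (nat_lit 152) (nat_lit 155991097696) (nat_lit 8) (nat_lit 5) (nat_lit 9) (nat_lit 5) (nat_lit 10) (nat_lit 4) (nat_lit 336) (nat_lit 312) (nat_lit 252))))) (XT.nd (nat_lit 234) (nat_lit 152) (nat_lit 0) (XT.nd (nat_lit 78) (nat_lit 76) (nat_lit 0) (XT.lf (nat_lit 0) (nat_lit 73346041712) (nat_lit 152) (nat_lit 102109260383) (nat_lit 0) (nat_lit 31327037423) (nat_lit 8) (nat_lit 5) (nat_lit 10) (nat_lit 4) (nat_lit 8) (nat_lit 4) (nat_lit 337) (nat_lit 312) (nat_lit 251)) (XT.nd (nat_lit 78) (nat_lit 76) (nat_lit 0) (XT.lf (nat_lit 0) (nat_lit 124138685106) (nat_lit 152) (nat_lit 24610686232) (nat_lit 0) (nat_lit 82118593498) (nat_lit 8) (nat_lit 5) (nat_lit 10) (nat_lit 4) (nat_lit 8) (nat_lit 4) (nat_lit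 338) (nat_lit 312) (nat_lit 250)) (XT.lf (nat_lit 0) (nat_lit 70812395473) (nat_lit 76) (nat_lit 114667791096) (nat_lit 76) (nat_lit 72646753993) (nat_lit 7) (nat_lit 4) (nat_lit 8) (nat_lit 5) (nat_lit 8) (nat_lit 4) (nat_lit 339) (nat_lit 312) (nat_lit 249)))) (XT.nd (nat_lit 78) (nat_lit 152) (nat_lit 0) (XT.lf (nat_lit 0) (nat_lit 183310561263) (nat_lit 76) (nat_lit 73996704274) (nat_lit 76) (nat_lit 31974845002) (nat_lit 7) (nat_lit 4) (nat_lit 8) (nat_lit 5) (nat_lit 8) (nat_lit 4) (nat_lit 340) (nat_lit 312) (nat_lit 248)) (XT.nd (nat_lit 78) (nat_lit 76) (nat_lit 0) (XT.lf (nat_lit 0) (nat_lit 13478515713) (nat_lit 152) (nat_lit 13043765419) (nat_lit 76) (nat_lit 298496652474) (nat_lit 6) (nat_lit 5) (nat_lit 8) (nat_lit 5) (nat_lit 7) (nat_lit 4) (nat_lit 341) (nat_lit 312) (nat_lit 247)) (XT.lf (nat_lit 0) (nat_lit 68104582119) (nat_lit 152) (nat_lit 265376386590) (nat_lit 0)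 (nat_lit 31562672657) (nat_lit 5) (nat_lit 5) (nat_lit 7) (nat_lit 4) (nat_lit 5) (nat_lit 4) (nat_lit 342) (nat_lit 312) (nat_lit 246)))))) (XT.nd (nat_lit 390) (nat_lit 152) (nat_lit 0) (XT.nd (nat_lit 156) (nat_lit 76) (nat_lit 0) (XT.nd (nat_lit 78) (nat_lit 0) (nat_lit 0) (XT.lf (nat_lit 0) (nat_lit 132900164990) (nat_lit 152) (nat_lit 181517764294) (nat_lit 0) (nat_lit 96357785450) (nat_lit 5) (nat_lit 5) (nat_lit 7) (nat_lit 4) (nat_lit 5) (nat_lit 4) (nat_lit 343) (nat_lit 312) (nat_lit 245)) (XT.lf (nat_lit 0) (nat_lit 207413641202) (nat_lit 152) (nat_lit 85083321987) (nat_lit 0) (nat_lit 170870852898) (nat_lit 5) (nat_lit 5) (nat_lit 7) (nat_lit 4) (nat_lit 5) (nat_lit 4) (nat_lit 344) (nat_lit 312) (nat_lit 244))) (XT.nd (nat_lit 78) (nat_lit 0) (nat_lit 0) (XT.lf (nat_lit 0) (nat_lit 28336403771) (nat_lit 76) (nat_lit 265939829397) (nat_lit 76) (nat_lit 229396685647) (nat_lit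 4) (nat_lit 4) (nat_lit 5) (nat_lit 5) (nat_lit 5) (nat_lit 4) (nat_lit 345) (nat_lit 312) (nat_lit 243)) (XT.nd (nat_lit 78) (nat_lit 0) (nat_lit 0) (XT.lf (nat_lit 0) (nat_lit 168328825573) (nat_lit 76) (nat_lit 230285731507) (nat_lit 76) (nat_lit 193742278673) (nat_lit 4) (nat_lit 4) (nat_lit 5) (nat_lit 5) (nat_lit 5) (nat_lit 4) (nat_lit 346) (nat_lit 312) (nat_lit 242)) (XT.lf (nat_lit 0) (nat_lit 329317964573) (nat_lit 76) (nat_lit 189284626629) (nat_lit 76) (nat_lit 152740905027) (nat_lit 4) (nat_lit 4) (nat_lit 5) (nat_lit 5) (nat_lit 5) (nat_lit 4) (nat_lit 347) (nat_lit 312) (nat_lit 241))))) (XT.nd (nat_lit 234) (nat_lit 76) (nat_lit 0) (XT.nd (nat_lit 78) (nat_lit 76) (nat_lit 0) (XT.lf (nat_lit 0) (nat_lit 514453608273) (nat_lit 76) (nat_lit 142134319235) (nat_lit 76) (nat_lit 105590363920) (nat_lit 4) (nat_lit 4) (nat_lit 5) (nat_lit 5) (nat_lit 5) (nat_lit 4) (nat_lit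 348) (nat_lit 312) (nat_lit 240)) (XT.nd (nat_lit 78) (nat_lit 76) (nat_lit 0) (XT.lf (nat_lit 0) (nat_lit 727357975787) (nat_lit 76) (nat_lit 87912303308) (nat_lit 76) (nat_lit 51368144766) (nat_lit 4) (nat_lit 4) (nat_lit 5) (nat_lit 5) (nat_lit 5) (nat_lit 4) (nat_lit 349) (nat_lit 312) (nat_lit 239)) (XT.lf (nat_lit 0) (nat_lit 10008516881) (nat_lit 152) (nat_lit 15026023966) (nat_lit 76) (nat_lit 961664897996) (nat_lit 3) (nat_lit 5) (nat_lit 5) (nat_lit 5) (nat_lit 4) (nat_lit 4) (nat_lit 350) (nat_lit 312) (nat_lit 238)))) (XT.nd (nat_lit 78) (nat_lit 0) (nat_lit 0) (XT.lf (nat_lit 0) (nat_lit 83378283403) (nat_lit 152) (nat_lit 988217081746) (nat_lit 0) (nat_lit 51600466941) (nat_lit 2) (nat_lit 5) (nat_lit 4) (nat_lit 4) (nat_lit 2) (nat_lit 4) (nat_lit 351) (nat_lit 312) (nat_lit 237)) (XT.nd (nat_lit 78) (nat_lit 0) (nat_lit 0) (XT.lf (nat_lit 0) (nat_lit 169767871333) (nat_lit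 152) (nat_lit 972106720955) (nat_lit 0) (nat_lit 137989938675) (nat_lit 2) (nat_lit 5) (nat_lit 4) (nat_lit 4) (nat_lit 2) (nat_lit 4) (nat_lit 352) (nat_lit 312) (nat_lit 236)) (XT.lf (nat_lit 0) (nat_lit 269115359840) (nat_lit 152) (nat_lit 953580929419) (nat_lit 0) (nat_lit 237337326142) (nat_lit 2) (nat_lit 5) (nat_lit 4) (nat_lit 4) (nat_lit 2) (nat_lit 4) (nat_lit 353) (nat_lit 312) (nat_lit 235))))))))
noncomputable def xc72 : XT := (XT.nd (nat_lit 1638) (nat_lit 0) (nat_lit 0) (XT.nd (nat_lit 780) (nat_lit 76) (nat_lit 0) (XT.nd (nat_lit 390) (nat_lit 0) (nat_lit 0) (XT.nd (nat_lit 156) (nat_lit 0) (nat_lit 0) (XT.nd (nat_lit 78) (nat_lit 0) (nat_lit 0) (XT.lf (nat_lit 0) (nat_lit 383364504133) (nat_lit 152) (nat_lit 932277245999) (nat_lit 0) (nat_lit 351586382574) (nat_lit 2) (nat_lit 5) (nat_lit 4) (nat_lit 4) (nat_lit 2) (nat_lit 4) (nat_lit 354) (nat_lit 312) (nat_lit 234))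 (XT.lf (nat_lit 0) (nat_lit 514750613557) (nat_lit 152) (nat_lit 907778859498) (nat_lit 0) (nat_lit 482972415597) (nat_lit 2) (nat_lit 5) (nat_lit 4) (nat_lit 4) (nat_lit 2) (nat_lit 4) (nat_lit 355) (nat_lit 312) (nat_lit 233))) (XT.nd (nat_lit 78) (nat_lit 0) (nat_lit 0) (XT.lf (nat_lit 0) (nat_lit 665844285905) (nat_lit 152) (nat_lit 879606453658) (nat_lit 0) (nat_lit 634066021509) (nat_lit 2) (nat_lit 5) (nat_lit 4) (nat_lit 4) (nat_lit 2) (nat_lit 4) (nat_lit 356) (nat_lit 312) (nat_lit 232)) (XT.nd (nat_lit 78) (nat_lit 0) (nat_lit 0) (XT.lf (nat_lit 0) (nat_lit 839601701723) (nat_lit 152) (nat_lit 847208829235) (nat_lit 0) (nat_lit 807823379557) (nat_lit 2) (nat_lit 5) (nat_lit 4) (nat_lit 4) (nat_lit 2) (nat_lit 4) (nat_lit 357) (nat_lit 312) (nat_lit 231)) (XT.lf (nat_lit 0) (nat_lit 1039422462625) (nat_lit 152) (nat_lit 809952119664) (nat_lit 0) (nat_lit 1007644090224) (nat_lit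 2) (nat_lit 5) (nat_lit 4) (nat_lit 4) (nat_lit 2) (nat_lit 4) (nat_lit 358) (nat_lit 312) (nat_lit 230))))) (XT.nd (nat_lit 156) (nat_lit 0) (nat_lit 0) (XT.nd (nat_lit 78) (nat_lit 0) (nat_lit 0) (XT.lf (nat_lit 0) (nat_lit 1269216105237) (nat_lit 152) (nat_lit 767107389323) (nat_lit 0) (nat_lit 1237437689154) (nat_lit 2) (nat_lit 5) (nat_lit 4) (nat_lit 4) (nat_lit 2) (nat_lit 4) (nat_lit 359) (nat_lit 312) (nat_lit 229)) (XT.lf (nat_lit 0) (nat_lit 1533478592132) (nat_lit 152) (nat_lit 717836371748) (nat_lit 0) (nat_lit 1501700138064) (nat_lit 2) (nat_lit 5) (nat_lit 4) (nat_lit 4) (nat_lit 2) (nat_lit 4) (nat_lit 360) (nat_lit 312) (nat_lit 228))) (XT.nd (nat_lit 78) (nat_lit 0) (nat_lit 0) (XT.lf (nat_lit 0) (nat_lit 1837380276314) (nat_lit 152) (nat_lit 661175068770) (nat_lit 0) (nat_lit 1805601789216) (nat_lit 2) (nat_lit 5) (nat_lit 4) (nat_lit 4) (nat_lit 2) (nat_lit 4) (nat_lit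 361) (nat_lit 312) (nat_lit 227)) (XT.nd (nat_lit 78) (nat_lit 0) (nat_lit 0) (XT.lf (nat_lit 0) (nat_lit 2186867060301) (nat_lit 152) (nat_lit 596014889678) (nat_lit 0) (nat_lit 2155088544481) (nat_lit 2) (nat_lit 5) (nat_lit 4) (nat_lit 4) (nat_lit 2) (nat_lit 4) (nat_lit 362) (nat_lit 312) (nat_lit 226)) (XT.lf (nat_lit 0) (nat_lit 2588776728996) (nat_lit 152) (nat_lit 521080961403) (nat_lit 0) (nat_lit 2556998188200) (nat_lit 2) (nat_lit 5) (nat_lit 4) (nat_lit 4) (nat_lit 2) (nat_lit 4) (nat_lit 363) (nat_lit 312) (nat_lit 225)))))) (XT.nd (nat_lit 390) (nat_lit 0) (nat_lit 0) (XT.nd (nat_lit 156) (nat_lit 76) (nat_lit 0) (XT.nd (nat_lit 78) (nat_lit 0) (nat_lit 0) (XT.lf (nat_lit 0) (nat_lit 3050972732438) (nat_lit 152) (nat_lit 434907185348) (nat_lit 0) (nat_lit 3019194169925) (nat_lit 2) (nat_lit 5) (nat_lit 4) (nat_lit 4) (nat_lit 2) (nat_lit 4) (nat_lit 364) (nat_lit 312) (nat_lit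 224)) (XT.lf (nat_lit 0) (nat_lit 3582498035914) (nat_lit 152) (nat_lit 335807552852) (nat_lit 0) (nat_lit 3550719454515) (nat_lit 2) (nat_lit 5) (nat_lit 4) (nat_lit 4) (nat_lit 2) (nat_lit 4) (nat_lit 365) (nat_lit 312) (nat_lit 223))) (XT.nd (nat_lit 78) (nat_lit 76) (nat_lit 0) (XT.lf (nat_lit 0) (nat_lit 4193752047533) (nat_lit 152) (nat_lit 221843158061) (nat_lit 0) (nat_lit 4161973449713) (nat_lit 2) (nat_lit 5) (nat_lit 4) (nat_lit 4) (nat_lit 2) (nat_lit 4) (nat_lit 366) (nat_lit 312) (nat_lit 222)) (XT.nd (nat_lit 78) (nat_lit 76) (nat_lit 0) (XT.lf (nat_lit 0) (nat_lit 4896694084915) (nat_lit 152) (nat_lit 90784262816) (nat_lit 0) (nat_lit 4864915472815) (nat_lit 2) (nat_lit 5) (nat_lit 4) (nat_lit 4) (nat_lit 2) (nat_lit 4) (nat_lit 367) (nat_lit 312) (nat_lit 221)) (XT.lf (nat_lit 0) (nat_lit 65790449414) (nat_lit 76) (nat_lit 5642011154632) (nat_lit 76) (nat_lit 5610232530115)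 (nat_lit 1) (nat_lit 4) (nat_lit 2) (nat_lit 5) (nat_lit 2) (nat_lit 4) (nat_lit 368) (nat_lit 312) (nat_lit 220))))) (XT.nd (nat_lit 234) (nat_lit 0) (nat_lit 0) (XT.nd (nat_lit 78) (nat_lit 0) (nat_lit 0) (XT.lf (nat_lit 0) (nat_lit 256054149871) (nat_lit 76) (nat_lit 6389266579278) (nat_lit 76) (nat_lit 6357487943964) (nat_lit 1) (nat_lit 4) (nat_lit 2) (nat_lit 5) (nat_lit 2) (nat_lit 4) (nat_lit 369) (nat_lit 312) (nat_lit 219)) (XT.nd (nat_lit 78) (nat_lit 0) (nat_lit 0) (XT.lf (nat_lit 0) (nat_lit 474857290805) (nat_lit 76) (nat_lit 7248610377510) (nat_lit 76) (nat_lit 7216831732806) (nat_lit 1) (nat_lit 4) (nat_lit 2) (nat_lit 5) (nat_lit 2) (nat_lit 4) (nat_lit 370) (nat_lit 312) (nat_lit 218)) (XT.lf (nat_lit 0) (nat_lit 726480803233) (nat_lit 76) (nat_lit 8236855797555) (nat_lit 76) (nat_lit 8205077144686) (nat_lit 1) (nat_lit 4) (nat_lit 2) (nat_lit 5) (nat_lit 2) (nat_lit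 4) (nat_lit 371) (nat_lit 312) (nat_lit 217)))) (XT.nd (nat_lit 78) (nat_lit 0) (nat_lit 0) (XT.lf (nat_lit 0) (nat_lit 1015847755877) (nat_lit 76) (nat_lit 9373338075891) (nat_lit 76) (nat_lit 9341559415922) (nat_lit 1) (nat_lit 4) (nat_lit 2) (nat_lit 5) (nat_lit 2) (nat_lit 4) (nat_lit 372) (nat_lit 312) (nat_lit 216)) (XT.nd (nat_lit 78) (nat_lit 0) (nat_lit 0) (XT.lf (nat_lit 0) (nat_lit 1348619676071) (nat_lit 76) (nat_lit 10680292735355) (nat_lit 76) (nat_lit 10648514069213) (nat_lit 1) (nat_lit 4) (nat_lit 2) (nat_lit 5) (nat_lit 2) (nat_lit 4) (nat_lit 373) (nat_lit 312) (nat_lit 215)) (XT.lf (nat_lit 0) (nat_lit 1731307318776) (nat_lit 76) (nat_lit 12183290627980) (nat_lit 76) (nat_lit 12151511956470) (nat_lit 1) (nat_lit 4) (nat_lit 2) (nat_lit 5) (nat_lit 2) (nat_lit 4) (nat_lit 374) (nat_lit 312) (nat_lit 214))))))) (XT.nd (nat_lit 858) (nat_lit 0) (nat_lit 0) (XT.nd (nat_lit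 390) (nat_lit 0) (nat_lit 0) (XT.nd (nat_lit 156) (nat_lit 0) (nat_lit 0) (XT.nd (nat_lit 78) (nat_lit 0) (nat_lit 0) (XT.lf (nat_lit 0) (nat_lit 2171398050914) (nat_lit 76) (nat_lit 13911738234275) (nat_lit 76) (nat_lit 13879959558097) (nat_lit 1) (nat_lit 4) (nat_lit 2) (nat_lit 5) (nat_lit 2) (nat_lit 4) (nat_lit 375) (nat_lit 312) (nat_lit 213)) (XT.lf (nat_lit 0) (nat_lit 2677502343332) (nat_lit 76) (nat_lit 15899453007406) (nat_lit 76) (nat_lit 15867674327168) (nat_lit 1) (nat_lit 4) (nat_lit 2) (nat_lit 5) (nat_lit 2) (nat_lit 4) (nat_lit 376) (nat_lit 312) (nat_lit 212))) (XT.nd (nat_lit 78) (nat_lit 0) (nat_lit 0) (XT.lf (nat_lit 0) (nat_lit 3259522236533) (nat_lit 76) (nat_lit 18185325019021) (nat_lit 76) (nat_lit 18153546335253) (nat_lit 1) (nat_lit 4) (nat_lit 2) (nat_lit 5) (nat_lit 2) (nat_lit 4) (nat_lit 377) (nat_lit 312) (nat_lit 211)) (XT.nd (nat_lit 78) (nat_lit 0)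 (nat_lit 0) (XT.lf (nat_lit 0) (nat_lit 3928845076253) (nat_lit 76) (nat_lit 20814077851956) (nat_lit 76) (nat_lit 20782299165119) (nat_lit 1) (nat_lit 4) (nat_lit 2) (nat_lit 5) (nat_lit 2) (nat_lit 4) (nat_lit 378) (nat_lit 312) (nat_lit 210)) (XT.lf (nat_lit 0) (nat_lit 4698566309357) (nat_lit 76) (nat_lit 23837143626855) (nat_lit 76) (nat_lit 23805364937349) (nat_lit 1) (nat_lit 4) (nat_lit 2) (nat_lit 5) (nat_lit 2) (nat_lit 4) (nat_lit 379) (nat_lit 312) (nat_lit 209))))) (XT.nd (nat_lit 234) (nat_lit 0) (nat_lit 0) (XT.nd (nat_lit 78) (nat_lit 0) (nat_lit 0) (XT.lf (nat_lit 0) (nat_lit 5583745699101) (nat_lit 76) (nat_lit 27313669282793) (nat_lit 76) (nat_lit 27281890590967) (nat_lit 1) (nat_lit 4) (nat_lit 2) (nat_lit 5) (nat_lit 2) (nat_lit 4) (nat_lit 380) (nat_lit 312) (nat_lit 208)) (XT.nd (nat_lit 78) (nat_lit 0) (nat_lit 0) (XT.lf (nat_lit 0) (nat_lit 6601701972676) (nat_lit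 76) (nat_lit 31311673799995) (nat_lit 76) (nat_lit 31279895106150) (nat_lit 1) (nat_lit 4) (nat_lit 2) (nat_lit 5) (nat_lit 2) (nat_lit 4) (nat_lit 381) (nat_lit 312) (nat_lit 207)) (XT.lf (nat_lit 0) (nat_lit 7772351665869) (nat_lit 76) (nat_lit 35909379005970) (nat_lit 76) (nat_lit 35877600310370) (nat_lit 1) (nat_lit 4) (nat_lit 2) (nat_lit 5) (nat_lit 2) (nat_lit 4) (nat_lit 382) (nat_lit 312) (nat_lit 206)))) (XT.nd (nat_lit 78) (nat_lit 0) (nat_lit 0) (XT.lf (nat_lit 0) (nat_lit 9118598794417) (nat_lit 76) (nat_lit 41196740002575) (nat_lit 76) (nat_lit 41164961305450) (nat_lit 1) (nat_lit 4) (nat_lit 2) (nat_lit 5) (nat_lit 2) (nat_lit 4) (nat_lit 383) (nat_lit 312) (nat_lit 205)) (XT.nd (nat_lit 78) (nat_lit 0) (nat_lit 0) (XT.lf (nat_lit 0) (nat_lit 10666782976052) (nat_lit 76) (nat_lit 47277205157135) (nat_lit 76) (nat_lit 47245426458683) (nat_lit 1) (nat_lit 4) (nat_lit 2) (nat_lit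 5) (nat_lit 2) (nat_lit 4) (nat_lit 384) (nat_lit 312) (nat_lit 204)) (XT.lf (nat_lit 0) (nat_lit 12447194770849) (nat_lit 76) (nat_lit 54269740092240) (nat_lit 76) (nat_lit 54237961392633) (nat_lit 1) (nat_lit 4) (nat_lit 2) (nat_lit 5) (nat_lit 2) (nat_lit 4) (nat_lit 385) (nat_lit 312) (nat_lit 203)))))) (XT.nd (nat_lit 780) (nat_lit 0) (nat_lit 0) (XT.nd (nat_lit 546) (nat_lit 0) (nat_lit 0) (XT.nd (nat_lit 468) (nat_lit 0) (nat_lit 0) (XT.lf (nat_lit 0) (nat_lit 14494668322620) (nat_lit 76) (nat_lit 62311155274010) (nat_lit 76) (nat_lit 62279376573400) (nat_lit 1) (nat_lit 4) (nat_lit 2) (nat_lit 5) (nat_lit 2) (nat_lit 4) (nat_lit 386) (nat_lit 312) (nat_lit 202)) (XT.lf (nat_lit 0) (nat_lit 35106173203455) (nat_lit 76) (nat_lit 143262467342521) (nat_lit 76) (nat_lit 143230688638114) (nat_lit 1) (nat_lit 4) (nat_lit 2) (nat_lit 5) (nat_lit 2) (nat_lit 4) (nat_lit 392) (nat_lit 312)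 (nat_lit 196))) (XT.nd (nat_lit 78) (nat_lit 0) (nat_lit 0) (XT.lf (nat_lit 0) (nat_lit 40552493469169) (nat_lit 76) (nat_lit 164652791638460) (nat_lit 76) (nat_lit 164621012933676) (nat_lit 1) (nat_lit 4) (nat_lit 2) (nat_lit 5) (nat_lit 2) (nat_lit 4) (nat_lit 393) (nat_lit 312) (nat_lit 195)) (XT.nd (nat_lit 78) (nat_lit 0) (nat_lit 0) (XT.lf (nat_lit 0) (nat_lit 46815761770736) (nat_lit 76) (nat_lit 189251664580882) (nat_lit 76) (nat_lit 189219885875770) (nat_lit 1) (nat_lit 4) (nat_lit 2) (nat_lit 5) (nat_lit 2) (nat_lit 4) (nat_lit 394) (nat_lit 312) (nat_lit 194)) (XT.lf (nat_lit 0) (nat_lit 54018520314058) (nat_lit 76) (nat_lit 217540368466486) (nat_lit 76) (nat_lit 217508589761089) (nat_lit 1) (nat_lit 4) (nat_lit 2) (nat_lit 5) (nat_lit 2) (nat_lit 4) (nat_lit 395) (nat_lit 312) (nat_lit 193))))) (XT.nd (nat_lit 40560) (nat_lit 0) (nat_lit 1976) (XT.nd (nat_lit 40404) (nat_lit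 0) (nat_lit 1900) (XT.lf (nat_lit 0) (nat_lit 62301692635850) (nat_lit 76) (nat_lit 250072377936514) (nat_lit 76) (nat_lit 250040599230868) (nat_lit 1) (nat_lit 4) (nat_lit 2) (nat_lit 5) (nat_lit 2) (nat_lit 4) (nat_lit 396) (nat_lit 312) (nat_lit 192)) (XT.nd (nat_lit 78) (nat_lit 0) (nat_lit 0) (XT.lf (nat_lit 0) (nat_lit 2557132258) (nat_lit 380) (nat_lit 4987085089) (nat_lit 380) (nat_lit 4987085089) (nat_lit 26) (nat_lit 3) (nat_lit 31) (nat_lit 3) (nat_lit 31) (nat_lit 5) (nat_lit 313) (nat_lit 313) (nat_lit 274)) (XT.lf (nat_lit 76) (nat_lit 2288641515) (nat_lit 0) (nat_lit 3399991759) (nat_lit 380) (nat_lit 21224840239) (nat_lit 27) (nat_lit 5) (nat_lit 26) (nat_lit 3) (nat_lit 31) (nat_lit 5) (nat_lit 314) (nat_lit 313) (nat_lit 273)))) (XT.nd (nat_lit 78) (nat_lit 0) (nat_lit 0) (XT.lf (nat_lit 0) (nat_lit 7293900393) (nat_lit 304) (nat_lit 11906324243) (nat_lit 380) (nat_lit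 9700073195) (nat_lit 27) (nat_lit 5) (nat_lit 31) (nat_lit 5) (nat_lit 32) (nat_lit 5) (nat_lit 315) (nat_lit 313) (nat_lit 272)) (XT.nd (nat_lit 78) (nat_lit 0) (nat_lit 76) (XT.lf (nat_lit 76) (nat_lit 2794912107) (nat_lit 0) (nat_lit 6607665865) (nat_lit 380) (nat_lit 21743206798) (nat_lit 28) (nat_lit 5) (nat_lit 27) (nat_lit 5) (nat_lit 32) (nat_lit 5) (nat_lit 316) (nat_lit 313) (nat_lit 271)) (XT.lf (nat_lit 0) (nat_lit 12792164021) (nat_lit 304) (nat_lit 12964535521) (nat_lit 76) (nat_lit 7826732036) (nat_lit 28) (nat_lit 5) (nat_lit 32) (nat_lit 5) (nat_lit 29) (nat_lit 5) (nat_lit 317) (nat_lit 313) (nat_lit 270))))))))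
noncomputable def xc73 : XT := (XT.nd (nat_lit 1716) (nat_lit 456) (nat_lit 0) (XT.nd (nat_lit 858) (nat_lit 532) (nat_lit 0) (XT.nd (nat_lit 390) (nat_lit 380) (nat_lit 0) (XT.nd (nat_lit 156) (nat_lit 304) (nat_lit 0) (XT.nd (nat_lit 78) (nat_lit 0) (nat_lit 0) (XT.lf (nat_lit 0) (nat_lit 4833627592) (nat_lit 304) (nat_lit 12359672252) (nat_lit 380) (nat_lit 19117983004) (nat_lit 24) (nat_lit 5) (nat_lit 28) (nat_lit 5) (nat_lit 29) (nat_lit 5) (nat_lit 318) (nat_lit 313) (nat_lit 269)) (XT.lf (nat_lit 0) (nat_lit 23080077919) (nat_lit 380) (nat_lit 12759393093) (nat_lit 76) (nat_lit 3485041077) (nat_lit 24) (nat_lit 5) (nat_lit 29) (nat_lit 5) (nat_lit 25) (nat_lit 5) (nat_lit 319) (nat_lit 313) (nat_lit 268))) (XT.nd (nat_lit 78) (nat_lit 152) (nat_lit 0) (XT.lf (nat_lit 0) (nat_lit 8965005280) (nat_lit 152) (nat_lit 21835378221) (nat_lit 228) (nat_lit 11846783911) (nat_lit 22) (nat_lit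 5) (nat_lit 24) (nat_lit 5) (nat_lit 25) (nat_lit 5) (nat_lit 320) (nat_lit 313) (nat_lit 267)) (XT.nd (nat_lit 78) (nat_lit 152) (nat_lit 0) (XT.lf (nat_lit 0) (nat_lit 35371379057) (nat_lit 152) (nat_lit 4965824410) (nat_lit 228) (nat_lit 6032263209) (nat_lit 22) (nat_lit 5) (nat_lit 24) (nat_lit 5) (nat_lit 25) (nat_lit 5) (nat_lit 321) (nat_lit 313) (nat_lit 266)) (XT.lf (nat_lit 0) (nat_lit 1904037012) (nat_lit 152) (nat_lit 34653668277) (nat_lit 76) (nat_lit 13892173195) (nat_lit 20) (nat_lit 5) (nat_lit 22) (nat_lit 5) (nat_lit 21) (nat_lit 5) (nat_lit 322) (nat_lit 313) (nat_lit 265))))) (XT.nd (nat_lit 234) (nat_lit 228) (nat_lit 0) (XT.nd (nat_lit 78) (nat_lit 152) (nat_lit 0) (XT.lf (nat_lit 0) (nat_lit 11244695071) (nat_lit 152) (nat_lit 7772092525) (nat_lit 76) (nat_lit 35957762097) (nat_lit 20) (nat_lit 5) (nat_lit 22) (nat_lit 5) (nat_lit 21) (nat_lit 5) (nat_lit 323) (nat_lit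 313) (nat_lit 264)) (XT.nd (nat_lit 78) (nat_lit 0) (nat_lit 0) (XT.lf (nat_lit 0) (nat_lit 23129420532) (nat_lit 228) (nat_lit 34725732851) (nat_lit 76) (nat_lit 2151332001) (nat_lit 18) (nat_lit 5) (nat_lit 21) (nat_lit 5) (nat_lit 19) (nat_lit 4) (nat_lit 324) (nat_lit 313) (nat_lit 263)) (XT.lf (nat_lit 0) (nat_lit 38122069735) (nat_lit 228) (nat_lit 2501711785) (nat_lit 76) (nat_lit 24970655588) (nat_lit 18) (nat_lit 5) (nat_lit 21) (nat_lit 5) (nat_lit 19) (nat_lit 4) (nat_lit 325) (nat_lit 313) (nat_lit 262)))) (XT.nd (nat_lit 78) (nat_lit 152) (nat_lit 0) (XT.lf (nat_lit 0) (nat_lit 37923866157) (nat_lit 76) (nat_lit 19004913125) (nat_lit 152) (nat_lit 14857034750) (nat_lit 17) (nat_lit 5) (nat_lit 18) (nat_lit 5) (nat_lit 19) (nat_lit 4) (nat_lit 326) (nat_lit 313) (nat_lit 261)) (XT.nd (nat_lit 78) (nat_lit 0) (nat_lit 0) (XT.lf (nat_lit 0) (nat_lit 338415638) (nat_lit 152)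 (nat_lit 72733887117) (nat_lit 76) (nat_lit 5737263394) (nat_lit 15) (nat_lit 5) (nat_lit 17) (nat_lit 5) (nat_lit 16) (nat_lit 4) (nat_lit 327) (nat_lit 313) (nat_lit 260)) (XT.lf (nat_lit 0) (nat_lit 19046568624) (nat_lit 152) (nat_lit 32517175628) (nat_lit 76) (nat_lit 34803850322) (nat_lit 15) (nat_lit 5) (nat_lit 17) (nat_lit 5) (nat_lit 16) (nat_lit 4) (nat_lit 328) (nat_lit 313) (nat_lit 259)))))) (XT.nd (nat_lit 390) (nat_lit 228) (nat_lit 0) (XT.nd (nat_lit 156) (nat_lit 228) (nat_lit 0) (XT.nd (nat_lit 78) (nat_lit 0) (nat_lit 0) (XT.lf (nat_lit 0) (nat_lit 15065817053) (nat_lit 76) (nat_lit 26114728927) (nat_lit 152) (nat_lit 53785845006) (nat_lit 14) (nat_lit 5) (nat_lit 15) (nat_lit 5) (nat_lit 16) (nat_lit 4) (nat_lit 329) (nat_lit 313) (nat_lit 258)) (XT.lf (nat_lit 0) (nat_lit 68541709416) (nat_lit 152) (nat_lit 31378359001) (nat_lit 0) (nat_lit 4648878444) (nat_lit 14)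 (nat_lit 5) (nat_lit 16) (nat_lit 4) (nat_lit 14) (nat_lit 4) (nat_lit 330) (nat_lit 313) (nat_lit 257))) (XT.nd (nat_lit 78) (nat_lit 152) (nat_lit 0) (XT.lf (nat_lit 0) (nat_lit 25436541741) (nat_lit 76) (nat_lit 76863758281) (nat_lit 76) (nat_lit 12967601175) (nat_lit 13) (nat_lit 4) (nat_lit 14) (nat_lit 5) (nat_lit 14) (nat_lit 4) (nat_lit 331) (nat_lit 313) (nat_lit 256)) (XT.nd (nat_lit 78) (nat_lit 76) (nat_lit 0) (XT.lf (nat_lit 0) (nat_lit 14059380371) (nat_lit 152) (nat_lit 33671381599) (nat_lit 76) (nat_lit 79499551108) (nat_lit 12) (nat_lit 5) (nat_lit 14) (nat_lit 5) (nat_lit 13) (nat_lit 4) (nat_lit 332) (nat_lit 313) (nat_lit 255)) (XT.lf (nat_lit 0) (nat_lit 33249376183) (nat_lit 76) (nat_lit 11937107823) (nat_lit 152) (nat_lit 95501922436) (nat_lit 11) (nat_lit 5) (nat_lit 12) (nat_lit 5) (nat_lit 13) (nat_lit 4) (nat_lit 333) (nat_lit 313) (nat_lit 254))))) (XT.nd (nat_lit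 234) (nat_lit 152) (nat_lit 0) (XT.nd (nat_lit 78) (nat_lit 76) (nat_lit 0) (XT.lf (nat_lit 0) (nat_lit 84033718967) (nat_lit 152) (nat_lit 43208597208) (nat_lit 0) (nat_lit 28465239472) (nat_lit 11) (nat_lit 5) (nat_lit 13) (nat_lit 4) (nat_lit 11) (nat_lit 4) (nat_lit 334) (nat_lit 313) (nat_lit 253)) (XT.nd (nat_lit 78) (nat_lit 0) (nat_lit 0) (XT.lf (nat_lit 0) (nat_lit 33022782870) (nat_lit 76) (nat_lit 97618473237) (nat_lit 76) (nat_lit 42048340065) (nat_lit 10) (nat_lit 4) (nat_lit 11) (nat_lit 5) (nat_lit 11) (nat_lit 4) (nat_lit 335) (nat_lit 313) (nat_lit 252)) (XT.lf (nat_lit 0) (nat_lit 125540058216) (nat_lit 76) (nat_lit 60956017134) (nat_lit 76) (nat_lit 5384445982) (nat_lit 10) (nat_lit 4) (nat_lit 11) (nat_lit 5) (nat_lit 11) (nat_lit 4) (nat_lit 336) (nat_lit 313) (nat_lit 251)))) (XT.nd (nat_lit 78) (nat_lit 0) (nat_lit 0) (XT.lf (nat_lit 0) (nat_lit 18065783667) (nat_lit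 76) (nat_lit 16184730395) (nat_lit 152) (nat_lit 179359260139) (nat_lit 8) (nat_lit 5) (nat_lit 9) (nat_lit 5) (nat_lit 10) (nat_lit 4) (nat_lit 337) (nat_lit 313) (nat_lit 250)) (XT.nd (nat_lit 78) (nat_lit 0) (nat_lit 0) (XT.lf (nat_lit 0) (nat_lit 84371945667) (nat_lit 152) (nat_lit 117377328510) (nat_lit 0) (nat_lit 36046807504) (nat_lit 8) (nat_lit 5) (nat_lit 10) (nat_lit 4) (nat_lit 8) (nat_lit 4) (nat_lit 338) (nat_lit 313) (nat_lit 249)) (XT.lf (nat_lit 0) (nat_lit 142780355435) (nat_lit 152) (nat_lit 28260270966) (nat_lit 0) (nat_lit 94454395102) (nat_lit 8) (nat_lit 5) (nat_lit 10) (nat_lit 4) (nat_lit 8) (nat_lit 4) (nat_lit 339) (nat_lit 313) (nat_lit 248))))))) (XT.nd (nat_lit 858) (nat_lit 152) (nat_lit 0) (XT.nd (nat_lit 390) (nat_lit 76) (nat_lit 0) (XT.nd (nat_lit 156) (nat_lit 152) (nat_lit 0) (XT.nd (nat_lit 78) (nat_lit 0) (nat_lit 0) (XT.lf (nat_lit 0) (nat_lit 81474363076)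 (nat_lit 76) (nat_lit 131847657984) (nat_lit 76) (nat_lit 83520982721) (nat_lit 7) (nat_lit 4) (nat_lit 8) (nat_lit 5) (nat_lit 8) (nat_lit 4) (nat_lit 340) (nat_lit 313) (nat_lit 247)) (XT.lf (nat_lit 0) (nat_lit 210842022220) (nat_lit 76) (nat_lit 85078556197) (nat_lit 76) (nat_lit 36751259256) (nat_lit 7) (nat_lit 4) (nat_lit 8) (nat_lit 5) (nat_lit 8) (nat_lit 4) (nat_lit 341) (nat_lit 313) (nat_lit 246))) (XT.nd (nat_lit 78) (nat_lit 76) (nat_lit 0) (XT.lf (nat_lit 0) (nat_lit 15515987549) (nat_lit 152) (nat_lit 14968464300) (nat_lit 76) (nat_lit 343284963097) (nat_lit 6) (nat_lit 5) (nat_lit 8) (nat_lit 5) (nat_lit 7) (nat_lit 4) (nat_lit 342) (nat_lit 313) (nat_lit 245)) (XT.nd (nat_lit 78) (nat_lit 0) (nat_lit 0) (XT.lf (nat_lit 0) (nat_lit 78335818593) (nat_lit 152) (nat_lit 305150829385) (nat_lit 0) (nat_lit 36311203280) (nat_lit 5) (nat_lit 5) (nat_lit 7) (nat_lit 4) (nat_lit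 5) (nat_lit 4) (nat_lit 343) (nat_lit 313) (nat_lit 244)) (XT.lf (nat_lit 0) (nat_lit 152848710744) (nat_lit 152) (nat_lit 208717589639) (nat_lit 0) (nat_lit 110823739985) (nat_lit 5) (nat_lit 5) (nat_lit 7) (nat_lit 4) (nat_lit 5) (nat_lit 4) (nat_lit 344) (nat_lit 313) (nat_lit 243))))) (XT.nd (nat_lit 234) (nat_lit 0) (nat_lit 0) (XT.nd (nat_lit 78) (nat_lit 76) (nat_lit 0) (XT.lf (nat_lit 0) (nat_lit 238537444778) (nat_lit 152) (nat_lit 97821612199) (nat_lit 0) (nat_lit 196512164935) (nat_lit 5) (nat_lit 5) (nat_lit 7) (nat_lit 4) (nat_lit 5) (nat_lit 4) (nat_lit 345) (nat_lit 313) (nat_lit 242)) (XT.nd (nat_lit 78) (nat_lit 0) (nat_lit 0) (XT.lf (nat_lit 0) (nat_lit 32609972055) (nat_lit 76) (nat_lit 305818876752) (nat_lit 76) (nat_lit 263793328140) (nat_lit 4) (nat_lit 4) (nat_lit 5) (nat_lit 5) (nat_lit 5) (nat_lit 4) (nat_lit 346) (nat_lit 313) (nat_lit 241)) (XT.lf (nat_lit 0)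 (nat_lit 193598243077) (nat_lit 76) (nat_lit 264818219881) (nat_lit 76) (nat_lit 222792437557) (nat_lit 4) (nat_lit 4) (nat_lit 5) (nat_lit 5) (nat_lit 5) (nat_lit 4) (nat_lit 347) (nat_lit 313) (nat_lit 240)))) (XT.nd (nat_lit 78) (nat_lit 0) (nat_lit 0) (XT.lf (nat_lit 0) (nat_lit 378733132014) (nat_lit 76) (nat_lit 217668302057) (nat_lit 76) (nat_lit 175642316506) (nat_lit 4) (nat_lit 4) (nat_lit 5) (nat_lit 5) (nat_lit 5) (nat_lit 4) (nat_lit 348) (nat_lit 313) (nat_lit 239)) (XT.nd (nat_lit 78) (nat_lit 0) (nat_lit 0) (XT.lf (nat_lit 0) (nat_lit 591636843213) (nat_lit 76) (nat_lit 163446624888) (nat_lit 76) (nat_lit 121420462617) (nat_lit 4) (nat_lit 4) (nat_lit 5) (nat_lit 5) (nat_lit 5) (nat_lit 4) (nat_lit 349) (nat_lit 313) (nat_lit 238)) (XT.lf (nat_lit 0) (nat_lit 836474884068) (nat_lit 76) (nat_lit 101092329472) (nat_lit 76) (nat_lit 59066013532) (nat_lit 4) (nat_lit 4) (nat_lit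 5) (nat_lit 5) (nat_lit 5) (nat_lit 4) (nat_lit 350) (nat_lit 313) (nat_lit 237)))))) (XT.nd (nat_lit 390) (nat_lit 0) (nat_lit 0) (XT.nd (nat_lit 156) (nat_lit 0) (nat_lit 0) (XT.nd (nat_lit 78) (nat_lit 76) (nat_lit 0) (XT.lf (nat_lit 0) (nat_lit 11515619056) (nat_lit 152) (nat_lit 17267868595) (nat_lit 76) (nat_lit 1105919992203) (nat_lit 3) (nat_lit 5) (nat_lit 5) (nat_lit 5) (nat_lit 4) (nat_lit 4) (nat_lit 351) (nat_lit 313) (nat_lit 236)) (XT.lf (nat_lit 0) (nat_lit 95890814634) (nat_lit 152) (nat_lit 1136437548147) (nat_lit 0) (nat_lit 59345974841) (nat_lit 2) (nat_lit 5) (nat_lit 4) (nat_lit 4) (nat_lit 2) (nat_lit 4) (nat_lit 352) (nat_lit 313) (nat_lit 235))) (XT.nd (nat_lit 78) (nat_lit 0) (nat_lit 0) (XT.lf (nat_lit 0) (nat_lit 195238085704) (nat_lit 152) (nat_lit 1117912210958) (nat_lit 0) (nat_lit 158693158049) (nat_lit 2) (nat_lit 5) (nat_lit 4) (nat_lit 4) (nat_lit 2)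 (nat_lit 4) (nat_lit 353) (nat_lit 313) (nat_lit 234)) (XT.nd (nat_lit 78) (nat_lit 0) (nat_lit 0) (XT.lf (nat_lit 0) (nat_lit 309487040921) (nat_lit 152) (nat_lit 1096608922623) (nat_lit 0) (nat_lit 272942036866) (nat_lit 2) (nat_lit 5) (nat_lit 4) (nat_lit 4) (nat_lit 2) (nat_lit 4) (nat_lit 354) (nat_lit 313) (nat_lit 233)) (XT.lf (nat_lit 0) (nat_lit 440872985931) (nat_lit 152) (nat_lit 1072110879674) (nat_lit 0) (nat_lit 404327915440) (nat_lit 2) (nat_lit 5) (nat_lit 4) (nat_lit 4) (nat_lit 2) (nat_lit 4) (nat_lit 355) (nat_lit 313) (nat_lit 232))))) (XT.nd (nat_lit 234) (nat_lit 0) (nat_lit 0) (XT.nd (nat_lit 78) (nat_lit 0) (nat_lit 0) (XT.lf (nat_lit 0) (nat_lit 591966515310) (nat_lit 152) (nat_lit 1043938772575) (nat_lit 0) (nat_lit 555421387050) (nat_lit 2) (nat_lit 5) (nat_lit 4) (nat_lit 4) (nat_lit 2) (nat_lit 4) (nat_lit 356) (nat_lit 313) (nat_lit 231)) (XT.nd (nat_lit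 78) (nat_lit 0) (nat_lit 0) (XT.lf (nat_lit 0) (nat_lit 765723806808) (nat_lit 152) (nat_lit 1011541407927) (nat_lit 0) (nat_lit 729178628313) (nat_lit 2) (nat_lit 5) (nat_lit 4) (nat_lit 4) (nat_lit 2) (nat_lit 4) (nat_lit 357) (nat_lit 313) (nat_lit 230)) (XT.lf (nat_lit 0) (nat_lit 965544459605) (nat_lit 152) (nat_lit 974284924246) (nat_lit 0) (nat_lit 928999237427) (nat_lit 2) (nat_lit 5) (nat_lit 4) (nat_lit 4) (nat_lit 2) (nat_lit 4) (nat_lit 358) (nat_lit 313) (nat_lit 229)))) (XT.nd (nat_lit 78) (nat_lit 0) (nat_lit 0) (XT.lf (nat_lit 0) (nat_lit 1195338008213) (nat_lit 152) (nat_lit 931440390332) (nat_lit 0) (nat_lit 1158792748050) (nat_lit 2) (nat_lit 5) (nat_lit 4) (nat_lit 4) (nat_lit 2) (nat_lit 4) (nat_lit 359) (nat_lit 313) (nat_lit 228)) (XT.nd (nat_lit 78) (nat_lit 0) (nat_lit 0) (XT.lf (nat_lit 0) (nat_lit 1459600413365) (nat_lit 152) (nat_lit 882169543563) (nat_lit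 0) (nat_lit 1423055120173) (nat_lit 2) (nat_lit 5) (nat_lit 4) (nat_lit 4) (nat_lit 2) (nat_lit 4) (nat_lit 360) (nat_lit 313) (nat_lit 227)) (XT.lf (nat_lit 0) (nat_lit 1763502026467) (nat_lit 152) (nat_lit 825508389112) (nat_lit 0) (nat_lit 1726956704553) (nat_lit 2) (nat_lit 5) (nat_lit 4) (nat_lit 4) (nat_lit 2) (nat_lit 4) (nat_lit 361) (nat_lit 313) (nat_lit 226))))))))
noncomputable def xc74 : XT := (XT.nd (nat_lit 1638) (nat_lit 0) (nat_lit 0) (XT.nd (nat_lit 780) (nat_lit 0) (nat_lit 0) (XT.nd (nat_lit 390) (nat_lit 76) (nat_lit 0) (XT.nd (nat_lit 156) (nat_lit 0) (nat_lit 0) (XT.nd (nat_lit 78) (nat_lit 0) (nat_lit 0) (XT.lf (nat_lit 0) (nat_lit 2112988748645) (nat_lit 152) (nat_lit 760348339173) (nat_lit 0) (nat_lit 2076443401754) (nat_lit 2) (nat_lit 5) (nat_lit 4) (nat_lit 4) (nat_lit 2) (nat_lit 4) (nat_lit 362) (nat_lit 313) (nat_lit 225)) (XT.lf (nat_lit 0) (nat_lit 2514898363592)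 (nat_lit 152) (nat_lit 685414523206) (nat_lit 0) (nat_lit 2478352994984) (nat_lit 2) (nat_lit 5) (nat_lit 4) (nat_lit 4) (nat_lit 2) (nat_lit 4) (nat_lit 363) (nat_lit 313) (nat_lit 224))) (XT.nd (nat_lit 78) (nat_lit 0) (nat_lit 0) (XT.lf (nat_lit 0) (nat_lit 2977094320298) (nat_lit 152) (nat_lit 599240844810) (nat_lit 0) (nat_lit 2940548932805) (nat_lit 2) (nat_lit 5) (nat_lit 4) (nat_lit 4) (nat_lit 2) (nat_lit 4) (nat_lit 364) (nat_lit 313) (nat_lit 223)) (XT.nd (nat_lit 78) (nat_lit 0) (nat_lit 0) (XT.lf (nat_lit 0) (nat_lit 3508619583133) (nat_lit 152) (nat_lit 500141297235) (nat_lit 0) (nat_lit 3472074179218) (nat_lit 2) (nat_lit 5) (nat_lit 4) (nat_lit 4) (nat_lit 2) (nat_lit 4) (nat_lit 365) (nat_lit 313) (nat_lit 222)) (XT.lf (nat_lit 0) (nat_lit 4119873559413) (nat_lit 152) (nat_lit 386176976288) (nat_lit 0) (nat_lit 4083328141218) (nat_lit 2) (nat_lit 5) (nat_lit 4) (nat_lit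 4) (nat_lit 2) (nat_lit 4) (nat_lit 366) (nat_lit 313) (nat_lit 221))))) (XT.nd (nat_lit 156) (nat_lit 76) (nat_lit 0) (XT.nd (nat_lit 78) (nat_lit 0) (nat_lit 0) (XT.lf (nat_lit 0) (nat_lit 4822815566065) (nat_lit 152) (nat_lit 255118145255) (nat_lit 0) (nat_lit 4786270135453) (nat_lit 2) (nat_lit 5) (nat_lit 4) (nat_lit 4) (nat_lit 2) (nat_lit 4) (nat_lit 367) (nat_lit 313) (nat_lit 220)) (XT.lf (nat_lit 0) (nat_lit 5631198816263) (nat_lit 152) (nat_lit 104400609617) (nat_lit 0) (nat_lit 5594653374853) (nat_lit 2) (nat_lit 5) (nat_lit 4) (nat_lit 4) (nat_lit 2) (nat_lit 4) (nat_lit 368) (nat_lit 313) (nat_lit 219))) (XT.nd (nat_lit 78) (nat_lit 0) (nat_lit 0) (XT.lf (nat_lit 0) (nat_lit 75660250692) (nat_lit 76) (nat_lit 6488312182975) (nat_lit 76) (nat_lit 6451766732176) (nat_lit 1) (nat_lit 4) (nat_lit 2) (nat_lit 5) (nat_lit 2) (nat_lit 4) (nat_lit 369) (nat_lit 313) (nat_lit 218))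 (XT.nd (nat_lit 78) (nat_lit 0) (nat_lit 0) (XT.lf (nat_lit 0) (nat_lit 294463345279) (nat_lit 76) (nat_lit 7347656005429) (nat_lit 76) (nat_lit 7311110546466) (nat_lit 1) (nat_lit 4) (nat_lit 2) (nat_lit 5) (nat_lit 2) (nat_lit 4) (nat_lit 370) (nat_lit 313) (nat_lit 217)) (XT.lf (nat_lit 0) (nat_lit 546086817405) (nat_lit 76) (nat_lit 8335901446536) (nat_lit 76) (nat_lit 8299355980473) (nat_lit 1) (nat_lit 4) (nat_lit 2) (nat_lit 5) (nat_lit 2) (nat_lit 4) (nat_lit 371) (nat_lit 313) (nat_lit 216)))))) (XT.nd (nat_lit 390) (nat_lit 0) (nat_lit 0) (XT.nd (nat_lit 156) (nat_lit 0) (nat_lit 0) (XT.nd (nat_lit 78) (nat_lit 0) (nat_lit 0) (XT.lf (nat_lit 0) (nat_lit 835453735005) (nat_lit 76) (nat_lit 9472383743187) (nat_lit 76) (nat_lit 9435838270951) (nat_lit 1) (nat_lit 4) (nat_lit 2) (nat_lit 5) (nat_lit 2) (nat_lit 4) (nat_lit 372) (nat_lit 313) (nat_lit 215)) (XT.lf (nat_lit 0) (nat_lit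 1168225624725) (nat_lit 76) (nat_lit 10779338418578) (nat_lit 76) (nat_lit 10742792940973) (nat_lit 1) (nat_lit 4) (nat_lit 2) (nat_lit 5) (nat_lit 2) (nat_lit 4) (nat_lit 373) (nat_lit 313) (nat_lit 214))) (XT.nd (nat_lit 78) (nat_lit 0) (nat_lit 0) (XT.lf (nat_lit 0) (nat_lit 1550913240931) (nat_lit 76) (nat_lit 12282336325052) (nat_lit 76) (nat_lit 12245790842779) (nat_lit 1) (nat_lit 4) (nat_lit 2) (nat_lit 5) (nat_lit 2) (nat_lit 4) (nat_lit 374) (nat_lit 313) (nat_lit 213)) (XT.nd (nat_lit 78) (nat_lit 0) (nat_lit 0) (XT.lf (nat_lit 0) (nat_lit 1991003950027) (nat_lit 76) (nat_lit 14010783943390) (nat_lit 76) (nat_lit 13974238457058) (nat_lit 1) (nat_lit 4) (nat_lit 2) (nat_lit 5) (nat_lit 2) (nat_lit 4) (nat_lit 375) (nat_lit 313) (nat_lit 212)) (XT.lf (nat_lit 0) (nat_lit 2497108222408) (nat_lit 76) (nat_lit 15998498726993) (nat_lit 76) (nat_lit 15961953237130) (nat_lit 1) (nat_lit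 4) (nat_lit 2) (nat_lit 5) (nat_lit 2) (nat_lit 4) (nat_lit 376) (nat_lit 313) (nat_lit 211))))) (XT.nd (nat_lit 234) (nat_lit 0) (nat_lit 0) (XT.nd (nat_lit 78) (nat_lit 0) (nat_lit 0) (XT.lf (nat_lit 0) (nat_lit 3079128098185) (nat_lit 76) (nat_lit 18284370747713) (nat_lit 76) (nat_lit 18247825254782) (nat_lit 1) (nat_lit 4) (nat_lit 2) (nat_lit 5) (nat_lit 2) (nat_lit 4) (nat_lit 377) (nat_lit 313) (nat_lit 210)) (XT.nd (nat_lit 78) (nat_lit 0) (nat_lit 0) (XT.lf (nat_lit 0) (nat_lit 3748450922754) (nat_lit 76) (nat_lit 20913123588567) (nat_lit 76) (nat_lit 20876578092966) (nat_lit 1) (nat_lit 4) (nat_lit 2) (nat_lit 5) (nat_lit 2) (nat_lit 4) (nat_lit 378) (nat_lit 313) (nat_lit 209)) (XT.lf (nat_lit 0) (nat_lit 4518172142684) (nat_lit 76) (nat_lit 23936189370352) (nat_lit 76) (nat_lit 23899643872430) (nat_lit 1) (nat_lit 4) (nat_lit 2) (nat_lit 5) (nat_lit 2) (nat_lit 4) (nat_lit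 379) (nat_lit 313) (nat_lit 208)))) (XT.nd (nat_lit 78) (nat_lit 0) (nat_lit 0) (XT.lf (nat_lit 0) (nat_lit 5403351520972) (nat_lit 76) (nat_lit 27412715032277) (nat_lit 76) (nat_lit 27376169532337) (nat_lit 1) (nat_lit 4) (nat_lit 2) (nat_lit 5) (nat_lit 2) (nat_lit 4) (nat_lit 380) (nat_lit 313) (nat_lit 207)) (XT.nd (nat_lit 78) (nat_lit 0) (nat_lit 0) (XT.lf (nat_lit 0) (nat_lit 6421307784585) (nat_lit 76) (nat_lit 31410719554685) (nat_lit 76) (nat_lit 31374174052990) (nat_lit 1) (nat_lit 4) (nat_lit 2) (nat_lit 5) (nat_lit 2) (nat_lit 4) (nat_lit 381) (nat_lit 313) (nat_lit 206)) (XT.lf (nat_lit 0) (nat_lit 7591957469115) (nat_lit 76) (nat_lit 36008424765187) (nat_lit 76) (nat_lit 35971879261967) (nat_lit 1) (nat_lit 4) (nat_lit 2) (nat_lit 5) (nat_lit 2) (nat_lit 4) (nat_lit 382) (nat_lit 313) (nat_lit 205))))))) (XT.nd (nat_lit 42042) (nat_lit 0) (nat_lit 988) (XT.nd (nat_lit 41574)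 (nat_lit 0) (nat_lit 1748) (XT.nd (nat_lit 156) (nat_lit 0) (nat_lit 0) (XT.nd (nat_lit 78) (nat_lit 0) (nat_lit 0) (XT.lf (nat_lit 0) (nat_lit 8938204590130) (nat_lit 76) (nat_lit 41295785765729) (nat_lit 76) (nat_lit 41259240261182) (nat_lit 1) (nat_lit 4) (nat_lit 2) (nat_lit 5) (nat_lit 2) (nat_lit 4) (nat_lit 383) (nat_lit 313) (nat_lit 204)) (XT.lf (nat_lit 0) (nat_lit 10486388765215) (nat_lit 76) (nat_lit 47376250923713) (nat_lit 76) (nat_lit 47339705418012) (nat_lit 1) (nat_lit 4) (nat_lit 2) (nat_lit 5) (nat_lit 2) (nat_lit 4) (nat_lit 384) (nat_lit 313) (nat_lit 203))) (XT.nd (nat_lit 624) (nat_lit 0) (nat_lit 0) (XT.lf (nat_lit 0) (nat_lit 12266800554316) (nat_lit 76) (nat_lit 54368785861794) (nat_lit 76) (nat_lit 54332240355089) (nat_lit 1) (nat_lit 4) (nat_lit 2) (nat_lit 5) (nat_lit 2) (nat_lit 4) (nat_lit 385) (nat_lit 313) (nat_lit 202)) (XT.nd (nat_lit 40716) (nat_lit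 0) (nat_lit 1900) (XT.lf (nat_lit 0) (nat_lit 40372099227077) (nat_lit 76) (nat_lit 164751837421372) (nat_lit 76) (nat_lit 164715291910165) (nat_lit 1) (nat_lit 4) (nat_lit 2) (nat_lit 5) (nat_lit 2) (nat_lit 4) (nat_lit 393) (nat_lit 313) (nat_lit 194)) (XT.lf (nat_lit 0) (nat_lit 3032756807) (nat_lit 380) (nat_lit 5682117234) (nat_lit 380) (nat_lit 5682117234) (nat_lit 26) (nat_lit 3) (nat_lit 31) (nat_lit 3) (nat_lit 31) (nat_lit 5) (nat_lit 314) (nat_lit 314) (nat_lit 272))))) (XT.nd (nat_lit 234) (nat_lit 152) (nat_lit 0) (XT.nd (nat_lit 78) (nat_lit 0) (nat_lit 76) (XT.lf (nat_lit 76) (nat_lit 2733178013) (nat_lit 0) (nat_lit 3973037545) (nat_lit 380) (nat_lit 24219290986) (nat_lit 27) (nat_lit 5) (nat_lit 26) (nat_lit 3) (nat_lit 31) (nat_lit 5) (nat_lit 315) (nat_lit 314) (nat_lit 271)) (XT.nd (nat_lit 78) (nat_lit 0) (nat_lit 0) (XT.lf (nat_lit 0) (nat_lit 8528573842) (nat_lit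 304) (nat_lit 13580239046) (nat_lit 380) (nat_lit 11105141444) (nat_lit 27) (nat_lit 5) (nat_lit 31) (nat_lit 5) (nat_lit 32) (nat_lit 5) (nat_lit 316) (nat_lit 314) (nat_lit 270)) (XT.lf (nat_lit 76) (nat_lit 3321090310) (nat_lit 0) (nat_lit 7618553347) (nat_lit 380) (nat_lit 24858746185) (nat_lit 28) (nat_lit 5) (nat_lit 27) (nat_lit 5) (nat_lit 32) (nat_lit 5) (nat_lit 317) (nat_lit 314) (nat_lit 269)))) (XT.nd (nat_lit 78) (nat_lit 304) (nat_lit 0) (XT.lf (nat_lit 0) (nat_lit 14820433579) (nat_lit 304) (nat_lit 14798762525) (nat_lit 76) (nat_lit 8985106689) (nat_lit 28) (nat_lit 5) (nat_lit 32) (nat_lit 5) (nat_lit 29) (nat_lit 5) (nat_lit 318) (nat_lit 314) (nat_lit 268)) (XT.nd (nat_lit 78) (nat_lit 0) (nat_lit 0) (XT.lf (nat_lit 0) (nat_lit 5664104450) (nat_lit 304) (nat_lit 14207725641) (nat_lit 380) (nat_lit 21871017696) (nat_lit 24) (nat_lit 5) (nat_lit 28) (nat_lit 5) (nat_lit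 29) (nat_lit 5) (nat_lit 319) (nat_lit 314) (nat_lit 267)) (XT.lf (nat_lit 0) (nat_lit 26628854364) (nat_lit 380) (nat_lit 14568679442) (nat_lit 76) (nat_lit 4012468907) (nat_lit 24) (nat_lit 5) (nat_lit 29) (nat_lit 5) (nat_lit 25) (nat_lit 5) (nat_lit 320) (nat_lit 314) (nat_lit 266)))))) (XT.nd (nat_lit 390) (nat_lit 304) (nat_lit 0) (XT.nd (nat_lit 156) (nat_lit 304) (nat_lit 0) (XT.nd (nat_lit 78) (nat_lit 0) (nat_lit 0) (XT.lf (nat_lit 0) (nat_lit 10409623114) (nat_lit 152) (nat_lit 25090400808) (nat_lit 228) (nat_lit 13532132057) (nat_lit 22) (nat_lit 5) (nat_lit 24) (nat_lit 5) (nat_lit 25) (nat_lit 5) (nat_lit 321) (nat_lit 314) (nat_lit 265)) (XT.lf (nat_lit 0) (nat_lit 40763926822) (nat_lit 152) (nat_lit 5693059683) (nat_lit 228) (nat_lit 6857390133) (nat_lit 22) (nat_lit 5) (nat_lit 24) (nat_lit 5) (nat_lit 25) (nat_lit 5) (nat_lit 322) (nat_lit 314) (nat_lit 264))) (XT.nd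 (nat_lit 78) (nat_lit 152) (nat_lit 0) (XT.lf (nat_lit 0) (nat_lit 2257453105) (nat_lit 152) (nat_lit 39752764804) (nat_lit 76) (nat_lit 15996872724) (nat_lit 20) (nat_lit 5) (nat_lit 22) (nat_lit 5) (nat_lit 21) (nat_lit 5) (nat_lit 323) (nat_lit 314) (nat_lit 263)) (XT.nd (nat_lit 78) (nat_lit 152) (nat_lit 0) (XT.lf (nat_lit 0) (nat_lit 12990365019) (nat_lit 152) (nat_lit 8851859695) (nat_lit 76) (nat_lit 41369577325) (nat_lit 20) (nat_lit 5) (nat_lit 22) (nat_lit 5) (nat_lit 21) (nat_lit 5) (nat_lit 324) (nat_lit 314) (nat_lit 262)) (XT.lf (nat_lit 0) (nat_lit 26654646235) (nat_lit 228) (nat_lit 39845318872) (nat_lit 76) (nat_lit 2499047056) (nat_lit 18) (nat_lit 5) (nat_lit 21) (nat_lit 5) (nat_lit 19) (nat_lit 4) (nat_lit 325) (nat_lit 314) (nat_lit 261))))) (XT.nd (nat_lit 234) (nat_lit 76) (nat_lit 0) (XT.nd (nat_lit 78) (nat_lit 228) (nat_lit 0) (XT.lf (nat_lit 0) (nat_lit 43888912912)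 (nat_lit 228) (nat_lit 2799339068) (nat_lit 76) (nat_lit 28738006322) (nat_lit 18) (nat_lit 5) (nat_lit 21) (nat_lit 5) (nat_lit 19) (nat_lit 4) (nat_lit 326) (nat_lit 314) (nat_lit 260)) (XT.nd (nat_lit 78) (nat_lit 152) (nat_lit 0) (XT.lf (nat_lit 0) (nat_lit 43686546952) (nat_lit 76) (nat_lit 21826819944) (nat_lit 152) (nat_lit 17033472577) (nat_lit 17) (nat_lit 5) (nat_lit 18) (nat_lit 5) (nat_lit 19) (nat_lit 4) (nat_lit 327) (nat_lit 314) (nat_lit 259)) (XT.lf (nat_lit 0) (nat_lit 434852745) (nat_lit 152) (nat_lit 83563335558) (nat_lit 76) (nat_lit 6625919169) (nat_lit 15) (nat_lit 5) (nat_lit 17) (nat_lit 5) (nat_lit 16) (nat_lit 4) (nat_lit 328) (nat_lit 314) (nat_lit 258)))) (XT.nd (nat_lit 78) (nat_lit 76) (nat_lit 0) (XT.lf (nat_lit 0) (nat_lit 21943271100) (nat_lit 152) (nat_lit 37324634906) (nat_lit 76) (nat_lit 40048833319) (nat_lit 15) (nat_lit 5) (nat_lit 17) (nat_lit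 5) (nat_lit 16) (nat_lit 4) (nat_lit 329) (nat_lit 314) (nat_lit 257)) (XT.nd (nat_lit 78) (nat_lit 0) (nat_lit 0) (XT.lf (nat_lit 0) (nat_lit 17392619539) (nat_lit 76) (nat_lit 30002316445) (nat_lit 152) (nat_lit 61810785384) (nat_lit 14) (nat_lit 5) (nat_lit 15) (nat_lit 5) (nat_lit 16) (nat_lit 4) (nat_lit 330) (nat_lit 314) (nat_lit 256)) (XT.lf (nat_lit 0) (nat_lit 78856474249) (nat_lit 152) (nat_lit 36023085358) (nat_lit 0) (nat_lit 5369675151) (nat_lit 14) (nat_lit 5) (nat_lit 16) (nat_lit 4) (nat_lit 14) (nat_lit 4) (nat_lit 331) (nat_lit 314) (nat_lit 255))))))))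
noncomputable def xc75 : XT := (XT.nd (nat_lit 1716) (nat_lit 76) (nat_lit 0) (XT.nd (nat_lit 858) (nat_lit 380) (nat_lit 0) (XT.nd (nat_lit 390) (nat_lit 228) (nat_lit 0) (XT.nd (nat_lit 156) (nat_lit 152) (nat_lit 0) (XT.nd (nat_lit 78) (nat_lit 76) (nat_lit 0) (XT.lf (nat_lit 0) (nat_lit 29311231064) (nat_lit 76) (nat_lit 88365703397) (nat_lit 76) (nat_lit 14876389265) (nat_lit 13) (nat_lit 4) (nat_lit 14) (nat_lit 5) (nat_lit 14) (nat_lit 4) (nat_lit 332) (nat_lit 314) (nat_lit 254)) (XT.lf (nat_lit 0) (nat_lit 16197083750) (nat_lit 152) (nat_lit 38667771056) (nat_lit 76) (nat_lit 91445667460) (nat_lit 12) (nat_lit 5) (nat_lit 14) (nat_lit 5) (nat_lit 13) (nat_lit 4) (nat_lit 333) (nat_lit 314) (nat_lit 253))) (XT.nd (nat_lit 78) (nat_lit 76) (nat_lit 0) (XT.lf (nat_lit 0) (nat_lit 38288631403) (nat_lit 76) (nat_lit 13703012434) (nat_lit 152) (nat_lit 109795929553) (nat_lit 11) (nat_lit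 5) (nat_lit 12) (nat_lit 5) (nat_lit 13) (nat_lit 4) (nat_lit 334) (nat_lit 314) (nat_lit 252)) (XT.nd (nat_lit 78) (nat_lit 76) (nat_lit 0) (XT.lf (nat_lit 0) (nat_lit 96663305867) (nat_lit 152) (nat_lit 49642128851) (nat_lit 0) (nat_lit 32754561062) (nat_lit 11) (nat_lit 5) (nat_lit 13) (nat_lit 4) (nat_lit 11) (nat_lit 4) (nat_lit 335) (nat_lit 314) (nat_lit 251)) (XT.lf (nat_lit 0) (nat_lit 38021787423) (nat_lit 76) (nat_lit 112238874378) (nat_lit 76) (nat_lit 48328879156) (nat_lit 10) (nat_lit 4) (nat_lit 11) (nat_lit 5) (nat_lit 11) (nat_lit 4) (nat_lit 336) (nat_lit 314) (nat_lit 250))))) (XT.nd (nat_lit 234) (nat_lit 76) (nat_lit 0) (XT.nd (nat_lit 78) (nat_lit 152) (nat_lit 0) (XT.lf (nat_lit 0) (nat_lit 144410707925) (nat_lit 76) (nat_lit 70079967665) (nat_lit 76) (nat_lit 6168885125) (nat_lit 10) (nat_lit 4) (nat_lit 11) (nat_lit 5) (nat_lit 11) (nat_lit 4) (nat_lit 337) (nat_lit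 314) (nat_lit 249)) (XT.nd (nat_lit 78) (nat_lit 0) (nat_lit 0) (XT.lf (nat_lit 0) (nat_lit 20815472928) (nat_lit 76) (nat_lit 18592667054) (nat_lit 152) (nat_lit 206240085106) (nat_lit 8) (nat_lit 5) (nat_lit 9) (nat_lit 5) (nat_lit 10) (nat_lit 4) (nat_lit 338) (nat_lit 314) (nat_lit 248)) (XT.lf (nat_lit 0) (nat_lit 97045883225) (nat_lit 152) (nat_lit 134947390220) (nat_lit 0) (nat_lit 41469491742) (nat_lit 8) (nat_lit 5) (nat_lit 10) (nat_lit 4) (nat_lit 8) (nat_lit 4) (nat_lit 339) (nat_lit 314) (nat_lit 247)))) (XT.nd (nat_lit 78) (nat_lit 76) (nat_lit 0) (XT.lf (nat_lit 0) (nat_lit 164213187627) (nat_lit 152) (nat_lit 32467539815) (nat_lit 0) (nat_lit 108636174466) (nat_lit 8) (nat_lit 5) (nat_lit 10) (nat_lit 4) (nat_lit 8) (nat_lit 4) (nat_lit 340) (nat_lit 314) (nat_lit 246)) (XT.nd (nat_lit 78) (nat_lit 0) (nat_lit 0) (XT.lf (nat_lit 0) (nat_lit 93725845162) (nat_lit 76) (nat_lit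 151609455622) (nat_lit 76) (nat_lit 96031901871) (nat_lit 7) (nat_lit 4) (nat_lit 8) (nat_lit 5) (nat_lit 8) (nat_lit 4) (nat_lit 341) (nat_lit 314) (nat_lit 245)) (XT.lf (nat_lit 0) (nat_lit 242494697400) (nat_lit 76) (nat_lit 97826990879) (nat_lit 76) (nat_lit 42248967050) (nat_lit 7) (nat_lit 4) (nat_lit 8) (nat_lit 5) (nat_lit 8) (nat_lit 4) (nat_lit 342) (nat_lit 314) (nat_lit 244)))))) (XT.nd (nat_lit 390) (nat_lit 152) (nat_lit 0) (XT.nd (nat_lit 156) (nat_lit 76) (nat_lit 0) (XT.nd (nat_lit 78) (nat_lit 76) (nat_lit 0) (XT.lf (nat_lit 0) (nat_lit 17855252962) (nat_lit 152) (nat_lit 17189638722) (nat_lit 76) (nat_lit 394788151986) (nat_lit 6) (nat_lit 5) (nat_lit 8) (nat_lit 5) (nat_lit 7) (nat_lit 4) (nat_lit 343) (nat_lit 314) (nat_lit 243)) (XT.lf (nat_lit 0) (nat_lit 90097948778) (nat_lit 152) (nat_lit 350899245707) (nat_lit 0) (nat_lit 41768567875) (nat_lit 5) (nat_lit 5)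 (nat_lit 7) (nat_lit 4) (nat_lit 5) (nat_lit 4) (nat_lit 344) (nat_lit 314) (nat_lit 242))) (XT.nd (nat_lit 78) (nat_lit 76) (nat_lit 0) (XT.lf (nat_lit 0) (nat_lit 175786241179) (nat_lit 152) (nat_lit 240004177576) (nat_lit 0) (nat_lit 127456591506) (nat_lit 5) (nat_lit 5) (nat_lit 7) (nat_lit 4) (nat_lit 5) (nat_lit 4) (nat_lit 345) (nat_lit 314) (nat_lit 241)) (XT.nd (nat_lit 78) (nat_lit 76) (nat_lit 0) (XT.lf (nat_lit 0) (nat_lit 274326951776) (nat_lit 152) (nat_lit 112476549239) (nat_lit 0) (nat_lit 225997068392) (nat_lit 5) (nat_lit 5) (nat_lit 7) (nat_lit 4) (nat_lit 5) (nat_lit 4) (nat_lit 346) (nat_lit 314) (nat_lit 240)) (XT.lf (nat_lit 0) (nat_lit 37518940618) (nat_lit 76) (nat_lit 351682689698) (nat_lit 76) (nat_lit 303352603086) (nat_lit 4) (nat_lit 4) (nat_lit 5) (nat_lit 5) (nat_lit 5) (nat_lit 4) (nat_lit 347) (nat_lit 314) (nat_lit 239))))) (XT.nd (nat_lit 234) (nat_lit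 152) (nat_lit 0) (XT.nd (nat_lit 78) (nat_lit 0) (nat_lit 0) (XT.lf (nat_lit 0) (nat_lit 222653173239) (nat_lit 76) (nat_lit 304533110632) (nat_lit 76) (nat_lit 256202847300) (nat_lit 4) (nat_lit 4) (nat_lit 5) (nat_lit 5) (nat_lit 5) (nat_lit 4) (nat_lit 348) (nat_lit 314) (nat_lit 238)) (XT.nd (nat_lit 78) (nat_lit 0) (nat_lit 0) (XT.lf (nat_lit 0) (nat_lit 435556313729) (nat_lit 76) (nat_lit 250311728034) (nat_lit 76) (nat_lit 201981311033) (nat_lit 4) (nat_lit 4) (nat_lit 5) (nat_lit 5) (nat_lit 5) (nat_lit 4) (nat_lit 349) (nat_lit 314) (nat_lit 237)) (XT.lf (nat_lit 0) (nat_lit 680393858315) (nat_lit 76) (nat_lit 187957688768) (nat_lit 76) (nat_lit 139627138141) (nat_lit 4) (nat_lit 4) (nat_lit 5) (nat_lit 5) (nat_lit 5) (nat_lit 4) (nat_lit 350) (nat_lit 314) (nat_lit 236)))) (XT.nd (nat_lit 78) (nat_lit 152) (nat_lit 0) (XT.lf (nat_lit 0) (nat_lit 961956106783) (nat_lit 76) (nat_lit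 116251022499) (nat_lit 76) (nat_lit 67920355676) (nat_lit 4) (nat_lit 4) (nat_lit 5) (nat_lit 5) (nat_lit 5) (nat_lit 4) (nat_lit 351) (nat_lit 314) (nat_lit 235)) (XT.nd (nat_lit 78) (nat_lit 76) (nat_lit 0) (XT.lf (nat_lit 0) (nat_lit 13247366181) (nat_lit 152) (nat_lit 19848930573) (nat_lit 76) (nat_lit 1271812043591) (nat_lit 3) (nat_lit 5) (nat_lit 5) (nat_lit 5) (nat_lit 4) (nat_lit 4) (nat_lit 352) (nat_lit 314) (nat_lit 234)) (XT.lf (nat_lit 0) (nat_lit 110278813934) (nat_lit 152) (nat_lit 1306894034160) (nat_lit 0) (nat_lit 68251982869) (nat_lit 2) (nat_lit 5) (nat_lit 4) (nat_lit 4) (nat_lit 2) (nat_lit 4) (nat_lit 353) (nat_lit 314) (nat_lit 233))))))) (XT.nd (nat_lit 858) (nat_lit 76) (nat_lit 0) (XT.nd (nat_lit 390) (nat_lit 0) (nat_lit 0) (XT.nd (nat_lit 156) (nat_lit 0) (nat_lit 0) (XT.nd (nat_lit 78) (nat_lit 0) (nat_lit 0) (XT.lf (nat_lit 0) (nat_lit 224527604737) (nat_lit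 152) (nat_lit 1285591089377) (nat_lit 0) (nat_lit 182500707237) (nat_lit 2) (nat_lit 5) (nat_lit 4) (nat_lit 4) (nat_lit 2) (nat_lit 4) (nat_lit 354) (nat_lit 314) (nat_lit 232)) (XT.lf (nat_lit 0) (nat_lit 355913406779) (nat_lit 152) (nat_lit 1261093345169) (nat_lit 0) (nat_lit 313886451509) (nat_lit 2) (nat_lit 5) (nat_lit 4) (nat_lit 4) (nat_lit 2) (nat_lit 4) (nat_lit 355) (nat_lit 314) (nat_lit 231))) (XT.nd (nat_lit 78) (nat_lit 0) (nat_lit 0) (XT.lf (nat_lit 0) (nat_lit 507006811838) (nat_lit 152) (nat_lit 1232921497844) (nat_lit 0) (nat_lit 464979806333) (nat_lit 2) (nat_lit 5) (nat_lit 4) (nat_lit 4) (nat_lit 2) (nat_lit 4) (nat_lit 356) (nat_lit 314) (nat_lit 230)) (XT.nd (nat_lit 78) (nat_lit 0) (nat_lit 0) (XT.lf (nat_lit 0) (nat_lit 680763995231) (nat_lit 152) (nat_lit 1200524359087) (nat_lit 0) (nat_lit 638736946044) (nat_lit 2) (nat_lit 5) (nat_lit 4) (nat_lit 4) (nat_lit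 2) (nat_lit 4) (nat_lit 357) (nat_lit 314) (nat_lit 229)) (XT.lf (nat_lit 0) (nat_lit 880584554024) (nat_lit 152) (nat_lit 1163268071833) (nat_lit 0) (nat_lit 838557466852) (nat_lit 2) (nat_lit 5) (nat_lit 4) (nat_lit 4) (nat_lit 2) (nat_lit 4) (nat_lit 358) (nat_lit 314) (nat_lit 228))))) (XT.nd (nat_lit 234) (nat_lit 0) (nat_lit 0) (XT.nd (nat_lit 78) (nat_lit 0) (nat_lit 0) (XT.lf (nat_lit 0) (nat_lit 1110378020889) (nat_lit 152) (nat_lit 1120423708725) (nat_lit 0) (nat_lit 1068350900687) (nat_lit 2) (nat_lit 5) (nat_lit 4) (nat_lit 4) (nat_lit 2) (nat_lit 4) (nat_lit 359) (nat_lit 314) (nat_lit 227)) (XT.nd (nat_lit 78) (nat_lit 0) (nat_lit 0) (XT.lf (nat_lit 0) (nat_lit 1374640354961) (nat_lit 152) (nat_lit 1071153010483) (nat_lit 0) (nat_lit 1332613206037) (nat_lit 2) (nat_lit 5) (nat_lit 4) (nat_lit 4) (nat_lit 2) (nat_lit 4) (nat_lit 360) (nat_lit 314) (nat_lit 226)) (XT.lf (nat_lit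 0) (nat_lit 1678541906253) (nat_lit 152) (nat_lit 1014491985185) (nat_lit 0) (nat_lit 1636514732354) (nat_lit 2) (nat_lit 5) (nat_lit 4) (nat_lit 4) (nat_lit 2) (nat_lit 4) (nat_lit 361) (nat_lit 314) (nat_lit 225)))) (XT.nd (nat_lit 78) (nat_lit 0) (nat_lit 0) (XT.lf (nat_lit 0) (nat_lit 2028028574684) (nat_lit 152) (nat_lit 949332047555) (nat_lit 0) (nat_lit 1986001379067) (nat_lit 2) (nat_lit 5) (nat_lit 4) (nat_lit 4) (nat_lit 2) (nat_lit 4) (nat_lit 362) (nat_lit 314) (nat_lit 224)) (XT.nd (nat_lit 78) (nat_lit 0) (nat_lit 0) (XT.lf (nat_lit 0) (nat_lit 2429938142895) (nat_lit 152) (nat_lit 874398329247) (nat_lit 0) (nat_lit 2387910928392) (nat_lit 2) (nat_lit 5) (nat_lit 4) (nat_lit 4) (nat_lit 2) (nat_lit 4) (nat_lit 363) (nat_lit 314) (nat_lit 223)) (XT.lf (nat_lit 0) (nat_lit 2892134058960) (nat_lit 152) (nat_lit 788224735772) (nat_lit 0) (nat_lit 2850106828036) (nat_lit 2) (nat_lit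 5) (nat_lit 4) (nat_lit 4) (nat_lit 2) (nat_lit 4) (nat_lit 364) (nat_lit 314) (nat_lit 222)))))) (XT.nd (nat_lit 390) (nat_lit 76) (nat_lit 0) (XT.nd (nat_lit 156) (nat_lit 0) (nat_lit 0) (XT.nd (nat_lit 78) (nat_lit 0) (nat_lit 0) (XT.lf (nat_lit 0) (nat_lit 3423659286455) (nat_lit 152) (nat_lit 689125262040) (nat_lit 0) (nat_lit 3381632041251) (nat_lit 2) (nat_lit 5) (nat_lit 4) (nat_lit 4) (nat_lit 2) (nat_lit 4) (nat_lit 365) (nat_lit 314) (nat_lit 221)) (XT.lf (nat_lit 0) (nat_lit 4034913232005) (nat_lit 152) (nat_lit 575161005305) (nat_lit 0) (nat_lit 3992885974384) (nat_lit 2) (nat_lit 5) (nat_lit 4) (nat_lit 4) (nat_lit 2) (nat_lit 4) (nat_lit 366) (nat_lit 314) (nat_lit 220))) (XT.nd (nat_lit 78) (nat_lit 0) (nat_lit 0) (XT.lf (nat_lit 0) (nat_lit 4737855211935) (nat_lit 152) (nat_lit 444102230110) (nat_lit 0) (nat_lit 4695827943516) (nat_lit 2) (nat_lit 5) (nat_lit 4) (nat_lit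 4) (nat_lit 2) (nat_lit 4) (nat_lit 367) (nat_lit 314) (nat_lit 219)) (XT.nd (nat_lit 78) (nat_lit 0) (nat_lit 0) (XT.lf (nat_lit 0) (nat_lit 5546238438897) (nat_lit 152) (nat_lit 293384743025) (nat_lit 0) (nat_lit 5504211161089) (nat_lit 2) (nat_lit 5) (nat_lit 4) (nat_lit 4) (nat_lit 2) (nat_lit 4) (nat_lit 368) (nat_lit 314) (nat_lit 218)) (XT.lf (nat_lit 0) (nat_lit 6475879106460) (nat_lit 152) (nat_lit 120059723652) (nat_lit 0) (nat_lit 6433851820488) (nat_lit 2) (nat_lit 5) (nat_lit 4) (nat_lit 4) (nat_lit 2) (nat_lit 4) (nat_lit 369) (nat_lit 314) (nat_lit 217))))) (XT.nd (nat_lit 234) (nat_lit 0) (nat_lit 0) (XT.nd (nat_lit 78) (nat_lit 0) (nat_lit 0) (XT.lf (nat_lit 0) (nat_lit 87010221276) (nat_lit 76) (nat_lit 7461558522821) (nat_lit 76) (nat_lit 7419531229748) (nat_lit 1) (nat_lit 4) (nat_lit 2) (nat_lit 5) (nat_lit 2) (nat_lit 4) (nat_lit 370) (nat_lit 314) (nat_lit 216))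 (XT.nd (nat_lit 78) (nat_lit 0) (nat_lit 0) (XT.lf (nat_lit 0) (nat_lit 338633658357) (nat_lit 76) (nat_lit 8449803982243) (nat_lit 76) (nat_lit 8407776682997) (nat_lit 1) (nat_lit 4) (nat_lit 2) (nat_lit 5) (nat_lit 2) (nat_lit 4) (nat_lit 371) (nat_lit 314) (nat_lit 215)) (XT.lf (nat_lit 0) (nat_lit 628000545483) (nat_lit 76) (nat_lit 9586286294820) (nat_lit 76) (nat_lit 9544258990206) (nat_lit 1) (nat_lit 4) (nat_lit 2) (nat_lit 5) (nat_lit 2) (nat_lit 4) (nat_lit 372) (nat_lit 314) (nat_lit 214)))) (XT.nd (nat_lit 78) (nat_lit 0) (nat_lit 0) (XT.lf (nat_lit 0) (nat_lit 960772408705) (nat_lit 76) (nat_lit 10893240984060) (nat_lit 76) (nat_lit 10851213674778) (nat_lit 1) (nat_lit 4) (nat_lit 2) (nat_lit 5) (nat_lit 2) (nat_lit 4) (nat_lit 373) (nat_lit 314) (nat_lit 213)) (XT.nd (nat_lit 78) (nat_lit 0) (nat_lit 0) (XT.lf (nat_lit 0) (nat_lit 1343460001868) (nat_lit 76) (nat_lit 12396238902577)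 (nat_lit 76) (nat_lit 12354211589236) (nat_lit 1) (nat_lit 4) (nat_lit 2) (nat_lit 5) (nat_lit 2) (nat_lit 4) (nat_lit 374) (nat_lit 314) (nat_lit 212)) (XT.lf (nat_lit 0) (nat_lit 1783550690927) (nat_lit 76) (nat_lit 14124686531387) (nat_lit 76) (nat_lit 14082659214515) (nat_lit 1) (nat_lit 4) (nat_lit 2) (nat_lit 5) (nat_lit 2) (nat_lit 4) (nat_lit 375) (nat_lit 314) (nat_lit 211))))))))
noncomputable def xc76 : XT := (XT.nd (nat_lit 43212) (nat_lit 0) (nat_lit 228) (XT.nd (nat_lit 42354) (nat_lit 0) (nat_lit 1216) (XT.nd (nat_lit 390) (nat_lit 0) (nat_lit 0) (XT.nd (nat_lit 156) (nat_lit 0) (nat_lit 0) (XT.nd (nat_lit 78) (nat_lit 0) (nat_lit 0) (XT.lf (nat_lit 0) (nat_lit 2289654945884) (nat_lit 76) (nat_lit 16112401324095) (nat_lit 76) (nat_lit 16070374004155) (nat_lit 1) (nat_lit 4) (nat_lit 2) (nat_lit 5) (nat_lit 2) (nat_lit 4) (nat_lit 376) (nat_lit 314) (nat_lit 210)) (XT.lf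 (nat_lit 0) (nat_lit 2871674806511) (nat_lit 76) (nat_lit 18398273352734) (nat_lit 76) (nat_lit 18356246030125) (nat_lit 1) (nat_lit 4) (nat_lit 2) (nat_lit 5) (nat_lit 2) (nat_lit 4) (nat_lit 377) (nat_lit 314) (nat_lit 209))) (XT.nd (nat_lit 78) (nat_lit 0) (nat_lit 0) (XT.lf (nat_lit 0) (nat_lit 3540997617905) (nat_lit 76) (nat_lit 21027026200473) (nat_lit 76) (nat_lit 20984998875543) (nat_lit 1) (nat_lit 4) (nat_lit 2) (nat_lit 5) (nat_lit 2) (nat_lit 4) (nat_lit 378) (nat_lit 314) (nat_lit 208)) (XT.nd (nat_lit 78) (nat_lit 0) (nat_lit 0) (XT.lf (nat_lit 0) (nat_lit 4310718826379) (nat_lit 76) (nat_lit 24050091988245) (nat_lit 76) (nat_lit 24008064661297) (nat_lit 1) (nat_lit 4) (nat_lit 2) (nat_lit 5) (nat_lit 2) (nat_lit 4) (nat_lit 379) (nat_lit 314) (nat_lit 207)) (XT.lf (nat_lit 0) (nat_lit 5195898194705) (nat_lit 76) (nat_lit 27526617655377) (nat_lit 76) (nat_lit 27484590326673)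 (nat_lit 1) (nat_lit 4) (nat_lit 2) (nat_lit 5) (nat_lit 2) (nat_lit 4) (nat_lit 380) (nat_lit 314) (nat_lit 206))))) (XT.nd (nat_lit 41730) (nat_lit 0) (nat_lit 1900) (XT.nd (nat_lit 78) (nat_lit 0) (nat_lit 0) (XT.lf (nat_lit 0) (nat_lit 6213854449655) (nat_lit 76) (nat_lit 31524622182312) (nat_lit 76) (nat_lit 31482594852082) (nat_lit 1) (nat_lit 4) (nat_lit 2) (nat_lit 5) (nat_lit 2) (nat_lit 4) (nat_lit 381) (nat_lit 314) (nat_lit 205)) (XT.lf (nat_lit 0) (nat_lit 7384504126653) (nat_lit 76) (nat_lit 36122327396751) (nat_lit 76) (nat_lit 36080300065195) (nat_lit 1) (nat_lit 4) (nat_lit 2) (nat_lit 5) (nat_lit 2) (nat_lit 4) (nat_lit 382) (nat_lit 314) (nat_lit 204))) (XT.nd (nat_lit 78) (nat_lit 0) (nat_lit 0) (XT.lf (nat_lit 0) (nat_lit 3557276914) (nat_lit 380) (nat_lit 6494336053) (nat_lit 380) (nat_lit 6494336053) (nat_lit 26) (nat_lit 3) (nat_lit 31) (nat_lit 3) (nat_lit 31)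 (nat_lit 5) (nat_lit 315) (nat_lit 315) (nat_lit 270)) (XT.nd (nat_lit 78) (nat_lit 0) (nat_lit 76) (XT.lf (nat_lit 76) (nat_lit 3219706904) (nat_lit 0) (nat_lit 4616665783) (nat_lit 380) (nat_lit 27709065324) (nat_lit 27) (nat_lit 5) (nat_lit 26) (nat_lit 3) (nat_lit 31) (nat_lit 5) (nat_lit 316) (nat_lit 315) (nat_lit 269)) (XT.lf (nat_lit 0) (nat_lit 9914164940) (nat_lit 304) (nat_lit 15532561228) (nat_lit 380) (nat_lit 12733148782) (nat_lit 27) (nat_lit 5) (nat_lit 31) (nat_lit 5) (nat_lit 32) (nat_lit 5) (nat_lit 317) (nat_lit 315) (nat_lit 268)))))) (XT.nd (nat_lit 390) (nat_lit 380) (nat_lit 0) (XT.nd (nat_lit 156) (nat_lit 380) (nat_lit 0) (XT.nd (nat_lit 78) (nat_lit 0) (nat_lit 76) (XT.lf (nat_lit 76) (nat_lit 3900116909) (nat_lit 0) (nat_lit 8776260811) (nat_lit 380) (nat_lit 28477205271) (nat_lit 28) (nat_lit 5) (nat_lit 27) (nat_lit 5) (nat_lit 32) (nat_lit 5) (nat_lit 318)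 (nat_lit 315) (nat_lit 267)) (XT.lf (nat_lit 0) (nat_lit 17126254724) (nat_lit 304) (nat_lit 16935058322) (nat_lit 76) (nat_lit 10321050272) (nat_lit 28) (nat_lit 5) (nat_lit 32) (nat_lit 5) (nat_lit 29) (nat_lit 5) (nat_lit 319) (nat_lit 315) (nat_lit 266))) (XT.nd (nat_lit 78) (nat_lit 152) (nat_lit 0) (XT.lf (nat_lit 0) (nat_lit 6593442401) (nat_lit 304) (nat_lit 16334425167) (nat_lit 380) (nat_lit 25064968831) (nat_lit 24) (nat_lit 5) (nat_lit 28) (nat_lit 5) (nat_lit 29) (nat_lit 5) (nat_lit 320) (nat_lit 315) (nat_lit 265)) (XT.nd (nat_lit 78) (nat_lit 152) (nat_lit 0) (XT.lf (nat_lit 0) (nat_lit 30688789140) (nat_lit 380) (nat_lit 16674871630) (nat_lit 76) (nat_lit 4617871695) (nat_lit 24) (nat_lit 5) (nat_lit 29) (nat_lit 5) (nat_lit 25) (nat_lit 5) (nat_lit 321) (nat_lit 315) (nat_lit 264)) (XT.lf (nat_lit 0) (nat_lit 12046580413) (nat_lit 152) (nat_lit 28838623200) (nat_lit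 228) (nat_lit 15492636598) (nat_lit 22) (nat_lit 5) (nat_lit 24) (nat_lit 5) (nat_lit 25) (nat_lit 5) (nat_lit 322) (nat_lit 315) (nat_lit 263))))) (XT.nd (nat_lit 234) (nat_lit 228) (nat_lit 0) (XT.nd (nat_lit 78) (nat_lit 152) (nat_lit 0) (XT.lf (nat_lit 0) (nat_lit 46944180046) (nat_lit 152) (nat_lit 6533681481) (nat_lit 228) (nat_lit 7825724507) (nat_lit 22) (nat_lit 5) (nat_lit 24) (nat_lit 5) (nat_lit 25) (nat_lit 5) (nat_lit 323) (nat_lit 315) (nat_lit 262)) (XT.nd (nat_lit 78) (nat_lit 0) (nat_lit 0) (XT.lf (nat_lit 0) (nat_lit 2647345581) (nat_lit 152) (nat_lit 45640856300) (nat_lit 76) (nat_lit 18412187036) (nat_lit 20) (nat_lit 5) (nat_lit 22) (nat_lit 5) (nat_lit 21) (nat_lit 5) (nat_lit 324) (nat_lit 315) (nat_lit 261)) (XT.lf (nat_lit 0) (nat_lit 14983506304) (nat_lit 152) (nat_lit 10114574975) (nat_lit 76) (nat_lit 47588738622) (nat_lit 20) (nat_lit 5) (nat_lit 22) (nat_lit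 5) (nat_lit 21) (nat_lit 5) (nat_lit 325) (nat_lit 315) (nat_lit 260)))) (XT.nd (nat_lit 78) (nat_lit 76) (nat_lit 0) (XT.lf (nat_lit 0) (nat_lit 30695045533) (nat_lit 228) (nat_lit 45754612804) (nat_lit 76) (nat_lit 2892819242) (nat_lit 18) (nat_lit 5) (nat_lit 21) (nat_lit 5) (nat_lit 19) (nat_lit 4) (nat_lit 326) (nat_lit 315) (nat_lit 259)) (XT.nd (nat_lit 78) (nat_lit 76) (nat_lit 0) (XT.lf (nat_lit 0) (nat_lit 50508947555) (nat_lit 228) (nat_lit 3160540886) (nat_lit 76) (nat_lit 33065155207) (nat_lit 18) (nat_lit 5) (nat_lit 21) (nat_lit 5) (nat_lit 19) (nat_lit 4) (nat_lit 327) (nat_lit 315) (nat_lit 258)) (XT.lf (nat_lit 0) (nat_lit 50295559899) (nat_lit 76) (nat_lit 25079043200) (nat_lit 152) (nat_lit 19549085232) (nat_lit 17) (nat_lit 5) (nat_lit 18) (nat_lit 5) (nat_lit 19) (nat_lit 4) (nat_lit 328) (nat_lit 315) (nat_lit 257))))))) (XT.nd (nat_lit 858) (nat_lit 304) (nat_lit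 0) (XT.nd (nat_lit 390) (nat_lit 380) (nat_lit 0) (XT.nd (nat_lit 156) (nat_lit 152) (nat_lit 0) (XT.nd (nat_lit 78) (nat_lit 0) (nat_lit 0) (XT.lf (nat_lit 0) (nat_lit 534617338) (nat_lit 152) (nat_lit 96036864529) (nat_lit 76) (nat_lit 7641029173) (nat_lit 15) (nat_lit 5) (nat_lit 17) (nat_lit 5) (nat_lit 16) (nat_lit 4) (nat_lit 329) (nat_lit 315) (nat_lit 256)) (XT.lf (nat_lit 0) (nat_lit 25264793662) (nat_lit 152) (nat_lit 42870311565) (nat_lit 76) (nat_lit 46074612342) (nat_lit 15) (nat_lit 5) (nat_lit 17) (nat_lit 5) (nat_lit 16) (nat_lit 4) (nat_lit 330) (nat_lit 315) (nat_lit 255))) (XT.nd (nat_lit 78) (nat_lit 76) (nat_lit 0) (XT.lf (nat_lit 0) (nat_lit 20052121111) (nat_lit 76) (nat_lit 34480265559) (nat_lit 152) (nat_lit 71049937125) (nat_lit 14) (nat_lit 5) (nat_lit 15) (nat_lit 5) (nat_lit 16) (nat_lit 4) (nat_lit 331) (nat_lit 315) (nat_lit 254)) (XT.nd (nat_lit 78) (nat_lit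 76) (nat_lit 0) (XT.lf (nat_lit 0) (nat_lit 90710282566) (nat_lit 152) (nat_lit 41379646465) (nat_lit 0) (nat_lit 6192869290) (nat_lit 14) (nat_lit 5) (nat_lit 16) (nat_lit 4) (nat_lit 14) (nat_lit 4) (nat_lit 332) (nat_lit 315) (nat_lit 253)) (XT.lf (nat_lit 0) (nat_lit 33752685525) (nat_lit 76) (nat_lit 101599675258) (nat_lit 76) (nat_lit 17080360254) (nat_lit 13) (nat_lit 4) (nat_lit 14) (nat_lit 5) (nat_lit 14) (nat_lit 4) (nat_lit 333) (nat_lit 315) (nat_lit 252))))) (XT.nd (nat_lit 234) (nat_lit 228) (nat_lit 0) (XT.nd (nat_lit 78) (nat_lit 76) (nat_lit 0) (XT.lf (nat_lit 0) (nat_lit 18648420470) (nat_lit 152) (nat_lit 44426864667) (nat_lit 76) (nat_lit 105178535488) (nat_lit 12) (nat_lit 5) (nat_lit 14) (nat_lit 5) (nat_lit 13) (nat_lit 4) (nat_lit 334) (nat_lit 315) (nat_lit 251)) (XT.nd (nat_lit 78) (nat_lit 0) (nat_lit 0) (XT.lf (nat_lit 0) (nat_lit 44071131249) (nat_lit 76)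 (nat_lit 15739816615) (nat_lit 152) (nat_lit 126241665868) (nat_lit 11) (nat_lit 5) (nat_lit 12) (nat_lit 5) (nat_lit 13) (nat_lit 4) (nat_lit 335) (nat_lit 315) (nat_lit 250)) (XT.lf (nat_lit 0) (nat_lit 111181349236) (nat_lit 152) (nat_lit 57052336316) (nat_lit 0) (nat_lit 37682516995) (nat_lit 11) (nat_lit 5) (nat_lit 13) (nat_lit 4) (nat_lit 11) (nat_lit 4) (nat_lit 336) (nat_lit 315) (nat_lit 249)))) (XT.nd (nat_lit 78) (nat_lit 152) (nat_lit 0) (XT.lf (nat_lit 0) (nat_lit 43759525951) (nat_lit 76) (nat_lit 129057790718) (nat_lit 76) (nat_lit 55558012982) (nat_lit 10) (nat_lit 4) (nat_lit 11) (nat_lit 5) (nat_lit 11) (nat_lit 4) (nat_lit 337) (nat_lit 315) (nat_lit 248)) (XT.nd (nat_lit 78) (nat_lit 152) (nat_lit 0) (XT.lf (nat_lit 0) (nat_lit 166102288387) (nat_lit 76) (nat_lit 80577254279) (nat_lit 76) (nat_lit 7076654373) (nat_lit 10) (nat_lit 4) (nat_lit 11) (nat_lit 5) (nat_lit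 11) (nat_lit 4) (nat_lit 338) (nat_lit 315) (nat_lit 247)) (XT.lf (nat_lit 0) (nat_lit 23967904801) (nat_lit 76) (nat_lit 21366615959) (nat_lit 152) (nat_lit 237158658134) (nat_lit 8) (nat_lit 5) (nat_lit 9) (nat_lit 5) (nat_lit 10) (nat_lit 4) (nat_lit 339) (nat_lit 315) (nat_lit 246)))))) (XT.nd (nat_lit 390) (nat_lit 152) (nat_lit 0) (XT.nd (nat_lit 156) (nat_lit 152) (nat_lit 0) (XT.nd (nat_lit 78) (nat_lit 0) (nat_lit 0) (XT.lf (nat_lit 0) (nat_lit 111616486471) (nat_lit 152) (nat_lit 155161871104) (nat_lit 0) (nat_lit 47701759068) (nat_lit 8) (nat_lit 5) (nat_lit 10) (nat_lit 4) (nat_lit 8) (nat_lit 4) (nat_lit 340) (nat_lit 315) (nat_lit 245)) (XT.lf (nat_lit 0) (nat_lit 188857096868) (nat_lit 152) (nat_lit 37313646744) (nat_lit 0) (nat_lit 124941899387) (nat_lit 8) (nat_lit 5) (nat_lit 10) (nat_lit 4) (nat_lit 8) (nat_lit 4) (nat_lit 341) (nat_lit 315) (nat_lit 244))) (XT.nd (nat_lit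 78) (nat_lit 76) (nat_lit 0) (XT.lf (nat_lit 0) (nat_lit 107807653976) (nat_lit 76) (nat_lit 174339266359) (nat_lit 76) (nat_lit 110423660114) (nat_lit 7) (nat_lit 4) (nat_lit 8) (nat_lit 5) (nat_lit 8) (nat_lit 4) (nat_lit 342) (nat_lit 315) (nat_lit 243)) (XT.nd (nat_lit 78) (nat_lit 76) (nat_lit 0) (XT.lf (nat_lit 0) (nat_lit 278888842915) (nat_lit 76) (nat_lit 112490945940) (nat_lit 76) (nat_lit 48574984249) (nat_lit 7) (nat_lit 4) (nat_lit 8) (nat_lit 5) (nat_lit 8) (nat_lit 4) (nat_lit 343) (nat_lit 315) (nat_lit 242)) (XT.lf (nat_lit 0) (nat_lit 20542514276) (nat_lit 152) (nat_lit 19749865081) (nat_lit 76) (nat_lit 454014272269) (nat_lit 6) (nat_lit 5) (nat_lit 8) (nat_lit 5) (nat_lit 7) (nat_lit 4) (nat_lit 344) (nat_lit 315) (nat_lit 241))))) (XT.nd (nat_lit 234) (nat_lit 76) (nat_lit 0) (XT.nd (nat_lit 78) (nat_lit 0) (nat_lit 0) (XT.lf (nat_lit 0) (nat_lit 103621531376) (nat_lit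 152) (nat_lit 403515827772) (nat_lit 0) (nat_lit 48041931772) (nat_lit 5) (nat_lit 5) (nat_lit 7) (nat_lit 4) (nat_lit 5) (nat_lit 4) (nat_lit 345) (nat_lit 315) (nat_lit 240)) (XT.nd (nat_lit 78) (nat_lit 0) (nat_lit 0) (XT.lf (nat_lit 0) (nat_lit 202161908034) (nat_lit 152) (nat_lit 275988887003) (nat_lit 0) (nat_lit 146582105203) (nat_lit 5) (nat_lit 5) (nat_lit 7) (nat_lit 4) (nat_lit 5) (nat_lit 4) (nat_lit 346) (nat_lit 315) (nat_lit 239)) (XT.lf (nat_lit 0) (nat_lit 315482716872) (nat_lit 152) (nat_lit 129334190573) (nat_lit 0) (nat_lit 259902737321) (nat_lit 5) (nat_lit 5) (nat_lit 7) (nat_lit 4) (nat_lit 5) (nat_lit 4) (nat_lit 347) (nat_lit 315) (nat_lit 238)))) (XT.nd (nat_lit 78) (nat_lit 0) (nat_lit 0) (XT.lf (nat_lit 0) (nat_lit 43159993623) (nat_lit 76) (nat_lit 404428273821) (nat_lit 76) (nat_lit 348848140600) (nat_lit 4) (nat_lit 4) (nat_lit 5) (nat_lit 5) (nat_lit 5)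 (nat_lit 4) (nat_lit 348) (nat_lit 315) (nat_lit 237)) (XT.nd (nat_lit 78) (nat_lit 0) (nat_lit 0) (XT.lf (nat_lit 0) (nat_lit 256062637845) (nat_lit 76) (nat_lit 350207147373) (nat_lit 76) (nat_lit 294626880526) (nat_lit 4) (nat_lit 4) (nat_lit 5) (nat_lit 5) (nat_lit 5) (nat_lit 4) (nat_lit 349) (nat_lit 315) (nat_lit 236)) (XT.lf (nat_lit 0) (nat_lit 500899750893) (nat_lit 76) (nat_lit 287853330844) (nat_lit 76) (nat_lit 232272947802) (nat_lit 4) (nat_lit 4) (nat_lit 5) (nat_lit 5) (nat_lit 5) (nat_lit 4) (nat_lit 350) (nat_lit 315) (nat_lit 235))))))))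
noncomputable def xc77 : XT := (XT.nd (nat_lit 1716) (nat_lit 0) (nat_lit 0) (XT.nd (nat_lit 858) (nat_lit 76) (nat_lit 0) (XT.nd (nat_lit 390) (nat_lit 0) (nat_lit 0) (XT.nd (nat_lit 156) (nat_lit 152) (nat_lit 0) (XT.nd (nat_lit 78) (nat_lit 0) (nat_lit 0) (XT.lf (nat_lit 0) (nat_lit 782461624110) (nat_lit 76) (nat_lit 216146858261) (nat_lit 76) (nat_lit 160566374179) (nat_lit 4) (nat_lit 4) (nat_lit 5) (nat_lit 5) (nat_lit 5) (nat_lit 4) (nat_lit 351) (nat_lit 315) (nat_lit 234)) (XT.lf (nat_lit 0) (nat_lit 1106257076754) (nat_lit 76) (nat_lit 133684776898) (nat_lit 76) (nat_lit 78104204955) (nat_lit 4) (nat_lit 4) (nat_lit 5) (nat_lit 5) (nat_lit 5) (nat_lit 4) (nat_lit 352) (nat_lit 315) (nat_lit 233))) (XT.nd (nat_lit 78) (nat_lit 76) (nat_lit 0) (XT.lf (nat_lit 0) (nat_lit 15237801366) (nat_lit 152) (nat_lit 22819375406) (nat_lit 76) (nat_lit 1462586914446) (nat_lit 3) (nat_lit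 5) (nat_lit 5) (nat_lit 5) (nat_lit 4) (nat_lit 4) (nat_lit 353) (nat_lit 315) (nat_lit 232)) (XT.nd (nat_lit 78) (nat_lit 0) (nat_lit 0) (XT.lf (nat_lit 0) (nat_lit 126823945743) (nat_lit 152) (nat_lit 1502921223437) (nat_lit 0) (nat_lit 78492889413) (nat_lit 2) (nat_lit 5) (nat_lit 4) (nat_lit 4) (nat_lit 2) (nat_lit 4) (nat_lit 354) (nat_lit 315) (nat_lit 231)) (XT.lf (nat_lit 0) (nat_lit 258209623465) (nat_lit 152) (nat_lit 1478423739003) (nat_lit 0) (nat_lit 209878516900) (nat_lit 2) (nat_lit 5) (nat_lit 4) (nat_lit 4) (nat_lit 2) (nat_lit 4) (nat_lit 355) (nat_lit 315) (nat_lit 230))))) (XT.nd (nat_lit 234) (nat_lit 0) (nat_lit 0) (XT.nd (nat_lit 78) (nat_lit 0) (nat_lit 0) (XT.lf (nat_lit 0) (nat_lit 409302920419) (nat_lit 152) (nat_lit 1450252117569) (nat_lit 0) (nat_lit 360971770172) (nat_lit 2) (nat_lit 5) (nat_lit 4) (nat_lit 4) (nat_lit 2) (nat_lit 4) (nat_lit 356) (nat_lit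 315) (nat_lit 229)) (XT.nd (nat_lit 78) (nat_lit 0) (nat_lit 0) (XT.lf (nat_lit 0) (nat_lit 583060009808) (nat_lit 152) (nat_lit 1417855175239) (nat_lit 0) (nat_lit 534728821576) (nat_lit 2) (nat_lit 5) (nat_lit 4) (nat_lit 4) (nat_lit 2) (nat_lit 4) (nat_lit 357) (nat_lit 315) (nat_lit 228)) (XT.lf (nat_lit 0) (nat_lit 782880486858) (nat_lit 152) (nat_lit 1380599058791) (nat_lit 0) (nat_lit 734549265596) (nat_lit 2) (nat_lit 5) (nat_lit 4) (nat_lit 4) (nat_lit 2) (nat_lit 4) (nat_lit 358) (nat_lit 315) (nat_lit 227)))) (XT.nd (nat_lit 78) (nat_lit 0) (nat_lit 0) (XT.lf (nat_lit 0) (nat_lit 1012673882643) (nat_lit 152) (nat_lit 1337754844210) (nat_lit 0) (nat_lit 964342632659) (nat_lit 2) (nat_lit 5) (nat_lit 4) (nat_lit 4) (nat_lit 2) (nat_lit 4) (nat_lit 359) (nat_lit 315) (nat_lit 226)) (XT.nd (nat_lit 78) (nat_lit 0) (nat_lit 0) (XT.lf (nat_lit 0) (nat_lit 1276936154906) (nat_lit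 152) (nat_lit 1288484275122) (nat_lit 0) (nat_lit 1228604879946) (nat_lit 2) (nat_lit 5) (nat_lit 4) (nat_lit 4) (nat_lit 2) (nat_lit 4) (nat_lit 360) (nat_lit 315) (nat_lit 225)) (XT.lf (nat_lit 0) (nat_lit 1580837652451) (nat_lit 152) (nat_lit 1231823362132) (nat_lit 0) (nat_lit 1532506355774) (nat_lit 2) (nat_lit 5) (nat_lit 4) (nat_lit 4) (nat_lit 2) (nat_lit 4) (nat_lit 361) (nat_lit 315) (nat_lit 224)))))) (XT.nd (nat_lit 390) (nat_lit 76) (nat_lit 0) (XT.nd (nat_lit 156) (nat_lit 0) (nat_lit 0) (XT.nd (nat_lit 78) (nat_lit 0) (nat_lit 0) (XT.lf (nat_lit 0) (nat_lit 1930324274145) (nat_lit 152) (nat_lit 1166663522160) (nat_lit 0) (nat_lit 1881992958582) (nat_lit 2) (nat_lit 5) (nat_lit 4) (nat_lit 4) (nat_lit 2) (nat_lit 4) (nat_lit 362) (nat_lit 315) (nat_lit 223)) (XT.lf (nat_lit 0) (nat_lit 2332233801715) (nat_lit 152) (nat_lit 1091729888773) (nat_lit 0) (nat_lit 2283902469731)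 (nat_lit 2) (nat_lit 5) (nat_lit 4) (nat_lit 4) (nat_lit 2) (nat_lit 4) (nat_lit 363) (nat_lit 315) (nat_lit 222))) (XT.nd (nat_lit 78) (nat_lit 0) (nat_lit 0) (XT.lf (nat_lit 0) (nat_lit 2794429682441) (nat_lit 152) (nat_lit 1005556369142) (nat_lit 0) (nat_lit 2746098336177) (nat_lit 2) (nat_lit 5) (nat_lit 4) (nat_lit 4) (nat_lit 2) (nat_lit 4) (nat_lit 364) (nat_lit 315) (nat_lit 221)) (XT.nd (nat_lit 78) (nat_lit 0) (nat_lit 0) (XT.lf (nat_lit 0) (nat_lit 3325954879206) (nat_lit 152) (nat_lit 906456959623) (nat_lit 0) (nat_lit 3277623520524) (nat_lit 2) (nat_lit 5) (nat_lit 4) (nat_lit 4) (nat_lit 2) (nat_lit 4) (nat_lit 365) (nat_lit 315) (nat_lit 220)) (XT.lf (nat_lit 0) (nat_lit 3937208798034) (nat_lit 152) (nat_lit 792492758725) (nat_lit 0) (nat_lit 3888877428555) (nat_lit 2) (nat_lit 5) (nat_lit 4) (nat_lit 4) (nat_lit 2) (nat_lit 4) (nat_lit 366) (nat_lit 315) (nat_lit 219)))))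 (XT.nd (nat_lit 234) (nat_lit 76) (nat_lit 0) (XT.nd (nat_lit 78) (nat_lit 0) (nat_lit 0) (XT.lf (nat_lit 0) (nat_lit 4640150754728) (nat_lit 152) (nat_lit 661434032083) (nat_lit 0) (nat_lit 4591819375859) (nat_lit 2) (nat_lit 5) (nat_lit 4) (nat_lit 4) (nat_lit 2) (nat_lit 4) (nat_lit 367) (nat_lit 315) (nat_lit 218)) (XT.nd (nat_lit 78) (nat_lit 0) (nat_lit 0) (XT.lf (nat_lit 0) (nat_lit 5448533961484) (nat_lit 152) (nat_lit 510716587219) (nat_lit 0) (nat_lit 5400202574451) (nat_lit 2) (nat_lit 5) (nat_lit 4) (nat_lit 4) (nat_lit 2) (nat_lit 4) (nat_lit 368) (nat_lit 315) (nat_lit 217)) (XT.lf (nat_lit 0) (nat_lit 6378174611477) (nat_lit 152) (nat_lit 337391604559) (nat_lit 0) (nat_lit 6329843217345) (nat_lit 2) (nat_lit 5) (nat_lit 4) (nat_lit 4) (nat_lit 2) (nat_lit 4) (nat_lit 369) (nat_lit 315) (nat_lit 216)))) (XT.nd (nat_lit 78) (nat_lit 76) (nat_lit 0) (XT.lf (nat_lit 0) (nat_lit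 7447261326122) (nat_lit 152) (nat_lit 138067943139) (nat_lit 0) (nat_lit 7398929925816) (nat_lit 2) (nat_lit 5) (nat_lit 4) (nat_lit 4) (nat_lit 2) (nat_lit 4) (nat_lit 370) (nat_lit 315) (nat_lit 215)) (XT.nd (nat_lit 78) (nat_lit 0) (nat_lit 0) (XT.lf (nat_lit 0) (nat_lit 100062459934) (nat_lit 76) (nat_lit 8580791932547) (nat_lit 76) (nat_lit 8532460526873) (nat_lit 1) (nat_lit 4) (nat_lit 2) (nat_lit 5) (nat_lit 2) (nat_lit 4) (nat_lit 371) (nat_lit 315) (nat_lit 214)) (XT.lf (nat_lit 0) (nat_lit 389429320560) (nat_lit 76) (nat_lit 9717274258974) (nat_lit 76) (nat_lit 9668942848631) (nat_lit 1) (nat_lit 4) (nat_lit 2) (nat_lit 5) (nat_lit 2) (nat_lit 4) (nat_lit 372) (nat_lit 315) (nat_lit 213))))))) (XT.nd (nat_lit 42510) (nat_lit 0) (nat_lit 1292) (XT.nd (nat_lit 390) (nat_lit 0) (nat_lit 0) (XT.nd (nat_lit 156) (nat_lit 0) (nat_lit 0) (XT.nd (nat_lit 78) (nat_lit 0) (nat_lit 0)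 (XT.lf (nat_lit 0) (nat_lit 722201160740) (nat_lit 76) (nat_lit 11024228960256) (nat_lit 76) (nat_lit 10975897545854) (nat_lit 1) (nat_lit 4) (nat_lit 2) (nat_lit 5) (nat_lit 2) (nat_lit 4) (nat_lit 373) (nat_lit 315) (nat_lit 212)) (XT.lf (nat_lit 0) (nat_lit 1104888733866) (nat_lit 76) (nat_lit 12527226889245) (nat_lit 76) (nat_lit 12478895471314) (nat_lit 1) (nat_lit 4) (nat_lit 2) (nat_lit 5) (nat_lit 2) (nat_lit 4) (nat_lit 374) (nat_lit 315) (nat_lit 211))) (XT.nd (nat_lit 78) (nat_lit 0) (nat_lit 0) (XT.lf (nat_lit 0) (nat_lit 1544979405502) (nat_lit 76) (nat_lit 14255674527161) (nat_lit 76) (nat_lit 14207343106160) (nat_lit 1) (nat_lit 4) (nat_lit 2) (nat_lit 5) (nat_lit 2) (nat_lit 4) (nat_lit 375) (nat_lit 315) (nat_lit 210)) (XT.nd (nat_lit 78) (nat_lit 0) (nat_lit 0) (XT.lf (nat_lit 0) (nat_lit 2051083645308) (nat_lit 76) (nat_lit 16243389327788) (nat_lit 76) (nat_lit 16195057904117)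 (nat_lit 1) (nat_lit 4) (nat_lit 2) (nat_lit 5) (nat_lit 2) (nat_lit 4) (nat_lit 376) (nat_lit 315) (nat_lit 209)) (XT.lf (nat_lit 0) (nat_lit 2633103492760) (nat_lit 76) (nat_lit 18529261363312) (nat_lit 76) (nat_lit 18480929937321) (nat_lit 1) (nat_lit 4) (nat_lit 2) (nat_lit 5) (nat_lit 2) (nat_lit 4) (nat_lit 377) (nat_lit 315) (nat_lit 208))))) (XT.nd (nat_lit 234) (nat_lit 0) (nat_lit 0) (XT.nd (nat_lit 78) (nat_lit 0) (nat_lit 0) (XT.lf (nat_lit 0) (nat_lit 3302426292698) (nat_lit 76) (nat_lit 21158014217038) (nat_lit 76) (nat_lit 21109682789029) (nat_lit 1) (nat_lit 4) (nat_lit 2) (nat_lit 5) (nat_lit 2) (nat_lit 4) (nat_lit 378) (nat_lit 315) (nat_lit 207)) (XT.nd (nat_lit 78) (nat_lit 0) (nat_lit 0) (XT.lf (nat_lit 0) (nat_lit 4072147491210) (nat_lit 76) (nat_lit 24181080010017) (nat_lit 76) (nat_lit 24132748580253) (nat_lit 1) (nat_lit 4) (nat_lit 2) (nat_lit 5) (nat_lit 2)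 (nat_lit 4) (nat_lit 379) (nat_lit 315) (nat_lit 206)) (XT.lf (nat_lit 0) (nat_lit 4957326850873) (nat_lit 76) (nat_lit 27657605681676) (nat_lit 76) (nat_lit 27609274250386) (nat_lit 1) (nat_lit 4) (nat_lit 2) (nat_lit 5) (nat_lit 2) (nat_lit 4) (nat_lit 380) (nat_lit 315) (nat_lit 205)))) (XT.nd (nat_lit 78) (nat_lit 0) (nat_lit 0) (XT.lf (nat_lit 0) (nat_lit 5975283098291) (nat_lit 76) (nat_lit 31655610212547) (nat_lit 76) (nat_lit 31607278779930) (nat_lit 1) (nat_lit 4) (nat_lit 2) (nat_lit 5) (nat_lit 2) (nat_lit 4) (nat_lit 381) (nat_lit 315) (nat_lit 204)) (XT.nd (nat_lit 41730) (nat_lit 0) (nat_lit 1900) (XT.lf (nat_lit 0) (nat_lit 7145932768739) (nat_lit 76) (nat_lit 36253315430410) (nat_lit 76) (nat_lit 36204983996639) (nat_lit 1) (nat_lit 4) (nat_lit 2) (nat_lit 5) (nat_lit 2) (nat_lit 4) (nat_lit 382) (nat_lit 315) (nat_lit 203)) (XT.lf (nat_lit 0) (nat_lit 4143501030) (nat_lit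 380) (nat_lit 7438166034) (nat_lit 380) (nat_lit 7438166034) (nat_lit 26) (nat_lit 3) (nat_lit 31) (nat_lit 3) (nat_lit 31) (nat_lit 5) (nat_lit 316) (nat_lit 316) (nat_lit 268)))))) (XT.nd (nat_lit 390) (nat_lit 456) (nat_lit 0) (XT.nd (nat_lit 156) (nat_lit 152) (nat_lit 0) (XT.nd (nat_lit 78) (nat_lit 0) (nat_lit 76) (XT.lf (nat_lit 76) (nat_lit 3760547393) (nat_lit 0) (nat_lit 5345212989) (nat_lit 380) (nat_lit 31757206362) (nat_lit 27) (nat_lit 5) (nat_lit 26) (nat_lit 3) (nat_lit 31) (nat_lit 5) (nat_lit 317) (nat_lit 316) (nat_lit 267)) (XT.lf (nat_lit 0) (nat_lit 11481671550) (nat_lit 304) (nat_lit 17798389704) (nat_lit 380) (nat_lit 14614566181) (nat_lit 27) (nat_lit 5) (nat_lit 31) (nat_lit 5) (nat_lit 32) (nat_lit 5) (nat_lit 318) (nat_lit 316) (nat_lit 266))) (XT.nd (nat_lit 78) (nat_lit 228) (nat_lit 0) (XT.lf (nat_lit 76) (nat_lit 4546278531) (nat_lit 0) (nat_lit 10103984971)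 (nat_lit 380) (nat_lit 32665343459) (nat_lit 28) (nat_lit 5) (nat_lit 27) (nat_lit 5) (nat_lit 32) (nat_lit 5) (nat_lit 319) (nat_lit 316) (nat_lit 265)) (XT.nd (nat_lit 78) (nat_lit 304) (nat_lit 0) (XT.lf (nat_lit 0) (nat_lit 19757768441) (nat_lit 304) (nat_lit 19412165023) (nat_lit 76) (nat_lit 11860268364) (nat_lit 28) (nat_lit 5) (nat_lit 32) (nat_lit 5) (nat_lit 29) (nat_lit 5) (nat_lit 320) (nat_lit 316) (nat_lit 264)) (XT.lf (nat_lit 0) (nat_lit 7642740260) (nat_lit 304) (nat_lit 18781217057) (nat_lit 380) (nat_lit 28759155352) (nat_lit 24) (nat_lit 5) (nat_lit 28) (nat_lit 5) (nat_lit 29) (nat_lit 5) (nat_lit 321) (nat_lit 316) (nat_lit 263))))) (XT.nd (nat_lit 234) (nat_lit 304) (nat_lit 0) (XT.nd (nat_lit 78) (nat_lit 152) (nat_lit 0) (XT.lf (nat_lit 0) (nat_lit 35341715542) (nat_lit 380) (nat_lit 19116284055) (nat_lit 76) (nat_lit 5313223490) (nat_lit 24) (nat_lit 5) (nat_lit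 29) (nat_lit 5) (nat_lit 25) (nat_lit 5) (nat_lit 322) (nat_lit 316) (nat_lit 262)) (XT.nd (nat_lit 78) (nat_lit 0) (nat_lit 0) (XT.lf (nat_lit 0) (nat_lit 13910666780) (nat_lit 152) (nat_lit 33152819154) (nat_lit 228) (nat_lit 17764119788) (nat_lit 22) (nat_lit 5) (nat_lit 24) (nat_lit 5) (nat_lit 25) (nat_lit 5) (nat_lit 323) (nat_lit 316) (nat_lit 261)) (XT.lf (nat_lit 0) (nat_lit 54035458623) (nat_lit 152) (nat_lit 7503648897) (nat_lit 228) (nat_lit 8954007270) (nat_lit 22) (nat_lit 5) (nat_lit 24) (nat_lit 5) (nat_lit 25) (nat_lit 5) (nat_lit 324) (nat_lit 316) (nat_lit 260)))) (XT.nd (nat_lit 78) (nat_lit 152) (nat_lit 0) (XT.lf (nat_lit 0) (nat_lit 3083218315) (nat_lit 152) (nat_lit 52430407637) (nat_lit 76) (nat_lit 21185949612) (nat_lit 20) (nat_lit 5) (nat_lit 22) (nat_lit 5) (nat_lit 21) (nat_lit 5) (nat_lit 325) (nat_lit 316) (nat_lit 259)) (XT.nd (nat_lit 78) (nat_lit 152)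 (nat_lit 0) (XT.lf (nat_lit 0) (nat_lit 17264746072) (nat_lit 152) (nat_lit 11582563736) (nat_lit 76) (nat_lit 54737427259) (nat_lit 20) (nat_lit 5) (nat_lit 22) (nat_lit 5) (nat_lit 21) (nat_lit 5) (nat_lit 326) (nat_lit 316) (nat_lit 258)) (XT.lf (nat_lit 0) (nat_lit 35331213411) (nat_lit 228) (nat_lit 52566762078) (nat_lit 76) (nat_lit 3341044682) (nat_lit 18) (nat_lit 5) (nat_lit 21) (nat_lit 5) (nat_lit 19) (nat_lit 4) (nat_lit 327) (nat_lit 316) (nat_lit 257))))))))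
noncomputable def xc78 : XT := (XT.nd (nat_lit 1638) (nat_lit 228) (nat_lit 0) (XT.nd (nat_lit 780) (nat_lit 456) (nat_lit 0) (XT.nd (nat_lit 390) (nat_lit 228) (nat_lit 0) (XT.nd (nat_lit 156) (nat_lit 228) (nat_lit 0) (XT.nd (nat_lit 78) (nat_lit 76) (nat_lit 0) (XT.lf (nat_lit 0) (nat_lit 58113038426) (nat_lit 228) (nat_lit 3590237109) (nat_lit 76) (nat_lit 38037365491) (nat_lit 18) (nat_lit 5) (nat_lit 21) (nat_lit 5) (nat_lit 19) (nat_lit 4) (nat_lit 328) (nat_lit 316) (nat_lit 256)) (XT.lf (nat_lit 0) (nat_lit 57882261298) (nat_lit 76) (nat_lit 28824415948) (nat_lit 152) (nat_lit 22451649733) (nat_lit 17) (nat_lit 5) (nat_lit 18) (nat_lit 5) (nat_lit 19) (nat_lit 4) (nat_lit 329) (nat_lit 316) (nat_lit 255))) (XT.nd (nat_lit 78) (nat_lit 76) (nat_lit 0) (XT.lf (nat_lit 0) (nat_lit 640924631) (nat_lit 152) (nat_lit 110396291098) (nat_lit 76) (nat_lit 8803230528) (nat_lit 15) (nat_lit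 5) (nat_lit 17) (nat_lit 5) (nat_lit 16) (nat_lit 4) (nat_lit 330) (nat_lit 316) (nat_lit 254)) (XT.nd (nat_lit 78) (nat_lit 76) (nat_lit 0) (XT.lf (nat_lit 0) (nat_lit 29077221140) (nat_lit 152) (nat_lit 49260768640) (nat_lit 76) (nat_lit 52999758088) (nat_lit 15) (nat_lit 5) (nat_lit 17) (nat_lit 5) (nat_lit 16) (nat_lit 4) (nat_lit 331) (nat_lit 316) (nat_lit 253)) (XT.lf (nat_lit 0) (nat_lit 23098206681) (nat_lit 76) (nat_lit 39635369021) (nat_lit 152) (nat_lit 81682878684) (nat_lit 14) (nat_lit 5) (nat_lit 15) (nat_lit 5) (nat_lit 16) (nat_lit 4) (nat_lit 332) (nat_lit 316) (nat_lit 252))))) (XT.nd (nat_lit 156) (nat_lit 152) (nat_lit 0) (XT.nd (nat_lit 78) (nat_lit 76) (nat_lit 0) (XT.lf (nat_lit 0) (nat_lit 104335983499) (nat_lit 152) (nat_lit 47551129014) (nat_lit 0) (nat_lit 7135215840) (nat_lit 14) (nat_lit 5) (nat_lit 16) (nat_lit 4) (nat_lit 14) (nat_lit 4) (nat_lit 333) (nat_lit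 316) (nat_lit 251)) (XT.lf (nat_lit 0) (nat_lit 38849440755) (nat_lit 76) (nat_lit 116823835508) (nat_lit 76) (nat_lit 19621629869) (nat_lit 13) (nat_lit 4) (nat_lit 14) (nat_lit 5) (nat_lit 14) (nat_lit 4) (nat_lit 334) (nat_lit 316) (nat_lit 250))) (XT.nd (nat_lit 78) (nat_lit 76) (nat_lit 0) (XT.lf (nat_lit 0) (nat_lit 21462147933) (nat_lit 152) (nat_lit 51059837999) (nat_lit 76) (nat_lit 120967427652) (nat_lit 12) (nat_lit 5) (nat_lit 14) (nat_lit 5) (nat_lit 13) (nat_lit 4) (nat_lit 335) (nat_lit 316) (nat_lit 249)) (XT.nd (nat_lit 78) (nat_lit 0) (nat_lit 0) (XT.lf (nat_lit 0) (nat_lit 50711445652) (nat_lit 76) (nat_lit 18086688778) (nat_lit 152) (nat_lit 145160030592) (nat_lit 11) (nat_lit 5) (nat_lit 12) (nat_lit 5) (nat_lit 13) (nat_lit 4) (nat_lit 336) (nat_lit 316) (nat_lit 248)) (XT.lf (nat_lit 0) (nat_lit 127872576187) (nat_lit 152) (nat_lit 65582881008) (nat_lit 0) (nat_lit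 43346064126) (nat_lit 11) (nat_lit 5) (nat_lit 13) (nat_lit 4) (nat_lit 11) (nat_lit 4) (nat_lit 337) (nat_lit 316) (nat_lit 247)))))) (XT.nd (nat_lit 390) (nat_lit 228) (nat_lit 0) (XT.nd (nat_lit 156) (nat_lit 152) (nat_lit 0) (XT.nd (nat_lit 78) (nat_lit 0) (nat_lit 0) (XT.lf (nat_lit 0) (nat_lit 50349519429) (nat_lit 76) (nat_lit 148403669294) (nat_lit 76) (nat_lit 63876442303) (nat_lit 10) (nat_lit 4) (nat_lit 11) (nat_lit 5) (nat_lit 11) (nat_lit 4) (nat_lit 338) (nat_lit 316) (nat_lit 246)) (XT.lf (nat_lit 0) (nat_lit 191040296502) (nat_lit 76) (nat_lit 92652720654) (nat_lit 76) (nat_lit 8124871985) (nat_lit 10) (nat_lit 4) (nat_lit 11) (nat_lit 5) (nat_lit 11) (nat_lit 4) (nat_lit 339) (nat_lit 316) (nat_lit 245))) (XT.nd (nat_lit 78) (nat_lit 0) (nat_lit 0) (XT.lf (nat_lit 0) (nat_lit 27585858714) (nat_lit 76) (nat_lit 24560303133) (nat_lit 152) (nat_lit 272719269906) (nat_lit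 8) (nat_lit 5) (nat_lit 9) (nat_lit 5) (nat_lit 10) (nat_lit 4) (nat_lit 340) (nat_lit 316) (nat_lit 244)) (XT.nd (nat_lit 78) (nat_lit 0) (nat_lit 0) (XT.lf (nat_lit 0) (nat_lit 128369334309) (nat_lit 152) (nat_lit 178415261298) (nat_lit 0) (nat_lit 54865978364) (nat_lit 8) (nat_lit 5) (nat_lit 10) (nat_lit 4) (nat_lit 8) (nat_lit 4) (nat_lit 341) (nat_lit 316) (nat_lit 243)) (XT.lf (nat_lit 0) (nat_lit 217194683022) (nat_lit 152) (nat_lit 42892528128) (nat_lit 0) (nat_lit 143690971631) (nat_lit 8) (nat_lit 5) (nat_lit 10) (nat_lit 4) (nat_lit 8) (nat_lit 4) (nat_lit 342) (nat_lit 316) (nat_lit 242))))) (XT.nd (nat_lit 234) (nat_lit 76) (nat_lit 0) (XT.nd (nat_lit 78) (nat_lit 76) (nat_lit 0) (XT.lf (nat_lit 0) (nat_lit 123996141990) (nat_lit 76) (nat_lit 200481379295) (nat_lit 76) (nat_lit 126977358819) (nat_lit 7) (nat_lit 4) (nat_lit 8) (nat_lit 5) (nat_lit 8) (nat_lit 4) (nat_lit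 343) (nat_lit 316) (nat_lit 241)) (XT.nd (nat_lit 78) (nat_lit 76) (nat_lit 0) (XT.lf (nat_lit 0) (nat_lit 320737247541) (nat_lit 76) (nat_lit 129356955642) (nat_lit 76) (nat_lit 55852666397) (nat_lit 7) (nat_lit 4) (nat_lit 8) (nat_lit 5) (nat_lit 8) (nat_lit 4) (nat_lit 344) (nat_lit 316) (nat_lit 240)) (XT.lf (nat_lit 0) (nat_lit 23630676574) (nat_lit 152) (nat_lit 22698568321) (nat_lit 76) (nat_lit 522122384743) (nat_lit 6) (nat_lit 5) (nat_lit 8) (nat_lit 5) (nat_lit 7) (nat_lit 4) (nat_lit 345) (nat_lit 316) (nat_lit 239)))) (XT.nd (nat_lit 78) (nat_lit 0) (nat_lit 0) (XT.lf (nat_lit 0) (nat_lit 119171483411) (nat_lit 152) (nat_lit 464029360886) (nat_lit 0) (nat_lit 55254330208) (nat_lit 5) (nat_lit 5) (nat_lit 7) (nat_lit 4) (nat_lit 5) (nat_lit 4) (nat_lit 346) (nat_lit 316) (nat_lit 238)) (XT.nd (nat_lit 78) (nat_lit 0) (nat_lit 0) (XT.lf (nat_lit 0) (nat_lit 232492039743) (nat_lit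 152) (nat_lit 317375184356) (nat_lit 0) (nat_lit 168574732870) (nat_lit 5) (nat_lit 5) (nat_lit 7) (nat_lit 4) (nat_lit 5) (nat_lit 4) (nat_lit 347) (nat_lit 316) (nat_lit 237)) (XT.lf (nat_lit 0) (nat_lit 362810207449) (nat_lit 152) (nat_lit 148723853335) (nat_lit 0) (nat_lit 298892766951) (nat_lit 5) (nat_lit 5) (nat_lit 7) (nat_lit 4) (nat_lit 5) (nat_lit 4) (nat_lit 348) (nat_lit 316) (nat_lit 236))))))) (XT.nd (nat_lit 858) (nat_lit 0) (nat_lit 0) (XT.nd (nat_lit 390) (nat_lit 152) (nat_lit 0) (XT.nd (nat_lit 156) (nat_lit 0) (nat_lit 0) (XT.nd (nat_lit 78) (nat_lit 0) (nat_lit 0) (XT.lf (nat_lit 0) (nat_lit 49643982771) (nat_lit 76) (nat_lit 465087358499) (nat_lit 76) (nat_lit 401169801805) (nat_lit 4) (nat_lit 4) (nat_lit 5) (nat_lit 5) (nat_lit 5) (nat_lit 4) (nat_lit 349) (nat_lit 316) (nat_lit 235)) (XT.lf (nat_lit 0) (nat_lit 294480720569) (nat_lit 76) (nat_lit 402733735657)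 (nat_lit 76) (nat_lit 338816077922) (nat_lit 4) (nat_lit 4) (nat_lit 5) (nat_lit 5) (nat_lit 5) (nat_lit 4) (nat_lit 350) (nat_lit 316) (nat_lit 234))) (XT.nd (nat_lit 78) (nat_lit 0) (nat_lit 0) (XT.lf (nat_lit 0) (nat_lit 576042267481) (nat_lit 76) (nat_lit 331027431496) (nat_lit 76) (nat_lit 267109685900) (nat_lit 4) (nat_lit 4) (nat_lit 5) (nat_lit 5) (nat_lit 5) (nat_lit 4) (nat_lit 351) (nat_lit 316) (nat_lit 233)) (XT.nd (nat_lit 78) (nat_lit 0) (nat_lit 0) (XT.lf (nat_lit 0) (nat_lit 899837436382) (nat_lit 76) (nat_lit 248565496587) (nat_lit 76) (nat_lit 184647674591) (nat_lit 4) (nat_lit 4) (nat_lit 5) (nat_lit 5) (nat_lit 5) (nat_lit 4) (nat_lit 352) (nat_lit 316) (nat_lit 232)) (XT.lf (nat_lit 0) (nat_lit 1272201350142) (nat_lit 76) (nat_lit 153734545248) (nat_lit 76) (nat_lit 89816656816) (nat_lit 4) (nat_lit 4) (nat_lit 5) (nat_lit 5) (nat_lit 5) (nat_lit 4) (nat_lit 353)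 (nat_lit 316) (nat_lit 231))))) (XT.nd (nat_lit 234) (nat_lit 0) (nat_lit 0) (XT.nd (nat_lit 78) (nat_lit 76) (nat_lit 0) (XT.lf (nat_lit 0) (nat_lit 17525989724) (nat_lit 152) (nat_lit 26237068293) (nat_lit 76) (nat_lit 1681977268676) (nat_lit 3) (nat_lit 5) (nat_lit 5) (nat_lit 5) (nat_lit 4) (nat_lit 4) (nat_lit 354) (nat_lit 316) (nat_lit 230)) (XT.nd (nat_lit 78) (nat_lit 0) (nat_lit 0) (XT.lf (nat_lit 0) (nat_lit 145850040229) (nat_lit 152) (nat_lit 1728354177578) (nat_lit 0) (nat_lit 90269173762) (nat_lit 2) (nat_lit 5) (nat_lit 4) (nat_lit 4) (nat_lit 2) (nat_lit 4) (nat_lit 355) (nat_lit 316) (nat_lit 229)) (XT.lf (nat_lit 0) (nat_lit 296943243179) (nat_lit 152) (nat_lit 1700182752571) (nat_lit 0) (nat_lit 241362338728) (nat_lit 2) (nat_lit 5) (nat_lit 4) (nat_lit 4) (nat_lit 2) (nat_lit 4) (nat_lit 356) (nat_lit 316) (nat_lit 228)))) (XT.nd (nat_lit 78) (nat_lit 0) (nat_lit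 0) (XT.lf (nat_lit 0) (nat_lit 470700250825) (nat_lit 152) (nat_lit 1667785981046) (nat_lit 0) (nat_lit 415119313344) (nat_lit 2) (nat_lit 5) (nat_lit 4) (nat_lit 4) (nat_lit 2) (nat_lit 4) (nat_lit 357) (nat_lit 316) (nat_lit 227)) (XT.nd (nat_lit 78) (nat_lit 0) (nat_lit 0) (XT.lf (nat_lit 0) (nat_lit 670520656795) (nat_lit 152) (nat_lit 1630530013126) (nat_lit 0) (nat_lit 614939690591) (nat_lit 2) (nat_lit 5) (nat_lit 4) (nat_lit 4) (nat_lit 2) (nat_lit 4) (nat_lit 358) (nat_lit 316) (nat_lit 226)) (XT.lf (nat_lit 0) (nat_lit 900313990770) (nat_lit 152) (nat_lit 1587685927698) (nat_lit 0) (nat_lit 844732999591) (nat_lit 2) (nat_lit 5) (nat_lit 4) (nat_lit 4) (nat_lit 2) (nat_lit 4) (nat_lit 359) (nat_lit 316) (nat_lit 225)))))) (XT.nd (nat_lit 390) (nat_lit 0) (nat_lit 0) (XT.nd (nat_lit 156) (nat_lit 0) (nat_lit 0) (XT.nd (nat_lit 78) (nat_lit 0) (nat_lit 0) (XT.lf (nat_lit 0) (nat_lit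 1164576209286) (nat_lit 152) (nat_lit 1538415470918) (nat_lit 0) (nat_lit 1108995196389) (nat_lit 2) (nat_lit 5) (nat_lit 4) (nat_lit 4) (nat_lit 2) (nat_lit 4) (nat_lit 360) (nat_lit 316) (nat_lit 224)) (XT.lf (nat_lit 0) (nat_lit 1468477660095) (nat_lit 152) (nat_lit 1481754655587) (nat_lit 0) (nat_lit 1412896628313) (nat_lit 2) (nat_lit 5) (nat_lit 4) (nat_lit 4) (nat_lit 2) (nat_lit 4) (nat_lit 361) (nat_lit 316) (nat_lit 223))) (XT.nd (nat_lit 78) (nat_lit 0) (nat_lit 0) (XT.lf (nat_lit 0) (nat_lit 1817964241148) (nat_lit 152) (nat_lit 1416594900536) (nat_lit 0) (nat_lit 1762383192944) (nat_lit 2) (nat_lit 5) (nat_lit 4) (nat_lit 4) (nat_lit 2) (nat_lit 4) (nat_lit 362) (nat_lit 316) (nat_lit 222)) (XT.nd (nat_lit 78) (nat_lit 0) (nat_lit 0) (XT.lf (nat_lit 0) (nat_lit 2219873733379) (nat_lit 152) (nat_lit 1341661340993) (nat_lit 0) (nat_lit 2164292670895) (nat_lit 2) (nat_lit 5)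 (nat_lit 4) (nat_lit 4) (nat_lit 2) (nat_lit 4) (nat_lit 363) (nat_lit 316) (nat_lit 221)) (XT.lf (nat_lit 0) (nat_lit 2682069583374) (nat_lit 152) (nat_lit 1255487885574) (nat_lit 0) (nat_lit 2626488508473) (nat_lit 2) (nat_lit 5) (nat_lit 4) (nat_lit 4) (nat_lit 2) (nat_lit 4) (nat_lit 364) (nat_lit 316) (nat_lit 220))))) (XT.nd (nat_lit 234) (nat_lit 0) (nat_lit 0) (XT.nd (nat_lit 78) (nat_lit 0) (nat_lit 0) (XT.lf (nat_lit 0) (nat_lit 3213594753418) (nat_lit 152) (nat_lit 1156388531892) (nat_lit 0) (nat_lit 3158013667719) (nat_lit 2) (nat_lit 5) (nat_lit 4) (nat_lit 4) (nat_lit 2) (nat_lit 4) (nat_lit 365) (nat_lit 316) (nat_lit 219)) (XT.nd (nat_lit 78) (nat_lit 0) (nat_lit 0) (XT.lf (nat_lit 0) (nat_lit 3824848649009) (nat_lit 152) (nat_lit 1042424379548) (nat_lit 0) (nat_lit 3769267553921) (nat_lit 2) (nat_lit 5) (nat_lit 4) (nat_lit 4) (nat_lit 2) (nat_lit 4) (nat_lit 366) (nat_lit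 316) (nat_lit 218)) (XT.lf (nat_lit 0) (nat_lit 4527790585497) (nat_lit 152) (nat_lit 911365695126) (nat_lit 0) (nat_lit 4472209482245) (nat_lit 2) (nat_lit 5) (nat_lit 4) (nat_lit 4) (nat_lit 2) (nat_lit 4) (nat_lit 367) (nat_lit 316) (nat_lit 217)))) (XT.nd (nat_lit 78) (nat_lit 0) (nat_lit 0) (XT.lf (nat_lit 0) (nat_lit 5336173774683) (nat_lit 152) (nat_lit 760648286976) (nat_lit 0) (nat_lit 5280592664331) (nat_lit 2) (nat_lit 5) (nat_lit 4) (nat_lit 4) (nat_lit 2) (nat_lit 4) (nat_lit 368) (nat_lit 316) (nat_lit 216)) (XT.nd (nat_lit 78) (nat_lit 0) (nat_lit 0) (XT.lf (nat_lit 0) (nat_lit 6265814409399) (nat_lit 152) (nat_lit 587323336241) (nat_lit 0) (nat_lit 6210233292873) (nat_lit 2) (nat_lit 5) (nat_lit 4) (nat_lit 4) (nat_lit 2) (nat_lit 4) (nat_lit 369) (nat_lit 316) (nat_lit 215)) (XT.lf (nat_lit 0) (nat_lit 7334901110758) (nat_lit 152) (nat_lit 387999702582) (nat_lit 0) (nat_lit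 7279319988864) (nat_lit 2) (nat_lit 5) (nat_lit 4) (nat_lit 4) (nat_lit 2) (nat_lit 4) (nat_lit 370) (nat_lit 316) (nat_lit 214))))))))
noncomputable def xc79 : XT := (XT.nd (nat_lit 43446) (nat_lit 0) (nat_lit 304) (XT.nd (nat_lit 858) (nat_lit 0) (nat_lit 0) (XT.nd (nat_lit 390) (nat_lit 0) (nat_lit 0) (XT.nd (nat_lit 156) (nat_lit 0) (nat_lit 0) (XT.nd (nat_lit 78) (nat_lit 76) (nat_lit 0) (XT.lf (nat_lit 0) (nat_lit 8564350792483) (nat_lit 152) (nat_lit 158777575774) (nat_lit 0) (nat_lit 8508769665920) (nat_lit 2) (nat_lit 5) (nat_lit 4) (nat_lit 4) (nat_lit 2) (nat_lit 4) (nat_lit 371) (nat_lit 316) (nat_lit 213)) (XT.lf (nat_lit 0) (nat_lit 115072362358) (nat_lit 76) (nat_lit 9867910443642) (nat_lit 76) (nat_lit 9812329313021) (nat_lit 1) (nat_lit 4) (nat_lit 2) (nat_lit 5) (nat_lit 2) (nat_lit 4) (nat_lit 372) (nat_lit 316) (nat_lit 212))) (XT.nd (nat_lit 78) (nat_lit 0) (nat_lit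 0) (XT.lf (nat_lit 0) (nat_lit 447844182500) (nat_lit 76) (nat_lit 11174865155396) (nat_lit 76) (nat_lit 11119284021245) (nat_lit 1) (nat_lit 4) (nat_lit 2) (nat_lit 5) (nat_lit 2) (nat_lit 4) (nat_lit 373) (nat_lit 316) (nat_lit 211)) (XT.nd (nat_lit 78) (nat_lit 0) (nat_lit 0) (XT.lf (nat_lit 0) (nat_lit 830531738204) (nat_lit 76) (nat_lit 12677863093491) (nat_lit 76) (nat_lit 12622281956271) (nat_lit 1) (nat_lit 4) (nat_lit 2) (nat_lit 5) (nat_lit 2) (nat_lit 4) (nat_lit 374) (nat_lit 316) (nat_lit 210)) (XT.lf (nat_lit 0) (nat_lit 1270622394688) (nat_lit 76) (nat_lit 14406310739325) (nat_lit 76) (nat_lit 14350729599435) (nat_lit 1) (nat_lit 4) (nat_lit 2) (nat_lit 5) (nat_lit 2) (nat_lit 4) (nat_lit 375) (nat_lit 316) (nat_lit 209))))) (XT.nd (nat_lit 234) (nat_lit 0) (nat_lit 0) (XT.nd (nat_lit 78) (nat_lit 0) (nat_lit 0) (XT.lf (nat_lit 0) (nat_lit 1776726621320) (nat_lit 76) (nat_lit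 16394025546837) (nat_lit 76) (nat_lit 16338444404627) (nat_lit 1) (nat_lit 4) (nat_lit 2) (nat_lit 5) (nat_lit 2) (nat_lit 4) (nat_lit 376) (nat_lit 316) (nat_lit 208)) (XT.nd (nat_lit 78) (nat_lit 0) (nat_lit 0) (XT.lf (nat_lit 0) (nat_lit 2358746457315) (nat_lit 76) (nat_lit 18679897588349) (nat_lit 76) (nat_lit 18624316444120) (nat_lit 1) (nat_lit 4) (nat_lit 2) (nat_lit 5) (nat_lit 2) (nat_lit 4) (nat_lit 377) (nat_lit 316) (nat_lit 207)) (XT.lf (nat_lit 0) (nat_lit 3028069247292) (nat_lit 76) (nat_lit 21308650447281) (nat_lit 76) (nat_lit 21253069301298) (nat_lit 1) (nat_lit 4) (nat_lit 2) (nat_lit 5) (nat_lit 2) (nat_lit 4) (nat_lit 378) (nat_lit 316) (nat_lit 206)))) (XT.nd (nat_lit 78) (nat_lit 0) (nat_lit 0) (XT.lf (nat_lit 0) (nat_lit 3797790437141) (nat_lit 76) (nat_lit 24331716244787) (nat_lit 76) (nat_lit 24276135097278) (nat_lit 1) (nat_lit 4) (nat_lit 2) (nat_lit 5) (nat_lit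 2) (nat_lit 4) (nat_lit 379) (nat_lit 316) (nat_lit 205)) (XT.nd (nat_lit 78) (nat_lit 0) (nat_lit 0) (XT.lf (nat_lit 0) (nat_lit 4682969789272) (nat_lit 76) (nat_lit 27808241920383) (nat_lit 76) (nat_lit 27752660771546) (nat_lit 1) (nat_lit 4) (nat_lit 2) (nat_lit 5) (nat_lit 2) (nat_lit 4) (nat_lit 380) (nat_lit 316) (nat_lit 204)) (XT.lf (nat_lit 0) (nat_lit 5700926030140) (nat_lit 76) (nat_lit 31806246454678) (nat_lit 76) (nat_lit 31750665304688) (nat_lit 1) (nat_lit 4) (nat_lit 2) (nat_lit 5) (nat_lit 2) (nat_lit 4) (nat_lit 381) (nat_lit 316) (nat_lit 203)))))) (XT.nd (nat_lit 42120) (nat_lit 0) (nat_lit 1444) (XT.nd (nat_lit 41886) (nat_lit 0) (nat_lit 1900) (XT.nd (nat_lit 41808) (nat_lit 0) (nat_lit 1900) (XT.lf (nat_lit 0) (nat_lit 6871575694892) (nat_lit 76) (nat_lit 36403951675518) (nat_lit 76) (nat_lit 36348370524524) (nat_lit 1) (nat_lit 4) (nat_lit 2) (nat_lit 5) (nat_lit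 2) (nat_lit 4) (nat_lit 382) (nat_lit 316) (nat_lit 202)) (XT.lf (nat_lit 0) (nat_lit 4804823977) (nat_lit 380) (nat_lit 8530964339) (nat_lit 380) (nat_lit 8530964339) (nat_lit 26) (nat_lit 3) (nat_lit 31) (nat_lit 3) (nat_lit 31) (nat_lit 5) (nat_lit 317) (nat_lit 317) (nat_lit 266))) (XT.nd (nat_lit 78) (nat_lit 0) (nat_lit 76) (XT.lf (nat_lit 76) (nat_lit 4368398465) (nat_lit 0) (nat_lit 6174251905) (nat_lit 380) (nat_lit 36438958386) (nat_lit 27) (nat_lit 5) (nat_lit 26) (nat_lit 3) (nat_lit 31) (nat_lit 5) (nat_lit 318) (nat_lit 317) (nat_lit 265)) (XT.nd (nat_lit 78) (nat_lit 0) (nat_lit 0) (XT.lf (nat_lit 0) (nat_lit 13264702523) (nat_lit 304) (nat_lit 20419712842) (nat_lit 380) (nat_lit 16785159488) (nat_lit 27) (nat_lit 5) (nat_lit 31) (nat_lit 5) (nat_lit 32) (nat_lit 5) (nat_lit 319) (nat_lit 317) (nat_lit 264)) (XT.lf (nat_lit 76) (nat_lit 5274454023) (nat_lit 0) (nat_lit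 11628115827) (nat_lit 380) (nat_lit 37502050382) (nat_lit 28) (nat_lit 5) (nat_lit 27) (nat_lit 5) (nat_lit 32) (nat_lit 5) (nat_lit 320) (nat_lit 317) (nat_lit 263))))) (XT.nd (nat_lit 234) (nat_lit 304) (nat_lit 0) (XT.nd (nat_lit 78) (nat_lit 304) (nat_lit 0) (XT.lf (nat_lit 0) (nat_lit 22768749781) (nat_lit 304) (nat_lit 22276237757) (nat_lit 76) (nat_lit 13632549112) (nat_lit 28) (nat_lit 5) (nat_lit 32) (nat_lit 5) (nat_lit 29) (nat_lit 5) (nat_lit 321) (nat_lit 317) (nat_lit 262)) (XT.nd (nat_lit 78) (nat_lit 0) (nat_lit 0) (XT.lf (nat_lit 0) (nat_lit 8834732773) (nat_lit 304) (nat_lit 21595849985) (nat_lit 380) (nat_lit 33023456780) (nat_lit 24) (nat_lit 5) (nat_lit 28) (nat_lit 5) (nat_lit 29) (nat_lit 5) (nat_lit 322) (nat_lit 317) (nat_lit 261)) (XT.lf (nat_lit 0) (nat_lit 40680483672) (nat_lit 380) (nat_lit 21938495419) (nat_lit 76) (nat_lit 6112226705) (nat_lit 24) (nat_lit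 5) (nat_lit 29) (nat_lit 5) (nat_lit 25) (nat_lit 5) (nat_lit 323) (nat_lit 317) (nat_lit 260)))) (XT.nd (nat_lit 78) (nat_lit 152) (nat_lit 0) (XT.lf (nat_lit 0) (nat_lit 16040442075) (nat_lit 152) (nat_lit 38116972631) (nat_lit 228) (nat_lit 20389106527) (nat_lit 22) (nat_lit 5) (nat_lit 24) (nat_lit 5) (nat_lit 25) (nat_lit 5) (nat_lit 324) (nat_lit 317) (nat_lit 259)) (XT.nd (nat_lit 78) (nat_lit 152) (nat_lit 0) (XT.lf (nat_lit 0) (nat_lit 62178321137) (nat_lit 152) (nat_lit 8621570670) (nat_lit 228) (nat_lit 10262646422) (nat_lit 22) (nat_lit 5) (nat_lit 24) (nat_lit 5) (nat_lit 25) (nat_lit 5) (nat_lit 325) (nat_lit 317) (nat_lit 258)) (XT.lf (nat_lit 0) (nat_lit 3575017431) (nat_lit 152) (nat_lit 60252188361) (nat_lit 76) (nat_lit 24372866266) (nat_lit 20) (nat_lit 5) (nat_lit 22) (nat_lit 5) (nat_lit 21) (nat_lit 5) (nat_lit 326) (nat_lit 317) (nat_lit 257))))))) (XT.nd (nat_lit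 858) (nat_lit 456) (nat_lit 0) (XT.nd (nat_lit 390) (nat_lit 304) (nat_lit 0) (XT.nd (nat_lit 156) (nat_lit 228) (nat_lit 0) (XT.nd (nat_lit 78) (nat_lit 152) (nat_lit 0) (XT.lf (nat_lit 0) (nat_lit 19879950477) (nat_lit 152) (nat_lit 13282747930) (nat_lit 76) (nat_lit 62955888489) (nat_lit 20) (nat_lit 5) (nat_lit 22) (nat_lit 5) (nat_lit 21) (nat_lit 5) (nat_lit 327) (nat_lit 317) (nat_lit 256)) (XT.lf (nat_lit 0) (nat_lit 40655024760) (nat_lit 228) (nat_lit 60413180816) (nat_lit 76) (nat_lit 3853016169) (nat_lit 18) (nat_lit 5) (nat_lit 21) (nat_lit 5) (nat_lit 19) (nat_lit 4) (nat_lit 328) (nat_lit 317) (nat_lit 255))) (XT.nd (nat_lit 78) (nat_lit 228) (nat_lit 0) (XT.lf (nat_lit 0) (nat_lit 66850976223) (nat_lit 228) (nat_lit 4095211307) (nat_lit 76) (nat_lit 43752374476) (nat_lit 18) (nat_lit 5) (nat_lit 21) (nat_lit 5) (nat_lit 19) (nat_lit 4) (nat_lit 329) (nat_lit 317) (nat_lit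 254)) (XT.nd (nat_lit 78) (nat_lit 152) (nat_lit 0) (XT.lf (nat_lit 0) (nat_lit 66596636344) (nat_lit 76) (nat_lit 33135614270) (nat_lit 152) (nat_lit 25796865409) (nat_lit 17) (nat_lit 5) (nat_lit 18) (nat_lit 5) (nat_lit 19) (nat_lit 4) (nat_lit 330) (nat_lit 317) (nat_lit 253)) (XT.lf (nat_lit 0) (nat_lit 756809785) (nat_lit 152) (nat_lit 126920874189) (nat_lit 76) (nat_lit 10135848928) (nat_lit 15) (nat_lit 5) (nat_lit 17) (nat_lit 5) (nat_lit 16) (nat_lit 4) (nat_lit 331) (nat_lit 317) (nat_lit 252))))) (XT.nd (nat_lit 234) (nat_lit 228) (nat_lit 0) (XT.nd (nat_lit 78) (nat_lit 76) (nat_lit 0) (XT.lf (nat_lit 0) (nat_lit 33455975146) (nat_lit 152) (nat_lit 56619570393) (nat_lit 76) (nat_lit 60960272950) (nat_lit 15) (nat_lit 5) (nat_lit 17) (nat_lit 5) (nat_lit 16) (nat_lit 4) (nat_lit 332) (nat_lit 317) (nat_lit 251)) (XT.nd (nat_lit 78) (nat_lit 0) (nat_lit 0) (XT.lf (nat_lit 0)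 (nat_lit 26591873338) (nat_lit 76) (nat_lit 45567868043) (nat_lit 152) (nat_lit 93916747907) (nat_lit 14) (nat_lit 5) (nat_lit 15) (nat_lit 5) (nat_lit 16) (nat_lit 4) (nat_lit 333) (nat_lit 317) (nat_lit 250)) (XT.lf (nat_lit 0) (nat_lit 120000867638) (nat_lit 152) (nat_lit 54656982170) (nat_lit 0) (nat_lit 8215642757) (nat_lit 14) (nat_lit 5) (nat_lit 16) (nat_lit 4) (nat_lit 14) (nat_lit 4) (nat_lit 334) (nat_lit 317) (nat_lit 249)))) (XT.nd (nat_lit 78) (nat_lit 152) (nat_lit 0) (XT.lf (nat_lit 0) (nat_lit 44702454148) (nat_lit 76) (nat_lit 134335470540) (nat_lit 76) (nat_lit 22549158340) (nat_lit 13) (nat_lit 4) (nat_lit 14) (nat_lit 5) (nat_lit 14) (nat_lit 4) (nat_lit 335) (nat_lit 317) (nat_lit 248)) (XT.nd (nat_lit 78) (nat_lit 76) (nat_lit 0) (XT.lf (nat_lit 0) (nat_lit 24693919568) (nat_lit 152) (nat_lit 58695330623) (nat_lit 76) (nat_lit 139121700092) (nat_lit 12) (nat_lit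 5) (nat_lit 14) (nat_lit 5) (nat_lit 13) (nat_lit 4) (nat_lit 336) (nat_lit 317) (nat_lit 247)) (XT.lf (nat_lit 0) (nat_lit 58340578164) (nat_lit 76) (nat_lit 20789030221) (nat_lit 152) (nat_lit 166920511434) (nat_lit 11) (nat_lit 5) (nat_lit 12) (nat_lit 5) (nat_lit 13) (nat_lit 4) (nat_lit 337) (nat_lit 317) (nat_lit 246)))))) (XT.nd (nat_lit 390) (nat_lit 228) (nat_lit 0) (XT.nd (nat_lit 156) (nat_lit 152) (nat_lit 0) (XT.nd (nat_lit 78) (nat_lit 76) (nat_lit 0) (XT.lf (nat_lit 0) (nat_lit 147064067202) (nat_lit 152) (nat_lit 75399666084) (nat_lit 0) (nat_lit 49856419554) (nat_lit 11) (nat_lit 5) (nat_lit 13) (nat_lit 4) (nat_lit 11) (nat_lit 4) (nat_lit 338) (nat_lit 317) (nat_lit 245)) (XT.lf (nat_lit 0) (nat_lit 57921655914) (nat_lit 76) (nat_lit 170654548587) (nat_lit 76) (nat_lit 73446360349) (nat_lit 10) (nat_lit 4) (nat_lit 11) (nat_lit 5) (nat_lit 11) (nat_lit 4) (nat_lit 339)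 (nat_lit 317) (nat_lit 244))) (XT.nd (nat_lit 78) (nat_lit 152) (nat_lit 0) (XT.lf (nat_lit 0) (nat_lit 219713478865) (nat_lit 76) (nat_lit 106542219099) (nat_lit 76) (nat_lit 9333560784) (nat_lit 10) (nat_lit 4) (nat_lit 11) (nat_lit 5) (nat_lit 11) (nat_lit 4) (nat_lit 340) (nat_lit 317) (nat_lit 243)) (XT.nd (nat_lit 78) (nat_lit 0) (nat_lit 0) (XT.lf (nat_lit 0) (nat_lit 31740953545) (nat_lit 76) (nat_lit 28235800233) (nat_lit 152) (nat_lit 313617189166) (nat_lit 8) (nat_lit 5) (nat_lit 9) (nat_lit 5) (nat_lit 10) (nat_lit 4) (nat_lit 341) (nat_lit 317) (nat_lit 242)) (XT.lf (nat_lit 0) (nat_lit 147632579345) (nat_lit 152) (nat_lit 205161754295) (nat_lit 0) (nat_lit 63102646714) (nat_lit 8) (nat_lit 5) (nat_lit 10) (nat_lit 4) (nat_lit 8) (nat_lit 4) (nat_lit 342) (nat_lit 317) (nat_lit 241))))) (XT.nd (nat_lit 234) (nat_lit 152) (nat_lit 0) (XT.nd (nat_lit 78) (nat_lit 76) (nat_lit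 0) (XT.lf (nat_lit 0) (nat_lit 249780707119) (nat_lit 152) (nat_lit 49312671523) (nat_lit 0) (nat_lit 165250505720) (nat_lit 8) (nat_lit 5) (nat_lit 10) (nat_lit 4) (nat_lit 8) (nat_lit 4) (nat_lit 343) (nat_lit 317) (nat_lit 240)) (XT.nd (nat_lit 78) (nat_lit 0) (nat_lit 0) (XT.lf (nat_lit 0) (nat_lit 142608674758) (nat_lit 76) (nat_lit 230546949502) (nat_lit 76) (nat_lit 146016514390) (nat_lit 7) (nat_lit 4) (nat_lit 8) (nat_lit 5) (nat_lit 8) (nat_lit 4) (nat_lit 344) (nat_lit 317) (nat_lit 239)) (XT.lf (nat_lit 0) (nat_lit 368859235950) (nat_lit 76) (nat_lit 148754727956) (nat_lit 76) (nat_lit 64224089617) (nat_lit 7) (nat_lit 4) (nat_lit 8) (nat_lit 5) (nat_lit 8) (nat_lit 4) (nat_lit 345) (nat_lit 317) (nat_lit 238)))) (XT.nd (nat_lit 78) (nat_lit 76) (nat_lit 0) (XT.lf (nat_lit 0) (nat_lit 27180408613) (nat_lit 152) (nat_lit 26092936540) (nat_lit 76) (nat_lit 600445257867) (nat_lit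 6) (nat_lit 5) (nat_lit 8) (nat_lit 5) (nat_lit 7) (nat_lit 4) (nat_lit 346) (nat_lit 317) (nat_lit 237)) (XT.nd (nat_lit 78) (nat_lit 0) (nat_lit 0) (XT.lf (nat_lit 0) (nat_lit 137052288970) (nat_lit 152) (nat_lit 533623299195) (nat_lit 0) (nat_lit 63547098771) (nat_lit 5) (nat_lit 5) (nat_lit 7) (nat_lit 4) (nat_lit 5) (nat_lit 4) (nat_lit 347) (nat_lit 317) (nat_lit 236)) (XT.lf (nat_lit 0) (nat_lit 267370265746) (nat_lit 152) (nat_lit 364972361294) (nat_lit 0) (nat_lit 193864959351) (nat_lit 5) (nat_lit 5) (nat_lit 7) (nat_lit 4) (nat_lit 5) (nat_lit 4) (nat_lit 348) (nat_lit 317) (nat_lit 235))))))))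
noncomputable def xc80 : XT := (XT.nd (nat_lit 1638) (nat_lit 76) (nat_lit 0) (XT.nd (nat_lit 780) (nat_lit 0) (nat_lit 0) (XT.nd (nat_lit 390) (nat_lit 152) (nat_lit 0) (XT.nd (nat_lit 156) (nat_lit 0) (nat_lit 0) (XT.nd (nat_lit 78) (nat_lit 76) (nat_lit 0) (XT.lf (nat_lit 0) (nat_lit 417235582081) (nat_lit 152) (nat_lit 171024517669) (nat_lit 0) (nat_lit 343730174645) (nat_lit 5) (nat_lit 5) (nat_lit 7) (nat_lit 4) (nat_lit 5) (nat_lit 4) (nat_lit 349) (nat_lit 317) (nat_lit 234)) (XT.lf (nat_lit 0) (nat_lit 57098134141) (nat_lit 76) (nat_lit 534846563299) (nat_lit 76) (nat_lit 461341068003) (nat_lit 4) (nat_lit 4) (nat_lit 5) (nat_lit 5) (nat_lit 5) (nat_lit 4) (nat_lit 350) (nat_lit 317) (nat_lit 233))) (XT.nd (nat_lit 78) (nat_lit 0) (nat_lit 0) (XT.lf (nat_lit 0) (nat_lit 338659397310) (nat_lit 76) (nat_lit 463140405592) (nat_lit 76) (nat_lit 389634833896) (nat_lit 4) (nat_lit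 4) (nat_lit 5) (nat_lit 5) (nat_lit 5) (nat_lit 4) (nat_lit 351) (nat_lit 317) (nat_lit 232)) (XT.nd (nat_lit 78) (nat_lit 0) (nat_lit 0) (XT.lf (nat_lit 0) (nat_lit 662454319478) (nat_lit 76) (nat_lit 380678598035) (nat_lit 76) (nat_lit 307172959903) (nat_lit 4) (nat_lit 4) (nat_lit 5) (nat_lit 5) (nat_lit 5) (nat_lit 4) (nat_lit 352) (nat_lit 317) (nat_lit 231)) (XT.lf (nat_lit 0) (nat_lit 1034818018687) (nat_lit 76) (nat_lit 285847757436) (nat_lit 76) (nat_lit 212342061534) (nat_lit 4) (nat_lit 4) (nat_lit 5) (nat_lit 5) (nat_lit 5) (nat_lit 4) (nat_lit 353) (nat_lit 317) (nat_lit 230))))) (XT.nd (nat_lit 156) (nat_lit 76) (nat_lit 0) (XT.nd (nat_lit 78) (nat_lit 76) (nat_lit 0) (XT.lf (nat_lit 0) (nat_lit 1463035871661) (nat_lit 76) (nat_lit 176792497783) (nat_lit 76) (nat_lit 103286751646) (nat_lit 4) (nat_lit 4) (nat_lit 5) (nat_lit 5) (nat_lit 5) (nat_lit 4) (nat_lit 354) (nat_lit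 317) (nat_lit 229)) (XT.lf (nat_lit 0) (nat_lit 20156792269) (nat_lit 152) (nat_lit 30168686440) (nat_lit 76) (nat_lit 1934275611010) (nat_lit 3) (nat_lit 5) (nat_lit 5) (nat_lit 5) (nat_lit 4) (nat_lit 4) (nat_lit 355) (nat_lit 317) (nat_lit 228))) (XT.nd (nat_lit 78) (nat_lit 0) (nat_lit 0) (XT.lf (nat_lit 0) (nat_lit 167729438606) (nat_lit 152) (nat_lit 1987603350056) (nat_lit 0) (nat_lit 103811327472) (nat_lit 2) (nat_lit 5) (nat_lit 4) (nat_lit 4) (nat_lit 2) (nat_lit 4) (nat_lit 356) (nat_lit 317) (nat_lit 227)) (XT.nd (nat_lit 78) (nat_lit 0) (nat_lit 0) (XT.lf (nat_lit 0) (nat_lit 341486375172) (nat_lit 152) (nat_lit 1955206727058) (nat_lit 0) (nat_lit 277568235316) (nat_lit 2) (nat_lit 5) (nat_lit 4) (nat_lit 4) (nat_lit 2) (nat_lit 4) (nat_lit 357) (nat_lit 317) (nat_lit 226)) (XT.lf (nat_lit 0) (nat_lit 541306719332) (nat_lit 152) (nat_lit 1917950888292) (nat_lit 0) (nat_lit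 477388554501) (nat_lit 2) (nat_lit 5) (nat_lit 4) (nat_lit 4) (nat_lit 2) (nat_lit 4) (nat_lit 358) (nat_lit 317) (nat_lit 225)))))) (XT.nd (nat_lit 390) (nat_lit 0) (nat_lit 0) (XT.nd (nat_lit 156) (nat_lit 0) (nat_lit 0) (XT.nd (nat_lit 78) (nat_lit 0) (nat_lit 0) (XT.lf (nat_lit 0) (nat_lit 771099999561) (nat_lit 152) (nat_lit 1875106915172) (nat_lit 0) (nat_lit 707181813011) (nat_lit 2) (nat_lit 5) (nat_lit 4) (nat_lit 4) (nat_lit 2) (nat_lit 4) (nat_lit 359) (nat_lit 317) (nat_lit 224)) (XT.lf (nat_lit 0) (nat_lit 1035362171339) (nat_lit 152) (nat_lit 1825836556050) (nat_lit 0) (nat_lit 971443965905) (nat_lit 2) (nat_lit 5) (nat_lit 4) (nat_lit 4) (nat_lit 2) (nat_lit 4) (nat_lit 360) (nat_lit 317) (nat_lit 223))) (XT.nd (nat_lit 78) (nat_lit 0) (nat_lit 0) (XT.lf (nat_lit 0) (nat_lit 1339263581508) (nat_lit 152) (nat_lit 1769175825640) (nat_lit 0) (nat_lit 1275345359651) (nat_lit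 2) (nat_lit 5) (nat_lit 4) (nat_lit 4) (nat_lit 2) (nat_lit 4) (nat_lit 361) (nat_lit 317) (nat_lit 222)) (XT.nd (nat_lit 78) (nat_lit 0) (nat_lit 0) (XT.lf (nat_lit 0) (nat_lit 1688750127221) (nat_lit 152) (nat_lit 1704016144433) (nat_lit 0) (nat_lit 1624831891085) (nat_lit 2) (nat_lit 5) (nat_lit 4) (nat_lit 4) (nat_lit 2) (nat_lit 4) (nat_lit 362) (nat_lit 317) (nat_lit 221)) (XT.lf (nat_lit 0) (nat_lit 2090659588722) (nat_lit 152) (nat_lit 1629082649102) (nat_lit 0) (nat_lit 2026741340168) (nat_lit 2) (nat_lit 5) (nat_lit 4) (nat_lit 4) (nat_lit 2) (nat_lit 4) (nat_lit 363) (nat_lit 317) (nat_lit 220))))) (XT.nd (nat_lit 234) (nat_lit 0) (nat_lit 0) (XT.nd (nat_lit 78) (nat_lit 0) (nat_lit 0) (XT.lf (nat_lit 0) (nat_lit 2552855411996) (nat_lit 152) (nat_lit 1542909249520) (nat_lit 0) (nat_lit 2488937152645) (nat_lit 2) (nat_lit 5) (nat_lit 4) (nat_lit 4) (nat_lit 2) (nat_lit 4) (nat_lit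 364) (nat_lit 317) (nat_lit 219)) (XT.nd (nat_lit 78) (nat_lit 0) (nat_lit 0) (XT.lf (nat_lit 0) (nat_lit 3084380558803) (nat_lit 152) (nat_lit 1443809944392) (nat_lit 0) (nat_lit 3020462290062) (nat_lit 2) (nat_lit 5) (nat_lit 4) (nat_lit 4) (nat_lit 2) (nat_lit 4) (nat_lit 365) (nat_lit 317) (nat_lit 218)) (XT.lf (nat_lit 0) (nat_lit 3695634434189) (nat_lit 152) (nat_lit 1329845834268) (nat_lit 0) (nat_lit 3631716157284) (nat_lit 2) (nat_lit 5) (nat_lit 4) (nat_lit 4) (nat_lit 2) (nat_lit 4) (nat_lit 366) (nat_lit 317) (nat_lit 217)))) (XT.nd (nat_lit 78) (nat_lit 0) (nat_lit 0) (XT.lf (nat_lit 0) (nat_lit 4398576353107) (nat_lit 152) (nat_lit 1198787186560) (nat_lit 0) (nat_lit 4334658069102) (nat_lit 2) (nat_lit 5) (nat_lit 4) (nat_lit 4) (nat_lit 2) (nat_lit 4) (nat_lit 367) (nat_lit 317) (nat_lit 216)) (XT.nd (nat_lit 78) (nat_lit 0) (nat_lit 0) (XT.lf (nat_lit 0) (nat_lit 5206959527014)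 (nat_lit 152) (nat_lit 1048069810335) (nat_lit 0) (nat_lit 5143041236836) (nat_lit 2) (nat_lit 5) (nat_lit 4) (nat_lit 4) (nat_lit 2) (nat_lit 4) (nat_lit 368) (nat_lit 317) (nat_lit 215)) (XT.lf (nat_lit 0) (nat_lit 6136600148444) (nat_lit 152) (nat_lit 874744887361) (nat_lit 0) (nat_lit 6072681852898) (nat_lit 2) (nat_lit 5) (nat_lit 4) (nat_lit 4) (nat_lit 2) (nat_lit 4) (nat_lit 369) (nat_lit 317) (nat_lit 214))))))) (XT.nd (nat_lit 858) (nat_lit 0) (nat_lit 0) (XT.nd (nat_lit 390) (nat_lit 0) (nat_lit 0) (XT.nd (nat_lit 156) (nat_lit 76) (nat_lit 0) (XT.nd (nat_lit 78) (nat_lit 0) (nat_lit 0) (XT.lf (nat_lit 0) (nat_lit 7205686838251) (nat_lit 152) (nat_lit 675421277841) (nat_lit 0) (nat_lit 7141768538036) (nat_lit 2) (nat_lit 5) (nat_lit 4) (nat_lit 4) (nat_lit 2) (nat_lit 4) (nat_lit 370) (nat_lit 317) (nat_lit 213)) (XT.lf (nat_lit 0) (nat_lit 8435136509930) (nat_lit 152) (nat_lit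 446199172025) (nat_lit 0) (nat_lit 8371218205656) (nat_lit 2) (nat_lit 5) (nat_lit 4) (nat_lit 4) (nat_lit 2) (nat_lit 4) (nat_lit 371) (nat_lit 317) (nat_lit 212))) (XT.nd (nat_lit 78) (nat_lit 76) (nat_lit 0) (XT.lf (nat_lit 0) (nat_lit 9849003613580) (nat_lit 152) (nat_lit 182593789580) (nat_lit 0) (nat_lit 9785085305776) (nat_lit 2) (nat_lit 5) (nat_lit 4) (nat_lit 4) (nat_lit 2) (nat_lit 4) (nat_lit 372) (nat_lit 317) (nat_lit 211)) (XT.nd (nat_lit 78) (nat_lit 0) (nat_lit 0) (XT.lf (nat_lit 0) (nat_lit 132333620065) (nat_lit 76) (nat_lit 11348096799385) (nat_lit 76) (nat_lit 11284178488512) (nat_lit 1) (nat_lit 4) (nat_lit 2) (nat_lit 5) (nat_lit 2) (nat_lit 4) (nat_lit 373) (nat_lit 317) (nat_lit 210)) (XT.lf (nat_lit 0) (nat_lit 515021160617) (nat_lit 76) (nat_lit 12851094745399) (nat_lit 76) (nat_lit 12787176431857) (nat_lit 1) (nat_lit 4) (nat_lit 2) (nat_lit 5) (nat_lit 2)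 (nat_lit 4) (nat_lit 374) (nat_lit 317) (nat_lit 209))))) (XT.nd (nat_lit 234) (nat_lit 0) (nat_lit 0) (XT.nd (nat_lit 78) (nat_lit 0) (nat_lit 0) (XT.lf (nat_lit 0) (nat_lit 955111803927) (nat_lit 76) (nat_lit 14579542398118) (nat_lit 76) (nat_lit 14515624082255) (nat_lit 1) (nat_lit 4) (nat_lit 2) (nat_lit 5) (nat_lit 2) (nat_lit 4) (nat_lit 375) (nat_lit 317) (nat_lit 208)) (XT.nd (nat_lit 78) (nat_lit 0) (nat_lit 0) (XT.lf (nat_lit 0) (nat_lit 1461216019103) (nat_lit 76) (nat_lit 16567257211617) (nat_lit 76) (nat_lit 16503338893736) (nat_lit 1) (nat_lit 4) (nat_lit 2) (nat_lit 5) (nat_lit 2) (nat_lit 4) (nat_lit 376) (nat_lit 317) (nat_lit 207)) (XT.lf (nat_lit 0) (nat_lit 2043235845136) (nat_lit 76) (nat_lit 18853129258335) (nat_lit 76) (nat_lit 18789210938699) (nat_lit 1) (nat_lit 4) (nat_lit 2) (nat_lit 5) (nat_lit 2) (nat_lit 4) (nat_lit 377) (nat_lit 317) (nat_lit 206)))) (XT.nd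 (nat_lit 78) (nat_lit 0) (nat_lit 0) (XT.lf (nat_lit 0) (nat_lit 2712558626450) (nat_lit 76) (nat_lit 21481882121795) (nat_lit 76) (nat_lit 21417963800633) (nat_lit 1) (nat_lit 4) (nat_lit 2) (nat_lit 5) (nat_lit 2) (nat_lit 4) (nat_lit 378) (nat_lit 317) (nat_lit 205)) (XT.nd (nat_lit 78) (nat_lit 0) (nat_lit 0) (XT.lf (nat_lit 0) (nat_lit 3482279808766) (nat_lit 76) (nat_lit 24504947923238) (nat_lit 76) (nat_lit 24441029600749) (nat_lit 1) (nat_lit 4) (nat_lit 2) (nat_lit 5) (nat_lit 2) (nat_lit 4) (nat_lit 379) (nat_lit 317) (nat_lit 204)) (XT.lf (nat_lit 0) (nat_lit 4367459154347) (nat_lit 76) (nat_lit 27981473602257) (nat_lit 76) (nat_lit 27917555278614) (nat_lit 1) (nat_lit 4) (nat_lit 2) (nat_lit 5) (nat_lit 2) (nat_lit 4) (nat_lit 380) (nat_lit 317) (nat_lit 203)))))) (XT.nd (nat_lit 42198) (nat_lit 0) (nat_lit 1596) (XT.nd (nat_lit 41964) (nat_lit 0) (nat_lit 1900) (XT.nd (nat_lit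 78) (nat_lit 0) (nat_lit 0) (XT.lf (nat_lit 0) (nat_lit 5385415389519) (nat_lit 76) (nat_lit 31979478139529) (nat_lit 76) (nat_lit 31915559814882) (nat_lit 1) (nat_lit 4) (nat_lit 2) (nat_lit 5) (nat_lit 2) (nat_lit 4) (nat_lit 381) (nat_lit 317) (nat_lit 202)) (XT.lf (nat_lit 0) (nat_lit 6556065049319) (nat_lit 76) (nat_lit 36577183362956) (nat_lit 76) (nat_lit 36513265037438) (nat_lit 1) (nat_lit 4) (nat_lit 2) (nat_lit 5) (nat_lit 2) (nat_lit 4) (nat_lit 382) (nat_lit 317) (nat_lit 201))) (XT.nd (nat_lit 78) (nat_lit 0) (nat_lit 0) (XT.lf (nat_lit 0) (nat_lit 5555640421) (nat_lit 380) (nat_lit 9793273187) (nat_lit 380) (nat_lit 9793273187) (nat_lit 26) (nat_lit 3) (nat_lit 31) (nat_lit 3) (nat_lit 31) (nat_lit 5) (nat_lit 318) (nat_lit 318) (nat_lit 264)) (XT.nd (nat_lit 78) (nat_lit 0) (nat_lit 76) (XT.lf (nat_lit 76) (nat_lit 5056753859) (nat_lit 0) (nat_lit 7120999874) (nat_lit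 380) (nat_lit 41842927716) (nat_lit 27) (nat_lit 5) (nat_lit 26) (nat_lit 3) (nat_lit 31) (nat_lit 5) (nat_lit 319) (nat_lit 318) (nat_lit 263)) (XT.lf (nat_lit 0) (nat_lit 15300366496) (nat_lit 304) (nat_lit 23446045709) (nat_lit 380) (nat_lit 19286607044) (nat_lit 27) (nat_lit 5) (nat_lit 31) (nat_lit 5) (nat_lit 32) (nat_lit 5) (nat_lit 320) (nat_lit 318) (nat_lit 262))))) (XT.nd (nat_lit 234) (nat_lit 152) (nat_lit 0) (XT.nd (nat_lit 78) (nat_lit 228) (nat_lit 0) (XT.lf (nat_lit 76) (nat_lit 6100581456) (nat_lit 0) (nat_lit 13378785458) (nat_lit 380) (nat_lit 43079649361) (nat_lit 28) (nat_lit 5) (nat_lit 27) (nat_lit 5) (nat_lit 32) (nat_lit 5) (nat_lit 321) (nat_lit 318) (nat_lit 261)) (XT.nd (nat_lit 78) (nat_lit 304) (nat_lit 0) (XT.lf (nat_lit 0) (nat_lit 26219839998) (nat_lit 304) (nat_lit 25581566032) (nat_lit 76) (nat_lit 15672320320) (nat_lit 28) (nat_lit 5) (nat_lit 32)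 (nat_lit 5) (nat_lit 29) (nat_lit 5) (nat_lit 322) (nat_lit 318) (nat_lit 260)) (XT.lf (nat_lit 0) (nat_lit 10194408832) (nat_lit 304) (nat_lit 24833299596) (nat_lit 380) (nat_lit 37939491837) (nat_lit 24) (nat_lit 5) (nat_lit 28) (nat_lit 5) (nat_lit 29) (nat_lit 5) (nat_lit 323) (nat_lit 318) (nat_lit 259)))) (XT.nd (nat_lit 78) (nat_lit 152) (nat_lit 0) (XT.lf (nat_lit 0) (nat_lit 46810919776) (nat_lit 380) (nat_lit 25195068413) (nat_lit 76) (nat_lit 7030587887) (nat_lit 24) (nat_lit 5) (nat_lit 29) (nat_lit 5) (nat_lit 25) (nat_lit 5) (nat_lit 324) (nat_lit 318) (nat_lit 258)) (XT.nd (nat_lit 78) (nat_lit 0) (nat_lit 0) (XT.lf (nat_lit 0) (nat_lit 18479155100) (nat_lit 152) (nat_lit 43827887602) (nat_lit 228) (nat_lit 23417505603) (nat_lit 22) (nat_lit 5) (nat_lit 24) (nat_lit 5) (nat_lit 25) (nat_lit 5) (nat_lit 325) (nat_lit 318) (nat_lit 257)) (XT.lf (nat_lit 0) (nat_lit 71533457754)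 (nat_lit 152) (nat_lit 9909040250) (nat_lit 228) (nat_lit 11775985210) (nat_lit 22) (nat_lit 5) (nat_lit 24) (nat_lit 5) (nat_lit 25) (nat_lit 5) (nat_lit 326) (nat_lit 318) (nat_lit 256))))))))
noncomputable def xc81 : XT := (XT.nd (nat_lit 1638) (nat_lit 304) (nat_lit 0) (XT.nd (nat_lit 780) (nat_lit 532) (nat_lit 0) (XT.nd (nat_lit 390) (nat_lit 304) (nat_lit 0) (XT.nd (nat_lit 156) (nat_lit 228) (nat_lit 0) (XT.nd (nat_lit 78) (nat_lit 0) (nat_lit 0) (XT.lf (nat_lit 0) (nat_lit 4133437431) (nat_lit 152) (nat_lit 69257668470) (nat_lit 76) (nat_lit 28035619806) (nat_lit 20) (nat_lit 5) (nat_lit 22) (nat_lit 5) (nat_lit 21) (nat_lit 5) (nat_lit 327) (nat_lit 318) (nat_lit 255)) (XT.lf (nat_lit 0) (nat_lit 22881219037) (nat_lit 152) (nat_lit 15247031298) (nat_lit 76) (nat_lit 72405205328) (nat_lit 20) (nat_lit 5) (nat_lit 22) (nat_lit 5) (nat_lit 21) (nat_lit 5) (nat_lit 328) (nat_lit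 318) (nat_lit 254))) (XT.nd (nat_lit 78) (nat_lit 76) (nat_lit 0) (XT.lf (nat_lit 0) (nat_lit 46771523720) (nat_lit 228) (nat_lit 69445974140) (nat_lit 76) (nat_lit 4439146126) (nat_lit 18) (nat_lit 5) (nat_lit 21) (nat_lit 5) (nat_lit 19) (nat_lit 4) (nat_lit 329) (nat_lit 318) (nat_lit 253)) (XT.nd (nat_lit 78) (nat_lit 76) (nat_lit 0) (XT.lf (nat_lit 0) (nat_lit 76894488087) (nat_lit 228) (nat_lit 4684115787) (nat_lit 76) (nat_lit 50322341544) (nat_lit 18) (nat_lit 5) (nat_lit 21) (nat_lit 5) (nat_lit 19) (nat_lit 4) (nat_lit 330) (nat_lit 318) (nat_lit 252)) (XT.lf (nat_lit 0) (nat_lit 76610355502) (nat_lit 76) (nat_lit 38096531783) (nat_lit 152) (nat_lit 29649357955) (nat_lit 17) (nat_lit 5) (nat_lit 18) (nat_lit 5) (nat_lit 19) (nat_lit 4) (nat_lit 331) (nat_lit 318) (nat_lit 251))))) (XT.nd (nat_lit 156) (nat_lit 152) (nat_lit 0) (XT.nd (nat_lit 78) (nat_lit 0) (nat_lit 0) (XT.lf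 (nat_lit 0) (nat_lit 885262414) (nat_lit 152) (nat_lit 145932645714) (nat_lit 76) (nat_lit 11665401180) (nat_lit 15) (nat_lit 5) (nat_lit 17) (nat_lit 5) (nat_lit 16) (nat_lit 4) (nat_lit 332) (nat_lit 318) (nat_lit 250)) (XT.lf (nat_lit 0) (nat_lit 38487355035) (nat_lit 152) (nat_lit 65089584558) (nat_lit 76) (nat_lit 70112292077) (nat_lit 15) (nat_lit 5) (nat_lit 17) (nat_lit 5) (nat_lit 16) (nat_lit 4) (nat_lit 333) (nat_lit 318) (nat_lit 249))) (XT.nd (nat_lit 78) (nat_lit 76) (nat_lit 0) (XT.lf (nat_lit 0) (nat_lit 30602533851) (nat_lit 76) (nat_lit 52393364824) (nat_lit 152) (nat_lit 107990224117) (nat_lit 14) (nat_lit 5) (nat_lit 15) (nat_lit 5) (nat_lit 16) (nat_lit 4) (nat_lit 334) (nat_lit 318) (nat_lit 248)) (XT.nd (nat_lit 78) (nat_lit 76) (nat_lit 0) (XT.lf (nat_lit 0) (nat_lit 138011951746) (nat_lit 152) (nat_lit 62835252597) (nat_lit 0) (nat_lit 9455659902) (nat_lit 14)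 (nat_lit 5) (nat_lit 16) (nat_lit 4) (nat_lit 14) (nat_lit 4) (nat_lit 335) (nat_lit 318) (nat_lit 247)) (XT.lf (nat_lit 0) (nat_lit 51427177491) (nat_lit 76) (nat_lit 154476762543) (nat_lit 76) (nat_lit 25919648529) (nat_lit 13) (nat_lit 4) (nat_lit 14) (nat_lit 5) (nat_lit 14) (nat_lit 4) (nat_lit 336) (nat_lit 318) (nat_lit 246)))))) (XT.nd (nat_lit 390) (nat_lit 304) (nat_lit 0) (XT.nd (nat_lit 156) (nat_lit 76) (nat_lit 0) (XT.nd (nat_lit 78) (nat_lit 76) (nat_lit 0) (XT.lf (nat_lit 0) (nat_lit 28407421073) (nat_lit 152) (nat_lit 67481873637) (nat_lit 76) (nat_lit 159996880090) (nat_lit 12) (nat_lit 5) (nat_lit 14) (nat_lit 5) (nat_lit 13) (nat_lit 4) (nat_lit 337) (nat_lit 318) (nat_lit 245)) (XT.lf (nat_lit 0) (nat_lit 67108614351) (nat_lit 76) (nat_lit 23899322845) (nat_lit 152) (nat_lit 191948362254) (nat_lit 11) (nat_lit 5) (nat_lit 12) (nat_lit 5) (nat_lit 13) (nat_lit 4) (nat_lit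 338) (nat_lit 318) (nat_lit 244))) (XT.nd (nat_lit 78) (nat_lit 76) (nat_lit 0) (XT.lf (nat_lit 0) (nat_lit 169131695874) (nat_lit 152) (nat_lit 86694003842) (nat_lit 0) (nat_lit 57341268733) (nat_lit 11) (nat_lit 5) (nat_lit 13) (nat_lit 4) (nat_lit 11) (nat_lit 4) (nat_lit 339) (nat_lit 318) (nat_lit 243)) (XT.nd (nat_lit 78) (nat_lit 0) (nat_lit 0) (XT.lf (nat_lit 0) (nat_lit 66624806813) (nat_lit 76) (nat_lit 196245418133) (nat_lit 76) (nat_lit 84454582228) (nat_lit 10) (nat_lit 4) (nat_lit 11) (nat_lit 5) (nat_lit 11) (nat_lit 4) (nat_lit 340) (nat_lit 318) (nat_lit 242)) (XT.lf (nat_lit 0) (nat_lit 252683459400) (nat_lit 76) (nat_lit 122517193058) (nat_lit 76) (nat_lit 10726001707) (nat_lit 10) (nat_lit 4) (nat_lit 11) (nat_lit 5) (nat_lit 11) (nat_lit 4) (nat_lit 341) (nat_lit 318) (nat_lit 241))))) (XT.nd (nat_lit 234) (nat_lit 152) (nat_lit 0) (XT.nd (nat_lit 78) (nat_lit 0)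 (nat_lit 0) (XT.lf (nat_lit 0) (nat_lit 36515114365) (nat_lit 76) (nat_lit 32464706472) (nat_lit 152) (nat_lit 360652227860) (nat_lit 8) (nat_lit 5) (nat_lit 9) (nat_lit 5) (nat_lit 10) (nat_lit 4) (nat_lit 342) (nat_lit 318) (nat_lit 240)) (XT.nd (nat_lit 78) (nat_lit 0) (nat_lit 0) (XT.lf (nat_lit 0) (nat_lit 169783398111) (nat_lit 152) (nat_lit 235924073245) (nat_lit 0) (nat_lit 72573164021) (nat_lit 8) (nat_lit 5) (nat_lit 10) (nat_lit 4) (nat_lit 8) (nat_lit 4) (nat_lit 343) (nat_lit 318) (nat_lit 239)) (XT.lf (nat_lit 0) (nat_lit 287252971330) (nat_lit 152) (nat_lit 56699185995) (nat_lit 0) (nat_lit 190042534012) (nat_lit 8) (nat_lit 5) (nat_lit 10) (nat_lit 4) (nat_lit 8) (nat_lit 4) (nat_lit 344) (nat_lit 318) (nat_lit 238)))) (XT.nd (nat_lit 78) (nat_lit 76) (nat_lit 0) (XT.lf (nat_lit 0) (nat_lit 164009890125) (nat_lit 76) (nat_lit 265123973639) (nat_lit 76) (nat_lit 167913359601)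 (nat_lit 7) (nat_lit 4) (nat_lit 8) (nat_lit 5) (nat_lit 8) (nat_lit 4) (nat_lit 345) (nat_lit 318) (nat_lit 237)) (XT.nd (nat_lit 78) (nat_lit 76) (nat_lit 0) (XT.lf (nat_lit 0) (nat_lit 424196742346) (nat_lit 76) (nat_lit 171063573420) (nat_lit 76) (nat_lit 73852805713) (nat_lit 7) (nat_lit 4) (nat_lit 8) (nat_lit 5) (nat_lit 8) (nat_lit 4) (nat_lit 346) (nat_lit 318) (nat_lit 236)) (XT.lf (nat_lit 0) (nat_lit 31261349340) (nat_lit 152) (nat_lit 29999000250) (nat_lit 76) (nat_lit 690515460848) (nat_lit 6) (nat_lit 5) (nat_lit 8) (nat_lit 5) (nat_lit 7) (nat_lit 4) (nat_lit 347) (nat_lit 318) (nat_lit 235))))))) (XT.nd (nat_lit 858) (nat_lit 0) (nat_lit 0) (XT.nd (nat_lit 390) (nat_lit 152) (nat_lit 0) (XT.nd (nat_lit 156) (nat_lit 76) (nat_lit 0) (XT.nd (nat_lit 78) (nat_lit 0) (nat_lit 0) (XT.lf (nat_lit 0) (nat_lit 157613975829) (nat_lit 152) (nat_lit 613658880409) (nat_lit 0) (nat_lit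 73082656239) (nat_lit 5) (nat_lit 5) (nat_lit 7) (nat_lit 4) (nat_lit 5) (nat_lit 4) (nat_lit 348) (nat_lit 318) (nat_lit 234)) (XT.lf (nat_lit 0) (nat_lit 307479147793) (nat_lit 152) (nat_lit 419711334039) (nat_lit 0) (nat_lit 222947740342) (nat_lit 5) (nat_lit 5) (nat_lit 7) (nat_lit 4) (nat_lit 5) (nat_lit 4) (nat_lit 349) (nat_lit 318) (nat_lit 233))) (XT.nd (nat_lit 78) (nat_lit 76) (nat_lit 0) (XT.lf (nat_lit 0) (nat_lit 479823825641) (nat_lit 152) (nat_lit 196672211451) (nat_lit 0) (nat_lit 395292341789) (nat_lit 5) (nat_lit 5) (nat_lit 7) (nat_lit 4) (nat_lit 5) (nat_lit 4) (nat_lit 350) (nat_lit 318) (nat_lit 232)) (XT.nd (nat_lit 78) (nat_lit 0) (nat_lit 0) (XT.lf (nat_lit 0) (nat_lit 65668566137) (nat_lit 76) (nat_lit 615070599609) (nat_lit 76) (nat_lit 530539049321) (nat_lit 4) (nat_lit 4) (nat_lit 5) (nat_lit 5) (nat_lit 5) (nat_lit 4) (nat_lit 351) (nat_lit 318) (nat_lit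 231)) (XT.lf (nat_lit 0) (nat_lit 389463273754) (nat_lit 76) (nat_lit 532608902792) (nat_lit 76) (nat_lit 448077294734) (nat_lit 4) (nat_lit 4) (nat_lit 5) (nat_lit 5) (nat_lit 5) (nat_lit 4) (nat_lit 352) (nat_lit 318) (nat_lit 230))))) (XT.nd (nat_lit 234) (nat_lit 152) (nat_lit 0) (XT.nd (nat_lit 78) (nat_lit 0) (nat_lit 0) (XT.lf (nat_lit 0) (nat_lit 761826786398) (nat_lit 76) (nat_lit 437778158489) (nat_lit 76) (nat_lit 353246500196) (nat_lit 4) (nat_lit 4) (nat_lit 5) (nat_lit 5) (nat_lit 5) (nat_lit 4) (nat_lit 353) (nat_lit 318) (nat_lit 229)) (XT.nd (nat_lit 78) (nat_lit 0) (nat_lit 0) (XT.lf (nat_lit 0) (nat_lit 1190044477141) (nat_lit 76) (nat_lit 328722982572) (nat_lit 76) (nat_lit 244191280597) (nat_lit 4) (nat_lit 4) (nat_lit 5) (nat_lit 5) (nat_lit 5) (nat_lit 4) (nat_lit 354) (nat_lit 318) (nat_lit 228)) (XT.lf (nat_lit 0) (nat_lit 1682494518193) (nat_lit 76) (nat_lit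 203309686816) (nat_lit 76) (nat_lit 118777946857) (nat_lit 4) (nat_lit 4) (nat_lit 5) (nat_lit 5) (nat_lit 5) (nat_lit 4) (nat_lit 355) (nat_lit 318) (nat_lit 227)))) (XT.nd (nat_lit 78) (nat_lit 76) (nat_lit 0) (XT.lf (nat_lit 0) (nat_lit 23181750872) (nat_lit 152) (nat_lit 34691008614) (nat_lit 76) (nat_lit 2224418277450) (nat_lit 3) (nat_lit 5) (nat_lit 5) (nat_lit 5) (nat_lit 4) (nat_lit 4) (nat_lit 356) (nat_lit 318) (nat_lit 226)) (XT.nd (nat_lit 78) (nat_lit 0) (nat_lit 0) (XT.lf (nat_lit 0) (nat_lit 192890285280) (nat_lit 152) (nat_lit 2285740862653) (nat_lit 0) (nat_lit 119384370748) (nat_lit 2) (nat_lit 5) (nat_lit 4) (nat_lit 4) (nat_lit 2) (nat_lit 4) (nat_lit 357) (nat_lit 318) (nat_lit 225)) (XT.lf (nat_lit 0) (nat_lit 392710575694) (nat_lit 152) (nat_lit 2248485136194) (nat_lit 0) (nat_lit 319204639444) (nat_lit 2) (nat_lit 5) (nat_lit 4) (nat_lit 4) (nat_lit 2) (nat_lit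 4) (nat_lit 358) (nat_lit 318) (nat_lit 224)))))) (XT.nd (nat_lit 390) (nat_lit 0) (nat_lit 0) (XT.nd (nat_lit 156) (nat_lit 0) (nat_lit 0) (XT.nd (nat_lit 78) (nat_lit 0) (nat_lit 0) (XT.lf (nat_lit 0) (nat_lit 622503809185) (nat_lit 152) (nat_lit 2205641260733) (nat_lit 0) (nat_lit 548997854051) (nat_lit 2) (nat_lit 5) (nat_lit 4) (nat_lit 4) (nat_lit 2) (nat_lit 4) (nat_lit 359) (nat_lit 318) (nat_lit 223)) (XT.lf (nat_lit 0) (nat_lit 886765940324) (nat_lit 152) (nat_lit 2156370986532) (nat_lit 0) (nat_lit 813259968767) (nat_lit 2) (nat_lit 5) (nat_lit 4) (nat_lit 4) (nat_lit 2) (nat_lit 4) (nat_lit 360) (nat_lit 318) (nat_lit 222))) (XT.nd (nat_lit 78) (nat_lit 0) (nat_lit 0) (XT.lf (nat_lit 0) (nat_lit 1190667315152) (nat_lit 152) (nat_lit 2099710329966) (nat_lit 0) (nat_lit 1117161329316) (nat_lit 2) (nat_lit 5) (nat_lit 4) (nat_lit 4) (nat_lit 2) (nat_lit 4) (nat_lit 361) (nat_lit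 318) (nat_lit 221)) (XT.nd (nat_lit 78) (nat_lit 0) (nat_lit 0) (XT.lf (nat_lit 0) (nat_lit 1540153830136) (nat_lit 152) (nat_lit 2034550712972) (nat_lit 0) (nat_lit 1466647831882) (nat_lit 2) (nat_lit 5) (nat_lit 4) (nat_lit 4) (nat_lit 2) (nat_lit 4) (nat_lit 362) (nat_lit 318) (nat_lit 220)) (XT.lf (nat_lit 0) (nat_lit 1942063264915) (nat_lit 152) (nat_lit 1959617273477) (nat_lit 0) (nat_lit 1868557255863) (nat_lit 2) (nat_lit 5) (nat_lit 4) (nat_lit 4) (nat_lit 2) (nat_lit 4) (nat_lit 363) (nat_lit 318) (nat_lit 219))))) (XT.nd (nat_lit 234) (nat_lit 0) (nat_lit 0) (XT.nd (nat_lit 78) (nat_lit 0) (nat_lit 0) (XT.lf (nat_lit 0) (nat_lit 2404259064952) (nat_lit 152) (nat_lit 1873443922449) (nat_lit 0) (nat_lit 2330753046511) (nat_lit 2) (nat_lit 5) (nat_lit 4) (nat_lit 4) (nat_lit 2) (nat_lit 4) (nat_lit 364) (nat_lit 318) (nat_lit 218)) (XT.nd (nat_lit 78) (nat_lit 0) (nat_lit 0) (XT.lf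 (nat_lit 0) (nat_lit 2935784191553) (nat_lit 152) (nat_lit 1774344659541) (nat_lit 0) (nat_lit 2862278164948) (nat_lit 2) (nat_lit 5) (nat_lit 4) (nat_lit 4) (nat_lit 2) (nat_lit 4) (nat_lit 365) (nat_lit 318) (nat_lit 217)) (XT.lf (nat_lit 0) (nat_lit 3547038049369) (nat_lit 152) (nat_lit 1660380586131) (nat_lit 0) (nat_lit 3473532015664) (nat_lit 2) (nat_lit 5) (nat_lit 4) (nat_lit 4) (nat_lit 2) (nat_lit 4) (nat_lit 366) (nat_lit 318) (nat_lit 216)))) (XT.nd (nat_lit 78) (nat_lit 0) (nat_lit 0) (XT.lf (nat_lit 0) (nat_lit 4249979953009) (nat_lit 152) (nat_lit 1529321970348) (nat_lit 0) (nat_lit 4176473913131) (nat_lit 2) (nat_lit 5) (nat_lit 4) (nat_lit 4) (nat_lit 2) (nat_lit 4) (nat_lit 367) (nat_lit 318) (nat_lit 215)) (XT.nd (nat_lit 78) (nat_lit 0) (nat_lit 0) (XT.lf (nat_lit 0) (nat_lit 5058363113632) (nat_lit 152) (nat_lit 1378604621883) (nat_lit 0) (nat_lit 4984857068385) (nat_lit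 2) (nat_lit 5) (nat_lit 4) (nat_lit 4) (nat_lit 2) (nat_lit 4) (nat_lit 368) (nat_lit 318) (nat_lit 214)) (XT.lf (nat_lit 0) (nat_lit 5988003723509) (nat_lit 152) (nat_lit 1205279723049) (nat_lit 0) (nat_lit 5914497673594) (nat_lit 2) (nat_lit 5) (nat_lit 4) (nat_lit 4) (nat_lit 2) (nat_lit 4) (nat_lit 369) (nat_lit 318) (nat_lit 213))))))))
noncomputable def xc82 : XT := (XT.nd (nat_lit 43368) (nat_lit 0) (nat_lit 456) (XT.nd (nat_lit 780) (nat_lit 0) (nat_lit 0) (XT.nd (nat_lit 390) (nat_lit 0) (nat_lit 0) (XT.nd (nat_lit 156) (nat_lit 76) (nat_lit 0) (XT.nd (nat_lit 78) (nat_lit 0) (nat_lit 0) (XT.lf (nat_lit 0) (nat_lit 7057090403270) (nat_lit 152) (nat_lit 1005956134521) (nat_lit 0) (nat_lit 6983584349296) (nat_lit 2) (nat_lit 5) (nat_lit 4) (nat_lit 4) (nat_lit 2) (nat_lit 4) (nat_lit 370) (nat_lit 318) (nat_lit 212)) (XT.lf (nat_lit 0) (nat_lit 8286540066213) (nat_lit 152) (nat_lit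 776734046957) (nat_lit 0) (nat_lit 8213034008710) (nat_lit 2) (nat_lit 5) (nat_lit 4) (nat_lit 4) (nat_lit 2) (nat_lit 4) (nat_lit 371) (nat_lit 318) (nat_lit 211))) (XT.nd (nat_lit 78) (nat_lit 76) (nat_lit 0) (XT.lf (nat_lit 0) (nat_lit 9700407162267) (nat_lit 152) (nat_lit 513128680385) (nat_lit 0) (nat_lit 9626901101694) (nat_lit 2) (nat_lit 5) (nat_lit 4) (nat_lit 4) (nat_lit 2) (nat_lit 4) (nat_lit 372) (nat_lit 318) (nat_lit 210)) (XT.nd (nat_lit 78) (nat_lit 76) (nat_lit 0) (XT.lf (nat_lit 0) (nat_lit 11326354308528) (nat_lit 152) (nat_lit 209982538501) (nat_lit 0) (nat_lit 11252848245286) (nat_lit 2) (nat_lit 5) (nat_lit 4) (nat_lit 4) (nat_lit 2) (nat_lit 4) (nat_lit 373) (nat_lit 318) (nat_lit 209)) (XT.lf (nat_lit 0) (nat_lit 152183968068) (nat_lit 76) (nat_lit 13050311159896) (nat_lit 76) (nat_lit 12976805094332) (nat_lit 1) (nat_lit 4) (nat_lit 2) (nat_lit 5) (nat_lit 2)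 (nat_lit 4) (nat_lit 374) (nat_lit 318) (nat_lit 208))))) (XT.nd (nat_lit 156) (nat_lit 0) (nat_lit 0) (XT.nd (nat_lit 78) (nat_lit 0) (nat_lit 0) (XT.lf (nat_lit 0) (nat_lit 592274599921) (nat_lit 76) (nat_lit 14778758818602) (nat_lit 76) (nat_lit 14705252751021) (nat_lit 1) (nat_lit 4) (nat_lit 2) (nat_lit 5) (nat_lit 2) (nat_lit 4) (nat_lit 375) (nat_lit 318) (nat_lit 207)) (XT.lf (nat_lit 0) (nat_lit 1098378805135) (nat_lit 76) (nat_lit 16766473637308) (nat_lit 76) (nat_lit 16692967567972) (nat_lit 1) (nat_lit 4) (nat_lit 2) (nat_lit 5) (nat_lit 2) (nat_lit 4) (nat_lit 376) (nat_lit 318) (nat_lit 206))) (XT.nd (nat_lit 78) (nat_lit 0) (nat_lit 0) (XT.lf (nat_lit 0) (nat_lit 1680398622506) (nat_lit 76) (nat_lit 19052345688553) (nat_lit 76) (nat_lit 18978839617691) (nat_lit 1) (nat_lit 4) (nat_lit 2) (nat_lit 5) (nat_lit 2) (nat_lit 4) (nat_lit 377) (nat_lit 318) (nat_lit 205)) (XT.nd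 (nat_lit 78) (nat_lit 0) (nat_lit 0) (XT.lf (nat_lit 0) (nat_lit 2349721396287) (nat_lit 76) (nat_lit 21681098555950) (nat_lit 76) (nat_lit 21607592483760) (nat_lit 1) (nat_lit 4) (nat_lit 2) (nat_lit 5) (nat_lit 2) (nat_lit 4) (nat_lit 378) (nat_lit 318) (nat_lit 204)) (XT.lf (nat_lit 0) (nat_lit 3119442572053) (nat_lit 76) (nat_lit 24704164360816) (nat_lit 76) (nat_lit 24630658287472) (nat_lit 1) (nat_lit 4) (nat_lit 2) (nat_lit 5) (nat_lit 2) (nat_lit 4) (nat_lit 379) (nat_lit 318) (nat_lit 203)))))) (XT.nd (nat_lit 42120) (nat_lit 0) (nat_lit 1748) (XT.nd (nat_lit 156) (nat_lit 0) (nat_lit 0) (XT.nd (nat_lit 78) (nat_lit 0) (nat_lit 0) (XT.lf (nat_lit 0) (nat_lit 4004621911938) (nat_lit 76) (nat_lit 28180690042811) (nat_lit 76) (nat_lit 28107183968465) (nat_lit 1) (nat_lit 4) (nat_lit 2) (nat_lit 5) (nat_lit 2) (nat_lit 4) (nat_lit 380) (nat_lit 318) (nat_lit 202)) (XT.lf (nat_lit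 0) (nat_lit 5022578142158) (nat_lit 76) (nat_lit 32178694582672) (nat_lit 76) (nat_lit 32105188507453) (nat_lit 1) (nat_lit 4) (nat_lit 2) (nat_lit 5) (nat_lit 2) (nat_lit 4) (nat_lit 381) (nat_lit 318) (nat_lit 201))) (XT.nd (nat_lit 1794) (nat_lit 0) (nat_lit 0) (XT.lf (nat_lit 0) (nat_lit 6193227797650) (nat_lit 76) (nat_lit 36776399808351) (nat_lit 76) (nat_lit 36702893732373) (nat_lit 1) (nat_lit 4) (nat_lit 2) (nat_lit 5) (nat_lit 2) (nat_lit 4) (nat_lit 382) (nat_lit 318) (nat_lit 200)) (XT.nd (nat_lit 78) (nat_lit 0) (nat_lit 0) (XT.lf (nat_lit 0) (nat_lit 220618593007117) (nat_lit 76) (nat_lit 878928143463327) (nat_lit 76) (nat_lit 878854637382494) (nat_lit 1) (nat_lit 4) (nat_lit 2) (nat_lit 5) (nat_lit 2) (nat_lit 4) (nat_lit 405) (nat_lit 318) (nat_lit 177)) (XT.lf (nat_lit 0) (nat_lit 254128644832780) (nat_lit 76) (nat_lit 1010538266052239) (nat_lit 76) (nat_lit 1010464759971380)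 (nat_lit 1) (nat_lit 4) (nat_lit 2) (nat_lit 5) (nat_lit 2) (nat_lit 4) (nat_lit 406) (nat_lit 318) (nat_lit 176))))) (XT.nd (nat_lit 234) (nat_lit 152) (nat_lit 0) (XT.nd (nat_lit 78) (nat_lit 0) (nat_lit 0) (XT.lf (nat_lit 0) (nat_lit 6411741001) (nat_lit 380) (nat_lit 11249155808) (nat_lit 380) (nat_lit 11249155808) (nat_lit 26) (nat_lit 3) (nat_lit 31) (nat_lit 3) (nat_lit 31) (nat_lit 5) (nat_lit 319) (nat_lit 319) (nat_lit 262)) (XT.nd (nat_lit 78) (nat_lit 0) (nat_lit 76) (XT.lf (nat_lit 76) (nat_lit 5840291984) (nat_lit 0) (nat_lit 8204734115) (nat_lit 380) (nat_lit 48072580918) (nat_lit 27) (nat_lit 5) (nat_lit 26) (nat_lit 3) (nat_lit 31) (nat_lit 5) (nat_lit 320) (nat_lit 319) (nat_lit 261)) (XT.lf (nat_lit 0) (nat_lit 17630172770) (nat_lit 304) (nat_lit 26935259515) (nat_lit 380) (nat_lit 22167253022) (nat_lit 27) (nat_lit 5) (nat_lit 31) (nat_lit 5) (nat_lit 32) (nat_lit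 5) (nat_lit 321) (nat_lit 319) (nat_lit 260)))) (XT.nd (nat_lit 78) (nat_lit 228) (nat_lit 0) (XT.lf (nat_lit 76) (nat_lit 7042102950) (nat_lit 0) (nat_lit 15390482111) (nat_lit 380) (nat_lit 49505522225) (nat_lit 28) (nat_lit 5) (nat_lit 27) (nat_lit 5) (nat_lit 32) (nat_lit 5) (nat_lit 322) (nat_lit 319) (nat_lit 259)) (XT.nd (nat_lit 78) (nat_lit 304) (nat_lit 0) (XT.lf (nat_lit 0) (nat_lit 30179869116) (nat_lit 304) (nat_lit 29391498565) (nat_lit 76) (nat_lit 18019303598) (nat_lit 28) (nat_lit 5) (nat_lit 32) (nat_lit 5) (nat_lit 29) (nat_lit 5) (nat_lit 323) (nat_lit 319) (nat_lit 258)) (XT.lf (nat_lit 0) (nat_lit 11749631513) (nat_lit 304) (nat_lit 28556836776) (nat_lit 380) (nat_lit 43602072733) (nat_lit 24) (nat_lit 5) (nat_lit 28) (nat_lit 5) (nat_lit 29) (nat_lit 5) (nat_lit 324) (nat_lit 319) (nat_lit 257))))))) (XT.nd (nat_lit 858) (nat_lit 532) (nat_lit 0) (XT.nd (nat_lit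 390) (nat_lit 456) (nat_lit 0) (XT.nd (nat_lit 156) (nat_lit 152) (nat_lit 0) (XT.nd (nat_lit 78) (nat_lit 152) (nat_lit 0) (XT.lf (nat_lit 0) (nat_lit 53854004663) (nat_lit 380) (nat_lit 28948467565) (nat_lit 76) (nat_lit 8086330835) (nat_lit 24) (nat_lit 5) (nat_lit 29) (nat_lit 5) (nat_lit 25) (nat_lit 5) (nat_lit 325) (nat_lit 319) (nat_lit 256)) (XT.lf (nat_lit 0) (nat_lit 21275713970) (nat_lit 152) (nat_lit 50397056812) (nat_lit 228) (nat_lit 26907472160) (nat_lit 22) (nat_lit 5) (nat_lit 24) (nat_lit 5) (nat_lit 25) (nat_lit 5) (nat_lit 326) (nat_lit 319) (nat_lit 255))) (XT.nd (nat_lit 78) (nat_lit 152) (nat_lit 0) (XT.lf (nat_lit 0) (nat_lit 82284942161) (nat_lit 152) (nat_lit 11391036348) (nat_lit 228) (nat_lit 13522679266) (nat_lit 22) (nat_lit 5) (nat_lit 24) (nat_lit 5) (nat_lit 25) (nat_lit 5) (nat_lit 327) (nat_lit 319) (nat_lit 254)) (XT.nd (nat_lit 78) (nat_lit 0) (nat_lit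 0) (XT.lf (nat_lit 0) (nat_lit 4770214775) (nat_lit 152) (nat_lit 79621858896) (nat_lit 76) (nat_lit 32246122400) (nat_lit 20) (nat_lit 5) (nat_lit 22) (nat_lit 5) (nat_lit 21) (nat_lit 5) (nat_lit 328) (nat_lit 319) (nat_lit 253)) (XT.lf (nat_lit 0) (nat_lit 26327977308) (nat_lit 152) (nat_lit 17512816563) (nat_lit 76) (nat_lit 83270472755) (nat_lit 20) (nat_lit 5) (nat_lit 22) (nat_lit 5) (nat_lit 21) (nat_lit 5) (nat_lit 329) (nat_lit 319) (nat_lit 252))))) (XT.nd (nat_lit 234) (nat_lit 228) (nat_lit 0) (XT.nd (nat_lit 78) (nat_lit 76) (nat_lit 0) (XT.lf (nat_lit 0) (nat_lit 53801048305) (nat_lit 228) (nat_lit 79840803117) (nat_lit 76) (nat_lit 5111201433) (nat_lit 18) (nat_lit 5) (nat_lit 21) (nat_lit 5) (nat_lit 19) (nat_lit 4) (nat_lit 330) (nat_lit 319) (nat_lit 251)) (XT.nd (nat_lit 78) (nat_lit 76) (nat_lit 0) (XT.lf (nat_lit 0) (nat_lit 88440657845) (nat_lit 228) (nat_lit 5367544334)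 (nat_lit 76) (nat_lit 57876069636) (nat_lit 18) (nat_lit 5) (nat_lit 21) (nat_lit 5) (nat_lit 19) (nat_lit 4) (nat_lit 331) (nat_lit 319) (nat_lit 250)) (XT.lf (nat_lit 0) (nat_lit 88120225429) (nat_lit 76) (nat_lit 43803885179) (nat_lit 152) (nat_lit 34083879028) (nat_lit 17) (nat_lit 5) (nat_lit 18) (nat_lit 5) (nat_lit 19) (nat_lit 4) (nat_lit 332) (nat_lit 319) (nat_lit 249)))) (XT.nd (nat_lit 78) (nat_lit 76) (nat_lit 0) (XT.lf (nat_lit 0) (nat_lit 1029341878) (nat_lit 152) (nat_lit 167802610925) (nat_lit 76) (nat_lit 13422148908) (nat_lit 15) (nat_lit 5) (nat_lit 17) (nat_lit 5) (nat_lit 16) (nat_lit 4) (nat_lit 333) (nat_lit 319) (nat_lit 248)) (XT.nd (nat_lit 78) (nat_lit 76) (nat_lit 0) (XT.lf (nat_lit 0) (nat_lit 44270275771) (nat_lit 152) (nat_lit 74835690375) (nat_lit 76) (nat_lit 80635168543) (nat_lit 15) (nat_lit 5) (nat_lit 17) (nat_lit 5) (nat_lit 16) (nat_lit 4) (nat_lit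 334) (nat_lit 319) (nat_lit 247)) (XT.lf (nat_lit 0) (nat_lit 35209457983) (nat_lit 76) (nat_lit 60245047487) (nat_lit 152) (nat_lit 124178144520) (nat_lit 14) (nat_lit 5) (nat_lit 15) (nat_lit 5) (nat_lit 16) (nat_lit 4) (nat_lit 335) (nat_lit 319) (nat_lit 246)))))) (XT.nd (nat_lit 390) (nat_lit 304) (nat_lit 0) (XT.nd (nat_lit 156) (nat_lit 152) (nat_lit 0) (XT.nd (nat_lit 78) (nat_lit 76) (nat_lit 0) (XT.lf (nat_lit 0) (nat_lit 158722027277) (nat_lit 152) (nat_lit 72245208239) (nat_lit 0) (nat_lit 10879809061) (nat_lit 14) (nat_lit 5) (nat_lit 16) (nat_lit 4) (nat_lit 14) (nat_lit 4) (nat_lit 336) (nat_lit 319) (nat_lit 245)) (XT.lf (nat_lit 0) (nat_lit 59155889442) (nat_lit 76) (nat_lit 177641450023) (nat_lit 76) (nat_lit 29798610129) (nat_lit 13) (nat_lit 4) (nat_lit 14) (nat_lit 5) (nat_lit 14) (nat_lit 4) (nat_lit 337) (nat_lit 319) (nat_lit 244))) (XT.nd (nat_lit 78) (nat_lit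 76) (nat_lit 0) (XT.lf (nat_lit 0) (nat_lit 32675652244) (nat_lit 152) (nat_lit 77590728157) (nat_lit 76) (nat_lit 184001648387) (nat_lit 12) (nat_lit 5) (nat_lit 14) (nat_lit 5) (nat_lit 13) (nat_lit 4) (nat_lit 338) (nat_lit 319) (nat_lit 243)) (XT.nd (nat_lit 78) (nat_lit 0) (nat_lit 0) (XT.lf (nat_lit 0) (nat_lit 77187722732) (nat_lit 76) (nat_lit 27478125311) (nat_lit 152) (nat_lit 220732884346) (nat_lit 11) (nat_lit 5) (nat_lit 12) (nat_lit 5) (nat_lit 13) (nat_lit 4) (nat_lit 339) (nat_lit 319) (nat_lit 242)) (XT.lf (nat_lit 0) (nat_lit 194507513462) (nat_lit 152) (nat_lit 99686299387) (nat_lit 0) (nat_lit 65947287962) (nat_lit 11) (nat_lit 5) (nat_lit 13) (nat_lit 4) (nat_lit 11) (nat_lit 4) (nat_lit 340) (nat_lit 319) (nat_lit 241))))) (XT.nd (nat_lit 234) (nat_lit 76) (nat_lit 0) (XT.nd (nat_lit 78) (nat_lit 152) (nat_lit 0) (XT.lf (nat_lit 0) (nat_lit 76629796274) (nat_lit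 76) (nat_lit 225676701370) (nat_lit 76) (nat_lit 97116166785) (nat_lit 10) (nat_lit 4) (nat_lit 11) (nat_lit 5) (nat_lit 11) (nat_lit 4) (nat_lit 341) (nat_lit 319) (nat_lit 240)) (XT.nd (nat_lit 78) (nat_lit 152) (nat_lit 0) (XT.lf (nat_lit 0) (nat_lit 290595776953) (nat_lit 76) (nat_lit 140889963771) (nat_lit 76) (nat_lit 12329160417) (nat_lit 10) (nat_lit 4) (nat_lit 11) (nat_lit 5) (nat_lit 11) (nat_lit 4) (nat_lit 342) (nat_lit 319) (nat_lit 239)) (XT.lf (nat_lit 0) (nat_lit 42002224837) (nat_lit 76) (nat_lit 37329524884) (nat_lit 152) (nat_lit 414744360958) (nat_lit 8) (nat_lit 5) (nat_lit 9) (nat_lit 5) (nat_lit 10) (nat_lit 4) (nat_lit 343) (nat_lit 319) (nat_lit 238)))) (XT.nd (nat_lit 78) (nat_lit 76) (nat_lit 0) (XT.lf (nat_lit 0) (nat_lit 195255393169) (nat_lit 152) (nat_lit 271303652704) (nat_lit 0) (nat_lit 83463010306) (nat_lit 8) (nat_lit 5) (nat_lit 10) (nat_lit 4) (nat_lit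 8) (nat_lit 4) (nat_lit 344) (nat_lit 319) (nat_lit 237)) (XT.nd (nat_lit 78) (nat_lit 76) (nat_lit 0) (XT.lf (nat_lit 0) (nat_lit 330344817326) (nat_lit 152) (nat_lit 65196210393) (nat_lit 0) (nat_lit 218552280794) (nat_lit 8) (nat_lit 5) (nat_lit 10) (nat_lit 4) (nat_lit 8) (nat_lit 4) (nat_lit 345) (nat_lit 319) (nat_lit 236)) (XT.lf (nat_lit 0) (nat_lit 188618870169) (nat_lit 76) (nat_lit 304888775138) (nat_lit 76) (nat_lit 193096104979) (nat_lit 7) (nat_lit 4) (nat_lit 8) (nat_lit 5) (nat_lit 8) (nat_lit 4) (nat_lit 346) (nat_lit 319) (nat_lit 235))))))))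
noncomputable def xc83 : XT := (XT.nd (nat_lit 1716) (nat_lit 76) (nat_lit 0) (XT.nd (nat_lit 858) (nat_lit 76) (nat_lit 0) (XT.nd (nat_lit 390) (nat_lit 152) (nat_lit 0) (XT.nd (nat_lit 156) (nat_lit 76) (nat_lit 0) (XT.nd (nat_lit 78) (nat_lit 76) (nat_lit 0) (XT.lf (nat_lit 0) (nat_lit 487832772415) (nat_lit 76) (nat_lit 196719809827) (nat_lit 76) (nat_lit 84927023473) (nat_lit 7) (nat_lit 4) (nat_lit 8) (nat_lit 5) (nat_lit 8) (nat_lit 4) (nat_lit 347) (nat_lit 319) (nat_lit 234)) (XT.lf (nat_lit 0) (nat_lit 35953485152) (nat_lit 152) (nat_lit 34492894317) (nat_lit 76) (nat_lit 794095361678) (nat_lit 6) (nat_lit 5) (nat_lit 8) (nat_lit 5) (nat_lit 7) (nat_lit 4) (nat_lit 348) (nat_lit 319) (nat_lit 233))) (XT.nd (nat_lit 78) (nat_lit 0) (nat_lit 0) (XT.lf (nat_lit 0) (nat_lit 181258978452) (nat_lit 152) (nat_lit 705701728601) (nat_lit 0) (nat_lit 84047695621) (nat_lit 5) (nat_lit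 5) (nat_lit 7) (nat_lit 4) (nat_lit 5) (nat_lit 4) (nat_lit 349) (nat_lit 319) (nat_lit 232)) (XT.nd (nat_lit 78) (nat_lit 0) (nat_lit 0) (XT.lf (nat_lit 0) (nat_lit 353603547135) (nat_lit 152) (nat_lit 482662830781) (nat_lit 0) (nat_lit 256392197869) (nat_lit 5) (nat_lit 5) (nat_lit 7) (nat_lit 4) (nat_lit 5) (nat_lit 4) (nat_lit 350) (nat_lit 319) (nat_lit 231)) (XT.lf (nat_lit 0) (nat_lit 551799597029) (nat_lit 152) (nat_lit 226168518505) (nat_lit 0) (nat_lit 454588189992) (nat_lit 5) (nat_lit 5) (nat_lit 7) (nat_lit 4) (nat_lit 5) (nat_lit 4) (nat_lit 351) (nat_lit 319) (nat_lit 230))))) (XT.nd (nat_lit 234) (nat_lit 76) (nat_lit 0) (XT.nd (nat_lit 78) (nat_lit 0) (nat_lit 0) (XT.lf (nat_lit 0) (nat_lit 75523170056) (nat_lit 76) (nat_lit 707328960298) (nat_lit 76) (nat_lit 610117503027) (nat_lit 4) (nat_lit 4) (nat_lit 5) (nat_lit 5) (nat_lit 5) (nat_lit 4) (nat_lit 352) (nat_lit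 319) (nat_lit 229)) (XT.nd (nat_lit 78) (nat_lit 0) (nat_lit 0) (XT.lf (nat_lit 0) (nat_lit 447886520468) (nat_lit 76) (nat_lit 612498299731) (nat_lit 76) (nat_lit 515286798777) (nat_lit 4) (nat_lit 4) (nat_lit 5) (nat_lit 5) (nat_lit 5) (nat_lit 4) (nat_lit 353) (nat_lit 319) (nat_lit 228)) (XT.lf (nat_lit 0) (nat_lit 876104070140) (nat_lit 76) (nat_lit 503443196628) (nat_lit 76) (nat_lit 406231657689) (nat_lit 4) (nat_lit 4) (nat_lit 5) (nat_lit 5) (nat_lit 5) (nat_lit 4) (nat_lit 354) (nat_lit 319) (nat_lit 227)))) (XT.nd (nat_lit 78) (nat_lit 76) (nat_lit 0) (XT.lf (nat_lit 0) (nat_lit 1368553988523) (nat_lit 76) (nat_lit 378029964188) (nat_lit 76) (nat_lit 280818392220) (nat_lit 4) (nat_lit 4) (nat_lit 5) (nat_lit 5) (nat_lit 5) (nat_lit 4) (nat_lit 355) (nat_lit 319) (nat_lit 226)) (XT.nd (nat_lit 78) (nat_lit 76) (nat_lit 0) (XT.lf (nat_lit 0) (nat_lit 1934871165323) (nat_lit 76)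 (nat_lit 233804865257) (nat_lit 76) (nat_lit 136593264567) (nat_lit 4) (nat_lit 4) (nat_lit 5) (nat_lit 5) (nat_lit 5) (nat_lit 4) (nat_lit 356) (nat_lit 319) (nat_lit 225)) (XT.lf (nat_lit 0) (nat_lit 26660102170) (nat_lit 152) (nat_lit 39892405999) (nat_lit 76) (nat_lit 2558082020798) (nat_lit 3) (nat_lit 5) (nat_lit 5) (nat_lit 5) (nat_lit 4) (nat_lit 4) (nat_lit 357) (nat_lit 319) (nat_lit 224)))))) (XT.nd (nat_lit 390) (nat_lit 0) (nat_lit 0) (XT.nd (nat_lit 156) (nat_lit 0) (nat_lit 0) (XT.nd (nat_lit 78) (nat_lit 0) (nat_lit 0) (XT.lf (nat_lit 0) (nat_lit 221824910026) (nat_lit 152) (nat_lit 2628599731248) (nat_lit 0) (nat_lit 137293042736) (nat_lit 2) (nat_lit 5) (nat_lit 4) (nat_lit 4) (nat_lit 2) (nat_lit 4) (nat_lit 358) (nat_lit 319) (nat_lit 223)) (XT.lf (nat_lit 0) (nat_lit 451618102877) (nat_lit 152) (nat_lit 2585755940707) (nat_lit 0) (nat_lit 367086219165) (nat_lit 2)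 (nat_lit 5) (nat_lit 4) (nat_lit 4) (nat_lit 2) (nat_lit 4) (nat_lit 359) (nat_lit 319) (nat_lit 222))) (XT.nd (nat_lit 78) (nat_lit 0) (nat_lit 0) (XT.lf (nat_lit 0) (nat_lit 715880198675) (nat_lit 152) (nat_lit 2536485740351) (nat_lit 0) (nat_lit 631348300683) (nat_lit 2) (nat_lit 5) (nat_lit 4) (nat_lit 4) (nat_lit 2) (nat_lit 4) (nat_lit 360) (nat_lit 319) (nat_lit 221)) (XT.nd (nat_lit 78) (nat_lit 0) (nat_lit 0) (XT.lf (nat_lit 0) (nat_lit 1019781542774) (nat_lit 152) (nat_lit 2479825147997) (nat_lit 0) (nat_lit 935249632365) (nat_lit 2) (nat_lit 5) (nat_lit 4) (nat_lit 4) (nat_lit 2) (nat_lit 4) (nat_lit 361) (nat_lit 319) (nat_lit 220)) (XT.lf (nat_lit 0) (nat_lit 1369268031036) (nat_lit 152) (nat_lit 2414665586839) (nat_lit 0) (nat_lit 1284736109829) (nat_lit 2) (nat_lit 5) (nat_lit 4) (nat_lit 4) (nat_lit 2) (nat_lit 4) (nat_lit 362) (nat_lit 319) (nat_lit 219))))) (XT.nd (nat_lit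 234) (nat_lit 0) (nat_lit 0) (XT.nd (nat_lit 78) (nat_lit 0) (nat_lit 0) (XT.lf (nat_lit 0) (nat_lit 1771177442578) (nat_lit 152) (nat_lit 2339732195899) (nat_lit 0) (nat_lit 1686645511982) (nat_lit 2) (nat_lit 5) (nat_lit 4) (nat_lit 4) (nat_lit 2) (nat_lit 4) (nat_lit 363) (nat_lit 319) (nat_lit 218)) (XT.nd (nat_lit 78) (nat_lit 0) (nat_lit 0) (XT.lf (nat_lit 0) (nat_lit 2233373222410) (nat_lit 152) (nat_lit 2253558887091) (nat_lit 0) (nat_lit 2148841283649) (nat_lit 2) (nat_lit 5) (nat_lit 4) (nat_lit 4) (nat_lit 2) (nat_lit 4) (nat_lit 364) (nat_lit 319) (nat_lit 217)) (XT.lf (nat_lit 0) (nat_lit 2764898331441) (nat_lit 152) (nat_lit 2154459660897) (nat_lit 0) (nat_lit 2680366385581) (nat_lit 2) (nat_lit 5) (nat_lit 4) (nat_lit 4) (nat_lit 2) (nat_lit 4) (nat_lit 365) (nat_lit 319) (nat_lit 216)))) (XT.nd (nat_lit 78) (nat_lit 0) (nat_lit 0) (XT.lf (nat_lit 0) (nat_lit 3376152173979)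 (nat_lit 152) (nat_lit 2040495619412) (nat_lit 0) (nat_lit 3291620221945) (nat_lit 2) (nat_lit 5) (nat_lit 4) (nat_lit 4) (nat_lit 2) (nat_lit 4) (nat_lit 366) (nat_lit 319) (nat_lit 215)) (XT.nd (nat_lit 78) (nat_lit 0) (nat_lit 0) (XT.lf (nat_lit 0) (nat_lit 4079094064334) (nat_lit 152) (nat_lit 1909437031389) (nat_lit 0) (nat_lit 3994562106931) (nat_lit 2) (nat_lit 5) (nat_lit 4) (nat_lit 4) (nat_lit 2) (nat_lit 4) (nat_lit 367) (nat_lit 319) (nat_lit 214)) (XT.lf (nat_lit 0) (nat_lit 4887477213403) (nat_lit 152) (nat_lit 1758719707064) (nat_lit 0) (nat_lit 4802945251333) (nat_lit 2) (nat_lit 5) (nat_lit 4) (nat_lit 4) (nat_lit 2) (nat_lit 4) (nat_lit 368) (nat_lit 319) (nat_lit 213))))))) (XT.nd (nat_lit 858) (nat_lit 0) (nat_lit 0) (XT.nd (nat_lit 390) (nat_lit 76) (nat_lit 0) (XT.nd (nat_lit 156) (nat_lit 0) (nat_lit 0) (XT.nd (nat_lit 78) (nat_lit 0) (nat_lit 0) (XT.lf (nat_lit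 0) (nat_lit 5817117813235) (nat_lit 152) (nat_lit 1585394829221) (nat_lit 0) (nat_lit 5732585847105) (nat_lit 2) (nat_lit 5) (nat_lit 4) (nat_lit 4) (nat_lit 2) (nat_lit 4) (nat_lit 369) (nat_lit 319) (nat_lit 212)) (XT.lf (nat_lit 0) (nat_lit 6886204484260) (nat_lit 152) (nat_lit 1386071258946) (nat_lit 0) (nat_lit 6801672514601) (nat_lit 2) (nat_lit 5) (nat_lit 4) (nat_lit 4) (nat_lit 2) (nat_lit 4) (nat_lit 370) (nat_lit 319) (nat_lit 211))) (XT.nd (nat_lit 78) (nat_lit 0) (nat_lit 0) (XT.lf (nat_lit 0) (nat_lit 8115654139608) (nat_lit 152) (nat_lit 1156849187255) (nat_lit 0) (nat_lit 8031122166879) (nat_lit 2) (nat_lit 5) (nat_lit 4) (nat_lit 4) (nat_lit 2) (nat_lit 4) (nat_lit 371) (nat_lit 319) (nat_lit 210)) (XT.nd (nat_lit 78) (nat_lit 0) (nat_lit 0) (XT.lf (nat_lit 0) (nat_lit 9529521229057) (nat_lit 152) (nat_lit 893243834485) (nat_lit 0) (nat_lit 9444989253659) (nat_lit 2)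 (nat_lit 5) (nat_lit 4) (nat_lit 4) (nat_lit 2) (nat_lit 4) (nat_lit 372) (nat_lit 319) (nat_lit 209)) (XT.lf (nat_lit 0) (nat_lit 11155468369574) (nat_lit 152) (nat_lit 590097704603) (nat_lit 0) (nat_lit 11070936391855) (nat_lit 2) (nat_lit 5) (nat_lit 4) (nat_lit 4) (nat_lit 2) (nat_lit 4) (nat_lit 373) (nat_lit 319) (nat_lit 208))))) (XT.nd (nat_lit 234) (nat_lit 0) (nat_lit 0) (XT.nd (nat_lit 78) (nat_lit 76) (nat_lit 0) (XT.lf (nat_lit 0) (nat_lit 13025307570430) (nat_lit 152) (nat_lit 241479677676) (nat_lit 0) (nat_lit 12940775590693) (nat_lit 2) (nat_lit 5) (nat_lit 4) (nat_lit 4) (nat_lit 2) (nat_lit 4) (nat_lit 374) (nat_lit 319) (nat_lit 207)) (XT.nd (nat_lit 78) (nat_lit 0) (nat_lit 0) (XT.lf (nat_lit 0) (nat_lit 175011793896) (nat_lit 76) (nat_lit 15007857713353) (nat_lit 76) (nat_lit 14923325731861) (nat_lit 1) (nat_lit 4) (nat_lit 2) (nat_lit 5) (nat_lit 2) (nat_lit 4) (nat_lit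 375) (nat_lit 319) (nat_lit 206)) (XT.lf (nat_lit 0) (nat_lit 681115990447) (nat_lit 76) (nat_lit 16995572536586) (nat_lit 76) (nat_lit 16911040553568) (nat_lit 1) (nat_lit 4) (nat_lit 2) (nat_lit 5) (nat_lit 2) (nat_lit 4) (nat_lit 376) (nat_lit 319) (nat_lit 205)))) (XT.nd (nat_lit 78) (nat_lit 0) (nat_lit 0) (XT.lf (nat_lit 0) (nat_lit 1263135800286) (nat_lit 76) (nat_lit 19281444591768) (nat_lit 76) (nat_lit 19196912607423) (nat_lit 1) (nat_lit 4) (nat_lit 2) (nat_lit 5) (nat_lit 2) (nat_lit 4) (nat_lit 377) (nat_lit 319) (nat_lit 204)) (XT.nd (nat_lit 78) (nat_lit 0) (nat_lit 0) (XT.lf (nat_lit 0) (nat_lit 1932458567517) (nat_lit 76) (nat_lit 21910197462588) (nat_lit 76) (nat_lit 21825665477089) (nat_lit 1) (nat_lit 4) (nat_lit 2) (nat_lit 5) (nat_lit 2) (nat_lit 4) (nat_lit 378) (nat_lit 319) (nat_lit 203)) (XT.lf (nat_lit 0) (nat_lit 2702179737587) (nat_lit 76) (nat_lit 24933263270430)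 (nat_lit 76) (nat_lit 24848731283928) (nat_lit 1) (nat_lit 4) (nat_lit 2) (nat_lit 5) (nat_lit 2) (nat_lit 4) (nat_lit 379) (nat_lit 319) (nat_lit 202)))))) (XT.nd (nat_lit 1950) (nat_lit 0) (nat_lit 0) (XT.nd (nat_lit 156) (nat_lit 0) (nat_lit 0) (XT.nd (nat_lit 78) (nat_lit 0) (nat_lit 0) (XT.lf (nat_lit 0) (nat_lit 3587359072519) (nat_lit 76) (nat_lit 28409788955014) (nat_lit 76) (nat_lit 28325256967640) (nat_lit 1) (nat_lit 4) (nat_lit 2) (nat_lit 5) (nat_lit 2) (nat_lit 4) (nat_lit 380) (nat_lit 319) (nat_lit 201)) (XT.lf (nat_lit 0) (nat_lit 4605315298432) (nat_lit 76) (nat_lit 32407793497126) (nat_lit 76) (nat_lit 32323261508993) (nat_lit 1) (nat_lit 4) (nat_lit 2) (nat_lit 5) (nat_lit 2) (nat_lit 4) (nat_lit 381) (nat_lit 319) (nat_lit 200))) (XT.nd (nat_lit 78) (nat_lit 0) (nat_lit 0) (XT.lf (nat_lit 0) (nat_lit 5775964950179) (nat_lit 76) (nat_lit 37005498724762) (nat_lit 76)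 (nat_lit 36920966735969) (nat_lit 1) (nat_lit 4) (nat_lit 2) (nat_lit 5) (nat_lit 2) (nat_lit 4) (nat_lit 382) (nat_lit 319) (nat_lit 199)) (XT.nd (nat_lit 1638) (nat_lit 0) (nat_lit 0) (XT.lf (nat_lit 0) (nat_lit 7122212042687) (nat_lit 76) (nat_lit 42292859740203) (nat_lit 76) (nat_lit 42208327750836) (nat_lit 1) (nat_lit 4) (nat_lit 2) (nat_lit 5) (nat_lit 2) (nat_lit 4) (nat_lit 383) (nat_lit 319) (nat_lit 198)) (XT.lf (nat_lit 0) (nat_lit 191062154634976) (nat_lit 76) (nat_lit 764713657532407) (nat_lit 76) (nat_lit 764629125539421) (nat_lit 1) (nat_lit 4) (nat_lit 2) (nat_lit 5) (nat_lit 2) (nat_lit 4) (nat_lit 404) (nat_lit 319) (nat_lit 177))))) (XT.nd (nat_lit 40326) (nat_lit 0) (nat_lit 1900) (XT.nd (nat_lit 78) (nat_lit 0) (nat_lit 0) (XT.lf (nat_lit 0) (nat_lit 220201330135681) (nat_lit 76) (nat_lit 879157242392263) (nat_lit 76) (nat_lit 879072710399248) (nat_lit 1) (nat_lit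 4) (nat_lit 2) (nat_lit 5) (nat_lit 2) (nat_lit 4) (nat_lit 405) (nat_lit 319) (nat_lit 176)) (XT.nd (nat_lit 40170) (nat_lit 0) (nat_lit 1900) (XT.lf (nat_lit 0) (nat_lit 253711381961214) (nat_lit 76) (nat_lit 1010767364981242) (nat_lit 76) (nat_lit 1010682832988207) (nat_lit 1) (nat_lit 4) (nat_lit 2) (nat_lit 5) (nat_lit 2) (nat_lit 4) (nat_lit 406) (nat_lit 319) (nat_lit 175)) (XT.lf (nat_lit 0) (nat_lit 7390707835) (nat_lit 380) (nat_lit 12926617377) (nat_lit 380) (nat_lit 12926617377) (nat_lit 26) (nat_lit 3) (nat_lit 31) (nat_lit 3) (nat_lit 31) (nat_lit 5) (nat_lit 320) (nat_lit 320) (nat_lit 260)))) (XT.nd (nat_lit 78) (nat_lit 0) (nat_lit 76) (XT.lf (nat_lit 76) (nat_lit 6735258312) (nat_lit 0) (nat_lit 9447228171) (nat_lit 380) (nat_lit 55248091151) (nat_lit 27) (nat_lit 5) (nat_lit 26) (nat_lit 3) (nat_lit 31) (nat_lit 5) (nat_lit 321) (nat_lit 320) (nat_lit 259)) (XT.nd (nat_lit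 78) (nat_lit 0) (nat_lit 0) (XT.lf (nat_lit 0) (nat_lit 20300975662) (nat_lit 304) (nat_lit 30954608518) (nat_lit 380) (nat_lit 25483006321) (nat_lit 27) (nat_lit 5) (nat_lit 31) (nat_lit 5) (nat_lit 32) (nat_lit 5) (nat_lit 322) (nat_lit 320) (nat_lit 258)) (XT.lf (nat_lit 76) (nat_lit 8118406502) (nat_lit 0) (nat_lit 17702743526) (nat_lit 380) (nat_lit 56904073024) (nat_lit 28) (nat_lit 5) (nat_lit 27) (nat_lit 5) (nat_lit 32) (nat_lit 5) (nat_lit 323) (nat_lit 320) (nat_lit 257))))))))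
noncomputable def xc84 : XT := (XT.nd (nat_lit 1638) (nat_lit 456) (nat_lit 0) (XT.nd (nat_lit 780) (nat_lit 684) (nat_lit 0) (XT.nd (nat_lit 390) (nat_lit 380) (nat_lit 0) (XT.nd (nat_lit 156) (nat_lit 152) (nat_lit 0) (XT.nd (nat_lit 78) (nat_lit 304) (nat_lit 0) (XT.lf (nat_lit 0) (nat_lit 34727305528) (nat_lit 304) (nat_lit 33779578833) (nat_lit 76) (nat_lit 20719276816) (nat_lit 28) (nat_lit 5) (nat_lit 32) (nat_lit 5) (nat_lit 29) (nat_lit 5) (nat_lit 324) (nat_lit 320) (nat_lit 256)) (XT.lf (nat_lit 0) (nat_lit 13531782369) (nat_lit 304) (nat_lit 32839260017) (nat_lit 380) (nat_lit 50120952353) (nat_lit 24) (nat_lit 5) (nat_lit 28) (nat_lit 5) (nat_lit 29) (nat_lit 5) (nat_lit 325) (nat_lit 320) (nat_lit 255))) (XT.nd (nat_lit 78) (nat_lit 152) (nat_lit 0) (XT.lf (nat_lit 0) (nat_lit 61948322316) (nat_lit 380) (nat_lit 33271182985) (nat_lit 76) (nat_lit 9300153628) (nat_lit 24)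 (nat_lit 5) (nat_lit 29) (nat_lit 5) (nat_lit 25) (nat_lit 5) (nat_lit 326) (nat_lit 320) (nat_lit 254)) (XT.nd (nat_lit 78) (nat_lit 0) (nat_lit 0) (XT.lf (nat_lit 0) (nat_lit 24485736930) (nat_lit 152) (nat_lit 57952824081) (nat_lit 228) (nat_lit 30926459310) (nat_lit 22) (nat_lit 5) (nat_lit 24) (nat_lit 5) (nat_lit 25) (nat_lit 5) (nat_lit 327) (nat_lit 320) (nat_lit 253)) (XT.lf (nat_lit 0) (nat_lit 94643914671) (nat_lit 152) (nat_lit 13096395059) (nat_lit 228) (nat_lit 15536182309) (nat_lit 22) (nat_lit 5) (nat_lit 24) (nat_lit 5) (nat_lit 25) (nat_lit 5) (nat_lit 328) (nat_lit 320) (nat_lit 252))))) (XT.nd (nat_lit 156) (nat_lit 228) (nat_lit 0) (XT.nd (nat_lit 78) (nat_lit 0) (nat_lit 0) (XT.lf (nat_lit 0) (nat_lit 5498421266) (nat_lit 152) (nat_lit 91546642574) (nat_lit 76) (nat_lit 37086942175) (nat_lit 20) (nat_lit 5) (nat_lit 22) (nat_lit 5) (nat_lit 21) (nat_lit 5) (nat_lit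 329) (nat_lit 320) (nat_lit 251)) (XT.lf (nat_lit 0) (nat_lit 30288195013) (nat_lit 152) (nat_lit 20123656302) (nat_lit 76) (nat_lit 95764436204) (nat_lit 20) (nat_lit 5) (nat_lit 22) (nat_lit 5) (nat_lit 21) (nat_lit 5) (nat_lit 330) (nat_lit 320) (nat_lit 250))) (XT.nd (nat_lit 78) (nat_lit 76) (nat_lit 0) (XT.lf (nat_lit 0) (nat_lit 61881637329) (nat_lit 228) (nat_lit 91800237653) (nat_lit 76) (nat_lit 5882557179) (nat_lit 18) (nat_lit 5) (nat_lit 21) (nat_lit 5) (nat_lit 19) (nat_lit 4) (nat_lit 331) (nat_lit 320) (nat_lit 249)) (XT.nd (nat_lit 78) (nat_lit 76) (nat_lit 0) (XT.lf (nat_lit 0) (nat_lit 101715827634) (nat_lit 228) (nat_lit 6158166478) (nat_lit 76) (nat_lit 66561545759) (nat_lit 18) (nat_lit 5) (nat_lit 21) (nat_lit 5) (nat_lit 19) (nat_lit 4) (nat_lit 332) (nat_lit 320) (nat_lit 248)) (XT.lf (nat_lit 0) (nat_lit 101352109227) (nat_lit 76) (nat_lit 50369079394) (nat_lit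 152) (nat_lit 39186719770) (nat_lit 17) (nat_lit 5) (nat_lit 18) (nat_lit 5) (nat_lit 19) (nat_lit 4) (nat_lit 333) (nat_lit 320) (nat_lit 247)))))) (XT.nd (nat_lit 390) (nat_lit 380) (nat_lit 0) (XT.nd (nat_lit 156) (nat_lit 152) (nat_lit 0) (XT.nd (nat_lit 78) (nat_lit 0) (nat_lit 0) (XT.lf (nat_lit 0) (nat_lit 1192280099) (nat_lit 152) (nat_lit 192957931375) (nat_lit 76) (nat_lit 15440717030) (nat_lit 15) (nat_lit 5) (nat_lit 17) (nat_lit 5) (nat_lit 16) (nat_lit 4) (nat_lit 334) (nat_lit 320) (nat_lit 246)) (XT.lf (nat_lit 0) (nat_lit 50918240562) (nat_lit 152) (nat_lit 86047938550) (nat_lit 76) (nat_lit 92735005377) (nat_lit 15) (nat_lit 5) (nat_lit 17) (nat_lit 5) (nat_lit 16) (nat_lit 4) (nat_lit 335) (nat_lit 320) (nat_lit 245))) (XT.nd (nat_lit 78) (nat_lit 76) (nat_lit 0) (XT.lf (nat_lit 0) (nat_lit 40503386363) (nat_lit 76) (nat_lit 69276268080) (nat_lit 152) (nat_lit 142796841082)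 (nat_lit 14) (nat_lit 5) (nat_lit 15) (nat_lit 5) (nat_lit 16) (nat_lit 4) (nat_lit 336) (nat_lit 320) (nat_lit 244)) (XT.nd (nat_lit 78) (nat_lit 76) (nat_lit 0) (XT.lf (nat_lit 0) (nat_lit 182536594332) (nat_lit 152) (nat_lit 83070396093) (nat_lit 0) (nat_lit 12516166186) (nat_lit 14) (nat_lit 5) (nat_lit 16) (nat_lit 4) (nat_lit 14) (nat_lit 4) (nat_lit 337) (nat_lit 320) (nat_lit 243)) (XT.lf (nat_lit 0) (nat_lit 68040339268) (nat_lit 76) (nat_lit 204282505408) (nat_lit 76) (nat_lit 34261607184) (nat_lit 13) (nat_lit 4) (nat_lit 14) (nat_lit 5) (nat_lit 14) (nat_lit 4) (nat_lit 338) (nat_lit 320) (nat_lit 242))))) (XT.nd (nat_lit 234) (nat_lit 228) (nat_lit 0) (XT.nd (nat_lit 78) (nat_lit 76) (nat_lit 0) (XT.lf (nat_lit 0) (nat_lit 37582382320) (nat_lit 152) (nat_lit 89219184999) (nat_lit 76) (nat_lit 211605855027) (nat_lit 12) (nat_lit 5) (nat_lit 14) (nat_lit 5) (nat_lit 13) (nat_lit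 4) (nat_lit 339) (nat_lit 320) (nat_lit 241)) (XT.nd (nat_lit 78) (nat_lit 0) (nat_lit 0) (XT.lf (nat_lit 0) (nat_lit 88775572052) (nat_lit 76) (nat_lit 31595234685) (nat_lit 152) (nat_lit 253836970309) (nat_lit 11) (nat_lit 5) (nat_lit 12) (nat_lit 5) (nat_lit 13) (nat_lit 4) (nat_lit 340) (nat_lit 320) (nat_lit 240)) (XT.lf (nat_lit 0) (nat_lit 223688225137) (nat_lit 152) (nat_lit 114630317995) (nat_lit 0) (nat_lit 75843032512) (nat_lit 11) (nat_lit 5) (nat_lit 13) (nat_lit 4) (nat_lit 11) (nat_lit 4) (nat_lit 341) (nat_lit 320) (nat_lit 239)))) (XT.nd (nat_lit 78) (nat_lit 152) (nat_lit 0) (XT.lf (nat_lit 0) (nat_lit 88132786275) (nat_lit 76) (nat_lit 259524025491) (nat_lit 76) (nat_lit 111678599155) (nat_lit 10) (nat_lit 4) (nat_lit 11) (nat_lit 5) (nat_lit 11) (nat_lit 4) (nat_lit 342) (nat_lit 320) (nat_lit 238)) (XT.nd (nat_lit 78) (nat_lit 152) (nat_lit 0) (XT.lf (nat_lit 0) (nat_lit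 334192552678) (nat_lit 76) (nat_lit 162019822611) (nat_lit 76) (nat_lit 14174193046) (nat_lit 10) (nat_lit 4) (nat_lit 11) (nat_lit 5) (nat_lit 11) (nat_lit 4) (nat_lit 343) (nat_lit 320) (nat_lit 237)) (XT.lf (nat_lit 0) (nat_lit 48310001525) (nat_lit 76) (nat_lit 42925257920) (nat_lit 152) (nat_lit 476951704265) (nat_lit 8) (nat_lit 5) (nat_lit 9) (nat_lit 5) (nat_lit 10) (nat_lit 4) (nat_lit 344) (nat_lit 320) (nat_lit 236))))))) (XT.nd (nat_lit 858) (nat_lit 152) (nat_lit 0) (XT.nd (nat_lit 390) (nat_lit 152) (nat_lit 0) (XT.nd (nat_lit 156) (nat_lit 152) (nat_lit 0) (XT.nd (nat_lit 78) (nat_lit 0) (nat_lit 0) (XT.lf (nat_lit 0) (nat_lit 224547093707) (nat_lit 152) (nat_lit 311992371477) (nat_lit 0) (nat_lit 95985389400) (nat_lit 8) (nat_lit 5) (nat_lit 10) (nat_lit 4) (nat_lit 8) (nat_lit 4) (nat_lit 345) (nat_lit 320) (nat_lit 235)) (XT.lf (nat_lit 0) (nat_lit 379899489110) (nat_lit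 152) (nat_lit 74969703576) (nat_lit 0) (nat_lit 251337668607) (nat_lit 8) (nat_lit 5) (nat_lit 10) (nat_lit 4) (nat_lit 8) (nat_lit 4) (nat_lit 346) (nat_lit 320) (nat_lit 234))) (XT.nd (nat_lit 78) (nat_lit 76) (nat_lit 0) (XT.lf (nat_lit 0) (nat_lit 216917369144) (nat_lit 76) (nat_lit 350619222185) (nat_lit 76) (nat_lit 222057300642) (nat_lit 7) (nat_lit 4) (nat_lit 8) (nat_lit 5) (nat_lit 8) (nat_lit 4) (nat_lit 347) (nat_lit 320) (nat_lit 233)) (XT.nd (nat_lit 78) (nat_lit 76) (nat_lit 0) (XT.lf (nat_lit 0) (nat_lit 561012617364) (nat_lit 76) (nat_lit 226225286325) (nat_lit 76) (nat_lit 97663276920) (nat_lit 7) (nat_lit 4) (nat_lit 8) (nat_lit 5) (nat_lit 8) (nat_lit 4) (nat_lit 348) (nat_lit 320) (nat_lit 232)) (XT.lf (nat_lit 0) (nat_lit 41348726004) (nat_lit 152) (nat_lit 39662324895) (nat_lit 76) (nat_lit 913211618067) (nat_lit 6) (nat_lit 5) (nat_lit 8) (nat_lit 5) (nat_lit 7)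 (nat_lit 4) (nat_lit 349) (nat_lit 320) (nat_lit 231))))) (XT.nd (nat_lit 234) (nat_lit 76) (nat_lit 0) (XT.nd (nat_lit 78) (nat_lit 0) (nat_lit 0) (XT.lf (nat_lit 0) (nat_lit 208450022762) (nat_lit 152) (nat_lit 811552463227) (nat_lit 0) (nat_lit 96656846900) (nat_lit 5) (nat_lit 5) (nat_lit 7) (nat_lit 4) (nat_lit 5) (nat_lit 4) (nat_lit 350) (nat_lit 320) (nat_lit 230)) (XT.nd (nat_lit 78) (nat_lit 0) (nat_lit 0) (XT.lf (nat_lit 0) (nat_lit 406645990111) (nat_lit 152) (nat_lit 555058320907) (nat_lit 0) (nat_lit 294852764014) (nat_lit 5) (nat_lit 5) (nat_lit 7) (nat_lit 4) (nat_lit 5) (nat_lit 4) (nat_lit 351) (nat_lit 320) (nat_lit 229)) (XT.lf (nat_lit 0) (nat_lit 634571198240) (nat_lit 152) (nat_lit 260090374984) (nat_lit 0) (nat_lit 522777928461) (nat_lit 5) (nat_lit 5) (nat_lit 7) (nat_lit 4) (nat_lit 5) (nat_lit 4) (nat_lit 352) (nat_lit 320) (nat_lit 228)))) (XT.nd (nat_lit 78)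 (nat_lit 0) (nat_lit 0) (XT.lf (nat_lit 0) (nat_lit 86854911347) (nat_lit 76) (nat_lit 813426618709) (nat_lit 76) (nat_lit 701633310945) (nat_lit 4) (nat_lit 4) (nat_lit 5) (nat_lit 5) (nat_lit 5) (nat_lit 4) (nat_lit 353) (nat_lit 320) (nat_lit 227)) (XT.nd (nat_lit 78) (nat_lit 0) (nat_lit 0) (XT.lf (nat_lit 0) (nat_lit 515072338349) (nat_lit 76) (nat_lit 704371578921) (nat_lit 76) (nat_lit 592578238128) (nat_lit 4) (nat_lit 4) (nat_lit 5) (nat_lit 5) (nat_lit 5) (nat_lit 4) (nat_lit 354) (nat_lit 320) (nat_lit 226)) (XT.lf (nat_lit 0) (nat_lit 1007522150062) (nat_lit 76) (nat_lit 578958401540) (nat_lit 76) (nat_lit 467165032024) (nat_lit 4) (nat_lit 4) (nat_lit 5) (nat_lit 5) (nat_lit 5) (nat_lit 4) (nat_lit 355) (nat_lit 320) (nat_lit 225)))))) (XT.nd (nat_lit 390) (nat_lit 0) (nat_lit 0) (XT.nd (nat_lit 156) (nat_lit 152) (nat_lit 0) (XT.nd (nat_lit 78) (nat_lit 0) (nat_lit 0) (XT.lf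 (nat_lit 0) (nat_lit 1573839234107) (nat_lit 76) (nat_lit 434733350485) (nat_lit 76) (nat_lit 322939955993) (nat_lit 4) (nat_lit 4) (nat_lit 5) (nat_lit 5) (nat_lit 5) (nat_lit 4) (nat_lit 356) (nat_lit 320) (nat_lit 224)) (XT.lf (nat_lit 0) (nat_lit 2225103707344) (nat_lit 76) (nat_lit 268874631279) (nat_lit 76) (nat_lit 157081215069) (nat_lit 4) (nat_lit 4) (nat_lit 5) (nat_lit 5) (nat_lit 5) (nat_lit 4) (nat_lit 357) (nat_lit 320) (nat_lit 223))) (XT.nd (nat_lit 78) (nat_lit 76) (nat_lit 0) (XT.lf (nat_lit 0) (nat_lit 30659940684) (nat_lit 152) (nat_lit 45874562622) (nat_lit 76) (nat_lit 2941795081370) (nat_lit 3) (nat_lit 5) (nat_lit 5) (nat_lit 5) (nat_lit 4) (nat_lit 4) (nat_lit 358) (nat_lit 320) (nat_lit 222)) (XT.nd (nat_lit 78) (nat_lit 0) (nat_lit 0) (XT.lf (nat_lit 0) (nat_lit 255099464642) (nat_lit 152) (nat_lit 3022887981443) (nat_lit 0) (nat_lit 157887767671) (nat_lit 2)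 (nat_lit 5) (nat_lit 4) (nat_lit 4) (nat_lit 2) (nat_lit 4) (nat_lit 359) (nat_lit 320) (nat_lit 221)) (XT.lf (nat_lit 0) (nat_lit 519361529710) (nat_lit 152) (nat_lit 2973617845299) (nat_lit 0) (nat_lit 422149820322) (nat_lit 2) (nat_lit 5) (nat_lit 4) (nat_lit 4) (nat_lit 2) (nat_lit 4) (nat_lit 360) (nat_lit 320) (nat_lit 220))))) (XT.nd (nat_lit 234) (nat_lit 0) (nat_lit 0) (XT.nd (nat_lit 78) (nat_lit 0) (nat_lit 0) (XT.lf (nat_lit 0) (nat_lit 823262847087) (nat_lit 152) (nat_lit 2916957308782) (nat_lit 0) (nat_lit 726051126902) (nat_lit 2) (nat_lit 5) (nat_lit 4) (nat_lit 4) (nat_lit 2) (nat_lit 4) (nat_lit 361) (nat_lit 320) (nat_lit 219)) (XT.nd (nat_lit 78) (nat_lit 0) (nat_lit 0) (XT.lf (nat_lit 0) (nat_lit 1172749312112) (nat_lit 152) (nat_lit 2851797796178) (nat_lit 0) (nat_lit 1075537582538) (nat_lit 2) (nat_lit 5) (nat_lit 4) (nat_lit 4) (nat_lit 2) (nat_lit 4) (nat_lit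 362) (nat_lit 320) (nat_lit 218)) (XT.lf (nat_lit 0) (nat_lit 1574658703449) (nat_lit 152) (nat_lit 2776864447458) (nat_lit 0) (nat_lit 1477446965710) (nat_lit 2) (nat_lit 5) (nat_lit 4) (nat_lit 4) (nat_lit 2) (nat_lit 4) (nat_lit 363) (nat_lit 320) (nat_lit 217)))) (XT.nd (nat_lit 78) (nat_lit 0) (nat_lit 0) (XT.lf (nat_lit 0) (nat_lit 2036854465711) (nat_lit 152) (nat_lit 2690691175364) (nat_lit 0) (nat_lit 1939642720872) (nat_lit 2) (nat_lit 5) (nat_lit 4) (nat_lit 4) (nat_lit 2) (nat_lit 4) (nat_lit 364) (nat_lit 320) (nat_lit 216)) (XT.nd (nat_lit 78) (nat_lit 0) (nat_lit 0) (XT.lf (nat_lit 0) (nat_lit 2568379559464) (nat_lit 152) (nat_lit 2591591981094) (nat_lit 0) (nat_lit 2471167808452) (nat_lit 2) (nat_lit 5) (nat_lit 4) (nat_lit 4) (nat_lit 2) (nat_lit 4) (nat_lit 365) (nat_lit 320) (nat_lit 215)) (XT.lf (nat_lit 0) (nat_lit 3179633388716) (nat_lit 152) (nat_lit 2477627967370)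 (nat_lit 0) (nat_lit 3082421632335) (nat_lit 2) (nat_lit 5) (nat_lit 4) (nat_lit 4) (nat_lit 2) (nat_lit 4) (nat_lit 366) (nat_lit 320) (nat_lit 214))))))))
noncomputable def xc85 : XT := (XT.nd (nat_lit 43524) (nat_lit 0) (nat_lit 532) (XT.nd (nat_lit 858) (nat_lit 0) (nat_lit 0) (XT.nd (nat_lit 390) (nat_lit 76) (nat_lit 0) (XT.nd (nat_lit 156) (nat_lit 0) (nat_lit 0) (XT.nd (nat_lit 78) (nat_lit 0) (nat_lit 0) (XT.lf (nat_lit 0) (nat_lit 3882575267518) (nat_lit 152) (nat_lit 2346569403488) (nat_lit 0) (nat_lit 3785363506469) (nat_lit 2) (nat_lit 5) (nat_lit 4) (nat_lit 4) (nat_lit 2) (nat_lit 4) (nat_lit 367) (nat_lit 320) (nat_lit 213)) (XT.lf (nat_lit 0) (nat_lit 4690958406542) (nat_lit 152) (nat_lit 2195852100154) (nat_lit 0) (nat_lit 4593746641434) (nat_lit 2) (nat_lit 5) (nat_lit 4) (nat_lit 4) (nat_lit 2) (nat_lit 4) (nat_lit 368) (nat_lit 320) (nat_lit 212))) (XT.nd (nat_lit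 78) (nat_lit 0) (nat_lit 0) (XT.lf (nat_lit 0) (nat_lit 5620598997638) (nat_lit 152) (nat_lit 2022527240564) (nat_lit 0) (nat_lit 5523387229000) (nat_lit 2) (nat_lit 5) (nat_lit 4) (nat_lit 4) (nat_lit 2) (nat_lit 4) (nat_lit 369) (nat_lit 320) (nat_lit 211)) (XT.nd (nat_lit 78) (nat_lit 0) (nat_lit 0) (XT.lf (nat_lit 0) (nat_lit 6689685661068) (nat_lit 152) (nat_lit 1823203686161) (nat_lit 0) (nat_lit 6592473889360) (nat_lit 2) (nat_lit 5) (nat_lit 4) (nat_lit 4) (nat_lit 2) (nat_lit 4) (nat_lit 370) (nat_lit 320) (nat_lit 210)) (XT.lf (nat_lit 0) (nat_lit 7919135309810) (nat_lit 152) (nat_lit 1593981628272) (nat_lit 0) (nat_lit 7821923535434) (nat_lit 2) (nat_lit 5) (nat_lit 4) (nat_lit 4) (nat_lit 2) (nat_lit 4) (nat_lit 371) (nat_lit 320) (nat_lit 209))))) (XT.nd (nat_lit 234) (nat_lit 76) (nat_lit 0) (XT.nd (nat_lit 78) (nat_lit 0) (nat_lit 0) (XT.lf (nat_lit 0) (nat_lit 9333002393515)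 (nat_lit 152) (nat_lit 1330376287503) (nat_lit 0) (nat_lit 9235790616818) (nat_lit 2) (nat_lit 5) (nat_lit 4) (nat_lit 4) (nat_lit 2) (nat_lit 4) (nat_lit 372) (nat_lit 320) (nat_lit 208)) (XT.nd (nat_lit 78) (nat_lit 0) (nat_lit 0) (XT.lf (nat_lit 0) (nat_lit 10958949529038) (nat_lit 152) (nat_lit 1027230168057) (nat_lit 0) (nat_lit 10861737750322) (nat_lit 2) (nat_lit 5) (nat_lit 4) (nat_lit 4) (nat_lit 2) (nat_lit 4) (nat_lit 373) (nat_lit 320) (nat_lit 207)) (XT.lf (nat_lit 0) (nat_lit 12828788725551) (nat_lit 152) (nat_lit 678612150206) (nat_lit 0) (nat_lit 12731576945081) (nat_lit 2) (nat_lit 5) (nat_lit 4) (nat_lit 4) (nat_lit 2) (nat_lit 4) (nat_lit 374) (nat_lit 320) (nat_lit 206)))) (XT.nd (nat_lit 78) (nat_lit 76) (nat_lit 0) (XT.lf (nat_lit 0) (nat_lit 14979103793422) (nat_lit 152) (nat_lit 277701446643) (nat_lit 0) (nat_lit 14881892011426) (nat_lit 2) (nat_lit 5) (nat_lit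 4) (nat_lit 4) (nat_lit 2) (nat_lit 4) (nat_lit 375) (nat_lit 320) (nat_lit 205)) (XT.nd (nat_lit 78) (nat_lit 0) (nat_lit 0) (XT.lf (nat_lit 0) (nat_lit 201263737361) (nat_lit 76) (nat_lit 17259036279219) (nat_lit 76) (nat_lit 17161824495896) (nat_lit 1) (nat_lit 4) (nat_lit 2) (nat_lit 5) (nat_lit 2) (nat_lit 4) (nat_lit 376) (nat_lit 320) (nat_lit 204)) (XT.lf (nat_lit 0) (nat_lit 783283540650) (nat_lit 76) (nat_lit 19544908337825) (nat_lit 76) (nat_lit 19447696553348) (nat_lit 1) (nat_lit 4) (nat_lit 2) (nat_lit 5) (nat_lit 2) (nat_lit 4) (nat_lit 377) (nat_lit 320) (nat_lit 203)))))) (XT.nd (nat_lit 390) (nat_lit 0) (nat_lit 0) (XT.nd (nat_lit 156) (nat_lit 0) (nat_lit 0) (XT.nd (nat_lit 78) (nat_lit 0) (nat_lit 0) (XT.lf (nat_lit 0) (nat_lit 1452606302185) (nat_lit 76) (nat_lit 22173661211621) (nat_lit 76) (nat_lit 22076449426141) (nat_lit 1) (nat_lit 4) (nat_lit 2) (nat_lit 5)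 (nat_lit 2) (nat_lit 4) (nat_lit 378) (nat_lit 320) (nat_lit 202)) (XT.lf (nat_lit 0) (nat_lit 2222327467303) (nat_lit 76) (nat_lit 25196727022052) (nat_lit 76) (nat_lit 25099515235699) (nat_lit 1) (nat_lit 4) (nat_lit 2) (nat_lit 5) (nat_lit 2) (nat_lit 4) (nat_lit 379) (nat_lit 320) (nat_lit 201))) (XT.nd (nat_lit 78) (nat_lit 0) (nat_lit 0) (XT.lf (nat_lit 0) (nat_lit 3107506797928) (nat_lit 76) (nat_lit 28673252708887) (nat_lit 76) (nat_lit 28576040921776) (nat_lit 1) (nat_lit 4) (nat_lit 2) (nat_lit 5) (nat_lit 2) (nat_lit 4) (nat_lit 380) (nat_lit 320) (nat_lit 200)) (XT.nd (nat_lit 78) (nat_lit 0) (nat_lit 0) (XT.lf (nat_lit 0) (nat_lit 4125463020095) (nat_lit 76) (nat_lit 32671257252956) (nat_lit 76) (nat_lit 32574045465185) (nat_lit 1) (nat_lit 4) (nat_lit 2) (nat_lit 5) (nat_lit 2) (nat_lit 4) (nat_lit 381) (nat_lit 320) (nat_lit 199)) (XT.lf (nat_lit 0) (nat_lit 5296112668586)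 (nat_lit 76) (nat_lit 37268962482294) (nat_lit 76) (nat_lit 37171750693949) (nat_lit 1) (nat_lit 4) (nat_lit 2) (nat_lit 5) (nat_lit 2) (nat_lit 4) (nat_lit 382) (nat_lit 320) (nat_lit 198))))) (XT.nd (nat_lit 42042) (nat_lit 0) (nat_lit 1900) (XT.nd (nat_lit 1638) (nat_lit 0) (nat_lit 0) (XT.lf (nat_lit 0) (nat_lit 6642359758262) (nat_lit 76) (nat_lit 42556323499215) (nat_lit 76) (nat_lit 42459111710371) (nat_lit 1) (nat_lit 4) (nat_lit 2) (nat_lit 5) (nat_lit 2) (nat_lit 4) (nat_lit 383) (nat_lit 320) (nat_lit 197)) (XT.nd (nat_lit 78) (nat_lit 0) (nat_lit 0) (XT.lf (nat_lit 0) (nat_lit 190582302332676) (nat_lit 76) (nat_lit 764977121300762) (nat_lit 76) (nat_lit 764879909508770) (nat_lit 1) (nat_lit 4) (nat_lit 2) (nat_lit 5) (nat_lit 2) (nat_lit 4) (nat_lit 404) (nat_lit 320) (nat_lit 176)) (XT.lf (nat_lit 0) (nat_lit 219721477833253) (nat_lit 76) (nat_lit 879420706160684) (nat_lit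 76) (nat_lit 879323494368668) (nat_lit 1) (nat_lit 4) (nat_lit 2) (nat_lit 5) (nat_lit 2) (nat_lit 4) (nat_lit 405) (nat_lit 320) (nat_lit 175)))) (XT.nd (nat_lit 78) (nat_lit 0) (nat_lit 0) (XT.lf (nat_lit 0) (nat_lit 8512323979) (nat_lit 380) (nat_lit 14858115238) (nat_lit 380) (nat_lit 14858115238) (nat_lit 26) (nat_lit 3) (nat_lit 31) (nat_lit 3) (nat_lit 31) (nat_lit 5) (nat_lit 321) (nat_lit 321) (nat_lit 258)) (XT.nd (nat_lit 78) (nat_lit 0) (nat_lit 76) (XT.lf (nat_lit 76) (nat_lit 7759855211) (nat_lit 0) (nat_lit 10873222748) (nat_lit 380) (nat_lit 63508554801) (nat_lit 27) (nat_lit 5) (nat_lit 26) (nat_lit 3) (nat_lit 31) (nat_lit 5) (nat_lit 322) (nat_lit 321) (nat_lit 257)) (XT.lf (nat_lit 0) (nat_lit 23365991179) (nat_lit 304) (nat_lit 35581966204) (nat_lit 380) (nat_lit 29298398931) (nat_lit 27) (nat_lit 5) (nat_lit 31) (nat_lit 5) (nat_lit 32) (nat_lit 5) (nat_lit 323)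 (nat_lit 321) (nat_lit 256))))))) (XT.nd (nat_lit 858) (nat_lit 684) (nat_lit 0) (XT.nd (nat_lit 390) (nat_lit 380) (nat_lit 0) (XT.nd (nat_lit 156) (nat_lit 380) (nat_lit 0) (XT.nd (nat_lit 78) (nat_lit 0) (nat_lit 76) (XT.lf (nat_lit 76) (nat_lit 9351281361) (nat_lit 0) (nat_lit 20360944544) (nat_lit 380) (nat_lit 65419058243) (nat_lit 28) (nat_lit 5) (nat_lit 27) (nat_lit 5) (nat_lit 32) (nat_lit 5) (nat_lit 324) (nat_lit 321) (nat_lit 255)) (XT.lf (nat_lit 0) (nat_lit 39951869066) (nat_lit 304) (nat_lit 38830905438) (nat_lit 76) (nat_lit 23824958643) (nat_lit 28) (nat_lit 5) (nat_lit 32) (nat_lit 5) (nat_lit 29) (nat_lit 5) (nat_lit 325) (nat_lit 321) (nat_lit 254))) (XT.nd (nat_lit 78) (nat_lit 152) (nat_lit 0) (XT.lf (nat_lit 0) (nat_lit 15576450389) (nat_lit 304) (nat_lit 37764315541) (nat_lit 380) (nat_lit 57622890072) (nat_lit 24) (nat_lit 5) (nat_lit 28) (nat_lit 5) (nat_lit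 29) (nat_lit 5) (nat_lit 326) (nat_lit 321) (nat_lit 253)) (XT.nd (nat_lit 78) (nat_lit 152) (nat_lit 0) (XT.lf (nat_lit 0) (nat_lit 71252833011) (nat_lit 380) (nat_lit 38247074259) (nat_lit 76) (nat_lit 10695836913) (nat_lit 24) (nat_lit 5) (nat_lit 29) (nat_lit 5) (nat_lit 25) (nat_lit 5) (nat_lit 327) (nat_lit 321) (nat_lit 252)) (XT.lf (nat_lit 0) (nat_lit 28172711545) (nat_lit 152) (nat_lit 66642880963) (nat_lit 228) (nat_lit 35552472687) (nat_lit 22) (nat_lit 5) (nat_lit 24) (nat_lit 5) (nat_lit 25) (nat_lit 5) (nat_lit 328) (nat_lit 321) (nat_lit 251))))) (XT.nd (nat_lit 234) (nat_lit 228) (nat_lit 0) (XT.nd (nat_lit 78) (nat_lit 152) (nat_lit 0) (XT.lf (nat_lit 0) (nat_lit 108852774981) (nat_lit 152) (nat_lit 15058361509) (nat_lit 228) (nat_lit 17855343987) (nat_lit 22) (nat_lit 5) (nat_lit 24) (nat_lit 5) (nat_lit 25) (nat_lit 5) (nat_lit 329) (nat_lit 321) (nat_lit 250)) (XT.nd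 (nat_lit 78) (nat_lit 0) (nat_lit 0) (XT.lf (nat_lit 0) (nat_lit 6332768029) (nat_lit 152) (nat_lit 105264653964) (nat_lit 76) (nat_lit 42652933533) (nat_lit 20) (nat_lit 5) (nat_lit 22) (nat_lit 5) (nat_lit 21) (nat_lit 5) (nat_lit 330) (nat_lit 321) (nat_lit 249)) (XT.lf (nat_lit 0) (nat_lit 34839757807) (nat_lit 152) (nat_lit 23130043882) (nat_lit 76) (nat_lit 110131666879) (nat_lit 20) (nat_lit 5) (nat_lit 22) (nat_lit 5) (nat_lit 21) (nat_lit 5) (nat_lit 331) (nat_lit 321) (nat_lit 248)))) (XT.nd (nat_lit 78) (nat_lit 76) (nat_lit 0) (XT.lf (nat_lit 0) (nat_lit 71171770852) (nat_lit 228) (nat_lit 105557656340) (nat_lit 76) (nat_lit 6768476128) (nat_lit 18) (nat_lit 5) (nat_lit 21) (nat_lit 5) (nat_lit 19) (nat_lit 4) (nat_lit 332) (nat_lit 321) (nat_lit 247)) (XT.nd (nat_lit 78) (nat_lit 76) (nat_lit 0) (XT.lf (nat_lit 0) (nat_lit 116980060843) (nat_lit 228) (nat_lit 7070920179)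 (nat_lit 76) (nat_lit 76548851860) (nat_lit 18) (nat_lit 5) (nat_lit 21) (nat_lit 5) (nat_lit 19) (nat_lit 4) (nat_lit 333) (nat_lit 321) (nat_lit 246)) (XT.lf (nat_lit 0) (nat_lit 116565398187) (nat_lit 76) (nat_lit 57920366777) (nat_lit 152) (nat_lit 45057362056) (nat_lit 17) (nat_lit 5) (nat_lit 18) (nat_lit 5) (nat_lit 19) (nat_lit 4) (nat_lit 334) (nat_lit 321) (nat_lit 245)))))) (XT.nd (nat_lit 390) (nat_lit 380) (nat_lit 0) (XT.nd (nat_lit 156) (nat_lit 152) (nat_lit 0) (XT.nd (nat_lit 78) (nat_lit 0) (nat_lit 0) (XT.lf (nat_lit 0) (nat_lit 1377577267) (nat_lit 152) (nat_lit 221890225098) (nat_lit 76) (nat_lit 17760791152) (nat_lit 15) (nat_lit 5) (nat_lit 17) (nat_lit 5) (nat_lit 16) (nat_lit 4) (nat_lit 335) (nat_lit 321) (nat_lit 244)) (XT.lf (nat_lit 0) (nat_lit 58561589823) (nat_lit 152) (nat_lit 98945219782) (nat_lit 76) (nat_lit 106648705373) (nat_lit 15) (nat_lit 5) (nat_lit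 17) (nat_lit 5) (nat_lit 16) (nat_lit 4) (nat_lit 336) (nat_lit 321) (nat_lit 243))) (XT.nd (nat_lit 78) (nat_lit 76) (nat_lit 0) (XT.lf (nat_lit 0) (nat_lit 46588353434) (nat_lit 76) (nat_lit 79663521879) (nat_lit 152) (nat_lit 164210299105) (nat_lit 14) (nat_lit 5) (nat_lit 15) (nat_lit 5) (nat_lit 16) (nat_lit 4) (nat_lit 337) (nat_lit 321) (nat_lit 242)) (XT.nd (nat_lit 78) (nat_lit 76) (nat_lit 0) (XT.lf (nat_lit 0) (nat_lit 209921819182) (nat_lit 152) (nat_lit 95522189245) (nat_lit 0) (nat_lit 14396907382) (nat_lit 14) (nat_lit 5) (nat_lit 16) (nat_lit 4) (nat_lit 14) (nat_lit 4) (nat_lit 338) (nat_lit 321) (nat_lit 241)) (XT.lf (nat_lit 0) (nat_lit 78254757955) (nat_lit 76) (nat_lit 234920977916) (nat_lit 76) (nat_lit 39395710670) (nat_lit 13) (nat_lit 4) (nat_lit 14) (nat_lit 5) (nat_lit 14) (nat_lit 4) (nat_lit 339) (nat_lit 321) (nat_lit 240))))) (XT.nd (nat_lit 234) (nat_lit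 228) (nat_lit 0) (XT.nd (nat_lit 78) (nat_lit 76) (nat_lit 0) (XT.lf (nat_lit 0) (nat_lit 43223809414) (nat_lit 152) (nat_lit 102594386090) (nat_lit 76) (nat_lit 243349727143) (nat_lit 12) (nat_lit 5) (nat_lit 14) (nat_lit 5) (nat_lit 13) (nat_lit 4) (nat_lit 340) (nat_lit 321) (nat_lit 239)) (XT.nd (nat_lit 78) (nat_lit 0) (nat_lit 0) (XT.lf (nat_lit 0) (nat_lit 102099235580) (nat_lit 76) (nat_lit 36331034503) (nat_lit 152) (nat_lit 291908094919) (nat_lit 11) (nat_lit 5) (nat_lit 12) (nat_lit 5) (nat_lit 13) (nat_lit 4) (nat_lit 341) (nat_lit 321) (nat_lit 238)) (XT.lf (nat_lit 0) (nat_lit 257244925566) (nat_lit 152) (nat_lit 131818116129) (nat_lit 0) (nat_lit 87222248339) (nat_lit 11) (nat_lit 5) (nat_lit 13) (nat_lit 4) (nat_lit 11) (nat_lit 4) (nat_lit 342) (nat_lit 321) (nat_lit 237)))) (XT.nd (nat_lit 78) (nat_lit 152) (nat_lit 0) (XT.lf (nat_lit 0) (nat_lit 101359146983) (nat_lit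 76) (nat_lit 298449467815) (nat_lit 76) (nat_lit 128426613868) (nat_lit 10) (nat_lit 4) (nat_lit 11) (nat_lit 5) (nat_lit 11) (nat_lit 4) (nat_lit 343) (nat_lit 321) (nat_lit 236)) (XT.nd (nat_lit 78) (nat_lit 152) (nat_lit 0) (XT.lf (nat_lit 0) (nat_lit 384327037986) (nat_lit 76) (nat_lit 186320046872) (nat_lit 76) (nat_lit 16297039256) (nat_lit 10) (nat_lit 4) (nat_lit 11) (nat_lit 5) (nat_lit 11) (nat_lit 4) (nat_lit 344) (nat_lit 321) (nat_lit 235)) (XT.lf (nat_lit 0) (nat_lit 55562129703) (nat_lit 76) (nat_lit 49361252131) (nat_lit 152) (nat_lit 548491200293) (nat_lit 8) (nat_lit 5) (nat_lit 9) (nat_lit 5) (nat_lit 10) (nat_lit 4) (nat_lit 345) (nat_lit 321) (nat_lit 234))))))))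
noncomputable def xc86 : XT := (XT.nd (nat_lit 1638) (nat_lit 76) (nat_lit 0) (XT.nd (nat_lit 780) (nat_lit 152) (nat_lit 0) (XT.nd (nat_lit 390) (nat_lit 152) (nat_lit 0) (XT.nd (nat_lit 156) (nat_lit 152) (nat_lit 0) (XT.nd (nat_lit 78) (nat_lit 0) (nat_lit 0) (XT.lf (nat_lit 0) (nat_lit 258231722272) (nat_lit 152) (nat_lit 358786063394) (nat_lit 0) (nat_lit 110385411456) (nat_lit 8) (nat_lit 5) (nat_lit 10) (nat_lit 4) (nat_lit 8) (nat_lit 4) (nat_lit 346) (nat_lit 321) (nat_lit 233)) (XT.lf (nat_lit 0) (nat_lit 436886642484) (nat_lit 152) (nat_lit 86210668847) (nat_lit 0) (nat_lit 289040243808) (nat_lit 8) (nat_lit 5) (nat_lit 10) (nat_lit 4) (nat_lit 8) (nat_lit 4) (nat_lit 347) (nat_lit 321) (nat_lit 232))) (XT.nd (nat_lit 78) (nat_lit 76) (nat_lit 0) (XT.lf (nat_lit 0) (nat_lit 249459260678) (nat_lit 76) (nat_lit 403209935969) (nat_lit 76) (nat_lit 255363460891) (nat_lit 7) (nat_lit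 4) (nat_lit 8) (nat_lit 5) (nat_lit 8) (nat_lit 4) (nat_lit 348) (nat_lit 321) (nat_lit 231)) (XT.nd (nat_lit 78) (nat_lit 76) (nat_lit 0) (XT.lf (nat_lit 0) (nat_lit 645168237066) (nat_lit 76) (nat_lit 260157192714) (nat_lit 76) (nat_lit 112310651201) (nat_lit 7) (nat_lit 4) (nat_lit 8) (nat_lit 5) (nat_lit 8) (nat_lit 4) (nat_lit 349) (nat_lit 321) (nat_lit 230)) (XT.lf (nat_lit 0) (nat_lit 47552712092) (nat_lit 152) (nat_lit 45608268284) (nat_lit 76) (nat_lit 1050194836874) (nat_lit 6) (nat_lit 5) (nat_lit 8) (nat_lit 5) (nat_lit 7) (nat_lit 4) (nat_lit 350) (nat_lit 321) (nat_lit 229))))) (XT.nd (nat_lit 156) (nat_lit 76) (nat_lit 0) (XT.nd (nat_lit 78) (nat_lit 0) (nat_lit 0) (XT.lf (nat_lit 0) (nat_lit 239719187833) (nat_lit 152) (nat_lit 933281911415) (nat_lit 0) (nat_lit 111156883905) (nat_lit 5) (nat_lit 5) (nat_lit 7) (nat_lit 4) (nat_lit 5) (nat_lit 4) (nat_lit 351) (nat_lit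 321) (nat_lit 228)) (XT.lf (nat_lit 0) (nat_lit 467644333547) (nat_lit 152) (nat_lit 638314094003) (nat_lit 0) (nat_lit 339081991634) (nat_lit 5) (nat_lit 5) (nat_lit 7) (nat_lit 4) (nat_lit 5) (nat_lit 4) (nat_lit 352) (nat_lit 321) (nat_lit 227))) (XT.nd (nat_lit 78) (nat_lit 76) (nat_lit 0) (XT.lf (nat_lit 0) (nat_lit 729758134428) (nat_lit 152) (nat_lit 299101344240) (nat_lit 0) (nat_lit 601195759485) (nat_lit 5) (nat_lit 5) (nat_lit 7) (nat_lit 4) (nat_lit 5) (nat_lit 4) (nat_lit 353) (nat_lit 321) (nat_lit 226)) (XT.nd (nat_lit 78) (nat_lit 0) (nat_lit 0) (XT.lf (nat_lit 0) (nat_lit 99885617450) (nat_lit 76) (nat_lit 935439336933) (nat_lit 76) (nat_lit 806876933268) (nat_lit 4) (nat_lit 4) (nat_lit 5) (nat_lit 5) (nat_lit 5) (nat_lit 4) (nat_lit 354) (nat_lit 321) (nat_lit 225)) (XT.lf (nat_lit 0) (nat_lit 592335336407) (nat_lit 76) (nat_lit 810026207428) (nat_lit 76) (nat_lit 681463778787)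 (nat_lit 4) (nat_lit 4) (nat_lit 5) (nat_lit 5) (nat_lit 5) (nat_lit 4) (nat_lit 355) (nat_lit 321) (nat_lit 224)))))) (XT.nd (nat_lit 390) (nat_lit 0) (nat_lit 0) (XT.nd (nat_lit 156) (nat_lit 152) (nat_lit 0) (XT.nd (nat_lit 78) (nat_lit 0) (nat_lit 0) (XT.lf (nat_lit 0) (nat_lit 1158652339794) (nat_lit 76) (nat_lit 665801198004) (nat_lit 76) (nat_lit 537238747645) (nat_lit 4) (nat_lit 4) (nat_lit 5) (nat_lit 5) (nat_lit 5) (nat_lit 4) (nat_lit 356) (nat_lit 321) (nat_lit 223)) (XT.lf (nat_lit 0) (nat_lit 1809916742894) (nat_lit 76) (nat_lit 499942514999) (nat_lit 76) (nat_lit 371380045755) (nat_lit 4) (nat_lit 4) (nat_lit 5) (nat_lit 5) (nat_lit 5) (nat_lit 4) (nat_lit 357) (nat_lit 321) (nat_lit 222))) (XT.nd (nat_lit 78) (nat_lit 152) (nat_lit 0) (XT.lf (nat_lit 0) (nat_lit 2558870675334) (nat_lit 76) (nat_lit 309205097224) (nat_lit 76) (nat_lit 180642611558) (nat_lit 4) (nat_lit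 4) (nat_lit 5) (nat_lit 5) (nat_lit 5) (nat_lit 4) (nat_lit 358) (nat_lit 321) (nat_lit 221)) (XT.nd (nat_lit 78) (nat_lit 76) (nat_lit 0) (XT.lf (nat_lit 0) (nat_lit 35259554236) (nat_lit 152) (nat_lit 52754458337) (nat_lit 76) (nat_lit 3383064916318) (nat_lit 3) (nat_lit 5) (nat_lit 5) (nat_lit 5) (nat_lit 4) (nat_lit 4) (nat_lit 359) (nat_lit 321) (nat_lit 220)) (XT.lf (nat_lit 0) (nat_lit 293365002949) (nat_lit 152) (nat_lit 3476319886038) (nat_lit 0) (nat_lit 181571513937) (nat_lit 2) (nat_lit 5) (nat_lit 4) (nat_lit 4) (nat_lit 2) (nat_lit 4) (nat_lit 360) (nat_lit 321) (nat_lit 219))))) (XT.nd (nat_lit 234) (nat_lit 0) (nat_lit 0) (XT.nd (nat_lit 78) (nat_lit 0) (nat_lit 0) (XT.lf (nat_lit 0) (nat_lit 597266297089) (nat_lit 152) (nat_lit 3419659398075) (nat_lit 0) (nat_lit 485472798689) (nat_lit 2) (nat_lit 5) (nat_lit 4) (nat_lit 4) (nat_lit 2) (nat_lit 4) (nat_lit 361) (nat_lit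 321) (nat_lit 218)) (XT.nd (nat_lit 78) (nat_lit 0) (nat_lit 0) (XT.lf (nat_lit 0) (nat_lit 946752741909) (nat_lit 152) (nat_lit 3354499927692) (nat_lit 0) (nat_lit 834959235344) (nat_lit 2) (nat_lit 5) (nat_lit 4) (nat_lit 4) (nat_lit 2) (nat_lit 4) (nat_lit 362) (nat_lit 321) (nat_lit 217)) (XT.lf (nat_lit 0) (nat_lit 1348662115676) (nat_lit 152) (nat_lit 3279566615685) (nat_lit 0) (nat_lit 1236868602011) (nat_lit 2) (nat_lit 5) (nat_lit 4) (nat_lit 4) (nat_lit 2) (nat_lit 4) (nat_lit 363) (nat_lit 321) (nat_lit 216)))) (XT.nd (nat_lit 78) (nat_lit 0) (nat_lit 0) (XT.lf (nat_lit 0) (nat_lit 1810857862659) (nat_lit 152) (nat_lit 3193393375516) (nat_lit 0) (nat_lit 1699064342821) (nat_lit 2) (nat_lit 5) (nat_lit 4) (nat_lit 4) (nat_lit 2) (nat_lit 4) (nat_lit 364) (nat_lit 321) (nat_lit 215)) (XT.nd (nat_lit 78) (nat_lit 0) (nat_lit 0) (XT.lf (nat_lit 0) (nat_lit 2342382943127) (nat_lit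 152) (nat_lit 3094294209007) (nat_lit 0) (nat_lit 2230589417920) (nat_lit 2) (nat_lit 5) (nat_lit 4) (nat_lit 4) (nat_lit 2) (nat_lit 4) (nat_lit 365) (nat_lit 321) (nat_lit 214)) (XT.lf (nat_lit 0) (nat_lit 2953636760826) (nat_lit 152) (nat_lit 2980330219423) (nat_lit 0) (nat_lit 2841843230952) (nat_lit 2) (nat_lit 5) (nat_lit 4) (nat_lit 4) (nat_lit 2) (nat_lit 4) (nat_lit 366) (nat_lit 321) (nat_lit 213))))))) (XT.nd (nat_lit 858) (nat_lit 0) (nat_lit 0) (XT.nd (nat_lit 390) (nat_lit 76) (nat_lit 0) (XT.nd (nat_lit 156) (nat_lit 0) (nat_lit 0) (XT.nd (nat_lit 78) (nat_lit 0) (nat_lit 0) (XT.lf (nat_lit 0) (nat_lit 3656578629582) (nat_lit 152) (nat_lit 2849271676531) (nat_lit 0) (nat_lit 3544785095649) (nat_lit 2) (nat_lit 5) (nat_lit 4) (nat_lit 4) (nat_lit 2) (nat_lit 4) (nat_lit 367) (nat_lit 321) (nat_lit 212)) (XT.lf (nat_lit 0) (nat_lit 4464961759871) (nat_lit 152) (nat_lit 2698554391451)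 (nat_lit 0) (nat_lit 4353168222407) (nat_lit 2) (nat_lit 5) (nat_lit 4) (nat_lit 4) (nat_lit 2) (nat_lit 4) (nat_lit 368) (nat_lit 321) (nat_lit 211))) (XT.nd (nat_lit 78) (nat_lit 0) (nat_lit 0) (XT.lf (nat_lit 0) (nat_lit 5394602343371) (nat_lit 152) (nat_lit 2525229547733) (nat_lit 0) (nat_lit 5282808802838) (nat_lit 2) (nat_lit 5) (nat_lit 4) (nat_lit 4) (nat_lit 2) (nat_lit 4) (nat_lit 369) (nat_lit 321) (nat_lit 210)) (XT.nd (nat_lit 78) (nat_lit 0) (nat_lit 0) (XT.lf (nat_lit 0) (nat_lit 6463689000195) (nat_lit 152) (nat_lit 2325906007132) (nat_lit 0) (nat_lit 6351895456993) (nat_lit 2) (nat_lit 5) (nat_lit 4) (nat_lit 4) (nat_lit 2) (nat_lit 4) (nat_lit 370) (nat_lit 321) (nat_lit 209)) (XT.lf (nat_lit 0) (nat_lit 7693138643194) (nat_lit 152) (nat_lit 2096683961245) (nat_lit 0) (nat_lit 7581345097671) (nat_lit 2) (nat_lit 5) (nat_lit 4) (nat_lit 4) (nat_lit 2) (nat_lit 4) (nat_lit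 371) (nat_lit 321) (nat_lit 208))))) (XT.nd (nat_lit 234) (nat_lit 76) (nat_lit 0) (XT.nd (nat_lit 78) (nat_lit 0) (nat_lit 0) (XT.lf (nat_lit 0) (nat_lit 9107005721905) (nat_lit 152) (nat_lit 1833078630913) (nat_lit 0) (nat_lit 8995212174364) (nat_lit 2) (nat_lit 5) (nat_lit 4) (nat_lit 4) (nat_lit 2) (nat_lit 4) (nat_lit 372) (nat_lit 321) (nat_lit 207)) (XT.nd (nat_lit 78) (nat_lit 0) (nat_lit 0) (XT.lf (nat_lit 0) (nat_lit 10732952853084) (nat_lit 152) (nat_lit 1529932520542) (nat_lit 0) (nat_lit 10621159303788) (nat_lit 2) (nat_lit 5) (nat_lit 4) (nat_lit 4) (nat_lit 2) (nat_lit 4) (nat_lit 373) (nat_lit 321) (nat_lit 206)) (XT.lf (nat_lit 0) (nat_lit 12602792045821) (nat_lit 152) (nat_lit 1181314510582) (nat_lit 0) (nat_lit 12490998494999) (nat_lit 2) (nat_lit 5) (nat_lit 4) (nat_lit 4) (nat_lit 2) (nat_lit 4) (nat_lit 374) (nat_lit 321) (nat_lit 205)))) (XT.nd (nat_lit 78) (nat_lit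 76) (nat_lit 0) (XT.lf (nat_lit 0) (nat_lit 14753107110408) (nat_lit 152) (nat_lit 780403813881) (nat_lit 0) (nat_lit 14641313558259) (nat_lit 2) (nat_lit 5) (nat_lit 4) (nat_lit 4) (nat_lit 2) (nat_lit 4) (nat_lit 375) (nat_lit 321) (nat_lit 204)) (XT.nd (nat_lit 78) (nat_lit 76) (nat_lit 0) (XT.lf (nat_lit 0) (nat_lit 17225969428543) (nat_lit 152) (nat_lit 319356525504) (nat_lit 0) (nat_lit 17114175875240) (nat_lit 2) (nat_lit 5) (nat_lit 4) (nat_lit 4) (nat_lit 2) (nat_lit 4) (nat_lit 376) (nat_lit 321) (nat_lit 203)) (XT.lf (nat_lit 0) (nat_lit 231453429822) (nat_lit 76) (nat_lit 19847891652190) (nat_lit 76) (nat_lit 19736098097884) (nat_lit 1) (nat_lit 4) (nat_lit 2) (nat_lit 5) (nat_lit 2) (nat_lit 4) (nat_lit 377) (nat_lit 321) (nat_lit 202)))))) (XT.nd (nat_lit 390) (nat_lit 0) (nat_lit 0) (XT.nd (nat_lit 156) (nat_lit 0) (nat_lit 0) (XT.nd (nat_lit 78) (nat_lit 0) (nat_lit 0)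 (XT.lf (nat_lit 0) (nat_lit 900776186405) (nat_lit 76) (nat_lit 22476644528575) (nat_lit 76) (nat_lit 22364850973397) (nat_lit 1) (nat_lit 4) (nat_lit 2) (nat_lit 5) (nat_lit 2) (nat_lit 4) (nat_lit 378) (nat_lit 321) (nat_lit 201)) (XT.lf (nat_lit 0) (nat_lit 1670497347216) (nat_lit 76) (nat_lit 25499710341257) (nat_lit 76) (nat_lit 25387916785320) (nat_lit 1) (nat_lit 4) (nat_lit 2) (nat_lit 5) (nat_lit 2) (nat_lit 4) (nat_lit 379) (nat_lit 321) (nat_lit 200))) (XT.nd (nat_lit 78) (nat_lit 0) (nat_lit 0) (XT.lf (nat_lit 0) (nat_lit 2555676674096) (nat_lit 76) (nat_lit 28976236030050) (nat_lit 76) (nat_lit 28864442473453) (nat_lit 1) (nat_lit 4) (nat_lit 2) (nat_lit 5) (nat_lit 2) (nat_lit 4) (nat_lit 380) (nat_lit 321) (nat_lit 199)) (XT.nd (nat_lit 78) (nat_lit 0) (nat_lit 0) (XT.lf (nat_lit 0) (nat_lit 3573632893007) (nat_lit 76) (nat_lit 32974240575820) (nat_lit 76) (nat_lit 32862447018649)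 (nat_lit 1) (nat_lit 4) (nat_lit 2) (nat_lit 5) (nat_lit 2) (nat_lit 4) (nat_lit 381) (nat_lit 321) (nat_lit 198)) (XT.lf (nat_lit 0) (nat_lit 4744282538666) (nat_lit 76) (nat_lit 37571945806638) (nat_lit 76) (nat_lit 37460152248969) (nat_lit 1) (nat_lit 4) (nat_lit 2) (nat_lit 5) (nat_lit 2) (nat_lit 4) (nat_lit 382) (nat_lit 321) (nat_lit 197))))) (XT.nd (nat_lit 42198) (nat_lit 0) (nat_lit 1900) (XT.nd (nat_lit 78) (nat_lit 0) (nat_lit 0) (XT.lf (nat_lit 0) (nat_lit 6090529625880) (nat_lit 76) (nat_lit 42859306824846) (nat_lit 76) (nat_lit 42747513266742) (nat_lit 1) (nat_lit 4) (nat_lit 2) (nat_lit 5) (nat_lit 2) (nat_lit 4) (nat_lit 383) (nat_lit 321) (nat_lit 196)) (XT.nd (nat_lit 42042) (nat_lit 0) (nat_lit 1900) (XT.lf (nat_lit 0) (nat_lit 7638713771572) (nat_lit 76) (nat_lit 48939771998191) (nat_lit 76) (nat_lit 48827978439710) (nat_lit 1) (nat_lit 4) (nat_lit 2) (nat_lit 5)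 (nat_lit 2) (nat_lit 4) (nat_lit 384) (nat_lit 321) (nat_lit 195)) (XT.lf (nat_lit 0) (nat_lit 9799009981) (nat_lit 380) (nat_lit 17081165419) (nat_lit 380) (nat_lit 17081165419) (nat_lit 26) (nat_lit 3) (nat_lit 31) (nat_lit 3) (nat_lit 31) (nat_lit 5) (nat_lit 322) (nat_lit 322) (nat_lit 256)))) (XT.nd (nat_lit 78) (nat_lit 0) (nat_lit 76) (XT.lf (nat_lit 76) (nat_lit 8934652511) (nat_lit 0) (nat_lit 12510943665) (nat_lit 380) (nat_lit 73014611161) (nat_lit 27) (nat_lit 5) (nat_lit 26) (nat_lit 3) (nat_lit 31) (nat_lit 5) (nat_lit 323) (nat_lit 322) (nat_lit 255)) (XT.nd (nat_lit 78) (nat_lit 0) (nat_lit 0) (XT.lf (nat_lit 0) (nat_lit 26885913802) (nat_lit 304) (nat_lit 40907288665) (nat_lit 380) (nat_lit 33687821652) (nat_lit 27) (nat_lit 5) (nat_lit 31) (nat_lit 5) (nat_lit 32) (nat_lit 5) (nat_lit 324) (nat_lit 322) (nat_lit 254)) (XT.lf (nat_lit 76) (nat_lit 10765401832) (nat_lit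 0) (nat_lit 23417195480) (nat_lit 380) (nat_lit 75216320960) (nat_lit 28) (nat_lit 5) (nat_lit 27) (nat_lit 5) (nat_lit 32) (nat_lit 5) (nat_lit 325) (nat_lit 322) (nat_lit 253))))))))
noncomputable def xc87 : XT := (XT.nd (nat_lit 1716) (nat_lit 456) (nat_lit 0) (XT.nd (nat_lit 858) (nat_lit 532) (nat_lit 0) (XT.nd (nat_lit 390) (nat_lit 532) (nat_lit 0) (XT.nd (nat_lit 156) (nat_lit 152) (nat_lit 0) (XT.nd (nat_lit 78) (nat_lit 304) (nat_lit 0) (XT.lf (nat_lit 0) (nat_lit 45956345236) (nat_lit 304) (nat_lit 44643737685) (nat_lit 76) (nat_lit 27397031593) (nat_lit 28) (nat_lit 5) (nat_lit 32) (nat_lit 5) (nat_lit 29) (nat_lit 5) (nat_lit 326) (nat_lit 322) (nat_lit 252)) (XT.lf (nat_lit 0) (nat_lit 17924184990) (nat_lit 304) (nat_lit 43428332643) (nat_lit 380) (nat_lit 66254070174) (nat_lit 24) (nat_lit 5) (nat_lit 28) (nat_lit 5) (nat_lit 29) (nat_lit 5) (nat_lit 327) (nat_lit 322)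 (nat_lit 251))) (XT.nd (nat_lit 78) (nat_lit 152) (nat_lit 0) (XT.lf (nat_lit 0) (nat_lit 81950030058) (nat_lit 380) (nat_lit 43972954926) (nat_lit 76) (nat_lit 12300711687) (nat_lit 24) (nat_lit 5) (nat_lit 29) (nat_lit 5) (nat_lit 25) (nat_lit 5) (nat_lit 328) (nat_lit 322) (nat_lit 250)) (XT.nd (nat_lit 78) (nat_lit 0) (nat_lit 0) (XT.lf (nat_lit 0) (nat_lit 32409290545) (nat_lit 152) (nat_lit 76637145446) (nat_lit 228) (nat_lit 40875547357) (nat_lit 22) (nat_lit 5) (nat_lit 24) (nat_lit 5) (nat_lit 25) (nat_lit 5) (nat_lit 329) (nat_lit 322) (nat_lit 249)) (XT.lf (nat_lit 0) (nat_lit 125189971461) (nat_lit 152) (nat_lit 17315230813) (nat_lit 228) (nat_lit 20525127121) (nat_lit 22) (nat_lit 5) (nat_lit 24) (nat_lit 5) (nat_lit 25) (nat_lit 5) (nat_lit 330) (nat_lit 322) (nat_lit 248))))) (XT.nd (nat_lit 234) (nat_lit 228) (nat_lit 0) (XT.nd (nat_lit 78) (nat_lit 152) (nat_lit 0) (XT.lf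 (nat_lit 0) (nat_lit 7289929791) (nat_lit 152) (nat_lit 121043777393) (nat_lit 76) (nat_lit 49053104210) (nat_lit 20) (nat_lit 5) (nat_lit 22) (nat_lit 5) (nat_lit 21) (nat_lit 5) (nat_lit 331) (nat_lit 322) (nat_lit 247)) (XT.nd (nat_lit 78) (nat_lit 152) (nat_lit 0) (XT.lf (nat_lit 0) (nat_lit 40072022833) (nat_lit 152) (nat_lit 26590355102) (nat_lit 76) (nat_lit 126653356604) (nat_lit 20) (nat_lit 5) (nat_lit 22) (nat_lit 5) (nat_lit 21) (nat_lit 5) (nat_lit 332) (nat_lit 322) (nat_lit 246)) (XT.lf (nat_lit 0) (nat_lit 81853500883) (nat_lit 228) (nat_lit 121381764555) (nat_lit 76) (nat_lit 7786420797) (nat_lit 18) (nat_lit 5) (nat_lit 21) (nat_lit 5) (nat_lit 19) (nat_lit 4) (nat_lit 333) (nat_lit 322) (nat_lit 245)))) (XT.nd (nat_lit 78) (nat_lit 228) (nat_lit 0) (XT.lf (nat_lit 0) (nat_lit 134532256407) (nat_lit 228) (nat_lit 8123262349) (nat_lit 76) (nat_lit 88033504204) (nat_lit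 18) (nat_lit 5) (nat_lit 21) (nat_lit 5) (nat_lit 19) (nat_lit 4) (nat_lit 334) (nat_lit 322) (nat_lit 244)) (XT.nd (nat_lit 78) (nat_lit 152) (nat_lit 0) (XT.lf (nat_lit 0) (nat_lit 134058126688) (nat_lit 76) (nat_lit 66605340866) (nat_lit 152) (nat_lit 51810396852) (nat_lit 17) (nat_lit 5) (nat_lit 18) (nat_lit 5) (nat_lit 19) (nat_lit 4) (nat_lit 335) (nat_lit 322) (nat_lit 243)) (XT.lf (nat_lit 0) (nat_lit 1589094880) (nat_lit 152) (nat_lit 255165141862) (nat_lit 76) (nat_lit 20427909120) (nat_lit 15) (nat_lit 5) (nat_lit 17) (nat_lit 5) (nat_lit 16) (nat_lit 4) (nat_lit 336) (nat_lit 322) (nat_lit 242)))))) (XT.nd (nat_lit 390) (nat_lit 304) (nat_lit 0) (XT.nd (nat_lit 156) (nat_lit 152) (nat_lit 0) (XT.nd (nat_lit 78) (nat_lit 76) (nat_lit 0) (XT.lf (nat_lit 0) (nat_lit 67350072664) (nat_lit 152) (nat_lit 113779509705) (nat_lit 76) (nat_lit 122648619261) (nat_lit 15) (nat_lit 5)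 (nat_lit 17) (nat_lit 5) (nat_lit 16) (nat_lit 4) (nat_lit 337) (nat_lit 322) (nat_lit 241)) (XT.lf (nat_lit 0) (nat_lit 53583758901) (nat_lit 76) (nat_lit 91609884632) (nat_lit 152) (nat_lit 188837255585) (nat_lit 14) (nat_lit 5) (nat_lit 15) (nat_lit 5) (nat_lit 16) (nat_lit 4) (nat_lit 338) (nat_lit 322) (nat_lit 240))) (XT.nd (nat_lit 78) (nat_lit 152) (nat_lit 0) (XT.lf (nat_lit 0) (nat_lit 241413672929) (nat_lit 152) (nat_lit 109843889078) (nat_lit 0) (nat_lit 16558951065) (nat_lit 14) (nat_lit 5) (nat_lit 16) (nat_lit 4) (nat_lit 14) (nat_lit 4) (nat_lit 339) (nat_lit 322) (nat_lit 239)) (XT.nd (nat_lit 78) (nat_lit 76) (nat_lit 0) (XT.lf (nat_lit 0) (nat_lit 89999298904) (nat_lit 76) (nat_lit 270156173145) (nat_lit 76) (nat_lit 45301182513) (nat_lit 13) (nat_lit 4) (nat_lit 14) (nat_lit 5) (nat_lit 14) (nat_lit 4) (nat_lit 340) (nat_lit 322) (nat_lit 238)) (XT.lf (nat_lit 0) (nat_lit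 49710458138) (nat_lit 152) (nat_lit 117977739346) (nat_lit 76) (nat_lit 279854450004) (nat_lit 12) (nat_lit 5) (nat_lit 14) (nat_lit 5) (nat_lit 13) (nat_lit 4) (nat_lit 341) (nat_lit 322) (nat_lit 237))))) (XT.nd (nat_lit 234) (nat_lit 152) (nat_lit 0) (XT.nd (nat_lit 78) (nat_lit 76) (nat_lit 0) (XT.lf (nat_lit 0) (nat_lit 117419661726) (nat_lit 76) (nat_lit 41778054226) (nat_lit 152) (nat_lit 335690966293) (nat_lit 11) (nat_lit 5) (nat_lit 12) (nat_lit 5) (nat_lit 13) (nat_lit 4) (nat_lit 342) (nat_lit 322) (nat_lit 236)) (XT.nd (nat_lit 78) (nat_lit 76) (nat_lit 0) (XT.lf (nat_lit 0) (nat_lit 295834285693) (nat_lit 152) (nat_lit 151585729907) (nat_lit 0) (nat_lit 100307673265) (nat_lit 11) (nat_lit 5) (nat_lit 13) (nat_lit 4) (nat_lit 11) (nat_lit 4) (nat_lit 343) (nat_lit 322) (nat_lit 235)) (XT.lf (nat_lit 0) (nat_lit 116567890688) (nat_lit 76) (nat_lit 343214497439) (nat_lit 76)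 (nat_lit 147687751385) (nat_lit 10) (nat_lit 4) (nat_lit 11) (nat_lit 5) (nat_lit 11) (nat_lit 4) (nat_lit 344) (nat_lit 322) (nat_lit 234)))) (XT.nd (nat_lit 78) (nat_lit 152) (nat_lit 0) (XT.lf (nat_lit 0) (nat_lit 441980329908) (nat_lit 76) (nat_lit 214265975165) (nat_lit 76) (nat_lit 18739112916) (nat_lit 10) (nat_lit 4) (nat_lit 11) (nat_lit 5) (nat_lit 11) (nat_lit 4) (nat_lit 345) (nat_lit 322) (nat_lit 233)) (XT.nd (nat_lit 78) (nat_lit 0) (nat_lit 0) (XT.lf (nat_lit 0) (nat_lit 63900704697) (nat_lit 76) (nat_lit 56763326924) (nat_lit 152) (nat_lit 630762415602) (nat_lit 8) (nat_lit 5) (nat_lit 9) (nat_lit 5) (nat_lit 10) (nat_lit 4) (nat_lit 346) (nat_lit 322) (nat_lit 232)) (XT.lf (nat_lit 0) (nat_lit 296968419750) (nat_lit 152) (nat_lit 412600068324) (nat_lit 0) (nat_lit 126944897010) (nat_lit 8) (nat_lit 5) (nat_lit 10) (nat_lit 4) (nat_lit 8) (nat_lit 4) (nat_lit 347) (nat_lit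 322) (nat_lit 231))))))) (XT.nd (nat_lit 858) (nat_lit 152) (nat_lit 0) (XT.nd (nat_lit 390) (nat_lit 76) (nat_lit 0) (XT.nd (nat_lit 156) (nat_lit 152) (nat_lit 0) (XT.nd (nat_lit 78) (nat_lit 76) (nat_lit 0) (XT.lf (nat_lit 0) (nat_lit 502421325063) (nat_lit 152) (nat_lit 99138873888) (nat_lit 0) (nat_lit 332397735888) (nat_lit 8) (nat_lit 5) (nat_lit 10) (nat_lit 4) (nat_lit 8) (nat_lit 4) (nat_lit 348) (nat_lit 322) (nat_lit 230)) (XT.lf (nat_lit 0) (nat_lit 286881390734) (nat_lit 76) (nat_lit 463689785877) (nat_lit 76) (nat_lit 293666138931) (nat_lit 7) (nat_lit 4) (nat_lit 8) (nat_lit 5) (nat_lit 8) (nat_lit 4) (nat_lit 349) (nat_lit 322) (nat_lit 229))) (XT.nd (nat_lit 78) (nat_lit 152) (nat_lit 0) (XT.lf (nat_lit 0) (nat_lit 741946290847) (nat_lit 76) (nat_lit 299179345110) (nat_lit 76) (nat_lit 129155647930) (nat_lit 7) (nat_lit 4) (nat_lit 8) (nat_lit 5) (nat_lit 8) (nat_lit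 4) (nat_lit 350) (nat_lit 322) (nat_lit 228)) (XT.nd (nat_lit 78) (nat_lit 76) (nat_lit 0) (XT.lf (nat_lit 0) (nat_lit 54686887100) (nat_lit 152) (nat_lit 52446933596) (nat_lit 76) (nat_lit 1207725178546) (nat_lit 6) (nat_lit 5) (nat_lit 8) (nat_lit 5) (nat_lit 7) (nat_lit 4) (nat_lit 351) (nat_lit 322) (nat_lit 227)) (XT.lf (nat_lit 0) (nat_lit 275678322459) (nat_lit 152) (nat_lit 1073271611136) (nat_lit 0) (nat_lit 127831558244) (nat_lit 5) (nat_lit 5) (nat_lit 7) (nat_lit 4) (nat_lit 5) (nat_lit 4) (nat_lit 352) (nat_lit 322) (nat_lit 226))))) (XT.nd (nat_lit 234) (nat_lit 0) (nat_lit 0) (XT.nd (nat_lit 78) (nat_lit 76) (nat_lit 0) (XT.lf (nat_lit 0) (nat_lit 537792076145) (nat_lit 152) (nat_lit 734058958546) (nat_lit 0) (nat_lit 389945283209) (nat_lit 5) (nat_lit 5) (nat_lit 7) (nat_lit 4) (nat_lit 5) (nat_lit 4) (nat_lit 353) (nat_lit 322) (nat_lit 225)) (XT.nd (nat_lit 78) (nat_lit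 76) (nat_lit 0) (XT.lf (nat_lit 0) (nat_lit 839222804650) (nat_lit 152) (nat_lit 343964589739) (nat_lit 0) (nat_lit 691375986737) (nat_lit 5) (nat_lit 5) (nat_lit 7) (nat_lit 4) (nat_lit 5) (nat_lit 4) (nat_lit 354) (nat_lit 322) (nat_lit 224)) (XT.lf (nat_lit 0) (nat_lit 114870327289) (nat_lit 76) (nat_lit 1075754273706) (nat_lit 76) (nat_lit 927907434076) (nat_lit 4) (nat_lit 4) (nat_lit 5) (nat_lit 5) (nat_lit 5) (nat_lit 4) (nat_lit 355) (nat_lit 322) (nat_lit 223)))) (XT.nd (nat_lit 78) (nat_lit 0) (nat_lit 0) (XT.lf (nat_lit 0) (nat_lit 681187260539) (nat_lit 76) (nat_lit 931529300484) (nat_lit 76) (nat_lit 783682441968) (nat_lit 4) (nat_lit 4) (nat_lit 5) (nat_lit 5) (nat_lit 5) (nat_lit 4) (nat_lit 356) (nat_lit 322) (nat_lit 222)) (XT.nd (nat_lit 78) (nat_lit 0) (nat_lit 0) (XT.lf (nat_lit 0) (nat_lit 1332451602651) (nat_lit 76) (nat_lit 765670648958) (nat_lit 76) (nat_lit 617823774021)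 (nat_lit 4) (nat_lit 4) (nat_lit 5) (nat_lit 5) (nat_lit 5) (nat_lit 4) (nat_lit 357) (nat_lit 322) (nat_lit 221)) (XT.lf (nat_lit 0) (nat_lit 2081405482057) (nat_lit 76) (nat_lit 574933258556) (nat_lit 76) (nat_lit 427086369339) (nat_lit 4) (nat_lit 4) (nat_lit 5) (nat_lit 5) (nat_lit 5) (nat_lit 4) (nat_lit 358) (nat_lit 322) (nat_lit 220)))))) (XT.nd (nat_lit 390) (nat_lit 0) (nat_lit 0) (XT.nd (nat_lit 156) (nat_lit 76) (nat_lit 0) (XT.nd (nat_lit 78) (nat_lit 76) (nat_lit 0) (XT.lf (nat_lit 0) (nat_lit 2942702344224) (nat_lit 76) (nat_lit 355585310771) (nat_lit 76) (nat_lit 207738409136) (nat_lit 4) (nat_lit 4) (nat_lit 5) (nat_lit 5) (nat_lit 5) (nat_lit 4) (nat_lit 359) (nat_lit 322) (nat_lit 219)) (XT.lf (nat_lit 0) (nat_lit 40548958032) (nat_lit 152) (nat_lit 60666652661) (nat_lit 76) (nat_lit 3890525086842) (nat_lit 3) (nat_lit 5) (nat_lit 5) (nat_lit 5) (nat_lit 4) (nat_lit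 4) (nat_lit 360) (nat_lit 322) (nat_lit 218))) (XT.nd (nat_lit 78) (nat_lit 0) (nat_lit 0) (XT.lf (nat_lit 0) (nat_lit 337370221149) (nat_lit 152) (nat_lit 3997766891536) (nat_lit 0) (nat_lit 208807680435) (nat_lit 2) (nat_lit 5) (nat_lit 4) (nat_lit 4) (nat_lit 2) (nat_lit 4) (nat_lit 361) (nat_lit 322) (nat_lit 217)) (XT.nd (nat_lit 78) (nat_lit 0) (nat_lit 0) (XT.lf (nat_lit 0) (nat_lit 686856648399) (nat_lit 152) (nat_lit 3932607457867) (nat_lit 0) (nat_lit 558294100585) (nat_lit 2) (nat_lit 5) (nat_lit 4) (nat_lit 4) (nat_lit 2) (nat_lit 4) (nat_lit 362) (nat_lit 322) (nat_lit 216)) (XT.lf (nat_lit 0) (nat_lit 1088766006887) (nat_lit 152) (nat_lit 3857674177785) (nat_lit 0) (nat_lit 960203452900) (nat_lit 2) (nat_lit 5) (nat_lit 4) (nat_lit 4) (nat_lit 2) (nat_lit 4) (nat_lit 363) (nat_lit 322) (nat_lit 215))))) (XT.nd (nat_lit 234) (nat_lit 0) (nat_lit 0) (XT.nd (nat_lit 78) (nat_lit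 0) (nat_lit 0) (XT.lf (nat_lit 0) (nat_lit 1550961740586) (nat_lit 152) (nat_lit 3771500965377) (nat_lit 0) (nat_lit 1422399181230) (nat_lit 2) (nat_lit 5) (nat_lit 4) (nat_lit 4) (nat_lit 2) (nat_lit 4) (nat_lit 364) (nat_lit 322) (nat_lit 214)) (XT.nd (nat_lit 78) (nat_lit 0) (nat_lit 0) (XT.lf (nat_lit 0) (nat_lit 2082486809500) (nat_lit 152) (nat_lit 3672401823008) (nat_lit 0) (nat_lit 1953924245477) (nat_lit 2) (nat_lit 5) (nat_lit 4) (nat_lit 4) (nat_lit 2) (nat_lit 4) (nat_lit 365) (nat_lit 322) (nat_lit 213)) (XT.lf (nat_lit 0) (nat_lit 2693740617154) (nat_lit 152) (nat_lit 3558437854414) (nat_lit 0) (nat_lit 2565178049071) (nat_lit 2) (nat_lit 5) (nat_lit 4) (nat_lit 4) (nat_lit 2) (nat_lit 4) (nat_lit 366) (nat_lit 322) (nat_lit 212)))) (XT.nd (nat_lit 78) (nat_lit 0) (nat_lit 0) (XT.lf (nat_lit 0) (nat_lit 3396682477175) (nat_lit 152) (nat_lit 3427379329776) (nat_lit 0) (nat_lit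 3268119905562) (nat_lit 2) (nat_lit 5) (nat_lit 4) (nat_lit 4) (nat_lit 2) (nat_lit 4) (nat_lit 367) (nat_lit 322) (nat_lit 211)) (XT.nd (nat_lit 78) (nat_lit 0) (nat_lit 0) (XT.lf (nat_lit 0) (nat_lit 4205065599868) (nat_lit 152) (nat_lit 3276662060567) (nat_lit 0) (nat_lit 4076503025185) (nat_lit 2) (nat_lit 5) (nat_lit 4) (nat_lit 4) (nat_lit 2) (nat_lit 4) (nat_lit 368) (nat_lit 322) (nat_lit 210)) (XT.lf (nat_lit 0) (nat_lit 5134706176763) (nat_lit 152) (nat_lit 3103337230652) (nat_lit 0) (nat_lit 5006143599412) (nat_lit 2) (nat_lit 5) (nat_lit 4) (nat_lit 4) (nat_lit 2) (nat_lit 4) (nat_lit 369) (nat_lit 322) (nat_lit 209))))))))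
noncomputable def xc88 : XT := (XT.nd (nat_lit 43680) (nat_lit 0) (nat_lit 456) (XT.nd (nat_lit 780) (nat_lit 0) (nat_lit 0) (XT.nd (nat_lit 390) (nat_lit 76) (nat_lit 0) (XT.nd (nat_lit 156) (nat_lit 0) (nat_lit 0) (XT.nd (nat_lit 78) (nat_lit 0) (nat_lit 0) (XT.lf (nat_lit 0) (nat_lit 6203792827843) (nat_lit 152) (nat_lit 2904013702053) (nat_lit 0) (nat_lit 6075230248171) (nat_lit 2) (nat_lit 5) (nat_lit 4) (nat_lit 4) (nat_lit 2) (nat_lit 4) (nat_lit 370) (nat_lit 322) (nat_lit 208)) (XT.lf (nat_lit 0) (nat_lit 7433242465847) (nat_lit 152) (nat_lit 2674791666602) (nat_lit 0) (nat_lit 7304679884157) (nat_lit 2) (nat_lit 5) (nat_lit 4) (nat_lit 4) (nat_lit 2) (nat_lit 4) (nat_lit 371) (nat_lit 322) (nat_lit 207))) (XT.nd (nat_lit 78) (nat_lit 0) (nat_lit 0) (XT.lf (nat_lit 0) (nat_lit 8847109540215) (nat_lit 152) (nat_lit 2411186345345) (nat_lit 0) (nat_lit 8718546956770) (nat_lit 2)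 (nat_lit 5) (nat_lit 4) (nat_lit 4) (nat_lit 2) (nat_lit 4) (nat_lit 372) (nat_lit 322) (nat_lit 206)) (XT.nd (nat_lit 78) (nat_lit 0) (nat_lit 0) (XT.lf (nat_lit 0) (nat_lit 10473056667618) (nat_lit 152) (nat_lit 2108040242865) (nat_lit 0) (nat_lit 10344494082647) (nat_lit 2) (nat_lit 5) (nat_lit 4) (nat_lit 4) (nat_lit 2) (nat_lit 4) (nat_lit 373) (nat_lit 322) (nat_lit 205)) (XT.lf (nat_lit 0) (nat_lit 12342895857071) (nat_lit 152) (nat_lit 1759422239767) (nat_lit 0) (nat_lit 12214333270773) (nat_lit 2) (nat_lit 5) (nat_lit 4) (nat_lit 4) (nat_lit 2) (nat_lit 4) (nat_lit 374) (nat_lit 322) (nat_lit 204))))) (XT.nd (nat_lit 156) (nat_lit 76) (nat_lit 0) (XT.nd (nat_lit 78) (nat_lit 0) (nat_lit 0) (XT.lf (nat_lit 0) (nat_lit 14493210918802) (nat_lit 152) (nat_lit 1358511549033) (nat_lit 0) (nat_lit 14364648331350) (nat_lit 2) (nat_lit 5) (nat_lit 4) (nat_lit 4) (nat_lit 2) (nat_lit 4)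 (nat_lit 375) (nat_lit 322) (nat_lit 203)) (XT.lf (nat_lit 0) (nat_lit 16966073234454) (nat_lit 152) (nat_lit 897464265845) (nat_lit 0) (nat_lit 16837510645999) (nat_lit 2) (nat_lit 5) (nat_lit 4) (nat_lit 4) (nat_lit 2) (nat_lit 4) (nat_lit 376) (nat_lit 322) (nat_lit 202))) (XT.nd (nat_lit 78) (nat_lit 76) (nat_lit 0) (XT.lf (nat_lit 0) (nat_lit 19809864892811) (nat_lit 152) (nat_lit 367259899879) (nat_lit 0) (nat_lit 19681302303484) (nat_lit 2) (nat_lit 5) (nat_lit 4) (nat_lit 4) (nat_lit 2) (nat_lit 4) (nat_lit 377) (nat_lit 322) (nat_lit 201)) (XT.nd (nat_lit 78) (nat_lit 0) (nat_lit 0) (XT.lf (nat_lit 0) (nat_lit 266171543998) (nat_lit 76) (nat_lit 22825075347912) (nat_lit 76) (nat_lit 22696512757825) (nat_lit 1) (nat_lit 4) (nat_lit 2) (nat_lit 5) (nat_lit 2) (nat_lit 4) (nat_lit 378) (nat_lit 322) (nat_lit 200)) (XT.lf (nat_lit 0) (nat_lit 1035892701064) (nat_lit 76) (nat_lit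 25848141162551) (nat_lit 76) (nat_lit 25719578571805) (nat_lit 1) (nat_lit 4) (nat_lit 2) (nat_lit 5) (nat_lit 2) (nat_lit 4) (nat_lit 379) (nat_lit 322) (nat_lit 199)))))) (XT.nd (nat_lit 42432) (nat_lit 0) (nat_lit 1748) (XT.nd (nat_lit 156) (nat_lit 0) (nat_lit 0) (XT.nd (nat_lit 78) (nat_lit 0) (nat_lit 0) (XT.lf (nat_lit 0) (nat_lit 1921072024688) (nat_lit 76) (nat_lit 29324666853045) (nat_lit 76) (nat_lit 29196104261725) (nat_lit 1) (nat_lit 4) (nat_lit 2) (nat_lit 5) (nat_lit 2) (nat_lit 4) (nat_lit 380) (nat_lit 322) (nat_lit 198)) (XT.lf (nat_lit 0) (nat_lit 2939028240767) (nat_lit 76) (nat_lit 33322671400296) (nat_lit 76) (nat_lit 33194108808477) (nat_lit 1) (nat_lit 4) (nat_lit 2) (nat_lit 5) (nat_lit 2) (nat_lit 4) (nat_lit 381) (nat_lit 322) (nat_lit 197))) (XT.nd (nat_lit 78) (nat_lit 0) (nat_lit 0) (XT.lf (nat_lit 0) (nat_lit 4109677883963) (nat_lit 76) (nat_lit 37920376632401)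 (nat_lit 76) (nat_lit 37791814040148) (nat_lit 1) (nat_lit 4) (nat_lit 2) (nat_lit 5) (nat_lit 2) (nat_lit 4) (nat_lit 382) (nat_lit 322) (nat_lit 196)) (XT.nd (nat_lit 78) (nat_lit 0) (nat_lit 0) (XT.lf (nat_lit 0) (nat_lit 5455924969036) (nat_lit 76) (nat_lit 43207737651727) (nat_lit 76) (nat_lit 43079175059098) (nat_lit 1) (nat_lit 4) (nat_lit 2) (nat_lit 5) (nat_lit 2) (nat_lit 4) (nat_lit 383) (nat_lit 322) (nat_lit 195)) (XT.lf (nat_lit 0) (nat_lit 7004109112866) (nat_lit 76) (nat_lit 49288202826045) (nat_lit 76) (nat_lit 49159640233087) (nat_lit 1) (nat_lit 4) (nat_lit 2) (nat_lit 5) (nat_lit 2) (nat_lit 4) (nat_lit 384) (nat_lit 322) (nat_lit 194))))) (XT.nd (nat_lit 234) (nat_lit 152) (nat_lit 0) (XT.nd (nat_lit 78) (nat_lit 0) (nat_lit 0) (XT.lf (nat_lit 0) (nat_lit 11276299970) (nat_lit 380) (nat_lit 19639055086) (nat_lit 380) (nat_lit 19639055086) (nat_lit 26) (nat_lit 3)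 (nat_lit 31) (nat_lit 3) (nat_lit 31) (nat_lit 5) (nat_lit 323) (nat_lit 323) (nat_lit 254)) (XT.nd (nat_lit 78) (nat_lit 0) (nat_lit 76) (XT.lf (nat_lit 76) (nat_lit 10283031120) (nat_lit 0) (nat_lit 14392679737) (nat_lit 380) (nat_lit 83951508423) (nat_lit 27) (nat_lit 5) (nat_lit 26) (nat_lit 3) (nat_lit 31) (nat_lit 5) (nat_lit 324) (nat_lit 323) (nat_lit 253)) (XT.lf (nat_lit 0) (nat_lit 30930161135) (nat_lit 304) (nat_lit 47034329057) (nat_lit 380) (nat_lit 38736959272) (nat_lit 27) (nat_lit 5) (nat_lit 31) (nat_lit 5) (nat_lit 32) (nat_lit 5) (nat_lit 325) (nat_lit 323) (nat_lit 252)))) (XT.nd (nat_lit 78) (nat_lit 228) (nat_lit 0) (XT.lf (nat_lit 76) (nat_lit 12388853518) (nat_lit 0) (nat_lit 26931369701) (nat_lit 380) (nat_lit 86486976273) (nat_lit 28) (nat_lit 5) (nat_lit 27) (nat_lit 5) (nat_lit 32) (nat_lit 5) (nat_lit 326) (nat_lit 323) (nat_lit 251)) (XT.nd (nat_lit 78)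 (nat_lit 304) (nat_lit 0) (XT.lf (nat_lit 0) (nat_lit 52858640734) (nat_lit 304) (nat_lit 51331373144) (nat_lit 76) (nat_lit 31505322931) (nat_lit 28) (nat_lit 5) (nat_lit 32) (nat_lit 5) (nat_lit 29) (nat_lit 5) (nat_lit 327) (nat_lit 323) (nat_lit 250)) (XT.lf (nat_lit 0) (nat_lit 20621332242) (nat_lit 304) (nat_lit 49942105995) (nat_lit 380) (nat_lit 76182915362) (nat_lit 24) (nat_lit 5) (nat_lit 28) (nat_lit 5) (nat_lit 29) (nat_lit 5) (nat_lit 328) (nat_lit 323) (nat_lit 249))))))) (XT.nd (nat_lit 858) (nat_lit 532) (nat_lit 0) (XT.nd (nat_lit 390) (nat_lit 456) (nat_lit 0) (XT.nd (nat_lit 156) (nat_lit 152) (nat_lit 0) (XT.nd (nat_lit 78) (nat_lit 152) (nat_lit 0) (XT.lf (nat_lit 0) (nat_lit 94249545603) (nat_lit 380) (nat_lit 50560444122) (nat_lit 76) (nat_lit 14146195935) (nat_lit 24) (nat_lit 5) (nat_lit 29) (nat_lit 5) (nat_lit 25) (nat_lit 5) (nat_lit 329) (nat_lit 323) (nat_lit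 248)) (XT.lf (nat_lit 0) (nat_lit 37278753895) (nat_lit 152) (nat_lit 88131078201) (nat_lit 228) (nat_lit 46999472100) (nat_lit 22) (nat_lit 5) (nat_lit 24) (nat_lit 5) (nat_lit 25) (nat_lit 5) (nat_lit 330) (nat_lit 323) (nat_lit 247))) (XT.nd (nat_lit 78) (nat_lit 152) (nat_lit 0) (XT.lf (nat_lit 0) (nat_lit 143975484370) (nat_lit 152) (nat_lit 19911090163) (nat_lit 228) (nat_lit 23597455006) (nat_lit 22) (nat_lit 5) (nat_lit 24) (nat_lit 5) (nat_lit 25) (nat_lit 5) (nat_lit 331) (nat_lit 323) (nat_lit 246)) (XT.nd (nat_lit 78) (nat_lit 0) (nat_lit 0) (XT.lf (nat_lit 0) (nat_lit 8388898698) (nat_lit 152) (nat_lit 139192348035) (nat_lit 76) (nat_lit 56412756531) (nat_lit 20) (nat_lit 5) (nat_lit 22) (nat_lit 5) (nat_lit 21) (nat_lit 5) (nat_lit 332) (nat_lit 323) (nat_lit 245)) (XT.lf (nat_lit 0) (nat_lit 46087590987) (nat_lit 152) (nat_lit 30571955353) (nat_lit 76) (nat_lit 145652826782)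 (nat_lit 20) (nat_lit 5) (nat_lit 22) (nat_lit 5) (nat_lit 21) (nat_lit 5) (nat_lit 333) (nat_lit 323) (nat_lit 244))))) (XT.nd (nat_lit 234) (nat_lit 228) (nat_lit 0) (XT.nd (nat_lit 78) (nat_lit 76) (nat_lit 0) (XT.lf (nat_lit 0) (nat_lit 94136035961) (nat_lit 228) (nat_lit 139581815450) (nat_lit 76) (nat_lit 8956405277) (nat_lit 18) (nat_lit 5) (nat_lit 21) (nat_lit 5) (nat_lit 19) (nat_lit 4) (nat_lit 334) (nat_lit 323) (nat_lit 243)) (XT.nd (nat_lit 78) (nat_lit 76) (nat_lit 0) (XT.lf (nat_lit 0) (nat_lit 154716016560) (nat_lit 228) (nat_lit 9335478842) (nat_lit 76) (nat_lit 101240287540) (nat_lit 18) (nat_lit 5) (nat_lit 21) (nat_lit 5) (nat_lit 19) (nat_lit 4) (nat_lit 335) (nat_lit 323) (nat_lit 242)) (XT.lf (nat_lit 0) (nat_lit 154172833421) (nat_lit 76) (nat_lit 76593812373) (nat_lit 152) (nat_lit 59577745028) (nat_lit 17) (nat_lit 5) (nat_lit 18) (nat_lit 5) (nat_lit 19) (nat_lit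 4) (nat_lit 336) (nat_lit 323) (nat_lit 241)))) (XT.nd (nat_lit 78) (nat_lit 76) (nat_lit 0) (XT.lf (nat_lit 0) (nat_lit 1831149866) (nat_lit 152) (nat_lit 293433397451) (nat_lit 76) (nat_lit 23494363386) (nat_lit 15) (nat_lit 5) (nat_lit 17) (nat_lit 5) (nat_lit 16) (nat_lit 4) (nat_lit 337) (nat_lit 323) (nat_lit 240)) (XT.nd (nat_lit 78) (nat_lit 76) (nat_lit 0) (XT.lf (nat_lit 0) (nat_lit 77455792915) (nat_lit 152) (nat_lit 130840770343) (nat_lit 76) (nat_lit 141047884236) (nat_lit 15) (nat_lit 5) (nat_lit 17) (nat_lit 5) (nat_lit 16) (nat_lit 4) (nat_lit 338) (nat_lit 323) (nat_lit 239)) (XT.lf (nat_lit 0) (nat_lit 61626731017) (nat_lit 76) (nat_lit 105348973733) (nat_lit 152) (nat_lit 217159374444) (nat_lit 14) (nat_lit 5) (nat_lit 15) (nat_lit 5) (nat_lit 16) (nat_lit 4) (nat_lit 339) (nat_lit 323) (nat_lit 238)))))) (XT.nd (nat_lit 390) (nat_lit 304) (nat_lit 0) (XT.nd (nat_lit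 156) (nat_lit 152) (nat_lit 0) (XT.nd (nat_lit 78) (nat_lit 76) (nat_lit 0) (XT.lf (nat_lit 0) (nat_lit 277628431520) (nat_lit 152) (nat_lit 126315460301) (nat_lit 0) (nat_lit 19044689812) (nat_lit 14) (nat_lit 5) (nat_lit 16) (nat_lit 4) (nat_lit 14) (nat_lit 4) (nat_lit 340) (nat_lit 323) (nat_lit 237)) (XT.lf (nat_lit 0) (nat_lit 103503978054) (nat_lit 76) (nat_lit 310677367391) (nat_lit 76) (nat_lit 52093422455) (nat_lit 13) (nat_lit 4) (nat_lit 14) (nat_lit 5) (nat_lit 14) (nat_lit 4) (nat_lit 341) (nat_lit 323) (nat_lit 236))) (XT.nd (nat_lit 78) (nat_lit 76) (nat_lit 0) (XT.lf (nat_lit 0) (nat_lit 57169353749) (nat_lit 152) (nat_lit 135670011093) (nat_lit 76) (nat_lit 321834329255) (nat_lit 12) (nat_lit 5) (nat_lit 14) (nat_lit 5) (nat_lit 13) (nat_lit 4) (nat_lit 342) (nat_lit 323) (nat_lit 235)) (XT.nd (nat_lit 78) (nat_lit 0) (nat_lit 0) (XT.lf (nat_lit 0) (nat_lit 135036800633)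 (nat_lit 76) (nat_lit 48042769579) (nat_lit 152) (nat_lit 386042083552) (nat_lit 11) (nat_lit 5) (nat_lit 12) (nat_lit 5) (nat_lit 13) (nat_lit 4) (nat_lit 343) (nat_lit 323) (nat_lit 234)) (XT.lf (nat_lit 0) (nat_lit 340211410620) (nat_lit 152) (nat_lit 174319730307) (nat_lit 0) (nat_lit 115355402837) (nat_lit 11) (nat_lit 5) (nat_lit 13) (nat_lit 4) (nat_lit 11) (nat_lit 4) (nat_lit 344) (nat_lit 323) (nat_lit 233))))) (XT.nd (nat_lit 234) (nat_lit 76) (nat_lit 0) (XT.nd (nat_lit 78) (nat_lit 152) (nat_lit 0) (XT.lf (nat_lit 0) (nat_lit 134056757964) (nat_lit 76) (nat_lit 394694864457) (nat_lit 76) (nat_lit 169838755634) (nat_lit 10) (nat_lit 4) (nat_lit 11) (nat_lit 5) (nat_lit 11) (nat_lit 4) (nat_lit 345) (nat_lit 323) (nat_lit 232)) (XT.nd (nat_lit 78) (nat_lit 152) (nat_lit 0) (XT.lf (nat_lit 0) (nat_lit 508280582588) (nat_lit 76) (nat_lit 246404299616) (nat_lit 76) (nat_lit 21548102932)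 (nat_lit 10) (nat_lit 4) (nat_lit 11) (nat_lit 5) (nat_lit 11) (nat_lit 4) (nat_lit 346) (nat_lit 323) (nat_lit 231)) (XT.lf (nat_lit 0) (nat_lit 73489028199) (nat_lit 76) (nat_lit 65276228211) (nat_lit 152) (nat_lit 725374914249) (nat_lit 8) (nat_lit 5) (nat_lit 9) (nat_lit 5) (nat_lit 10) (nat_lit 4) (nat_lit 347) (nat_lit 323) (nat_lit 230)))) (XT.nd (nat_lit 78) (nat_lit 76) (nat_lit 0) (XT.lf (nat_lit 0) (nat_lit 341515148978) (nat_lit 152) (nat_lit 474487126151) (nat_lit 0) (nat_lit 145987897221) (nat_lit 8) (nat_lit 5) (nat_lit 10) (nat_lit 4) (nat_lit 8) (nat_lit 4) (nat_lit 348) (nat_lit 323) (nat_lit 229)) (XT.nd (nat_lit 78) (nat_lit 76) (nat_lit 0) (XT.lf (nat_lit 0) (nat_lit 577785798836) (nat_lit 152) (nat_lit 114007137648) (nat_lit 0) (nat_lit 382258496845) (nat_lit 8) (nat_lit 5) (nat_lit 10) (nat_lit 4) (nat_lit 8) (nat_lit 4) (nat_lit 349) (nat_lit 323) (nat_lit 228))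 (XT.lf (nat_lit 0) (nat_lit 329916049972) (nat_lit 76) (nat_lit 533242013314) (nat_lit 76) (nat_lit 337714667640) (nat_lit 7) (nat_lit 4) (nat_lit 8) (nat_lit 5) (nat_lit 8) (nat_lit 4) (nat_lit 350) (nat_lit 323) (nat_lit 227))))))))
noncomputable def xc89 : XT := (XT.nd (nat_lit 1716) (nat_lit 76) (nat_lit 0) (XT.nd (nat_lit 858) (nat_lit 76) (nat_lit 0) (XT.nd (nat_lit 390) (nat_lit 152) (nat_lit 0) (XT.nd (nat_lit 156) (nat_lit 76) (nat_lit 0) (XT.nd (nat_lit 78) (nat_lit 76) (nat_lit 0) (XT.lf (nat_lit 0) (nat_lit 853240365455) (nat_lit 76) (nat_lit 344055168229) (nat_lit 76) (nat_lit 148527784570) (nat_lit 7) (nat_lit 4) (nat_lit 8) (nat_lit 5) (nat_lit 8) (nat_lit 4) (nat_lit 351) (nat_lit 323) (nat_lit 226)) (XT.lf (nat_lit 0) (nat_lit 62890879102) (nat_lit 152) (nat_lit 60312026618) (nat_lit 76) (nat_lit 1388884799291) (nat_lit 6) (nat_lit 5) (nat_lit 8) (nat_lit 5) (nat_lit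 7) (nat_lit 4) (nat_lit 352) (nat_lit 323) (nat_lit 225))) (XT.nd (nat_lit 78) (nat_lit 0) (nat_lit 0) (XT.lf (nat_lit 0) (nat_lit 317031020886) (nat_lit 152) (nat_lit 1234260396669) (nat_lit 0) (nat_lit 147007155311) (nat_lit 5) (nat_lit 5) (nat_lit 7) (nat_lit 4) (nat_lit 5) (nat_lit 4) (nat_lit 353) (nat_lit 323) (nat_lit 224)) (XT.nd (nat_lit 78) (nat_lit 0) (nat_lit 0) (XT.lf (nat_lit 0) (nat_lit 618461713704) (nat_lit 152) (nat_lit 844166101339) (nat_lit 0) (nat_lit 448437826412) (nat_lit 5) (nat_lit 5) (nat_lit 7) (nat_lit 4) (nat_lit 5) (nat_lit 4) (nat_lit 354) (nat_lit 323) (nat_lit 223)) (XT.lf (nat_lit 0) (nat_lit 965106943728) (nat_lit 152) (nat_lit 395557799079) (nat_lit 0) (nat_lit 795083037550) (nat_lit 5) (nat_lit 5) (nat_lit 7) (nat_lit 4) (nat_lit 5) (nat_lit 4) (nat_lit 355) (nat_lit 323) (nat_lit 222))))) (XT.nd (nat_lit 234) (nat_lit 76) (nat_lit 0) (XT.nd (nat_lit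 78) (nat_lit 0) (nat_lit 0) (XT.lf (nat_lit 0) (nat_lit 132102288271) (nat_lit 76) (nat_lit 1237116686016) (nat_lit 76) (nat_lit 1067092763416) (nat_lit 4) (nat_lit 4) (nat_lit 5) (nat_lit 5) (nat_lit 5) (nat_lit 4) (nat_lit 356) (nat_lit 323) (nat_lit 221)) (XT.nd (nat_lit 78) (nat_lit 0) (nat_lit 0) (XT.lf (nat_lit 0) (nat_lit 783366577349) (nat_lit 76) (nat_lit 1071258061864) (nat_lit 76) (nat_lit 901234124984) (nat_lit 4) (nat_lit 4) (nat_lit 5) (nat_lit 5) (nat_lit 5) (nat_lit 4) (nat_lit 357) (nat_lit 323) (nat_lit 220)) (XT.lf (nat_lit 0) (nat_lit 1532320410639) (nat_lit 76) (nat_lit 880520695265) (nat_lit 76) (nat_lit 710496745968) (nat_lit 4) (nat_lit 4) (nat_lit 5) (nat_lit 5) (nat_lit 5) (nat_lit 4) (nat_lit 358) (nat_lit 323) (nat_lit 219)))) (XT.nd (nat_lit 78) (nat_lit 76) (nat_lit 0) (XT.lf (nat_lit 0) (nat_lit 2393617232705) (nat_lit 76) (nat_lit 661172768177) (nat_lit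 76) (nat_lit 491148808083) (nat_lit 4) (nat_lit 4) (nat_lit 5) (nat_lit 5) (nat_lit 5) (nat_lit 4) (nat_lit 359) (nat_lit 323) (nat_lit 218)) (XT.nd (nat_lit 78) (nat_lit 76) (nat_lit 0) (XT.lf (nat_lit 0) (nat_lit 3384108503109) (nat_lit 76) (nat_lit 408922690723) (nat_lit 76) (nat_lit 238898721240) (nat_lit 4) (nat_lit 4) (nat_lit 5) (nat_lit 5) (nat_lit 5) (nat_lit 4) (nat_lit 360) (nat_lit 323) (nat_lit 217)) (XT.lf (nat_lit 0) (nat_lit 46631657624) (nat_lit 152) (nat_lit 69765913754) (nat_lit 76) (nat_lit 4474104177336) (nat_lit 3) (nat_lit 5) (nat_lit 5) (nat_lit 5) (nat_lit 4) (nat_lit 4) (nat_lit 361) (nat_lit 323) (nat_lit 216)))))) (XT.nd (nat_lit 390) (nat_lit 0) (nat_lit 0) (XT.nd (nat_lit 156) (nat_lit 0) (nat_lit 0) (XT.nd (nat_lit 78) (nat_lit 0) (nat_lit 0) (XT.lf (nat_lit 0) (nat_lit 387976108014) (nat_lit 152) (nat_lit 4597431186206) (nat_lit 0) (nat_lit 240129164755)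 (nat_lit 2) (nat_lit 5) (nat_lit 4) (nat_lit 4) (nat_lit 2) (nat_lit 4) (nat_lit 362) (nat_lit 323) (nat_lit 215)) (XT.lf (nat_lit 0) (nat_lit 789885453217) (nat_lit 152) (nat_lit 4522497933886) (nat_lit 0) (nat_lit 642038504590) (nat_lit 2) (nat_lit 5) (nat_lit 4) (nat_lit 4) (nat_lit 2) (nat_lit 4) (nat_lit 363) (nat_lit 323) (nat_lit 214))) (XT.nd (nat_lit 78) (nat_lit 0) (nat_lit 0) (XT.lf (nat_lit 0) (nat_lit 1252081175363) (nat_lit 152) (nat_lit 4436324745617) (nat_lit 0) (nat_lit 1104234222067) (nat_lit 2) (nat_lit 5) (nat_lit 4) (nat_lit 4) (nat_lit 2) (nat_lit 4) (nat_lit 364) (nat_lit 323) (nat_lit 213)) (XT.nd (nat_lit 78) (nat_lit 0) (nat_lit 0) (XT.lf (nat_lit 0) (nat_lit 1783606234232) (nat_lit 152) (nat_lit 4337225624239) (nat_lit 0) (nat_lit 1635759276877) (nat_lit 2) (nat_lit 5) (nat_lit 4) (nat_lit 4) (nat_lit 2) (nat_lit 4) (nat_lit 365) (nat_lit 323) (nat_lit 212))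 (XT.lf (nat_lit 0) (nat_lit 2394860033150) (nat_lit 152) (nat_lit 4223261673899) (nat_lit 0) (nat_lit 2247013072266) (nat_lit 2) (nat_lit 5) (nat_lit 4) (nat_lit 4) (nat_lit 2) (nat_lit 4) (nat_lit 366) (nat_lit 323) (nat_lit 211))))) (XT.nd (nat_lit 234) (nat_lit 0) (nat_lit 0) (XT.nd (nat_lit 78) (nat_lit 0) (nat_lit 0) (XT.lf (nat_lit 0) (nat_lit 3097801885575) (nat_lit 152) (nat_lit 4092203165133) (nat_lit 0) (nat_lit 2949954921621) (nat_lit 2) (nat_lit 5) (nat_lit 4) (nat_lit 4) (nat_lit 2) (nat_lit 4) (nat_lit 367) (nat_lit 323) (nat_lit 210)) (XT.nd (nat_lit 78) (nat_lit 0) (nat_lit 0) (XT.lf (nat_lit 0) (nat_lit 3906185001662) (nat_lit 152) (nat_lit 3941485909726) (nat_lit 0) (nat_lit 3758338035040) (nat_lit 2) (nat_lit 5) (nat_lit 4) (nat_lit 4) (nat_lit 2) (nat_lit 4) (nat_lit 368) (nat_lit 323) (nat_lit 209)) (XT.lf (nat_lit 0) (nat_lit 4835825572814) (nat_lit 152) (nat_lit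 3768161091812) (nat_lit 0) (nat_lit 4687978603870) (nat_lit 2) (nat_lit 5) (nat_lit 4) (nat_lit 4) (nat_lit 2) (nat_lit 4) (nat_lit 369) (nat_lit 323) (nat_lit 208)))) (XT.nd (nat_lit 78) (nat_lit 0) (nat_lit 0) (XT.lf (nat_lit 0) (nat_lit 5904912218900) (nat_lit 152) (nat_lit 3568837573650) (nat_lit 0) (nat_lit 5757065247938) (nat_lit 2) (nat_lit 5) (nat_lit 4) (nat_lit 4) (nat_lit 2) (nat_lit 4) (nat_lit 370) (nat_lit 323) (nat_lit 207)) (XT.nd (nat_lit 78) (nat_lit 0) (nat_lit 0) (XT.lf (nat_lit 0) (nat_lit 7134361852561) (nat_lit 152) (nat_lit 3339615547274) (nat_lit 0) (nat_lit 6986514879844) (nat_lit 2) (nat_lit 5) (nat_lit 4) (nat_lit 4) (nat_lit 2) (nat_lit 4) (nat_lit 371) (nat_lit 323) (nat_lit 206)) (XT.lf (nat_lit 0) (nat_lit 8548228923152) (nat_lit 152) (nat_lit 3076010233908) (nat_lit 0) (nat_lit 8400381948909) (nat_lit 2) (nat_lit 5) (nat_lit 4) (nat_lit 4) (nat_lit 2)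 (nat_lit 4) (nat_lit 372) (nat_lit 323) (nat_lit 205))))))) (XT.nd (nat_lit 858) (nat_lit 0) (nat_lit 0) (XT.nd (nat_lit 390) (nat_lit 76) (nat_lit 0) (XT.nd (nat_lit 156) (nat_lit 0) (nat_lit 0) (XT.nd (nat_lit 78) (nat_lit 0) (nat_lit 0) (XT.lf (nat_lit 0) (nat_lit 10174176047271) (nat_lit 152) (nat_lit 2772864138290) (nat_lit 0) (nat_lit 10026329071701) (nat_lit 2) (nat_lit 5) (nat_lit 4) (nat_lit 4) (nat_lit 2) (nat_lit 4) (nat_lit 373) (nat_lit 323) (nat_lit 204)) (XT.lf (nat_lit 0) (nat_lit 12044015233868) (nat_lit 152) (nat_lit 2424246141159) (nat_lit 0) (nat_lit 11896168257145) (nat_lit 2) (nat_lit 5) (nat_lit 4) (nat_lit 4) (nat_lit 2) (nat_lit 4) (nat_lit 374) (nat_lit 323) (nat_lit 203))) (XT.nd (nat_lit 78) (nat_lit 0) (nat_lit 0) (XT.lf (nat_lit 0) (nat_lit 14194330293116) (nat_lit 152) (nat_lit 2023335455614) (nat_lit 0) (nat_lit 14046483315389) (nat_lit 2) (nat_lit 5) (nat_lit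 4) (nat_lit 4) (nat_lit 2) (nat_lit 4) (nat_lit 375) (nat_lit 323) (nat_lit 202)) (XT.nd (nat_lit 78) (nat_lit 0) (nat_lit 0) (XT.lf (nat_lit 0) (nat_lit 16667192606609) (nat_lit 152) (nat_lit 1562288176938) (nat_lit 0) (nat_lit 16519345628010) (nat_lit 2) (nat_lit 5) (nat_lit 4) (nat_lit 4) (nat_lit 2) (nat_lit 4) (nat_lit 376) (nat_lit 323) (nat_lit 201)) (XT.lf (nat_lit 0) (nat_lit 19510984263089) (nat_lit 152) (nat_lit 1032083814895) (nat_lit 0) (nat_lit 19363137283731) (nat_lit 2) (nat_lit 5) (nat_lit 4) (nat_lit 4) (nat_lit 2) (nat_lit 4) (nat_lit 377) (nat_lit 323) (nat_lit 200))))) (XT.nd (nat_lit 234) (nat_lit 0) (nat_lit 0) (XT.nd (nat_lit 78) (nat_lit 76) (nat_lit 0) (XT.lf (nat_lit 0) (nat_lit 22781344664530) (nat_lit 152) (nat_lit 422348805882) (nat_lit 0) (nat_lit 22633497684513) (nat_lit 2) (nat_lit 5) (nat_lit 4) (nat_lit 4) (nat_lit 2) (nat_lit 4) (nat_lit 378) (nat_lit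 323) (nat_lit 199)) (XT.nd (nat_lit 78) (nat_lit 0) (nat_lit 0) (XT.lf (nat_lit 0) (nat_lit 306097350988) (nat_lit 76) (nat_lit 26248836610698) (nat_lit 76) (nat_lit 26100989630106) (nat_lit 1) (nat_lit 4) (nat_lit 2) (nat_lit 5) (nat_lit 2) (nat_lit 4) (nat_lit 379) (nat_lit 323) (nat_lit 198)) (XT.lf (nat_lit 0) (nat_lit 1191276671780) (nat_lit 76) (nat_lit 29725362302672) (nat_lit 76) (nat_lit 29577515321582) (nat_lit 1) (nat_lit 4) (nat_lit 2) (nat_lit 5) (nat_lit 2) (nat_lit 4) (nat_lit 380) (nat_lit 323) (nat_lit 197)))) (XT.nd (nat_lit 78) (nat_lit 0) (nat_lit 0) (XT.lf (nat_lit 0) (nat_lit 2209232885396) (nat_lit 76) (nat_lit 33723366851210) (nat_lit 76) (nat_lit 33575519869685) (nat_lit 1) (nat_lit 4) (nat_lit 2) (nat_lit 5) (nat_lit 2) (nat_lit 4) (nat_lit 381) (nat_lit 323) (nat_lit 196)) (XT.nd (nat_lit 78) (nat_lit 0) (nat_lit 0) (XT.lf (nat_lit 0) (nat_lit 3379882526452)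 (nat_lit 76) (nat_lit 38321072084434) (nat_lit 76) (nat_lit 38173225102532) (nat_lit 1) (nat_lit 4) (nat_lit 2) (nat_lit 5) (nat_lit 2) (nat_lit 4) (nat_lit 382) (nat_lit 323) (nat_lit 195)) (XT.lf (nat_lit 0) (nat_lit 4726129609662) (nat_lit 76) (nat_lit 43608433104733) (nat_lit 76) (nat_lit 43460586122504) (nat_lit 1) (nat_lit 4) (nat_lit 2) (nat_lit 5) (nat_lit 2) (nat_lit 4) (nat_lit 383) (nat_lit 323) (nat_lit 194)))))) (XT.nd (nat_lit 42432) (nat_lit 0) (nat_lit 1596) (XT.nd (nat_lit 42198) (nat_lit 0) (nat_lit 1900) (XT.nd (nat_lit 78) (nat_lit 0) (nat_lit 0) (XT.lf (nat_lit 0) (nat_lit 6274313751873) (nat_lit 76) (nat_lit 49688898279897) (nat_lit 76) (nat_lit 49541051297383) (nat_lit 1) (nat_lit 4) (nat_lit 2) (nat_lit 5) (nat_lit 2) (nat_lit 4) (nat_lit 384) (nat_lit 323) (nat_lit 193)) (XT.lf (nat_lit 0) (nat_lit 8054725512389) (nat_lit 76) (nat_lit 56681433232918) (nat_lit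 76) (nat_lit 56533586250155) (nat_lit 1) (nat_lit 4) (nat_lit 2) (nat_lit 5) (nat_lit 2) (nat_lit 4) (nat_lit 385) (nat_lit 323) (nat_lit 192))) (XT.nd (nat_lit 78) (nat_lit 0) (nat_lit 0) (XT.lf (nat_lit 0) (nat_lit 12973369534) (nat_lit 380) (nat_lit 22581673164) (nat_lit 380) (nat_lit 22581673164) (nat_lit 26) (nat_lit 3) (nat_lit 31) (nat_lit 3) (nat_lit 31) (nat_lit 5) (nat_lit 324) (nat_lit 324) (nat_lit 252)) (XT.nd (nat_lit 78) (nat_lit 0) (nat_lit 76) (XT.lf (nat_lit 76) (nat_lit 11831671596) (nat_lit 0) (nat_lit 16555433888) (nat_lit 380) (nat_lit 96532669913) (nat_lit 27) (nat_lit 5) (nat_lit 26) (nat_lit 3) (nat_lit 31) (nat_lit 5) (nat_lit 325) (nat_lit 324) (nat_lit 251)) (XT.lf (nat_lit 0) (nat_lit 35578275295) (nat_lit 304) (nat_lit 54082633117) (nat_lit 380) (nat_lit 44544451648) (nat_lit 27) (nat_lit 5) (nat_lit 31) (nat_lit 5) (nat_lit 32) (nat_lit 5) (nat_lit 326)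 (nat_lit 324) (nat_lit 250))))) (XT.nd (nat_lit 234) (nat_lit 152) (nat_lit 0) (XT.nd (nat_lit 78) (nat_lit 228) (nat_lit 0) (XT.lf (nat_lit 76) (nat_lit 14253715694) (nat_lit 0) (nat_lit 30972281130) (nat_lit 380) (nat_lit 99451105639) (nat_lit 28) (nat_lit 5) (nat_lit 27) (nat_lit 5) (nat_lit 32) (nat_lit 5) (nat_lit 327) (nat_lit 324) (nat_lit 249)) (XT.nd (nat_lit 78) (nat_lit 304) (nat_lit 0) (XT.lf (nat_lit 0) (nat_lit 60794123962) (nat_lit 304) (nat_lit 59024330386) (nat_lit 76) (nat_lit 36230166059) (nat_lit 28) (nat_lit 5) (nat_lit 32) (nat_lit 5) (nat_lit 29) (nat_lit 5) (nat_lit 328) (nat_lit 324) (nat_lit 248)) (XT.lf (nat_lit 0) (nat_lit 23720974047) (nat_lit 304) (nat_lit 57433061559) (nat_lit 380) (nat_lit 87603346740) (nat_lit 24) (nat_lit 5) (nat_lit 28) (nat_lit 5) (nat_lit 29) (nat_lit 5) (nat_lit 329) (nat_lit 324) (nat_lit 247)))) (XT.nd (nat_lit 78) (nat_lit 152)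 (nat_lit 0) (XT.lf (nat_lit 0) (nat_lit 108392278795) (nat_lit 380) (nat_lit 58138118270) (nat_lit 76) (nat_lit 16268410765) (nat_lit 24) (nat_lit 5) (nat_lit 29) (nat_lit 5) (nat_lit 25) (nat_lit 5) (nat_lit 330) (nat_lit 324) (nat_lit 246)) (XT.nd (nat_lit 78) (nat_lit 0) (nat_lit 0) (XT.lf (nat_lit 0) (nat_lit 42876668883) (nat_lit 152) (nat_lit 101349500564) (nat_lit 228) (nat_lit 54043791887) (nat_lit 22) (nat_lit 5) (nat_lit 24) (nat_lit 5) (nat_lit 25) (nat_lit 5) (nat_lit 331) (nat_lit 324) (nat_lit 245)) (XT.lf (nat_lit 0) (nat_lit 165577113029) (nat_lit 152) (nat_lit 22896675977) (nat_lit 228) (nat_lit 27132202798) (nat_lit 22) (nat_lit 5) (nat_lit 24) (nat_lit 5) (nat_lit 25) (nat_lit 5) (nat_lit 332) (nat_lit 324) (nat_lit 244))))))))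
noncomputable def xc90 : XT := (XT.nd (nat_lit 1638) (nat_lit 304) (nat_lit 0) (XT.nd (nat_lit 780) (nat_lit 532) (nat_lit 0) (XT.nd (nat_lit 390) (nat_lit 304) (nat_lit 0) (XT.nd (nat_lit 156) (nat_lit 228) (nat_lit 0) (XT.nd (nat_lit 78) (nat_lit 0) (nat_lit 0) (XT.lf (nat_lit 0) (nat_lit 9651376746) (nat_lit 152) (nat_lit 160065154141) (nat_lit 76) (nat_lit 64875945391) (nat_lit 20) (nat_lit 5) (nat_lit 22) (nat_lit 5) (nat_lit 21) (nat_lit 5) (nat_lit 333) (nat_lit 324) (nat_lit 243)) (XT.lf (nat_lit 0) (nat_lit 53004332455) (nat_lit 152) (nat_lit 35152491178) (nat_lit 76) (nat_lit 167501859825) (nat_lit 20) (nat_lit 5) (nat_lit 22) (nat_lit 5) (nat_lit 21) (nat_lit 5) (nat_lit 334) (nat_lit 324) (nat_lit 242))) (XT.nd (nat_lit 78) (nat_lit 76) (nat_lit 0) (XT.lf (nat_lit 0) (nat_lit 108259851523) (nat_lit 228) (nat_lit 160513633107) (nat_lit 76) (nat_lit 10301394508) (nat_lit 18)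 (nat_lit 5) (nat_lit 21) (nat_lit 5) (nat_lit 19) (nat_lit 4) (nat_lit 335) (nat_lit 324) (nat_lit 241)) (XT.nd (nat_lit 78) (nat_lit 76) (nat_lit 0) (XT.lf (nat_lit 0) (nat_lit 177926384406) (nat_lit 228) (nat_lit 10731057486) (nat_lit 76) (nat_lit 116427659748) (nat_lit 18) (nat_lit 5) (nat_lit 21) (nat_lit 5) (nat_lit 19) (nat_lit 4) (nat_lit 336) (nat_lit 324) (nat_lit 240)) (XT.lf (nat_lit 0) (nat_lit 177303286018) (nat_lit 76) (nat_lit 88081122698) (nat_lit 152) (nat_lit 68511222395) (nat_lit 17) (nat_lit 5) (nat_lit 18) (nat_lit 5) (nat_lit 19) (nat_lit 4) (nat_lit 337) (nat_lit 324) (nat_lit 239))))) (XT.nd (nat_lit 156) (nat_lit 152) (nat_lit 0) (XT.nd (nat_lit 78) (nat_lit 0) (nat_lit 0) (XT.lf (nat_lit 0) (nat_lit 2108613087) (nat_lit 152) (nat_lit 337443480270) (nat_lit 76) (nat_lit 27020232751) (nat_lit 15) (nat_lit 5) (nat_lit 17) (nat_lit 5) (nat_lit 16) (nat_lit 4) (nat_lit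 338) (nat_lit 324) (nat_lit 238)) (XT.lf (nat_lit 0) (nat_lit 89076588583) (nat_lit 152) (nat_lit 150462601722) (nat_lit 76) (nat_lit 162206558051) (nat_lit 15) (nat_lit 5) (nat_lit 17) (nat_lit 5) (nat_lit 16) (nat_lit 4) (nat_lit 339) (nat_lit 324) (nat_lit 237))) (XT.nd (nat_lit 78) (nat_lit 76) (nat_lit 0) (XT.lf (nat_lit 0) (nat_lit 70874830106) (nat_lit 76) (nat_lit 121149509891) (nat_lit 152) (nat_lit 249730657187) (nat_lit 14) (nat_lit 5) (nat_lit 15) (nat_lit 5) (nat_lit 16) (nat_lit 4) (nat_lit 340) (nat_lit 324) (nat_lit 236)) (XT.nd (nat_lit 78) (nat_lit 76) (nat_lit 0) (XT.lf (nat_lit 0) (nat_lit 319274743622) (nat_lit 152) (nat_lit 145258989449) (nat_lit 0) (nat_lit 21902826998) (nat_lit 14) (nat_lit 5) (nat_lit 16) (nat_lit 4) (nat_lit 14) (nat_lit 4) (nat_lit 341) (nat_lit 324) (nat_lit 235)) (XT.lf (nat_lit 0) (nat_lit 119033192391) (nat_lit 76) (nat_lit 357277284994)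 (nat_lit 76) (nat_lit 59905214701) (nat_lit 13) (nat_lit 4) (nat_lit 14) (nat_lit 5) (nat_lit 14) (nat_lit 4) (nat_lit 342) (nat_lit 324) (nat_lit 234)))))) (XT.nd (nat_lit 390) (nat_lit 304) (nat_lit 0) (XT.nd (nat_lit 156) (nat_lit 76) (nat_lit 0) (XT.nd (nat_lit 78) (nat_lit 76) (nat_lit 0) (XT.lf (nat_lit 0) (nat_lit 65746516275) (nat_lit 152) (nat_lit 156017193925) (nat_lit 76) (nat_lit 370110772972) (nat_lit 12) (nat_lit 5) (nat_lit 14) (nat_lit 5) (nat_lit 13) (nat_lit 4) (nat_lit 343) (nat_lit 324) (nat_lit 233)) (XT.lf (nat_lit 0) (nat_lit 155295488703) (nat_lit 76) (nat_lit 55247678188) (nat_lit 152) (nat_lit 443946484792) (nat_lit 11) (nat_lit 5) (nat_lit 12) (nat_lit 5) (nat_lit 13) (nat_lit 4) (nat_lit 344) (nat_lit 324) (nat_lit 232))) (XT.nd (nat_lit 78) (nat_lit 76) (nat_lit 0) (XT.lf (nat_lit 0) (nat_lit 391244620945) (nat_lit 152) (nat_lit 200464771830) (nat_lit 0) (nat_lit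 132659906897) (nat_lit 11) (nat_lit 5) (nat_lit 13) (nat_lit 4) (nat_lit 11) (nat_lit 4) (nat_lit 345) (nat_lit 324) (nat_lit 231)) (XT.nd (nat_lit 78) (nat_lit 0) (nat_lit 0) (XT.lf (nat_lit 0) (nat_lit 154168057044) (nat_lit 76) (nat_lit 453897727322) (nat_lit 76) (nat_lit 195312936873) (nat_lit 10) (nat_lit 4) (nat_lit 11) (nat_lit 5) (nat_lit 11) (nat_lit 4) (nat_lit 346) (nat_lit 324) (nat_lit 230)) (XT.lf (nat_lit 0) (nat_lit 584525092051) (nat_lit 76) (nat_lit 283363756033) (nat_lit 76) (nat_lit 24778899149) (nat_lit 10) (nat_lit 4) (nat_lit 11) (nat_lit 5) (nat_lit 11) (nat_lit 4) (nat_lit 347) (nat_lit 324) (nat_lit 229))))) (XT.nd (nat_lit 234) (nat_lit 152) (nat_lit 0) (XT.nd (nat_lit 78) (nat_lit 0) (nat_lit 0) (XT.lf (nat_lit 0) (nat_lit 84514815547) (nat_lit 76) (nat_lit 75066454313) (nat_lit 152) (nat_lit 834179742167) (nat_lit 8) (nat_lit 5) (nat_lit 9) (nat_lit 5) (nat_lit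 10) (nat_lit 4) (nat_lit 348) (nat_lit 324) (nat_lit 228)) (XT.nd (nat_lit 78) (nat_lit 0) (nat_lit 0) (XT.lf (nat_lit 0) (nat_lit 392743530033) (nat_lit 152) (nat_lit 545657962618) (nat_lit 0) (nat_lit 167887038825) (nat_lit 8) (nat_lit 5) (nat_lit 10) (nat_lit 4) (nat_lit 8) (nat_lit 4) (nat_lit 349) (nat_lit 324) (nat_lit 227)) (XT.lf (nat_lit 0) (nat_lit 664454632756) (nat_lit 152) (nat_lit 131106267029) (nat_lit 0) (nat_lit 439598103563) (nat_lit 8) (nat_lit 5) (nat_lit 10) (nat_lit 4) (nat_lit 8) (nat_lit 4) (nat_lit 350) (nat_lit 324) (nat_lit 226)))) (XT.nd (nat_lit 78) (nat_lit 76) (nat_lit 0) (XT.lf (nat_lit 0) (nat_lit 379405310494) (nat_lit 76) (nat_lit 613227377357) (nat_lit 76) (nat_lit 388370815134) (nat_lit 7) (nat_lit 4) (nat_lit 8) (nat_lit 5) (nat_lit 8) (nat_lit 4) (nat_lit 351) (nat_lit 324) (nat_lit 225)) (XT.nd (nat_lit 78) (nat_lit 76) (nat_lit 0) (XT.lf (nat_lit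 0) (nat_lit 981228031600) (nat_lit 76) (nat_lit 395662627851) (nat_lit 76) (nat_lit 170806036907) (nat_lit 7) (nat_lit 4) (nat_lit 8) (nat_lit 5) (nat_lit 8) (nat_lit 4) (nat_lit 352) (nat_lit 324) (nat_lit 224)) (XT.lf (nat_lit 0) (nat_lit 72325236062) (nat_lit 152) (nat_lit 69357358386) (nat_lit 76) (nat_lit 1597218157342) (nat_lit 6) (nat_lit 5) (nat_lit 8) (nat_lit 5) (nat_lit 7) (nat_lit 4) (nat_lit 353) (nat_lit 324) (nat_lit 223))))))) (XT.nd (nat_lit 858) (nat_lit 0) (nat_lit 0) (XT.nd (nat_lit 390) (nat_lit 152) (nat_lit 0) (XT.nd (nat_lit 156) (nat_lit 76) (nat_lit 0) (XT.nd (nat_lit 78) (nat_lit 0) (nat_lit 0) (XT.lf (nat_lit 0) (nat_lit 364586392399) (nat_lit 152) (nat_lit 1419397977049) (nat_lit 0) (nat_lit 169058881410) (nat_lit 5) (nat_lit 5) (nat_lit 7) (nat_lit 4) (nat_lit 5) (nat_lit 4) (nat_lit 354) (nat_lit 324) (nat_lit 222)) (XT.lf (nat_lit 0) (nat_lit 711231595439)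 (nat_lit 152) (nat_lit 970789730348) (nat_lit 0) (nat_lit 515704068027) (nat_lit 5) (nat_lit 5) (nat_lit 7) (nat_lit 4) (nat_lit 5) (nat_lit 4) (nat_lit 355) (nat_lit 324) (nat_lit 221))) (XT.nd (nat_lit 78) (nat_lit 76) (nat_lit 0) (XT.lf (nat_lit 0) (nat_lit 1109873528485) (nat_lit 152) (nat_lit 454890350513) (nat_lit 0) (nat_lit 914345986794) (nat_lit 5) (nat_lit 5) (nat_lit 7) (nat_lit 4) (nat_lit 5) (nat_lit 4) (nat_lit 356) (nat_lit 324) (nat_lit 220)) (XT.nd (nat_lit 78) (nat_lit 0) (nat_lit 0) (XT.lf (nat_lit 0) (nat_lit 151918699102) (nat_lit 76) (nat_lit 1422683637881) (nat_lit 76) (nat_lit 1227156083773) (nat_lit 4) (nat_lit 4) (nat_lit 5) (nat_lit 5) (nat_lit 5) (nat_lit 4) (nat_lit 357) (nat_lit 324) (nat_lit 219)) (XT.lf (nat_lit 0) (nat_lit 900872492291) (nat_lit 76) (nat_lit 1231946291981) (nat_lit 76) (nat_lit 1036418727075) (nat_lit 4) (nat_lit 4) (nat_lit 5) (nat_lit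 5) (nat_lit 5) (nat_lit 4) (nat_lit 358) (nat_lit 324) (nat_lit 218))))) (XT.nd (nat_lit 234) (nat_lit 152) (nat_lit 0) (XT.nd (nat_lit 78) (nat_lit 0) (nat_lit 0) (XT.lf (nat_lit 0) (nat_lit 1762169279486) (nat_lit 76) (nat_lit 1012598382892) (nat_lit 76) (nat_lit 817070808596) (nat_lit 4) (nat_lit 4) (nat_lit 5) (nat_lit 5) (nat_lit 5) (nat_lit 4) (nat_lit 359) (nat_lit 324) (nat_lit 217)) (XT.nd (nat_lit 78) (nat_lit 0) (nat_lit 0) (XT.lf (nat_lit 0) (nat_lit 2752660519568) (nat_lit 76) (nat_lit 760348321088) (nat_lit 76) (nat_lit 564820738628) (nat_lit 4) (nat_lit 4) (nat_lit 5) (nat_lit 5) (nat_lit 5) (nat_lit 4) (nat_lit 360) (nat_lit 324) (nat_lit 216)) (XT.lf (nat_lit 0) (nat_lit 3891725388974) (nat_lit 76) (nat_lit 470260779275) (nat_lit 76) (nat_lit 274733189715) (nat_lit 4) (nat_lit 4) (nat_lit 5) (nat_lit 5) (nat_lit 5) (nat_lit 4) (nat_lit 361) (nat_lit 324) (nat_lit 215))))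 (XT.nd (nat_lit 78) (nat_lit 76) (nat_lit 0) (XT.lf (nat_lit 0) (nat_lit 53626675370) (nat_lit 152) (nat_lit 80230243686) (nat_lit 76) (nat_lit 5145220051548) (nat_lit 3) (nat_lit 5) (nat_lit 5) (nat_lit 5) (nat_lit 4) (nat_lit 4) (nat_lit 362) (nat_lit 324) (nat_lit 214)) (XT.nd (nat_lit 78) (nat_lit 0) (nat_lit 0) (XT.lf (nat_lit 0) (nat_lit 446172791658) (nat_lit 152) (nat_lit 5287045305302) (nat_lit 0) (nat_lit 276148790701) (nat_lit 2) (nat_lit 5) (nat_lit 4) (nat_lit 4) (nat_lit 2) (nat_lit 4) (nat_lit 363) (nat_lit 324) (nat_lit 213)) (XT.lf (nat_lit 0) (nat_lit 908368503758) (nat_lit 152) (nat_lit 5200872138024) (nat_lit 0) (nat_lit 738344498741) (nat_lit 2) (nat_lit 5) (nat_lit 4) (nat_lit 4) (nat_lit 2) (nat_lit 4) (nat_lit 364) (nat_lit 324) (nat_lit 212)))))) (XT.nd (nat_lit 390) (nat_lit 0) (nat_lit 0) (XT.nd (nat_lit 156) (nat_lit 0) (nat_lit 0) (XT.nd (nat_lit 78) (nat_lit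 0) (nat_lit 0) (XT.lf (nat_lit 0) (nat_lit 1439893553892) (nat_lit 152) (nat_lit 5101773034899) (nat_lit 0) (nat_lit 1269869545345) (nat_lit 2) (nat_lit 5) (nat_lit 4) (nat_lit 4) (nat_lit 2) (nat_lit 4) (nat_lit 365) (nat_lit 324) (nat_lit 211)) (XT.lf (nat_lit 0) (nat_lit 2051147345215) (nat_lit 152) (nat_lit 4987809100431) (nat_lit 0) (nat_lit 1881123333598) (nat_lit 2) (nat_lit 5) (nat_lit 4) (nat_lit 4) (nat_lit 2) (nat_lit 4) (nat_lit 366) (nat_lit 324) (nat_lit 210))) (XT.nd (nat_lit 78) (nat_lit 0) (nat_lit 0) (XT.lf (nat_lit 0) (nat_lit 2754089191034) (nat_lit 152) (nat_lit 4856750605467) (nat_lit 0) (nat_lit 2584065176749) (nat_lit 2) (nat_lit 5) (nat_lit 4) (nat_lit 4) (nat_lit 2) (nat_lit 4) (nat_lit 367) (nat_lit 324) (nat_lit 209)) (XT.nd (nat_lit 78) (nat_lit 0) (nat_lit 0) (XT.lf (nat_lit 0) (nat_lit 3562472301378) (nat_lit 152) (nat_lit 4706033362063) (nat_lit 0) (nat_lit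 3392448284772) (nat_lit 2) (nat_lit 5) (nat_lit 4) (nat_lit 4) (nat_lit 2) (nat_lit 4) (nat_lit 368) (nat_lit 324) (nat_lit 208)) (XT.lf (nat_lit 0) (nat_lit 4492112867535) (nat_lit 152) (nat_lit 4532708554585) (nat_lit 0) (nat_lit 4322088848910) (nat_lit 2) (nat_lit 5) (nat_lit 4) (nat_lit 4) (nat_lit 2) (nat_lit 4) (nat_lit 369) (nat_lit 324) (nat_lit 207))))) (XT.nd (nat_lit 234) (nat_lit 0) (nat_lit 0) (XT.nd (nat_lit 78) (nat_lit 0) (nat_lit 0) (XT.lf (nat_lit 0) (nat_lit 5561199509277) (nat_lit 152) (nat_lit 4333385045497) (nat_lit 0) (nat_lit 5391175488898) (nat_lit 2) (nat_lit 5) (nat_lit 4) (nat_lit 4) (nat_lit 2) (nat_lit 4) (nat_lit 370) (nat_lit 324) (nat_lit 206)) (XT.nd (nat_lit 78) (nat_lit 0) (nat_lit 0) (XT.lf (nat_lit 0) (nat_lit 6790649139162) (nat_lit 152) (nat_lit 4104163027013) (nat_lit 0) (nat_lit 6620625117257) (nat_lit 2) (nat_lit 5) (nat_lit 4) (nat_lit 4) (nat_lit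 2) (nat_lit 4) (nat_lit 371) (nat_lit 324) (nat_lit 205)) (XT.lf (nat_lit 0) (nat_lit 8204516206469) (nat_lit 152) (nat_lit 3840557720509) (nat_lit 0) (nat_lit 8034492183237) (nat_lit 2) (nat_lit 5) (nat_lit 4) (nat_lit 4) (nat_lit 2) (nat_lit 4) (nat_lit 372) (nat_lit 324) (nat_lit 204)))) (XT.nd (nat_lit 78) (nat_lit 0) (nat_lit 0) (XT.lf (nat_lit 0) (nat_lit 9830463327732) (nat_lit 152) (nat_lit 3537411630858) (nat_lit 0) (nat_lit 9660439303346) (nat_lit 2) (nat_lit 5) (nat_lit 4) (nat_lit 4) (nat_lit 2) (nat_lit 4) (nat_lit 373) (nat_lit 324) (nat_lit 203)) (XT.nd (nat_lit 78) (nat_lit 0) (nat_lit 0) (XT.lf (nat_lit 0) (nat_lit 11700302511846) (nat_lit 152) (nat_lit 3188793638916) (nat_lit 0) (nat_lit 11530278486457) (nat_lit 2) (nat_lit 5) (nat_lit 4) (nat_lit 4) (nat_lit 2) (nat_lit 4) (nat_lit 374) (nat_lit 324) (nat_lit 202)) (XT.lf (nat_lit 0) (nat_lit 13850617568935) (nat_lit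 152) (nat_lit 2787882957883) (nat_lit 0) (nat_lit 13680593542673) (nat_lit 2) (nat_lit 5) (nat_lit 4) (nat_lit 4) (nat_lit 2) (nat_lit 4) (nat_lit 375) (nat_lit 324) (nat_lit 201))))))))
noncomputable def xc91 : XT := (XT.nd (nat_lit 43758) (nat_lit 0) (nat_lit 304) (XT.nd (nat_lit 42900) (nat_lit 0) (nat_lit 1444) (XT.nd (nat_lit 390) (nat_lit 0) (nat_lit 0) (XT.nd (nat_lit 156) (nat_lit 76) (nat_lit 0) (XT.nd (nat_lit 78) (nat_lit 0) (nat_lit 0) (XT.lf (nat_lit 0) (nat_lit 16323479880551) (nat_lit 152) (nat_lit 2326835683130) (nat_lit 0) (nat_lit 16153455853530) (nat_lit 2) (nat_lit 5) (nat_lit 4) (nat_lit 4) (nat_lit 2) (nat_lit 4) (nat_lit 376) (nat_lit 324) (nat_lit 200)) (XT.lf (nat_lit 0) (nat_lit 19167271535398) (nat_lit 152) (nat_lit 1796631324499) (nat_lit 0) (nat_lit 18997247507717) (nat_lit 2) (nat_lit 5) (nat_lit 4) (nat_lit 4) (nat_lit 2) (nat_lit 4) (nat_lit 377) (nat_lit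 324) (nat_lit 199))) (XT.nd (nat_lit 78) (nat_lit 76) (nat_lit 0) (XT.lf (nat_lit 0) (nat_lit 22437631935420) (nat_lit 152) (nat_lit 1186896318452) (nat_lit 0) (nat_lit 22267607907166) (nat_lit 2) (nat_lit 5) (nat_lit 4) (nat_lit 4) (nat_lit 2) (nat_lit 4) (nat_lit 378) (nat_lit 324) (nat_lit 198)) (XT.nd (nat_lit 78) (nat_lit 76) (nat_lit 0) (XT.lf (nat_lit 0) (nat_lit 26198546392790) (nat_lit 152) (nat_lit 485701067044) (nat_lit 0) (nat_lit 26028522364037) (nat_lit 2) (nat_lit 5) (nat_lit 4) (nat_lit 4) (nat_lit 2) (nat_lit 4) (nat_lit 379) (nat_lit 324) (nat_lit 197)) (XT.lf (nat_lit 0) (nat_lit 352012010641) (nat_lit 76) (nat_lit 30186162072510) (nat_lit 76) (nat_lit 30016138043323) (nat_lit 1) (nat_lit 4) (nat_lit 2) (nat_lit 5) (nat_lit 2) (nat_lit 4) (nat_lit 380) (nat_lit 324) (nat_lit 196))))) (XT.nd (nat_lit 234) (nat_lit 0) (nat_lit 0) (XT.nd (nat_lit 78) (nat_lit 0) (nat_lit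 0) (XT.lf (nat_lit 0) (nat_lit 1369968222117) (nat_lit 76) (nat_lit 34184166622166) (nat_lit 76) (nat_lit 34014142592603) (nat_lit 1) (nat_lit 4) (nat_lit 2) (nat_lit 5) (nat_lit 2) (nat_lit 4) (nat_lit 381) (nat_lit 324) (nat_lit 195)) (XT.nd (nat_lit 78) (nat_lit 0) (nat_lit 0) (XT.lf (nat_lit 0) (nat_lit 2540617861310) (nat_lit 76) (nat_lit 38781871856364) (nat_lit 76) (nat_lit 38611847826472) (nat_lit 1) (nat_lit 4) (nat_lit 2) (nat_lit 5) (nat_lit 2) (nat_lit 4) (nat_lit 382) (nat_lit 324) (nat_lit 194)) (XT.lf (nat_lit 0) (nat_lit 3886864942901) (nat_lit 76) (nat_lit 44069232877510) (nat_lit 76) (nat_lit 43899208847332) (nat_lit 1) (nat_lit 4) (nat_lit 2) (nat_lit 5) (nat_lit 2) (nat_lit 4) (nat_lit 383) (nat_lit 324) (nat_lit 193)))) (XT.nd (nat_lit 78) (nat_lit 0) (nat_lit 0) (XT.lf (nat_lit 0) (nat_lit 5435049083704) (nat_lit 76) (nat_lit 50149698053409) (nat_lit 76) (nat_lit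 49979674022984) (nat_lit 1) (nat_lit 4) (nat_lit 2) (nat_lit 5) (nat_lit 2) (nat_lit 4) (nat_lit 384) (nat_lit 324) (nat_lit 192)) (XT.nd (nat_lit 312) (nat_lit 0) (nat_lit 0) (XT.lf (nat_lit 0) (nat_lit 7215460842996) (nat_lit 76) (nat_lit 57142233007070) (nat_lit 76) (nat_lit 56972208976429) (nat_lit 1) (nat_lit 4) (nat_lit 2) (nat_lit 5) (nat_lit 2) (nat_lit 4) (nat_lit 385) (nat_lit 324) (nat_lit 191)) (XT.lf (nat_lit 0) (nat_lit 17439263923264) (nat_lit 76) (nat_lit 97296034627256) (nat_lit 76) (nat_lit 97126010595999) (nat_lit 1) (nat_lit 4) (nat_lit 2) (nat_lit 5) (nat_lit 2) (nat_lit 4) (nat_lit 389) (nat_lit 324) (nat_lit 187)))))) (XT.nd (nat_lit 390) (nat_lit 456) (nat_lit 0) (XT.nd (nat_lit 156) (nat_lit 0) (nat_lit 76) (XT.nd (nat_lit 78) (nat_lit 0) (nat_lit 0) (XT.lf (nat_lit 0) (nat_lit 14923627946) (nat_lit 380) (nat_lit 25966474092) (nat_lit 380) (nat_lit 25966474092)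 (nat_lit 26) (nat_lit 3) (nat_lit 31) (nat_lit 3) (nat_lit 31) (nat_lit 5) (nat_lit 325) (nat_lit 325) (nat_lit 250)) (XT.lf (nat_lit 76) (nat_lit 13611099696) (nat_lit 0) (nat_lit 19041661781) (nat_lit 380) (nat_lit 111003825771) (nat_lit 27) (nat_lit 5) (nat_lit 26) (nat_lit 3) (nat_lit 31) (nat_lit 5) (nat_lit 326) (nat_lit 325) (nat_lit 249))) (XT.nd (nat_lit 78) (nat_lit 0) (nat_lit 0) (XT.lf (nat_lit 0) (nat_lit 40921511855) (nat_lit 304) (nat_lit 62189852056) (nat_lit 380) (nat_lit 51223812011) (nat_lit 27) (nat_lit 5) (nat_lit 31) (nat_lit 5) (nat_lit 32) (nat_lit 5) (nat_lit 327) (nat_lit 325) (nat_lit 248)) (XT.nd (nat_lit 78) (nat_lit 0) (nat_lit 76) (XT.lf (nat_lit 76) (nat_lit 16396713803) (nat_lit 0) (nat_lit 35619035188) (nat_lit 380) (nat_lit 114362028896) (nat_lit 28) (nat_lit 5) (nat_lit 27) (nat_lit 5) (nat_lit 32) (nat_lit 5) (nat_lit 328) (nat_lit 325) (nat_lit 247))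 (XT.lf (nat_lit 0) (nat_lit 69918298977) (nat_lit 304) (nat_lit 67872876936) (nat_lit 76) (nat_lit 41663968615) (nat_lit 28) (nat_lit 5) (nat_lit 32) (nat_lit 5) (nat_lit 29) (nat_lit 5) (nat_lit 329) (nat_lit 325) (nat_lit 246))))) (XT.nd (nat_lit 234) (nat_lit 152) (nat_lit 0) (XT.nd (nat_lit 78) (nat_lit 152) (nat_lit 0) (XT.lf (nat_lit 0) (nat_lit 27283991208) (nat_lit 304) (nat_lit 66047748327) (nat_lit 380) (nat_lit 100738551264) (nat_lit 24) (nat_lit 5) (nat_lit 28) (nat_lit 5) (nat_lit 29) (nat_lit 5) (nat_lit 330) (nat_lit 325) (nat_lit 245)) (XT.nd (nat_lit 78) (nat_lit 152) (nat_lit 0) (XT.lf (nat_lit 0) (nat_lit 124655129197) (nat_lit 380) (nat_lit 66854002384) (nat_lit 76) (nat_lit 18708888214) (nat_lit 24) (nat_lit 5) (nat_lit 29) (nat_lit 5) (nat_lit 25) (nat_lit 5) (nat_lit 331) (nat_lit 325) (nat_lit 244)) (XT.lf (nat_lit 0) (nat_lit 49312783132) (nat_lit 152) (nat_lit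 116550988509) (nat_lit 228) (nat_lit 62146125488) (nat_lit 22) (nat_lit 5) (nat_lit 24) (nat_lit 5) (nat_lit 25) (nat_lit 5) (nat_lit 332) (nat_lit 325) (nat_lit 243)))) (XT.nd (nat_lit 78) (nat_lit 152) (nat_lit 0) (XT.lf (nat_lit 0) (nat_lit 190417692085) (nat_lit 152) (nat_lit 26330362469) (nat_lit 228) (nat_lit 31198350450) (nat_lit 22) (nat_lit 5) (nat_lit 24) (nat_lit 5) (nat_lit 25) (nat_lit 5) (nat_lit 333) (nat_lit 325) (nat_lit 242)) (XT.nd (nat_lit 78) (nat_lit 0) (nat_lit 0) (XT.lf (nat_lit 0) (nat_lit 11102216145) (nat_lit 152) (nat_lit 184070355542) (nat_lit 76) (nat_lit 74608301570) (nat_lit 20) (nat_lit 5) (nat_lit 22) (nat_lit 5) (nat_lit 21) (nat_lit 5) (nat_lit 334) (nat_lit 325) (nat_lit 241)) (XT.lf (nat_lit 0) (nat_lit 60957706573) (nat_lit 152) (nat_lit 40421389447) (nat_lit 76) (nat_lit 192627977382) (nat_lit 20) (nat_lit 5) (nat_lit 22) (nat_lit 5) (nat_lit 21)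 (nat_lit 5) (nat_lit 335) (nat_lit 325) (nat_lit 240))))))) (XT.nd (nat_lit 858) (nat_lit 456) (nat_lit 0) (XT.nd (nat_lit 390) (nat_lit 304) (nat_lit 0) (XT.nd (nat_lit 156) (nat_lit 228) (nat_lit 0) (XT.nd (nat_lit 78) (nat_lit 0) (nat_lit 0) (XT.lf (nat_lit 0) (nat_lit 124501407827) (nat_lit 228) (nat_lit 184586553566) (nat_lit 76) (nat_lit 11847759403) (nat_lit 18) (nat_lit 5) (nat_lit 21) (nat_lit 5) (nat_lit 19) (nat_lit 4) (nat_lit 336) (nat_lit 325) (nat_lit 239)) (XT.lf (nat_lit 0) (nat_lit 204617584307) (nat_lit 228) (nat_lit 12337129581) (nat_lit 76) (nat_lit 133892813684) (nat_lit 18) (nat_lit 5) (nat_lit 21) (nat_lit 5) (nat_lit 19) (nat_lit 4) (nat_lit 337) (nat_lit 325) (nat_lit 238))) (XT.nd (nat_lit 78) (nat_lit 152) (nat_lit 0) (XT.lf (nat_lit 0) (nat_lit 203902202425) (nat_lit 76) (nat_lit 101291959133) (nat_lit 152) (nat_lit 78785497901) (nat_lit 17) (nat_lit 5) (nat_lit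 18) (nat_lit 5) (nat_lit 19) (nat_lit 4) (nat_lit 338) (nat_lit 325) (nat_lit 237)) (XT.nd (nat_lit 78) (nat_lit 0) (nat_lit 0) (XT.lf (nat_lit 0) (nat_lit 2427015251) (nat_lit 152) (nat_lit 388056276944) (nat_lit 76) (nat_lit 31074564342) (nat_lit 15) (nat_lit 5) (nat_lit 17) (nat_lit 5) (nat_lit 16) (nat_lit 4) (nat_lit 339) (nat_lit 325) (nat_lit 236)) (XT.lf (nat_lit 0) (nat_lit 102439911828) (nat_lit 152) (nat_lit 173028752531) (nat_lit 76) (nat_lit 186538669305) (nat_lit 15) (nat_lit 5) (nat_lit 17) (nat_lit 5) (nat_lit 16) (nat_lit 4) (nat_lit 340) (nat_lit 325) (nat_lit 235))))) (XT.nd (nat_lit 234) (nat_lit 152) (nat_lit 0) (XT.nd (nat_lit 78) (nat_lit 76) (nat_lit 0) (XT.lf (nat_lit 0) (nat_lit 81509146824) (nat_lit 76) (nat_lit 139320567829) (nat_lit 152) (nat_lit 287188272079) (nat_lit 14) (nat_lit 5) (nat_lit 15) (nat_lit 5) (nat_lit 16) (nat_lit 4) (nat_lit 341) (nat_lit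 325) (nat_lit 234)) (XT.nd (nat_lit 78) (nat_lit 76) (nat_lit 0) (XT.lf (nat_lit 0) (nat_lit 367167503274) (nat_lit 152) (nat_lit 167044972159) (nat_lit 0) (nat_lit 25189335142) (nat_lit 14) (nat_lit 5) (nat_lit 16) (nat_lit 4) (nat_lit 14) (nat_lit 4) (nat_lit 342) (nat_lit 325) (nat_lit 233)) (XT.lf (nat_lit 0) (nat_lit 136890906697) (nat_lit 76) (nat_lit 410867601746) (nat_lit 76) (nat_lit 68889317418) (nat_lit 13) (nat_lit 4) (nat_lit 14) (nat_lit 5) (nat_lit 14) (nat_lit 4) (nat_lit 343) (nat_lit 325) (nat_lit 232)))) (XT.nd (nat_lit 78) (nat_lit 76) (nat_lit 0) (XT.lf (nat_lit 0) (nat_lit 75609824124) (nat_lit 152) (nat_lit 179417263501) (nat_lit 76) (nat_lit 425628367617) (nat_lit 12) (nat_lit 5) (nat_lit 14) (nat_lit 5) (nat_lit 13) (nat_lit 4) (nat_lit 344) (nat_lit 325) (nat_lit 231)) (XT.nd (nat_lit 78) (nat_lit 0) (nat_lit 0) (XT.lf (nat_lit 0) (nat_lit 178592207454) (nat_lit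 76) (nat_lit 63533690538) (nat_lit 152) (nat_lit 510537012299) (nat_lit 11) (nat_lit 5) (nat_lit 12) (nat_lit 5) (nat_lit 13) (nat_lit 4) (nat_lit 345) (nat_lit 325) (nat_lit 230)) (XT.lf (nat_lit 0) (nat_lit 449932447344) (nat_lit 152) (nat_lit 230532281160) (nat_lit 0) (nat_lit 152559795491) (nat_lit 11) (nat_lit 5) (nat_lit 13) (nat_lit 4) (nat_lit 11) (nat_lit 4) (nat_lit 346) (nat_lit 325) (nat_lit 229)))))) (XT.nd (nat_lit 390) (nat_lit 228) (nat_lit 0) (XT.nd (nat_lit 156) (nat_lit 152) (nat_lit 0) (XT.nd (nat_lit 78) (nat_lit 0) (nat_lit 0) (XT.lf (nat_lit 0) (nat_lit 177295371753) (nat_lit 76) (nat_lit 521981352920) (nat_lit 76) (nat_lit 224608643298) (nat_lit 10) (nat_lit 4) (nat_lit 11) (nat_lit 5) (nat_lit 11) (nat_lit 4) (nat_lit 347) (nat_lit 325) (nat_lit 228)) (XT.lf (nat_lit 0) (nat_lit 672205687295) (nat_lit 76) (nat_lit 325867420743) (nat_lit 76) (nat_lit 28494660886)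 (nat_lit 10) (nat_lit 4) (nat_lit 11) (nat_lit 5) (nat_lit 11) (nat_lit 4) (nat_lit 348) (nat_lit 325) (nat_lit 227))) (XT.nd (nat_lit 78) (nat_lit 0) (nat_lit 0) (XT.lf (nat_lit 0) (nat_lit 97193877665) (nat_lit 76) (nat_lit 86325508941) (nat_lit 152) (nat_lit 959305637919) (nat_lit 8) (nat_lit 5) (nat_lit 9) (nat_lit 5) (nat_lit 10) (nat_lit 4) (nat_lit 349) (nat_lit 325) (nat_lit 226)) (XT.nd (nat_lit 78) (nat_lit 0) (nat_lit 0) (XT.lf (nat_lit 0) (nat_lit 451655897880) (nat_lit 152) (nat_lit 627504968954) (nat_lit 0) (nat_lit 193070818294) (nat_lit 8) (nat_lit 5) (nat_lit 10) (nat_lit 4) (nat_lit 8) (nat_lit 4) (nat_lit 350) (nat_lit 325) (nat_lit 225)) (XT.lf (nat_lit 0) (nat_lit 764123556662) (nat_lit 152) (nat_lit 150770739208) (nat_lit 0) (nat_lit 505538448354) (nat_lit 8) (nat_lit 5) (nat_lit 10) (nat_lit 4) (nat_lit 8) (nat_lit 4) (nat_lit 351) (nat_lit 325) (nat_lit 224)))))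 (XT.nd (nat_lit 234) (nat_lit 76) (nat_lit 0) (XT.nd (nat_lit 78) (nat_lit 76) (nat_lit 0) (XT.lf (nat_lit 0) (nat_lit 436317508222) (nat_lit 76) (nat_lit 705210774733) (nat_lit 76) (nat_lit 446625641449) (nat_lit 7) (nat_lit 4) (nat_lit 8) (nat_lit 5) (nat_lit 8) (nat_lit 4) (nat_lit 352) (nat_lit 325) (nat_lit 223)) (XT.nd (nat_lit 78) (nat_lit 76) (nat_lit 0) (XT.lf (nat_lit 0) (nat_lit 1128413454735) (nat_lit 76) (nat_lit 455011405309) (nat_lit 76) (nat_lit 196426250308) (nat_lit 7) (nat_lit 4) (nat_lit 8) (nat_lit 5) (nat_lit 8) (nat_lit 4) (nat_lit 353) (nat_lit 325) (nat_lit 222)) (XT.lf (nat_lit 0) (nat_lit 83174569746) (nat_lit 152) (nat_lit 79759848931) (nat_lit 76) (nat_lit 1836801363481) (nat_lit 6) (nat_lit 5) (nat_lit 8) (nat_lit 5) (nat_lit 7) (nat_lit 4) (nat_lit 354) (nat_lit 325) (nat_lit 221)))) (XT.nd (nat_lit 78) (nat_lit 0) (nat_lit 0) (XT.lf (nat_lit 0) (nat_lit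 419274894458) (nat_lit 152) (nat_lit 1632306555178) (nat_lit 0) (nat_lit 194418207233) (nat_lit 5) (nat_lit 5) (nat_lit 7) (nat_lit 4) (nat_lit 5) (nat_lit 4) (nat_lit 355) (nat_lit 325) (nat_lit 220)) (XT.nd (nat_lit 78) (nat_lit 0) (nat_lit 0) (XT.lf (nat_lit 0) (nat_lit 817916807101) (nat_lit 152) (nat_lit 1116407217354) (nat_lit 0) (nat_lit 593060107459) (nat_lit 5) (nat_lit 5) (nat_lit 7) (nat_lit 4) (nat_lit 5) (nat_lit 4) (nat_lit 356) (nat_lit 325) (nat_lit 219)) (XT.lf (nat_lit 0) (nat_lit 1276354968494) (nat_lit 152) (nat_lit 523123057398) (nat_lit 0) (nat_lit 1051498258055) (nat_lit 5) (nat_lit 5) (nat_lit 7) (nat_lit 4) (nat_lit 5) (nat_lit 4) (nat_lit 357) (nat_lit 325) (nat_lit 218))))))))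
noncomputable def xc92 : XT := (XT.nd (nat_lit 1638) (nat_lit 76) (nat_lit 0) (XT.nd (nat_lit 780) (nat_lit 0) (nat_lit 0) (XT.nd (nat_lit 390) (nat_lit 152) (nat_lit 0) (XT.nd (nat_lit 156) (nat_lit 0) (nat_lit 0) (XT.nd (nat_lit 78) (nat_lit 0) (nat_lit 0) (XT.lf (nat_lit 0) (nat_lit 174707311219) (nat_lit 76) (nat_lit 1636085766901) (nat_lit 76) (nat_lit 1411229047072) (nat_lit 4) (nat_lit 4) (nat_lit 5) (nat_lit 5) (nat_lit 5) (nat_lit 4) (nat_lit 358) (nat_lit 325) (nat_lit 217)) (XT.lf (nat_lit 0) (nat_lit 1036004068092) (nat_lit 76) (nat_lit 1416737873462) (nat_lit 76) (nat_lit 1191881145469) (nat_lit 4) (nat_lit 4) (nat_lit 5) (nat_lit 5) (nat_lit 5) (nat_lit 4) (nat_lit 359) (nat_lit 325) (nat_lit 216))) (XT.nd (nat_lit 78) (nat_lit 0) (nat_lit 0) (XT.lf (nat_lit 0) (nat_lit 2026495281807) (nat_lit 76) (nat_lit 1164487825268) (nat_lit 76) (nat_lit 939631090175) (nat_lit 4) (nat_lit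 4) (nat_lit 5) (nat_lit 5) (nat_lit 5) (nat_lit 4) (nat_lit 360) (nat_lit 325) (nat_lit 215)) (XT.nd (nat_lit 78) (nat_lit 0) (nat_lit 0) (XT.lf (nat_lit 0) (nat_lit 3165560128285) (nat_lit 76) (nat_lit 874400295289) (nat_lit 76) (nat_lit 649543554022) (nat_lit 4) (nat_lit 4) (nat_lit 5) (nat_lit 5) (nat_lit 5) (nat_lit 4) (nat_lit 361) (nat_lit 325) (nat_lit 214)) (XT.lf (nat_lit 0) (nat_lit 4475484658869) (nat_lit 76) (nat_lit 540799657938) (nat_lit 76) (nat_lit 315942911303) (nat_lit 4) (nat_lit 4) (nat_lit 5) (nat_lit 5) (nat_lit 5) (nat_lit 4) (nat_lit 362) (nat_lit 325) (nat_lit 213))))) (XT.nd (nat_lit 156) (nat_lit 0) (nat_lit 0) (XT.nd (nat_lit 78) (nat_lit 76) (nat_lit 0) (XT.lf (nat_lit 0) (nat_lit 61670880155) (nat_lit 152) (nat_lit 92264358968) (nat_lit 76) (nat_lit 5917003246511) (nat_lit 3) (nat_lit 5) (nat_lit 5) (nat_lit 5) (nat_lit 4) (nat_lit 4) (nat_lit 363) (nat_lit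 325) (nat_lit 212)) (XT.lf (nat_lit 0) (nat_lit 513098912632) (nat_lit 152) (nat_lit 6080101678537) (nat_lit 0) (nat_lit 317571299274) (nat_lit 2) (nat_lit 5) (nat_lit 4) (nat_lit 4) (nat_lit 2) (nat_lit 4) (nat_lit 364) (nat_lit 325) (nat_lit 211))) (XT.nd (nat_lit 78) (nat_lit 0) (nat_lit 0) (XT.lf (nat_lit 0) (nat_lit 1044623955170) (nat_lit 152) (nat_lit 5981002591284) (nat_lit 0) (nat_lit 849096338742) (nat_lit 2) (nat_lit 5) (nat_lit 4) (nat_lit 4) (nat_lit 2) (nat_lit 4) (nat_lit 365) (nat_lit 325) (nat_lit 210)) (XT.nd (nat_lit 78) (nat_lit 0) (nat_lit 0) (XT.lf (nat_lit 0) (nat_lit 1655877739887) (nat_lit 152) (nat_lit 5867038670618) (nat_lit 0) (nat_lit 1460350120790) (nat_lit 2) (nat_lit 5) (nat_lit 4) (nat_lit 4) (nat_lit 2) (nat_lit 4) (nat_lit 366) (nat_lit 325) (nat_lit 209)) (XT.lf (nat_lit 0) (nat_lit 2358819579963) (nat_lit 152) (nat_lit 5735980187656) (nat_lit 0) (nat_lit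 2163291958545) (nat_lit 2) (nat_lit 5) (nat_lit 4) (nat_lit 4) (nat_lit 2) (nat_lit 4) (nat_lit 367) (nat_lit 325) (nat_lit 208)))))) (XT.nd (nat_lit 390) (nat_lit 0) (nat_lit 0) (XT.nd (nat_lit 156) (nat_lit 0) (nat_lit 0) (XT.nd (nat_lit 78) (nat_lit 0) (nat_lit 0) (XT.lf (nat_lit 0) (nat_lit 3167202685312) (nat_lit 152) (nat_lit 5585262954687) (nat_lit 0) (nat_lit 2971675061876) (nat_lit 2) (nat_lit 5) (nat_lit 4) (nat_lit 4) (nat_lit 2) (nat_lit 4) (nat_lit 368) (nat_lit 325) (nat_lit 207)) (XT.lf (nat_lit 0) (nat_lit 4096843247126) (nat_lit 152) (nat_lit 5411938156285) (nat_lit 0) (nat_lit 3901315621935) (nat_lit 2) (nat_lit 5) (nat_lit 4) (nat_lit 4) (nat_lit 2) (nat_lit 4) (nat_lit 369) (nat_lit 325) (nat_lit 206))) (XT.nd (nat_lit 78) (nat_lit 0) (nat_lit 0) (XT.lf (nat_lit 0) (nat_lit 5165929885092) (nat_lit 152) (nat_lit 5212614655088) (nat_lit 0) (nat_lit 4970402258375) (nat_lit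 2) (nat_lit 5) (nat_lit 4) (nat_lit 4) (nat_lit 2) (nat_lit 4) (nat_lit 370) (nat_lit 325) (nat_lit 205)) (XT.nd (nat_lit 78) (nat_lit 0) (nat_lit 0) (XT.lf (nat_lit 0) (nat_lit 6395379511693) (nat_lit 152) (nat_lit 4983392643466) (nat_lit 0) (nat_lit 6199851883649) (nat_lit 2) (nat_lit 5) (nat_lit 4) (nat_lit 4) (nat_lit 2) (nat_lit 4) (nat_lit 371) (nat_lit 325) (nat_lit 204)) (XT.lf (nat_lit 0) (nat_lit 7809246576144) (nat_lit 152) (nat_lit 4719787342929) (nat_lit 0) (nat_lit 7613718946946) (nat_lit 2) (nat_lit 5) (nat_lit 4) (nat_lit 4) (nat_lit 2) (nat_lit 4) (nat_lit 372) (nat_lit 325) (nat_lit 203))))) (XT.nd (nat_lit 234) (nat_lit 0) (nat_lit 0) (XT.nd (nat_lit 78) (nat_lit 0) (nat_lit 0) (XT.lf (nat_lit 0) (nat_lit 9435193694924) (nat_lit 152) (nat_lit 4416641258467) (nat_lit 0) (nat_lit 9239666064723) (nat_lit 2) (nat_lit 5) (nat_lit 4) (nat_lit 4) (nat_lit 2) (nat_lit 4) (nat_lit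 373) (nat_lit 325) (nat_lit 202)) (XT.nd (nat_lit 78) (nat_lit 0) (nat_lit 0) (XT.lf (nat_lit 0) (nat_lit 11305032876879) (nat_lit 152) (nat_lit 4068023271037) (nat_lit 0) (nat_lit 11109505245806) (nat_lit 2) (nat_lit 5) (nat_lit 4) (nat_lit 4) (nat_lit 2) (nat_lit 4) (nat_lit 374) (nat_lit 325) (nat_lit 201)) (XT.lf (nat_lit 0) (nat_lit 13455347932090) (nat_lit 152) (nat_lit 3667112593927) (nat_lit 0) (nat_lit 13259820300258) (nat_lit 2) (nat_lit 5) (nat_lit 4) (nat_lit 4) (nat_lit 2) (nat_lit 4) (nat_lit 375) (nat_lit 325) (nat_lit 200)))) (XT.nd (nat_lit 78) (nat_lit 0) (nat_lit 0) (XT.lf (nat_lit 0) (nat_lit 15928210242073) (nat_lit 152) (nat_lit 3206065322586) (nat_lit 0) (nat_lit 15732682609581) (nat_lit 2) (nat_lit 5) (nat_lit 4) (nat_lit 4) (nat_lit 2) (nat_lit 4) (nat_lit 376) (nat_lit 325) (nat_lit 199)) (XT.nd (nat_lit 78) (nat_lit 0) (nat_lit 0) (XT.lf (nat_lit 0) (nat_lit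 18772001895500) (nat_lit 152) (nat_lit 2675860966922) (nat_lit 0) (nat_lit 18576474262435) (nat_lit 2) (nat_lit 5) (nat_lit 4) (nat_lit 4) (nat_lit 2) (nat_lit 4) (nat_lit 377) (nat_lit 325) (nat_lit 198)) (XT.lf (nat_lit 0) (nat_lit 22042362294288) (nat_lit 152) (nat_lit 2066125963454) (nat_lit 0) (nat_lit 21846834660723) (nat_lit 2) (nat_lit 5) (nat_lit 4) (nat_lit 4) (nat_lit 2) (nat_lit 4) (nat_lit 378) (nat_lit 325) (nat_lit 197))))))) (XT.nd (nat_lit 42822) (nat_lit 0) (nat_lit 1292) (XT.nd (nat_lit 390) (nat_lit 0) (nat_lit 0) (XT.nd (nat_lit 156) (nat_lit 76) (nat_lit 0) (XT.nd (nat_lit 78) (nat_lit 0) (nat_lit 0) (XT.lf (nat_lit 0) (nat_lit 25803276750585) (nat_lit 152) (nat_lit 1364930714290) (nat_lit 0) (nat_lit 25607749116586) (nat_lit 2) (nat_lit 5) (nat_lit 4) (nat_lit 4) (nat_lit 2) (nat_lit 4) (nat_lit 379) (nat_lit 325) (nat_lit 196)) (XT.lf (nat_lit 0) (nat_lit 30128328373320)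 (nat_lit 152) (nat_lit 558556181944) (nat_lit 0) (nat_lit 29932800738944) (nat_lit 2) (nat_lit 5) (nat_lit 4) (nat_lit 4) (nat_lit 2) (nat_lit 4) (nat_lit 380) (nat_lit 325) (nat_lit 195))) (XT.nd (nat_lit 78) (nat_lit 0) (nat_lit 0) (XT.lf (nat_lit 0) (nat_lit 404813855342) (nat_lit 76) (nat_lit 34714086360859) (nat_lit 76) (nat_lit 34518558726155) (nat_lit 1) (nat_lit 4) (nat_lit 2) (nat_lit 5) (nat_lit 2) (nat_lit 4) (nat_lit 381) (nat_lit 325) (nat_lit 194)) (XT.nd (nat_lit 78) (nat_lit 0) (nat_lit 0) (XT.lf (nat_lit 0) (nat_lit 1575463492916) (nat_lit 76) (nat_lit 39311791595902) (nat_lit 76) (nat_lit 39116263960914) (nat_lit 1) (nat_lit 4) (nat_lit 2) (nat_lit 5) (nat_lit 2) (nat_lit 4) (nat_lit 382) (nat_lit 325) (nat_lit 193)) (XT.lf (nat_lit 0) (nat_lit 2921710573100) (nat_lit 76) (nat_lit 44599152617784) (nat_lit 76) (nat_lit 44403624982547) (nat_lit 1) (nat_lit 4) (nat_lit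 2) (nat_lit 5) (nat_lit 2) (nat_lit 4) (nat_lit 383) (nat_lit 325) (nat_lit 192))))) (XT.nd (nat_lit 390) (nat_lit 0) (nat_lit 0) (XT.nd (nat_lit 78) (nat_lit 0) (nat_lit 0) (XT.lf (nat_lit 0) (nat_lit 4469894712678) (nat_lit 76) (nat_lit 50679617794324) (nat_lit 76) (nat_lit 50484090158871) (nat_lit 1) (nat_lit 4) (nat_lit 2) (nat_lit 5) (nat_lit 2) (nat_lit 4) (nat_lit 384) (nat_lit 325) (nat_lit 191)) (XT.nd (nat_lit 234) (nat_lit 0) (nat_lit 0) (XT.lf (nat_lit 0) (nat_lit 6250306470905) (nat_lit 76) (nat_lit 57672152748541) (nat_lit 76) (nat_lit 57476625112901) (nat_lit 1) (nat_lit 4) (nat_lit 2) (nat_lit 5) (nat_lit 2) (nat_lit 4) (nat_lit 385) (nat_lit 325) (nat_lit 190)) (XT.lf (nat_lit 0) (nat_lit 13360158263777) (nat_lit 76) (nat_lit 85595967027680) (nat_lit 76) (nat_lit 85400439391611) (nat_lit 1) (nat_lit 4) (nat_lit 2) (nat_lit 5) (nat_lit 2) (nat_lit 4) (nat_lit 388) (nat_lit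 325) (nat_lit 187)))) (XT.nd (nat_lit 78) (nat_lit 0) (nat_lit 0) (XT.lf (nat_lit 0) (nat_lit 16474109548134) (nat_lit 76) (nat_lit 97825954370315) (nat_lit 76) (nat_lit 97630426734140) (nat_lit 1) (nat_lit 4) (nat_lit 2) (nat_lit 5) (nat_lit 2) (nat_lit 4) (nat_lit 389) (nat_lit 325) (nat_lit 186)) (XT.nd (nat_lit 41886) (nat_lit 0) (nat_lit 1900) (XT.lf (nat_lit 0) (nat_lit 20055153524006) (nat_lit 76) (nat_lit 111890439814941) (nat_lit 76) (nat_lit 111694912178672) (nat_lit 1) (nat_lit 4) (nat_lit 2) (nat_lit 5) (nat_lit 2) (nat_lit 4) (nat_lit 390) (nat_lit 325) (nat_lit 185)) (XT.lf (nat_lit 0) (nat_lit 17165388004) (nat_lit 380) (nat_lit 29859592620) (nat_lit 380) (nat_lit 29859592620) (nat_lit 26) (nat_lit 3) (nat_lit 31) (nat_lit 3) (nat_lit 31) (nat_lit 5) (nat_lit 326) (nat_lit 326) (nat_lit 248)))))) (XT.nd (nat_lit 390) (nat_lit 456) (nat_lit 0) (XT.nd (nat_lit 156) (nat_lit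 152) (nat_lit 0) (XT.nd (nat_lit 78) (nat_lit 0) (nat_lit 76) (XT.lf (nat_lit 76) (nat_lit 15656301407) (nat_lit 0) (nat_lit 21900113551) (nat_lit 380) (nat_lit 127647787440) (nat_lit 27) (nat_lit 5) (nat_lit 26) (nat_lit 3) (nat_lit 31) (nat_lit 5) (nat_lit 327) (nat_lit 326) (nat_lit 247)) (XT.lf (nat_lit 0) (nat_lit 47064649988) (nat_lit 304) (nat_lit 71514416043) (nat_lit 380) (nat_lit 58905639100) (nat_lit 27) (nat_lit 5) (nat_lit 31) (nat_lit 5) (nat_lit 32) (nat_lit 5) (nat_lit 328) (nat_lit 326) (nat_lit 246))) (XT.nd (nat_lit 78) (nat_lit 228) (nat_lit 0) (XT.lf (nat_lit 76) (nat_lit 18859956795) (nat_lit 0) (nat_lit 40962579985) (nat_lit 380) (nat_lit 131511234864) (nat_lit 28) (nat_lit 5) (nat_lit 27) (nat_lit 5) (nat_lit 32) (nat_lit 5) (nat_lit 329) (nat_lit 326) (nat_lit 245)) (XT.nd (nat_lit 78) (nat_lit 304) (nat_lit 0) (XT.lf (nat_lit 0) (nat_lit 80409867205) (nat_lit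 304) (nat_lit 78049949869) (nat_lit 76) (nat_lit 47913017704) (nat_lit 28) (nat_lit 5) (nat_lit 32) (nat_lit 5) (nat_lit 29) (nat_lit 5) (nat_lit 330) (nat_lit 326) (nat_lit 244)) (XT.lf (nat_lit 0) (nat_lit 31380273106) (nat_lit 304) (nat_lit 75954704553) (nat_lit 380) (nat_lit 115845328293) (nat_lit 24) (nat_lit 5) (nat_lit 28) (nat_lit 5) (nat_lit 29) (nat_lit 5) (nat_lit 331) (nat_lit 326) (nat_lit 243))))) (XT.nd (nat_lit 234) (nat_lit 304) (nat_lit 0) (XT.nd (nat_lit 78) (nat_lit 152) (nat_lit 0) (XT.lf (nat_lit 0) (nat_lit 143356429641) (nat_lit 380) (nat_lit 76878447825) (nat_lit 76) (nat_lit 21515384647) (nat_lit 24) (nat_lit 5) (nat_lit 29) (nat_lit 5) (nat_lit 25) (nat_lit 5) (nat_lit 332) (nat_lit 326) (nat_lit 242)) (XT.nd (nat_lit 78) (nat_lit 0) (nat_lit 0) (XT.lf (nat_lit 0) (nat_lit 56713189385) (nat_lit 152) (nat_lit 134032928173) (nat_lit 228) (nat_lit 71464841905)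 (nat_lit 22) (nat_lit 5) (nat_lit 24) (nat_lit 5) (nat_lit 25) (nat_lit 5) (nat_lit 333) (nat_lit 326) (nat_lit 241)) (XT.lf (nat_lit 0) (nat_lit 218983379622) (nat_lit 152) (nat_lit 30279300655) (nat_lit 228) (nat_lit 35875318317) (nat_lit 22) (nat_lit 5) (nat_lit 24) (nat_lit 5) (nat_lit 25) (nat_lit 5) (nat_lit 334) (nat_lit 326) (nat_lit 240)))) (XT.nd (nat_lit 78) (nat_lit 152) (nat_lit 0) (XT.lf (nat_lit 0) (nat_lit 12769917479) (nat_lit 152) (nat_lit 211677451996) (nat_lit 76) (nat_lit 85800276008) (nat_lit 20) (nat_lit 5) (nat_lit 22) (nat_lit 5) (nat_lit 21) (nat_lit 5) (nat_lit 335) (nat_lit 326) (nat_lit 239)) (XT.nd (nat_lit 78) (nat_lit 152) (nat_lit 0) (XT.lf (nat_lit 0) (nat_lit 70103422483) (nat_lit 152) (nat_lit 46481591884) (nat_lit 76) (nat_lit 221522808078) (nat_lit 20) (nat_lit 5) (nat_lit 22) (nat_lit 5) (nat_lit 21) (nat_lit 5) (nat_lit 336) (nat_lit 326) (nat_lit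 238)) (XT.lf (nat_lit 0) (nat_lit 143178568775) (nat_lit 228) (nat_lit 212271417881) (nat_lit 76) (nat_lit 13625797204) (nat_lit 18) (nat_lit 5) (nat_lit 21) (nat_lit 5) (nat_lit 19) (nat_lit 4) (nat_lit 337) (nat_lit 326) (nat_lit 237))))))))
noncomputable def xc93 : XT := (XT.nd (nat_lit 1716) (nat_lit 152) (nat_lit 0) (XT.nd (nat_lit 858) (nat_lit 456) (nat_lit 0) (XT.nd (nat_lit 390) (nat_lit 304) (nat_lit 0) (XT.nd (nat_lit 156) (nat_lit 228) (nat_lit 0) (XT.nd (nat_lit 78) (nat_lit 76) (nat_lit 0) (XT.lf (nat_lit 0) (nat_lit 235311917409) (nat_lit 228) (nat_lit 14184987087) (nat_lit 76) (nat_lit 153977495641) (nat_lit 18) (nat_lit 5) (nat_lit 21) (nat_lit 5) (nat_lit 19) (nat_lit 4) (nat_lit 338) (nat_lit 326) (nat_lit 236)) (XT.lf (nat_lit 0) (nat_lit 234490121450) (nat_lit 76) (nat_lit 116484745843) (nat_lit 152) (nat_lit 90601501903) (nat_lit 17) (nat_lit 5) (nat_lit 18) (nat_lit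 5) (nat_lit 19) (nat_lit 4) (nat_lit 339) (nat_lit 326) (nat_lit 235))) (XT.nd (nat_lit 78) (nat_lit 76) (nat_lit 0) (XT.lf (nat_lit 0) (nat_lit 2792663154) (nat_lit 152) (nat_lit 446261901573) (nat_lit 76) (nat_lit 35736729468) (nat_lit 15) (nat_lit 5) (nat_lit 17) (nat_lit 5) (nat_lit 16) (nat_lit 4) (nat_lit 340) (nat_lit 326) (nat_lit 234)) (XT.nd (nat_lit 78) (nat_lit 76) (nat_lit 0) (XT.lf (nat_lit 0) (nat_lit 117807286094) (nat_lit 152) (nat_lit 198980615921) (nat_lit 76) (nat_lit 214520322287) (nat_lit 15) (nat_lit 5) (nat_lit 17) (nat_lit 5) (nat_lit 16) (nat_lit 4) (nat_lit 341) (nat_lit 326) (nat_lit 233)) (XT.lf (nat_lit 0) (nat_lit 93737856997) (nat_lit 76) (nat_lit 160217618187) (nat_lit 152) (nat_lit 330265012939) (nat_lit 14) (nat_lit 5) (nat_lit 15) (nat_lit 5) (nat_lit 16) (nat_lit 4) (nat_lit 342) (nat_lit 326) (nat_lit 232))))) (XT.nd (nat_lit 234) (nat_lit 152) (nat_lit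 0) (XT.nd (nat_lit 78) (nat_lit 152) (nat_lit 0) (XT.lf (nat_lit 0) (nat_lit 422243799358) (nat_lit 152) (nat_lit 192099551097) (nat_lit 0) (nat_lit 28968555145) (nat_lit 14) (nat_lit 5) (nat_lit 16) (nat_lit 4) (nat_lit 14) (nat_lit 4) (nat_lit 343) (nat_lit 326) (nat_lit 231)) (XT.nd (nat_lit 78) (nat_lit 76) (nat_lit 0) (XT.lf (nat_lit 0) (nat_lit 157426611093) (nat_lit 76) (nat_lit 472496777172) (nat_lit 76) (nat_lit 79221445097) (nat_lit 13) (nat_lit 4) (nat_lit 14) (nat_lit 5) (nat_lit 14) (nat_lit 4) (nat_lit 344) (nat_lit 326) (nat_lit 230)) (XT.lf (nat_lit 0) (nat_lit 86952303721) (nat_lit 152) (nat_lit 206327955473) (nat_lit 76) (nat_lit 489473362796) (nat_lit 12) (nat_lit 5) (nat_lit 14) (nat_lit 5) (nat_lit 13) (nat_lit 4) (nat_lit 345) (nat_lit 326) (nat_lit 229)))) (XT.nd (nat_lit 78) (nat_lit 76) (nat_lit 0) (XT.lf (nat_lit 0) (nat_lit 205382849872) (nat_lit 76) (nat_lit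 73062882584) (nat_lit 152) (nat_lit 587116471355) (nat_lit 11) (nat_lit 5) (nat_lit 12) (nat_lit 5) (nat_lit 13) (nat_lit 4) (nat_lit 346) (nat_lit 326) (nat_lit 228)) (XT.nd (nat_lit 78) (nat_lit 76) (nat_lit 0) (XT.lf (nat_lit 0) (nat_lit 517423171350) (nat_lit 152) (nat_lit 265110454945) (nat_lit 0) (nat_lit 175444447280) (nat_lit 11) (nat_lit 5) (nat_lit 13) (nat_lit 4) (nat_lit 11) (nat_lit 4) (nat_lit 347) (nat_lit 326) (nat_lit 227)) (XT.lf (nat_lit 0) (nat_lit 203891270070) (nat_lit 76) (nat_lit 600277774384) (nat_lit 76) (nat_lit 258299006631) (nat_lit 10) (nat_lit 4) (nat_lit 11) (nat_lit 5) (nat_lit 11) (nat_lit 4) (nat_lit 348) (nat_lit 326) (nat_lit 226)))))) (XT.nd (nat_lit 390) (nat_lit 228) (nat_lit 0) (XT.nd (nat_lit 156) (nat_lit 76) (nat_lit 0) (XT.nd (nat_lit 78) (nat_lit 152) (nat_lit 0) (XT.lf (nat_lit 0) (nat_lit 773037925218) (nat_lit 76) (nat_lit 374746854311)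 (nat_lit 76) (nat_lit 32768048574) (nat_lit 10) (nat_lit 4) (nat_lit 11) (nat_lit 5) (nat_lit 11) (nat_lit 4) (nat_lit 349) (nat_lit 326) (nat_lit 225)) (XT.lf (nat_lit 0) (nat_lit 111774350458) (nat_lit 76) (nat_lit 99273644530) (nat_lit 152) (nat_lit 1103200677881) (nat_lit 8) (nat_lit 5) (nat_lit 9) (nat_lit 5) (nat_lit 10) (nat_lit 4) (nat_lit 350) (nat_lit 326) (nat_lit 224))) (XT.nd (nat_lit 78) (nat_lit 76) (nat_lit 0) (XT.lf (nat_lit 0) (nat_lit 519404916470) (nat_lit 152) (nat_lit 721629437883) (nat_lit 0) (nat_lit 222031988218) (nat_lit 8) (nat_lit 5) (nat_lit 10) (nat_lit 4) (nat_lit 8) (nat_lit 4) (nat_lit 351) (nat_lit 326) (nat_lit 223)) (XT.nd (nat_lit 78) (nat_lit 76) (nat_lit 0) (XT.lf (nat_lit 0) (nat_lit 878742641386) (nat_lit 152) (nat_lit 173385240164) (nat_lit 0) (nat_lit 581369691416) (nat_lit 8) (nat_lit 5) (nat_lit 10) (nat_lit 4) (nat_lit 8) (nat_lit 4) (nat_lit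 352) (nat_lit 326) (nat_lit 222)) (XT.lf (nat_lit 0) (nat_lit 501766193929) (nat_lit 76) (nat_lit 810991854664) (nat_lit 76) (nat_lit 513618885810) (nat_lit 7) (nat_lit 4) (nat_lit 8) (nat_lit 5) (nat_lit 8) (nat_lit 4) (nat_lit 353) (nat_lit 326) (nat_lit 221))))) (XT.nd (nat_lit 234) (nat_lit 76) (nat_lit 0) (XT.nd (nat_lit 78) (nat_lit 152) (nat_lit 0) (XT.lf (nat_lit 0) (nat_lit 1297676394227) (nat_lit 76) (nat_lit 523262649777) (nat_lit 76) (nat_lit 225889664500) (nat_lit 7) (nat_lit 4) (nat_lit 8) (nat_lit 5) (nat_lit 8) (nat_lit 4) (nat_lit 354) (nat_lit 326) (nat_lit 220)) (XT.nd (nat_lit 78) (nat_lit 76) (nat_lit 0) (XT.lf (nat_lit 0) (nat_lit 95651169783) (nat_lit 152) (nat_lit 91722984521) (nat_lit 76) (nat_lit 2112321932872) (nat_lit 6) (nat_lit 5) (nat_lit 8) (nat_lit 5) (nat_lit 7) (nat_lit 4) (nat_lit 355) (nat_lit 326) (nat_lit 219)) (XT.lf (nat_lit 0) (nat_lit 482166539363)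 (nat_lit 152) (nat_lit 1877151692763) (nat_lit 0) (nat_lit 223581311560) (nat_lit 5) (nat_lit 5) (nat_lit 7) (nat_lit 4) (nat_lit 5) (nat_lit 4) (nat_lit 356) (nat_lit 326) (nat_lit 218)))) (XT.nd (nat_lit 78) (nat_lit 76) (nat_lit 0) (XT.lf (nat_lit 0) (nat_lit 940604685328) (nat_lit 152) (nat_lit 1283867564573) (nat_lit 0) (nat_lit 682019448136) (nat_lit 5) (nat_lit 5) (nat_lit 7) (nat_lit 4) (nat_lit 5) (nat_lit 4) (nat_lit 357) (nat_lit 326) (nat_lit 217)) (XT.nd (nat_lit 78) (nat_lit 76) (nat_lit 0) (XT.lf (nat_lit 0) (nat_lit 1467808524344) (nat_lit 152) (nat_lit 601590876543) (nat_lit 0) (nat_lit 1209223278987) (nat_lit 5) (nat_lit 5) (nat_lit 7) (nat_lit 4) (nat_lit 5) (nat_lit 4) (nat_lit 358) (nat_lit 326) (nat_lit 216)) (XT.lf (nat_lit 0) (nat_lit 200914018300) (nat_lit 76) (nat_lit 1881498316879) (nat_lit 76) (nat_lit 1622913064422) (nat_lit 4) (nat_lit 4) (nat_lit 5) (nat_lit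 5) (nat_lit 5) (nat_lit 4) (nat_lit 359) (nat_lit 326) (nat_lit 215))))))) (XT.nd (nat_lit 858) (nat_lit 0) (nat_lit 0) (XT.nd (nat_lit 390) (nat_lit 76) (nat_lit 0) (XT.nd (nat_lit 156) (nat_lit 76) (nat_lit 0) (XT.nd (nat_lit 78) (nat_lit 0) (nat_lit 0) (XT.lf (nat_lit 0) (nat_lit 1191405209087) (nat_lit 76) (nat_lit 1629248280519) (nat_lit 76) (nat_lit 1370663021889) (nat_lit 4) (nat_lit 4) (nat_lit 5) (nat_lit 5) (nat_lit 5) (nat_lit 4) (nat_lit 360) (nat_lit 326) (nat_lit 214)) (XT.lf (nat_lit 0) (nat_lit 2330470035627) (nat_lit 76) (nat_lit 1339160760830) (nat_lit 76) (nat_lit 1080575496832) (nat_lit 4) (nat_lit 4) (nat_lit 5) (nat_lit 5) (nat_lit 5) (nat_lit 4) (nat_lit 361) (nat_lit 326) (nat_lit 213))) (XT.nd (nat_lit 78) (nat_lit 76) (nat_lit 0) (XT.lf (nat_lit 0) (nat_lit 3640394548874) (nat_lit 76) (nat_lit 1005560132427) (nat_lit 76) (nat_lit 746974863761) (nat_lit 4) (nat_lit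 4) (nat_lit 5) (nat_lit 5) (nat_lit 5) (nat_lit 4) (nat_lit 362) (nat_lit 326) (nat_lit 212)) (XT.nd (nat_lit 78) (nat_lit 76) (nat_lit 0) (XT.lf (nat_lit 0) (nat_lit 5146807706696) (nat_lit 76) (nat_lit 621919426493) (nat_lit 76) (nat_lit 363334153767) (nat_lit 4) (nat_lit 4) (nat_lit 5) (nat_lit 5) (nat_lit 5) (nat_lit 4) (nat_lit 363) (nat_lit 326) (nat_lit 211)) (XT.lf (nat_lit 0) (nat_lit 70921666039) (nat_lit 152) (nat_lit 106103694271) (nat_lit 76) (nat_lit 6804553875061) (nat_lit 3) (nat_lit 5) (nat_lit 5) (nat_lit 5) (nat_lit 4) (nat_lit 4) (nat_lit 364) (nat_lit 326) (nat_lit 210))))) (XT.nd (nat_lit 234) (nat_lit 0) (nat_lit 0) (XT.nd (nat_lit 78) (nat_lit 0) (nat_lit 0) (XT.lf (nat_lit 0) (nat_lit 590063902438) (nat_lit 152) (nat_lit 6992116610801) (nat_lit 0) (nat_lit 365207137808) (nat_lit 2) (nat_lit 5) (nat_lit 4) (nat_lit 4) (nat_lit 2) (nat_lit 4) (nat_lit 365) (nat_lit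 326) (nat_lit 209)) (XT.nd (nat_lit 78) (nat_lit 0) (nat_lit 0) (XT.lf (nat_lit 0) (nat_lit 1201317681412) (nat_lit 152) (nat_lit 6878152702137) (nat_lit 0) (nat_lit 976460914460) (nat_lit 2) (nat_lit 5) (nat_lit 4) (nat_lit 4) (nat_lit 2) (nat_lit 4) (nat_lit 366) (nat_lit 326) (nat_lit 208)) (XT.lf (nat_lit 0) (nat_lit 1904259516493) (nat_lit 152) (nat_lit 6747094229611) (nat_lit 0) (nat_lit 1679402747523) (nat_lit 2) (nat_lit 5) (nat_lit 4) (nat_lit 4) (nat_lit 2) (nat_lit 4) (nat_lit 367) (nat_lit 326) (nat_lit 207)))) (XT.nd (nat_lit 78) (nat_lit 0) (nat_lit 0) (XT.lf (nat_lit 0) (nat_lit 2712642617499) (nat_lit 152) (nat_lit 6596377005717) (nat_lit 0) (nat_lit 2487785846774) (nat_lit 2) (nat_lit 5) (nat_lit 4) (nat_lit 4) (nat_lit 2) (nat_lit 4) (nat_lit 368) (nat_lit 326) (nat_lit 206)) (XT.nd (nat_lit 78) (nat_lit 0) (nat_lit 0) (XT.lf (nat_lit 0) (nat_lit 3642283175536) (nat_lit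 152) (nat_lit 6423052215206) (nat_lit 0) (nat_lit 3417426403286) (nat_lit 2) (nat_lit 5) (nat_lit 4) (nat_lit 4) (nat_lit 2) (nat_lit 4) (nat_lit 369) (nat_lit 326) (nat_lit 205)) (XT.lf (nat_lit 0) (nat_lit 4711369810219) (nat_lit 152) (nat_lit 6223728720872) (nat_lit 0) (nat_lit 4486513036641) (nat_lit 2) (nat_lit 5) (nat_lit 4) (nat_lit 4) (nat_lit 2) (nat_lit 4) (nat_lit 370) (nat_lit 326) (nat_lit 204)))))) (XT.nd (nat_lit 390) (nat_lit 0) (nat_lit 0) (XT.nd (nat_lit 156) (nat_lit 0) (nat_lit 0) (XT.nd (nat_lit 78) (nat_lit 0) (nat_lit 0) (XT.lf (nat_lit 0) (nat_lit 5940819433964) (nat_lit 152) (nat_lit 5994506715216) (nat_lit 0) (nat_lit 5715962659232) (nat_lit 2) (nat_lit 5) (nat_lit 4) (nat_lit 4) (nat_lit 2) (nat_lit 4) (nat_lit 371) (nat_lit 326) (nat_lit 203)) (XT.lf (nat_lit 0) (nat_lit 7354686495932) (nat_lit 152) (nat_lit 5730901419868) (nat_lit 0) (nat_lit 7129829720197)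 (nat_lit 2) (nat_lit 5) (nat_lit 4) (nat_lit 4) (nat_lit 2) (nat_lit 4) (nat_lit 372) (nat_lit 326) (nat_lit 202))) (XT.nd (nat_lit 78) (nat_lit 0) (nat_lit 0) (XT.lf (nat_lit 0) (nat_lit 8980633612553) (nat_lit 152) (nat_lit 5427755339918) (nat_lit 0) (nat_lit 8755776835946) (nat_lit 2) (nat_lit 5) (nat_lit 4) (nat_lit 4) (nat_lit 2) (nat_lit 4) (nat_lit 373) (nat_lit 326) (nat_lit 201)) (XT.nd (nat_lit 78) (nat_lit 0) (nat_lit 0) (XT.lf (nat_lit 0) (nat_lit 10850472792630) (nat_lit 152) (nat_lit 5079137356411) (nat_lit 0) (nat_lit 10625616015264) (nat_lit 2) (nat_lit 5) (nat_lit 4) (nat_lit 4) (nat_lit 2) (nat_lit 4) (nat_lit 374) (nat_lit 326) (nat_lit 200)) (XT.lf (nat_lit 0) (nat_lit 13000787846208) (nat_lit 152) (nat_lit 4678226682713) (nat_lit 0) (nat_lit 12775931068183) (nat_lit 2) (nat_lit 5) (nat_lit 4) (nat_lit 4) (nat_lit 2) (nat_lit 4) (nat_lit 375) (nat_lit 326) (nat_lit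 199))))) (XT.nd (nat_lit 234) (nat_lit 0) (nat_lit 0) (XT.nd (nat_lit 78) (nat_lit 0) (nat_lit 0) (XT.lf (nat_lit 0) (nat_lit 15473650154771) (nat_lit 152) (nat_lit 4217179414338) (nat_lit 0) (nat_lit 15248793376172) (nat_lit 2) (nat_lit 5) (nat_lit 4) (nat_lit 4) (nat_lit 2) (nat_lit 4) (nat_lit 376) (nat_lit 326) (nat_lit 198)) (XT.nd (nat_lit 78) (nat_lit 0) (nat_lit 0) (XT.lf (nat_lit 0) (nat_lit 18317441806964) (nat_lit 152) (nat_lit 3686975061254) (nat_lit 0) (nat_lit 18092585027866) (nat_lit 2) (nat_lit 5) (nat_lit 4) (nat_lit 4) (nat_lit 2) (nat_lit 4) (nat_lit 377) (nat_lit 326) (nat_lit 197)) (XT.lf (nat_lit 0) (nat_lit 21587802204678) (nat_lit 152) (nat_lit 3077240060030) (nat_lit 0) (nat_lit 21362945425146) (nat_lit 2) (nat_lit 5) (nat_lit 4) (nat_lit 4) (nat_lit 2) (nat_lit 4) (nat_lit 378) (nat_lit 326) (nat_lit 196)))) (XT.nd (nat_lit 78) (nat_lit 0) (nat_lit 0) (XT.lf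 (nat_lit 0) (nat_lit 25348716660042) (nat_lit 152) (nat_lit 2376044812816) (nat_lit 0) (nat_lit 25123859880132) (nat_lit 2) (nat_lit 5) (nat_lit 4) (nat_lit 4) (nat_lit 2) (nat_lit 4) (nat_lit 379) (nat_lit 326) (nat_lit 195)) (XT.nd (nat_lit 78) (nat_lit 0) (nat_lit 0) (XT.lf (nat_lit 0) (nat_lit 29673768281964) (nat_lit 152) (nat_lit 1569670282166) (nat_lit 0) (nat_lit 29448911501727) (nat_lit 2) (nat_lit 5) (nat_lit 4) (nat_lit 4) (nat_lit 2) (nat_lit 4) (nat_lit 380) (nat_lit 326) (nat_lit 194)) (XT.lf (nat_lit 0) (nat_lit 34647577645658) (nat_lit 152) (nat_lit 642339575091) (nat_lit 0) (nat_lit 34422720865136) (nat_lit 2) (nat_lit 5) (nat_lit 4) (nat_lit 4) (nat_lit 2) (nat_lit 4) (nat_lit 381) (nat_lit 326) (nat_lit 193))))))))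
noncomputable def xc94 : XT := (XT.nd (nat_lit 43602) (nat_lit 0) (nat_lit 228) (XT.nd (nat_lit 42744) (nat_lit 0) (nat_lit 1292) (XT.nd (nat_lit 468) (nat_lit 0) (nat_lit 0) (XT.nd (nat_lit 156) (nat_lit 0) (nat_lit 0) (XT.nd (nat_lit 78) (nat_lit 0) (nat_lit 0) (XT.lf (nat_lit 0) (nat_lit 465535966236) (nat_lit 76) (nat_lit 39921199297954) (nat_lit 76) (nat_lit 39696342517184) (nat_lit 1) (nat_lit 4) (nat_lit 2) (nat_lit 5) (nat_lit 2) (nat_lit 4) (nat_lit 382) (nat_lit 326) (nat_lit 192)) (XT.lf (nat_lit 0) (nat_lit 1811783045195) (nat_lit 76) (nat_lit 45208560320476) (nat_lit 76) (nat_lit 44983703539490) (nat_lit 1) (nat_lit 4) (nat_lit 2) (nat_lit 5) (nat_lit 2) (nat_lit 4) (nat_lit 383) (nat_lit 326) (nat_lit 191))) (XT.nd (nat_lit 78) (nat_lit 0) (nat_lit 0) (XT.lf (nat_lit 0) (nat_lit 3359967183710) (nat_lit 76) (nat_lit 51289025497572) (nat_lit 76) (nat_lit 51064168716398) (nat_lit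 1) (nat_lit 4) (nat_lit 2) (nat_lit 5) (nat_lit 2) (nat_lit 4) (nat_lit 384) (nat_lit 326) (nat_lit 190)) (XT.nd (nat_lit 156) (nat_lit 0) (nat_lit 0) (XT.lf (nat_lit 0) (nat_lit 5140378941011) (nat_lit 76) (nat_lit 58281560452272) (nat_lit 76) (nat_lit 58056703670936) (nat_lit 1) (nat_lit 4) (nat_lit 2) (nat_lit 5) (nat_lit 2) (nat_lit 4) (nat_lit 385) (nat_lit 326) (nat_lit 189)) (XT.lf (nat_lit 0) (nat_lit 9542447005712) (nat_lit 76) (nat_lit 75570603130501) (nat_lit 76) (nat_lit 75345746348899) (nat_lit 1) (nat_lit 4) (nat_lit 2) (nat_lit 5) (nat_lit 2) (nat_lit 4) (nat_lit 387) (nat_lit 326) (nat_lit 187))))) (XT.nd (nat_lit 156) (nat_lit 0) (nat_lit 0) (XT.nd (nat_lit 78) (nat_lit 0) (nat_lit 0) (XT.lf (nat_lit 0) (nat_lit 12250230731769) (nat_lit 76) (nat_lit 86205374732516) (nat_lit 76) (nat_lit 85980517950807) (nat_lit 1) (nat_lit 4) (nat_lit 2) (nat_lit 5) (nat_lit 2) (nat_lit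 4) (nat_lit 388) (nat_lit 326) (nat_lit 186)) (XT.lf (nat_lit 0) (nat_lit 15364182015596) (nat_lit 76) (nat_lit 98435362075428) (nat_lit 76) (nat_lit 98210505293626) (nat_lit 1) (nat_lit 4) (nat_lit 2) (nat_lit 5) (nat_lit 2) (nat_lit 4) (nat_lit 389) (nat_lit 326) (nat_lit 185))) (XT.nd (nat_lit 41964) (nat_lit 0) (nat_lit 1900) (XT.lf (nat_lit 0) (nat_lit 18945225991009) (nat_lit 76) (nat_lit 112499847520294) (nat_lit 76) (nat_lit 112274990738411) (nat_lit 1) (nat_lit 4) (nat_lit 2) (nat_lit 5) (nat_lit 2) (nat_lit 4) (nat_lit 390) (nat_lit 326) (nat_lit 184)) (XT.nd (nat_lit 78) (nat_lit 0) (nat_lit 0) (XT.lf (nat_lit 0) (nat_lit 19742627861) (nat_lit 380) (nat_lit 34337130691) (nat_lit 380) (nat_lit 34337130691) (nat_lit 26) (nat_lit 3) (nat_lit 31) (nat_lit 3) (nat_lit 31) (nat_lit 5) (nat_lit 327) (nat_lit 327) (nat_lit 246)) (XT.lf (nat_lit 76) (nat_lit 18007420914) (nat_lit 0)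 (nat_lit 25186795992) (nat_lit 380) (nat_lit 146789955785) (nat_lit 27) (nat_lit 5) (nat_lit 26) (nat_lit 3) (nat_lit 31) (nat_lit 5) (nat_lit 328) (nat_lit 327) (nat_lit 245)))))) (XT.nd (nat_lit 390) (nat_lit 456) (nat_lit 0) (XT.nd (nat_lit 156) (nat_lit 228) (nat_lit 0) (XT.nd (nat_lit 78) (nat_lit 0) (nat_lit 0) (XT.lf (nat_lit 0) (nat_lit 54128061176) (nat_lit 304) (nat_lit 82238619038) (nat_lit 380) (nat_lit 67740165711) (nat_lit 27) (nat_lit 5) (nat_lit 31) (nat_lit 5) (nat_lit 32) (nat_lit 5) (nat_lit 329) (nat_lit 327) (nat_lit 244)) (XT.lf (nat_lit 76) (nat_lit 21691775207) (nat_lit 0) (nat_lit 47107488358) (nat_lit 380) (nat_lit 151234064996) (nat_lit 28) (nat_lit 5) (nat_lit 27) (nat_lit 5) (nat_lit 32) (nat_lit 5) (nat_lit 330) (nat_lit 327) (nat_lit 243))) (XT.nd (nat_lit 78) (nat_lit 304) (nat_lit 0) (XT.lf (nat_lit 0) (nat_lit 92474238311) (nat_lit 304) (nat_lit 89754524687)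 (nat_lit 76) (nat_lit 55099557352) (nat_lit 28) (nat_lit 5) (nat_lit 32) (nat_lit 5) (nat_lit 29) (nat_lit 5) (nat_lit 331) (nat_lit 327) (nat_lit 242)) (XT.nd (nat_lit 78) (nat_lit 0) (nat_lit 0) (XT.lf (nat_lit 0) (nat_lit 36090099112) (nat_lit 304) (nat_lit 87347754453) (nat_lit 380) (nat_lit 133219098681) (nat_lit 24) (nat_lit 5) (nat_lit 28) (nat_lit 5) (nat_lit 29) (nat_lit 5) (nat_lit 332) (nat_lit 327) (nat_lit 241)) (XT.lf (nat_lit 0) (nat_lit 164862186008) (nat_lit 380) (nat_lit 88407451358) (nat_lit 76) (nat_lit 24742815748) (nat_lit 24) (nat_lit 5) (nat_lit 29) (nat_lit 5) (nat_lit 25) (nat_lit 5) (nat_lit 333) (nat_lit 327) (nat_lit 240))))) (XT.nd (nat_lit 234) (nat_lit 152) (nat_lit 0) (XT.nd (nat_lit 78) (nat_lit 152) (nat_lit 0) (XT.lf (nat_lit 0) (nat_lit 65222805815) (nat_lit 152) (nat_lit 154137331587) (nat_lit 228) (nat_lit 82182146712) (nat_lit 22) (nat_lit 5) (nat_lit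 24) (nat_lit 5) (nat_lit 25) (nat_lit 5) (nat_lit 334) (nat_lit 327) (nat_lit 239)) (XT.nd (nat_lit 78) (nat_lit 152) (nat_lit 0) (XT.lf (nat_lit 0) (nat_lit 251833180498) (nat_lit 152) (nat_lit 34820729830) (nat_lit 228) (nat_lit 41254510430) (nat_lit 22) (nat_lit 5) (nat_lit 24) (nat_lit 5) (nat_lit 25) (nat_lit 5) (nat_lit 335) (nat_lit 327) (nat_lit 238)) (XT.lf (nat_lit 0) (nat_lit 14687196340) (nat_lit 152) (nat_lit 243426455900) (nat_lit 76) (nat_lit 98670868791) (nat_lit 20) (nat_lit 5) (nat_lit 22) (nat_lit 5) (nat_lit 21) (nat_lit 5) (nat_lit 336) (nat_lit 327) (nat_lit 237)))) (XT.nd (nat_lit 78) (nat_lit 152) (nat_lit 0) (XT.lf (nat_lit 0) (nat_lit 80620493454) (nat_lit 152) (nat_lit 53451557713) (nat_lit 76) (nat_lit 254751708753) (nat_lit 20) (nat_lit 5) (nat_lit 22) (nat_lit 5) (nat_lit 21) (nat_lit 5) (nat_lit 337) (nat_lit 327) (nat_lit 236)) (XT.nd (nat_lit 78) (nat_lit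 0) (nat_lit 0) (XT.lf (nat_lit 0) (nat_lit 164656828401) (nat_lit 228) (nat_lit 244109772363) (nat_lit 76) (nat_lit 15670327571) (nat_lit 18) (nat_lit 5) (nat_lit 21) (nat_lit 5) (nat_lit 19) (nat_lit 4) (nat_lit 338) (nat_lit 327) (nat_lit 235)) (XT.lf (nat_lit 0) (nat_lit 270609987028) (nat_lit 228) (nat_lit 16310684542) (nat_lit 76) (nat_lit 177074694584) (nat_lit 18) (nat_lit 5) (nat_lit 21) (nat_lit 5) (nat_lit 19) (nat_lit 4) (nat_lit 339) (nat_lit 327) (nat_lit 234))))))) (XT.nd (nat_lit 858) (nat_lit 456) (nat_lit 0) (XT.nd (nat_lit 390) (nat_lit 304) (nat_lit 0) (XT.nd (nat_lit 156) (nat_lit 76) (nat_lit 0) (XT.nd (nat_lit 78) (nat_lit 152) (nat_lit 0) (XT.lf (nat_lit 0) (nat_lit 269665597067) (nat_lit 76) (nat_lit 133956696161) (nat_lit 152) (nat_lit 104190350490) (nat_lit 17) (nat_lit 5) (nat_lit 18) (nat_lit 5) (nat_lit 19) (nat_lit 4) (nat_lit 340) (nat_lit 327) (nat_lit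 233)) (XT.lf (nat_lit 0) (nat_lit 3212769141) (nat_lit 152) (nat_lit 513199056818) (nat_lit 76) (nat_lit 41097980268) (nat_lit 15) (nat_lit 5) (nat_lit 17) (nat_lit 5) (nat_lit 16) (nat_lit 4) (nat_lit 341) (nat_lit 327) (nat_lit 232))) (XT.nd (nat_lit 78) (nat_lit 76) (nat_lit 0) (XT.lf (nat_lit 0) (nat_lit 135479428151) (nat_lit 152) (nat_lit 228825856143) (nat_lit 76) (nat_lit 246699015309) (nat_lit 15) (nat_lit 5) (nat_lit 17) (nat_lit 5) (nat_lit 16) (nat_lit 4) (nat_lit 342) (nat_lit 327) (nat_lit 231)) (XT.nd (nat_lit 78) (nat_lit 0) (nat_lit 0) (XT.lf (nat_lit 0) (nat_lit 107800303524) (nat_lit 76) (nat_lit 184249478444) (nat_lit 152) (nat_lit 379803630702) (nat_lit 14) (nat_lit 5) (nat_lit 15) (nat_lit 5) (nat_lit 16) (nat_lit 4) (nat_lit 343) (nat_lit 327) (nat_lit 230)) (XT.lf (nat_lit 0) (nat_lit 485581254398) (nat_lit 152) (nat_lit 220912845285) (nat_lit 0) (nat_lit 33314458251)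 (nat_lit 14) (nat_lit 5) (nat_lit 16) (nat_lit 4) (nat_lit 14) (nat_lit 4) (nat_lit 344) (nat_lit 327) (nat_lit 229))))) (XT.nd (nat_lit 234) (nat_lit 76) (nat_lit 0) (XT.nd (nat_lit 78) (nat_lit 152) (nat_lit 0) (XT.lf (nat_lit 0) (nat_lit 181042166758) (nat_lit 76) (nat_lit 543370564192) (nat_lit 76) (nat_lit 91103701609) (nat_lit 13) (nat_lit 4) (nat_lit 14) (nat_lit 5) (nat_lit 14) (nat_lit 4) (nat_lit 345) (nat_lit 327) (nat_lit 228)) (XT.nd (nat_lit 78) (nat_lit 76) (nat_lit 0) (XT.lf (nat_lit 0) (nat_lit 99995909944) (nat_lit 152) (nat_lit 237275713972) (nat_lit 76) (nat_lit 562894926790) (nat_lit 12) (nat_lit 5) (nat_lit 14) (nat_lit 5) (nat_lit 13) (nat_lit 4) (nat_lit 346) (nat_lit 327) (nat_lit 227)) (XT.lf (nat_lit 0) (nat_lit 236191646957) (nat_lit 76) (nat_lit 84021663528) (nat_lit 152) (nat_lit 675183115754) (nat_lit 11) (nat_lit 5) (nat_lit 12) (nat_lit 5) (nat_lit 13)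 (nat_lit 4) (nat_lit 347) (nat_lit 327) (nat_lit 226)))) (XT.nd (nat_lit 78) (nat_lit 76) (nat_lit 0) (XT.lf (nat_lit 0) (nat_lit 595037294996) (nat_lit 152) (nat_lit 304875761645) (nat_lit 0) (nat_lit 201761630413) (nat_lit 11) (nat_lit 5) (nat_lit 13) (nat_lit 4) (nat_lit 11) (nat_lit 4) (nat_lit 348) (nat_lit 327) (nat_lit 225)) (XT.nd (nat_lit 78) (nat_lit 0) (nat_lit 0) (XT.lf (nat_lit 0) (nat_lit 234476164779) (nat_lit 76) (nat_lit 690318849634) (nat_lit 76) (nat_lit 297043152021) (nat_lit 10) (nat_lit 4) (nat_lit 11) (nat_lit 5) (nat_lit 11) (nat_lit 4) (nat_lit 349) (nat_lit 327) (nat_lit 224)) (XT.lf (nat_lit 0) (nat_lit 888994661131) (nat_lit 76) (nat_lit 430958368626) (nat_lit 76) (nat_lit 37682642291) (nat_lit 10) (nat_lit 4) (nat_lit 11) (nat_lit 5) (nat_lit 11) (nat_lit 4) (nat_lit 350) (nat_lit 327) (nat_lit 223)))))) (XT.nd (nat_lit 390) (nat_lit 228) (nat_lit 0) (XT.nd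 (nat_lit 156) (nat_lit 76) (nat_lit 0) (XT.nd (nat_lit 78) (nat_lit 0) (nat_lit 0) (XT.lf (nat_lit 0) (nat_lit 128541554931) (nat_lit 76) (nat_lit 114164168902) (nat_lit 152) (nat_lit 1268680170318) (nat_lit 8) (nat_lit 5) (nat_lit 9) (nat_lit 5) (nat_lit 10) (nat_lit 4) (nat_lit 351) (nat_lit 327) (nat_lit 222)) (XT.lf (nat_lit 0) (nat_lit 597316133265) (nat_lit 152) (nat_lit 829872888414) (nat_lit 0) (nat_lit 255337200197) (nat_lit 8) (nat_lit 5) (nat_lit 10) (nat_lit 4) (nat_lit 8) (nat_lit 4) (nat_lit 352) (nat_lit 327) (nat_lit 221))) (XT.nd (nat_lit 78) (nat_lit 76) (nat_lit 0) (XT.lf (nat_lit 0) (nat_lit 1010554454398) (nat_lit 152) (nat_lit 199392186926) (nat_lit 0) (nat_lit 668575504908) (nat_lit 8) (nat_lit 5) (nat_lit 10) (nat_lit 4) (nat_lit 8) (nat_lit 4) (nat_lit 353) (nat_lit 327) (nat_lit 220)) (XT.nd (nat_lit 78) (nat_lit 0) (nat_lit 0) (XT.lf (nat_lit 0) (nat_lit 577031924133)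 (nat_lit 76) (nat_lit 932640227361) (nat_lit 76) (nat_lit 590661263591) (nat_lit 7) (nat_lit 4) (nat_lit 8) (nat_lit 5) (nat_lit 8) (nat_lit 4) (nat_lit 354) (nat_lit 327) (nat_lit 219)) (XT.lf (nat_lit 0) (nat_lit 1492328549982) (nat_lit 76) (nat_lit 601751694632) (nat_lit 76) (nat_lit 259772718445) (nat_lit 7) (nat_lit 4) (nat_lit 8) (nat_lit 5) (nat_lit 8) (nat_lit 4) (nat_lit 355) (nat_lit 327) (nat_lit 218))))) (XT.nd (nat_lit 234) (nat_lit 76) (nat_lit 0) (XT.nd (nat_lit 78) (nat_lit 76) (nat_lit 0) (XT.lf (nat_lit 0) (nat_lit 109999158729) (nat_lit 152) (nat_lit 105480795716) (nat_lit 76) (nat_lit 2429170498696) (nat_lit 6) (nat_lit 5) (nat_lit 8) (nat_lit 5) (nat_lit 7) (nat_lit 4) (nat_lit 356) (nat_lit 327) (nat_lit 217)) (XT.nd (nat_lit 78) (nat_lit 0) (nat_lit 0) (XT.lf (nat_lit 0) (nat_lit 554491830843) (nat_lit 152) (nat_lit 2158723807213) (nat_lit 0) (nat_lit 257118790518)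 (nat_lit 5) (nat_lit 5) (nat_lit 7) (nat_lit 4) (nat_lit 5) (nat_lit 4) (nat_lit 357) (nat_lit 327) (nat_lit 216)) (XT.lf (nat_lit 0) (nat_lit 1081695658193) (nat_lit 152) (nat_lit 1476447143203) (nat_lit 0) (nat_lit 784322610768) (nat_lit 5) (nat_lit 5) (nat_lit 7) (nat_lit 4) (nat_lit 5) (nat_lit 4) (nat_lit 358) (nat_lit 327) (nat_lit 215)))) (XT.nd (nat_lit 78) (nat_lit 76) (nat_lit 0) (XT.lf (nat_lit 0) (nat_lit 1687980037836) (nat_lit 152) (nat_lit 691829024498) (nat_lit 0) (nat_lit 1390606984237) (nat_lit 5) (nat_lit 5) (nat_lit 7) (nat_lit 4) (nat_lit 5) (nat_lit 4) (nat_lit 359) (nat_lit 327) (nat_lit 214)) (XT.nd (nat_lit 78) (nat_lit 0) (nat_lit 0) (XT.lf (nat_lit 0) (nat_lit 231051582593) (nat_lit 76) (nat_lit 2163722826182) (nat_lit 76) (nat_lit 1866349767215) (nat_lit 4) (nat_lit 4) (nat_lit 5) (nat_lit 5) (nat_lit 5) (nat_lit 4) (nat_lit 360) (nat_lit 327) (nat_lit 213))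 (XT.lf (nat_lit 0) (nat_lit 1370116391797) (nat_lit 76) (nat_lit 1873635315442) (nat_lit 76) (nat_lit 1576262251807) (nat_lit 4) (nat_lit 4) (nat_lit 5) (nat_lit 5) (nat_lit 5) (nat_lit 4) (nat_lit 361) (nat_lit 327) (nat_lit 212))))))))
noncomputable def xc95 : XT := (XT.nd (nat_lit 1716) (nat_lit 0) (nat_lit 0) (XT.nd (nat_lit 858) (nat_lit 76) (nat_lit 0) (XT.nd (nat_lit 390) (nat_lit 0) (nat_lit 0) (XT.nd (nat_lit 156) (nat_lit 152) (nat_lit 0) (XT.nd (nat_lit 78) (nat_lit 0) (nat_lit 0) (XT.lf (nat_lit 0) (nat_lit 2680040889968) (nat_lit 76) (nat_lit 1540034694820) (nat_lit 76) (nat_lit 1242661627126) (nat_lit 4) (nat_lit 4) (nat_lit 5) (nat_lit 5) (nat_lit 5) (nat_lit 4) (nat_lit 362) (nat_lit 327) (nat_lit 211)) (XT.lf (nat_lit 0) (nat_lit 4186454034681) (nat_lit 76) (nat_lit 1156393995652) (nat_lit 76) (nat_lit 859020924428) (nat_lit 4) (nat_lit 4) (nat_lit 5) (nat_lit 5) (nat_lit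 5) (nat_lit 4) (nat_lit 363) (nat_lit 327) (nat_lit 210))) (XT.nd (nat_lit 78) (nat_lit 152) (nat_lit 0) (XT.lf (nat_lit 0) (nat_lit 5918829126593) (nat_lit 76) (nat_lit 715207204260) (nat_lit 76) (nat_lit 417834129966) (nat_lit 4) (nat_lit 4) (nat_lit 5) (nat_lit 5) (nat_lit 5) (nat_lit 4) (nat_lit 364) (nat_lit 327) (nat_lit 209)) (XT.nd (nat_lit 78) (nat_lit 76) (nat_lit 0) (XT.lf (nat_lit 0) (nat_lit 81560032285) (nat_lit 152) (nat_lit 122019007549) (nat_lit 76) (nat_lit 7825237063370) (nat_lit 3) (nat_lit 5) (nat_lit 5) (nat_lit 5) (nat_lit 4) (nat_lit 4) (nat_lit 365) (nat_lit 327) (nat_lit 208)) (XT.lf (nat_lit 0) (nat_lit 678573603426) (nat_lit 152) (nat_lit 8040933860821) (nat_lit 0) (nat_lit 419988317093) (nat_lit 2) (nat_lit 5) (nat_lit 4) (nat_lit 4) (nat_lit 2) (nat_lit 4) (nat_lit 366) (nat_lit 327) (nat_lit 207))))) (XT.nd (nat_lit 234) (nat_lit 0) (nat_lit 0) (XT.nd (nat_lit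 78) (nat_lit 0) (nat_lit 0) (XT.lf (nat_lit 0) (nat_lit 1381515434165) (nat_lit 152) (nat_lit 7909875397370) (nat_lit 0) (nat_lit 1122930146077) (nat_lit 2) (nat_lit 5) (nat_lit 4) (nat_lit 4) (nat_lit 2) (nat_lit 4) (nat_lit 367) (nat_lit 327) (nat_lit 206)) (XT.nd (nat_lit 78) (nat_lit 0) (nat_lit 0) (XT.lf (nat_lit 0) (nat_lit 2189898531394) (nat_lit 152) (nat_lit 7759158181368) (nat_lit 0) (nat_lit 1931313241780) (nat_lit 2) (nat_lit 5) (nat_lit 4) (nat_lit 4) (nat_lit 2) (nat_lit 4) (nat_lit 368) (nat_lit 327) (nat_lit 205)) (XT.lf (nat_lit 0) (nat_lit 3119539086148) (nat_lit 152) (nat_lit 7585833397719) (nat_lit 0) (nat_lit 2860953795207) (nat_lit 2) (nat_lit 5) (nat_lit 4) (nat_lit 4) (nat_lit 2) (nat_lit 4) (nat_lit 369) (nat_lit 327) (nat_lit 204)))) (XT.nd (nat_lit 78) (nat_lit 0) (nat_lit 0) (XT.lf (nat_lit 0) (nat_lit 4188625717974) (nat_lit 152) (nat_lit 7386509909351) (nat_lit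 0) (nat_lit 3930040425879) (nat_lit 2) (nat_lit 5) (nat_lit 4) (nat_lit 4) (nat_lit 2) (nat_lit 4) (nat_lit 370) (nat_lit 327) (nat_lit 203)) (XT.nd (nat_lit 78) (nat_lit 0) (nat_lit 0) (XT.lf (nat_lit 0) (nat_lit 5418075339236) (nat_lit 152) (nat_lit 7157287908885) (nat_lit 0) (nat_lit 5159490046138) (nat_lit 2) (nat_lit 5) (nat_lit 4) (nat_lit 4) (nat_lit 2) (nat_lit 4) (nat_lit 371) (nat_lit 327) (nat_lit 202)) (XT.lf (nat_lit 0) (nat_lit 6831942399045) (nat_lit 152) (nat_lit 6893682618048) (nat_lit 0) (nat_lit 6573357105074) (nat_lit 2) (nat_lit 5) (nat_lit 4) (nat_lit 4) (nat_lit 2) (nat_lit 4) (nat_lit 372) (nat_lit 327) (nat_lit 201)))))) (XT.nd (nat_lit 390) (nat_lit 76) (nat_lit 0) (XT.nd (nat_lit 156) (nat_lit 0) (nat_lit 0) (XT.nd (nat_lit 78) (nat_lit 0) (nat_lit 0) (XT.lf (nat_lit 0) (nat_lit 8457889513789) (nat_lit 152) (nat_lit 6590536542022) (nat_lit 0) (nat_lit 8199304219059)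 (nat_lit 2) (nat_lit 5) (nat_lit 4) (nat_lit 4) (nat_lit 2) (nat_lit 4) (nat_lit 373) (nat_lit 327) (nat_lit 200)) (XT.lf (nat_lit 0) (nat_lit 10327728692233) (nat_lit 152) (nat_lit 6241918561926) (nat_lit 0) (nat_lit 10069143396844) (nat_lit 2) (nat_lit 5) (nat_lit 4) (nat_lit 4) (nat_lit 2) (nat_lit 4) (nat_lit 374) (nat_lit 327) (nat_lit 199))) (XT.nd (nat_lit 78) (nat_lit 0) (nat_lit 0) (XT.lf (nat_lit 0) (nat_lit 12478043744392) (nat_lit 152) (nat_lit 5841007891195) (nat_lit 0) (nat_lit 12219458448429) (nat_lit 2) (nat_lit 5) (nat_lit 4) (nat_lit 4) (nat_lit 2) (nat_lit 4) (nat_lit 375) (nat_lit 327) (nat_lit 198)) (XT.nd (nat_lit 78) (nat_lit 0) (nat_lit 0) (XT.lf (nat_lit 0) (nat_lit 14950906051720) (nat_lit 152) (nat_lit 5379960625400) (nat_lit 0) (nat_lit 14692320755258) (nat_lit 2) (nat_lit 5) (nat_lit 4) (nat_lit 4) (nat_lit 2) (nat_lit 4) (nat_lit 376) (nat_lit 327) (nat_lit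 197)) (XT.lf (nat_lit 0) (nat_lit 17794697702839) (nat_lit 152) (nat_lit 4849756274559) (nat_lit 0) (nat_lit 17536112405944) (nat_lit 2) (nat_lit 5) (nat_lit 4) (nat_lit 4) (nat_lit 2) (nat_lit 4) (nat_lit 377) (nat_lit 327) (nat_lit 196))))) (XT.nd (nat_lit 234) (nat_lit 76) (nat_lit 0) (XT.nd (nat_lit 78) (nat_lit 0) (nat_lit 0) (XT.lf (nat_lit 0) (nat_lit 21065058099619) (nat_lit 152) (nat_lit 4240021275285) (nat_lit 0) (nat_lit 20806472802347) (nat_lit 2) (nat_lit 5) (nat_lit 4) (nat_lit 4) (nat_lit 2) (nat_lit 4) (nat_lit 378) (nat_lit 327) (nat_lit 195)) (XT.nd (nat_lit 78) (nat_lit 0) (nat_lit 0) (XT.lf (nat_lit 0) (nat_lit 24825972554171) (nat_lit 152) (nat_lit 3538826029767) (nat_lit 0) (nat_lit 24567387256571) (nat_lit 2) (nat_lit 5) (nat_lit 4) (nat_lit 4) (nat_lit 2) (nat_lit 4) (nat_lit 379) (nat_lit 327) (nat_lit 194)) (XT.lf (nat_lit 0) (nat_lit 29151024175389) (nat_lit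 152) (nat_lit 2732451500593) (nat_lit 0) (nat_lit 28892438877503) (nat_lit 2) (nat_lit 5) (nat_lit 4) (nat_lit 4) (nat_lit 2) (nat_lit 4) (nat_lit 380) (nat_lit 327) (nat_lit 193)))) (XT.nd (nat_lit 78) (nat_lit 76) (nat_lit 0) (XT.lf (nat_lit 0) (nat_lit 34124833538469) (nat_lit 152) (nat_lit 1805120794800) (nat_lit 0) (nat_lit 33866248240335) (nat_lit 2) (nat_lit 5) (nat_lit 4) (nat_lit 4) (nat_lit 2) (nat_lit 4) (nat_lit 381) (nat_lit 327) (nat_lit 192)) (XT.nd (nat_lit 78) (nat_lit 76) (nat_lit 0) (XT.lf (nat_lit 0) (nat_lit 39844714304863) (nat_lit 152) (nat_lit 738690485536) (nat_lit 0) (nat_lit 39586129006514) (nat_lit 2) (nat_lit 5) (nat_lit 4) (nat_lit 4) (nat_lit 2) (nat_lit 4) (nat_lit 382) (nat_lit 327) (nat_lit 191)) (XT.lf (nat_lit 0) (nat_lit 535366385817) (nat_lit 76) (nat_lit 45909379179767) (nat_lit 76) (nat_lit 45650793881230) (nat_lit 1) (nat_lit 4) (nat_lit 2) (nat_lit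 5) (nat_lit 2) (nat_lit 4) (nat_lit 383) (nat_lit 327) (nat_lit 190))))))) (XT.nd (nat_lit 42822) (nat_lit 0) (nat_lit 1064) (XT.nd (nat_lit 390) (nat_lit 0) (nat_lit 0) (XT.nd (nat_lit 156) (nat_lit 0) (nat_lit 0) (XT.nd (nat_lit 78) (nat_lit 0) (nat_lit 0) (XT.lf (nat_lit 0) (nat_lit 2083550523405) (nat_lit 76) (nat_lit 51989844357347) (nat_lit 76) (nat_lit 51731259058647) (nat_lit 1) (nat_lit 4) (nat_lit 2) (nat_lit 5) (nat_lit 2) (nat_lit 4) (nat_lit 384) (nat_lit 327) (nat_lit 189)) (XT.lf (nat_lit 0) (nat_lit 3863962279901) (nat_lit 76) (nat_lit 58982379312468) (nat_lit 76) (nat_lit 58723794013626) (nat_lit 1) (nat_lit 4) (nat_lit 2) (nat_lit 5) (nat_lit 2) (nat_lit 4) (nat_lit 385) (nat_lit 327) (nat_lit 188))) (XT.nd (nat_lit 78) (nat_lit 0) (nat_lit 0) (XT.lf (nat_lit 0) (nat_lit 5911435798367) (nat_lit 76) (nat_lit 67023794511645) (nat_lit 76) (nat_lit 66765209212679) (nat_lit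 1) (nat_lit 4) (nat_lit 2) (nat_lit 5) (nat_lit 2) (nat_lit 4) (nat_lit 386) (nat_lit 327) (nat_lit 187)) (XT.nd (nat_lit 78) (nat_lit 0) (nat_lit 0) (XT.lf (nat_lit 0) (nat_lit 8266030343294) (nat_lit 76) (nat_lit 76271421991381) (nat_lit 76) (nat_lit 76012836692308) (nat_lit 1) (nat_lit 4) (nat_lit 2) (nat_lit 5) (nat_lit 2) (nat_lit 4) (nat_lit 387) (nat_lit 327) (nat_lit 186)) (XT.lf (nat_lit 0) (nat_lit 10973814068821) (nat_lit 76) (nat_lit 86906193593672) (nat_lit 76) (nat_lit 86647608294507) (nat_lit 1) (nat_lit 4) (nat_lit 2) (nat_lit 5) (nat_lit 2) (nat_lit 4) (nat_lit 388) (nat_lit 327) (nat_lit 185))))) (XT.nd (nat_lit 42198) (nat_lit 0) (nat_lit 1900) (XT.nd (nat_lit 78) (nat_lit 0) (nat_lit 0) (XT.lf (nat_lit 0) (nat_lit 14087765352189) (nat_lit 76) (nat_lit 99136180936825) (nat_lit 76) (nat_lit 98877595637578) (nat_lit 1) (nat_lit 4) (nat_lit 2) (nat_lit 5) (nat_lit 2) (nat_lit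 4) (nat_lit 389) (nat_lit 327) (nat_lit 184)) (XT.nd (nat_lit 42042) (nat_lit 0) (nat_lit 1900) (XT.lf (nat_lit 0) (nat_lit 17668809327201) (nat_lit 76) (nat_lit 113200666381900) (nat_lit 76) (nat_lit 112942081082583) (nat_lit 1) (nat_lit 4) (nat_lit 2) (nat_lit 5) (nat_lit 2) (nat_lit 4) (nat_lit 390) (nat_lit 327) (nat_lit 183)) (XT.lf (nat_lit 0) (nat_lit 22705860721) (nat_lit 380) (nat_lit 39486641073) (nat_lit 380) (nat_lit 39486641073) (nat_lit 26) (nat_lit 3) (nat_lit 31) (nat_lit 3) (nat_lit 31) (nat_lit 5) (nat_lit 328) (nat_lit 328) (nat_lit 244)))) (XT.nd (nat_lit 78) (nat_lit 0) (nat_lit 76) (XT.lf (nat_lit 76) (nat_lit 20710556203) (nat_lit 0) (nat_lit 28966074679) (nat_lit 380) (nat_lit 168804668609) (nat_lit 27) (nat_lit 5) (nat_lit 26) (nat_lit 3) (nat_lit 31) (nat_lit 5) (nat_lit 329) (nat_lit 328) (nat_lit 243)) (XT.nd (nat_lit 78) (nat_lit 0) (nat_lit 0) (XT.lf (nat_lit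 0) (nat_lit 62250078436) (nat_lit 304) (nat_lit 94572174153) (nat_lit 380) (nat_lit 77900193022) (nat_lit 27) (nat_lit 5) (nat_lit 31) (nat_lit 5) (nat_lit 32) (nat_lit 5) (nat_lit 330) (nat_lit 328) (nat_lit 242)) (XT.lf (nat_lit 76) (nat_lit 24947677513) (nat_lit 0) (nat_lit 54174005847) (nat_lit 380) (nat_lit 173916259739) (nat_lit 28) (nat_lit 5) (nat_lit 27) (nat_lit 5) (nat_lit 32) (nat_lit 5) (nat_lit 331) (nat_lit 328) (nat_lit 241)))))) (XT.nd (nat_lit 390) (nat_lit 532) (nat_lit 0) (XT.nd (nat_lit 156) (nat_lit 152) (nat_lit 0) (XT.nd (nat_lit 78) (nat_lit 304) (nat_lit 0) (XT.lf (nat_lit 0) (nat_lit 106347560088) (nat_lit 304) (nat_lit 103215497219) (nat_lit 76) (nat_lit 63364178662) (nat_lit 28) (nat_lit 5) (nat_lit 32) (nat_lit 5) (nat_lit 29) (nat_lit 5) (nat_lit 332) (nat_lit 328) (nat_lit 240)) (XT.lf (nat_lit 0) (nat_lit 41505719870) (nat_lit 304) (nat_lit 100449799827)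 (nat_lit 380) (nat_lit 153199673234) (nat_lit 24) (nat_lit 5) (nat_lit 28) (nat_lit 5) (nat_lit 29) (nat_lit 5) (nat_lit 333) (nat_lit 328) (nat_lit 239))) (XT.nd (nat_lit 78) (nat_lit 152) (nat_lit 0) (XT.lf (nat_lit 0) (nat_lit 189593246930) (nat_lit 380) (nat_lit 101666479351) (nat_lit 76) (nat_lit 28454331422) (nat_lit 24) (nat_lit 5) (nat_lit 29) (nat_lit 5) (nat_lit 25) (nat_lit 5) (nat_lit 334) (nat_lit 328) (nat_lit 238)) (XT.nd (nat_lit 78) (nat_lit 0) (nat_lit 0) (XT.lf (nat_lit 0) (nat_lit 75008221410) (nat_lit 152) (nat_lit 177257526174) (nat_lit 228) (nat_lit 94507637732) (nat_lit 22) (nat_lit 5) (nat_lit 24) (nat_lit 5) (nat_lit 25) (nat_lit 5) (nat_lit 335) (nat_lit 328) (nat_lit 237)) (XT.lf (nat_lit 0) (nat_lit 289609892114) (nat_lit 152) (nat_lit 40043486999) (nat_lit 228) (nat_lit 47441094833) (nat_lit 22) (nat_lit 5) (nat_lit 24) (nat_lit 5) (nat_lit 25) (nat_lit 5)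 (nat_lit 336) (nat_lit 328) (nat_lit 236))))) (XT.nd (nat_lit 234) (nat_lit 228) (nat_lit 0) (XT.nd (nat_lit 78) (nat_lit 152) (nat_lit 0) (XT.lf (nat_lit 0) (nat_lit 16891630224) (nat_lit 152) (nat_lit 279938447805) (nat_lit 76) (nat_lit 113471916033) (nat_lit 20) (nat_lit 5) (nat_lit 22) (nat_lit 5) (nat_lit 21) (nat_lit 5) (nat_lit 337) (nat_lit 328) (nat_lit 235)) (XT.nd (nat_lit 78) (nat_lit 152) (nat_lit 0) (XT.lf (nat_lit 0) (nat_lit 92714745240) (nat_lit 152) (nat_lit 61467572692) (nat_lit 76) (nat_lit 292964827608) (nat_lit 20) (nat_lit 5) (nat_lit 22) (nat_lit 5) (nat_lit 21) (nat_lit 5) (nat_lit 338) (nat_lit 328) (nat_lit 234)) (XT.lf (nat_lit 0) (nat_lit 189356467451) (nat_lit 228) (nat_lit 280724455079) (nat_lit 76) (nat_lit 18021376356) (nat_lit 18) (nat_lit 5) (nat_lit 21) (nat_lit 5) (nat_lit 19) (nat_lit 4) (nat_lit 339) (nat_lit 328) (nat_lit 233)))) (XT.nd (nat_lit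 78) (nat_lit 228) (nat_lit 0) (XT.lf (nat_lit 0) (nat_lit 311202454465) (nat_lit 228) (nat_lit 18755736668) (nat_lit 76) (nat_lit 203636333250) (nat_lit 18) (nat_lit 5) (nat_lit 21) (nat_lit 5) (nat_lit 19) (nat_lit 4) (nat_lit 340) (nat_lit 328) (nat_lit 232)) (XT.nd (nat_lit 78) (nat_lit 152) (nat_lit 0) (XT.lf (nat_lit 0) (nat_lit 310116916702) (nat_lit 76) (nat_lit 154049624738) (nat_lit 152) (nat_lit 119817862082) (nat_lit 17) (nat_lit 5) (nat_lit 18) (nat_lit 5) (nat_lit 19) (nat_lit 4) (nat_lit 341) (nat_lit 328) (nat_lit 231)) (XT.lf (nat_lit 0) (nat_lit 3695596810) (nat_lit 152) (nat_lit 590177304761) (nat_lit 76) (nat_lit 47263237898) (nat_lit 15) (nat_lit 5) (nat_lit 17) (nat_lit 5) (nat_lit 16) (nat_lit 4) (nat_lit 342) (nat_lit 328) (nat_lit 230))))))))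
noncomputable def xc96 : XT := (XT.nd (nat_lit 1638) (nat_lit 228) (nat_lit 0) (XT.nd (nat_lit 780) (nat_lit 304) (nat_lit 0) (XT.nd (nat_lit 390) (nat_lit 304) (nat_lit 0) (XT.nd (nat_lit 156) (nat_lit 152) (nat_lit 0) (XT.nd (nat_lit 78) (nat_lit 76) (nat_lit 0) (XT.lf (nat_lit 0) (nat_lit 155802135676) (nat_lit 152) (nat_lit 263148334061) (nat_lit 76) (nat_lit 283704355074) (nat_lit 15) (nat_lit 5) (nat_lit 17) (nat_lit 5) (nat_lit 16) (nat_lit 4) (nat_lit 343) (nat_lit 328) (nat_lit 229)) (XT.lf (nat_lit 0) (nat_lit 123971685896) (nat_lit 76) (nat_lit 211886308551) (nat_lit 152) (nat_lit 436773317705) (nat_lit 14) (nat_lit 5) (nat_lit 15) (nat_lit 5) (nat_lit 16) (nat_lit 4) (nat_lit 344) (nat_lit 328) (nat_lit 228))) (XT.nd (nat_lit 78) (nat_lit 152) (nat_lit 0) (XT.lf (nat_lit 0) (nat_lit 558419111848) (nat_lit 152) (nat_lit 254048533154) (nat_lit 0) (nat_lit 38312095672) (nat_lit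 14) (nat_lit 5) (nat_lit 16) (nat_lit 4) (nat_lit 14) (nat_lit 4) (nat_lit 345) (nat_lit 328) (nat_lit 227)) (XT.nd (nat_lit 78) (nat_lit 76) (nat_lit 0) (XT.lf (nat_lit 0) (nat_lit 208199674381) (nat_lit 76) (nat_lit 624875597172) (nat_lit 76) (nat_lit 104768530761) (nat_lit 13) (nat_lit 4) (nat_lit 14) (nat_lit 5) (nat_lit 14) (nat_lit 4) (nat_lit 346) (nat_lit 328) (nat_lit 226)) (XT.lf (nat_lit 0) (nat_lit 114995871608) (nat_lit 152) (nat_lit 272865986135) (nat_lit 76) (nat_lit 647329588927) (nat_lit 12) (nat_lit 5) (nat_lit 14) (nat_lit 5) (nat_lit 13) (nat_lit 4) (nat_lit 347) (nat_lit 328) (nat_lit 225))))) (XT.nd (nat_lit 156) (nat_lit 228) (nat_lit 0) (XT.nd (nat_lit 78) (nat_lit 0) (nat_lit 0) (XT.lf (nat_lit 0) (nat_lit 271621429617) (nat_lit 76) (nat_lit 96624420473) (nat_lit 152) (nat_lit 776459958312) (nat_lit 11) (nat_lit 5) (nat_lit 12) (nat_lit 5) (nat_lit 13) (nat_lit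 4) (nat_lit 348) (nat_lit 328) (nat_lit 224)) (XT.lf (nat_lit 0) (nat_lit 684293379183) (nat_lit 152) (nat_lit 350606171984) (nat_lit 0) (nat_lit 232026265176) (nat_lit 11) (nat_lit 5) (nat_lit 13) (nat_lit 4) (nat_lit 11) (nat_lit 4) (nat_lit 349) (nat_lit 328) (nat_lit 223))) (XT.nd (nat_lit 78) (nat_lit 152) (nat_lit 0) (XT.lf (nat_lit 0) (nat_lit 269648500044) (nat_lit 76) (nat_lit 793866230269) (nat_lit 76) (nat_lit 341599091286) (nat_lit 10) (nat_lit 4) (nat_lit 11) (nat_lit 5) (nat_lit 11) (nat_lit 4) (nat_lit 350) (nat_lit 328) (nat_lit 222)) (XT.nd (nat_lit 78) (nat_lit 152) (nat_lit 0) (XT.lf (nat_lit 0) (nat_lit 1022344652081) (nat_lit 76) (nat_lit 495601735389) (nat_lit 76) (nat_lit 43334574688) (nat_lit 10) (nat_lit 4) (nat_lit 11) (nat_lit 5) (nat_lit 11) (nat_lit 4) (nat_lit 351) (nat_lit 328) (nat_lit 221)) (XT.lf (nat_lit 0) (nat_lit 147823583561) (nat_lit 76) (nat_lit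 131288399297) (nat_lit 152) (nat_lit 1458981735189) (nat_lit 8) (nat_lit 5) (nat_lit 9) (nat_lit 5) (nat_lit 10) (nat_lit 4) (nat_lit 352) (nat_lit 328) (nat_lit 220)))))) (XT.nd (nat_lit 390) (nat_lit 152) (nat_lit 0) (XT.nd (nat_lit 156) (nat_lit 152) (nat_lit 0) (XT.nd (nat_lit 78) (nat_lit 0) (nat_lit 0) (XT.lf (nat_lit 0) (nat_lit 686913915693) (nat_lit 152) (nat_lit 954353091882) (nat_lit 0) (nat_lit 293638093078) (nat_lit 8) (nat_lit 5) (nat_lit 10) (nat_lit 4) (nat_lit 8) (nat_lit 4) (nat_lit 353) (nat_lit 328) (nat_lit 219)) (XT.lf (nat_lit 0) (nat_lit 1162137937721) (nat_lit 152) (nat_lit 229300380362) (nat_lit 0) (nat_lit 768862102689) (nat_lit 8) (nat_lit 5) (nat_lit 10) (nat_lit 4) (nat_lit 8) (nat_lit 4) (nat_lit 354) (nat_lit 328) (nat_lit 218))) (XT.nd (nat_lit 78) (nat_lit 76) (nat_lit 0) (XT.lf (nat_lit 0) (nat_lit 663587318511) (nat_lit 76) (nat_lit 1072535954846) (nat_lit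 76) (nat_lit 679260109016) (nat_lit 7) (nat_lit 4) (nat_lit 8) (nat_lit 5) (nat_lit 8) (nat_lit 4) (nat_lit 355) (nat_lit 328) (nat_lit 217)) (XT.nd (nat_lit 78) (nat_lit 76) (nat_lit 0) (XT.lf (nat_lit 0) (nat_lit 1716178359225) (nat_lit 76) (nat_lit 692014182202) (nat_lit 76) (nat_lit 298738326982) (nat_lit 7) (nat_lit 4) (nat_lit 8) (nat_lit 5) (nat_lit 8) (nat_lit 4) (nat_lit 356) (nat_lit 328) (nat_lit 216)) (XT.lf (nat_lit 0) (nat_lit 126499269573) (nat_lit 152) (nat_lit 121302433800) (nat_lit 76) (nat_lit 2793546282115) (nat_lit 6) (nat_lit 5) (nat_lit 8) (nat_lit 5) (nat_lit 7) (nat_lit 4) (nat_lit 357) (nat_lit 328) (nat_lit 215))))) (XT.nd (nat_lit 234) (nat_lit 76) (nat_lit 0) (XT.nd (nat_lit 78) (nat_lit 0) (nat_lit 0) (XT.lf (nat_lit 0) (nat_lit 637665840309) (nat_lit 152) (nat_lit 2482531894768) (nat_lit 0) (nat_lit 295686822497) (nat_lit 5) (nat_lit 5) (nat_lit 7) (nat_lit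 4) (nat_lit 5) (nat_lit 4) (nat_lit 358) (nat_lit 328) (nat_lit 214)) (XT.nd (nat_lit 78) (nat_lit 0) (nat_lit 0) (XT.lf (nat_lit 0) (nat_lit 1243950211131) (nat_lit 152) (nat_lit 1697913794225) (nat_lit 0) (nat_lit 901971187951) (nat_lit 5) (nat_lit 5) (nat_lit 7) (nat_lit 4) (nat_lit 5) (nat_lit 4) (nat_lit 359) (nat_lit 328) (nat_lit 213)) (XT.lf (nat_lit 0) (nat_lit 1941177221084) (nat_lit 152) (nat_lit 795603012557) (nat_lit 0) (nat_lit 1599198193236) (nat_lit 5) (nat_lit 5) (nat_lit 7) (nat_lit 4) (nat_lit 5) (nat_lit 4) (nat_lit 360) (nat_lit 328) (nat_lit 212)))) (XT.nd (nat_lit 78) (nat_lit 0) (nat_lit 0) (XT.lf (nat_lit 0) (nat_lit 265709668980) (nat_lit 76) (nat_lit 2488281069975) (nat_lit 76) (nat_lit 2146302038067) (nat_lit 4) (nat_lit 4) (nat_lit 5) (nat_lit 5) (nat_lit 5) (nat_lit 4) (nat_lit 361) (nat_lit 328) (nat_lit 211)) (XT.nd (nat_lit 78) (nat_lit 0) (nat_lit 0)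 (XT.lf (nat_lit 0) (nat_lit 1575634154042) (nat_lit 76) (nat_lit 2154680456119) (nat_lit 76) (nat_lit 1812701420682) (nat_lit 4) (nat_lit 4) (nat_lit 5) (nat_lit 5) (nat_lit 5) (nat_lit 4) (nat_lit 362) (nat_lit 328) (nat_lit 210)) (XT.lf (nat_lit 0) (nat_lit 3082047287356) (nat_lit 76) (nat_lit 1771039762835) (nat_lit 76) (nat_lit 1429060724329) (nat_lit 4) (nat_lit 4) (nat_lit 5) (nat_lit 5) (nat_lit 5) (nat_lit 4) (nat_lit 363) (nat_lit 328) (nat_lit 209))))))) (XT.nd (nat_lit 858) (nat_lit 76) (nat_lit 0) (XT.nd (nat_lit 390) (nat_lit 0) (nat_lit 0) (XT.nd (nat_lit 156) (nat_lit 152) (nat_lit 0) (XT.nd (nat_lit 78) (nat_lit 0) (nat_lit 0) (XT.lf (nat_lit 0) (nat_lit 4814422369355) (nat_lit 76) (nat_lit 1329852976559) (nat_lit 76) (nat_lit 987873935383) (nat_lit 4) (nat_lit 4) (nat_lit 5) (nat_lit 5) (nat_lit 5) (nat_lit 4) (nat_lit 364) (nat_lit 328) (nat_lit 208)) (XT.lf (nat_lit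 0) (nat_lit 6806653695122) (nat_lit 76) (nat_lit 822488181906) (nat_lit 76) (nat_lit 480509138409) (nat_lit 4) (nat_lit 4) (nat_lit 5) (nat_lit 5) (nat_lit 5) (nat_lit 4) (nat_lit 365) (nat_lit 328) (nat_lit 207))) (XT.nd (nat_lit 78) (nat_lit 76) (nat_lit 0) (XT.lf (nat_lit 0) (nat_lit 93794125097) (nat_lit 152) (nat_lit 140321676554) (nat_lit 76) (nat_lit 8999022703821) (nat_lit 3) (nat_lit 5) (nat_lit 5) (nat_lit 5) (nat_lit 4) (nat_lit 4) (nat_lit 366) (nat_lit 328) (nat_lit 206)) (XT.nd (nat_lit 78) (nat_lit 0) (nat_lit 0) (XT.lf (nat_lit 0) (nat_lit 780359731368) (nat_lit 152) (nat_lit 9247073757260) (nat_lit 0) (nat_lit 482986646786) (nat_lit 2) (nat_lit 5) (nat_lit 4) (nat_lit 4) (nat_lit 2) (nat_lit 4) (nat_lit 367) (nat_lit 328) (nat_lit 205)) (XT.lf (nat_lit 0) (nat_lit 1588742825313) (nat_lit 152) (nat_lit 9096356548120) (nat_lit 0) (nat_lit 1291369739404) (nat_lit 2) (nat_lit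 5) (nat_lit 4) (nat_lit 4) (nat_lit 2) (nat_lit 4) (nat_lit 368) (nat_lit 328) (nat_lit 204))))) (XT.nd (nat_lit 234) (nat_lit 0) (nat_lit 0) (XT.nd (nat_lit 78) (nat_lit 0) (nat_lit 0) (XT.lf (nat_lit 0) (nat_lit 2518383377211) (nat_lit 152) (nat_lit 8923031770438) (nat_lit 0) (nat_lit 2221010290148) (nat_lit 2) (nat_lit 5) (nat_lit 4) (nat_lit 4) (nat_lit 2) (nat_lit 4) (nat_lit 369) (nat_lit 328) (nat_lit 203)) (XT.nd (nat_lit 78) (nat_lit 0) (nat_lit 0) (XT.lf (nat_lit 0) (nat_lit 3587470006555) (nat_lit 152) (nat_lit 8723708287259) (nat_lit 0) (nat_lit 3290096918488) (nat_lit 2) (nat_lit 5) (nat_lit 4) (nat_lit 4) (nat_lit 2) (nat_lit 4) (nat_lit 370) (nat_lit 328) (nat_lit 202)) (XT.lf (nat_lit 0) (nat_lit 4816919625657) (nat_lit 152) (nat_lit 8494486291304) (nat_lit 0) (nat_lit 4519546536718) (nat_lit 2) (nat_lit 5) (nat_lit 4) (nat_lit 4) (nat_lit 2) (nat_lit 4) (nat_lit 371)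 (nat_lit 328) (nat_lit 201)))) (XT.nd (nat_lit 78) (nat_lit 0) (nat_lit 0) (XT.lf (nat_lit 0) (nat_lit 6230786683589) (nat_lit 152) (nat_lit 8230881004391) (nat_lit 0) (nat_lit 5933413593891) (nat_lit 2) (nat_lit 5) (nat_lit 4) (nat_lit 4) (nat_lit 2) (nat_lit 4) (nat_lit 372) (nat_lit 328) (nat_lit 200)) (XT.nd (nat_lit 78) (nat_lit 0) (nat_lit 0) (XT.lf (nat_lit 0) (nat_lit 7856733796699) (nat_lit 152) (nat_lit 7927734931776) (nat_lit 0) (nat_lit 7559360706342) (nat_lit 2) (nat_lit 5) (nat_lit 4) (nat_lit 4) (nat_lit 2) (nat_lit 4) (nat_lit 373) (nat_lit 328) (nat_lit 199)) (XT.lf (nat_lit 0) (nat_lit 9726572973724) (nat_lit 152) (nat_lit 7579116954647) (nat_lit 0) (nat_lit 9429199882793) (nat_lit 2) (nat_lit 5) (nat_lit 4) (nat_lit 4) (nat_lit 2) (nat_lit 4) (nat_lit 374) (nat_lit 328) (nat_lit 198)))))) (XT.nd (nat_lit 390) (nat_lit 76) (nat_lit 0) (XT.nd (nat_lit 156) (nat_lit 0)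 (nat_lit 0) (XT.nd (nat_lit 78) (nat_lit 0) (nat_lit 0) (XT.lf (nat_lit 0) (nat_lit 11876888024648) (nat_lit 152) (nat_lit 7178206286495) (nat_lit 0) (nat_lit 11579514933218) (nat_lit 2) (nat_lit 5) (nat_lit 4) (nat_lit 4) (nat_lit 2) (nat_lit 4) (nat_lit 375) (nat_lit 328) (nat_lit 197)) (XT.lf (nat_lit 0) (nat_lit 14349750330903) (nat_lit 152) (nat_lit 6717159022944) (nat_lit 0) (nat_lit 14052377239039) (nat_lit 2) (nat_lit 5) (nat_lit 4) (nat_lit 4) (nat_lit 2) (nat_lit 4) (nat_lit 376) (nat_lit 328) (nat_lit 196))) (XT.nd (nat_lit 78) (nat_lit 0) (nat_lit 0) (XT.lf (nat_lit 0) (nat_lit 17193541981089) (nat_lit 152) (nat_lit 6186954674053) (nat_lit 0) (nat_lit 16896168888848) (nat_lit 2) (nat_lit 5) (nat_lit 4) (nat_lit 4) (nat_lit 2) (nat_lit 4) (nat_lit 377) (nat_lit 328) (nat_lit 195)) (XT.nd (nat_lit 78) (nat_lit 0) (nat_lit 0) (XT.lf (nat_lit 0) (nat_lit 20463902377057) (nat_lit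 152) (nat_lit 5577219676476) (nat_lit 0) (nat_lit 20166529284488) (nat_lit 2) (nat_lit 5) (nat_lit 4) (nat_lit 4) (nat_lit 2) (nat_lit 4) (nat_lit 378) (nat_lit 328) (nat_lit 194)) (XT.lf (nat_lit 0) (nat_lit 24224816830903) (nat_lit 152) (nat_lit 4876024432433) (nat_lit 0) (nat_lit 23927443738049) (nat_lit 2) (nat_lit 5) (nat_lit 4) (nat_lit 4) (nat_lit 2) (nat_lit 4) (nat_lit 379) (nat_lit 328) (nat_lit 193))))) (XT.nd (nat_lit 234) (nat_lit 76) (nat_lit 0) (XT.nd (nat_lit 78) (nat_lit 0) (nat_lit 0) (XT.lf (nat_lit 0) (nat_lit 28549868451507) (nat_lit 152) (nat_lit 4069649904541) (nat_lit 0) (nat_lit 28252495358405) (nat_lit 2) (nat_lit 5) (nat_lit 4) (nat_lit 4) (nat_lit 2) (nat_lit 4) (nat_lit 380) (nat_lit 328) (nat_lit 192)) (XT.nd (nat_lit 78) (nat_lit 0) (nat_lit 0) (XT.lf (nat_lit 0) (nat_lit 33523677814053) (nat_lit 152) (nat_lit 3142319199863) (nat_lit 0) (nat_lit 33226304720735)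 (nat_lit 2) (nat_lit 5) (nat_lit 4) (nat_lit 4) (nat_lit 2) (nat_lit 4) (nat_lit 381) (nat_lit 328) (nat_lit 191)) (XT.lf (nat_lit 0) (nat_lit 39243558579983) (nat_lit 152) (nat_lit 2075888891569) (nat_lit 0) (nat_lit 38946185486478) (nat_lit 2) (nat_lit 5) (nat_lit 4) (nat_lit 4) (nat_lit 2) (nat_lit 4) (nat_lit 382) (nat_lit 328) (nat_lit 190)))) (XT.nd (nat_lit 78) (nat_lit 76) (nat_lit 0) (XT.lf (nat_lit 0) (nat_lit 45821421459936) (nat_lit 152) (nat_lit 849494038844) (nat_lit 0) (nat_lit 45524048366267) (nat_lit 2) (nat_lit 5) (nat_lit 4) (nat_lit 4) (nat_lit 2) (nat_lit 4) (nat_lit 383) (nat_lit 328) (nat_lit 189)) (XT.nd (nat_lit 78) (nat_lit 0) (nat_lit 0) (XT.lf (nat_lit 0) (nat_lit 615671362324) (nat_lit 76) (nat_lit 52795786046993) (nat_lit 76) (nat_lit 52498412953183) (nat_lit 1) (nat_lit 4) (nat_lit 2) (nat_lit 5) (nat_lit 2) (nat_lit 4) (nat_lit 384) (nat_lit 328) (nat_lit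 188)) (XT.lf (nat_lit 0) (nat_lit 2396083118120) (nat_lit 76) (nat_lit 59788321002480) (nat_lit 76) (nat_lit 59490947908547) (nat_lit 1) (nat_lit 4) (nat_lit 2) (nat_lit 5) (nat_lit 2) (nat_lit 4) (nat_lit 385) (nat_lit 328) (nat_lit 187))))))))
noncomputable def xc97 : XT := (XT.nd (nat_lit 43758) (nat_lit 0) (nat_lit 152) (XT.nd (nat_lit 42900) (nat_lit 0) (nat_lit 988) (XT.nd (nat_lit 42510) (nat_lit 0) (nat_lit 1748) (XT.nd (nat_lit 156) (nat_lit 0) (nat_lit 0) (XT.nd (nat_lit 78) (nat_lit 0) (nat_lit 0) (XT.lf (nat_lit 0) (nat_lit 4443556635977) (nat_lit 76) (nat_lit 67829736201974) (nat_lit 76) (nat_lit 67532363107934) (nat_lit 1) (nat_lit 4) (nat_lit 2) (nat_lit 5) (nat_lit 2) (nat_lit 4) (nat_lit 386) (nat_lit 328) (nat_lit 186)) (XT.lf (nat_lit 0) (nat_lit 6798151180375) (nat_lit 76) (nat_lit 77077363681988) (nat_lit 76) (nat_lit 76779990587853) (nat_lit 1) (nat_lit 4) (nat_lit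 2) (nat_lit 5) (nat_lit 2) (nat_lit 4) (nat_lit 387) (nat_lit 328) (nat_lit 185))) (XT.nd (nat_lit 78) (nat_lit 0) (nat_lit 0) (XT.lf (nat_lit 0) (nat_lit 9505934905442) (nat_lit 76) (nat_lit 87712135284520) (nat_lit 76) (nat_lit 87414762190305) (nat_lit 1) (nat_lit 4) (nat_lit 2) (nat_lit 5) (nat_lit 2) (nat_lit 4) (nat_lit 388) (nat_lit 328) (nat_lit 184)) (XT.nd (nat_lit 42198) (nat_lit 0) (nat_lit 1900) (XT.lf (nat_lit 0) (nat_lit 12619886188410) (nat_lit 76) (nat_lit 99942122627881) (nat_lit 76) (nat_lit 99644749533596) (nat_lit 1) (nat_lit 4) (nat_lit 2) (nat_lit 5) (nat_lit 2) (nat_lit 4) (nat_lit 389) (nat_lit 328) (nat_lit 183)) (XT.lf (nat_lit 0) (nat_lit 26113130137) (nat_lit 380) (nat_lit 45408836309) (nat_lit 380) (nat_lit 45408836309) (nat_lit 26) (nat_lit 3) (nat_lit 31) (nat_lit 3) (nat_lit 31) (nat_lit 5) (nat_lit 329) (nat_lit 329) (nat_lit 242))))) (XT.nd (nat_lit 156)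 (nat_lit 152) (nat_lit 0) (XT.nd (nat_lit 78) (nat_lit 0) (nat_lit 76) (XT.lf (nat_lit 76) (nat_lit 23818668670) (nat_lit 0) (nat_lit 33311938083) (nat_lit 380) (nat_lit 194122510265) (nat_lit 27) (nat_lit 5) (nat_lit 26) (nat_lit 3) (nat_lit 31) (nat_lit 5) (nat_lit 330) (nat_lit 329) (nat_lit 241)) (XT.lf (nat_lit 0) (nat_lit 71589713515) (nat_lit 304) (nat_lit 108756308223) (nat_lit 380) (nat_lit 89584467687) (nat_lit 27) (nat_lit 5) (nat_lit 31) (nat_lit 5) (nat_lit 32) (nat_lit 5) (nat_lit 331) (nat_lit 329) (nat_lit 240))) (XT.nd (nat_lit 78) (nat_lit 228) (nat_lit 0) (XT.lf (nat_lit 76) (nat_lit 28691444281) (nat_lit 0) (nat_lit 62300404822) (nat_lit 380) (nat_lit 200001494535) (nat_lit 28) (nat_lit 5) (nat_lit 27) (nat_lit 5) (nat_lit 32) (nat_lit 5) (nat_lit 332) (nat_lit 329) (nat_lit 239)) (XT.nd (nat_lit 78) (nat_lit 304) (nat_lit 0) (XT.lf (nat_lit 0) (nat_lit 122301347055)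 (nat_lit 304) (nat_lit 118696153619) (nat_lit 76) (nat_lit 72868569323) (nat_lit 28) (nat_lit 5) (nat_lit 32) (nat_lit 5) (nat_lit 29) (nat_lit 5) (nat_lit 333) (nat_lit 329) (nat_lit 238)) (XT.lf (nat_lit 0) (nat_lit 47733170207) (nat_lit 304) (nat_lit 115517180732) (nat_lit 380) (nat_lit 176177892461) (nat_lit 24) (nat_lit 5) (nat_lit 28) (nat_lit 5) (nat_lit 29) (nat_lit 5) (nat_lit 334) (nat_lit 329) (nat_lit 237)))))) (XT.nd (nat_lit 390) (nat_lit 456) (nat_lit 0) (XT.nd (nat_lit 156) (nat_lit 152) (nat_lit 0) (XT.nd (nat_lit 78) (nat_lit 152) (nat_lit 0) (XT.lf (nat_lit 0) (nat_lit 218033544382) (nat_lit 380) (nat_lit 116914871133) (nat_lit 76) (nat_lit 32722551691) (nat_lit 24) (nat_lit 5) (nat_lit 29) (nat_lit 5) (nat_lit 25) (nat_lit 5) (nat_lit 335) (nat_lit 329) (nat_lit 236)) (XT.lf (nat_lit 0) (nat_lit 86260962919) (nat_lit 152) (nat_lit 203845848747) (nat_lit 228) (nat_lit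 108682398904) (nat_lit 22) (nat_lit 5) (nat_lit 24) (nat_lit 5) (nat_lit 25) (nat_lit 5) (nat_lit 336) (nat_lit 329) (nat_lit 235))) (XT.nd (nat_lit 78) (nat_lit 152) (nat_lit 0) (XT.lf (nat_lit 0) (nat_lit 333052687494) (nat_lit 152) (nat_lit 46049743655) (nat_lit 228) (nat_lit 54556055155) (nat_lit 22) (nat_lit 5) (nat_lit 24) (nat_lit 5) (nat_lit 25) (nat_lit 5) (nat_lit 337) (nat_lit 329) (nat_lit 234)) (XT.nd (nat_lit 78) (nat_lit 0) (nat_lit 0) (XT.lf (nat_lit 0) (nat_lit 19426398904) (nat_lit 152) (nat_lit 321927720472) (nat_lit 76) (nat_lit 130493018693) (nat_lit 20) (nat_lit 5) (nat_lit 22) (nat_lit 5) (nat_lit 21) (nat_lit 5) (nat_lit 338) (nat_lit 329) (nat_lit 233)) (XT.lf (nat_lit 0) (nat_lit 106622847589) (nat_lit 152) (nat_lit 70686409027) (nat_lit 76) (nat_lit 336909825884) (nat_lit 20) (nat_lit 5) (nat_lit 22) (nat_lit 5) (nat_lit 21) (nat_lit 5) (nat_lit 339) (nat_lit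 329) (nat_lit 232))))) (XT.nd (nat_lit 234) (nat_lit 228) (nat_lit 0) (XT.nd (nat_lit 78) (nat_lit 76) (nat_lit 0) (XT.lf (nat_lit 0) (nat_lit 217760780510) (nat_lit 228) (nat_lit 322831775032) (nat_lit 76) (nat_lit 20724960616) (nat_lit 18) (nat_lit 5) (nat_lit 21) (nat_lit 5) (nat_lit 19) (nat_lit 4) (nat_lit 340) (nat_lit 329) (nat_lit 231)) (XT.nd (nat_lit 78) (nat_lit 76) (nat_lit 0) (XT.lf (nat_lit 0) (nat_lit 357883555627) (nat_lit 228) (nat_lit 21567924726) (nat_lit 76) (nat_lit 234182111765) (nat_lit 18) (nat_lit 5) (nat_lit 21) (nat_lit 5) (nat_lit 19) (nat_lit 4) (nat_lit 341) (nat_lit 329) (nat_lit 230)) (XT.lf (nat_lit 0) (nat_lit 356635573357) (nat_lit 76) (nat_lit 177156633025) (nat_lit 152) (nat_lit 137789754262) (nat_lit 17) (nat_lit 5) (nat_lit 18) (nat_lit 5) (nat_lit 19) (nat_lit 4) (nat_lit 342) (nat_lit 329) (nat_lit 229)))) (XT.nd (nat_lit 78) (nat_lit 76) (nat_lit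 0) (XT.lf (nat_lit 0) (nat_lit 4250626160) (nat_lit 152) (nat_lit 678702682646) (nat_lit 76) (nat_lit 54353147469) (nat_lit 15) (nat_lit 5) (nat_lit 17) (nat_lit 5) (nat_lit 16) (nat_lit 4) (nat_lit 343) (nat_lit 329) (nat_lit 228)) (XT.nd (nat_lit 78) (nat_lit 76) (nat_lit 0) (XT.lf (nat_lit 0) (nat_lit 179173055878) (nat_lit 152) (nat_lit 302619525189) (nat_lit 76) (nat_lit 326260376932) (nat_lit 15) (nat_lit 5) (nat_lit 17) (nat_lit 5) (nat_lit 16) (nat_lit 4) (nat_lit 344) (nat_lit 329) (nat_lit 227)) (XT.lf (nat_lit 0) (nat_lit 142568449627) (nat_lit 76) (nat_lit 243668807454) (nat_lit 152) (nat_lit 502288666890) (nat_lit 14) (nat_lit 5) (nat_lit 15) (nat_lit 5) (nat_lit 16) (nat_lit 4) (nat_lit 345) (nat_lit 329) (nat_lit 226))))))) (XT.nd (nat_lit 858) (nat_lit 304) (nat_lit 0) (XT.nd (nat_lit 390) (nat_lit 304) (nat_lit 0) (XT.nd (nat_lit 156) (nat_lit 152) (nat_lit 0) (XT.nd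 (nat_lit 78) (nat_lit 76) (nat_lit 0) (XT.lf (nat_lit 0) (nat_lit 642182484705) (nat_lit 152) (nat_lit 292154876322) (nat_lit 0) (nat_lit 44059264415) (nat_lit 14) (nat_lit 5) (nat_lit 16) (nat_lit 4) (nat_lit 14) (nat_lit 4) (nat_lit 346) (nat_lit 329) (nat_lit 225)) (XT.lf (nat_lit 0) (nat_lit 239430519761) (nat_lit 76) (nat_lit 718606519623) (nat_lit 76) (nat_lit 120483261348) (nat_lit 13) (nat_lit 4) (nat_lit 14) (nat_lit 5) (nat_lit 14) (nat_lit 4) (nat_lit 347) (nat_lit 329) (nat_lit 224))) (XT.nd (nat_lit 78) (nat_lit 76) (nat_lit 0) (XT.lf (nat_lit 0) (nat_lit 132245687261) (nat_lit 152) (nat_lit 313795063691) (nat_lit 76) (nat_lit 744429347204) (nat_lit 12) (nat_lit 5) (nat_lit 14) (nat_lit 5) (nat_lit 13) (nat_lit 4) (nat_lit 348) (nat_lit 329) (nat_lit 223)) (XT.nd (nat_lit 78) (nat_lit 0) (nat_lit 0) (XT.lf (nat_lit 0) (nat_lit 312365427135) (nat_lit 76) (nat_lit 111117711079)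 (nat_lit 152) (nat_lit 892928479617) (nat_lit 11) (nat_lit 5) (nat_lit 12) (nat_lit 5) (nat_lit 13) (nat_lit 4) (nat_lit 349) (nat_lit 329) (nat_lit 222)) (XT.lf (nat_lit 0) (nat_lit 786937756525) (nat_lit 152) (nat_lit 403196376491) (nat_lit 0) (nat_lit 266830500001) (nat_lit 11) (nat_lit 5) (nat_lit 13) (nat_lit 4) (nat_lit 11) (nat_lit 4) (nat_lit 350) (nat_lit 329) (nat_lit 221))))) (XT.nd (nat_lit 234) (nat_lit 76) (nat_lit 0) (XT.nd (nat_lit 78) (nat_lit 152) (nat_lit 0) (XT.lf (nat_lit 0) (nat_lit 310096463555) (nat_lit 76) (nat_lit 912945826956) (nat_lit 76) (nat_lit 392838551548) (nat_lit 10) (nat_lit 4) (nat_lit 11) (nat_lit 5) (nat_lit 11) (nat_lit 4) (nat_lit 351) (nat_lit 329) (nat_lit 220)) (XT.nd (nat_lit 78) (nat_lit 152) (nat_lit 0) (XT.lf (nat_lit 0) (nat_lit 1175696948593) (nat_lit 76) (nat_lit 569941701912) (nat_lit 76) (nat_lit 49834410082) (nat_lit 10) (nat_lit 4)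 (nat_lit 11) (nat_lit 5) (nat_lit 11) (nat_lit 4) (nat_lit 352) (nat_lit 329) (nat_lit 219)) (XT.lf (nat_lit 0) (nat_lit 169997722524) (nat_lit 76) (nat_lit 150981360561) (nat_lit 152) (nat_lit 1677828647130) (nat_lit 8) (nat_lit 5) (nat_lit 9) (nat_lit 5) (nat_lit 10) (nat_lit 4) (nat_lit 353) (nat_lit 329) (nat_lit 218)))) (XT.nd (nat_lit 78) (nat_lit 76) (nat_lit 0) (XT.lf (nat_lit 0) (nat_lit 789951277103) (nat_lit 152) (nat_lit 1097505503836) (nat_lit 0) (nat_lit 337684043601) (nat_lit 8) (nat_lit 5) (nat_lit 10) (nat_lit 4) (nat_lit 8) (nat_lit 4) (nat_lit 354) (nat_lit 329) (nat_lit 217)) (XT.nd (nat_lit 78) (nat_lit 76) (nat_lit 0) (XT.lf (nat_lit 0) (nat_lit 1336458866689) (nat_lit 152) (nat_lit 263694957565) (nat_lit 0) (nat_lit 884191623797) (nat_lit 8) (nat_lit 5) (nat_lit 10) (nat_lit 4) (nat_lit 8) (nat_lit 4) (nat_lit 355) (nat_lit 329) (nat_lit 216)) (XT.lf (nat_lit 0)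 (nat_lit 763125874327) (nat_lit 76) (nat_lit 1233416116225) (nat_lit 76) (nat_lit 781148865169) (nat_lit 7) (nat_lit 4) (nat_lit 8) (nat_lit 5) (nat_lit 8) (nat_lit 4) (nat_lit 356) (nat_lit 329) (nat_lit 215)))))) (XT.nd (nat_lit 390) (nat_lit 152) (nat_lit 0) (XT.nd (nat_lit 156) (nat_lit 76) (nat_lit 0) (XT.nd (nat_lit 78) (nat_lit 76) (nat_lit 0) (XT.lf (nat_lit 0) (nat_lit 1973605511405) (nat_lit 76) (nat_lit 795816107925) (nat_lit 76) (nat_lit 343548849769) (nat_lit 7) (nat_lit 4) (nat_lit 8) (nat_lit 5) (nat_lit 8) (nat_lit 4) (nat_lit 357) (nat_lit 329) (nat_lit 214)) (XT.lf (nat_lit 0) (nat_lit 145474339241) (nat_lit 152) (nat_lit 139497434959) (nat_lit 76) (nat_lit 3212578382175) (nat_lit 6) (nat_lit 5) (nat_lit 8) (nat_lit 5) (nat_lit 7) (nat_lit 4) (nat_lit 358) (nat_lit 329) (nat_lit 213))) (XT.nd (nat_lit 78) (nat_lit 0) (nat_lit 0) (XT.lf (nat_lit 0) (nat_lit 733315893928)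 (nat_lit 152) (nat_lit 2854911313367) (nat_lit 0) (nat_lit 340040007235) (nat_lit 5) (nat_lit 5) (nat_lit 7) (nat_lit 4) (nat_lit 5) (nat_lit 4) (nat_lit 359) (nat_lit 329) (nat_lit 212)) (XT.nd (nat_lit 78) (nat_lit 0) (nat_lit 0) (XT.lf (nat_lit 0) (nat_lit 1430542897211) (nat_lit 152) (nat_lit 1952600545432) (nat_lit 0) (nat_lit 1037267006459) (nat_lit 5) (nat_lit 5) (nat_lit 7) (nat_lit 4) (nat_lit 5) (nat_lit 4) (nat_lit 360) (nat_lit 329) (nat_lit 211)) (XT.lf (nat_lit 0) (nat_lit 2232353938517) (nat_lit 152) (nat_lit 914943187982) (nat_lit 0) (nat_lit 1839078044234) (nat_lit 5) (nat_lit 5) (nat_lit 7) (nat_lit 4) (nat_lit 5) (nat_lit 4) (nat_lit 361) (nat_lit 329) (nat_lit 210))))) (XT.nd (nat_lit 234) (nat_lit 76) (nat_lit 0) (XT.nd (nat_lit 78) (nat_lit 0) (nat_lit 0) (XT.lf (nat_lit 0) (nat_lit 305566383219) (nat_lit 76) (nat_lit 2861523094263) (nat_lit 76) (nat_lit 2468247196911)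 (nat_lit 4) (nat_lit 4) (nat_lit 5) (nat_lit 5) (nat_lit 5) (nat_lit 4) (nat_lit 362) (nat_lit 329) (nat_lit 209)) (XT.nd (nat_lit 78) (nat_lit 0) (nat_lit 0) (XT.lf (nat_lit 0) (nat_lit 1811979506620) (nat_lit 76) (nat_lit 2477882406095) (nat_lit 76) (nat_lit 2084606506074) (nat_lit 4) (nat_lit 4) (nat_lit 5) (nat_lit 5) (nat_lit 5) (nat_lit 4) (nat_lit 363) (nat_lit 329) (nat_lit 208)) (XT.lf (nat_lit 0) (nat_lit 3544354579999) (nat_lit 76) (nat_lit 2036695624268) (nat_lit 76) (nat_lit 1643419721926) (nat_lit 4) (nat_lit 4) (nat_lit 5) (nat_lit 5) (nat_lit 5) (nat_lit 4) (nat_lit 364) (nat_lit 329) (nat_lit 207)))) (XT.nd (nat_lit 78) (nat_lit 76) (nat_lit 0) (XT.lf (nat_lit 0) (nat_lit 5536585898271) (nat_lit 76) (nat_lit 1529330833484) (nat_lit 76) (nat_lit 1136054929124) (nat_lit 4) (nat_lit 4) (nat_lit 5) (nat_lit 5) (nat_lit 5) (nat_lit 4) (nat_lit 365) (nat_lit 329) (nat_lit 206))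 (XT.nd (nat_lit 78) (nat_lit 76) (nat_lit 0) (XT.lf (nat_lit 0) (nat_lit 7827651900271) (nat_lit 76) (nat_lit 945861331314) (nat_lit 76) (nat_lit 552585425200) (nat_lit 4) (nat_lit 4) (nat_lit 5) (nat_lit 5) (nat_lit 5) (nat_lit 4) (nat_lit 366) (nat_lit 329) (nat_lit 205)) (XT.lf (nat_lit 0) (nat_lit 107863310380) (nat_lit 152) (nat_lit 161369790323) (nat_lit 76) (nat_lit 10348876170600) (nat_lit 3) (nat_lit 5) (nat_lit 5) (nat_lit 5) (nat_lit 4) (nat_lit 4) (nat_lit 367) (nat_lit 329) (nat_lit 204))))))))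
noncomputable def xc98 : XT := (XT.nd (nat_lit 1638) (nat_lit 0) (nat_lit 0) (XT.nd (nat_lit 780) (nat_lit 76) (nat_lit 0) (XT.nd (nat_lit 390) (nat_lit 0) (nat_lit 0) (XT.nd (nat_lit 156) (nat_lit 0) (nat_lit 0) (XT.nd (nat_lit 78) (nat_lit 0) (nat_lit 0) (XT.lf (nat_lit 0) (nat_lit 897413757181) (nat_lit 152) (nat_lit 10634134682713) (nat_lit 0) (nat_lit 555434705904) (nat_lit 2) (nat_lit 5) (nat_lit 4) (nat_lit 4) (nat_lit 2) (nat_lit 4) (nat_lit 368) (nat_lit 329) (nat_lit 203)) (XT.lf (nat_lit 0) (nat_lit 1827054306595) (nat_lit 152) (nat_lit 10460809910220) (nat_lit 0) (nat_lit 1485075254316) (nat_lit 2) (nat_lit 5) (nat_lit 4) (nat_lit 4) (nat_lit 2) (nat_lit 4) (nat_lit 369) (nat_lit 329) (nat_lit 202))) (XT.nd (nat_lit 78) (nat_lit 0) (nat_lit 0) (XT.lf (nat_lit 0) (nat_lit 2896140933780) (nat_lit 152) (nat_lit 10261486431553) (nat_lit 0) (nat_lit 2554161880627) (nat_lit 2) (nat_lit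 5) (nat_lit 4) (nat_lit 4) (nat_lit 2) (nat_lit 4) (nat_lit 370) (nat_lit 329) (nat_lit 201)) (XT.nd (nat_lit 78) (nat_lit 0) (nat_lit 0) (XT.lf (nat_lit 0) (nat_lit 4125590551005) (nat_lit 152) (nat_lit 10032264439521) (nat_lit 0) (nat_lit 3783611497094) (nat_lit 2) (nat_lit 5) (nat_lit 4) (nat_lit 4) (nat_lit 2) (nat_lit 4) (nat_lit 371) (nat_lit 329) (nat_lit 200)) (XT.lf (nat_lit 0) (nat_lit 5539457607303) (nat_lit 152) (nat_lit 9768659156020) (nat_lit 0) (nat_lit 5197478552733) (nat_lit 2) (nat_lit 5) (nat_lit 4) (nat_lit 4) (nat_lit 2) (nat_lit 4) (nat_lit 372) (nat_lit 329) (nat_lit 199))))) (XT.nd (nat_lit 156) (nat_lit 0) (nat_lit 0) (XT.nd (nat_lit 78) (nat_lit 0) (nat_lit 0) (XT.lf (nat_lit 0) (nat_lit 7165404718994) (nat_lit 152) (nat_lit 9465513086372) (nat_lit 0) (nat_lit 6823425663850) (nat_lit 2) (nat_lit 5) (nat_lit 4) (nat_lit 4) (nat_lit 2) (nat_lit 4) (nat_lit 373)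 (nat_lit 329) (nat_lit 198)) (XT.lf (nat_lit 0) (nat_lit 9035243894784) (nat_lit 152) (nat_lit 9116895111823) (nat_lit 0) (nat_lit 8693264839141) (nat_lit 2) (nat_lit 5) (nat_lit 4) (nat_lit 4) (nat_lit 2) (nat_lit 4) (nat_lit 374) (nat_lit 329) (nat_lit 197))) (XT.nd (nat_lit 78) (nat_lit 0) (nat_lit 0) (XT.lf (nat_lit 0) (nat_lit 11185558944635) (nat_lit 152) (nat_lit 8715984445914) (nat_lit 0) (nat_lit 10843579888558) (nat_lit 2) (nat_lit 5) (nat_lit 4) (nat_lit 4) (nat_lit 2) (nat_lit 4) (nat_lit 375) (nat_lit 329) (nat_lit 196)) (XT.nd (nat_lit 78) (nat_lit 0) (nat_lit 0) (XT.lf (nat_lit 0) (nat_lit 13658421249956) (nat_lit 152) (nat_lit 8254937184313) (nat_lit 0) (nat_lit 13316442193502) (nat_lit 2) (nat_lit 5) (nat_lit 4) (nat_lit 4) (nat_lit 2) (nat_lit 4) (nat_lit 376) (nat_lit 329) (nat_lit 195)) (XT.lf (nat_lit 0) (nat_lit 16502212899330) (nat_lit 152) (nat_lit 7724732837118)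 (nat_lit 0) (nat_lit 16160233842548) (nat_lit 2) (nat_lit 5) (nat_lit 4) (nat_lit 4) (nat_lit 2) (nat_lit 4) (nat_lit 377) (nat_lit 329) (nat_lit 194)))))) (XT.nd (nat_lit 390) (nat_lit 76) (nat_lit 0) (XT.nd (nat_lit 156) (nat_lit 0) (nat_lit 0) (XT.nd (nat_lit 78) (nat_lit 0) (nat_lit 0) (XT.lf (nat_lit 0) (nat_lit 19772573294593) (nat_lit 152) (nat_lit 7114997841016) (nat_lit 0) (nat_lit 19430594237525) (nat_lit 2) (nat_lit 5) (nat_lit 4) (nat_lit 4) (nat_lit 2) (nat_lit 4) (nat_lit 378) (nat_lit 329) (nat_lit 193)) (XT.lf (nat_lit 0) (nat_lit 23533487747825) (nat_lit 152) (nat_lit 6413802598256) (nat_lit 0) (nat_lit 23191508690510) (nat_lit 2) (nat_lit 5) (nat_lit 4) (nat_lit 4) (nat_lit 2) (nat_lit 4) (nat_lit 379) (nat_lit 329) (nat_lit 192))) (XT.nd (nat_lit 78) (nat_lit 0) (nat_lit 0) (XT.lf (nat_lit 0) (nat_lit 27858539367895) (nat_lit 152) (nat_lit 5607428071479) (nat_lit 0)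 (nat_lit 27516560310364) (nat_lit 2) (nat_lit 5) (nat_lit 4) (nat_lit 4) (nat_lit 2) (nat_lit 4) (nat_lit 380) (nat_lit 329) (nat_lit 191)) (XT.nd (nat_lit 78) (nat_lit 0) (nat_lit 0) (XT.lf (nat_lit 0) (nat_lit 32832348729977) (nat_lit 152) (nat_lit 4680097367771) (nat_lit 0) (nat_lit 32490369672258) (nat_lit 2) (nat_lit 5) (nat_lit 4) (nat_lit 4) (nat_lit 2) (nat_lit 4) (nat_lit 381) (nat_lit 329) (nat_lit 190)) (XT.lf (nat_lit 0) (nat_lit 38552229495504) (nat_lit 152) (nat_lit 3613667060320) (nat_lit 0) (nat_lit 38210250437622) (nat_lit 2) (nat_lit 5) (nat_lit 4) (nat_lit 4) (nat_lit 2) (nat_lit 4) (nat_lit 382) (nat_lit 329) (nat_lit 189))))) (XT.nd (nat_lit 234) (nat_lit 0) (nat_lit 0) (XT.nd (nat_lit 78) (nat_lit 76) (nat_lit 0) (XT.lf (nat_lit 0) (nat_lit 45130092375105) (nat_lit 152) (nat_lit 2387272208329) (nat_lit 0) (nat_lit 44788113317082) (nat_lit 2) (nat_lit 5) (nat_lit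 4) (nat_lit 4) (nat_lit 2) (nat_lit 4) (nat_lit 383) (nat_lit 329) (nat_lit 188)) (XT.nd (nat_lit 78) (nat_lit 76) (nat_lit 0) (XT.lf (nat_lit 0) (nat_lit 52694634685991) (nat_lit 152) (nat_lit 976918129909) (nat_lit 0) (nat_lit 52352655627844) (nat_lit 2) (nat_lit 5) (nat_lit 4) (nat_lit 4) (nat_lit 2) (nat_lit 4) (nat_lit 384) (nat_lit 329) (nat_lit 187)) (XT.lf (nat_lit 0) (nat_lit 708022080764) (nat_lit 76) (nat_lit 60715153946678) (nat_lit 76) (nat_lit 60373174888424) (nat_lit 1) (nat_lit 4) (nat_lit 2) (nat_lit 5) (nat_lit 2) (nat_lit 4) (nat_lit 385) (nat_lit 329) (nat_lit 186)))) (XT.nd (nat_lit 78) (nat_lit 0) (nat_lit 0) (XT.lf (nat_lit 0) (nat_lit 2755495598091) (nat_lit 76) (nat_lit 68756569146449) (nat_lit 76) (nat_lit 68414590088101) (nat_lit 1) (nat_lit 4) (nat_lit 2) (nat_lit 5) (nat_lit 2) (nat_lit 4) (nat_lit 386) (nat_lit 329) (nat_lit 185)) (XT.nd (nat_lit 78) (nat_lit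 0) (nat_lit 0) (XT.lf (nat_lit 0) (nat_lit 5110090142029) (nat_lit 76) (nat_lit 78004196626702) (nat_lit 76) (nat_lit 77662217568274) (nat_lit 1) (nat_lit 4) (nat_lit 2) (nat_lit 5) (nat_lit 2) (nat_lit 4) (nat_lit 387) (nat_lit 329) (nat_lit 184)) (XT.lf (nat_lit 0) (nat_lit 7817873866696) (nat_lit 76) (nat_lit 88638968229443) (nat_lit 76) (nat_lit 88296989170945) (nat_lit 1) (nat_lit 4) (nat_lit 2) (nat_lit 5) (nat_lit 2) (nat_lit 4) (nat_lit 388) (nat_lit 329) (nat_lit 183))))))) (XT.nd (nat_lit 43056) (nat_lit 0) (nat_lit 760) (XT.nd (nat_lit 42588) (nat_lit 0) (nat_lit 1444) (XT.nd (nat_lit 42354) (nat_lit 0) (nat_lit 1900) (XT.nd (nat_lit 42276) (nat_lit 0) (nat_lit 1900) (XT.lf (nat_lit 0) (nat_lit 10931825149315) (nat_lit 76) (nat_lit 100868955572987) (nat_lit 76) (nat_lit 100526976514427) (nat_lit 1) (nat_lit 4) (nat_lit 2) (nat_lit 5) (nat_lit 2) (nat_lit 4) (nat_lit 389) (nat_lit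 329) (nat_lit 182)) (XT.lf (nat_lit 0) (nat_lit 30031150929) (nat_lit 380) (nat_lit 52219556142) (nat_lit 380) (nat_lit 52219556142) (nat_lit 26) (nat_lit 3) (nat_lit 31) (nat_lit 3) (nat_lit 31) (nat_lit 5) (nat_lit 330) (nat_lit 330) (nat_lit 240))) (XT.nd (nat_lit 78) (nat_lit 0) (nat_lit 76) (XT.lf (nat_lit 76) (nat_lit 27392625143) (nat_lit 0) (nat_lit 38309448798) (nat_lit 380) (nat_lit 223238725266) (nat_lit 27) (nat_lit 5) (nat_lit 26) (nat_lit 3) (nat_lit 31) (nat_lit 5) (nat_lit 331) (nat_lit 330) (nat_lit 239)) (XT.nd (nat_lit 78) (nat_lit 0) (nat_lit 0) (XT.lf (nat_lit 0) (nat_lit 82329776073) (nat_lit 304) (nat_lit 125068475021) (nat_lit 380) (nat_lit 103021567491) (nat_lit 27) (nat_lit 5) (nat_lit 31) (nat_lit 5) (nat_lit 32) (nat_lit 5) (nat_lit 332) (nat_lit 330) (nat_lit 238)) (XT.lf (nat_lit 76) (nat_lit 32996382203) (nat_lit 0) (nat_lit 71645690950) (nat_lit 380) (nat_lit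 230000052050) (nat_lit 28) (nat_lit 5) (nat_lit 27) (nat_lit 5) (nat_lit 32) (nat_lit 5) (nat_lit 333) (nat_lit 330) (nat_lit 237))))) (XT.nd (nat_lit 234) (nat_lit 304) (nat_lit 0) (XT.nd (nat_lit 78) (nat_lit 304) (nat_lit 0) (XT.lf (nat_lit 0) (nat_lit 140647798983) (nat_lit 304) (nat_lit 136499315276) (nat_lit 76) (nat_lit 83798676167) (nat_lit 28) (nat_lit 5) (nat_lit 32) (nat_lit 5) (nat_lit 29) (nat_lit 5) (nat_lit 334) (nat_lit 330) (nat_lit 236)) (XT.nd (nat_lit 78) (nat_lit 0) (nat_lit 0) (XT.lf (nat_lit 0) (nat_lit 54894349788) (nat_lit 304) (nat_lit 132844690492) (nat_lit 380) (nat_lit 202603266872) (nat_lit 24) (nat_lit 5) (nat_lit 28) (nat_lit 5) (nat_lit 29) (nat_lit 5) (nat_lit 335) (nat_lit 330) (nat_lit 235)) (XT.lf (nat_lit 0) (nat_lit 250739566900) (nat_lit 380) (nat_lit 134450907005) (nat_lit 76) (nat_lit 37630987796) (nat_lit 24) (nat_lit 5) (nat_lit 29) (nat_lit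 5) (nat_lit 25) (nat_lit 5) (nat_lit 336) (nat_lit 330) (nat_lit 234)))) (XT.nd (nat_lit 78) (nat_lit 152) (nat_lit 0) (XT.lf (nat_lit 0) (nat_lit 99201247847) (nat_lit 152) (nat_lit 234422494413) (nat_lit 228) (nat_lit 124983711867) (nat_lit 22) (nat_lit 5) (nat_lit 24) (nat_lit 5) (nat_lit 25) (nat_lit 5) (nat_lit 337) (nat_lit 330) (nat_lit 233)) (XT.nd (nat_lit 78) (nat_lit 152) (nat_lit 0) (XT.lf (nat_lit 0) (nat_lit 383011582349) (nat_lit 152) (nat_lit 52957003772) (nat_lit 228) (nat_lit 62738553105) (nat_lit 22) (nat_lit 5) (nat_lit 24) (nat_lit 5) (nat_lit 25) (nat_lit 5) (nat_lit 338) (nat_lit 330) (nat_lit 232)) (XT.lf (nat_lit 0) (nat_lit 22341133141) (nat_lit 152) (nat_lit 370215748484) (nat_lit 76) (nat_lit 150067209874) (nat_lit 20) (nat_lit 5) (nat_lit 22) (nat_lit 5) (nat_lit 21) (nat_lit 5) (nat_lit 339) (nat_lit 330) (nat_lit 231)))))) (XT.nd (nat_lit 390) (nat_lit 304)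 (nat_lit 0) (XT.nd (nat_lit 156) (nat_lit 228) (nat_lit 0) (XT.nd (nat_lit 78) (nat_lit 152) (nat_lit 0) (XT.lf (nat_lit 0) (nat_lit 122616948120) (nat_lit 152) (nat_lit 81288387721) (nat_lit 76) (nat_lit 387446507051) (nat_lit 20) (nat_lit 5) (nat_lit 22) (nat_lit 5) (nat_lit 21) (nat_lit 5) (nat_lit 340) (nat_lit 330) (nat_lit 230)) (XT.lf (nat_lit 0) (nat_lit 250425534971) (nat_lit 228) (nat_lit 371255521772) (nat_lit 76) (nat_lit 23833990385) (nat_lit 18) (nat_lit 5) (nat_lit 21) (nat_lit 5) (nat_lit 19) (nat_lit 4) (nat_lit 341) (nat_lit 330) (nat_lit 229))) (XT.nd (nat_lit 78) (nat_lit 228) (nat_lit 0) (XT.lf (nat_lit 0) (nat_lit 411566643219) (nat_lit 228) (nat_lit 24802226900) (nat_lit 76) (nat_lit 269309676944) (nat_lit 18) (nat_lit 5) (nat_lit 21) (nat_lit 5) (nat_lit 19) (nat_lit 4) (nat_lit 342) (nat_lit 330) (nat_lit 228)) (XT.nd (nat_lit 78) (nat_lit 152) (nat_lit 0) (XT.lf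 (nat_lit 0) (nat_lit 410131755598) (nat_lit 76) (nat_lit 203729798736) (nat_lit 152) (nat_lit 158457622217) (nat_lit 17) (nat_lit 5) (nat_lit 18) (nat_lit 5) (nat_lit 19) (nat_lit 4) (nat_lit 343) (nat_lit 330) (nat_lit 227)) (XT.lf (nat_lit 0) (nat_lit 4888741694) (nat_lit 152) (nat_lit 780507164190) (nat_lit 76) (nat_lit 62506440109) (nat_lit 15) (nat_lit 5) (nat_lit 17) (nat_lit 5) (nat_lit 16) (nat_lit 4) (nat_lit 344) (nat_lit 330) (nat_lit 226))))) (XT.nd (nat_lit 234) (nat_lit 228) (nat_lit 0) (XT.nd (nat_lit 78) (nat_lit 76) (nat_lit 0) (XT.lf (nat_lit 0) (nat_lit 206049467833) (nat_lit 152) (nat_lit 348011653225) (nat_lit 76) (nat_lit 375199712184) (nat_lit 15) (nat_lit 5) (nat_lit 17) (nat_lit 5) (nat_lit 16) (nat_lit 4) (nat_lit 345) (nat_lit 330) (nat_lit 225)) (XT.nd (nat_lit 78) (nat_lit 0) (nat_lit 0) (XT.lf (nat_lit 0) (nat_lit 163954481417) (nat_lit 76) (nat_lit 280218790288)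 (nat_lit 152) (nat_lit 577631476587) (nat_lit 14) (nat_lit 5) (nat_lit 15) (nat_lit 5) (nat_lit 16) (nat_lit 4) (nat_lit 346) (nat_lit 330) (nat_lit 224)) (XT.lf (nat_lit 0) (nat_lit 738510240080) (nat_lit 152) (nat_lit 335977399411) (nat_lit 0) (nat_lit 50668422049) (nat_lit 14) (nat_lit 5) (nat_lit 16) (nat_lit 4) (nat_lit 14) (nat_lit 4) (nat_lit 347) (nat_lit 330) (nat_lit 223)))) (XT.nd (nat_lit 78) (nat_lit 152) (nat_lit 0) (XT.lf (nat_lit 0) (nat_lit 275345773886) (nat_lit 76) (nat_lit 826397182159) (nat_lit 76) (nat_lit 138555335407) (nat_lit 13) (nat_lit 4) (nat_lit 14) (nat_lit 5) (nat_lit 14) (nat_lit 4) (nat_lit 348) (nat_lit 330) (nat_lit 222)) (XT.nd (nat_lit 78) (nat_lit 76) (nat_lit 0) (XT.lf (nat_lit 0) (nat_lit 152082869207) (nat_lit 152) (nat_lit 360863702932) (nat_lit 76) (nat_lit 856093991204) (nat_lit 12) (nat_lit 5) (nat_lit 14) (nat_lit 5) (nat_lit 13) (nat_lit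 4) (nat_lit 349) (nat_lit 330) (nat_lit 221)) (XT.lf (nat_lit 0) (nat_lit 359220833322) (nat_lit 76) (nat_lit 127785086104) (nat_lit 152) (nat_lit 1026867394325) (nat_lit 11) (nat_lit 5) (nat_lit 12) (nat_lit 5) (nat_lit 13) (nat_lit 4) (nat_lit 350) (nat_lit 330) (nat_lit 220))))))))
noncomputable def xc99 : XT := (XT.nd (nat_lit 1716) (nat_lit 76) (nat_lit 0) (XT.nd (nat_lit 858) (nat_lit 228) (nat_lit 0) (XT.nd (nat_lit 390) (nat_lit 228) (nat_lit 0) (XT.nd (nat_lit 156) (nat_lit 152) (nat_lit 0) (XT.nd (nat_lit 78) (nat_lit 76) (nat_lit 0) (XT.lf (nat_lit 0) (nat_lit 904978700127) (nat_lit 152) (nat_lit 463675287566) (nat_lit 0) (nat_lit 306855298100) (nat_lit 11) (nat_lit 5) (nat_lit 13) (nat_lit 4) (nat_lit 11) (nat_lit 4) (nat_lit 351) (nat_lit 330) (nat_lit 219)) (XT.lf (nat_lit 0) (nat_lit 356611453697) (nat_lit 76) (nat_lit 1049887445534) (nat_lit 76) (nat_lit 451764029228)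 (nat_lit 10) (nat_lit 4) (nat_lit 11) (nat_lit 5) (nat_lit 11) (nat_lit 4) (nat_lit 352) (nat_lit 330) (nat_lit 218))) (XT.nd (nat_lit 78) (nat_lit 152) (nat_lit 0) (XT.lf (nat_lit 0) (nat_lit 1352051943585) (nat_lit 76) (nat_lit 655432735055) (nat_lit 76) (nat_lit 57309306331) (nat_lit 10) (nat_lit 4) (nat_lit 11) (nat_lit 5) (nat_lit 11) (nat_lit 4) (nat_lit 353) (nat_lit 330) (nat_lit 217)) (XT.nd (nat_lit 78) (nat_lit 0) (nat_lit 0) (XT.lf (nat_lit 0) (nat_lit 195497835670) (nat_lit 76) (nat_lit 173628338837) (nat_lit 152) (nat_lit 1929502680806) (nat_lit 8) (nat_lit 5) (nat_lit 9) (nat_lit 5) (nat_lit 10) (nat_lit 4) (nat_lit 354) (nat_lit 330) (nat_lit 216)) (XT.lf (nat_lit 0) (nat_lit 908444175894) (nat_lit 152) (nat_lit 1262130912149) (nat_lit 0) (nat_lit 388336829015) (nat_lit 8) (nat_lit 5) (nat_lit 10) (nat_lit 4) (nat_lit 8) (nat_lit 4) (nat_lit 355) (nat_lit 330) (nat_lit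 215))))) (XT.nd (nat_lit 234) (nat_lit 152) (nat_lit 0) (XT.nd (nat_lit 78) (nat_lit 76) (nat_lit 0) (XT.lf (nat_lit 0) (nat_lit 1536927876888) (nat_lit 152) (nat_lit 303248838364) (nat_lit 0) (nat_lit 1016820522910) (nat_lit 8) (nat_lit 5) (nat_lit 10) (nat_lit 4) (nat_lit 8) (nat_lit 4) (nat_lit 356) (nat_lit 330) (nat_lit 214)) (XT.nd (nat_lit 78) (nat_lit 0) (nat_lit 0) (XT.lf (nat_lit 0) (nat_lit 877595101820) (nat_lit 76) (nat_lit 1418428358349) (nat_lit 76) (nat_lit 898320998197) (nat_lit 7) (nat_lit 4) (nat_lit 8) (nat_lit 5) (nat_lit 8) (nat_lit 4) (nat_lit 357) (nat_lit 330) (nat_lit 213)) (XT.lf (nat_lit 0) (nat_lit 2269646639284) (nat_lit 76) (nat_lit 915188371670) (nat_lit 76) (nat_lit 395081006149) (nat_lit 7) (nat_lit 4) (nat_lit 8) (nat_lit 5) (nat_lit 8) (nat_lit 4) (nat_lit 358) (nat_lit 330) (nat_lit 212)))) (XT.nd (nat_lit 78) (nat_lit 76) (nat_lit 0) (XT.lf (nat_lit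 0) (nat_lit 167295625653) (nat_lit 152) (nat_lit 160421775034) (nat_lit 76) (nat_lit 3694465258778) (nat_lit 6) (nat_lit 5) (nat_lit 8) (nat_lit 5) (nat_lit 7) (nat_lit 4) (nat_lit 359) (nat_lit 330) (nat_lit 211)) (XT.nd (nat_lit 78) (nat_lit 0) (nat_lit 0) (XT.lf (nat_lit 0) (nat_lit 843313412288) (nat_lit 152) (nat_lit 3283147733914) (nat_lit 0) (nat_lit 391046130333) (nat_lit 5) (nat_lit 5) (nat_lit 7) (nat_lit 4) (nat_lit 5) (nat_lit 4) (nat_lit 360) (nat_lit 330) (nat_lit 210)) (XT.lf (nat_lit 0) (nat_lit 1645124448550) (nat_lit 152) (nat_lit 2245490386848) (nat_lit 0) (nat_lit 1192857163526) (nat_lit 5) (nat_lit 5) (nat_lit 7) (nat_lit 4) (nat_lit 5) (nat_lit 4) (nat_lit 361) (nat_lit 330) (nat_lit 209)))))) (XT.nd (nat_lit 390) (nat_lit 152) (nat_lit 0) (XT.nd (nat_lit 156) (nat_lit 0) (nat_lit 0) (XT.nd (nat_lit 78) (nat_lit 76) (nat_lit 0) (XT.lf (nat_lit 0) (nat_lit 2567207130822)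 (nat_lit 152) (nat_lit 1052184457137) (nat_lit 0) (nat_lit 2114939843129) (nat_lit 5) (nat_lit 5) (nat_lit 7) (nat_lit 4) (nat_lit 5) (nat_lit 4) (nat_lit 362) (nat_lit 330) (nat_lit 208)) (XT.lf (nat_lit 0) (nat_lit 351401540242) (nat_lit 76) (nat_lit 3290751455410) (nat_lit 76) (nat_lit 2838484165396) (nat_lit 4) (nat_lit 4) (nat_lit 5) (nat_lit 5) (nat_lit 5) (nat_lit 4) (nat_lit 363) (nat_lit 330) (nat_lit 207))) (XT.nd (nat_lit 78) (nat_lit 0) (nat_lit 0) (XT.lf (nat_lit 0) (nat_lit 2083776606126) (nat_lit 76) (nat_lit 2849564677451) (nat_lit 76) (nat_lit 2397297385419) (nat_lit 4) (nat_lit 4) (nat_lit 5) (nat_lit 5) (nat_lit 5) (nat_lit 4) (nat_lit 364) (nat_lit 330) (nat_lit 206)) (XT.nd (nat_lit 78) (nat_lit 0) (nat_lit 0) (XT.lf (nat_lit 0) (nat_lit 4076007917880) (nat_lit 76) (nat_lit 2342199890031) (nat_lit 76) (nat_lit 1889932596244) (nat_lit 4) (nat_lit 4) (nat_lit 5) (nat_lit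 5) (nat_lit 5) (nat_lit 4) (nat_lit 365) (nat_lit 330) (nat_lit 205)) (XT.lf (nat_lit 0) (nat_lit 6367073914213) (nat_lit 76) (nat_lit 1758730390787) (nat_lit 76) (nat_lit 1306463095474) (nat_lit 4) (nat_lit 4) (nat_lit 5) (nat_lit 5) (nat_lit 5) (nat_lit 4) (nat_lit 366) (nat_lit 330) (nat_lit 204))))) (XT.nd (nat_lit 234) (nat_lit 0) (nat_lit 0) (XT.nd (nat_lit 78) (nat_lit 152) (nat_lit 0) (XT.lf (nat_lit 0) (nat_lit 9001799799400) (nat_lit 76) (nat_lit 1087740472125) (nat_lit 76) (nat_lit 635473175485) (nat_lit 4) (nat_lit 4) (nat_lit 5) (nat_lit 5) (nat_lit 5) (nat_lit 4) (nat_lit 367) (nat_lit 330) (nat_lit 203)) (XT.nd (nat_lit 78) (nat_lit 76) (nat_lit 0) (XT.lf (nat_lit 0) (nat_lit 124042857234) (nat_lit 152) (nat_lit 185575154739) (nat_lit 76) (nat_lit 11901207642470) (nat_lit 3) (nat_lit 5) (nat_lit 5) (nat_lit 5) (nat_lit 4) (nat_lit 4) (nat_lit 368) (nat_lit 330) (nat_lit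 202)) (XT.lf (nat_lit 0) (nat_lit 1032025870745) (nat_lit 152) (nat_lit 12229254780670) (nat_lit 0) (nat_lit 638749958747) (nat_lit 2) (nat_lit 5) (nat_lit 4) (nat_lit 4) (nat_lit 2) (nat_lit 4) (nat_lit 369) (nat_lit 330) (nat_lit 201)))) (XT.nd (nat_lit 78) (nat_lit 0) (nat_lit 0) (XT.lf (nat_lit 0) (nat_lit 2101112496052) (nat_lit 152) (nat_lit 12029931305926) (nat_lit 0) (nat_lit 1707836583295) (nat_lit 2) (nat_lit 5) (nat_lit 4) (nat_lit 4) (nat_lit 2) (nat_lit 4) (nat_lit 370) (nat_lit 330) (nat_lit 200)) (XT.nd (nat_lit 78) (nat_lit 0) (nat_lit 0) (XT.lf (nat_lit 0) (nat_lit 3330562111644) (nat_lit 152) (nat_lit 11800709317306) (nat_lit 0) (nat_lit 2937286198228) (nat_lit 2) (nat_lit 5) (nat_lit 4) (nat_lit 4) (nat_lit 2) (nat_lit 4) (nat_lit 371) (nat_lit 330) (nat_lit 199)) (XT.lf (nat_lit 0) (nat_lit 4744429166523) (nat_lit 152) (nat_lit 11537104036772) (nat_lit 0) (nat_lit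 4351153252533) (nat_lit 2) (nat_lit 5) (nat_lit 4) (nat_lit 4) (nat_lit 2) (nat_lit 4) (nat_lit 372) (nat_lit 330) (nat_lit 198))))))) (XT.nd (nat_lit 858) (nat_lit 76) (nat_lit 0) (XT.nd (nat_lit 390) (nat_lit 0) (nat_lit 0) (XT.nd (nat_lit 156) (nat_lit 0) (nat_lit 0) (XT.nd (nat_lit 78) (nat_lit 0) (nat_lit 0) (XT.lf (nat_lit 0) (nat_lit 6370376276979) (nat_lit 152) (nat_lit 11233957969703) (nat_lit 0) (nat_lit 5977100362491) (nat_lit 2) (nat_lit 5) (nat_lit 4) (nat_lit 4) (nat_lit 2) (nat_lit 4) (nat_lit 373) (nat_lit 330) (nat_lit 197)) (XT.lf (nat_lit 0) (nat_lit 8240215451696) (nat_lit 152) (nat_lit 10885339997397) (nat_lit 0) (nat_lit 7846939536773) (nat_lit 2) (nat_lit 5) (nat_lit 4) (nat_lit 4) (nat_lit 2) (nat_lit 4) (nat_lit 374) (nat_lit 330) (nat_lit 196))) (XT.nd (nat_lit 78) (nat_lit 0) (nat_lit 0) (XT.lf (nat_lit 0) (nat_lit 10390530500613) (nat_lit 152) (nat_lit 10484429333439)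 (nat_lit 0) (nat_lit 9997254585313) (nat_lit 2) (nat_lit 5) (nat_lit 4) (nat_lit 4) (nat_lit 2) (nat_lit 4) (nat_lit 375) (nat_lit 330) (nat_lit 195)) (XT.nd (nat_lit 78) (nat_lit 0) (nat_lit 0) (XT.lf (nat_lit 0) (nat_lit 12863392805122) (nat_lit 152) (nat_lit 10023382073534) (nat_lit 0) (nat_lit 12470116889495) (nat_lit 2) (nat_lit 5) (nat_lit 4) (nat_lit 4) (nat_lit 2) (nat_lit 4) (nat_lit 376) (nat_lit 330) (nat_lit 194)) (XT.lf (nat_lit 0) (nat_lit 15707184453791) (nat_lit 152) (nat_lit 9493177727815) (nat_lit 0) (nat_lit 15313908537878) (nat_lit 2) (nat_lit 5) (nat_lit 4) (nat_lit 4) (nat_lit 2) (nat_lit 4) (nat_lit 377) (nat_lit 330) (nat_lit 193))))) (XT.nd (nat_lit 234) (nat_lit 0) (nat_lit 0) (XT.nd (nat_lit 78) (nat_lit 0) (nat_lit 0) (XT.lf (nat_lit 0) (nat_lit 18977544848439) (nat_lit 152) (nat_lit 8883442732995) (nat_lit 0) (nat_lit 18584268932278) (nat_lit 2) (nat_lit 5)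 (nat_lit 4) (nat_lit 4) (nat_lit 2) (nat_lit 4) (nat_lit 378) (nat_lit 330) (nat_lit 192)) (XT.nd (nat_lit 78) (nat_lit 0) (nat_lit 0) (XT.lf (nat_lit 0) (nat_lit 22738459301138) (nat_lit 152) (nat_lit 8182247491350) (nat_lit 0) (nat_lit 22345183384761) (nat_lit 2) (nat_lit 5) (nat_lit 4) (nat_lit 4) (nat_lit 2) (nat_lit 4) (nat_lit 379) (nat_lit 330) (nat_lit 191)) (XT.lf (nat_lit 0) (nat_lit 27063510920743) (nat_lit 152) (nat_lit 7375872965543) (nat_lit 0) (nat_lit 26670235004179) (nat_lit 2) (nat_lit 5) (nat_lit 4) (nat_lit 4) (nat_lit 2) (nat_lit 4) (nat_lit 380) (nat_lit 330) (nat_lit 190)))) (XT.nd (nat_lit 78) (nat_lit 0) (nat_lit 0) (XT.lf (nat_lit 0) (nat_lit 32037320282422) (nat_lit 152) (nat_lit 6448542262679) (nat_lit 0) (nat_lit 31644044365695) (nat_lit 2) (nat_lit 5) (nat_lit 4) (nat_lit 4) (nat_lit 2) (nat_lit 4) (nat_lit 381) (nat_lit 330) (nat_lit 189)) (XT.nd (nat_lit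 78) (nat_lit 0) (nat_lit 0) (XT.lf (nat_lit 0) (nat_lit 37757201047598) (nat_lit 152) (nat_lit 5382111955961) (nat_lit 0) (nat_lit 37363925130729) (nat_lit 2) (nat_lit 5) (nat_lit 4) (nat_lit 4) (nat_lit 2) (nat_lit 4) (nat_lit 382) (nat_lit 330) (nat_lit 188)) (XT.lf (nat_lit 0) (nat_lit 44335063926894) (nat_lit 152) (nat_lit 4155717104607) (nat_lit 0) (nat_lit 43941788009902) (nat_lit 2) (nat_lit 5) (nat_lit 4) (nat_lit 4) (nat_lit 2) (nat_lit 4) (nat_lit 383) (nat_lit 330) (nat_lit 187)))))) (XT.nd (nat_lit 42744) (nat_lit 0) (nat_lit 1748) (XT.nd (nat_lit 156) (nat_lit 76) (nat_lit 0) (XT.nd (nat_lit 78) (nat_lit 0) (nat_lit 0) (XT.lf (nat_lit 0) (nat_lit 51899606237514) (nat_lit 152) (nat_lit 2745363026741) (nat_lit 0) (nat_lit 51506330320415) (nat_lit 2) (nat_lit 5) (nat_lit 4) (nat_lit 4) (nat_lit 2) (nat_lit 4) (nat_lit 384) (nat_lit 330) (nat_lit 186)) (XT.lf (nat_lit 0) (nat_lit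 60598829894231) (nat_lit 152) (nat_lit 1123455838233) (nat_lit 0) (nat_lit 60205553977038) (nat_lit 2) (nat_lit 5) (nat_lit 4) (nat_lit 4) (nat_lit 2) (nat_lit 4) (nat_lit 385) (nat_lit 330) (nat_lit 185))) (XT.nd (nat_lit 78) (nat_lit 0) (nat_lit 0) (XT.lf (nat_lit 0) (nat_lit 814225403533) (nat_lit 76) (nat_lit 69822427033111) (nat_lit 76) (nat_lit 69429151115837) (nat_lit 1) (nat_lit 4) (nat_lit 2) (nat_lit 5) (nat_lit 2) (nat_lit 4) (nat_lit 386) (nat_lit 330) (nat_lit 184)) (XT.nd (nat_lit 78) (nat_lit 0) (nat_lit 0) (XT.lf (nat_lit 0) (nat_lit 3168819947070) (nat_lit 76) (nat_lit 79070054513574) (nat_lit 76) (nat_lit 78676778596230) (nat_lit 1) (nat_lit 4) (nat_lit 2) (nat_lit 5) (nat_lit 2) (nat_lit 4) (nat_lit 387) (nat_lit 330) (nat_lit 183)) (XT.lf (nat_lit 0) (nat_lit 5876603671390) (nat_lit 76) (nat_lit 89704826116497) (nat_lit 76) (nat_lit 89311550199091) (nat_lit 1) (nat_lit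 4) (nat_lit 2) (nat_lit 5) (nat_lit 2) (nat_lit 4) (nat_lit 388) (nat_lit 330) (nat_lit 182))))) (XT.nd (nat_lit 234) (nat_lit 152) (nat_lit 0) (XT.nd (nat_lit 78) (nat_lit 0) (nat_lit 0) (XT.lf (nat_lit 0) (nat_lit 34536618482) (nat_lit 380) (nat_lit 60052031632) (nat_lit 380) (nat_lit 60052031632) (nat_lit 26) (nat_lit 3) (nat_lit 31) (nat_lit 3) (nat_lit 31) (nat_lit 5) (nat_lit 331) (nat_lit 331) (nat_lit 238)) (XT.nd (nat_lit 78) (nat_lit 0) (nat_lit 76) (XT.lf (nat_lit 76) (nat_lit 31502393147) (nat_lit 0) (nat_lit 44056410542) (nat_lit 380) (nat_lit 256722899622) (nat_lit 27) (nat_lit 5) (nat_lit 26) (nat_lit 3) (nat_lit 31) (nat_lit 5) (nat_lit 332) (nat_lit 331) (nat_lit 237)) (XT.lf (nat_lit 0) (nat_lit 94680456496) (nat_lit 304) (nat_lit 143827778838) (nat_lit 380) (nat_lit 118474371348) (nat_lit 27) (nat_lit 5) (nat_lit 31) (nat_lit 5) (nat_lit 32) (nat_lit 5) (nat_lit 333)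 (nat_lit 331) (nat_lit 236)))) (XT.nd (nat_lit 78) (nat_lit 228) (nat_lit 0) (XT.lf (nat_lit 76) (nat_lit 37946762995) (nat_lit 0) (nat_lit 82392715032) (nat_lit 380) (nat_lit 264498799620) (nat_lit 28) (nat_lit 5) (nat_lit 27) (nat_lit 5) (nat_lit 32) (nat_lit 5) (nat_lit 334) (nat_lit 331) (nat_lit 235)) (XT.nd (nat_lit 78) (nat_lit 304) (nat_lit 0) (XT.lf (nat_lit 0) (nat_lit 161745913912) (nat_lit 304) (nat_lit 156973258779) (nat_lit 76) (nat_lit 96368342579) (nat_lit 28) (nat_lit 5) (nat_lit 32) (nat_lit 5) (nat_lit 29) (nat_lit 5) (nat_lit 335) (nat_lit 331) (nat_lit 234)) (XT.lf (nat_lit 0) (nat_lit 63129412691) (nat_lit 304) (nat_lit 152771343140) (nat_lit 380) (nat_lit 232992766765) (nat_lit 24) (nat_lit 5) (nat_lit 28) (nat_lit 5) (nat_lit 29) (nat_lit 5) (nat_lit 336) (nat_lit 331) (nat_lit 233))))))))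
noncomputable def xc100 : XT := (XT.nd (nat_lit 1638) (nat_lit 456) (nat_lit 0) (XT.nd (nat_lit 780) (nat_lit 532) (nat_lit 0) (XT.nd (nat_lit 390) (nat_lit 380) (nat_lit 0) (XT.nd (nat_lit 156) (nat_lit 152) (nat_lit 0) (XT.nd (nat_lit 78) (nat_lit 152) (nat_lit 0) (XT.lf (nat_lit 0) (nat_lit 288351251168) (nat_lit 380) (nat_lit 154617639616) (nat_lit 76) (nat_lit 43275676306) (nat_lit 24) (nat_lit 5) (nat_lit 29) (nat_lit 5) (nat_lit 25) (nat_lit 5) (nat_lit 337) (nat_lit 331) (nat_lit 232)) (XT.lf (nat_lit 0) (nat_lit 114082297398) (nat_lit 152) (nat_lit 269585693417) (nat_lit 228) (nat_lit 143730477062) (nat_lit 22) (nat_lit 5) (nat_lit 24) (nat_lit 5) (nat_lit 25) (nat_lit 5) (nat_lit 338) (nat_lit 331) (nat_lit 231))) (XT.nd (nat_lit 78) (nat_lit 152) (nat_lit 0) (XT.lf (nat_lit 0) (nat_lit 440464069591) (nat_lit 152) (nat_lit 60900402026) (nat_lit 228) (nat_lit 72148647735) (nat_lit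 22) (nat_lit 5) (nat_lit 24) (nat_lit 5) (nat_lit 25) (nat_lit 5) (nat_lit 339) (nat_lit 331) (nat_lit 230)) (XT.nd (nat_lit 78) (nat_lit 0) (nat_lit 0) (XT.lf (nat_lit 0) (nat_lit 25692888672) (nat_lit 152) (nat_lit 425747256269) (nat_lit 76) (nat_lit 172577471603) (nat_lit 20) (nat_lit 5) (nat_lit 22) (nat_lit 5) (nat_lit 21) (nat_lit 5) (nat_lit 340) (nat_lit 331) (nat_lit 229)) (XT.lf (nat_lit 0) (nat_lit 141009999519) (nat_lit 152) (nat_lit 93480902847) (nat_lit 76) (nat_lit 445563639846) (nat_lit 20) (nat_lit 5) (nat_lit 22) (nat_lit 5) (nat_lit 21) (nat_lit 5) (nat_lit 341) (nat_lit 331) (nat_lit 228))))) (XT.nd (nat_lit 156) (nat_lit 228) (nat_lit 0) (XT.nd (nat_lit 78) (nat_lit 0) (nat_lit 0) (XT.lf (nat_lit 0) (nat_lit 287989847171) (nat_lit 228) (nat_lit 426943079138) (nat_lit 76) (nat_lit 27409304955) (nat_lit 18) (nat_lit 5) (nat_lit 21) (nat_lit 5) (nat_lit 19) (nat_lit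 4) (nat_lit 342) (nat_lit 331) (nat_lit 227)) (XT.lf (nat_lit 0) (nat_lit 473302058792) (nat_lit 228) (nat_lit 28521890587) (nat_lit 76) (nat_lit 309706316322) (nat_lit 18) (nat_lit 5) (nat_lit 21) (nat_lit 5) (nat_lit 19) (nat_lit 4) (nat_lit 343) (nat_lit 331) (nat_lit 226))) (XT.nd (nat_lit 78) (nat_lit 152) (nat_lit 0) (XT.lf (nat_lit 0) (nat_lit 471652158815) (nat_lit 76) (nat_lit 234289019592) (nat_lit 152) (nat_lit 182225815505) (nat_lit 17) (nat_lit 5) (nat_lit 18) (nat_lit 5) (nat_lit 19) (nat_lit 4) (nat_lit 344) (nat_lit 331) (nat_lit 225)) (XT.nd (nat_lit 78) (nat_lit 0) (nat_lit 0) (XT.lf (nat_lit 0) (nat_lit 5622447360) (nat_lit 152) (nat_lit 897582542520) (nat_lit 76) (nat_lit 71882648484) (nat_lit 15) (nat_lit 5) (nat_lit 17) (nat_lit 5) (nat_lit 16) (nat_lit 4) (nat_lit 345) (nat_lit 331) (nat_lit 224)) (XT.lf (nat_lit 0) (nat_lit 236957230975) (nat_lit 152) (nat_lit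 400212795732) (nat_lit 76) (nat_lit 431479879758) (nat_lit 15) (nat_lit 5) (nat_lit 17) (nat_lit 5) (nat_lit 16) (nat_lit 4) (nat_lit 346) (nat_lit 331) (nat_lit 223)))))) (XT.nd (nat_lit 390) (nat_lit 228) (nat_lit 0) (XT.nd (nat_lit 156) (nat_lit 228) (nat_lit 0) (XT.nd (nat_lit 78) (nat_lit 0) (nat_lit 0) (XT.lf (nat_lit 0) (nat_lit 188548231584) (nat_lit 76) (nat_lit 322251353041) (nat_lit 152) (nat_lit 664275827310) (nat_lit 14) (nat_lit 5) (nat_lit 15) (nat_lit 5) (nat_lit 16) (nat_lit 4) (nat_lit 347) (nat_lit 331) (nat_lit 222)) (XT.lf (nat_lit 0) (nat_lit 849287065444) (nat_lit 152) (nat_lit 386373473702) (nat_lit 0) (nat_lit 58268887982) (nat_lit 14) (nat_lit 5) (nat_lit 16) (nat_lit 4) (nat_lit 14) (nat_lit 4) (nat_lit 348) (nat_lit 331) (nat_lit 221))) (XT.nd (nat_lit 78) (nat_lit 152) (nat_lit 0) (XT.lf (nat_lit 0) (nat_lit 316648151243) (nat_lit 76) (nat_lit 950356520990)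 (nat_lit 76) (nat_lit 159338321810) (nat_lit 13) (nat_lit 4) (nat_lit 14) (nat_lit 5) (nat_lit 14) (nat_lit 4) (nat_lit 349) (nat_lit 331) (nat_lit 220)) (XT.nd (nat_lit 78) (nat_lit 76) (nat_lit 0) (XT.lf (nat_lit 0) (nat_lit 174895548251) (nat_lit 152) (nat_lit 414992789326) (nat_lit 76) (nat_lit 984508272811) (nat_lit 12) (nat_lit 5) (nat_lit 14) (nat_lit 5) (nat_lit 13) (nat_lit 4) (nat_lit 350) (nat_lit 331) (nat_lit 219)) (XT.lf (nat_lit 0) (nat_lit 413104406046) (nat_lit 76) (nat_lit 146952636062) (nat_lit 152) (nat_lit 1180897233353) (nat_lit 11) (nat_lit 5) (nat_lit 12) (nat_lit 5) (nat_lit 13) (nat_lit 4) (nat_lit 351) (nat_lit 331) (nat_lit 218))))) (XT.nd (nat_lit 234) (nat_lit 152) (nat_lit 0) (XT.nd (nat_lit 78) (nat_lit 76) (nat_lit 0) (XT.lf (nat_lit 0) (nat_lit 1040725716960) (nat_lit 152) (nat_lit 533226168301) (nat_lit 0) (nat_lit 352883761510) (nat_lit 11) (nat_lit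 5) (nat_lit 13) (nat_lit 4) (nat_lit 11) (nat_lit 4) (nat_lit 352) (nat_lit 331) (nat_lit 217)) (XT.nd (nat_lit 78) (nat_lit 0) (nat_lit 0) (XT.lf (nat_lit 0) (nat_lit 410103565407) (nat_lit 76) (nat_lit 1207370369196) (nat_lit 76) (nat_lit 519528402949) (nat_lit 10) (nat_lit 4) (nat_lit 11) (nat_lit 5) (nat_lit 11) (nat_lit 4) (nat_lit 353) (nat_lit 331) (nat_lit 216)) (XT.lf (nat_lit 0) (nat_lit 1554860077431) (nat_lit 76) (nat_lit 753747477341) (nat_lit 76) (nat_lit 65905501704) (nat_lit 10) (nat_lit 4) (nat_lit 11) (nat_lit 5) (nat_lit 11) (nat_lit 4) (nat_lit 354) (nat_lit 331) (nat_lit 215)))) (XT.nd (nat_lit 78) (nat_lit 0) (nat_lit 0) (XT.lf (nat_lit 0) (nat_lit 224822854890) (nat_lit 76) (nat_lit 199672418919) (nat_lit 152) (nat_lit 2218927883764) (nat_lit 8) (nat_lit 5) (nat_lit 9) (nat_lit 5) (nat_lit 10) (nat_lit 4) (nat_lit 355) (nat_lit 331) (nat_lit 214)) (XT.nd (nat_lit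 78) (nat_lit 0) (nat_lit 0) (XT.lf (nat_lit 0) (nat_lit 1044710958970) (nat_lit 152) (nat_lit 1451450233462) (nat_lit 0) (nat_lit 446587488622) (nat_lit 8) (nat_lit 5) (nat_lit 10) (nat_lit 4) (nat_lit 8) (nat_lit 4) (nat_lit 356) (nat_lit 331) (nat_lit 213)) (XT.lf (nat_lit 0) (nat_lit 1767467194676) (nat_lit 152) (nat_lit 348735889762) (nat_lit 0) (nat_lit 1169343718959) (nat_lit 8) (nat_lit 5) (nat_lit 10) (nat_lit 4) (nat_lit 8) (nat_lit 4) (nat_lit 357) (nat_lit 331) (nat_lit 212))))))) (XT.nd (nat_lit 858) (nat_lit 152) (nat_lit 0) (XT.nd (nat_lit 390) (nat_lit 76) (nat_lit 0) (XT.nd (nat_lit 156) (nat_lit 152) (nat_lit 0) (XT.nd (nat_lit 78) (nat_lit 0) (nat_lit 0) (XT.lf (nat_lit 0) (nat_lit 1009234628979) (nat_lit 76) (nat_lit 1631192479541) (nat_lit 76) (nat_lit 1033068999156) (nat_lit 7) (nat_lit 4) (nat_lit 8) (nat_lit 5) (nat_lit 8) (nat_lit 4) (nat_lit 358) (nat_lit 331)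 (nat_lit 211)) (XT.lf (nat_lit 0) (nat_lit 2610093862903) (nat_lit 76) (nat_lit 1052466512151) (nat_lit 76) (nat_lit 454343027707) (nat_lit 7) (nat_lit 4) (nat_lit 8) (nat_lit 5) (nat_lit 8) (nat_lit 4) (nat_lit 359) (nat_lit 331) (nat_lit 210))) (XT.nd (nat_lit 78) (nat_lit 76) (nat_lit 0) (XT.lf (nat_lit 0) (nat_lit 192390071977) (nat_lit 152) (nat_lit 184484833221) (nat_lit 76) (nat_lit 4248635137785) (nat_lit 6) (nat_lit 5) (nat_lit 8) (nat_lit 5) (nat_lit 7) (nat_lit 4) (nat_lit 360) (nat_lit 331) (nat_lit 209)) (XT.nd (nat_lit 78) (nat_lit 0) (nat_lit 0) (XT.lf (nat_lit 0) (nat_lit 969810525659) (nat_lit 152) (nat_lit 3775619684959) (nat_lit 0) (nat_lit 449703142143) (nat_lit 5) (nat_lit 5) (nat_lit 7) (nat_lit 4) (nat_lit 5) (nat_lit 4) (nat_lit 361) (nat_lit 331) (nat_lit 208)) (XT.lf (nat_lit 0) (nat_lit 1891893204118) (nat_lit 152) (nat_lit 2582313763100) (nat_lit 0) (nat_lit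 1371785818281) (nat_lit 5) (nat_lit 5) (nat_lit 7) (nat_lit 4) (nat_lit 5) (nat_lit 4) (nat_lit 362) (nat_lit 331) (nat_lit 207))))) (XT.nd (nat_lit 234) (nat_lit 0) (nat_lit 0) (XT.nd (nat_lit 78) (nat_lit 76) (nat_lit 0) (XT.lf (nat_lit 0) (nat_lit 2952288277215) (nat_lit 152) (nat_lit 1210011967642) (nat_lit 0) (nat_lit 2432180889360) (nat_lit 5) (nat_lit 5) (nat_lit 7) (nat_lit 4) (nat_lit 5) (nat_lit 4) (nat_lit 363) (nat_lit 331) (nat_lit 206)) (XT.nd (nat_lit 78) (nat_lit 0) (nat_lit 0) (XT.lf (nat_lit 0) (nat_lit 404111922159) (nat_lit 76) (nat_lit 3784364095844) (nat_lit 76) (nat_lit 3264256706234) (nat_lit 4) (nat_lit 4) (nat_lit 5) (nat_lit 5) (nat_lit 5) (nat_lit 4) (nat_lit 364) (nat_lit 331) (nat_lit 205)) (XT.lf (nat_lit 0) (nat_lit 2396343228246) (nat_lit 76) (nat_lit 3276999311349) (nat_lit 76) (nat_lit 2756891920213) (nat_lit 4) (nat_lit 4) (nat_lit 5) (nat_lit 5) (nat_lit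 5) (nat_lit 4) (nat_lit 365) (nat_lit 331) (nat_lit 204)))) (XT.nd (nat_lit 78) (nat_lit 0) (nat_lit 0) (XT.lf (nat_lit 0) (nat_lit 4687409219650) (nat_lit 76) (nat_lit 2693529814649) (nat_lit 76) (nat_lit 2173422422186) (nat_lit 4) (nat_lit 4) (nat_lit 5) (nat_lit 5) (nat_lit 5) (nat_lit 4) (nat_lit 366) (nat_lit 331) (nat_lit 203)) (XT.nd (nat_lit 78) (nat_lit 0) (nat_lit 0) (XT.lf (nat_lit 0) (nat_lit 7322135100552) (nat_lit 76) (nat_lit 2022539898199) (nat_lit 76) (nat_lit 1502432504582) (nat_lit 4) (nat_lit 4) (nat_lit 5) (nat_lit 5) (nat_lit 5) (nat_lit 4) (nat_lit 367) (nat_lit 331) (nat_lit 202)) (XT.lf (nat_lit 0) (nat_lit 10352069855577) (nat_lit 76) (nat_lit 1250901498418) (nat_lit 76) (nat_lit 730794103797) (nat_lit 4) (nat_lit 4) (nat_lit 5) (nat_lit 5) (nat_lit 5) (nat_lit 4) (nat_lit 368) (nat_lit 331) (nat_lit 201)))))) (XT.nd (nat_lit 390) (nat_lit 0) (nat_lit 0) (XT.nd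 (nat_lit 156) (nat_lit 0) (nat_lit 0) (XT.nd (nat_lit 78) (nat_lit 76) (nat_lit 0) (XT.lf (nat_lit 0) (nat_lit 142649323851) (nat_lit 152) (nat_lit 213411349212) (nat_lit 76) (nat_lit 13686388823836) (nat_lit 3) (nat_lit 5) (nat_lit 5) (nat_lit 5) (nat_lit 4) (nat_lit 4) (nat_lit 369) (nat_lit 331) (nat_lit 200)) (XT.lf (nat_lit 0) (nat_lit 1186829789154) (nat_lit 152) (nat_lit 14063642918791) (nat_lit 0) (nat_lit 734562488066) (nat_lit 2) (nat_lit 5) (nat_lit 4) (nat_lit 4) (nat_lit 2) (nat_lit 4) (nat_lit 370) (nat_lit 331) (nat_lit 199))) (XT.nd (nat_lit 78) (nat_lit 0) (nat_lit 0) (XT.lf (nat_lit 0) (nat_lit 2416279403327) (nat_lit 152) (nat_lit 13834420933137) (nat_lit 0) (nat_lit 1964012101665) (nat_lit 2) (nat_lit 5) (nat_lit 4) (nat_lit 4) (nat_lit 2) (nat_lit 4) (nat_lit 371) (nat_lit 331) (nat_lit 198)) (XT.nd (nat_lit 78) (nat_lit 0) (nat_lit 0) (XT.lf (nat_lit 0) (nat_lit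 3830146456971) (nat_lit 152) (nat_lit 13570815655182) (nat_lit 0) (nat_lit 3377879154810) (nat_lit 2) (nat_lit 5) (nat_lit 4) (nat_lit 4) (nat_lit 2) (nat_lit 4) (nat_lit 372) (nat_lit 331) (nat_lit 197)) (XT.lf (nat_lit 0) (nat_lit 5456093566354) (nat_lit 152) (nat_lit 13267669590357) (nat_lit 0) (nat_lit 5003826263759) (nat_lit 2) (nat_lit 5) (nat_lit 4) (nat_lit 4) (nat_lit 2) (nat_lit 4) (nat_lit 373) (nat_lit 331) (nat_lit 196))))) (XT.nd (nat_lit 234) (nat_lit 0) (nat_lit 0) (XT.nd (nat_lit 78) (nat_lit 0) (nat_lit 0) (XT.lf (nat_lit 0) (nat_lit 7325932740137) (nat_lit 152) (nat_lit 12919051620002) (nat_lit 0) (nat_lit 6873665437165) (nat_lit 2) (nat_lit 5) (nat_lit 4) (nat_lit 4) (nat_lit 2) (nat_lit 4) (nat_lit 374) (nat_lit 331) (nat_lit 195)) (XT.nd (nat_lit 78) (nat_lit 0) (nat_lit 0) (XT.lf (nat_lit 0) (nat_lit 9476247788242) (nat_lit 152) (nat_lit 12518140957740) (nat_lit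 0) (nat_lit 9023980484942) (nat_lit 2) (nat_lit 5) (nat_lit 4) (nat_lit 4) (nat_lit 2) (nat_lit 4) (nat_lit 375) (nat_lit 331) (nat_lit 194)) (XT.lf (nat_lit 0) (nat_lit 11949110092046) (nat_lit 152) (nat_lit 12057093699310) (nat_lit 0) (nat_lit 11496842788461) (nat_lit 2) (nat_lit 5) (nat_lit 4) (nat_lit 4) (nat_lit 2) (nat_lit 4) (nat_lit 376) (nat_lit 331) (nat_lit 193)))) (XT.nd (nat_lit 78) (nat_lit 0) (nat_lit 0) (XT.lf (nat_lit 0) (nat_lit 14792901740100) (nat_lit 152) (nat_lit 11526889354873) (nat_lit 0) (nat_lit 14340634436267) (nat_lit 2) (nat_lit 5) (nat_lit 4) (nat_lit 4) (nat_lit 2) (nat_lit 4) (nat_lit 377) (nat_lit 331) (nat_lit 192)) (XT.nd (nat_lit 78) (nat_lit 0) (nat_lit 0) (XT.lf (nat_lit 0) (nat_lit 18063262134215) (nat_lit 152) (nat_lit 10917154361169) (nat_lit 0) (nat_lit 17610994830166) (nat_lit 2) (nat_lit 5) (nat_lit 4) (nat_lit 4) (nat_lit 2) (nat_lit 4) (nat_lit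 378) (nat_lit 331) (nat_lit 191)) (XT.lf (nat_lit 0) (nat_lit 21824176586450) (nat_lit 152) (nat_lit 10215959120493) (nat_lit 0) (nat_lit 21371909282213) (nat_lit 2) (nat_lit 5) (nat_lit 4) (nat_lit 4) (nat_lit 2) (nat_lit 4) (nat_lit 379) (nat_lit 331) (nat_lit 190))))))))
noncomputable def xc101 : XT := (XT.nd (nat_lit 44226) (nat_lit 0) (nat_lit 228) (XT.nd (nat_lit 43368) (nat_lit 0) (nat_lit 1216) (XT.nd (nat_lit 390) (nat_lit 76) (nat_lit 0) (XT.nd (nat_lit 156) (nat_lit 0) (nat_lit 0) (XT.nd (nat_lit 78) (nat_lit 0) (nat_lit 0) (XT.lf (nat_lit 0) (nat_lit 26149228205652) (nat_lit 152) (nat_lit 9409584595530) (nat_lit 0) (nat_lit 25696960901252) (nat_lit 2) (nat_lit 5) (nat_lit 4) (nat_lit 4) (nat_lit 2) (nat_lit 4) (nat_lit 380) (nat_lit 331) (nat_lit 189)) (XT.lf (nat_lit 0) (nat_lit 31123037566979) (nat_lit 152) (nat_lit 8482253893399) (nat_lit 0) (nat_lit 30670770262438) (nat_lit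 2) (nat_lit 5) (nat_lit 4) (nat_lit 4) (nat_lit 2) (nat_lit 4) (nat_lit 381) (nat_lit 331) (nat_lit 188))) (XT.nd (nat_lit 78) (nat_lit 0) (nat_lit 0) (XT.lf (nat_lit 0) (nat_lit 36842918331850) (nat_lit 152) (nat_lit 7415823587319) (nat_lit 0) (nat_lit 36390651027186) (nat_lit 2) (nat_lit 5) (nat_lit 4) (nat_lit 4) (nat_lit 2) (nat_lit 4) (nat_lit 382) (nat_lit 331) (nat_lit 187)) (XT.nd (nat_lit 78) (nat_lit 0) (nat_lit 0) (XT.lf (nat_lit 0) (nat_lit 43420781210881) (nat_lit 152) (nat_lit 6189428736519) (nat_lit 0) (nat_lit 42968513906109) (nat_lit 2) (nat_lit 5) (nat_lit 4) (nat_lit 4) (nat_lit 2) (nat_lit 4) (nat_lit 383) (nat_lit 331) (nat_lit 186)) (XT.lf (nat_lit 0) (nat_lit 50985323521270) (nat_lit 152) (nat_lit 4779074659136) (nat_lit 0) (nat_lit 50533056216405) (nat_lit 2) (nat_lit 5) (nat_lit 4) (nat_lit 4) (nat_lit 2) (nat_lit 4) (nat_lit 384) (nat_lit 331) (nat_lit 185)))))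 (XT.nd (nat_lit 42744) (nat_lit 0) (nat_lit 1900) (XT.nd (nat_lit 78) (nat_lit 76) (nat_lit 0) (XT.lf (nat_lit 0) (nat_lit 59684547177786) (nat_lit 152) (nat_lit 3157167471047) (nat_lit 0) (nat_lit 59232279872841) (nat_lit 2) (nat_lit 5) (nat_lit 4) (nat_lit 4) (nat_lit 2) (nat_lit 4) (nat_lit 385) (nat_lit 331) (nat_lit 184)) (XT.nd (nat_lit 78) (nat_lit 76) (nat_lit 0) (XT.lf (nat_lit 0) (nat_lit 69688654382405) (nat_lit 152) (nat_lit 1291974205528) (nat_lit 0) (nat_lit 69236387077389) (nat_lit 2) (nat_lit 5) (nat_lit 4) (nat_lit 4) (nat_lit 2) (nat_lit 4) (nat_lit 386) (nat_lit 331) (nat_lit 183)) (XT.lf (nat_lit 0) (nat_lit 936359222120) (nat_lit 76) (nat_lit 80295791083867) (nat_lit 76) (nat_lit 79843523778790) (nat_lit 1) (nat_lit 4) (nat_lit 2) (nat_lit 5) (nat_lit 2) (nat_lit 4) (nat_lit 387) (nat_lit 331) (nat_lit 182)))) (XT.nd (nat_lit 78) (nat_lit 0) (nat_lit 0) (XT.lf (nat_lit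 0) (nat_lit 39717712322) (nat_lit 380) (nat_lit 69059490115) (nat_lit 380) (nat_lit 69059490115) (nat_lit 26) (nat_lit 3) (nat_lit 31) (nat_lit 3) (nat_lit 31) (nat_lit 5) (nat_lit 332) (nat_lit 332) (nat_lit 236)) (XT.nd (nat_lit 78) (nat_lit 0) (nat_lit 76) (XT.lf (nat_lit 76) (nat_lit 36228413164) (nat_lit 0) (nat_lit 50665283787) (nat_lit 380) (nat_lit 295230098699) (nat_lit 27) (nat_lit 5) (nat_lit 26) (nat_lit 3) (nat_lit 31) (nat_lit 5) (nat_lit 333) (nat_lit 332) (nat_lit 235)) (XT.lf (nat_lit 0) (nat_lit 108883442938) (nat_lit 304) (nat_lit 165401214142) (nat_lit 380) (nat_lit 136245200951) (nat_lit 27) (nat_lit 5) (nat_lit 31) (nat_lit 5) (nat_lit 32) (nat_lit 5) (nat_lit 334) (nat_lit 332) (nat_lit 234)))))) (XT.nd (nat_lit 390) (nat_lit 380) (nat_lit 0) (XT.nd (nat_lit 156) (nat_lit 380) (nat_lit 0) (XT.nd (nat_lit 78) (nat_lit 0) (nat_lit 76) (XT.lf (nat_lit 76) (nat_lit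 43639475715) (nat_lit 0) (nat_lit 94751751162) (nat_lit 380) (nat_lit 304172666642) (nat_lit 28) (nat_lit 5) (nat_lit 27) (nat_lit 5) (nat_lit 32) (nat_lit 5) (nat_lit 335) (nat_lit 332) (nat_lit 233)) (XT.lf (nat_lit 0) (nat_lit 186008515616) (nat_lit 304) (nat_lit 180518526395) (nat_lit 76) (nat_lit 110823491876) (nat_lit 28) (nat_lit 5) (nat_lit 32) (nat_lit 5) (nat_lit 29) (nat_lit 5) (nat_lit 336) (nat_lit 332) (nat_lit 232))) (XT.nd (nat_lit 78) (nat_lit 152) (nat_lit 0) (XT.lf (nat_lit 0) (nat_lit 72599513014) (nat_lit 304) (nat_lit 175687006104) (nat_lit 380) (nat_lit 267940933093) (nat_lit 24) (nat_lit 5) (nat_lit 28) (nat_lit 5) (nat_lit 29) (nat_lit 5) (nat_lit 337) (nat_lit 332) (nat_lit 231)) (XT.nd (nat_lit 78) (nat_lit 152) (nat_lit 0) (XT.lf (nat_lit 0) (nat_lit 331604505371) (nat_lit 380) (nat_lit 177809602429) (nat_lit 76) (nat_lit 49767058256) (nat_lit 24) (nat_lit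 5) (nat_lit 29) (nat_lit 5) (nat_lit 25) (nat_lit 5) (nat_lit 338) (nat_lit 332) (nat_lit 230)) (XT.lf (nat_lit 0) (nat_lit 131195294086) (nat_lit 152) (nat_lit 310023414985) (nat_lit 228) (nat_lit 165289450068) (nat_lit 22) (nat_lit 5) (nat_lit 24) (nat_lit 5) (nat_lit 25) (nat_lit 5) (nat_lit 339) (nat_lit 332) (nat_lit 229))))) (XT.nd (nat_lit 234) (nat_lit 228) (nat_lit 0) (XT.nd (nat_lit 78) (nat_lit 152) (nat_lit 0) (XT.lf (nat_lit 0) (nat_lit 506534247055) (nat_lit 152) (nat_lit 70035347161) (nat_lit 228) (nat_lit 82970424415) (nat_lit 22) (nat_lit 5) (nat_lit 24) (nat_lit 5) (nat_lit 25) (nat_lit 5) (nat_lit 340) (nat_lit 332) (nat_lit 228)) (XT.nd (nat_lit 78) (nat_lit 0) (nat_lit 0) (XT.lf (nat_lit 0) (nat_lit 29547264739) (nat_lit 152) (nat_lit 489608698595) (nat_lit 76) (nat_lit 198464228637) (nat_lit 20) (nat_lit 5) (nat_lit 22) (nat_lit 5) (nat_lit 21) (nat_lit 5) (nat_lit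 341) (nat_lit 332) (nat_lit 227)) (XT.lf (nat_lit 0) (nat_lit 162161884462) (nat_lit 152) (nat_lit 107502476435) (nat_lit 76) (nat_lit 512398304339) (nat_lit 20) (nat_lit 5) (nat_lit 22) (nat_lit 5) (nat_lit 21) (nat_lit 5) (nat_lit 342) (nat_lit 332) (nat_lit 226)))) (XT.nd (nat_lit 78) (nat_lit 76) (nat_lit 0) (XT.lf (nat_lit 0) (nat_lit 331188688673) (nat_lit 228) (nat_lit 490983958098) (nat_lit 76) (nat_lit 31520864035) (nat_lit 18) (nat_lit 5) (nat_lit 21) (nat_lit 5) (nat_lit 19) (nat_lit 4) (nat_lit 343) (nat_lit 332) (nat_lit 225)) (XT.nd (nat_lit 78) (nat_lit 76) (nat_lit 0) (XT.lf (nat_lit 0) (nat_lit 544297684504) (nat_lit 228) (nat_lit 32799667296) (nat_lit 76) (nat_lit 356162405802) (nat_lit 18) (nat_lit 5) (nat_lit 21) (nat_lit 5) (nat_lit 19) (nat_lit 4) (nat_lit 344) (nat_lit 332) (nat_lit 224)) (XT.lf (nat_lit 0) (nat_lit 542400466477) (nat_lit 76) (nat_lit 269432184286)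 (nat_lit 152) (nat_lit 209559347532) (nat_lit 17) (nat_lit 5) (nat_lit 18) (nat_lit 5) (nat_lit 19) (nat_lit 4) (nat_lit 345) (nat_lit 332) (nat_lit 223))))))) (XT.nd (nat_lit 858) (nat_lit 304) (nat_lit 0) (XT.nd (nat_lit 390) (nat_lit 380) (nat_lit 0) (XT.nd (nat_lit 156) (nat_lit 152) (nat_lit 0) (XT.nd (nat_lit 78) (nat_lit 0) (nat_lit 0) (XT.lf (nat_lit 0) (nat_lit 6466112696) (nat_lit 152) (nat_lit 1032219397397) (nat_lit 76) (nat_lit 82665229014) (nat_lit 15) (nat_lit 5) (nat_lit 17) (nat_lit 5) (nat_lit 16) (nat_lit 4) (nat_lit 346) (nat_lit 332) (nat_lit 222)) (XT.lf (nat_lit 0) (nat_lit 272501074953) (nat_lit 152) (nat_lit 460244257265) (nat_lit 76) (nat_lit 496202021077) (nat_lit 15) (nat_lit 5) (nat_lit 17) (nat_lit 5) (nat_lit 16) (nat_lit 4) (nat_lit 347) (nat_lit 332) (nat_lit 221))) (XT.nd (nat_lit 78) (nat_lit 76) (nat_lit 0) (XT.lf (nat_lit 0) (nat_lit 216830903338)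 (nat_lit 76) (nat_lit 370588862582) (nat_lit 152) (nat_lit 763916921055) (nat_lit 14) (nat_lit 5) (nat_lit 15) (nat_lit 5) (nat_lit 16) (nat_lit 4) (nat_lit 348) (nat_lit 332) (nat_lit 220)) (XT.nd (nat_lit 78) (nat_lit 76) (nat_lit 0) (XT.lf (nat_lit 0) (nat_lit 976680344053) (nat_lit 152) (nat_lit 444329089751) (nat_lit 0) (nat_lit 67009374393) (nat_lit 14) (nat_lit 5) (nat_lit 16) (nat_lit 4) (nat_lit 14) (nat_lit 4) (nat_lit 349) (nat_lit 332) (nat_lit 219)) (XT.lf (nat_lit 0) (nat_lit 364145760527) (nat_lit 76) (nat_lit 1092909818804) (nat_lit 76) (nat_lit 183238832721) (nat_lit 13) (nat_lit 4) (nat_lit 14) (nat_lit 5) (nat_lit 14) (nat_lit 4) (nat_lit 350) (nat_lit 332) (nat_lit 218))))) (XT.nd (nat_lit 234) (nat_lit 228) (nat_lit 0) (XT.nd (nat_lit 78) (nat_lit 76) (nat_lit 0) (XT.lf (nat_lit 0) (nat_lit 201130068513) (nat_lit 152) (nat_lit 477241353058) (nat_lit 76) (nat_lit 1132184652051)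 (nat_lit 12) (nat_lit 5) (nat_lit 14) (nat_lit 5) (nat_lit 13) (nat_lit 4) (nat_lit 351) (nat_lit 332) (nat_lit 217)) (XT.nd (nat_lit 78) (nat_lit 0) (nat_lit 0) (XT.lf (nat_lit 0) (nat_lit 475070405498) (nat_lit 76) (nat_lit 168995370444) (nat_lit 152) (nat_lit 1358031614107) (nat_lit 11) (nat_lit 5) (nat_lit 12) (nat_lit 5) (nat_lit 13) (nat_lit 4) (nat_lit 352) (nat_lit 332) (nat_lit 216)) (XT.lf (nat_lit 0) (nat_lit 1196834734666) (nat_lit 152) (nat_lit 613209781712) (nat_lit 0) (nat_lit 405816453294) (nat_lit 11) (nat_lit 5) (nat_lit 13) (nat_lit 4) (nat_lit 11) (nat_lit 4) (nat_lit 353) (nat_lit 332) (nat_lit 215)))) (XT.nd (nat_lit 78) (nat_lit 152) (nat_lit 0) (XT.lf (nat_lit 0) (nat_lit 471619397877) (nat_lit 76) (nat_lit 1388475778513) (nat_lit 76) (nat_lit 597457488976) (nat_lit 10) (nat_lit 4) (nat_lit 11) (nat_lit 5) (nat_lit 11) (nat_lit 4) (nat_lit 354) (nat_lit 332) (nat_lit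 214)) (XT.nd (nat_lit 78) (nat_lit 152) (nat_lit 0) (XT.lf (nat_lit 0) (nat_lit 1788089347881) (nat_lit 76) (nat_lit 866809471931) (nat_lit 76) (nat_lit 75791175295) (nat_lit 10) (nat_lit 4) (nat_lit 11) (nat_lit 5) (nat_lit 11) (nat_lit 4) (nat_lit 355) (nat_lit 332) (nat_lit 213)) (XT.lf (nat_lit 0) (nat_lit 258546543138) (nat_lit 76) (nat_lit 229623152650) (nat_lit 152) (nat_lit 2551766915733) (nat_lit 8) (nat_lit 5) (nat_lit 9) (nat_lit 5) (nat_lit 10) (nat_lit 4) (nat_lit 356) (nat_lit 332) (nat_lit 212)))))) (XT.nd (nat_lit 390) (nat_lit 152) (nat_lit 0) (XT.nd (nat_lit 156) (nat_lit 152) (nat_lit 0) (XT.nd (nat_lit 78) (nat_lit 0) (nat_lit 0) (XT.lf (nat_lit 0) (nat_lit 1201417721298) (nat_lit 152) (nat_lit 1669167529911) (nat_lit 0) (nat_lit 513575714187) (nat_lit 8) (nat_lit 5) (nat_lit 10) (nat_lit 4) (nat_lit 8) (nat_lit 4) (nat_lit 357) (nat_lit 332) (nat_lit 211)) (XT.lf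 (nat_lit 0) (nat_lit 2032587376905) (nat_lit 152) (nat_lit 401046065774) (nat_lit 0) (nat_lit 1344745365735) (nat_lit 8) (nat_lit 5) (nat_lit 10) (nat_lit 4) (nat_lit 8) (nat_lit 4) (nat_lit 358) (nat_lit 332) (nat_lit 210))) (XT.nd (nat_lit 78) (nat_lit 76) (nat_lit 0) (XT.lf (nat_lit 0) (nat_lit 1160620021349) (nat_lit 76) (nat_lit 1875871251239) (nat_lit 76) (nat_lit 1188029236539) (nat_lit 7) (nat_lit 4) (nat_lit 8) (nat_lit 5) (nat_lit 8) (nat_lit 4) (nat_lit 359) (nat_lit 332) (nat_lit 209)) (XT.nd (nat_lit 78) (nat_lit 76) (nat_lit 0) (XT.lf (nat_lit 0) (nat_lit 3001608114533) (nat_lit 76) (nat_lit 1210336401814) (nat_lit 76) (nat_lit 522494384044) (nat_lit 7) (nat_lit 4) (nat_lit 8) (nat_lit 5) (nat_lit 8) (nat_lit 4) (nat_lit 360) (nat_lit 332) (nat_lit 208)) (XT.lf (nat_lit 0) (nat_lit 221248660261) (nat_lit 152) (nat_lit 212157400875) (nat_lit 76) (nat_lit 4885930476649) (nat_lit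 6) (nat_lit 5) (nat_lit 8) (nat_lit 5) (nat_lit 7) (nat_lit 4) (nat_lit 361) (nat_lit 332) (nat_lit 207))))) (XT.nd (nat_lit 234) (nat_lit 76) (nat_lit 0) (XT.nd (nat_lit 78) (nat_lit 0) (nat_lit 0) (XT.lf (nat_lit 0) (nat_lit 1115282181277) (nat_lit 152) (nat_lit 4341962479637) (nat_lit 0) (nat_lit 517158683226) (nat_lit 5) (nat_lit 5) (nat_lit 7) (nat_lit 4) (nat_lit 5) (nat_lit 4) (nat_lit 362) (nat_lit 332) (nat_lit 206)) (XT.nd (nat_lit 78) (nat_lit 0) (nat_lit 0) (XT.lf (nat_lit 0) (nat_lit 2175677251491) (nat_lit 152) (nat_lit 2969660690116) (nat_lit 0) (nat_lit 1577553751685) (nat_lit 5) (nat_lit 5) (nat_lit 7) (nat_lit 4) (nat_lit 5) (nat_lit 4) (nat_lit 363) (nat_lit 332) (nat_lit 205)) (XT.lf (nat_lit 0) (nat_lit 3395131576846) (nat_lit 152) (nat_lit 1391513643268) (nat_lit 0) (nat_lit 2797008075514) (nat_lit 5) (nat_lit 5) (nat_lit 7) (nat_lit 4) (nat_lit 5) (nat_lit 4) (nat_lit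 364) (nat_lit 332) (nat_lit 204)))) (XT.nd (nat_lit 78) (nat_lit 0) (nat_lit 0) (XT.lf (nat_lit 0) (nat_lit 464728824571) (nat_lit 76) (nat_lit 4352018651334) (nat_lit 76) (nat_lit 3753895148675) (nat_lit 4) (nat_lit 4) (nat_lit 5) (nat_lit 5) (nat_lit 5) (nat_lit 4) (nat_lit 365) (nat_lit 332) (nat_lit 203)) (XT.nd (nat_lit 78) (nat_lit 0) (nat_lit 0) (XT.lf (nat_lit 0) (nat_lit 2755794811690) (nat_lit 76) (nat_lit 3768549156846) (nat_lit 76) (nat_lit 3170425653033) (nat_lit 4) (nat_lit 4) (nat_lit 5) (nat_lit 5) (nat_lit 5) (nat_lit 4) (nat_lit 366) (nat_lit 332) (nat_lit 202)) (XT.lf (nat_lit 0) (nat_lit 5390520688865) (nat_lit 76) (nat_lit 3097559242320) (nat_lit 76) (nat_lit 2499435737503) (nat_lit 4) (nat_lit 4) (nat_lit 5) (nat_lit 5) (nat_lit 5) (nat_lit 4) (nat_lit 367) (nat_lit 332) (nat_lit 201))))))))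
noncomputable def xc102 : XT := (XT.nd (nat_lit 44382) (nat_lit 0) (nat_lit 456) (XT.nd (nat_lit 780) (nat_lit 0) (nat_lit 0) (XT.nd (nat_lit 390) (nat_lit 0) (nat_lit 0) (XT.nd (nat_lit 156) (nat_lit 152) (nat_lit 0) (XT.nd (nat_lit 78) (nat_lit 0) (nat_lit 0) (XT.lf (nat_lit 0) (nat_lit 8420455440649) (nat_lit 76) (nat_lit 2325920844210) (nat_lit 76) (nat_lit 1727797338521) (nat_lit 4) (nat_lit 4) (nat_lit 5) (nat_lit 5) (nat_lit 5) (nat_lit 4) (nat_lit 368) (nat_lit 332) (nat_lit 200)) (XT.lf (nat_lit 0) (nat_lit 11904880399143) (nat_lit 76) (nat_lit 1438536689512) (nat_lit 76) (nat_lit 840413183064) (nat_lit 4) (nat_lit 4) (nat_lit 5) (nat_lit 5) (nat_lit 5) (nat_lit 4) (nat_lit 369) (nat_lit 332) (nat_lit 199))) (XT.nd (nat_lit 78) (nat_lit 76) (nat_lit 0) (XT.lf (nat_lit 0) (nat_lit 164046751186) (nat_lit 152) (nat_lit 245422992056) (nat_lit 76) (nat_lit 15739347173872) (nat_lit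 3) (nat_lit 5) (nat_lit 5) (nat_lit 5) (nat_lit 4) (nat_lit 4) (nat_lit 370) (nat_lit 332) (nat_lit 198)) (XT.nd (nat_lit 78) (nat_lit 0) (nat_lit 0) (XT.lf (nat_lit 0) (nat_lit 1364854286107) (nat_lit 152) (nat_lit 16173189296890) (nat_lit 0) (nat_lit 844746888124) (nat_lit 2) (nat_lit 5) (nat_lit 4) (nat_lit 4) (nat_lit 2) (nat_lit 4) (nat_lit 371) (nat_lit 332) (nat_lit 197)) (XT.lf (nat_lit 0) (nat_lit 2778721338678) (nat_lit 152) (nat_lit 15909584021178) (nat_lit 0) (nat_lit 2258613940261) (nat_lit 2) (nat_lit 5) (nat_lit 4) (nat_lit 4) (nat_lit 2) (nat_lit 4) (nat_lit 372) (nat_lit 332) (nat_lit 196))))) (XT.nd (nat_lit 156) (nat_lit 0) (nat_lit 0) (XT.nd (nat_lit 78) (nat_lit 0) (nat_lit 0) (XT.lf (nat_lit 0) (nat_lit 4404668447127) (nat_lit 152) (nat_lit 15606437958303) (nat_lit 0) (nat_lit 3884561048333) (nat_lit 2) (nat_lit 5) (nat_lit 4) (nat_lit 4) (nat_lit 2) (nat_lit 4)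 (nat_lit 373) (nat_lit 332) (nat_lit 195)) (XT.lf (nat_lit 0) (nat_lit 6274507620099) (nat_lit 152) (nat_lit 15257819989644) (nat_lit 0) (nat_lit 5754400220976) (nat_lit 2) (nat_lit 5) (nat_lit 4) (nat_lit 4) (nat_lit 2) (nat_lit 4) (nat_lit 374) (nat_lit 332) (nat_lit 194))) (XT.nd (nat_lit 78) (nat_lit 0) (nat_lit 0) (XT.lf (nat_lit 0) (nat_lit 8424822667498) (nat_lit 152) (nat_lit 14856909328857) (nat_lit 0) (nat_lit 7904715268090) (nat_lit 2) (nat_lit 5) (nat_lit 4) (nat_lit 4) (nat_lit 2) (nat_lit 4) (nat_lit 375) (nat_lit 332) (nat_lit 193)) (XT.nd (nat_lit 78) (nat_lit 0) (nat_lit 0) (XT.lf (nat_lit 0) (nat_lit 10897684970688) (nat_lit 152) (nat_lit 14395862071710) (nat_lit 0) (nat_lit 10377577571032) (nat_lit 2) (nat_lit 5) (nat_lit 4) (nat_lit 4) (nat_lit 2) (nat_lit 4) (nat_lit 376) (nat_lit 332) (nat_lit 192)) (XT.lf (nat_lit 0) (nat_lit 13741476618209) (nat_lit 152) (nat_lit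 13865657728388) (nat_lit 0) (nat_lit 13221369218337) (nat_lit 2) (nat_lit 5) (nat_lit 4) (nat_lit 4) (nat_lit 2) (nat_lit 4) (nat_lit 377) (nat_lit 332) (nat_lit 191)))))) (XT.nd (nat_lit 390) (nat_lit 0) (nat_lit 0) (XT.nd (nat_lit 156) (nat_lit 0) (nat_lit 0) (XT.nd (nat_lit 78) (nat_lit 0) (nat_lit 0) (XT.lf (nat_lit 0) (nat_lit 17011837011860) (nat_lit 152) (nat_lit 13255922735653) (nat_lit 0) (nat_lit 16491729611800) (nat_lit 2) (nat_lit 5) (nat_lit 4) (nat_lit 4) (nat_lit 2) (nat_lit 4) (nat_lit 378) (nat_lit 332) (nat_lit 190)) (XT.lf (nat_lit 0) (nat_lit 20772751463690) (nat_lit 152) (nat_lit 12554727495822) (nat_lit 0) (nat_lit 20252644063468) (nat_lit 2) (nat_lit 5) (nat_lit 4) (nat_lit 4) (nat_lit 2) (nat_lit 4) (nat_lit 379) (nat_lit 332) (nat_lit 189))) (XT.nd (nat_lit 78) (nat_lit 0) (nat_lit 0) (XT.lf (nat_lit 0) (nat_lit 25097803082541) (nat_lit 152) (nat_lit 11748352971591)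 (nat_lit 0) (nat_lit 24577695682177) (nat_lit 2) (nat_lit 5) (nat_lit 4) (nat_lit 4) (nat_lit 2) (nat_lit 4) (nat_lit 380) (nat_lit 332) (nat_lit 188)) (XT.nd (nat_lit 78) (nat_lit 0) (nat_lit 0) (XT.lf (nat_lit 0) (nat_lit 30071612443564) (nat_lit 152) (nat_lit 10821022270098) (nat_lit 0) (nat_lit 29551505043077) (nat_lit 2) (nat_lit 5) (nat_lit 4) (nat_lit 4) (nat_lit 2) (nat_lit 4) (nat_lit 381) (nat_lit 332) (nat_lit 187)) (XT.lf (nat_lit 0) (nat_lit 35791493208169) (nat_lit 152) (nat_lit 9754591964572) (nat_lit 0) (nat_lit 35271385807575) (nat_lit 2) (nat_lit 5) (nat_lit 4) (nat_lit 4) (nat_lit 2) (nat_lit 4) (nat_lit 382) (nat_lit 332) (nat_lit 186))))) (XT.nd (nat_lit 42978) (nat_lit 0) (nat_lit 1824) (XT.nd (nat_lit 78) (nat_lit 0) (nat_lit 0) (XT.lf (nat_lit 0) (nat_lit 42369356086969) (nat_lit 152) (nat_lit 8528197114255) (nat_lit 0) (nat_lit 41849248686282) (nat_lit 2) (nat_lit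 5) (nat_lit 4) (nat_lit 4) (nat_lit 2) (nat_lit 4) (nat_lit 383) (nat_lit 332) (nat_lit 185)) (XT.nd (nat_lit 78) (nat_lit 0) (nat_lit 0) (XT.lf (nat_lit 0) (nat_lit 49933898397158) (nat_lit 152) (nat_lit 7117843037291) (nat_lit 0) (nat_lit 49413790996389) (nat_lit 2) (nat_lit 5) (nat_lit 4) (nat_lit 4) (nat_lit 2) (nat_lit 4) (nat_lit 384) (nat_lit 332) (nat_lit 184)) (XT.lf (nat_lit 0) (nat_lit 58633122053500) (nat_lit 152) (nat_lit 5495935849566) (nat_lit 0) (nat_lit 58113014652661) (nat_lit 2) (nat_lit 5) (nat_lit 4) (nat_lit 4) (nat_lit 2) (nat_lit 4) (nat_lit 385) (nat_lit 332) (nat_lit 183)))) (XT.nd (nat_lit 78) (nat_lit 0) (nat_lit 0) (XT.lf (nat_lit 0) (nat_lit 45675823664) (nat_lit 380) (nat_lit 79418151809) (nat_lit 380) (nat_lit 79418151809) (nat_lit 26) (nat_lit 3) (nat_lit 31) (nat_lit 3) (nat_lit 31) (nat_lit 5) (nat_lit 333) (nat_lit 333) (nat_lit 234)) (XT.nd (nat_lit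 78) (nat_lit 0) (nat_lit 76) (XT.lf (nat_lit 76) (nat_lit 41663174983) (nat_lit 0) (nat_lit 58265387632) (nat_lit 380) (nat_lit 339513679011) (nat_lit 27) (nat_lit 5) (nat_lit 26) (nat_lit 3) (nat_lit 31) (nat_lit 5) (nat_lit 334) (nat_lit 333) (nat_lit 233)) (XT.lf (nat_lit 0) (nat_lit 125216653494) (nat_lit 304) (nat_lit 190210843128) (nat_lit 380) (nat_lit 156681734515) (nat_lit 27) (nat_lit 5) (nat_lit 31) (nat_lit 5) (nat_lit 32) (nat_lit 5) (nat_lit 335) (nat_lit 333) (nat_lit 232))))))) (XT.nd (nat_lit 858) (nat_lit 684) (nat_lit 0) (XT.nd (nat_lit 390) (nat_lit 380) (nat_lit 0) (XT.nd (nat_lit 156) (nat_lit 380) (nat_lit 0) (XT.nd (nat_lit 78) (nat_lit 0) (nat_lit 76) (XT.lf (nat_lit 76) (nat_lit 50185925065) (nat_lit 0) (nat_lit 108964611286) (nat_lit 380) (nat_lit 349797846093) (nat_lit 28) (nat_lit 5) (nat_lit 27) (nat_lit 5) (nat_lit 32) (nat_lit 5) (nat_lit 336) (nat_lit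 333) (nat_lit 231)) (XT.lf (nat_lit 0) (nat_lit 213910333312) (nat_lit 304) (nat_lit 207595760022) (nat_lit 76) (nat_lit 127446938464) (nat_lit 28) (nat_lit 5) (nat_lit 32) (nat_lit 5) (nat_lit 29) (nat_lit 5) (nat_lit 337) (nat_lit 333) (nat_lit 230))) (XT.nd (nat_lit 78) (nat_lit 152) (nat_lit 0) (XT.lf (nat_lit 0) (nat_lit 83489960511) (nat_lit 304) (nat_lit 202040027903) (nat_lit 380) (nat_lit 308131506942) (nat_lit 24) (nat_lit 5) (nat_lit 28) (nat_lit 5) (nat_lit 29) (nat_lit 5) (nat_lit 338) (nat_lit 333) (nat_lit 229)) (XT.nd (nat_lit 78) (nat_lit 152) (nat_lit 0) (XT.lf (nat_lit 0) (nat_lit 381345609553) (nat_lit 380) (nat_lit 204480526249) (nat_lit 76) (nat_lit 57232140059) (nat_lit 24) (nat_lit 5) (nat_lit 29) (nat_lit 5) (nat_lit 25) (nat_lit 5) (nat_lit 339) (nat_lit 333) (nat_lit 228)) (XT.lf (nat_lit 0) (nat_lit 150875081264) (nat_lit 152) (nat_lit 356526827085) (nat_lit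 228) (nat_lit 190082414987) (nat_lit 22) (nat_lit 5) (nat_lit 24) (nat_lit 5) (nat_lit 25) (nat_lit 5) (nat_lit 340) (nat_lit 333) (nat_lit 227))))) (XT.nd (nat_lit 234) (nat_lit 228) (nat_lit 0) (XT.nd (nat_lit 78) (nat_lit 152) (nat_lit 0) (XT.lf (nat_lit 0) (nat_lit 582514812866) (nat_lit 152) (nat_lit 80540562151) (nat_lit 228) (nat_lit 95415594519) (nat_lit 22) (nat_lit 5) (nat_lit 24) (nat_lit 5) (nat_lit 25) (nat_lit 5) (nat_lit 341) (nat_lit 333) (nat_lit 226)) (XT.nd (nat_lit 78) (nat_lit 0) (nat_lit 0) (XT.lf (nat_lit 0) (nat_lit 33979689246) (nat_lit 152) (nat_lit 563049514828) (nat_lit 76) (nat_lit 228233965990) (nat_lit 20) (nat_lit 5) (nat_lit 22) (nat_lit 5) (nat_lit 21) (nat_lit 5) (nat_lit 342) (nat_lit 333) (nat_lit 225)) (XT.lf (nat_lit 0) (nat_lit 186486458258) (nat_lit 152) (nat_lit 123627423069) (nat_lit 76) (nat_lit 589258139605) (nat_lit 20) (nat_lit 5) (nat_lit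 22) (nat_lit 5) (nat_lit 21) (nat_lit 5) (nat_lit 343) (nat_lit 333) (nat_lit 224)))) (XT.nd (nat_lit 78) (nat_lit 76) (nat_lit 0) (XT.lf (nat_lit 0) (nat_lit 380867267533) (nat_lit 228) (nat_lit 564631111048) (nat_lit 76) (nat_lit 36249117146) (nat_lit 18) (nat_lit 5) (nat_lit 21) (nat_lit 5) (nat_lit 19) (nat_lit 4) (nat_lit 344) (nat_lit 333) (nat_lit 223)) (XT.nd (nat_lit 78) (nat_lit 76) (nat_lit 0) (XT.lf (nat_lit 0) (nat_lit 625942576796) (nat_lit 228) (nat_lit 37719234117) (nat_lit 76) (nat_lit 409586874069) (nat_lit 18) (nat_lit 5) (nat_lit 21) (nat_lit 5) (nat_lit 19) (nat_lit 4) (nat_lit 345) (nat_lit 333) (nat_lit 222)) (XT.lf (nat_lit 0) (nat_lit 623760902300) (nat_lit 76) (nat_lit 309846869588) (nat_lit 152) (nat_lit 240992992347) (nat_lit 17) (nat_lit 5) (nat_lit 18) (nat_lit 5) (nat_lit 19) (nat_lit 4) (nat_lit 346) (nat_lit 333) (nat_lit 221)))))) (XT.nd (nat_lit 390)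 (nat_lit 380) (nat_lit 0) (XT.nd (nat_lit 156) (nat_lit 152) (nat_lit 0) (XT.nd (nat_lit 78) (nat_lit 0) (nat_lit 0) (XT.lf (nat_lit 0) (nat_lit 7436255106) (nat_lit 152) (nat_lit 1187051908897) (nat_lit 76) (nat_lit 95065151935) (nat_lit 15) (nat_lit 5) (nat_lit 17) (nat_lit 5) (nat_lit 16) (nat_lit 4) (nat_lit 347) (nat_lit 333) (nat_lit 220)) (XT.lf (nat_lit 0) (nat_lit 313376432289) (nat_lit 152) (nat_lit 529280549672) (nat_lit 76) (nat_lit 570632444733) (nat_lit 15) (nat_lit 5) (nat_lit 17) (nat_lit 5) (nat_lit 16) (nat_lit 4) (nat_lit 348) (nat_lit 333) (nat_lit 219))) (XT.nd (nat_lit 78) (nat_lit 76) (nat_lit 0) (XT.lf (nat_lit 0) (nat_lit 249355869286) (nat_lit 76) (nat_lit 426177045720) (nat_lit 152) (nat_lit 878504247228) (nat_lit 14) (nat_lit 5) (nat_lit 15) (nat_lit 5) (nat_lit 16) (nat_lit 4) (nat_lit 349) (nat_lit 333) (nat_lit 218)) (XT.nd (nat_lit 78) (nat_lit 76) (nat_lit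 0) (XT.lf (nat_lit 0) (nat_lit 1123182561100) (nat_lit 152) (nat_lit 510978146971) (nat_lit 0) (nat_lit 77060896403) (nat_lit 14) (nat_lit 5) (nat_lit 16) (nat_lit 4) (nat_lit 14) (nat_lit 4) (nat_lit 350) (nat_lit 333) (nat_lit 217)) (XT.lf (nat_lit 0) (nat_lit 418767916929) (nat_lit 76) (nat_lit 1256846155265) (nat_lit 76) (nat_lit 210724478152) (nat_lit 13) (nat_lit 4) (nat_lit 14) (nat_lit 5) (nat_lit 14) (nat_lit 4) (nat_lit 351) (nat_lit 333) (nat_lit 216))))) (XT.nd (nat_lit 234) (nat_lit 228) (nat_lit 0) (XT.nd (nat_lit 78) (nat_lit 76) (nat_lit 0) (XT.lf (nat_lit 0) (nat_lit 231299720963) (nat_lit 152) (nat_lit 548827287838) (nat_lit 76) (nat_lit 1302012454447) (nat_lit 12) (nat_lit 5) (nat_lit 14) (nat_lit 5) (nat_lit 13) (nat_lit 4) (nat_lit 352) (nat_lit 333) (nat_lit 215)) (XT.nd (nat_lit 78) (nat_lit 0) (nat_lit 0) (XT.lf (nat_lit 0) (nat_lit 546331222312) (nat_lit 76) (nat_lit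 194344554251) (nat_lit 152) (nat_lit 1561736201780) (nat_lit 11) (nat_lit 5) (nat_lit 12) (nat_lit 5) (nat_lit 13) (nat_lit 4) (nat_lit 353) (nat_lit 333) (nat_lit 214)) (XT.lf (nat_lit 0) (nat_lit 1376360065971) (nat_lit 152) (nat_lit 705191013177) (nat_lit 0) (nat_lit 466689017740) (nat_lit 11) (nat_lit 5) (nat_lit 13) (nat_lit 4) (nat_lit 11) (nat_lit 4) (nat_lit 354) (nat_lit 333) (nat_lit 213)))) (XT.nd (nat_lit 78) (nat_lit 152) (nat_lit 0) (XT.lf (nat_lit 0) (nat_lit 542362532633) (nat_lit 76) (nat_lit 1596747034845) (nat_lit 76) (nat_lit 687075980441) (nat_lit 10) (nat_lit 4) (nat_lit 11) (nat_lit 5) (nat_lit 11) (nat_lit 4) (nat_lit 355) (nat_lit 333) (nat_lit 212)) (XT.nd (nat_lit 78) (nat_lit 152) (nat_lit 0) (XT.lf (nat_lit 0) (nat_lit 2056302945779) (nat_lit 76) (nat_lit 996830796681) (nat_lit 76) (nat_lit 87159736909) (nat_lit 10) (nat_lit 4) (nat_lit 11) (nat_lit 5) (nat_lit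 11) (nat_lit 4) (nat_lit 356) (nat_lit 333) (nat_lit 211)) (XT.lf (nat_lit 0) (nat_lit 297328721218) (nat_lit 76) (nat_lit 264066527925) (nat_lit 152) (nat_lit 2934531839221) (nat_lit 8) (nat_lit 5) (nat_lit 9) (nat_lit 5) (nat_lit 10) (nat_lit 4) (nat_lit 357) (nat_lit 333) (nat_lit 210))))))))
noncomputable def xc103 : XT := (XT.nd (nat_lit 1716) (nat_lit 0) (nat_lit 0) (XT.nd (nat_lit 858) (nat_lit 152) (nat_lit 0) (XT.nd (nat_lit 390) (nat_lit 152) (nat_lit 0) (XT.nd (nat_lit 156) (nat_lit 152) (nat_lit 0) (XT.nd (nat_lit 78) (nat_lit 0) (nat_lit 0) (XT.lf (nat_lit 0) (nat_lit 1381630469082) (nat_lit 152) (nat_lit 1919542479003) (nat_lit 0) (nat_lit 590612148647) (nat_lit 8) (nat_lit 5) (nat_lit 10) (nat_lit 4) (nat_lit 8) (nat_lit 4) (nat_lit 358) (nat_lit 333) (nat_lit 209)) (XT.lf (nat_lit 0) (nat_lit 2337475561344) (nat_lit 152) (nat_lit 461202818775) (nat_lit 0) (nat_lit 1546457237840)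 (nat_lit 8) (nat_lit 5) (nat_lit 10) (nat_lit 4) (nat_lit 8) (nat_lit 4) (nat_lit 359) (nat_lit 333) (nat_lit 208))) (XT.nd (nat_lit 78) (nat_lit 76) (nat_lit 0) (XT.lf (nat_lit 0) (nat_lit 1334713174286) (nat_lit 76) (nat_lit 2157251863133) (nat_lit 76) (nat_lit 1366233536960) (nat_lit 7) (nat_lit 4) (nat_lit 8) (nat_lit 5) (nat_lit 8) (nat_lit 4) (nat_lit 360) (nat_lit 333) (nat_lit 207)) (XT.nd (nat_lit 78) (nat_lit 76) (nat_lit 0) (XT.lf (nat_lit 0) (nat_lit 3451849461917) (nat_lit 76) (nat_lit 1391886796180) (nat_lit 76) (nat_lit 600868467686) (nat_lit 7) (nat_lit 4) (nat_lit 8) (nat_lit 5) (nat_lit 8) (nat_lit 4) (nat_lit 361) (nat_lit 333) (nat_lit 206)) (XT.lf (nat_lit 0) (nat_lit 254436017892) (nat_lit 152) (nat_lit 243980892043) (nat_lit 76) (nat_lit 5618820099713) (nat_lit 6) (nat_lit 5) (nat_lit 8) (nat_lit 5) (nat_lit 7) (nat_lit 4) (nat_lit 362) (nat_lit 333) (nat_lit 205)))))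 (XT.nd (nat_lit 234) (nat_lit 76) (nat_lit 0) (XT.nd (nat_lit 78) (nat_lit 0) (nat_lit 0) (XT.lf (nat_lit 0) (nat_lit 1282574566518) (nat_lit 152) (nat_lit 4993256732062) (nat_lit 0) (nat_lit 594732538460) (nat_lit 5) (nat_lit 5) (nat_lit 7) (nat_lit 4) (nat_lit 5) (nat_lit 4) (nat_lit 363) (nat_lit 333) (nat_lit 204)) (XT.nd (nat_lit 78) (nat_lit 0) (nat_lit 0) (XT.lf (nat_lit 0) (nat_lit 2502028889692) (nat_lit 152) (nat_lit 3415109689703) (nat_lit 0) (nat_lit 1814186860307) (nat_lit 5) (nat_lit 5) (nat_lit 7) (nat_lit 4) (nat_lit 5) (nat_lit 4) (nat_lit 364) (nat_lit 333) (nat_lit 203)) (XT.lf (nat_lit 0) (nat_lit 3904401357267) (nat_lit 152) (nat_lit 1600240599383) (nat_lit 0) (nat_lit 3216559326727) (nat_lit 5) (nat_lit 5) (nat_lit 7) (nat_lit 4) (nat_lit 5) (nat_lit 4) (nat_lit 365) (nat_lit 333) (nat_lit 202)))) (XT.nd (nat_lit 78) (nat_lit 0) (nat_lit 0) (XT.lf (nat_lit 0) (nat_lit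 534438234523) (nat_lit 76) (nat_lit 5004821404508) (nat_lit 76) (nat_lit 4316979372965) (nat_lit 4) (nat_lit 4) (nat_lit 5) (nat_lit 5) (nat_lit 5) (nat_lit 4) (nat_lit 366) (nat_lit 333) (nat_lit 201)) (XT.nd (nat_lit 78) (nat_lit 0) (nat_lit 0) (XT.lf (nat_lit 0) (nat_lit 3169164108458) (nat_lit 76) (nat_lit 4333831491654) (nat_lit 76) (nat_lit 3645989459239) (nat_lit 4) (nat_lit 4) (nat_lit 5) (nat_lit 5) (nat_lit 5) (nat_lit 4) (nat_lit 367) (nat_lit 333) (nat_lit 200)) (XT.lf (nat_lit 0) (nat_lit 6199098857425) (nat_lit 76) (nat_lit 3562193094999) (nat_lit 76) (nat_lit 2874351061825) (nat_lit 4) (nat_lit 4) (nat_lit 5) (nat_lit 5) (nat_lit 5) (nat_lit 4) (nat_lit 368) (nat_lit 333) (nat_lit 199)))))) (XT.nd (nat_lit 390) (nat_lit 0) (nat_lit 0) (XT.nd (nat_lit 156) (nat_lit 152) (nat_lit 0) (XT.nd (nat_lit 78) (nat_lit 0) (nat_lit 0) (XT.lf (nat_lit 0) (nat_lit 9683523813468) (nat_lit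 76) (nat_lit 2674808941565) (nat_lit 76) (nat_lit 1986966907732) (nat_lit 4) (nat_lit 4) (nat_lit 5) (nat_lit 5) (nat_lit 5) (nat_lit 4) (nat_lit 369) (nat_lit 333) (nat_lit 198)) (XT.lf (nat_lit 0) (nat_lit 13690612508338) (nat_lit 76) (nat_lit 1654317167480) (nat_lit 76) (nat_lit 966475133073) (nat_lit 4) (nat_lit 4) (nat_lit 5) (nat_lit 5) (nat_lit 5) (nat_lit 4) (nat_lit 370) (nat_lit 333) (nat_lit 197))) (XT.nd (nat_lit 78) (nat_lit 76) (nat_lit 0) (XT.lf (nat_lit 0) (nat_lit 188653785609) (nat_lit 152) (nat_lit 282236395845) (nat_lit 76) (nat_lit 18100249269961) (nat_lit 3) (nat_lit 5) (nat_lit 5) (nat_lit 5) (nat_lit 4) (nat_lit 4) (nat_lit 371) (nat_lit 333) (nat_lit 196)) (XT.nd (nat_lit 78) (nat_lit 0) (nat_lit 0) (XT.lf (nat_lit 0) (nat_lit 1569582450634) (nat_lit 152) (nat_lit 18599167646266) (nat_lit 0) (nat_lit 971458941643) (nat_lit 2) (nat_lit 5) (nat_lit 4) (nat_lit 4)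 (nat_lit 2) (nat_lit 4) (nat_lit 372) (nat_lit 333) (nat_lit 195)) (XT.lf (nat_lit 0) (nat_lit 3195529558272) (nat_lit 152) (nat_lit 18296021585088) (nat_lit 0) (nat_lit 2597406048953) (nat_lit 2) (nat_lit 5) (nat_lit 4) (nat_lit 4) (nat_lit 2) (nat_lit 4) (nat_lit 373) (nat_lit 333) (nat_lit 194))))) (XT.nd (nat_lit 234) (nat_lit 0) (nat_lit 0) (XT.nd (nat_lit 78) (nat_lit 0) (nat_lit 0) (XT.lf (nat_lit 0) (nat_lit 5065368730537) (nat_lit 152) (nat_lit 17947403617904) (nat_lit 0) (nat_lit 4467245220933) (nat_lit 2) (nat_lit 5) (nat_lit 4) (nat_lit 4) (nat_lit 2) (nat_lit 4) (nat_lit 374) (nat_lit 333) (nat_lit 193)) (XT.nd (nat_lit 78) (nat_lit 0) (nat_lit 0) (XT.lf (nat_lit 0) (nat_lit 7215683777323) (nat_lit 152) (nat_lit 17546492958399) (nat_lit 0) (nat_lit 6617560267471) (nat_lit 2) (nat_lit 5) (nat_lit 4) (nat_lit 4) (nat_lit 2) (nat_lit 4) (nat_lit 375) (nat_lit 333) (nat_lit 192))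 (XT.lf (nat_lit 0) (nat_lit 9688546079979) (nat_lit 152) (nat_lit 17085445702367) (nat_lit 0) (nat_lit 9090422569911) (nat_lit 2) (nat_lit 5) (nat_lit 4) (nat_lit 4) (nat_lit 2) (nat_lit 4) (nat_lit 376) (nat_lit 333) (nat_lit 191)))) (XT.nd (nat_lit 78) (nat_lit 0) (nat_lit 0) (XT.lf (nat_lit 0) (nat_lit 12532337727036) (nat_lit 152) (nat_lit 16555241360015) (nat_lit 0) (nat_lit 11934214216780) (nat_lit 2) (nat_lit 5) (nat_lit 4) (nat_lit 4) (nat_lit 2) (nat_lit 4) (nat_lit 377) (nat_lit 333) (nat_lit 190)) (XT.nd (nat_lit 78) (nat_lit 0) (nat_lit 0) (XT.lf (nat_lit 0) (nat_lit 15802698120283) (nat_lit 152) (nat_lit 15945506368124) (nat_lit 0) (nat_lit 15204574609864) (nat_lit 2) (nat_lit 5) (nat_lit 4) (nat_lit 4) (nat_lit 2) (nat_lit 4) (nat_lit 378) (nat_lit 333) (nat_lit 189)) (XT.lf (nat_lit 0) (nat_lit 19563612571763) (nat_lit 152) (nat_lit 15244311129025) (nat_lit 0) (nat_lit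 18965489061202) (nat_lit 2) (nat_lit 5) (nat_lit 4) (nat_lit 4) (nat_lit 2) (nat_lit 4) (nat_lit 379) (nat_lit 333) (nat_lit 188))))))) (XT.nd (nat_lit 43914) (nat_lit 0) (nat_lit 836) (XT.nd (nat_lit 43446) (nat_lit 0) (nat_lit 1520) (XT.nd (nat_lit 156) (nat_lit 0) (nat_lit 0) (XT.nd (nat_lit 78) (nat_lit 0) (nat_lit 0) (XT.lf (nat_lit 0) (nat_lit 23888664190309) (nat_lit 152) (nat_lit 14437936605433) (nat_lit 0) (nat_lit 23290540679625) (nat_lit 2) (nat_lit 5) (nat_lit 4) (nat_lit 4) (nat_lit 2) (nat_lit 4) (nat_lit 380) (nat_lit 333) (nat_lit 187)) (XT.lf (nat_lit 0) (nat_lit 28862473551066) (nat_lit 152) (nat_lit 13510605904494) (nat_lit 0) (nat_lit 28264350040275) (nat_lit 2) (nat_lit 5) (nat_lit 4) (nat_lit 4) (nat_lit 2) (nat_lit 4) (nat_lit 381) (nat_lit 333) (nat_lit 186))) (XT.nd (nat_lit 43134) (nat_lit 0) (nat_lit 1824) (XT.lf (nat_lit 0) (nat_lit 34582354315440) (nat_lit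 152) (nat_lit 12444175599450) (nat_lit 0) (nat_lit 33984230804556) (nat_lit 2) (nat_lit 5) (nat_lit 4) (nat_lit 4) (nat_lit 2) (nat_lit 4) (nat_lit 382) (nat_lit 333) (nat_lit 185)) (XT.nd (nat_lit 78) (nat_lit 0) (nat_lit 0) (XT.lf (nat_lit 0) (nat_lit 52527540877) (nat_lit 380) (nat_lit 91330676604) (nat_lit 380) (nat_lit 91330676604) (nat_lit 26) (nat_lit 3) (nat_lit 31) (nat_lit 3) (nat_lit 31) (nat_lit 5) (nat_lit 334) (nat_lit 334) (nat_lit 232)) (XT.lf (nat_lit 76) (nat_lit 47913029185) (nat_lit 0) (nat_lit 67005431147) (nat_lit 380) (nat_lit 390440024252) (nat_lit 27) (nat_lit 5) (nat_lit 26) (nat_lit 3) (nat_lit 31) (nat_lit 5) (nat_lit 335) (nat_lit 334) (nat_lit 231))))) (XT.nd (nat_lit 234) (nat_lit 380) (nat_lit 0) (XT.nd (nat_lit 78) (nat_lit 0) (nat_lit 0) (XT.lf (nat_lit 0) (nat_lit 143999676369) (nat_lit 304) (nat_lit 218742051348) (nat_lit 380) (nat_lit 180183808244)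 (nat_lit 27) (nat_lit 5) (nat_lit 31) (nat_lit 5) (nat_lit 32) (nat_lit 5) (nat_lit 336) (nat_lit 334) (nat_lit 230)) (XT.nd (nat_lit 78) (nat_lit 0) (nat_lit 76) (XT.lf (nat_lit 76) (nat_lit 57714213063) (nat_lit 0) (nat_lit 125309376664) (nat_lit 380) (nat_lit 402266978171) (nat_lit 28) (nat_lit 5) (nat_lit 27) (nat_lit 5) (nat_lit 32) (nat_lit 5) (nat_lit 337) (nat_lit 334) (nat_lit 229)) (XT.lf (nat_lit 0) (nat_lit 245997291893) (nat_lit 304) (nat_lit 238734711676) (nat_lit 76) (nat_lit 146563920864) (nat_lit 28) (nat_lit 5) (nat_lit 32) (nat_lit 5) (nat_lit 29) (nat_lit 5) (nat_lit 338) (nat_lit 334) (nat_lit 228)))) (XT.nd (nat_lit 78) (nat_lit 152) (nat_lit 0) (XT.lf (nat_lit 0) (nat_lit 96013848193) (nat_lit 304) (nat_lit 232346010072) (nat_lit 380) (nat_lit 354350804920) (nat_lit 24) (nat_lit 5) (nat_lit 28) (nat_lit 5) (nat_lit 29) (nat_lit 5) (nat_lit 339) (nat_lit 334) (nat_lit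 227)) (XT.nd (nat_lit 78) (nat_lit 152) (nat_lit 0) (XT.lf (nat_lit 0) (nat_lit 438547774900) (nat_lit 380) (nat_lit 235152214604) (nat_lit 76) (nat_lit 65816978509) (nat_lit 24) (nat_lit 5) (nat_lit 29) (nat_lit 5) (nat_lit 25) (nat_lit 5) (nat_lit 340) (nat_lit 334) (nat_lit 226)) (XT.lf (nat_lit 0) (nat_lit 173506716282) (nat_lit 152) (nat_lit 410005775422) (nat_lit 228) (nat_lit 218594435010) (nat_lit 22) (nat_lit 5) (nat_lit 24) (nat_lit 5) (nat_lit 25) (nat_lit 5) (nat_lit 341) (nat_lit 334) (nat_lit 225)))))) (XT.nd (nat_lit 390) (nat_lit 380) (nat_lit 0) (XT.nd (nat_lit 156) (nat_lit 152) (nat_lit 0) (XT.nd (nat_lit 78) (nat_lit 152) (nat_lit 0) (XT.lf (nat_lit 0) (nat_lit 669892358994) (nat_lit 152) (nat_lit 92621580625) (nat_lit 228) (nat_lit 109727636111) (nat_lit 22) (nat_lit 5) (nat_lit 24) (nat_lit 5) (nat_lit 25) (nat_lit 5) (nat_lit 342) (nat_lit 334) (nat_lit 224)) (XT.lf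 (nat_lit 0) (nat_lit 39076895786) (nat_lit 152) (nat_lit 647506572634) (nat_lit 76) (nat_lit 262469138815) (nat_lit 20) (nat_lit 5) (nat_lit 22) (nat_lit 5) (nat_lit 21) (nat_lit 5) (nat_lit 343) (nat_lit 334) (nat_lit 223))) (XT.nd (nat_lit 78) (nat_lit 152) (nat_lit 0) (XT.lf (nat_lit 0) (nat_lit 214459647130) (nat_lit 152) (nat_lit 142171215297) (nat_lit 76) (nat_lit 677646928307) (nat_lit 20) (nat_lit 5) (nat_lit 22) (nat_lit 5) (nat_lit 21) (nat_lit 5) (nat_lit 344) (nat_lit 334) (nat_lit 222)) (XT.nd (nat_lit 78) (nat_lit 0) (nat_lit 0) (XT.lf (nat_lit 0) (nat_lit 437997566025) (nat_lit 228) (nat_lit 649325444424) (nat_lit 76) (nat_lit 41686578106) (nat_lit 18) (nat_lit 5) (nat_lit 21) (nat_lit 5) (nat_lit 19) (nat_lit 4) (nat_lit 345) (nat_lit 334) (nat_lit 221)) (XT.lf (nat_lit 0) (nat_lit 719834144500) (nat_lit 228) (nat_lit 43376829425) (nat_lit 76) (nat_lit 471024986386) (nat_lit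 18) (nat_lit 5) (nat_lit 21) (nat_lit 5) (nat_lit 19) (nat_lit 4) (nat_lit 346) (nat_lit 334) (nat_lit 220))))) (XT.nd (nat_lit 234) (nat_lit 152) (nat_lit 0) (XT.nd (nat_lit 78) (nat_lit 152) (nat_lit 0) (XT.lf (nat_lit 0) (nat_lit 717325314282) (nat_lit 76) (nat_lit 356323792396) (nat_lit 152) (nat_lit 277141746632) (nat_lit 17) (nat_lit 5) (nat_lit 18) (nat_lit 5) (nat_lit 19) (nat_lit 4) (nat_lit 347) (nat_lit 334) (nat_lit 219)) (XT.nd (nat_lit 78) (nat_lit 0) (nat_lit 0) (XT.lf (nat_lit 0) (nat_lit 8551863887) (nat_lit 152) (nat_lit 1365109394202) (nat_lit 76) (nat_lit 109325029504) (nat_lit 15) (nat_lit 5) (nat_lit 17) (nat_lit 5) (nat_lit 16) (nat_lit 4) (nat_lit 348) (nat_lit 334) (nat_lit 218)) (XT.lf (nat_lit 0) (nat_lit 360383045406) (nat_lit 152) (nat_lit 608672370359) (nat_lit 76) (nat_lit 656227402555) (nat_lit 15) (nat_lit 5) (nat_lit 17) (nat_lit 5) (nat_lit 16) (nat_lit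 4) (nat_lit 349) (nat_lit 334) (nat_lit 217)))) (XT.nd (nat_lit 78) (nat_lit 76) (nat_lit 0) (XT.lf (nat_lit 0) (nat_lit 286759499545) (nat_lit 76) (nat_lit 490103491993) (nat_lit 152) (nat_lit 1010279724020) (nat_lit 14) (nat_lit 5) (nat_lit 15) (nat_lit 5) (nat_lit 16) (nat_lit 4) (nat_lit 350) (nat_lit 334) (nat_lit 216)) (XT.nd (nat_lit 78) (nat_lit 76) (nat_lit 0) (XT.lf (nat_lit 0) (nat_lit 1291660070360) (nat_lit 152) (nat_lit 587624637453) (nat_lit 0) (nat_lit 88620118464) (nat_lit 14) (nat_lit 5) (nat_lit 16) (nat_lit 4) (nat_lit 14) (nat_lit 4) (nat_lit 351) (nat_lit 334) (nat_lit 215)) (XT.lf (nat_lit 0) (nat_lit 481583325507) (nat_lit 76) (nat_lit 1445372975448) (nat_lit 76) (nat_lit 242333014163) (nat_lit 13) (nat_lit 4) (nat_lit 14) (nat_lit 5) (nat_lit 14) (nat_lit 4) (nat_lit 352) (nat_lit 334) (nat_lit 214))))))))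
noncomputable def xc104 : XT := (XT.nd (nat_lit 1638) (nat_lit 0) (nat_lit 0) (XT.nd (nat_lit 780) (nat_lit 380) (nat_lit 0) (XT.nd (nat_lit 390) (nat_lit 228) (nat_lit 0) (XT.nd (nat_lit 156) (nat_lit 76) (nat_lit 0) (XT.nd (nat_lit 78) (nat_lit 76) (nat_lit 0) (XT.lf (nat_lit 0) (nat_lit 265994786612) (nat_lit 152) (nat_lit 631151178233) (nat_lit 76) (nat_lit 1497314401698) (nat_lit 12) (nat_lit 5) (nat_lit 14) (nat_lit 5) (nat_lit 13) (nat_lit 4) (nat_lit 353) (nat_lit 334) (nat_lit 213)) (XT.lf (nat_lit 0) (nat_lit 628281099223) (nat_lit 76) (nat_lit 223496145321) (nat_lit 152) (nat_lit 1795996515267) (nat_lit 11) (nat_lit 5) (nat_lit 12) (nat_lit 5) (nat_lit 13) (nat_lit 4) (nat_lit 354) (nat_lit 334) (nat_lit 212))) (XT.nd (nat_lit 78) (nat_lit 76) (nat_lit 0) (XT.lf (nat_lit 0) (nat_lit 1582814167440) (nat_lit 152) (nat_lit 810969486862) (nat_lit 0) (nat_lit 536692443333) (nat_lit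 11) (nat_lit 5) (nat_lit 13) (nat_lit 4) (nat_lit 11) (nat_lit 4) (nat_lit 355) (nat_lit 334) (nat_lit 211)) (XT.nd (nat_lit 78) (nat_lit 0) (nat_lit 0) (XT.lf (nat_lit 0) (nat_lit 623717082715) (nat_lit 76) (nat_lit 1836259006559) (nat_lit 76) (nat_lit 790137277785) (nat_lit 10) (nat_lit 4) (nat_lit 11) (nat_lit 5) (nat_lit 11) (nat_lit 4) (nat_lit 356) (nat_lit 334) (nat_lit 210)) (XT.lf (nat_lit 0) (nat_lit 2364748535635) (nat_lit 76) (nat_lit 1146355343564) (nat_lit 76) (nat_lit 100233610730) (nat_lit 10) (nat_lit 4) (nat_lit 11) (nat_lit 5) (nat_lit 11) (nat_lit 4) (nat_lit 357) (nat_lit 334) (nat_lit 209))))) (XT.nd (nat_lit 156) (nat_lit 76) (nat_lit 0) (XT.nd (nat_lit 78) (nat_lit 0) (nat_lit 0) (XT.lf (nat_lit 0) (nat_lit 341928178064) (nat_lit 76) (nat_lit 303676433297) (nat_lit 152) (nat_lit 3374711529000) (nat_lit 8) (nat_lit 5) (nat_lit 9) (nat_lit 5) (nat_lit 10) (nat_lit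 4) (nat_lit 358) (nat_lit 334) (nat_lit 208)) (XT.lf (nat_lit 0) (nat_lit 1588875107187) (nat_lit 152) (nat_lit 2207473714450) (nat_lit 0) (nat_lit 679204029419) (nat_lit 8) (nat_lit 5) (nat_lit 10) (nat_lit 4) (nat_lit 8) (nat_lit 4) (nat_lit 359) (nat_lit 334) (nat_lit 207))) (XT.nd (nat_lit 78) (nat_lit 76) (nat_lit 0) (XT.lf (nat_lit 0) (nat_lit 2688096954453) (nat_lit 152) (nat_lit 530383122980) (nat_lit 0) (nat_lit 1778425874364) (nat_lit 8) (nat_lit 5) (nat_lit 10) (nat_lit 4) (nat_lit 8) (nat_lit 4) (nat_lit 360) (nat_lit 334) (nat_lit 206)) (XT.nd (nat_lit 78) (nat_lit 0) (nat_lit 0) (XT.lf (nat_lit 0) (nat_lit 1534920263649) (nat_lit 76) (nat_lit 2480839585294) (nat_lit 76) (nat_lit 1571168503187) (nat_lit 7) (nat_lit 4) (nat_lit 8) (nat_lit 5) (nat_lit 8) (nat_lit 4) (nat_lit 361) (nat_lit 334) (nat_lit 205)) (XT.lf (nat_lit 0) (nat_lit 3969626979657) (nat_lit 76) (nat_lit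 1600669765773) (nat_lit 76) (nat_lit 690998681911) (nat_lit 7) (nat_lit 4) (nat_lit 8) (nat_lit 5) (nat_lit 8) (nat_lit 4) (nat_lit 362) (nat_lit 334) (nat_lit 204)))))) (XT.nd (nat_lit 390) (nat_lit 152) (nat_lit 0) (XT.nd (nat_lit 156) (nat_lit 76) (nat_lit 0) (XT.nd (nat_lit 78) (nat_lit 76) (nat_lit 0) (XT.lf (nat_lit 0) (nat_lit 292601464879) (nat_lit 152) (nat_lit 280577935897) (nat_lit 76) (nat_lit 6461643153661) (nat_lit 6) (nat_lit 5) (nat_lit 8) (nat_lit 5) (nat_lit 7) (nat_lit 4) (nat_lit 363) (nat_lit 334) (nat_lit 203)) (XT.lf (nat_lit 0) (nat_lit 1474960795389) (nat_lit 152) (nat_lit 5742245151496) (nat_lit 0) (nat_lit 683942459115) (nat_lit 5) (nat_lit 5) (nat_lit 7) (nat_lit 4) (nat_lit 5) (nat_lit 4) (nat_lit 364) (nat_lit 334) (nat_lit 202))) (XT.nd (nat_lit 78) (nat_lit 76) (nat_lit 0) (XT.lf (nat_lit 0) (nat_lit 2877333261314) (nat_lit 152) (nat_lit 3927376064571)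 (nat_lit 0) (nat_lit 2086314924037) (nat_lit 5) (nat_lit 5) (nat_lit 7) (nat_lit 4) (nat_lit 5) (nat_lit 4) (nat_lit 365) (nat_lit 334) (nat_lit 201)) (XT.nd (nat_lit 78) (nat_lit 76) (nat_lit 0) (XT.lf (nat_lit 0) (nat_lit 4490061594046) (nat_lit 152) (nat_lit 1840276620954) (nat_lit 0) (nat_lit 3699043255896) (nat_lit 5) (nat_lit 5) (nat_lit 7) (nat_lit 4) (nat_lit 5) (nat_lit 4) (nat_lit 366) (nat_lit 334) (nat_lit 200)) (XT.lf (nat_lit 0) (nat_lit 614604034932) (nat_lit 76) (nat_lit 5755544581515) (nat_lit 76) (nat_lit 4964526242607) (nat_lit 4) (nat_lit 4) (nat_lit 5) (nat_lit 5) (nat_lit 5) (nat_lit 4) (nat_lit 367) (nat_lit 334) (nat_lit 199))))) (XT.nd (nat_lit 234) (nat_lit 152) (nat_lit 0) (XT.nd (nat_lit 78) (nat_lit 0) (nat_lit 0) (XT.lf (nat_lit 0) (nat_lit 3644538781448) (nat_lit 76) (nat_lit 4983906186125) (nat_lit 76) (nat_lit 4192887846557) (nat_lit 4) (nat_lit 4) (nat_lit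 5) (nat_lit 5) (nat_lit 5) (nat_lit 4) (nat_lit 368) (nat_lit 334) (nat_lit 198)) (XT.nd (nat_lit 78) (nat_lit 0) (nat_lit 0) (XT.lf (nat_lit 0) (nat_lit 7128963735362) (nat_lit 76) (nat_lit 4096522033791) (nat_lit 76) (nat_lit 3305503693649) (nat_lit 4) (nat_lit 4) (nat_lit 5) (nat_lit 5) (nat_lit 5) (nat_lit 4) (nat_lit 369) (nat_lit 334) (nat_lit 197)) (XT.lf (nat_lit 0) (nat_lit 11136052428379) (nat_lit 76) (nat_lit 3076030260662) (nat_lit 76) (nat_lit 2285011920022) (nat_lit 4) (nat_lit 4) (nat_lit 5) (nat_lit 5) (nat_lit 5) (nat_lit 4) (nat_lit 370) (nat_lit 334) (nat_lit 196)))) (XT.nd (nat_lit 78) (nat_lit 152) (nat_lit 0) (XT.lf (nat_lit 0) (nat_lit 15744204421884) (nat_lit 76) (nat_lit 1902464723352) (nat_lit 76) (nat_lit 1111446382278) (nat_lit 4) (nat_lit 4) (nat_lit 5) (nat_lit 5) (nat_lit 5) (nat_lit 4) (nat_lit 371) (nat_lit 334) (nat_lit 195)) (XT.nd (nat_lit 78) (nat_lit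 76) (nat_lit 0) (XT.lf (nat_lit 0) (nat_lit 216951869893) (nat_lit 152) (nat_lit 324571821181) (nat_lit 76) (nat_lit 20815286675585) (nat_lit 3) (nat_lit 5) (nat_lit 5) (nat_lit 5) (nat_lit 4) (nat_lit 4) (nat_lit 372) (nat_lit 334) (nat_lit 194)) (XT.lf (nat_lit 0) (nat_lit 1805019834570) (nat_lit 152) (nat_lit 21389042759061) (nat_lit 0) (nat_lit 1117177798240) (nat_lit 2) (nat_lit 5) (nat_lit 4) (nat_lit 4) (nat_lit 2) (nat_lit 4) (nat_lit 373) (nat_lit 334) (nat_lit 193))))))) (XT.nd (nat_lit 44070) (nat_lit 0) (nat_lit 1140) (XT.nd (nat_lit 390) (nat_lit 0) (nat_lit 0) (XT.nd (nat_lit 156) (nat_lit 0) (nat_lit 0) (XT.nd (nat_lit 78) (nat_lit 0) (nat_lit 0) (XT.lf (nat_lit 0) (nat_lit 3674859006222) (nat_lit 152) (nat_lit 21040424793160) (nat_lit 0) (nat_lit 2987016969644) (nat_lit 2) (nat_lit 5) (nat_lit 4) (nat_lit 4) (nat_lit 2) (nat_lit 4) (nat_lit 374) (nat_lit 334) (nat_lit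 192)) (XT.lf (nat_lit 0) (nat_lit 5825174052474) (nat_lit 152) (nat_lit 20639514134771) (nat_lit 0) (nat_lit 5137332015680) (nat_lit 2) (nat_lit 5) (nat_lit 4) (nat_lit 4) (nat_lit 2) (nat_lit 4) (nat_lit 375) (nat_lit 334) (nat_lit 191))) (XT.nd (nat_lit 78) (nat_lit 0) (nat_lit 0) (XT.lf (nat_lit 0) (nat_lit 8298036354666) (nat_lit 152) (nat_lit 20178466879708) (nat_lit 0) (nat_lit 7610194317684) (nat_lit 2) (nat_lit 5) (nat_lit 4) (nat_lit 4) (nat_lit 2) (nat_lit 4) (nat_lit 376) (nat_lit 334) (nat_lit 190)) (XT.nd (nat_lit 78) (nat_lit 0) (nat_lit 0) (XT.lf (nat_lit 0) (nat_lit 11141828001319) (nat_lit 152) (nat_lit 19648262538200) (nat_lit 0) (nat_lit 10453985964174) (nat_lit 2) (nat_lit 5) (nat_lit 4) (nat_lit 4) (nat_lit 2) (nat_lit 4) (nat_lit 377) (nat_lit 334) (nat_lit 189)) (XT.lf (nat_lit 0) (nat_lit 14412188394215) (nat_lit 152) (nat_lit 19038527547042) (nat_lit 0) (nat_lit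 13724346356929) (nat_lit 2) (nat_lit 5) (nat_lit 4) (nat_lit 4) (nat_lit 2) (nat_lit 4) (nat_lit 378) (nat_lit 334) (nat_lit 188))))) (XT.nd (nat_lit 43446) (nat_lit 0) (nat_lit 1824) (XT.nd (nat_lit 78) (nat_lit 0) (nat_lit 0) (XT.lf (nat_lit 0) (nat_lit 18173102845390) (nat_lit 152) (nat_lit 18337332308581) (nat_lit 0) (nat_lit 17485260807980) (nat_lit 2) (nat_lit 5) (nat_lit 4) (nat_lit 4) (nat_lit 2) (nat_lit 4) (nat_lit 379) (nat_lit 334) (nat_lit 187)) (XT.nd (nat_lit 78) (nat_lit 0) (nat_lit 0) (XT.lf (nat_lit 0) (nat_lit 22498154463670) (nat_lit 152) (nat_lit 17530957785543) (nat_lit 0) (nat_lit 21810312426154) (nat_lit 2) (nat_lit 5) (nat_lit 4) (nat_lit 4) (nat_lit 2) (nat_lit 4) (nat_lit 380) (nat_lit 334) (nat_lit 186)) (XT.lf (nat_lit 0) (nat_lit 27471963824197) (nat_lit 152) (nat_lit 16603627085086) (nat_lit 0) (nat_lit 26784121786587) (nat_lit 2) (nat_lit 5) (nat_lit 4)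 (nat_lit 4) (nat_lit 2) (nat_lit 4) (nat_lit 381) (nat_lit 334) (nat_lit 185)))) (XT.nd (nat_lit 78) (nat_lit 0) (nat_lit 0) (XT.lf (nat_lit 0) (nat_lit 60406931867) (nat_lit 380) (nat_lit 105030128396) (nat_lit 380) (nat_lit 105030128396) (nat_lit 26) (nat_lit 3) (nat_lit 31) (nat_lit 3) (nat_lit 31) (nat_lit 5) (nat_lit 335) (nat_lit 335) (nat_lit 230)) (XT.nd (nat_lit 78) (nat_lit 0) (nat_lit 76) (XT.lf (nat_lit 76) (nat_lit 55100269351) (nat_lit 0) (nat_lit 77056423793) (nat_lit 380) (nat_lit 449005493590) (nat_lit 27) (nat_lit 5) (nat_lit 26) (nat_lit 3) (nat_lit 31) (nat_lit 5) (nat_lit 336) (nat_lit 335) (nat_lit 229)) (XT.lf (nat_lit 0) (nat_lit 165600024687) (nat_lit 304) (nat_lit 251553042794) (nat_lit 380) (nat_lit 207211238499) (nat_lit 27) (nat_lit 5) (nat_lit 31) (nat_lit 5) (nat_lit 32) (nat_lit 5) (nat_lit 337) (nat_lit 335) (nat_lit 228)))))) (XT.nd (nat_lit 390) (nat_lit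 380) (nat_lit 0) (XT.nd (nat_lit 156) (nat_lit 380) (nat_lit 0) (XT.nd (nat_lit 78) (nat_lit 0) (nat_lit 76) (XT.lf (nat_lit 76) (nat_lit 66371646904) (nat_lit 0) (nat_lit 144105838880) (nat_lit 380) (nat_lit 462606612923) (nat_lit 28) (nat_lit 5) (nat_lit 27) (nat_lit 5) (nat_lit 32) (nat_lit 5) (nat_lit 338) (nat_lit 335) (nat_lit 227)) (XT.lf (nat_lit 0) (nat_lit 282897194626) (nat_lit 304) (nat_lit 274544606632) (nat_lit 76) (nat_lit 168548464857) (nat_lit 28) (nat_lit 5) (nat_lit 32) (nat_lit 5) (nat_lit 29) (nat_lit 5) (nat_lit 339) (nat_lit 335) (nat_lit 226))) (XT.nd (nat_lit 78) (nat_lit 152) (nat_lit 0) (XT.lf (nat_lit 0) (nat_lit 110416223045) (nat_lit 304) (nat_lit 267197894935) (nat_lit 380) (nat_lit 407503101980) (nat_lit 24) (nat_lit 5) (nat_lit 28) (nat_lit 5) (nat_lit 29) (nat_lit 5) (nat_lit 340) (nat_lit 335) (nat_lit 225)) (XT.nd (nat_lit 78) (nat_lit 152) (nat_lit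 0) (XT.lf (nat_lit 0) (nat_lit 504330186060) (nat_lit 380) (nat_lit 270424751459) (nat_lit 76) (nat_lit 75689538473) (nat_lit 24) (nat_lit 5) (nat_lit 29) (nat_lit 5) (nat_lit 25) (nat_lit 5) (nat_lit 341) (nat_lit 335) (nat_lit 224)) (XT.lf (nat_lit 0) (nat_lit 199533005636) (nat_lit 152) (nat_lit 471506584476) (nat_lit 228) (nat_lit 251383341491) (nat_lit 22) (nat_lit 5) (nat_lit 24) (nat_lit 5) (nat_lit 25) (nat_lit 5) (nat_lit 342) (nat_lit 335) (nat_lit 223))))) (XT.nd (nat_lit 234) (nat_lit 228) (nat_lit 0) (XT.nd (nat_lit 78) (nat_lit 152) (nat_lit 0) (XT.lf (nat_lit 0) (nat_lit 770376457984) (nat_lit 152) (nat_lit 106514767928) (nat_lit 228) (nat_lit 126186556509) (nat_lit 22) (nat_lit 5) (nat_lit 24) (nat_lit 5) (nat_lit 25) (nat_lit 5) (nat_lit 343) (nat_lit 335) (nat_lit 222)) (XT.nd (nat_lit 78) (nat_lit 0) (nat_lit 0) (XT.lf (nat_lit 0) (nat_lit 44938621574) (nat_lit 152)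 (nat_lit 744632279196) (nat_lit 76) (nat_lit 301839568560) (nat_lit 20) (nat_lit 5) (nat_lit 22) (nat_lit 5) (nat_lit 21) (nat_lit 5) (nat_lit 344) (nat_lit 335) (nat_lit 221)) (XT.lf (nat_lit 0) (nat_lit 246628760652) (nat_lit 152) (nat_lit 163496654693) (nat_lit 76) (nat_lit 779294018791) (nat_lit 20) (nat_lit 5) (nat_lit 22) (nat_lit 5) (nat_lit 21) (nat_lit 5) (nat_lit 345) (nat_lit 335) (nat_lit 220)))) (XT.nd (nat_lit 78) (nat_lit 76) (nat_lit 0) (XT.lf (nat_lit 0) (nat_lit 503697358481) (nat_lit 228) (nat_lit 746724009080) (nat_lit 76) (nat_lit 47939635437) (nat_lit 18) (nat_lit 5) (nat_lit 21) (nat_lit 5) (nat_lit 19) (nat_lit 4) (nat_lit 346) (nat_lit 335) (nat_lit 219)) (XT.nd (nat_lit 78) (nat_lit 76) (nat_lit 0) (XT.lf (nat_lit 0) (nat_lit 827809403177) (nat_lit 228) (nat_lit 49883134701) (nat_lit 76) (nat_lit 541678795748) (nat_lit 18) (nat_lit 5) (nat_lit 21) (nat_lit 5)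 (nat_lit 19) (nat_lit 4) (nat_lit 347) (nat_lit 335) (nat_lit 218)) (XT.lf (nat_lit 0) (nat_lit 824924320601) (nat_lit 76) (nat_lit 409772279872) (nat_lit 152) (nat_lit 318712861506) (nat_lit 17) (nat_lit 5) (nat_lit 18) (nat_lit 5) (nat_lit 19) (nat_lit 4) (nat_lit 348) (nat_lit 335) (nat_lit 217))))))))
noncomputable def xc105 : XT := (XT.nd (nat_lit 1716) (nat_lit 228) (nat_lit 0) (XT.nd (nat_lit 858) (nat_lit 304) (nat_lit 0) (XT.nd (nat_lit 390) (nat_lit 380) (nat_lit 0) (XT.nd (nat_lit 156) (nat_lit 152) (nat_lit 0) (XT.nd (nat_lit 78) (nat_lit 0) (nat_lit 0) (XT.lf (nat_lit 0) (nat_lit 9834772404) (nat_lit 152) (nat_lit 1569875575712) (nat_lit 76) (nat_lit 125723863157) (nat_lit 15) (nat_lit 5) (nat_lit 17) (nat_lit 5) (nat_lit 16) (nat_lit 4) (nat_lit 349) (nat_lit 335) (nat_lit 216)) (XT.lf (nat_lit 0) (nat_lit 414440614333) (nat_lit 152) (nat_lit 699973027981) (nat_lit 76) (nat_lit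 754661581832) (nat_lit 15) (nat_lit 5) (nat_lit 17) (nat_lit 5) (nat_lit 16) (nat_lit 4) (nat_lit 350) (nat_lit 335) (nat_lit 215))) (XT.nd (nat_lit 78) (nat_lit 76) (nat_lit 0) (XT.lf (nat_lit 0) (nat_lit 329773613411) (nat_lit 76) (nat_lit 563618932173) (nat_lit 152) (nat_lit 1161821561419) (nat_lit 14) (nat_lit 5) (nat_lit 15) (nat_lit 5) (nat_lit 16) (nat_lit 4) (nat_lit 351) (nat_lit 335) (nat_lit 214)) (XT.nd (nat_lit 78) (nat_lit 76) (nat_lit 0) (XT.lf (nat_lit 0) (nat_lit 1485409175504) (nat_lit 152) (nat_lit 675768157975) (nat_lit 0) (nat_lit 101913202472) (nat_lit 14) (nat_lit 5) (nat_lit 16) (nat_lit 4) (nat_lit 14) (nat_lit 4) (nat_lit 352) (nat_lit 335) (nat_lit 213)) (XT.lf (nat_lit 0) (nat_lit 553820991469) (nat_lit 76) (nat_lit 1662178843802) (nat_lit 76) (nat_lit 278682863671) (nat_lit 13) (nat_lit 4) (nat_lit 14) (nat_lit 5) (nat_lit 14) (nat_lit 4) (nat_lit 353) (nat_lit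 335) (nat_lit 212))))) (XT.nd (nat_lit 234) (nat_lit 228) (nat_lit 0) (XT.nd (nat_lit 78) (nat_lit 76) (nat_lit 0) (XT.lf (nat_lit 0) (nat_lit 305894085892) (nat_lit 152) (nat_lit 725823701636) (nat_lit 76) (nat_lit 1721911621752) (nat_lit 12) (nat_lit 5) (nat_lit 14) (nat_lit 5) (nat_lit 13) (nat_lit 4) (nat_lit 354) (nat_lit 335) (nat_lit 211)) (XT.nd (nat_lit 78) (nat_lit 0) (nat_lit 0) (XT.lf (nat_lit 0) (nat_lit 722523410469) (nat_lit 76) (nat_lit 257020497503) (nat_lit 152) (nat_lit 2065395904254) (nat_lit 11) (nat_lit 5) (nat_lit 12) (nat_lit 5) (nat_lit 13) (nat_lit 4) (nat_lit 355) (nat_lit 335) (nat_lit 210)) (XT.lf (nat_lit 0) (nat_lit 1820236361798) (nat_lit 152) (nat_lit 932614775077) (nat_lit 0) (nat_lit 617196364980) (nat_lit 11) (nat_lit 5) (nat_lit 13) (nat_lit 4) (nat_lit 11) (nat_lit 4) (nat_lit 356) (nat_lit 335) (nat_lit 209)))) (XT.nd (nat_lit 78) (nat_lit 152) (nat_lit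 0) (XT.lf (nat_lit 0) (nat_lit 717274773809) (nat_lit 76) (nat_lit 2111697794396) (nat_lit 76) (nat_lit 908657794048) (nat_lit 10) (nat_lit 4) (nat_lit 11) (nat_lit 5) (nat_lit 11) (nat_lit 4) (nat_lit 357) (nat_lit 335) (nat_lit 208)) (XT.nd (nat_lit 78) (nat_lit 152) (nat_lit 0) (XT.lf (nat_lit 0) (nat_lit 2719460927882) (nat_lit 76) (nat_lit 1318308590189) (nat_lit 76) (nat_lit 115268586771) (nat_lit 10) (nat_lit 4) (nat_lit 11) (nat_lit 5) (nat_lit 11) (nat_lit 4) (nat_lit 358) (nat_lit 335) (nat_lit 207)) (XT.lf (nat_lit 0) (nat_lit 393217517186) (nat_lit 76) (nat_lit 349227842475) (nat_lit 152) (nat_lit 3880918193243) (nat_lit 8) (nat_lit 5) (nat_lit 9) (nat_lit 5) (nat_lit 10) (nat_lit 4) (nat_lit 359) (nat_lit 335) (nat_lit 206)))))) (XT.nd (nat_lit 390) (nat_lit 152) (nat_lit 0) (XT.nd (nat_lit 156) (nat_lit 152) (nat_lit 0) (XT.nd (nat_lit 78) (nat_lit 0) (nat_lit 0) (XT.lf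 (nat_lit 0) (nat_lit 1827206424488) (nat_lit 152) (nat_lit 2538594668477) (nat_lit 0) (nat_lit 781084678046) (nat_lit 8) (nat_lit 5) (nat_lit 10) (nat_lit 4) (nat_lit 8) (nat_lit 4) (nat_lit 360) (nat_lit 335) (nat_lit 205)) (XT.lf (nat_lit 0) (nat_lit 3091311542162) (nat_lit 152) (nat_lit 609940501739) (nat_lit 0) (nat_lit 2045189793966) (nat_lit 8) (nat_lit 5) (nat_lit 10) (nat_lit 4) (nat_lit 8) (nat_lit 4) (nat_lit 361) (nat_lit 335) (nat_lit 204))) (XT.nd (nat_lit 78) (nat_lit 76) (nat_lit 0) (XT.lf (nat_lit 0) (nat_lit 1765158388808) (nat_lit 76) (nat_lit 2852965479754) (nat_lit 76) (nat_lit 1806843730032) (nat_lit 7) (nat_lit 4) (nat_lit 8) (nat_lit 5) (nat_lit 8) (nat_lit 4) (nat_lit 362) (nat_lit 335) (nat_lit 203)) (XT.nd (nat_lit 78) (nat_lit 76) (nat_lit 0) (XT.lf (nat_lit 0) (nat_lit 4565071101049) (nat_lit 76) (nat_lit 1840770192958) (nat_lit 76) (nat_lit 794648441908) (nat_lit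 7) (nat_lit 4) (nat_lit 8) (nat_lit 5) (nat_lit 8) (nat_lit 4) (nat_lit 363) (nat_lit 335) (nat_lit 202)) (XT.lf (nat_lit 0) (nat_lit 336491718111) (nat_lit 152) (nat_lit 322664558264) (nat_lit 76) (nat_lit 7430889656194) (nat_lit 6) (nat_lit 5) (nat_lit 8) (nat_lit 5) (nat_lit 7) (nat_lit 4) (nat_lit 364) (nat_lit 335) (nat_lit 201))))) (XT.nd (nat_lit 234) (nat_lit 76) (nat_lit 0) (XT.nd (nat_lit 78) (nat_lit 0) (nat_lit 0) (XT.lf (nat_lit 0) (nat_lit 1696204947887) (nat_lit 152) (nat_lit 6603581855884) (nat_lit 0) (nat_lit 786533858142) (nat_lit 5) (nat_lit 5) (nat_lit 7) (nat_lit 4) (nat_lit 5) (nat_lit 4) (nat_lit 365) (nat_lit 335) (nat_lit 200)) (XT.nd (nat_lit 78) (nat_lit 0) (nat_lit 0) (XT.lf (nat_lit 0) (nat_lit 3308933279372) (nat_lit 152) (nat_lit 4516482414834) (nat_lit 0) (nat_lit 2399262188869) (nat_lit 5) (nat_lit 5) (nat_lit 7) (nat_lit 4) (nat_lit 5) (nat_lit 4) (nat_lit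 366) (nat_lit 335) (nat_lit 199)) (XT.lf (nat_lit 0) (nat_lit 5163570858249) (nat_lit 152) (nat_lit 2116318062426) (nat_lit 0) (nat_lit 4253899767086) (nat_lit 5) (nat_lit 5) (nat_lit 7) (nat_lit 4) (nat_lit 5) (nat_lit 4) (nat_lit 367) (nat_lit 335) (nat_lit 198)))) (XT.nd (nat_lit 78) (nat_lit 0) (nat_lit 0) (XT.lf (nat_lit 0) (nat_lit 706794689495) (nat_lit 76) (nat_lit 6618876243285) (nat_lit 76) (nat_lit 5709205151548) (nat_lit 4) (nat_lit 4) (nat_lit 5) (nat_lit 5) (nat_lit 5) (nat_lit 4) (nat_lit 368) (nat_lit 335) (nat_lit 197)) (XT.nd (nat_lit 78) (nat_lit 0) (nat_lit 0) (XT.lf (nat_lit 0) (nat_lit 4191219641555) (nat_lit 76) (nat_lit 5731492091906) (nat_lit 76) (nat_lit 4821820999671) (nat_lit 4) (nat_lit 4) (nat_lit 5) (nat_lit 5) (nat_lit 5) (nat_lit 4) (nat_lit 369) (nat_lit 335) (nat_lit 196)) (XT.lf (nat_lit 0) (nat_lit 8198308332961) (nat_lit 76) (nat_lit 4711000319609)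 (nat_lit 76) (nat_lit 3801329226940) (nat_lit 4) (nat_lit 4) (nat_lit 5) (nat_lit 5) (nat_lit 5) (nat_lit 4) (nat_lit 370) (nat_lit 335) (nat_lit 195))))))) (XT.nd (nat_lit 44226) (nat_lit 0) (nat_lit 1292) (XT.nd (nat_lit 390) (nat_lit 76) (nat_lit 0) (XT.nd (nat_lit 156) (nat_lit 152) (nat_lit 0) (XT.nd (nat_lit 78) (nat_lit 0) (nat_lit 0) (XT.lf (nat_lit 0) (nat_lit 12806460325066) (nat_lit 76) (nat_lit 3537434783023) (nat_lit 76) (nat_lit 2627763689976) (nat_lit 4) (nat_lit 4) (nat_lit 5) (nat_lit 5) (nat_lit 5) (nat_lit 4) (nat_lit 371) (nat_lit 335) (nat_lit 194)) (XT.lf (nat_lit 0) (nat_lit 18105835113368) (nat_lit 76) (nat_lit 2187834417299) (nat_lit 76) (nat_lit 1278163323925) (nat_lit 4) (nat_lit 4) (nat_lit 5) (nat_lit 5) (nat_lit 5) (nat_lit 4) (nat_lit 372) (nat_lit 335) (nat_lit 193))) (XT.nd (nat_lit 78) (nat_lit 76) (nat_lit 0) (XT.lf (nat_lit 0) (nat_lit 249494662809)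 (nat_lit 152) (nat_lit 373257568619) (nat_lit 76) (nat_lit 23937579688363) (nat_lit 3) (nat_lit 5) (nat_lit 5) (nat_lit 5) (nat_lit 4) (nat_lit 4) (nat_lit 373) (nat_lit 335) (nat_lit 192)) (XT.nd (nat_lit 78) (nat_lit 0) (nat_lit 0) (XT.lf (nat_lit 0) (nat_lit 2075772822112) (nat_lit 152) (nat_lit 24597399147102) (nat_lit 0) (nat_lit 1284754479583) (nat_lit 2) (nat_lit 5) (nat_lit 4) (nat_lit 4) (nat_lit 2) (nat_lit 4) (nat_lit 374) (nat_lit 335) (nat_lit 191)) (XT.lf (nat_lit 0) (nat_lit 4226087867900) (nat_lit 152) (nat_lit 24196488489683) (nat_lit 0) (nat_lit 3435069525183) (nat_lit 2) (nat_lit 5) (nat_lit 4) (nat_lit 4) (nat_lit 2) (nat_lit 4) (nat_lit 375) (nat_lit 335) (nat_lit 190))))) (XT.nd (nat_lit 234) (nat_lit 76) (nat_lit 0) (XT.nd (nat_lit 78) (nat_lit 0) (nat_lit 0) (XT.lf (nat_lit 0) (nat_lit 6698950169688) (nat_lit 152) (nat_lit 23735441235464) (nat_lit 0) (nat_lit 5907931826809)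 (nat_lit 2) (nat_lit 5) (nat_lit 4) (nat_lit 4) (nat_lit 2) (nat_lit 4) (nat_lit 376) (nat_lit 335) (nat_lit 189)) (XT.nd (nat_lit 78) (nat_lit 0) (nat_lit 0) (XT.lf (nat_lit 0) (nat_lit 9542741815990) (nat_lit 152) (nat_lit 23205236894689) (nat_lit 0) (nat_lit 8751723472969) (nat_lit 2) (nat_lit 5) (nat_lit 4) (nat_lit 4) (nat_lit 2) (nat_lit 4) (nat_lit 377) (nat_lit 335) (nat_lit 188)) (XT.lf (nat_lit 0) (nat_lit 12813102208581) (nat_lit 152) (nat_lit 22595501904168) (nat_lit 0) (nat_lit 12022083865437) (nat_lit 2) (nat_lit 5) (nat_lit 4) (nat_lit 4) (nat_lit 2) (nat_lit 4) (nat_lit 378) (nat_lit 335) (nat_lit 187)))) (XT.nd (nat_lit 1482) (nat_lit 76) (nat_lit 0) (XT.lf (nat_lit 0) (nat_lit 16574016659491) (nat_lit 152) (nat_lit 21894306666262) (nat_lit 0) (nat_lit 15782998316239) (nat_lit 2) (nat_lit 5) (nat_lit 4) (nat_lit 4) (nat_lit 2) (nat_lit 4) (nat_lit 379) (nat_lit 335) (nat_lit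 186)) (XT.nd (nat_lit 42042) (nat_lit 0) (nat_lit 1900) (XT.lf (nat_lit 0) (nat_lit 54049291738263) (nat_lit 76) (nat_lit 346283426489447) (nat_lit 76) (nat_lit 345492408145532) (nat_lit 1) (nat_lit 4) (nat_lit 2) (nat_lit 5) (nat_lit 2) (nat_lit 4) (nat_lit 398) (nat_lit 335) (nat_lit 167)) (XT.lf (nat_lit 0) (nat_lit 69468168137) (nat_lit 380) (nat_lit 120784534462) (nat_lit 380) (nat_lit 120784534462) (nat_lit 26) (nat_lit 3) (nat_lit 31) (nat_lit 3) (nat_lit 31) (nat_lit 5) (nat_lit 336) (nat_lit 336) (nat_lit 228)))))) (XT.nd (nat_lit 390) (nat_lit 456) (nat_lit 0) (XT.nd (nat_lit 156) (nat_lit 152) (nat_lit 0) (XT.nd (nat_lit 78) (nat_lit 0) (nat_lit 76) (XT.lf (nat_lit 76) (nat_lit 63365525851) (nat_lit 0) (nat_lit 88615021935) (nat_lit 380) (nat_lit 516355913622) (nat_lit 27) (nat_lit 5) (nat_lit 26) (nat_lit 3) (nat_lit 31) (nat_lit 5) (nat_lit 337) (nat_lit 336) (nat_lit 227))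 (XT.lf (nat_lit 0) (nat_lit 190440328475) (nat_lit 304) (nat_lit 289285760077) (nat_lit 380) (nat_lit 238292817672) (nat_lit 27) (nat_lit 5) (nat_lit 31) (nat_lit 5) (nat_lit 32) (nat_lit 5) (nat_lit 338) (nat_lit 336) (nat_lit 226))) (XT.nd (nat_lit 78) (nat_lit 228) (nat_lit 0) (XT.lf (nat_lit 76) (nat_lit 76327622206) (nat_lit 0) (nat_lit 165721756842) (nat_lit 380) (nat_lit 531997293349) (nat_lit 28) (nat_lit 5) (nat_lit 27) (nat_lit 5) (nat_lit 32) (nat_lit 5) (nat_lit 339) (nat_lit 336) (nat_lit 225)) (XT.nd (nat_lit 78) (nat_lit 304) (nat_lit 0) (XT.lf (nat_lit 0) (nat_lit 325332007430) (nat_lit 304) (nat_lit 315726061865) (nat_lit 76) (nat_lit 193830701213) (nat_lit 28) (nat_lit 5) (nat_lit 32) (nat_lit 5) (nat_lit 29) (nat_lit 5) (nat_lit 340) (nat_lit 336) (nat_lit 224)) (XT.lf (nat_lit 0) (nat_lit 126978881548) (nat_lit 304) (nat_lit 307277566587) (nat_lit 380) (nat_lit 468628322530)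 (nat_lit 24) (nat_lit 5) (nat_lit 28) (nat_lit 5) (nat_lit 29) (nat_lit 5) (nat_lit 341) (nat_lit 336) (nat_lit 223))))) (XT.nd (nat_lit 234) (nat_lit 304) (nat_lit 0) (XT.nd (nat_lit 78) (nat_lit 152) (nat_lit 0) (XT.lf (nat_lit 0) (nat_lit 579979899168) (nat_lit 380) (nat_lit 310988240862) (nat_lit 76) (nat_lit 87042979215) (nat_lit 24) (nat_lit 5) (nat_lit 29) (nat_lit 5) (nat_lit 25) (nat_lit 5) (nat_lit 342) (nat_lit 336) (nat_lit 222)) (XT.nd (nat_lit 78) (nat_lit 0) (nat_lit 0) (XT.lf (nat_lit 0) (nat_lit 229463169647) (nat_lit 152) (nat_lit 542232528851) (nat_lit 228) (nat_lit 289090647047) (nat_lit 22) (nat_lit 5) (nat_lit 24) (nat_lit 5) (nat_lit 25) (nat_lit 5) (nat_lit 343) (nat_lit 336) (nat_lit 221)) (XT.lf (nat_lit 0) (nat_lit 885933112043) (nat_lit 152) (nat_lit 122491945468) (nat_lit 228) (nat_lit 145114369840) (nat_lit 22) (nat_lit 5) (nat_lit 24) (nat_lit 5) (nat_lit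 25) (nat_lit 5) (nat_lit 344) (nat_lit 336) (nat_lit 220)))) (XT.nd (nat_lit 78) (nat_lit 152) (nat_lit 0) (XT.lf (nat_lit 0) (nat_lit 51679559551) (nat_lit 152) (nat_lit 856326909859) (nat_lit 76) (nat_lit 347115548399) (nat_lit 20) (nat_lit 5) (nat_lit 22) (nat_lit 5) (nat_lit 21) (nat_lit 5) (nat_lit 345) (nat_lit 336) (nat_lit 219)) (XT.nd (nat_lit 78) (nat_lit 152) (nat_lit 0) (XT.lf (nat_lit 0) (nat_lit 283623200611) (nat_lit 152) (nat_lit 188020969230) (nat_lit 76) (nat_lit 896188160353) (nat_lit 20) (nat_lit 5) (nat_lit 22) (nat_lit 5) (nat_lit 21) (nat_lit 5) (nat_lit 346) (nat_lit 336) (nat_lit 218)) (XT.lf (nat_lit 0) (nat_lit 579252081385) (nat_lit 228) (nat_lit 858732419887) (nat_lit 76) (nat_lit 55130634147) (nat_lit 18) (nat_lit 5) (nat_lit 21) (nat_lit 5) (nat_lit 19) (nat_lit 4) (nat_lit 347) (nat_lit 336) (nat_lit 217))))))))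
noncomputable def xc106 : XT := (XT.nd (nat_lit 1638) (nat_lit 304) (nat_lit 0) (XT.nd (nat_lit 780) (nat_lit 456) (nat_lit 0) (XT.nd (nat_lit 390) (nat_lit 228) (nat_lit 0) (XT.nd (nat_lit 156) (nat_lit 228) (nat_lit 0) (XT.nd (nat_lit 78) (nat_lit 76) (nat_lit 0) (XT.lf (nat_lit 0) (nat_lit 951980917246) (nat_lit 228) (nat_lit 57365439207) (nat_lit 76) (nat_lit 622930661541) (nat_lit 18) (nat_lit 5) (nat_lit 21) (nat_lit 5) (nat_lit 19) (nat_lit 4) (nat_lit 348) (nat_lit 336) (nat_lit 216)) (XT.lf (nat_lit 0) (nat_lit 948663126860) (nat_lit 76) (nat_lit 471238060315) (nat_lit 152) (nat_lit 366519679488) (nat_lit 17) (nat_lit 5) (nat_lit 18) (nat_lit 5) (nat_lit 19) (nat_lit 4) (nat_lit 349) (nat_lit 336) (nat_lit 215))) (XT.nd (nat_lit 78) (nat_lit 76) (nat_lit 0) (XT.lf (nat_lit 0) (nat_lit 11310085757) (nat_lit 152) (nat_lit 1805356739955) (nat_lit 76) (nat_lit 144582502538) (nat_lit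 15) (nat_lit 5) (nat_lit 17) (nat_lit 5) (nat_lit 16) (nat_lit 4) (nat_lit 350) (nat_lit 336) (nat_lit 214)) (XT.nd (nat_lit 78) (nat_lit 76) (nat_lit 0) (XT.lf (nat_lit 0) (nat_lit 476606791260) (nat_lit 152) (nat_lit 804968832514) (nat_lit 76) (nat_lit 867860871200) (nat_lit 15) (nat_lit 5) (nat_lit 17) (nat_lit 5) (nat_lit 16) (nat_lit 4) (nat_lit 351) (nat_lit 336) (nat_lit 213)) (XT.lf (nat_lit 0) (nat_lit 379239798285) (nat_lit 76) (nat_lit 648161708772) (nat_lit 152) (nat_lit 1336094703985) (nat_lit 14) (nat_lit 5) (nat_lit 15) (nat_lit 5) (nat_lit 16) (nat_lit 4) (nat_lit 352) (nat_lit 336) (nat_lit 212))))) (XT.nd (nat_lit 156) (nat_lit 152) (nat_lit 0) (XT.nd (nat_lit 78) (nat_lit 76) (nat_lit 0) (XT.lf (nat_lit 0) (nat_lit 1708220623353) (nat_lit 152) (nat_lit 777133249274) (nat_lit 0) (nat_lit 117200232929) (nat_lit 14) (nat_lit 5) (nat_lit 16) (nat_lit 4) (nat_lit 14) (nat_lit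 4) (nat_lit 353) (nat_lit 336) (nat_lit 211)) (XT.lf (nat_lit 0) (nat_lit 636894266569) (nat_lit 76) (nat_lit 1911505611420) (nat_lit 76) (nat_lit 320485215628) (nat_lit 13) (nat_lit 4) (nat_lit 14) (nat_lit 5) (nat_lit 14) (nat_lit 4) (nat_lit 354) (nat_lit 336) (nat_lit 210))) (XT.nd (nat_lit 78) (nat_lit 76) (nat_lit 0) (XT.lf (nat_lit 0) (nat_lit 351778260241) (nat_lit 152) (nat_lit 834697140940) (nat_lit 76) (nat_lit 1980198410231) (nat_lit 12) (nat_lit 5) (nat_lit 14) (nat_lit 5) (nat_lit 13) (nat_lit 4) (nat_lit 355) (nat_lit 336) (nat_lit 209)) (XT.nd (nat_lit 78) (nat_lit 0) (nat_lit 0) (XT.lf (nat_lit 0) (nat_lit 830902032710) (nat_lit 76) (nat_lit 295573519489) (nat_lit 152) (nat_lit 2375205223123) (nat_lit 11) (nat_lit 5) (nat_lit 12) (nat_lit 5) (nat_lit 13) (nat_lit 4) (nat_lit 356) (nat_lit 336) (nat_lit 208)) (XT.lf (nat_lit 0) (nat_lit 2093271868425) (nat_lit 152) (nat_lit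 1072506889400) (nat_lit 0) (nat_lit 709775861425) (nat_lit 11) (nat_lit 5) (nat_lit 13) (nat_lit 4) (nat_lit 11) (nat_lit 4) (nat_lit 357) (nat_lit 336) (nat_lit 207)))))) (XT.nd (nat_lit 390) (nat_lit 228) (nat_lit 0) (XT.nd (nat_lit 156) (nat_lit 152) (nat_lit 0) (XT.nd (nat_lit 78) (nat_lit 0) (nat_lit 0) (XT.lf (nat_lit 0) (nat_lit 824866087186) (nat_lit 76) (nat_lit 2428452415807) (nat_lit 76) (nat_lit 1044956406139) (nat_lit 10) (nat_lit 4) (nat_lit 11) (nat_lit 5) (nat_lit 11) (nat_lit 4) (nat_lit 358) (nat_lit 336) (nat_lit 206)) (XT.lf (nat_lit 0) (nat_lit 3127380151677) (nat_lit 76) (nat_lit 1516054837197) (nat_lit 76) (nat_lit 132558825207) (nat_lit 10) (nat_lit 4) (nat_lit 11) (nat_lit 5) (nat_lit 11) (nat_lit 4) (nat_lit 359) (nat_lit 336) (nat_lit 205))) (XT.nd (nat_lit 78) (nat_lit 0) (nat_lit 0) (XT.lf (nat_lit 0) (nat_lit 452200229763) (nat_lit 76) (nat_lit 401611976641)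 (nat_lit 152) (nat_lit 4463055873000) (nat_lit 8) (nat_lit 5) (nat_lit 9) (nat_lit 5) (nat_lit 10) (nat_lit 4) (nat_lit 360) (nat_lit 336) (nat_lit 204)) (XT.nd (nat_lit 78) (nat_lit 0) (nat_lit 0) (XT.lf (nat_lit 0) (nat_lit 2101287426893) (nat_lit 152) (nat_lit 2919383790760) (nat_lit 0) (nat_lit 898247413186) (nat_lit 8) (nat_lit 5) (nat_lit 10) (nat_lit 4) (nat_lit 8) (nat_lit 4) (nat_lit 361) (nat_lit 336) (nat_lit 203)) (XT.lf (nat_lit 0) (nat_lit 3555008307167) (nat_lit 152) (nat_lit 701431509184) (nat_lit 0) (nat_lit 2351968292133) (nat_lit 8) (nat_lit 5) (nat_lit 10) (nat_lit 4) (nat_lit 8) (nat_lit 4) (nat_lit 362) (nat_lit 336) (nat_lit 202))))) (XT.nd (nat_lit 234) (nat_lit 76) (nat_lit 0) (XT.nd (nat_lit 78) (nat_lit 76) (nat_lit 0) (XT.lf (nat_lit 0) (nat_lit 2029932211863) (nat_lit 76) (nat_lit 3280910268950) (nat_lit 76) (nat_lit 2077870252763) (nat_lit 7) (nat_lit 4)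 (nat_lit 8) (nat_lit 5) (nat_lit 8) (nat_lit 4) (nat_lit 363) (nat_lit 336) (nat_lit 201)) (XT.nd (nat_lit 78) (nat_lit 76) (nat_lit 0) (XT.lf (nat_lit 0) (nat_lit 5249831822498) (nat_lit 76) (nat_lit 2116885693408) (nat_lit 76) (nat_lit 913845676218) (nat_lit 7) (nat_lit 4) (nat_lit 8) (nat_lit 5) (nat_lit 8) (nat_lit 4) (nat_lit 364) (nat_lit 336) (nat_lit 200)) (XT.lf (nat_lit 0) (nat_lit 386965501158) (nat_lit 152) (nat_lit 371064190572) (nat_lit 76) (nat_lit 8545523126917) (nat_lit 6) (nat_lit 5) (nat_lit 8) (nat_lit 5) (nat_lit 7) (nat_lit 4) (nat_lit 365) (nat_lit 336) (nat_lit 199)))) (XT.nd (nat_lit 78) (nat_lit 0) (nat_lit 0) (XT.lf (nat_lit 0) (nat_lit 1950635715166) (nat_lit 152) (nat_lit 7594119082595) (nat_lit 0) (nat_lit 904513959669) (nat_lit 5) (nat_lit 5) (nat_lit 7) (nat_lit 4) (nat_lit 5) (nat_lit 4) (nat_lit 366) (nat_lit 336) (nat_lit 198)) (XT.nd (nat_lit 78) (nat_lit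 0) (nat_lit 0) (XT.lf (nat_lit 0) (nat_lit 3805273293101) (nat_lit 152) (nat_lit 5193954732127) (nat_lit 0) (nat_lit 2759151537030) (nat_lit 5) (nat_lit 5) (nat_lit 7) (nat_lit 4) (nat_lit 5) (nat_lit 4) (nat_lit 367) (nat_lit 336) (nat_lit 197)) (XT.lf (nat_lit 0) (nat_lit 5938106505963) (nat_lit 152) (nat_lit 2433765732718) (nat_lit 0) (nat_lit 4891984749393) (nat_lit 5) (nat_lit 5) (nat_lit 7) (nat_lit 4) (nat_lit 5) (nat_lit 4) (nat_lit 368) (nat_lit 336) (nat_lit 196))))))) (XT.nd (nat_lit 2184) (nat_lit 0) (nat_lit 0) (XT.nd (nat_lit 390) (nat_lit 228) (nat_lit 0) (XT.nd (nat_lit 156) (nat_lit 0) (nat_lit 0) (XT.nd (nat_lit 78) (nat_lit 0) (nat_lit 0) (XT.lf (nat_lit 0) (nat_lit 812813930215) (nat_lit 76) (nat_lit 7611707660527) (nat_lit 76) (nat_lit 6565585903523) (nat_lit 4) (nat_lit 4) (nat_lit 5) (nat_lit 5) (nat_lit 5) (nat_lit 4) (nat_lit 369) (nat_lit 336) (nat_lit 195))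 (XT.lf (nat_lit 0) (nat_lit 4819902620220) (nat_lit 76) (nat_lit 6591215888953) (nat_lit 76) (nat_lit 5545094131572) (nat_lit 4) (nat_lit 4) (nat_lit 5) (nat_lit 5) (nat_lit 5) (nat_lit 4) (nat_lit 370) (nat_lit 336) (nat_lit 194))) (XT.nd (nat_lit 78) (nat_lit 0) (nat_lit 0) (XT.lf (nat_lit 0) (nat_lit 9428054611106) (nat_lit 76) (nat_lit 5417650352995) (nat_lit 76) (nat_lit 4371528595286) (nat_lit 4) (nat_lit 4) (nat_lit 5) (nat_lit 5) (nat_lit 5) (nat_lit 4) (nat_lit 371) (nat_lit 336) (nat_lit 193)) (XT.nd (nat_lit 78) (nat_lit 0) (nat_lit 0) (XT.lf (nat_lit 0) (nat_lit 14727429398349) (nat_lit 76) (nat_lit 4068049987819) (nat_lit 76) (nat_lit 3021928229825) (nat_lit 4) (nat_lit 4) (nat_lit 5) (nat_lit 5) (nat_lit 5) (nat_lit 4) (nat_lit 372) (nat_lit 336) (nat_lit 192)) (XT.lf (nat_lit 0) (nat_lit 20821710401697) (nat_lit 76) (nat_lit 2516009568888) (nat_lit 76) (nat_lit 1469887810646)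 (nat_lit 4) (nat_lit 4) (nat_lit 5) (nat_lit 5) (nat_lit 5) (nat_lit 4) (nat_lit 373) (nat_lit 336) (nat_lit 191))))) (XT.nd (nat_lit 234) (nat_lit 76) (nat_lit 0) (XT.nd (nat_lit 78) (nat_lit 76) (nat_lit 0) (XT.lf (nat_lit 0) (nat_lit 286918871631) (nat_lit 152) (nat_lit 429246184449) (nat_lit 76) (nat_lit 27528216650267) (nat_lit 3) (nat_lit 5) (nat_lit 5) (nat_lit 5) (nat_lit 4) (nat_lit 4) (nat_lit 374) (nat_lit 336) (nat_lit 190)) (XT.nd (nat_lit 78) (nat_lit 0) (nat_lit 0) (XT.lf (nat_lit 0) (nat_lit 2387138754771) (nat_lit 152) (nat_lit 28287008999645) (nat_lit 0) (nat_lit 1477467660297) (nat_lit 2) (nat_lit 5) (nat_lit 4) (nat_lit 4) (nat_lit 2) (nat_lit 4) (nat_lit 375) (nat_lit 336) (nat_lit 189)) (XT.lf (nat_lit 0) (nat_lit 4860001056209) (nat_lit 152) (nat_lit 27825961746159) (nat_lit 0) (nat_lit 3950329961593) (nat_lit 2) (nat_lit 5) (nat_lit 4) (nat_lit 4) (nat_lit 2) (nat_lit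 4) (nat_lit 376) (nat_lit 336) (nat_lit 188)))) (XT.nd (nat_lit 78) (nat_lit 76) (nat_lit 0) (XT.lf (nat_lit 0) (nat_lit 7703792702206) (nat_lit 152) (nat_lit 27295757406022) (nat_lit 0) (nat_lit 6794121607466) (nat_lit 2) (nat_lit 5) (nat_lit 4) (nat_lit 4) (nat_lit 2) (nat_lit 4) (nat_lit 377) (nat_lit 336) (nat_lit 187)) (XT.nd (nat_lit 1404) (nat_lit 76) (nat_lit 0) (XT.lf (nat_lit 0) (nat_lit 10974153094532) (nat_lit 152) (nat_lit 26686022416056) (nat_lit 0) (nat_lit 10064481999685) (nat_lit 2) (nat_lit 5) (nat_lit 4) (nat_lit 4) (nat_lit 2) (nat_lit 4) (nat_lit 378) (nat_lit 336) (nat_lit 186)) (XT.lf (nat_lit 0) (nat_lit 29078872265945) (nat_lit 76) (nat_lit 268313427125906) (nat_lit 76) (nat_lit 267403756030402) (nat_lit 1) (nat_lit 4) (nat_lit 2) (nat_lit 5) (nat_lit 2) (nat_lit 4) (nat_lit 396) (nat_lit 336) (nat_lit 168)))))) (XT.nd (nat_lit 42432) (nat_lit 0) (nat_lit 1596)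 (XT.nd (nat_lit 42198) (nat_lit 0) (nat_lit 1900) (XT.nd (nat_lit 78) (nat_lit 0) (nat_lit 0) (XT.lf (nat_lit 0) (nat_lit 38604520425498) (nat_lit 76) (nat_lit 305725238021929) (nat_lit 76) (nat_lit 304815566926418) (nat_lit 1) (nat_lit 4) (nat_lit 2) (nat_lit 5) (nat_lit 2) (nat_lit 4) (nat_lit 397) (nat_lit 336) (nat_lit 167)) (XT.lf (nat_lit 0) (nat_lit 49559015808904) (nat_lit 76) (nat_lit 348748820552398) (nat_lit 76) (nat_lit 347839149456880) (nat_lit 1) (nat_lit 4) (nat_lit 2) (nat_lit 5) (nat_lit 2) (nat_lit 4) (nat_lit 398) (nat_lit 336) (nat_lit 166))) (XT.nd (nat_lit 78) (nat_lit 0) (nat_lit 0) (XT.lf (nat_lit 0) (nat_lit 79888541933) (nat_lit 380) (nat_lit 138902129041) (nat_lit 380) (nat_lit 138902129041) (nat_lit 26) (nat_lit 3) (nat_lit 31) (nat_lit 3) (nat_lit 31) (nat_lit 5) (nat_lit 337) (nat_lit 337) (nat_lit 226)) (XT.nd (nat_lit 78) (nat_lit 0) (nat_lit 76) (XT.lf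 (nat_lit 76) (nat_lit 72870518129) (nat_lit 0) (nat_lit 101907376982) (nat_lit 380) (nat_lit 593808995178) (nat_lit 27) (nat_lit 5) (nat_lit 26) (nat_lit 3) (nat_lit 31) (nat_lit 5) (nat_lit 338) (nat_lit 337) (nat_lit 225)) (XT.lf (nat_lit 0) (nat_lit 219006604654) (nat_lit 304) (nat_lit 332678443268) (nat_lit 380) (nat_lit 274036659716) (nat_lit 27) (nat_lit 5) (nat_lit 31) (nat_lit 5) (nat_lit 32) (nat_lit 5) (nat_lit 339) (nat_lit 337) (nat_lit 224))))) (XT.nd (nat_lit 234) (nat_lit 152) (nat_lit 0) (XT.nd (nat_lit 78) (nat_lit 228) (nat_lit 0) (XT.lf (nat_lit 76) (nat_lit 87776938138) (nat_lit 0) (nat_lit 190580052225) (nat_lit 380) (nat_lit 611796651804) (nat_lit 28) (nat_lit 5) (nat_lit 27) (nat_lit 5) (nat_lit 32) (nat_lit 5) (nat_lit 340) (nat_lit 337) (nat_lit 223)) (XT.nd (nat_lit 78) (nat_lit 304) (nat_lit 0) (XT.lf (nat_lit 0) (nat_lit 374131985187) (nat_lit 304) (nat_lit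 363084792875) (nat_lit 76) (nat_lit 222905281160) (nat_lit 28) (nat_lit 5) (nat_lit 32) (nat_lit 5) (nat_lit 29) (nat_lit 5) (nat_lit 341) (nat_lit 337) (nat_lit 222)) (XT.lf (nat_lit 0) (nat_lit 146025883947) (nat_lit 304) (nat_lit 353369192057) (nat_lit 380) (nat_lit 538922385846) (nat_lit 24) (nat_lit 5) (nat_lit 28) (nat_lit 5) (nat_lit 29) (nat_lit 5) (nat_lit 342) (nat_lit 337) (nat_lit 221)))) (XT.nd (nat_lit 78) (nat_lit 152) (nat_lit 0) (XT.lf (nat_lit 0) (nat_lit 666977024080) (nat_lit 380) (nat_lit 357636308132) (nat_lit 76) (nat_lit 100099433638) (nat_lit 24) (nat_lit 5) (nat_lit 29) (nat_lit 5) (nat_lit 25) (nat_lit 5) (nat_lit 343) (nat_lit 337) (nat_lit 220)) (XT.nd (nat_lit 78) (nat_lit 0) (nat_lit 0) (XT.lf (nat_lit 0) (nat_lit 263882806278) (nat_lit 152) (nat_lit 623567375441) (nat_lit 228) (nat_lit 332454096151) (nat_lit 22) (nat_lit 5) (nat_lit 24) (nat_lit 5) (nat_lit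 25) (nat_lit 5) (nat_lit 344) (nat_lit 337) (nat_lit 219)) (XT.lf (nat_lit 0) (nat_lit 1018823219009) (nat_lit 152) (nat_lit 140865708820) (nat_lit 228) (nat_lit 166881396661) (nat_lit 22) (nat_lit 5) (nat_lit 24) (nat_lit 5) (nat_lit 25) (nat_lit 5) (nat_lit 345) (nat_lit 337) (nat_lit 218))))))))
noncomputable def xc107 : XT := (XT.nd (nat_lit 1716) (nat_lit 304) (nat_lit 0) (XT.nd (nat_lit 858) (nat_lit 532) (nat_lit 0) (XT.nd (nat_lit 390) (nat_lit 380) (nat_lit 0) (XT.nd (nat_lit 156) (nat_lit 228) (nat_lit 0) (XT.nd (nat_lit 78) (nat_lit 0) (nat_lit 0) (XT.lf (nat_lit 0) (nat_lit 59431602929) (nat_lit 152) (nat_lit 984775786629) (nat_lit 76) (nat_lit 399182914348) (nat_lit 20) (nat_lit 5) (nat_lit 22) (nat_lit 5) (nat_lit 21) (nat_lit 5) (nat_lit 346) (nat_lit 337) (nat_lit 217)) (XT.lf (nat_lit 0) (nat_lit 326166775873) (nat_lit 152) (nat_lit 216223975737) (nat_lit 76) (nat_lit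 1030616413701) (nat_lit 20) (nat_lit 5) (nat_lit 22) (nat_lit 5) (nat_lit 21) (nat_lit 5) (nat_lit 347) (nat_lit 337) (nat_lit 216))) (XT.nd (nat_lit 78) (nat_lit 76) (nat_lit 0) (XT.lf (nat_lit 0) (nat_lit 666139983673) (nat_lit 228) (nat_lit 987542138784) (nat_lit 76) (nat_lit 63400269644) (nat_lit 18) (nat_lit 5) (nat_lit 21) (nat_lit 5) (nat_lit 19) (nat_lit 4) (nat_lit 348) (nat_lit 337) (nat_lit 215)) (XT.nd (nat_lit 78) (nat_lit 76) (nat_lit 0) (XT.lf (nat_lit 0) (nat_lit 1094778133164) (nat_lit 228) (nat_lit 65970129795) (nat_lit 76) (nat_lit 716370295880) (nat_lit 18) (nat_lit 5) (nat_lit 21) (nat_lit 5) (nat_lit 19) (nat_lit 4) (nat_lit 349) (nat_lit 337) (nat_lit 214)) (XT.lf (nat_lit 0) (nat_lit 1090962715486) (nat_lit 76) (nat_lit 541923722831) (nat_lit 152) (nat_lit 421497547295) (nat_lit 17) (nat_lit 5) (nat_lit 18) (nat_lit 5) (nat_lit 19) (nat_lit 4) (nat_lit 350) (nat_lit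 337) (nat_lit 213))))) (XT.nd (nat_lit 234) (nat_lit 152) (nat_lit 0) (XT.nd (nat_lit 78) (nat_lit 76) (nat_lit 0) (XT.lf (nat_lit 0) (nat_lit 13006672339) (nat_lit 152) (nat_lit 2076160120805) (nat_lit 76) (nat_lit 166269923217) (nat_lit 15) (nat_lit 5) (nat_lit 17) (nat_lit 5) (nat_lit 16) (nat_lit 4) (nat_lit 351) (nat_lit 337) (nat_lit 212)) (XT.nd (nat_lit 78) (nat_lit 76) (nat_lit 0) (XT.lf (nat_lit 0) (nat_lit 548097874051) (nat_lit 152) (nat_lit 925714044223) (nat_lit 76) (nat_lit 998040041270) (nat_lit 15) (nat_lit 5) (nat_lit 17) (nat_lit 5) (nat_lit 16) (nat_lit 4) (nat_lit 352) (nat_lit 337) (nat_lit 211)) (XT.lf (nat_lit 0) (nat_lit 436125876051) (nat_lit 76) (nat_lit 745385917278) (nat_lit 152) (nat_lit 1536508840284) (nat_lit 14) (nat_lit 5) (nat_lit 15) (nat_lit 5) (nat_lit 16) (nat_lit 4) (nat_lit 353) (nat_lit 337) (nat_lit 210)))) (XT.nd (nat_lit 78) (nat_lit 152) (nat_lit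 0) (XT.lf (nat_lit 0) (nat_lit 1964453770938) (nat_lit 152) (nat_lit 893703136554) (nat_lit 0) (nat_lit 134780305740) (nat_lit 14) (nat_lit 5) (nat_lit 16) (nat_lit 4) (nat_lit 14) (nat_lit 4) (nat_lit 354) (nat_lit 337) (nat_lit 209)) (XT.nd (nat_lit 78) (nat_lit 76) (nat_lit 0) (XT.lf (nat_lit 0) (nat_lit 732428502115) (nat_lit 76) (nat_lit 2198231408557) (nat_lit 76) (nat_lit 368557939300) (nat_lit 13) (nat_lit 4) (nat_lit 14) (nat_lit 5) (nat_lit 14) (nat_lit 4) (nat_lit 355) (nat_lit 337) (nat_lit 208)) (XT.lf (nat_lit 0) (nat_lit 404545045754) (nat_lit 152) (nat_lit 959901624413) (nat_lit 76) (nat_lit 2277228205956) (nat_lit 12) (nat_lit 5) (nat_lit 14) (nat_lit 5) (nat_lit 13) (nat_lit 4) (nat_lit 356) (nat_lit 337) (nat_lit 207)))))) (XT.nd (nat_lit 390) (nat_lit 228) (nat_lit 0) (XT.nd (nat_lit 156) (nat_lit 228) (nat_lit 0) (XT.nd (nat_lit 78) (nat_lit 0) (nat_lit 0) (XT.lf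 (nat_lit 0) (nat_lit 955537421300) (nat_lit 76) (nat_lit 339909507609) (nat_lit 152) (nat_lit 2731485956104) (nat_lit 11) (nat_lit 5) (nat_lit 12) (nat_lit 5) (nat_lit 13) (nat_lit 4) (nat_lit 357) (nat_lit 337) (nat_lit 206)) (XT.lf (nat_lit 0) (nat_lit 2407262688278) (nat_lit 152) (nat_lit 1233382845729) (nat_lit 0) (nat_lit 816242272169) (nat_lit 11) (nat_lit 5) (nat_lit 13) (nat_lit 4) (nat_lit 11) (nat_lit 4) (nat_lit 358) (nat_lit 337) (nat_lit 205))) (XT.nd (nat_lit 78) (nat_lit 152) (nat_lit 0) (XT.lf (nat_lit 0) (nat_lit 948596073841) (nat_lit 76) (nat_lit 2792720242074) (nat_lit 76) (nat_lit 1201699823947) (nat_lit 10) (nat_lit 4) (nat_lit 11) (nat_lit 5) (nat_lit 11) (nat_lit 4) (nat_lit 359) (nat_lit 337) (nat_lit 204)) (XT.nd (nat_lit 78) (nat_lit 152) (nat_lit 0) (XT.lf (nat_lit 0) (nat_lit 3596487238409) (nat_lit 76) (nat_lit 1743463031381) (nat_lit 76) (nat_lit 152442611499)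 (nat_lit 10) (nat_lit 4) (nat_lit 11) (nat_lit 5) (nat_lit 11) (nat_lit 4) (nat_lit 360) (nat_lit 337) (nat_lit 203)) (XT.lf (nat_lit 0) (nat_lit 520030328499) (nat_lit 76) (nat_lit 461853741224) (nat_lit 152) (nat_lit 5132514216725) (nat_lit 8) (nat_lit 5) (nat_lit 9) (nat_lit 5) (nat_lit 10) (nat_lit 4) (nat_lit 361) (nat_lit 337) (nat_lit 202))))) (XT.nd (nat_lit 234) (nat_lit 152) (nat_lit 0) (XT.nd (nat_lit 78) (nat_lit 76) (nat_lit 0) (XT.lf (nat_lit 0) (nat_lit 2416480570214) (nat_lit 152) (nat_lit 3357291300403) (nat_lit 0) (nat_lit 1032984550444) (nat_lit 8) (nat_lit 5) (nat_lit 10) (nat_lit 4) (nat_lit 8) (nat_lit 4) (nat_lit 362) (nat_lit 337) (nat_lit 201)) (XT.nd (nat_lit 78) (nat_lit 76) (nat_lit 0) (XT.lf (nat_lit 0) (nat_lit 4088259578709) (nat_lit 152) (nat_lit 806646184282) (nat_lit 0) (nat_lit 2704763557936) (nat_lit 8) (nat_lit 5) (nat_lit 10) (nat_lit 4) (nat_lit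 8) (nat_lit 4) (nat_lit 363) (nat_lit 337) (nat_lit 200)) (XT.lf (nat_lit 0) (nat_lit 2334422092591) (nat_lit 76) (nat_lit 3773046784516) (nat_lit 76) (nat_lit 2389550762871) (nat_lit 7) (nat_lit 4) (nat_lit 8) (nat_lit 5) (nat_lit 8) (nat_lit 4) (nat_lit 364) (nat_lit 337) (nat_lit 199)))) (XT.nd (nat_lit 78) (nat_lit 152) (nat_lit 0) (XT.lf (nat_lit 0) (nat_lit 6037306638436) (nat_lit 76) (nat_lit 2434418525875) (nat_lit 76) (nat_lit 1050922503471) (nat_lit 7) (nat_lit 4) (nat_lit 8) (nat_lit 5) (nat_lit 8) (nat_lit 4) (nat_lit 365) (nat_lit 337) (nat_lit 198)) (XT.nd (nat_lit 78) (nat_lit 76) (nat_lit 0) (XT.lf (nat_lit 0) (nat_lit 445010345485) (nat_lit 152) (nat_lit 426723780269) (nat_lit 76) (nat_lit 9827351612811) (nat_lit 6) (nat_lit 5) (nat_lit 8) (nat_lit 5) (nat_lit 7) (nat_lit 4) (nat_lit 366) (nat_lit 337) (nat_lit 197)) (XT.lf (nat_lit 0) (nat_lit 2243231091417) (nat_lit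 152) (nat_lit 8733236905913) (nat_lit 0) (nat_lit 1040191070863) (nat_lit 5) (nat_lit 5) (nat_lit 7) (nat_lit 4) (nat_lit 5) (nat_lit 4) (nat_lit 367) (nat_lit 337) (nat_lit 196))))))) (XT.nd (nat_lit 2106) (nat_lit 76) (nat_lit 0) (XT.nd (nat_lit 390) (nat_lit 152) (nat_lit 0) (XT.nd (nat_lit 156) (nat_lit 76) (nat_lit 0) (XT.nd (nat_lit 78) (nat_lit 0) (nat_lit 0) (XT.lf (nat_lit 0) (nat_lit 4376064303567) (nat_lit 152) (nat_lit 5973047907971) (nat_lit 0) (nat_lit 3173024282579) (nat_lit 5) (nat_lit 5) (nat_lit 7) (nat_lit 4) (nat_lit 5) (nat_lit 4) (nat_lit 368) (nat_lit 337) (nat_lit 195)) (XT.lf (nat_lit 0) (nat_lit 6828822496206) (nat_lit 152) (nat_lit 2798830563082) (nat_lit 0) (nat_lit 5625782474841) (nat_lit 5) (nat_lit 5) (nat_lit 7) (nat_lit 4) (nat_lit 5) (nat_lit 4) (nat_lit 369) (nat_lit 337) (nat_lit 194))) (XT.nd (nat_lit 78) (nat_lit 0) (nat_lit 0) (XT.lf (nat_lit 0)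 (nat_lit 934736047948) (nat_lit 76) (nat_lit 8753463795051) (nat_lit 76) (nat_lit 7550423773357) (nat_lit 4) (nat_lit 4) (nat_lit 5) (nat_lit 5) (nat_lit 5) (nat_lit 4) (nat_lit 370) (nat_lit 337) (nat_lit 193)) (XT.nd (nat_lit 78) (nat_lit 0) (nat_lit 0) (XT.lf (nat_lit 0) (nat_lit 5542888037775) (nat_lit 76) (nat_lit 7579898259639) (nat_lit 76) (nat_lit 6376858237661) (nat_lit 4) (nat_lit 4) (nat_lit 5) (nat_lit 5) (nat_lit 5) (nat_lit 4) (nat_lit 371) (nat_lit 337) (nat_lit 192)) (XT.lf (nat_lit 0) (nat_lit 10842262824096) (nat_lit 76) (nat_lit 6230297894938) (nat_lit 76) (nat_lit 5027257872712) (nat_lit 4) (nat_lit 4) (nat_lit 5) (nat_lit 5) (nat_lit 5) (nat_lit 4) (nat_lit 372) (nat_lit 337) (nat_lit 191))))) (XT.nd (nat_lit 234) (nat_lit 76) (nat_lit 0) (XT.nd (nat_lit 78) (nat_lit 76) (nat_lit 0) (XT.lf (nat_lit 0) (nat_lit 16936543826644) (nat_lit 76) (nat_lit 4678257476421) (nat_lit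 76) (nat_lit 3475217453979) (nat_lit 4) (nat_lit 4) (nat_lit 5) (nat_lit 5) (nat_lit 5) (nat_lit 4) (nat_lit 373) (nat_lit 337) (nat_lit 190)) (XT.nd (nat_lit 78) (nat_lit 76) (nat_lit 0) (XT.lf (nat_lit 0) (nat_lit 23944966978076) (nat_lit 76) (nat_lit 2893410995899) (nat_lit 76) (nat_lit 1690370973269) (nat_lit 4) (nat_lit 4) (nat_lit 5) (nat_lit 5) (nat_lit 5) (nat_lit 4) (nat_lit 374) (nat_lit 337) (nat_lit 189)) (XT.lf (nat_lit 0) (nat_lit 329956709485) (nat_lit 152) (nat_lit 493633097399) (nat_lit 76) (nat_lit 31657449154348) (nat_lit 3) (nat_lit 5) (nat_lit 5) (nat_lit 5) (nat_lit 4) (nat_lit 4) (nat_lit 375) (nat_lit 337) (nat_lit 188)))) (XT.nd (nat_lit 78) (nat_lit 0) (nat_lit 0) (XT.lf (nat_lit 0) (nat_lit 2745209575052) (nat_lit 152) (nat_lit 32530060334830) (nat_lit 0) (nat_lit 1699087815978) (nat_lit 2) (nat_lit 5) (nat_lit 4) (nat_lit 4) (nat_lit 2) (nat_lit 4) (nat_lit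 376) (nat_lit 337) (nat_lit 187)) (XT.nd (nat_lit 78) (nat_lit 0) (nat_lit 0) (XT.lf (nat_lit 0) (nat_lit 5589001220783) (nat_lit 152) (nat_lit 31999855995247) (nat_lit 0) (nat_lit 4542879461603) (nat_lit 2) (nat_lit 5) (nat_lit 4) (nat_lit 4) (nat_lit 2) (nat_lit 4) (nat_lit 377) (nat_lit 337) (nat_lit 186)) (XT.lf (nat_lit 0) (nat_lit 8859361612879) (nat_lit 152) (nat_lit 31390121005763) (nat_lit 0) (nat_lit 7813239853605) (nat_lit 2) (nat_lit 5) (nat_lit 4) (nat_lit 4) (nat_lit 2) (nat_lit 4) (nat_lit 378) (nat_lit 337) (nat_lit 185)))))) (XT.nd (nat_lit 42510) (nat_lit 0) (nat_lit 1748) (XT.nd (nat_lit 156) (nat_lit 0) (nat_lit 0) (XT.nd (nat_lit 78) (nat_lit 0) (nat_lit 0) (XT.lf (nat_lit 0) (nat_lit 15631882634490) (nat_lit 76) (nat_lit 238616620823515) (nat_lit 76) (nat_lit 237570499063677) (nat_lit 1) (nat_lit 4) (nat_lit 2) (nat_lit 5) (nat_lit 2) (nat_lit 4) (nat_lit 395) (nat_lit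 337) (nat_lit 168)) (XT.lf (nat_lit 0) (nat_lit 23915054947182) (nat_lit 76) (nat_lit 271148630298299) (nat_lit 76) (nat_lit 270102508538453) (nat_lit 1) (nat_lit 4) (nat_lit 2) (nat_lit 5) (nat_lit 2) (nat_lit 4) (nat_lit 396) (nat_lit 337) (nat_lit 167))) (XT.nd (nat_lit 78) (nat_lit 0) (nat_lit 0) (XT.lf (nat_lit 0) (nat_lit 33440703106698) (nat_lit 76) (nat_lit 308560441194342) (nat_lit 76) (nat_lit 307514319434489) (nat_lit 1) (nat_lit 4) (nat_lit 2) (nat_lit 5) (nat_lit 2) (nat_lit 4) (nat_lit 397) (nat_lit 337) (nat_lit 166)) (XT.nd (nat_lit 42198) (nat_lit 0) (nat_lit 1900) (XT.lf (nat_lit 0) (nat_lit 44395198490072) (nat_lit 76) (nat_lit 351584023724827) (nat_lit 76) (nat_lit 350537901964969) (nat_lit 1) (nat_lit 4) (nat_lit 2) (nat_lit 5) (nat_lit 2) (nat_lit 4) (nat_lit 398) (nat_lit 337) (nat_lit 165)) (XT.lf (nat_lit 0) (nat_lit 91871935567) (nat_lit 380) (nat_lit 159737383679)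 (nat_lit 380) (nat_lit 159737383679) (nat_lit 26) (nat_lit 3) (nat_lit 31) (nat_lit 3) (nat_lit 31) (nat_lit 5) (nat_lit 338) (nat_lit 338) (nat_lit 224))))) (XT.nd (nat_lit 234) (nat_lit 152) (nat_lit 0) (XT.nd (nat_lit 78) (nat_lit 0) (nat_lit 76) (XT.lf (nat_lit 76) (nat_lit 83801219402) (nat_lit 0) (nat_lit 117193560473) (nat_lit 380) (nat_lit 682880113462) (nat_lit 27) (nat_lit 5) (nat_lit 26) (nat_lit 3) (nat_lit 31) (nat_lit 5) (nat_lit 339) (nat_lit 338) (nat_lit 223)) (XT.nd (nat_lit 78) (nat_lit 0) (nat_lit 0) (XT.lf (nat_lit 0) (nat_lit 251857766927) (nat_lit 304) (nat_lit 382580073031) (nat_lit 380) (nat_lit 315142097723) (nat_lit 27) (nat_lit 5) (nat_lit 31) (nat_lit 5) (nat_lit 32) (nat_lit 5) (nat_lit 340) (nat_lit 338) (nat_lit 222)) (XT.lf (nat_lit 76) (nat_lit 100943609371) (nat_lit 0) (nat_lit 219167084146) (nat_lit 380) (nat_lit 703565971467) (nat_lit 28) (nat_lit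 5) (nat_lit 27) (nat_lit 5) (nat_lit 32) (nat_lit 5) (nat_lit 341) (nat_lit 338) (nat_lit 221)))) (XT.nd (nat_lit 78) (nat_lit 304) (nat_lit 0) (XT.lf (nat_lit 0) (nat_lit 430251916532) (nat_lit 304) (nat_lit 417547377009) (nat_lit 76) (nat_lit 256341054253) (nat_lit 28) (nat_lit 5) (nat_lit 32) (nat_lit 5) (nat_lit 29) (nat_lit 5) (nat_lit 342) (nat_lit 338) (nat_lit 220)) (XT.nd (nat_lit 78) (nat_lit 0) (nat_lit 0) (XT.lf (nat_lit 0) (nat_lit 167929895209) (nat_lit 304) (nat_lit 406374563668) (nat_lit 380) (nat_lit 619760603788) (nat_lit 24) (nat_lit 5) (nat_lit 28) (nat_lit 5) (nat_lit 29) (nat_lit 5) (nat_lit 343) (nat_lit 338) (nat_lit 219)) (XT.lf (nat_lit 0) (nat_lit 767023683581) (nat_lit 380) (nat_lit 411281626670) (nat_lit 76) (nat_lit 115114354385) (nat_lit 24) (nat_lit 5) (nat_lit 29) (nat_lit 5) (nat_lit 25) (nat_lit 5) (nat_lit 344) (nat_lit 338) (nat_lit 218))))))))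
noncomputable def xc108 : XT := (XT.nd (nat_lit 1638) (nat_lit 456) (nat_lit 0) (XT.nd (nat_lit 780) (nat_lit 532) (nat_lit 0) (XT.nd (nat_lit 390) (nat_lit 304) (nat_lit 0) (XT.nd (nat_lit 156) (nat_lit 304) (nat_lit 0) (XT.nd (nat_lit 78) (nat_lit 0) (nat_lit 0) (XT.lf (nat_lit 0) (nat_lit 303465349098) (nat_lit 152) (nat_lit 717102457002) (nat_lit 228) (nat_lit 382322098700) (nat_lit 22) (nat_lit 5) (nat_lit 24) (nat_lit 5) (nat_lit 25) (nat_lit 5) (nat_lit 345) (nat_lit 338) (nat_lit 217)) (XT.lf (nat_lit 0) (nat_lit 1171646807841) (nat_lit 152) (nat_lit 161995543617) (nat_lit 228) (nat_lit 191913508879) (nat_lit 22) (nat_lit 5) (nat_lit 24) (nat_lit 5) (nat_lit 25) (nat_lit 5) (nat_lit 346) (nat_lit 338) (nat_lit 216))) (XT.nd (nat_lit 78) (nat_lit 152) (nat_lit 0) (XT.lf (nat_lit 0) (nat_lit 68346426125) (nat_lit 152) (nat_lit 1132492033860) (nat_lit 76) (nat_lit 459060376975) (nat_lit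 20) (nat_lit 5) (nat_lit 22) (nat_lit 5) (nat_lit 21) (nat_lit 5) (nat_lit 347) (nat_lit 338) (nat_lit 215)) (XT.nd (nat_lit 78) (nat_lit 152) (nat_lit 0) (XT.lf (nat_lit 0) (nat_lit 375091864216) (nat_lit 152) (nat_lit 248657467086) (nat_lit 76) (nat_lit 1185208897908) (nat_lit 20) (nat_lit 5) (nat_lit 22) (nat_lit 5) (nat_lit 21) (nat_lit 5) (nat_lit 348) (nat_lit 338) (nat_lit 214)) (XT.lf (nat_lit 0) (nat_lit 766061049338) (nat_lit 228) (nat_lit 1135673350651) (nat_lit 76) (nat_lit 72910340619) (nat_lit 18) (nat_lit 5) (nat_lit 21) (nat_lit 5) (nat_lit 19) (nat_lit 4) (nat_lit 349) (nat_lit 338) (nat_lit 213))))) (XT.nd (nat_lit 156) (nat_lit 228) (nat_lit 0) (XT.nd (nat_lit 78) (nat_lit 76) (nat_lit 0) (XT.lf (nat_lit 0) (nat_lit 1258994912368) (nat_lit 228) (nat_lit 75865554525) (nat_lit 76) (nat_lit 823825866809) (nat_lit 18) (nat_lit 5) (nat_lit 21) (nat_lit 5) (nat_lit 19) (nat_lit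 4) (nat_lit 350) (nat_lit 338) (nat_lit 212)) (XT.lf (nat_lit 0) (nat_lit 1254607213242) (nat_lit 76) (nat_lit 623212246071) (nat_lit 152) (nat_lit 484722115785) (nat_lit 17) (nat_lit 5) (nat_lit 18) (nat_lit 5) (nat_lit 19) (nat_lit 4) (nat_lit 351) (nat_lit 338) (nat_lit 211))) (XT.nd (nat_lit 78) (nat_lit 76) (nat_lit 0) (XT.lf (nat_lit 0) (nat_lit 14957728932) (nat_lit 152) (nat_lit 2387584040519) (nat_lit 76) (nat_lit 191210445952) (nat_lit 15) (nat_lit 5) (nat_lit 17) (nat_lit 5) (nat_lit 16) (nat_lit 4) (nat_lit 352) (nat_lit 338) (nat_lit 210)) (XT.nd (nat_lit 78) (nat_lit 76) (nat_lit 0) (XT.lf (nat_lit 0) (nat_lit 630312603630) (nat_lit 152) (nat_lit 1064571065286) (nat_lit 76) (nat_lit 1147746077245) (nat_lit 15) (nat_lit 5) (nat_lit 17) (nat_lit 5) (nat_lit 16) (nat_lit 4) (nat_lit 353) (nat_lit 338) (nat_lit 209)) (XT.lf (nat_lit 0) (nat_lit 501544839141) (nat_lit 76) (nat_lit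 857193768719) (nat_lit 152) (nat_lit 1766985113927) (nat_lit 14) (nat_lit 5) (nat_lit 15) (nat_lit 5) (nat_lit 16) (nat_lit 4) (nat_lit 354) (nat_lit 338) (nat_lit 208)))))) (XT.nd (nat_lit 390) (nat_lit 304) (nat_lit 0) (XT.nd (nat_lit 156) (nat_lit 152) (nat_lit 0) (XT.nd (nat_lit 78) (nat_lit 76) (nat_lit 0) (XT.lf (nat_lit 0) (nat_lit 2259121877472) (nat_lit 152) (nat_lit 1027758531339) (nat_lit 0) (nat_lit 154997380238) (nat_lit 14) (nat_lit 5) (nat_lit 16) (nat_lit 4) (nat_lit 14) (nat_lit 4) (nat_lit 355) (nat_lit 338) (nat_lit 207)) (XT.lf (nat_lit 0) (nat_lit 842292849691) (nat_lit 76) (nat_lit 2527966086135) (nat_lit 76) (nat_lit 423841585831) (nat_lit 13) (nat_lit 4) (nat_lit 14) (nat_lit 5) (nat_lit 14) (nat_lit 4) (nat_lit 356) (nat_lit 338) (nat_lit 206))) (XT.nd (nat_lit 78) (nat_lit 76) (nat_lit 0) (XT.lf (nat_lit 0) (nat_lit 465226837761) (nat_lit 152) (nat_lit 1103886801786)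 (nat_lit 76) (nat_lit 2618812462702) (nat_lit 12) (nat_lit 5) (nat_lit 14) (nat_lit 5) (nat_lit 13) (nat_lit 4) (nat_lit 357) (nat_lit 338) (nat_lit 205)) (XT.nd (nat_lit 78) (nat_lit 0) (nat_lit 0) (XT.lf (nat_lit 0) (nat_lit 1098868097772) (nat_lit 76) (nat_lit 390895903653) (nat_lit 152) (nat_lit 3141208811344) (nat_lit 11) (nat_lit 5) (nat_lit 12) (nat_lit 5) (nat_lit 13) (nat_lit 4) (nat_lit 358) (nat_lit 338) (nat_lit 204)) (XT.lf (nat_lit 0) (nat_lit 2768352121455) (nat_lit 152) (nat_lit 1418390214304) (nat_lit 0) (nat_lit 938678636836) (nat_lit 11) (nat_lit 5) (nat_lit 13) (nat_lit 4) (nat_lit 11) (nat_lit 4) (nat_lit 359) (nat_lit 338) (nat_lit 203))))) (XT.nd (nat_lit 234) (nat_lit 76) (nat_lit 0) (XT.nd (nat_lit 78) (nat_lit 152) (nat_lit 0) (XT.lf (nat_lit 0) (nat_lit 1090885540552) (nat_lit 76) (nat_lit 3211628251085) (nat_lit 76) (nat_lit 1381954764940) (nat_lit 10) (nat_lit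 4) (nat_lit 11) (nat_lit 5) (nat_lit 11) (nat_lit 4) (nat_lit 360) (nat_lit 338) (nat_lit 202)) (XT.nd (nat_lit 78) (nat_lit 152) (nat_lit 0) (XT.lf (nat_lit 0) (nat_lit 4135960372548) (nat_lit 76) (nat_lit 2004982462349) (nat_lit 76) (nat_lit 175308974877) (nat_lit 10) (nat_lit 4) (nat_lit 11) (nat_lit 5) (nat_lit 11) (nat_lit 4) (nat_lit 361) (nat_lit 338) (nat_lit 201)) (XT.lf (nat_lit 0) (nat_lit 598034926372) (nat_lit 76) (nat_lit 531131778277) (nat_lit 152) (nat_lit 5902391321086) (nat_lit 8) (nat_lit 5) (nat_lit 9) (nat_lit 5) (nat_lit 10) (nat_lit 4) (nat_lit 362) (nat_lit 338) (nat_lit 200)))) (XT.nd (nat_lit 78) (nat_lit 76) (nat_lit 0) (XT.lf (nat_lit 0) (nat_lit 2778952677891) (nat_lit 152) (nat_lit 3860884950872) (nat_lit 0) (nat_lit 1187932252126) (nat_lit 8) (nat_lit 5) (nat_lit 10) (nat_lit 4) (nat_lit 8) (nat_lit 4) (nat_lit 363) (nat_lit 338) (nat_lit 199)) (XT.nd (nat_lit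 78) (nat_lit 76) (nat_lit 0) (XT.lf (nat_lit 0) (nat_lit 4701498534771) (nat_lit 152) (nat_lit 927643073150) (nat_lit 0) (nat_lit 3110478108248) (nat_lit 8) (nat_lit 5) (nat_lit 10) (nat_lit 4) (nat_lit 8) (nat_lit 4) (nat_lit 364) (nat_lit 338) (nat_lit 198)) (XT.lf (nat_lit 0) (nat_lit 2684585443492) (nat_lit 76) (nat_lit 4339003783459) (nat_lit 76) (nat_lit 2747983356276) (nat_lit 7) (nat_lit 4) (nat_lit 8) (nat_lit 5) (nat_lit 8) (nat_lit 4) (nat_lit 365) (nat_lit 338) (nat_lit 197))))))) (XT.nd (nat_lit 858) (nat_lit 152) (nat_lit 0) (XT.nd (nat_lit 390) (nat_lit 152) (nat_lit 0) (XT.nd (nat_lit 156) (nat_lit 76) (nat_lit 0) (XT.nd (nat_lit 78) (nat_lit 76) (nat_lit 0) (XT.lf (nat_lit 0) (nat_lit 6942902666386) (nat_lit 76) (nat_lit 2799581288466) (nat_lit 76) (nat_lit 1208560860709) (nat_lit 7) (nat_lit 4) (nat_lit 8) (nat_lit 5) (nat_lit 8) (nat_lit 4) (nat_lit 366) (nat_lit 338)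 (nat_lit 196)) (XT.lf (nat_lit 0) (nat_lit 511761911791) (nat_lit 152) (nat_lit 490732317903) (nat_lit 76) (nat_lit 11301454367479) (nat_lit 6) (nat_lit 5) (nat_lit 8) (nat_lit 5) (nat_lit 7) (nat_lit 4) (nat_lit 367) (nat_lit 338) (nat_lit 195))) (XT.nd (nat_lit 78) (nat_lit 0) (nat_lit 0) (XT.lf (nat_lit 0) (nat_lit 2579715769479) (nat_lit 152) (nat_lit 10043222412256) (nat_lit 0) (nat_lit 1196219744532) (nat_lit 5) (nat_lit 5) (nat_lit 7) (nat_lit 4) (nat_lit 5) (nat_lit 4) (nat_lit 368) (nat_lit 338) (nat_lit 194)) (XT.nd (nat_lit 78) (nat_lit 0) (nat_lit 0) (XT.lf (nat_lit 0) (nat_lit 5032473961579) (nat_lit 152) (nat_lit 6869005068477) (nat_lit 0) (nat_lit 3648977936304) (nat_lit 5) (nat_lit 5) (nat_lit 7) (nat_lit 4) (nat_lit 5) (nat_lit 4) (nat_lit 369) (nat_lit 338) (nat_lit 193)) (XT.lf (nat_lit 0) (nat_lit 7853145881487) (nat_lit 152) (nat_lit 3218655125206) (nat_lit 0) (nat_lit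 6469649855926) (nat_lit 5) (nat_lit 5) (nat_lit 7) (nat_lit 4) (nat_lit 5) (nat_lit 4) (nat_lit 370) (nat_lit 338) (nat_lit 192))))) (XT.nd (nat_lit 234) (nat_lit 76) (nat_lit 0) (XT.nd (nat_lit 78) (nat_lit 0) (nat_lit 0) (XT.lf (nat_lit 0) (nat_lit 1074946476464) (nat_lit 76) (nat_lit 10066483353302) (nat_lit 76) (nat_lit 8682987327493) (nat_lit 4) (nat_lit 4) (nat_lit 5) (nat_lit 5) (nat_lit 5) (nat_lit 4) (nat_lit 371) (nat_lit 338) (nat_lit 191)) (XT.nd (nat_lit 78) (nat_lit 0) (nat_lit 0) (XT.lf (nat_lit 0) (nat_lit 6374321261984) (nat_lit 76) (nat_lit 8716882989014) (nat_lit 76) (nat_lit 7333386962990) (nat_lit 4) (nat_lit 4) (nat_lit 5) (nat_lit 5) (nat_lit 5) (nat_lit 4) (nat_lit 372) (nat_lit 338) (nat_lit 190)) (XT.lf (nat_lit 0) (nat_lit 12468602263835) (nat_lit 76) (nat_lit 7164842570857) (nat_lit 76) (nat_lit 5781346544645) (nat_lit 4) (nat_lit 4) (nat_lit 5) (nat_lit 5)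 (nat_lit 5) (nat_lit 4) (nat_lit 373) (nat_lit 338) (nat_lit 189)))) (XT.nd (nat_lit 78) (nat_lit 76) (nat_lit 0) (XT.lf (nat_lit 0) (nat_lit 19477025414661) (nat_lit 76) (nat_lit 5379996090647) (nat_lit 76) (nat_lit 3996500064273) (nat_lit 4) (nat_lit 4) (nat_lit 5) (nat_lit 5) (nat_lit 5) (nat_lit 4) (nat_lit 374) (nat_lit 338) (nat_lit 188)) (XT.nd (nat_lit 78) (nat_lit 76) (nat_lit 0) (XT.lf (nat_lit 0) (nat_lit 27536712036979) (nat_lit 76) (nat_lit 3327422638991) (nat_lit 76) (nat_lit 1943926612475) (nat_lit 4) (nat_lit 4) (nat_lit 5) (nat_lit 5) (nat_lit 5) (nat_lit 4) (nat_lit 375) (nat_lit 338) (nat_lit 187)) (XT.lf (nat_lit 0) (nat_lit 379450221282) (nat_lit 152) (nat_lit 567678050881) (nat_lit 76) (nat_lit 36406066532446) (nat_lit 3) (nat_lit 5) (nat_lit 5) (nat_lit 5) (nat_lit 4) (nat_lit 4) (nat_lit 376) (nat_lit 338) (nat_lit 186)))))) (XT.nd (nat_lit 1560) (nat_lit 0) (nat_lit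 0) (XT.nd (nat_lit 1326) (nat_lit 76) (nat_lit 0) (XT.nd (nat_lit 78) (nat_lit 0) (nat_lit 0) (XT.lf (nat_lit 0) (nat_lit 3156991016652) (nat_lit 152) (nat_lit 37409569373892) (nat_lit 0) (nat_lit 1953950993393) (nat_lit 2) (nat_lit 5) (nat_lit 4) (nat_lit 4) (nat_lit 2) (nat_lit 4) (nat_lit 377) (nat_lit 338) (nat_lit 185)) (XT.lf (nat_lit 0) (nat_lit 6427351408546) (nat_lit 152) (nat_lit 36799834384828) (nat_lit 0) (nat_lit 5224311385207) (nat_lit 2) (nat_lit 5) (nat_lit 4) (nat_lit 4) (nat_lit 2) (nat_lit 4) (nat_lit 378) (nat_lit 338) (nat_lit 184))) (XT.nd (nat_lit 78) (nat_lit 0) (nat_lit 0) (XT.lf (nat_lit 0) (nat_lit 2490734185057) (nat_lit 76) (nat_lit 213588400580693) (nat_lit 76) (nat_lit 212385360556871) (nat_lit 1) (nat_lit 4) (nat_lit 2) (nat_lit 5) (nat_lit 2) (nat_lit 4) (nat_lit 394) (nat_lit 338) (nat_lit 168)) (XT.nd (nat_lit 78) (nat_lit 0) (nat_lit 0) (XT.lf (nat_lit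 0) (nat_lit 9693492717870) (nat_lit 76) (nat_lit 241877104471789) (nat_lit 76) (nat_lit 240674064447960) (nat_lit 1) (nat_lit 4) (nat_lit 2) (nat_lit 5) (nat_lit 2) (nat_lit 4) (nat_lit 395) (nat_lit 338) (nat_lit 167)) (XT.lf (nat_lit 0) (nat_lit 17976665030525) (nat_lit 76) (nat_lit 274409113946593) (nat_lit 76) (nat_lit 273206073922756) (nat_lit 1) (nat_lit 4) (nat_lit 2) (nat_lit 5) (nat_lit 2) (nat_lit 4) (nat_lit 396) (nat_lit 338) (nat_lit 166))))) (XT.nd (nat_lit 42432) (nat_lit 0) (nat_lit 1900) (XT.nd (nat_lit 78) (nat_lit 0) (nat_lit 0) (XT.lf (nat_lit 0) (nat_lit 27502313190008) (nat_lit 76) (nat_lit 311820924842652) (nat_lit 76) (nat_lit 310617884818810) (nat_lit 1) (nat_lit 4) (nat_lit 2) (nat_lit 5) (nat_lit 2) (nat_lit 4) (nat_lit 397) (nat_lit 338) (nat_lit 165)) (XT.nd (nat_lit 42276) (nat_lit 0) (nat_lit 1900) (XT.lf (nat_lit 0) (nat_lit 38456808573354) (nat_lit 76)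 (nat_lit 354844507373153) (nat_lit 76) (nat_lit 353641467349306) (nat_lit 1) (nat_lit 4) (nat_lit 2) (nat_lit 5) (nat_lit 2) (nat_lit 4) (nat_lit 398) (nat_lit 338) (nat_lit 164)) (XT.lf (nat_lit 0) (nat_lit 105652810850) (nat_lit 380) (nat_lit 183697942294) (nat_lit 380) (nat_lit 183697942294) (nat_lit 26) (nat_lit 3) (nat_lit 31) (nat_lit 3) (nat_lit 31) (nat_lit 5) (nat_lit 339) (nat_lit 339) (nat_lit 222)))) (XT.nd (nat_lit 78) (nat_lit 0) (nat_lit 76) (XT.lf (nat_lit 76) (nat_lit 96371495737) (nat_lit 0) (nat_lit 134772652724) (nat_lit 380) (nat_lit 785311955818) (nat_lit 27) (nat_lit 5) (nat_lit 26) (nat_lit 3) (nat_lit 31) (nat_lit 5) (nat_lit 340) (nat_lit 339) (nat_lit 221)) (XT.nd (nat_lit 78) (nat_lit 0) (nat_lit 0) (XT.lf (nat_lit 0) (nat_lit 289636561701) (nat_lit 304) (nat_lit 439966980601) (nat_lit 380) (nat_lit 362413366294) (nat_lit 27) (nat_lit 5) (nat_lit 31) (nat_lit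 5) (nat_lit 32) (nat_lit 5) (nat_lit 341) (nat_lit 339) (nat_lit 220)) (XT.lf (nat_lit 76) (nat_lit 116085249462) (nat_lit 0) (nat_lit 252042164982) (nat_lit 380) (nat_lit 809100732512) (nat_lit 28) (nat_lit 5) (nat_lit 27) (nat_lit 5) (nat_lit 32) (nat_lit 5) (nat_lit 342) (nat_lit 339) (nat_lit 219))))))))
noncomputable def xc109 : XT := (XT.nd (nat_lit 1716) (nat_lit 532) (nat_lit 0) (XT.nd (nat_lit 858) (nat_lit 532) (nat_lit 0) (XT.nd (nat_lit 390) (nat_lit 532) (nat_lit 0) (XT.nd (nat_lit 156) (nat_lit 152) (nat_lit 0) (XT.nd (nat_lit 78) (nat_lit 304) (nat_lit 0) (XT.lf (nat_lit 0) (nat_lit 494789805008) (nat_lit 304) (nat_lit 480179381634) (nat_lit 76) (nat_lit 294792197962) (nat_lit 28) (nat_lit 5) (nat_lit 32) (nat_lit 5) (nat_lit 29) (nat_lit 5) (nat_lit 343) (nat_lit 339) (nat_lit 218)) (XT.lf (nat_lit 0) (nat_lit 193119476784) (nat_lit 304) (nat_lit 467330742776) (nat_lit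 380) (nat_lit 712724588545) (nat_lit 24) (nat_lit 5) (nat_lit 28) (nat_lit 5) (nat_lit 29) (nat_lit 5) (nat_lit 344) (nat_lit 339) (nat_lit 217))) (XT.nd (nat_lit 78) (nat_lit 152) (nat_lit 0) (XT.lf (nat_lit 0) (nat_lit 882077316184) (nat_lit 380) (nat_lit 472973774124) (nat_lit 76) (nat_lit 132381511853) (nat_lit 24) (nat_lit 5) (nat_lit 29) (nat_lit 5) (nat_lit 25) (nat_lit 5) (nat_lit 345) (nat_lit 339) (nat_lit 216)) (XT.nd (nat_lit 78) (nat_lit 0) (nat_lit 0) (XT.lf (nat_lit 0) (nat_lit 348985243620) (nat_lit 152) (nat_lit 824667806835) (nat_lit 228) (nat_lit 439670328913) (nat_lit 22) (nat_lit 5) (nat_lit 24) (nat_lit 5) (nat_lit 25) (nat_lit 5) (nat_lit 346) (nat_lit 339) (nat_lit 215)) (XT.lf (nat_lit 0) (nat_lit 1347393909155) (nat_lit 152) (nat_lit 186294858883) (nat_lit 228) (nat_lit 220700461652) (nat_lit 22) (nat_lit 5) (nat_lit 24) (nat_lit 5) (nat_lit 25) (nat_lit 5) (nat_lit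 347) (nat_lit 339) (nat_lit 214))))) (XT.nd (nat_lit 234) (nat_lit 228) (nat_lit 0) (XT.nd (nat_lit 78) (nat_lit 152) (nat_lit 0) (XT.lf (nat_lit 0) (nat_lit 78598452619) (nat_lit 152) (nat_lit 1302365747624) (nat_lit 76) (nat_lit 527919452783) (nat_lit 20) (nat_lit 5) (nat_lit 22) (nat_lit 5) (nat_lit 21) (nat_lit 5) (nat_lit 348) (nat_lit 339) (nat_lit 213)) (XT.nd (nat_lit 78) (nat_lit 152) (nat_lit 0) (XT.lf (nat_lit 0) (nat_lit 431355698262) (nat_lit 152) (nat_lit 285956007745) (nat_lit 76) (nat_lit 1362990249344) (nat_lit 20) (nat_lit 5) (nat_lit 22) (nat_lit 5) (nat_lit 21) (nat_lit 5) (nat_lit 349) (nat_lit 339) (nat_lit 212)) (XT.lf (nat_lit 0) (nat_lit 880970258243) (nat_lit 228) (nat_lit 1306024270867) (nat_lit 76) (nat_lit 83846914796) (nat_lit 18) (nat_lit 5) (nat_lit 21) (nat_lit 5) (nat_lit 19) (nat_lit 4) (nat_lit 350) (nat_lit 339) (nat_lit 211)))) (XT.nd (nat_lit 78)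 (nat_lit 228) (nat_lit 0) (XT.lf (nat_lit 0) (nat_lit 1447844194010) (nat_lit 228) (nat_lit 87245316067) (nat_lit 76) (nat_lit 947399766903) (nat_lit 18) (nat_lit 5) (nat_lit 21) (nat_lit 5) (nat_lit 19) (nat_lit 4) (nat_lit 351) (nat_lit 339) (nat_lit 210)) (XT.nd (nat_lit 78) (nat_lit 152) (nat_lit 0) (XT.lf (nat_lit 0) (nat_lit 1442798363609) (nat_lit 76) (nat_lit 716694056377) (nat_lit 152) (nat_lit 557430385058) (nat_lit 17) (nat_lit 5) (nat_lit 18) (nat_lit 5) (nat_lit 19) (nat_lit 4) (nat_lit 352) (nat_lit 339) (nat_lit 209)) (XT.lf (nat_lit 0) (nat_lit 17201430421) (nat_lit 152) (nat_lit 2745721572187) (nat_lit 76) (nat_lit 219892038744) (nat_lit 15) (nat_lit 5) (nat_lit 17) (nat_lit 5) (nat_lit 16) (nat_lit 4) (nat_lit 353) (nat_lit 339) (nat_lit 208)))))) (XT.nd (nat_lit 390) (nat_lit 304) (nat_lit 0) (XT.nd (nat_lit 156) (nat_lit 152) (nat_lit 0) (XT.nd (nat_lit 78) (nat_lit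 76) (nat_lit 0) (XT.lf (nat_lit 0) (nat_lit 724859530826) (nat_lit 152) (nat_lit 1224256660374) (nat_lit 76) (nat_lit 1319908011353) (nat_lit 15) (nat_lit 5) (nat_lit 17) (nat_lit 5) (nat_lit 16) (nat_lit 4) (nat_lit 354) (nat_lit 339) (nat_lit 207)) (XT.lf (nat_lit 0) (nat_lit 576776626775) (nat_lit 76) (nat_lit 985772806692) (nat_lit 152) (nat_lit 2032032841394) (nat_lit 14) (nat_lit 5) (nat_lit 15) (nat_lit 5) (nat_lit 16) (nat_lit 4) (nat_lit 355) (nat_lit 339) (nat_lit 206))) (XT.nd (nat_lit 78) (nat_lit 152) (nat_lit 0) (XT.lf (nat_lit 0) (nat_lit 2597990190015) (nat_lit 152) (nat_lit 1181922253800) (nat_lit 0) (nat_lit 178247008927) (nat_lit 14) (nat_lit 5) (nat_lit 16) (nat_lit 4) (nat_lit 14) (nat_lit 4) (nat_lit 356) (nat_lit 339) (nat_lit 205)) (XT.nd (nat_lit 78) (nat_lit 76) (nat_lit 0) (XT.lf (nat_lit 0) (nat_lit 968636831782) (nat_lit 76) (nat_lit 2907160973569) (nat_lit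 76) (nat_lit 487417790160) (nat_lit 13) (nat_lit 4) (nat_lit 14) (nat_lit 5) (nat_lit 14) (nat_lit 4) (nat_lit 357) (nat_lit 339) (nat_lit 204)) (XT.lf (nat_lit 0) (nat_lit 535010889998) (nat_lit 152) (nat_lit 1269469771929) (nat_lit 76) (nat_lit 3011634351656) (nat_lit 12) (nat_lit 5) (nat_lit 14) (nat_lit 5) (nat_lit 13) (nat_lit 4) (nat_lit 358) (nat_lit 339) (nat_lit 203))))) (XT.nd (nat_lit 234) (nat_lit 152) (nat_lit 0) (XT.nd (nat_lit 78) (nat_lit 76) (nat_lit 0) (XT.lf (nat_lit 0) (nat_lit 1263698360284) (nat_lit 76) (nat_lit 449530266444) (nat_lit 152) (nat_lit 3612390104179) (nat_lit 11) (nat_lit 5) (nat_lit 12) (nat_lit 5) (nat_lit 13) (nat_lit 4) (nat_lit 359) (nat_lit 339) (nat_lit 202)) (XT.nd (nat_lit 78) (nat_lit 76) (nat_lit 0) (XT.lf (nat_lit 0) (nat_lit 3183604962309) (nat_lit 152) (nat_lit 1631148702379) (nat_lit 0) (nat_lit 1079480450389) (nat_lit 11) (nat_lit 5)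 (nat_lit 13) (nat_lit 4) (nat_lit 11) (nat_lit 4) (nat_lit 360) (nat_lit 339) (nat_lit 201)) (XT.lf (nat_lit 0) (nat_lit 1254518413703) (nat_lit 76) (nat_lit 3693372468105) (nat_lit 76) (nat_lit 1589247955031) (nat_lit 10) (nat_lit 4) (nat_lit 11) (nat_lit 5) (nat_lit 11) (nat_lit 4) (nat_lit 361) (nat_lit 339) (nat_lit 200)))) (XT.nd (nat_lit 78) (nat_lit 152) (nat_lit 0) (XT.lf (nat_lit 0) (nat_lit 4756354465012) (nat_lit 76) (nat_lit 2305729813751) (nat_lit 76) (nat_lit 201605299674) (nat_lit 10) (nat_lit 4) (nat_lit 11) (nat_lit 5) (nat_lit 11) (nat_lit 4) (nat_lit 362) (nat_lit 339) (nat_lit 199)) (XT.nd (nat_lit 78) (nat_lit 0) (nat_lit 0) (XT.lf (nat_lit 0) (nat_lit 687740202076) (nat_lit 76) (nat_lit 610801526772) (nat_lit 152) (nat_lit 6787749997965) (nat_lit 8) (nat_lit 5) (nat_lit 9) (nat_lit 5) (nat_lit 10) (nat_lit 4) (nat_lit 363) (nat_lit 339) (nat_lit 198)) (XT.lf (nat_lit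 0) (nat_lit 3195795596320) (nat_lit 152) (nat_lit 4440017659786) (nat_lit 0) (nat_lit 1366122104399) (nat_lit 8) (nat_lit 5) (nat_lit 10) (nat_lit 4) (nat_lit 8) (nat_lit 4) (nat_lit 364) (nat_lit 339) (nat_lit 197))))))) (XT.nd (nat_lit 858) (nat_lit 228) (nat_lit 0) (XT.nd (nat_lit 390) (nat_lit 76) (nat_lit 0) (XT.nd (nat_lit 156) (nat_lit 152) (nat_lit 0) (XT.nd (nat_lit 78) (nat_lit 76) (nat_lit 0) (XT.lf (nat_lit 0) (nat_lit 5406723329548) (nat_lit 152) (nat_lit 1066789504804) (nat_lit 0) (nat_lit 3577049837054) (nat_lit 8) (nat_lit 5) (nat_lit 10) (nat_lit 4) (nat_lit 8) (nat_lit 4) (nat_lit 365) (nat_lit 339) (nat_lit 196)) (XT.lf (nat_lit 0) (nat_lit 3087273288002) (nat_lit 76) (nat_lit 4989854336812) (nat_lit 76) (nat_lit 3160180843820) (nat_lit 7) (nat_lit 4) (nat_lit 8) (nat_lit 5) (nat_lit 8) (nat_lit 4) (nat_lit 366) (nat_lit 339) (nat_lit 195))) (XT.nd (nat_lit 78) (nat_lit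 152) (nat_lit 0) (XT.lf (nat_lit 0) (nat_lit 7984338090680) (nat_lit 76) (nat_lit 3219518469417) (nat_lit 76) (nat_lit 1389844975991) (nat_lit 7) (nat_lit 4) (nat_lit 8) (nat_lit 5) (nat_lit 8) (nat_lit 4) (nat_lit 367) (nat_lit 339) (nat_lit 194)) (XT.nd (nat_lit 78) (nat_lit 76) (nat_lit 0) (XT.lf (nat_lit 0) (nat_lit 588526209511) (nat_lit 152) (nat_lit 564342143353) (nat_lit 76) (nat_lit 12996672532240) (nat_lit 6) (nat_lit 5) (nat_lit 8) (nat_lit 5) (nat_lit 7) (nat_lit 4) (nat_lit 368) (nat_lit 339) (nat_lit 193)) (XT.lf (nat_lit 0) (nat_lit 2966673145750) (nat_lit 152) (nat_lit 11549705751756) (nat_lit 0) (nat_lit 1375652716071) (nat_lit 5) (nat_lit 5) (nat_lit 7) (nat_lit 4) (nat_lit 5) (nat_lit 4) (nat_lit 369) (nat_lit 339) (nat_lit 192))))) (XT.nd (nat_lit 234) (nat_lit 0) (nat_lit 0) (XT.nd (nat_lit 78) (nat_lit 76) (nat_lit 0) (XT.lf (nat_lit 0) (nat_lit 5787345065251) (nat_lit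 152) (nat_lit 7899355809323) (nat_lit 0) (nat_lit 4196324635323) (nat_lit 5) (nat_lit 5) (nat_lit 7) (nat_lit 4) (nat_lit 5) (nat_lit 4) (nat_lit 370) (nat_lit 339) (nat_lit 191)) (XT.nd (nat_lit 78) (nat_lit 76) (nat_lit 0) (XT.lf (nat_lit 0) (nat_lit 9031117771914) (nat_lit 152) (nat_lit 3701453377095) (nat_lit 0) (nat_lit 7440097341771) (nat_lit 5) (nat_lit 5) (nat_lit 7) (nat_lit 4) (nat_lit 5) (nat_lit 4) (nat_lit 371) (nat_lit 339) (nat_lit 190)) (XT.lf (nat_lit 0) (nat_lit 1236188464057) (nat_lit 76) (nat_lit 11576455847975) (nat_lit 76) (nat_lit 9985435417644) (nat_lit 4) (nat_lit 4) (nat_lit 5) (nat_lit 5) (nat_lit 5) (nat_lit 4) (nat_lit 372) (nat_lit 339) (nat_lit 189)))) (XT.nd (nat_lit 78) (nat_lit 0) (nat_lit 0) (XT.lf (nat_lit 0) (nat_lit 7330469465302) (nat_lit 76) (nat_lit 10024415430130) (nat_lit 76) (nat_lit 8433394999636) (nat_lit 4) (nat_lit 4) (nat_lit 5) (nat_lit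 5) (nat_lit 5) (nat_lit 4) (nat_lit 373) (nat_lit 339) (nat_lit 188)) (XT.nd (nat_lit 78) (nat_lit 0) (nat_lit 0) (XT.lf (nat_lit 0) (nat_lit 14338892615602) (nat_lit 76) (nat_lit 8239568950192) (nat_lit 76) (nat_lit 6648548519557) (nat_lit 4) (nat_lit 4) (nat_lit 5) (nat_lit 5) (nat_lit 5) (nat_lit 4) (nat_lit 374) (nat_lit 339) (nat_lit 187)) (XT.lf (nat_lit 0) (nat_lit 22398579237462) (nat_lit 76) (nat_lit 6186995498773) (nat_lit 76) (nat_lit 4595975068013) (nat_lit 4) (nat_lit 4) (nat_lit 5) (nat_lit 5) (nat_lit 5) (nat_lit 4) (nat_lit 375) (nat_lit 339) (nat_lit 186)))))) (XT.nd (nat_lit 1482) (nat_lit 76) (nat_lit 0) (XT.nd (nat_lit 156) (nat_lit 76) (nat_lit 0) (XT.nd (nat_lit 78) (nat_lit 76) (nat_lit 0) (XT.lf (nat_lit 0) (nat_lit 31667218851745) (nat_lit 76) (nat_lit 3826536030082) (nat_lit 76) (nat_lit 2235515599215) (nat_lit 4) (nat_lit 4) (nat_lit 5) (nat_lit 5) (nat_lit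 5) (nat_lit 4) (nat_lit 376) (nat_lit 339) (nat_lit 185)) (XT.lf (nat_lit 0) (nat_lit 436367758539) (nat_lit 152) (nat_lit 652829750099) (nat_lit 76) (nat_lit 41866976516053) (nat_lit 3) (nat_lit 5) (nat_lit 5) (nat_lit 5) (nat_lit 4) (nat_lit 4) (nat_lit 377) (nat_lit 339) (nat_lit 184))) (XT.nd (nat_lit 1170) (nat_lit 0) (nat_lit 0) (XT.lf (nat_lit 0) (nat_lit 3630539673189) (nat_lit 152) (nat_lit 43021004771536) (nat_lit 0) (nat_lit 2247043646197) (nat_lit 2) (nat_lit 5) (nat_lit 4) (nat_lit 4) (nat_lit 2) (nat_lit 4) (nat_lit 378) (nat_lit 339) (nat_lit 183)) (XT.nd (nat_lit 78) (nat_lit 0) (nat_lit 0) (XT.lf (nat_lit 0) (nat_lit 182576394383468) (nat_lit 152) (nat_lit 9657847419786) (nat_lit 0) (nat_lit 181192898356064) (nat_lit 2) (nat_lit 5) (nat_lit 4) (nat_lit 4) (nat_lit 2) (nat_lit 4) (nat_lit 393) (nat_lit 339) (nat_lit 168)) (XT.lf (nat_lit 0) (nat_lit 213179187038254) (nat_lit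 152) (nat_lit 3952178584686) (nat_lit 0) (nat_lit 211795691010842) (nat_lit 2) (nat_lit 5) (nat_lit 4) (nat_lit 4) (nat_lit 2) (nat_lit 4) (nat_lit 394) (nat_lit 339) (nat_lit 167))))) (XT.nd (nat_lit 42588) (nat_lit 0) (nat_lit 1900) (XT.nd (nat_lit 78) (nat_lit 0) (nat_lit 0) (XT.lf (nat_lit 0) (nat_lit 2864344313676) (nat_lit 76) (nat_lit 245626660667347) (nat_lit 76) (nat_lit 244243164639929) (nat_lit 1) (nat_lit 4) (nat_lit 2) (nat_lit 5) (nat_lit 2) (nat_lit 4) (nat_lit 395) (nat_lit 339) (nat_lit 166)) (XT.nd (nat_lit 78) (nat_lit 0) (nat_lit 0) (XT.lf (nat_lit 0) (nat_lit 11147516626299) (nat_lit 76) (nat_lit 278158670142167) (nat_lit 76) (nat_lit 276775174114743) (nat_lit 1) (nat_lit 4) (nat_lit 2) (nat_lit 5) (nat_lit 2) (nat_lit 4) (nat_lit 396) (nat_lit 339) (nat_lit 165)) (XT.lf (nat_lit 0) (nat_lit 20673164785754) (nat_lit 76) (nat_lit 315570481038241) (nat_lit 76) (nat_lit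 314186985010813) (nat_lit 1) (nat_lit 4) (nat_lit 2) (nat_lit 5) (nat_lit 2) (nat_lit 4) (nat_lit 397) (nat_lit 339) (nat_lit 164)))) (XT.nd (nat_lit 78) (nat_lit 0) (nat_lit 0) (XT.lf (nat_lit 0) (nat_lit 121500796711) (nat_lit 380) (nat_lit 211252596635) (nat_lit 380) (nat_lit 211252596635) (nat_lit 26) (nat_lit 3) (nat_lit 31) (nat_lit 3) (nat_lit 31) (nat_lit 5) (nat_lit 340) (nat_lit 340) (nat_lit 220)) (XT.nd (nat_lit 78) (nat_lit 0) (nat_lit 76) (XT.lf (nat_lit 76) (nat_lit 110827290740) (nat_lit 0) (nat_lit 154988594625) (nat_lit 380) (nat_lit 903108617120) (nat_lit 27) (nat_lit 5) (nat_lit 26) (nat_lit 3) (nat_lit 31) (nat_lit 5) (nat_lit 341) (nat_lit 340) (nat_lit 219)) (XT.lf (nat_lit 0) (nat_lit 333082144055) (nat_lit 304) (nat_lit 505961949518) (nat_lit 380) (nat_lit 416775336390) (nat_lit 27) (nat_lit 5) (nat_lit 31) (nat_lit 5) (nat_lit 32) (nat_lit 5) (nat_lit 342) (nat_lit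 340) (nat_lit 218))))))))
noncomputable def xc110 : XT := (XT.nd (nat_lit 1638) (nat_lit 684) (nat_lit 0) (XT.nd (nat_lit 780) (nat_lit 608) (nat_lit 0) (XT.nd (nat_lit 390) (nat_lit 304) (nat_lit 0) (XT.nd (nat_lit 156) (nat_lit 380) (nat_lit 0) (XT.nd (nat_lit 78) (nat_lit 0) (nat_lit 76) (XT.lf (nat_lit 76) (nat_lit 133498111502) (nat_lit 0) (nat_lit 289848503502) (nat_lit 380) (nat_lit 930465740556) (nat_lit 28) (nat_lit 5) (nat_lit 27) (nat_lit 5) (nat_lit 32) (nat_lit 5) (nat_lit 343) (nat_lit 340) (nat_lit 217)) (XT.lf (nat_lit 0) (nat_lit 569008352127) (nat_lit 304) (nat_lit 552206211808) (nat_lit 76) (nat_lit 339011016747) (nat_lit 28) (nat_lit 5) (nat_lit 32) (nat_lit 5) (nat_lit 29) (nat_lit 5) (nat_lit 344) (nat_lit 340) (nat_lit 216))) (XT.nd (nat_lit 78) (nat_lit 152) (nat_lit 0) (XT.lf (nat_lit 0) (nat_lit 222087471869) (nat_lit 304) (nat_lit 537430350078) (nat_lit 380)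 (nat_lit 819633196818) (nat_lit 24) (nat_lit 5) (nat_lit 28) (nat_lit 5) (nat_lit 29) (nat_lit 5) (nat_lit 345) (nat_lit 340) (nat_lit 215)) (XT.nd (nat_lit 78) (nat_lit 152) (nat_lit 0) (XT.lf (nat_lit 0) (nat_lit 1014388974154) (nat_lit 380) (nat_lit 543919767240) (nat_lit 76) (nat_lit 152238741891) (nat_lit 24) (nat_lit 5) (nat_lit 29) (nat_lit 5) (nat_lit 25) (nat_lit 5) (nat_lit 346) (nat_lit 340) (nat_lit 214)) (XT.lf (nat_lit 0) (nat_lit 401333099848) (nat_lit 152) (nat_lit 948367963706) (nat_lit 228) (nat_lit 505620814285) (nat_lit 22) (nat_lit 5) (nat_lit 24) (nat_lit 5) (nat_lit 25) (nat_lit 5) (nat_lit 347) (nat_lit 340) (nat_lit 213))))) (XT.nd (nat_lit 156) (nat_lit 152) (nat_lit 0) (XT.nd (nat_lit 78) (nat_lit 152) (nat_lit 0) (XT.lf (nat_lit 0) (nat_lit 1549503056123) (nat_lit 152) (nat_lit 214239075408) (nat_lit 228) (nat_lit 253805475278) (nat_lit 22) (nat_lit 5) (nat_lit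 24) (nat_lit 5) (nat_lit 25) (nat_lit 5) (nat_lit 348) (nat_lit 340) (nat_lit 212)) (XT.lf (nat_lit 0) (nat_lit 90388267828) (nat_lit 152) (nat_lit 1497720540721) (nat_lit 76) (nat_lit 607107385266) (nat_lit 20) (nat_lit 5) (nat_lit 22) (nat_lit 5) (nat_lit 21) (nat_lit 5) (nat_lit 349) (nat_lit 340) (nat_lit 211))) (XT.nd (nat_lit 78) (nat_lit 152) (nat_lit 0) (XT.lf (nat_lit 0) (nat_lit 496059094146) (nat_lit 152) (nat_lit 328849348866) (nat_lit 76) (nat_lit 1567438799411) (nat_lit 20) (nat_lit 5) (nat_lit 22) (nat_lit 5) (nat_lit 21) (nat_lit 5) (nat_lit 350) (nat_lit 340) (nat_lit 210)) (XT.nd (nat_lit 78) (nat_lit 0) (nat_lit 0) (XT.lf (nat_lit 0) (nat_lit 1013115835924) (nat_lit 228) (nat_lit 1501927849204) (nat_lit 76) (nat_lit 96423969470) (nat_lit 18) (nat_lit 5) (nat_lit 21) (nat_lit 5) (nat_lit 19) (nat_lit 4) (nat_lit 351) (nat_lit 340) (nat_lit 209)) (XT.lf (nat_lit 0) (nat_lit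 1665020856976) (nat_lit 228) (nat_lit 100332059310) (nat_lit 76) (nat_lit 1089509747117) (nat_lit 18) (nat_lit 5) (nat_lit 21) (nat_lit 5) (nat_lit 19) (nat_lit 4) (nat_lit 352) (nat_lit 340) (nat_lit 208)))))) (XT.nd (nat_lit 390) (nat_lit 304) (nat_lit 0) (XT.nd (nat_lit 156) (nat_lit 76) (nat_lit 0) (XT.nd (nat_lit 78) (nat_lit 152) (nat_lit 0) (XT.lf (nat_lit 0) (nat_lit 1659218169856) (nat_lit 76) (nat_lit 824198144717) (nat_lit 152) (nat_lit 641044906451) (nat_lit 17) (nat_lit 5) (nat_lit 18) (nat_lit 5) (nat_lit 19) (nat_lit 4) (nat_lit 353) (nat_lit 340) (nat_lit 207)) (XT.lf (nat_lit 0) (nat_lit 19781676854) (nat_lit 152) (nat_lit 3157579751751) (nat_lit 76) (nat_lit 252875864140) (nat_lit 15) (nat_lit 5) (nat_lit 17) (nat_lit 5) (nat_lit 16) (nat_lit 4) (nat_lit 354) (nat_lit 340) (nat_lit 206))) (XT.nd (nat_lit 78) (nat_lit 76) (nat_lit 0) (XT.lf (nat_lit 0) (nat_lit 833588488163)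 (nat_lit 152) (nat_lit 1407895110505) (nat_lit 76) (nat_lit 1517894230085) (nat_lit 15) (nat_lit 5) (nat_lit 17) (nat_lit 5) (nat_lit 16) (nat_lit 4) (nat_lit 355) (nat_lit 340) (nat_lit 205)) (XT.nd (nat_lit 78) (nat_lit 0) (nat_lit 0) (XT.lf (nat_lit 0) (nat_lit 663293167493) (nat_lit 76) (nat_lit 1133638707027) (nat_lit 152) (nat_lit 2336837737644) (nat_lit 14) (nat_lit 5) (nat_lit 15) (nat_lit 5) (nat_lit 16) (nat_lit 4) (nat_lit 356) (nat_lit 340) (nat_lit 204)) (XT.lf (nat_lit 0) (nat_lit 2987688741898) (nat_lit 152) (nat_lit 1359210548590) (nat_lit 0) (nat_lit 204984076639) (nat_lit 14) (nat_lit 5) (nat_lit 16) (nat_lit 4) (nat_lit 14) (nat_lit 4) (nat_lit 357) (nat_lit 340) (nat_lit 203))))) (XT.nd (nat_lit 234) (nat_lit 76) (nat_lit 0) (XT.nd (nat_lit 78) (nat_lit 152) (nat_lit 0) (XT.lf (nat_lit 0) (nat_lit 1113932397862) (nat_lit 76) (nat_lit 3343235100333) (nat_lit 76) (nat_lit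 560530433319) (nat_lit 13) (nat_lit 4) (nat_lit 14) (nat_lit 5) (nat_lit 14) (nat_lit 4) (nat_lit 358) (nat_lit 340) (nat_lit 202)) (XT.nd (nat_lit 78) (nat_lit 76) (nat_lit 0) (XT.lf (nat_lit 0) (nat_lit 615262543591) (nat_lit 152) (nat_lit 1459890199817) (nat_lit 76) (nat_lit 3463379519185) (nat_lit 12) (nat_lit 5) (nat_lit 14) (nat_lit 5) (nat_lit 13) (nat_lit 4) (nat_lit 359) (nat_lit 340) (nat_lit 201)) (XT.lf (nat_lit 0) (nat_lit 1453253150505) (nat_lit 76) (nat_lit 516959789202) (nat_lit 152) (nat_lit 4154248597979) (nat_lit 11) (nat_lit 5) (nat_lit 12) (nat_lit 5) (nat_lit 13) (nat_lit 4) (nat_lit 360) (nat_lit 340) (nat_lit 200)))) (XT.nd (nat_lit 78) (nat_lit 76) (nat_lit 0) (XT.lf (nat_lit 0) (nat_lit 3661145723771) (nat_lit 152) (nat_lit 1875820974412) (nat_lit 0) (nat_lit 1241402531579) (nat_lit 11) (nat_lit 5) (nat_lit 13) (nat_lit 4) (nat_lit 11) (nat_lit 4) (nat_lit 361)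 (nat_lit 340) (nat_lit 199)) (XT.nd (nat_lit 78) (nat_lit 0) (nat_lit 0) (XT.lf (nat_lit 0) (nat_lit 1442696207568) (nat_lit 76) (nat_lit 4247378322712) (nat_lit 76) (nat_lit 1827635129647) (nat_lit 10) (nat_lit 4) (nat_lit 11) (nat_lit 5) (nat_lit 11) (nat_lit 4) (nat_lit 362) (nat_lit 340) (nat_lit 198)) (XT.lf (nat_lit 0) (nat_lit 5469807662424) (nat_lit 76) (nat_lit 2651589272240) (nat_lit 76) (nat_lit 231846078417) (nat_lit 10) (nat_lit 4) (nat_lit 11) (nat_lit 5) (nat_lit 11) (nat_lit 4) (nat_lit 363) (nat_lit 340) (nat_lit 197))))))) (XT.nd (nat_lit 858) (nat_lit 228) (nat_lit 0) (XT.nd (nat_lit 390) (nat_lit 228) (nat_lit 0) (XT.nd (nat_lit 156) (nat_lit 76) (nat_lit 0) (XT.nd (nat_lit 78) (nat_lit 0) (nat_lit 0) (XT.lf (nat_lit 0) (nat_lit 790901260174) (nat_lit 76) (nat_lit 702421741991) (nat_lit 152) (nat_lit 7805912481567) (nat_lit 8) (nat_lit 5) (nat_lit 9) (nat_lit 5) (nat_lit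 10) (nat_lit 4) (nat_lit 364) (nat_lit 340) (nat_lit 196)) (XT.lf (nat_lit 0) (nat_lit 3675164948429) (nat_lit 152) (nat_lit 5106020283260) (nat_lit 0) (nat_lit 1571040430989) (nat_lit 8) (nat_lit 5) (nat_lit 10) (nat_lit 4) (nat_lit 8) (nat_lit 4) (nat_lit 365) (nat_lit 340) (nat_lit 195))) (XT.nd (nat_lit 78) (nat_lit 76) (nat_lit 0) (XT.lf (nat_lit 0) (nat_lit 6217731839990) (nat_lit 152) (nat_lit 1226807908355) (nat_lit 0) (nat_lit 4113607322116) (nat_lit 8) (nat_lit 5) (nat_lit 10) (nat_lit 4) (nat_lit 8) (nat_lit 4) (nat_lit 366) (nat_lit 340) (nat_lit 194)) (XT.nd (nat_lit 78) (nat_lit 0) (nat_lit 0) (XT.lf (nat_lit 0) (nat_lit 3550364302364) (nat_lit 76) (nat_lit 5738332476623) (nat_lit 76) (nat_lit 3634207958371) (nat_lit 7) (nat_lit 4) (nat_lit 8) (nat_lit 5) (nat_lit 8) (nat_lit 4) (nat_lit 367) (nat_lit 340) (nat_lit 193)) (XT.lf (nat_lit 0) (nat_lit 9181988822683) (nat_lit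 76) (nat_lit 3702446230516) (nat_lit 76) (nat_lit 1598321711936) (nat_lit 7) (nat_lit 4) (nat_lit 8) (nat_lit 5) (nat_lit 8) (nat_lit 4) (nat_lit 368) (nat_lit 340) (nat_lit 192))))) (XT.nd (nat_lit 234) (nat_lit 76) (nat_lit 0) (XT.nd (nat_lit 78) (nat_lit 76) (nat_lit 0) (XT.lf (nat_lit 0) (nat_lit 676805149218) (nat_lit 152) (nat_lit 648993448044) (nat_lit 76) (nat_lit 14946173419363) (nat_lit 6) (nat_lit 5) (nat_lit 8) (nat_lit 5) (nat_lit 7) (nat_lit 4) (nat_lit 369) (nat_lit 340) (nat_lit 191)) (XT.nd (nat_lit 78) (nat_lit 0) (nat_lit 0) (XT.lf (nat_lit 0) (nat_lit 3411674125817) (nat_lit 152) (nat_lit 13282161597627) (nat_lit 0) (nat_lit 1582000630936) (nat_lit 5) (nat_lit 5) (nat_lit 7) (nat_lit 4) (nat_lit 5) (nat_lit 4) (nat_lit 370) (nat_lit 340) (nat_lit 190)) (XT.lf (nat_lit 0) (nat_lit 6655446832172) (nat_lit 152) (nat_lit 9084259166033) (nat_lit 0) (nat_lit 4825773337104)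 (nat_lit 5) (nat_lit 5) (nat_lit 7) (nat_lit 4) (nat_lit 5) (nat_lit 4) (nat_lit 371) (nat_lit 340) (nat_lit 189)))) (XT.nd (nat_lit 78) (nat_lit 76) (nat_lit 0) (XT.lf (nat_lit 0) (nat_lit 10385785443905) (nat_lit 152) (nat_lit 4256671370886) (nat_lit 0) (nat_lit 8556111948673) (nat_lit 5) (nat_lit 5) (nat_lit 7) (nat_lit 4) (nat_lit 5) (nat_lit 4) (nat_lit 372) (nat_lit 340) (nat_lit 188)) (XT.nd (nat_lit 78) (nat_lit 0) (nat_lit 0) (XT.lf (nat_lit 0) (nat_lit 1421616745858) (nat_lit 76) (nat_lit 13312924218878) (nat_lit 76) (nat_lit 11483250723505) (nat_lit 4) (nat_lit 4) (nat_lit 5) (nat_lit 5) (nat_lit 5) (nat_lit 4) (nat_lit 373) (nat_lit 340) (nat_lit 187)) (XT.lf (nat_lit 0) (nat_lit 8430039895700) (nat_lit 76) (nat_lit 11528077739177) (nat_lit 76) (nat_lit 9698404243681) (nat_lit 4) (nat_lit 4) (nat_lit 5) (nat_lit 5) (nat_lit 5) (nat_lit 4) (nat_lit 374) (nat_lit 340) (nat_lit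 186)))))) (XT.nd (nat_lit 1326) (nat_lit 76) (nat_lit 0) (XT.nd (nat_lit 156) (nat_lit 152) (nat_lit 0) (XT.nd (nat_lit 78) (nat_lit 0) (nat_lit 0) (XT.lf (nat_lit 0) (nat_lit 16489726517161) (nat_lit 76) (nat_lit 9475504287963) (nat_lit 76) (nat_lit 7645830792359) (nat_lit 4) (nat_lit 4) (nat_lit 5) (nat_lit 5) (nat_lit 5) (nat_lit 4) (nat_lit 375) (nat_lit 340) (nat_lit 185)) (XT.lf (nat_lit 0) (nat_lit 25758366131098) (nat_lit 76) (nat_lit 7115044819451) (nat_lit 76) (nat_lit 5285371323754) (nat_lit 4) (nat_lit 4) (nat_lit 5) (nat_lit 5) (nat_lit 5) (nat_lit 4) (nat_lit 376) (nat_lit 340) (nat_lit 184))) (XT.nd (nat_lit 78) (nat_lit 152) (nat_lit 0) (XT.lf (nat_lit 0) (nat_lit 36417301686477) (nat_lit 76) (nat_lit 4400516430996) (nat_lit 76) (nat_lit 2570842935218) (nat_lit 4) (nat_lit 4) (nat_lit 5) (nat_lit 5) (nat_lit 5) (nat_lit 4) (nat_lit 377) (nat_lit 340) (nat_lit 183)) (XT.nd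 (nat_lit 78) (nat_lit 76) (nat_lit 0) (XT.lf (nat_lit 0) (nat_lit 501822925393) (nat_lit 152) (nat_lit 750754206251) (nat_lit 76) (nat_lit 48147022996289) (nat_lit 3) (nat_lit 5) (nat_lit 5) (nat_lit 5) (nat_lit 4) (nat_lit 4) (nat_lit 378) (nat_lit 340) (nat_lit 182)) (XT.lf (nat_lit 0) (nat_lit 4175120627221) (nat_lit 152) (nat_lit 49474155480885) (nat_lit 0) (nat_lit 2584100195995) (nat_lit 2) (nat_lit 5) (nat_lit 4) (nat_lit 4) (nat_lit 2) (nat_lit 4) (nat_lit 379) (nat_lit 340) (nat_lit 181))))) (XT.nd (nat_lit 234) (nat_lit 76) (nat_lit 0) (XT.nd (nat_lit 78) (nat_lit 0) (nat_lit 0) (XT.lf (nat_lit 0) (nat_lit 152748936838937) (nat_lit 152) (nat_lit 21773644528026) (nat_lit 0) (nat_lit 151157916407413) (nat_lit 2) (nat_lit 5) (nat_lit 4) (nat_lit 4) (nat_lit 2) (nat_lit 4) (nat_lit 392) (nat_lit 340) (nat_lit 168)) (XT.nd (nat_lit 78) (nat_lit 0) (nat_lit 0) (XT.lf (nat_lit 0) (nat_lit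 179360060886594) (nat_lit 152) (nat_lit 16812193367036) (nat_lit 0) (nat_lit 177769040455063) (nat_lit 2) (nat_lit 5) (nat_lit 4) (nat_lit 4) (nat_lit 2) (nat_lit 4) (nat_lit 393) (nat_lit 340) (nat_lit 167)) (XT.lf (nat_lit 0) (nat_lit 209962853541363) (nat_lit 152) (nat_lit 11106524531970) (nat_lit 0) (nat_lit 208371833109826) (nat_lit 2) (nat_lit 5) (nat_lit 4) (nat_lit 4) (nat_lit 2) (nat_lit 4) (nat_lit 394) (nat_lit 340) (nat_lit 166)))) (XT.nd (nat_lit 78) (nat_lit 76) (nat_lit 0) (XT.lf (nat_lit 0) (nat_lit 245156065094318) (nat_lit 152) (nat_lit 4545005371707) (nat_lit 0) (nat_lit 243565044662776) (nat_lit 2) (nat_lit 5) (nat_lit 4) (nat_lit 4) (nat_lit 2) (nat_lit 4) (nat_lit 395) (nat_lit 340) (nat_lit 165)) (XT.nd (nat_lit 42588) (nat_lit 0) (nat_lit 1900) (XT.lf (nat_lit 0) (nat_lit 3293995961379) (nat_lit 76) (nat_lit 282470659767109) (nat_lit 76) (nat_lit 280879639335561)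 (nat_lit 1) (nat_lit 4) (nat_lit 2) (nat_lit 5) (nat_lit 2) (nat_lit 4) (nat_lit 396) (nat_lit 340) (nat_lit 164)) (XT.lf (nat_lit 0) (nat_lit 139725964787) (nat_lit 380) (nat_lit 242940458151) (nat_lit 380) (nat_lit 242940458151) (nat_lit 26) (nat_lit 3) (nat_lit 31) (nat_lit 3) (nat_lit 31) (nat_lit 5) (nat_lit 341) (nat_lit 341) (nat_lit 218))))))))
noncomputable def xc111 : XT := (XT.nd (nat_lit 1716) (nat_lit 608) (nat_lit 0) (XT.nd (nat_lit 858) (nat_lit 608) (nat_lit 0) (XT.nd (nat_lit 390) (nat_lit 456) (nat_lit 0) (XT.nd (nat_lit 156) (nat_lit 152) (nat_lit 0) (XT.nd (nat_lit 78) (nat_lit 0) (nat_lit 76) (XT.lf (nat_lit 76) (nat_lit 127451437767) (nat_lit 0) (nat_lit 178236917083) (nat_lit 380) (nat_lit 1038574809824) (nat_lit 27) (nat_lit 5) (nat_lit 26) (nat_lit 3) (nat_lit 31) (nat_lit 5) (nat_lit 342) (nat_lit 341) (nat_lit 217)) (XT.lf (nat_lit 0) (nat_lit 383044539839)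 (nat_lit 304) (nat_lit 581856182835) (nat_lit 380) (nat_lit 479291610498) (nat_lit 27) (nat_lit 5) (nat_lit 31) (nat_lit 5) (nat_lit 32) (nat_lit 5) (nat_lit 343) (nat_lit 341) (nat_lit 216))) (XT.nd (nat_lit 78) (nat_lit 228) (nat_lit 0) (XT.lf (nat_lit 76) (nat_lit 153522884652) (nat_lit 0) (nat_lit 333325789441) (nat_lit 380) (nat_lit 1070035524638) (nat_lit 28) (nat_lit 5) (nat_lit 27) (nat_lit 5) (nat_lit 32) (nat_lit 5) (nat_lit 344) (nat_lit 341) (nat_lit 215)) (XT.nd (nat_lit 78) (nat_lit 304) (nat_lit 0) (XT.lf (nat_lit 0) (nat_lit 654359662690) (nat_lit 304) (nat_lit 635037085303) (nat_lit 76) (nat_lit 389862661010) (nat_lit 28) (nat_lit 5) (nat_lit 32) (nat_lit 5) (nat_lit 29) (nat_lit 5) (nat_lit 345) (nat_lit 341) (nat_lit 214)) (XT.lf (nat_lit 0) (nat_lit 255400648278) (nat_lit 304) (nat_lit 618044899478) (nat_lit 380) (nat_lit 942578115844) (nat_lit 24) (nat_lit 5) (nat_lit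 28) (nat_lit 5) (nat_lit 29) (nat_lit 5) (nat_lit 346) (nat_lit 341) (nat_lit 213))))) (XT.nd (nat_lit 234) (nat_lit 304) (nat_lit 0) (XT.nd (nat_lit 78) (nat_lit 152) (nat_lit 0) (XT.lf (nat_lit 0) (nat_lit 1166547366055) (nat_lit 380) (nat_lit 625507677126) (nat_lit 76) (nat_lit 175074555640) (nat_lit 24) (nat_lit 5) (nat_lit 29) (nat_lit 5) (nat_lit 25) (nat_lit 5) (nat_lit 347) (nat_lit 341) (nat_lit 212)) (XT.nd (nat_lit 78) (nat_lit 0) (nat_lit 0) (XT.lf (nat_lit 0) (nat_lit 461533117516) (nat_lit 152) (nat_lit 1090623147560) (nat_lit 228) (nat_lit 581463888062) (nat_lit 22) (nat_lit 5) (nat_lit 24) (nat_lit 5) (nat_lit 25) (nat_lit 5) (nat_lit 348) (nat_lit 341) (nat_lit 211)) (XT.lf (nat_lit 0) (nat_lit 1781928560360) (nat_lit 152) (nat_lit 246374927413) (nat_lit 228) (nat_lit 291876254513) (nat_lit 22) (nat_lit 5) (nat_lit 24) (nat_lit 5) (nat_lit 25) (nat_lit 5) (nat_lit 349)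 (nat_lit 341) (nat_lit 210)))) (XT.nd (nat_lit 78) (nat_lit 152) (nat_lit 0) (XT.lf (nat_lit 0) (nat_lit 103946543781) (nat_lit 152) (nat_lit 1722378569620) (nat_lit 76) (nat_lit 698173504069) (nat_lit 20) (nat_lit 5) (nat_lit 22) (nat_lit 5) (nat_lit 21) (nat_lit 5) (nat_lit 350) (nat_lit 341) (nat_lit 209)) (XT.nd (nat_lit 78) (nat_lit 152) (nat_lit 0) (XT.lf (nat_lit 0) (nat_lit 570467989379) (nat_lit 152) (nat_lit 378176705796) (nat_lit 76) (nat_lit 1802554628899) (nat_lit 20) (nat_lit 5) (nat_lit 22) (nat_lit 5) (nat_lit 21) (nat_lit 5) (nat_lit 351) (nat_lit 341) (nat_lit 208)) (XT.lf (nat_lit 0) (nat_lit 1165083240760) (nat_lit 228) (nat_lit 1727216979482) (nat_lit 76) (nat_lit 110887578089) (nat_lit 18) (nat_lit 5) (nat_lit 21) (nat_lit 5) (nat_lit 19) (nat_lit 4) (nat_lit 352) (nat_lit 341) (nat_lit 207)))))) (XT.nd (nat_lit 390) (nat_lit 304) (nat_lit 0) (XT.nd (nat_lit 156)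 (nat_lit 228) (nat_lit 0) (XT.nd (nat_lit 78) (nat_lit 76) (nat_lit 0) (XT.lf (nat_lit 0) (nat_lit 1914774011129) (nat_lit 228) (nat_lit 115381827248) (nat_lit 76) (nat_lit 1252936220662) (nat_lit 18) (nat_lit 5) (nat_lit 21) (nat_lit 5) (nat_lit 19) (nat_lit 4) (nat_lit 353) (nat_lit 341) (nat_lit 206)) (XT.lf (nat_lit 0) (nat_lit 1908100934431) (nat_lit 76) (nat_lit 947827851214) (nat_lit 152) (nat_lit 737201614921) (nat_lit 17) (nat_lit 5) (nat_lit 18) (nat_lit 5) (nat_lit 19) (nat_lit 4) (nat_lit 354) (nat_lit 341) (nat_lit 205))) (XT.nd (nat_lit 78) (nat_lit 76) (nat_lit 0) (XT.lf (nat_lit 0) (nat_lit 22748952481) (nat_lit 152) (nat_lit 3631216671969) (nat_lit 76) (nat_lit 290807258569) (nat_lit 15) (nat_lit 5) (nat_lit 17) (nat_lit 5) (nat_lit 16) (nat_lit 4) (nat_lit 355) (nat_lit 341) (nat_lit 204)) (XT.nd (nat_lit 78) (nat_lit 76) (nat_lit 0) (XT.lf (nat_lit 0) (nat_lit 958626782343)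 (nat_lit 152) (nat_lit 1619079340086) (nat_lit 76) (nat_lit 1745578377475) (nat_lit 15) (nat_lit 5) (nat_lit 17) (nat_lit 5) (nat_lit 16) (nat_lit 4) (nat_lit 356) (nat_lit 341) (nat_lit 203)) (XT.lf (nat_lit 0) (nat_lit 762787177930) (nat_lit 76) (nat_lit 1303684497452) (nat_lit 152) (nat_lit 2687363375636) (nat_lit 14) (nat_lit 5) (nat_lit 15) (nat_lit 5) (nat_lit 16) (nat_lit 4) (nat_lit 357) (nat_lit 341) (nat_lit 202))))) (XT.nd (nat_lit 234) (nat_lit 152) (nat_lit 0) (XT.nd (nat_lit 78) (nat_lit 152) (nat_lit 0) (XT.lf (nat_lit 0) (nat_lit 3435842070863) (nat_lit 152) (nat_lit 1563092098152) (nat_lit 0) (nat_lit 235731700516) (nat_lit 14) (nat_lit 5) (nat_lit 16) (nat_lit 4) (nat_lit 14) (nat_lit 4) (nat_lit 358) (nat_lit 341) (nat_lit 201)) (XT.nd (nat_lit 78) (nat_lit 76) (nat_lit 0) (XT.lf (nat_lit 0) (nat_lit 1281022288781) (nat_lit 76) (nat_lit 3844720350811) (nat_lit 76) (nat_lit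 644609979137) (nat_lit 13) (nat_lit 4) (nat_lit 14) (nat_lit 5) (nat_lit 14) (nat_lit 4) (nat_lit 359) (nat_lit 341) (nat_lit 200)) (XT.lf (nat_lit 0) (nat_lit 707551940323) (nat_lit 152) (nat_lit 1678873701131) (nat_lit 76) (nat_lit 3982886458240) (nat_lit 12) (nat_lit 5) (nat_lit 14) (nat_lit 5) (nat_lit 13) (nat_lit 4) (nat_lit 360) (nat_lit 341) (nat_lit 199)))) (XT.nd (nat_lit 78) (nat_lit 76) (nat_lit 0) (XT.lf (nat_lit 0) (nat_lit 1671241150437) (nat_lit 76) (nat_lit 594503744571) (nat_lit 152) (nat_lit 4777385871171) (nat_lit 11) (nat_lit 5) (nat_lit 12) (nat_lit 5) (nat_lit 13) (nat_lit 4) (nat_lit 361) (nat_lit 341) (nat_lit 198)) (XT.nd (nat_lit 78) (nat_lit 76) (nat_lit 0) (XT.lf (nat_lit 0) (nat_lit 4210317595279) (nat_lit 152) (nat_lit 2157194095376) (nat_lit 0) (nat_lit 1427612921624) (nat_lit 11) (nat_lit 5) (nat_lit 13) (nat_lit 4) (nat_lit 11) (nat_lit 4) (nat_lit 362)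 (nat_lit 341) (nat_lit 197)) (XT.lf (nat_lit 0) (nat_lit 1659100662755) (nat_lit 76) (nat_lit 4884485059316) (nat_lit 76) (nat_lit 2101780385001) (nat_lit 10) (nat_lit 4) (nat_lit 11) (nat_lit 5) (nat_lit 11) (nat_lit 4) (nat_lit 363) (nat_lit 341) (nat_lit 196))))))) (XT.nd (nat_lit 858) (nat_lit 152) (nat_lit 0) (XT.nd (nat_lit 390) (nat_lit 228) (nat_lit 0) (XT.nd (nat_lit 156) (nat_lit 76) (nat_lit 0) (XT.nd (nat_lit 78) (nat_lit 152) (nat_lit 0) (XT.lf (nat_lit 0) (nat_lit 6290278832702) (nat_lit 76) (nat_lit 3049327652813) (nat_lit 76) (nat_lit 266622977925) (nat_lit 10) (nat_lit 4) (nat_lit 11) (nat_lit 5) (nat_lit 11) (nat_lit 4) (nat_lit 364) (nat_lit 341) (nat_lit 195)) (XT.lf (nat_lit 0) (nat_lit 909536470210) (nat_lit 76) (nat_lit 807784992858) (nat_lit 152) (nat_lit 8976799341633) (nat_lit 8) (nat_lit 5) (nat_lit 9) (nat_lit 5) (nat_lit 10) (nat_lit 4) (nat_lit 365) (nat_lit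 341) (nat_lit 194))) (XT.nd (nat_lit 78) (nat_lit 76) (nat_lit 0) (XT.lf (nat_lit 0) (nat_lit 4226439700268) (nat_lit 152) (nat_lit 5871923306471) (nat_lit 0) (nat_lit 1806696503901) (nat_lit 8) (nat_lit 5) (nat_lit 10) (nat_lit 4) (nat_lit 8) (nat_lit 4) (nat_lit 366) (nat_lit 341) (nat_lit 193)) (XT.nd (nat_lit 78) (nat_lit 76) (nat_lit 0) (XT.lf (nat_lit 0) (nat_lit 7150391624314) (nat_lit 152) (nat_lit 1410829077845) (nat_lit 0) (nat_lit 4730648427620) (nat_lit 8) (nat_lit 5) (nat_lit 10) (nat_lit 4) (nat_lit 8) (nat_lit 4) (nat_lit 367) (nat_lit 341) (nat_lit 192)) (XT.lf (nat_lit 0) (nat_lit 4082918963720) (nat_lit 76) (nat_lit 6599082340017) (nat_lit 76) (nat_lit 4179339143037) (nat_lit 7) (nat_lit 4) (nat_lit 8) (nat_lit 5) (nat_lit 8) (nat_lit 4) (nat_lit 368) (nat_lit 341) (nat_lit 191))))) (XT.nd (nat_lit 234) (nat_lit 76) (nat_lit 0) (XT.nd (nat_lit 78) (nat_lit 152) (nat_lit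 0) (XT.lf (nat_lit 0) (nat_lit 10559287160000) (nat_lit 76) (nat_lit 4257813158050) (nat_lit 76) (nat_lit 1838069960822) (nat_lit 7) (nat_lit 4) (nat_lit 8) (nat_lit 5) (nat_lit 8) (nat_lit 4) (nat_lit 369) (nat_lit 341) (nat_lit 190)) (XT.nd (nat_lit 78) (nat_lit 76) (nat_lit 0) (XT.lf (nat_lit 0) (nat_lit 778325927863) (nat_lit 152) (nat_lit 746342452537) (nat_lit 76) (nat_lit 17188099437779) (nat_lit 6) (nat_lit 5) (nat_lit 8) (nat_lit 5) (nat_lit 7) (nat_lit 4) (nat_lit 370) (nat_lit 341) (nat_lit 189)) (XT.lf (nat_lit 0) (nat_lit 3923425250893) (nat_lit 152) (nat_lit 15274485824499) (nat_lit 0) (nat_lit 1819300731214) (nat_lit 5) (nat_lit 5) (nat_lit 7) (nat_lit 4) (nat_lit 5) (nat_lit 4) (nat_lit 371) (nat_lit 341) (nat_lit 188)))) (XT.nd (nat_lit 78) (nat_lit 76) (nat_lit 0) (XT.lf (nat_lit 0) (nat_lit 7653763862392) (nat_lit 152) (nat_lit 10446898029832) (nat_lit 0) (nat_lit 5549639342572)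 (nat_lit 5) (nat_lit 5) (nat_lit 7) (nat_lit 4) (nat_lit 5) (nat_lit 4) (nat_lit 372) (nat_lit 341) (nat_lit 187)) (XT.nd (nat_lit 78) (nat_lit 76) (nat_lit 0) (XT.lf (nat_lit 0) (nat_lit 11943653265181) (nat_lit 152) (nat_lit 4895172066862) (nat_lit 0) (nat_lit 9839528745237) (nat_lit 5) (nat_lit 5) (nat_lit 7) (nat_lit 4) (nat_lit 5) (nat_lit 4) (nat_lit 373) (nat_lit 341) (nat_lit 186)) (XT.lf (nat_lit 0) (nat_lit 1634859266956) (nat_lit 76) (nat_lit 15309862846952) (nat_lit 76) (nat_lit 13205738326900) (nat_lit 4) (nat_lit 4) (nat_lit 5) (nat_lit 5) (nat_lit 5) (nat_lit 4) (nat_lit 374) (nat_lit 341) (nat_lit 185)))))) (XT.nd (nat_lit 1404) (nat_lit 76) (nat_lit 0) (XT.nd (nat_lit 156) (nat_lit 76) (nat_lit 0) (XT.nd (nat_lit 78) (nat_lit 0) (nat_lit 0) (XT.lf (nat_lit 0) (nat_lit 9694545888071) (nat_lit 76) (nat_lit 13257289395916) (nat_lit 76) (nat_lit 11153164875772) (nat_lit 4)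 (nat_lit 4) (nat_lit 5) (nat_lit 5) (nat_lit 5) (nat_lit 4) (nat_lit 375) (nat_lit 341) (nat_lit 184)) (XT.lf (nat_lit 0) (nat_lit 18963185501706) (nat_lit 76) (nat_lit 10896829927559) (nat_lit 76) (nat_lit 8792705407334) (nat_lit 4) (nat_lit 4) (nat_lit 5) (nat_lit 5) (nat_lit 5) (nat_lit 4) (nat_lit 376) (nat_lit 341) (nat_lit 183))) (XT.nd (nat_lit 78) (nat_lit 76) (nat_lit 0) (XT.lf (nat_lit 0) (nat_lit 29622121056824) (nat_lit 76) (nat_lit 8182301539240) (nat_lit 76) (nat_lit 6078177018944) (nat_lit 4) (nat_lit 4) (nat_lit 5) (nat_lit 5) (nat_lit 5) (nat_lit 4) (nat_lit 377) (nat_lit 341) (nat_lit 182)) (XT.nd (nat_lit 78) (nat_lit 76) (nat_lit 0) (XT.lf (nat_lit 0) (nat_lit 41879896944720) (nat_lit 76) (nat_lit 5060593892925) (nat_lit 76) (nat_lit 2956469372567) (nat_lit 4) (nat_lit 4) (nat_lit 5) (nat_lit 5) (nat_lit 5) (nat_lit 4) (nat_lit 378) (nat_lit 341) (nat_lit 181)) (XT.lf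 (nat_lit 0) (nat_lit 577096366526) (nat_lit 152) (nat_lit 863367332378) (nat_lit 76) (nat_lit 55369076447870) (nat_lit 3) (nat_lit 5) (nat_lit 5) (nat_lit 5) (nat_lit 4) (nat_lit 4) (nat_lit 379) (nat_lit 341) (nat_lit 180))))) (XT.nd (nat_lit 42978) (nat_lit 0) (nat_lit 1824) (XT.nd (nat_lit 78) (nat_lit 0) (nat_lit 0) (XT.lf (nat_lit 0) (nat_lit 175661277365153) (nat_lit 152) (nat_lit 25039691206446) (nat_lit 0) (nat_lit 173831603868878) (nat_lit 2) (nat_lit 5) (nat_lit 4) (nat_lit 4) (nat_lit 2) (nat_lit 4) (nat_lit 393) (nat_lit 341) (nat_lit 166)) (XT.nd (nat_lit 42822) (nat_lit 0) (nat_lit 1824) (XT.lf (nat_lit 0) (nat_lit 206264070019909) (nat_lit 152) (nat_lit 19334022371409) (nat_lit 0) (nat_lit 204434396523628) (nat_lit 2) (nat_lit 5) (nat_lit 4) (nat_lit 4) (nat_lit 2) (nat_lit 4) (nat_lit 394) (nat_lit 341) (nat_lit 165)) (XT.lf (nat_lit 0) (nat_lit 160684896230) (nat_lit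 380) (nat_lit 279381505717) (nat_lit 380) (nat_lit 279381505717) (nat_lit 26) (nat_lit 3) (nat_lit 31) (nat_lit 3) (nat_lit 31) (nat_lit 5) (nat_lit 342) (nat_lit 342) (nat_lit 216)))) (XT.nd (nat_lit 78) (nat_lit 0) (nat_lit 76) (XT.lf (nat_lit 76) (nat_lit 146569193823) (nat_lit 0) (nat_lit 204972479798) (nat_lit 380) (nat_lit 1194360955786) (nat_lit 27) (nat_lit 5) (nat_lit 26) (nat_lit 3) (nat_lit 31) (nat_lit 5) (nat_lit 343) (nat_lit 342) (nat_lit 215)) (XT.nd (nat_lit 78) (nat_lit 0) (nat_lit 0) (XT.lf (nat_lit 0) (nat_lit 440501276903) (nat_lit 304) (nat_lit 669134565564) (nat_lit 380) (nat_lit 551185332148) (nat_lit 27) (nat_lit 5) (nat_lit 31) (nat_lit 5) (nat_lit 32) (nat_lit 5) (nat_lit 344) (nat_lit 342) (nat_lit 214)) (XT.lf (nat_lit 76) (nat_lit 176551360014) (nat_lit 0) (nat_lit 383324665732) (nat_lit 380) (nat_lit 1230540795110) (nat_lit 28) (nat_lit 5) (nat_lit 27) (nat_lit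 5) (nat_lit 32) (nat_lit 5) (nat_lit 345) (nat_lit 342) (nat_lit 213))))))))
noncomputable def xc112 : XT := (XT.nd (nat_lit 1638) (nat_lit 304) (nat_lit 0) (XT.nd (nat_lit 780) (nat_lit 684) (nat_lit 0) (XT.nd (nat_lit 390) (nat_lit 380) (nat_lit 0) (XT.nd (nat_lit 156) (nat_lit 152) (nat_lit 0) (XT.nd (nat_lit 78) (nat_lit 304) (nat_lit 0) (XT.lf (nat_lit 0) (nat_lit 752513655757) (nat_lit 304) (nat_lit 730292604033) (nat_lit 76) (nat_lit 448342053924) (nat_lit 28) (nat_lit 5) (nat_lit 32) (nat_lit 5) (nat_lit 29) (nat_lit 5) (nat_lit 346) (nat_lit 342) (nat_lit 212)) (XT.lf (nat_lit 0) (nat_lit 293710787582) (nat_lit 304) (nat_lit 710751632047) (nat_lit 380) (nat_lit 1083964787475) (nat_lit 24) (nat_lit 5) (nat_lit 28) (nat_lit 5) (nat_lit 29) (nat_lit 5) (nat_lit 347) (nat_lit 342) (nat_lit 211))) (XT.nd (nat_lit 78) (nat_lit 152) (nat_lit 0) (XT.lf (nat_lit 0) (nat_lit 1341529505579)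 (nat_lit 380) (nat_lit 719333786956) (nat_lit 76) (nat_lit 201335740850) (nat_lit 24) (nat_lit 5) (nat_lit 29) (nat_lit 5) (nat_lit 25) (nat_lit 5) (nat_lit 348) (nat_lit 342) (nat_lit 210)) (XT.nd (nat_lit 78) (nat_lit 0) (nat_lit 0) (XT.lf (nat_lit 0) (nat_lit 530763124986) (nat_lit 152) (nat_lit 1254216611602) (nat_lit 228) (nat_lit 668683434700) (nat_lit 22) (nat_lit 5) (nat_lit 24) (nat_lit 5) (nat_lit 25) (nat_lit 5) (nat_lit 349) (nat_lit 342) (nat_lit 209)) (XT.lf (nat_lit 0) (nat_lit 2049217879059) (nat_lit 152) (nat_lit 283331159488) (nat_lit 228) (nat_lit 335657660888) (nat_lit 22) (nat_lit 5) (nat_lit 24) (nat_lit 5) (nat_lit 25) (nat_lit 5) (nat_lit 350) (nat_lit 342) (nat_lit 208))))) (XT.nd (nat_lit 156) (nat_lit 228) (nat_lit 0) (XT.nd (nat_lit 78) (nat_lit 0) (nat_lit 0) (XT.lf (nat_lit 0) (nat_lit 119538552401) (nat_lit 152) (nat_lit 1980735315585) (nat_lit 76) (nat_lit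 802899538007) (nat_lit 20) (nat_lit 5) (nat_lit 22) (nat_lit 5) (nat_lit 21) (nat_lit 5) (nat_lit 351) (nat_lit 342) (nat_lit 207)) (XT.lf (nat_lit 0) (nat_lit 656038211310) (nat_lit 152) (nat_lit 434903177337) (nat_lit 76) (nat_lit 2072937830475) (nat_lit 20) (nat_lit 5) (nat_lit 22) (nat_lit 5) (nat_lit 21) (nat_lit 5) (nat_lit 352) (nat_lit 342) (nat_lit 206))) (XT.nd (nat_lit 78) (nat_lit 76) (nat_lit 0) (XT.lf (nat_lit 0) (nat_lit 1339845749140) (nat_lit 228) (nat_lit 1986299490789) (nat_lit 76) (nat_lit 127520724783) (nat_lit 18) (nat_lit 5) (nat_lit 21) (nat_lit 5) (nat_lit 19) (nat_lit 4) (nat_lit 353) (nat_lit 342) (nat_lit 205)) (XT.nd (nat_lit 78) (nat_lit 76) (nat_lit 0) (XT.lf (nat_lit 0) (nat_lit 2201990132160) (nat_lit 228) (nat_lit 132689070365) (nat_lit 76) (nat_lit 1440876662439) (nat_lit 18) (nat_lit 5) (nat_lit 21) (nat_lit 5) (nat_lit 19) (nat_lit 4) (nat_lit 354)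 (nat_lit 342) (nat_lit 204)) (XT.lf (nat_lit 0) (nat_lit 2194316104158) (nat_lit 76) (nat_lit 1090002017394) (nat_lit 152) (nat_lit 847781836367) (nat_lit 17) (nat_lit 5) (nat_lit 18) (nat_lit 5) (nat_lit 19) (nat_lit 4) (nat_lit 355) (nat_lit 342) (nat_lit 203)))))) (XT.nd (nat_lit 390) (nat_lit 380) (nat_lit 0) (XT.nd (nat_lit 156) (nat_lit 152) (nat_lit 0) (XT.nd (nat_lit 78) (nat_lit 0) (nat_lit 0) (XT.lf (nat_lit 0) (nat_lit 26161313575) (nat_lit 152) (nat_lit 4175899140595) (nat_lit 76) (nat_lit 334428358551) (nat_lit 15) (nat_lit 5) (nat_lit 17) (nat_lit 5) (nat_lit 16) (nat_lit 4) (nat_lit 356) (nat_lit 342) (nat_lit 202)) (XT.lf (nat_lit 0) (nat_lit 1102420815540) (nat_lit 152) (nat_lit 1861941213126) (nat_lit 76) (nat_lit 2007415143833) (nat_lit 15) (nat_lit 5) (nat_lit 17) (nat_lit 5) (nat_lit 16) (nat_lit 4) (nat_lit 357) (nat_lit 342) (nat_lit 201))) (XT.nd (nat_lit 78) (nat_lit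 76) (nat_lit 0) (XT.lf (nat_lit 0) (nat_lit 877205281322) (nat_lit 76) (nat_lit 1499237160253) (nat_lit 152) (nat_lit 3090467864852) (nat_lit 14) (nat_lit 5) (nat_lit 15) (nat_lit 5) (nat_lit 16) (nat_lit 4) (nat_lit 358) (nat_lit 342) (nat_lit 200)) (XT.nd (nat_lit 78) (nat_lit 76) (nat_lit 0) (XT.lf (nat_lit 0) (nat_lit 3951218394860) (nat_lit 152) (nat_lit 1797555888128) (nat_lit 0) (nat_lit 271091464955) (nat_lit 14) (nat_lit 5) (nat_lit 16) (nat_lit 4) (nat_lit 14) (nat_lit 4) (nat_lit 359) (nat_lit 342) (nat_lit 199)) (XT.lf (nat_lit 0) (nat_lit 1473175655719) (nat_lit 76) (nat_lit 4421428392414) (nat_lit 76) (nat_lit 741301461505) (nat_lit 13) (nat_lit 4) (nat_lit 14) (nat_lit 5) (nat_lit 14) (nat_lit 4) (nat_lit 360) (nat_lit 342) (nat_lit 198))))) (XT.nd (nat_lit 234) (nat_lit 228) (nat_lit 0) (XT.nd (nat_lit 78) (nat_lit 76) (nat_lit 0) (XT.lf (nat_lit 0) (nat_lit 813684742860)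 (nat_lit 152) (nat_lit 1930704734631) (nat_lit 76) (nat_lit 4580319435427) (nat_lit 12) (nat_lit 5) (nat_lit 14) (nat_lit 5) (nat_lit 13) (nat_lit 4) (nat_lit 361) (nat_lit 342) (nat_lit 197)) (XT.nd (nat_lit 78) (nat_lit 0) (nat_lit 0) (XT.lf (nat_lit 0) (nat_lit 1921927343687) (nat_lit 76) (nat_lit 683679296418) (nat_lit 152) (nat_lit 5493993739367) (nat_lit 11) (nat_lit 5) (nat_lit 12) (nat_lit 5) (nat_lit 13) (nat_lit 4) (nat_lit 362) (nat_lit 342) (nat_lit 196)) (XT.lf (nat_lit 0) (nat_lit 4841865244357) (nat_lit 152) (nat_lit 2480773190630) (nat_lit 0) (nat_lit 1641754867661) (nat_lit 11) (nat_lit 5) (nat_lit 13) (nat_lit 4) (nat_lit 11) (nat_lit 4) (nat_lit 363) (nat_lit 342) (nat_lit 195)))) (XT.nd (nat_lit 78) (nat_lit 152) (nat_lit 0) (XT.lf (nat_lit 0) (nat_lit 1907965780356) (nat_lit 76) (nat_lit 5617157809289) (nat_lit 76) (nat_lit 2417047432094) (nat_lit 10) (nat_lit 4)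 (nat_lit 11) (nat_lit 5) (nat_lit 11) (nat_lit 4) (nat_lit 364) (nat_lit 342) (nat_lit 194)) (XT.nd (nat_lit 78) (nat_lit 152) (nat_lit 0) (XT.lf (nat_lit 0) (nat_lit 7233820673423) (nat_lit 76) (nat_lit 3506726792975) (nat_lit 76) (nat_lit 306616415347) (nat_lit 10) (nat_lit 4) (nat_lit 11) (nat_lit 5) (nat_lit 11) (nat_lit 4) (nat_lit 365) (nat_lit 342) (nat_lit 193)) (XT.lf (nat_lit 0) (nat_lit 1045966956629) (nat_lit 76) (nat_lit 928952733898) (nat_lit 152) (nat_lit 10323319233677) (nat_lit 8) (nat_lit 5) (nat_lit 9) (nat_lit 5) (nat_lit 10) (nat_lit 4) (nat_lit 366) (nat_lit 342) (nat_lit 192))))))) (XT.nd (nat_lit 858) (nat_lit 0) (nat_lit 0) (XT.nd (nat_lit 390) (nat_lit 152) (nat_lit 0) (XT.nd (nat_lit 156) (nat_lit 152) (nat_lit 0) (XT.nd (nat_lit 78) (nat_lit 0) (nat_lit 0) (XT.lf (nat_lit 0) (nat_lit 4860405662547) (nat_lit 152) (nat_lit 6752711787865) (nat_lit 0) (nat_lit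 2077700985735) (nat_lit 8) (nat_lit 5) (nat_lit 10) (nat_lit 4) (nat_lit 8) (nat_lit 4) (nat_lit 367) (nat_lit 342) (nat_lit 191)) (XT.lf (nat_lit 0) (nat_lit 8222950374256) (nat_lit 152) (nat_lit 1622453426846) (nat_lit 0) (nat_lit 5440245697197) (nat_lit 8) (nat_lit 5) (nat_lit 10) (nat_lit 4) (nat_lit 8) (nat_lit 4) (nat_lit 368) (nat_lit 342) (nat_lit 190))) (XT.nd (nat_lit 78) (nat_lit 76) (nat_lit 0) (XT.lf (nat_lit 0) (nat_lit 4695356820377) (nat_lit 76) (nat_lit 7588944684895) (nat_lit 76) (nat_lit 4806240007620) (nat_lit 7) (nat_lit 4) (nat_lit 8) (nat_lit 5) (nat_lit 8) (nat_lit 4) (nat_lit 369) (nat_lit 342) (nat_lit 189)) (XT.nd (nat_lit 78) (nat_lit 76) (nat_lit 0) (XT.lf (nat_lit 0) (nat_lit 12143180244521) (nat_lit 76) (nat_lit 4896485126432) (nat_lit 76) (nat_lit 2113780448969) (nat_lit 7) (nat_lit 4) (nat_lit 8) (nat_lit 5) (nat_lit 8) (nat_lit 4) (nat_lit 370) (nat_lit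 342) (nat_lit 188)) (XT.lf (nat_lit 0) (nat_lit 895074821776) (nat_lit 152) (nat_lit 858293810805) (nat_lit 76) (nat_lit 19766314357612) (nat_lit 6) (nat_lit 5) (nat_lit 8) (nat_lit 5) (nat_lit 7) (nat_lit 4) (nat_lit 371) (nat_lit 342) (nat_lit 187))))) (XT.nd (nat_lit 234) (nat_lit 76) (nat_lit 0) (XT.nd (nat_lit 78) (nat_lit 0) (nat_lit 0) (XT.lf (nat_lit 0) (nat_lit 4511939043218) (nat_lit 152) (nat_lit 17565658688516) (nat_lit 0) (nat_lit 2092195845159) (nat_lit 5) (nat_lit 5) (nat_lit 7) (nat_lit 4) (nat_lit 5) (nat_lit 4) (nat_lit 372) (nat_lit 342) (nat_lit 186)) (XT.nd (nat_lit 78) (nat_lit 0) (nat_lit 0) (XT.lf (nat_lit 0) (nat_lit 8801828445830) (nat_lit 152) (nat_lit 12013932725909) (nat_lit 0) (nat_lit 6382085247664) (nat_lit 5) (nat_lit 5) (nat_lit 7) (nat_lit 4) (nat_lit 5) (nat_lit 4) (nat_lit 373) (nat_lit 342) (nat_lit 185)) (XT.lf (nat_lit 0) (nat_lit 13735201258505)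 (nat_lit 152) (nat_lit 5629447869588) (nat_lit 0) (nat_lit 11315458060245) (nat_lit 5) (nat_lit 5) (nat_lit 7) (nat_lit 4) (nat_lit 5) (nat_lit 4) (nat_lit 374) (nat_lit 342) (nat_lit 184)))) (XT.nd (nat_lit 78) (nat_lit 0) (nat_lit 0) (XT.lf (nat_lit 0) (nat_lit 1880088163970) (nat_lit 76) (nat_lit 17606342270397) (nat_lit 76) (nat_lit 15186599072056) (nat_lit 4) (nat_lit 4) (nat_lit 5) (nat_lit 5) (nat_lit 5) (nat_lit 4) (nat_lit 375) (nat_lit 342) (nat_lit 183)) (XT.nd (nat_lit 78) (nat_lit 0) (nat_lit 0) (XT.lf (nat_lit 0) (nat_lit 11148727777343) (nat_lit 76) (nat_lit 15245882802175) (nat_lit 76) (nat_lit 12826139603764) (nat_lit 4) (nat_lit 4) (nat_lit 5) (nat_lit 5) (nat_lit 5) (nat_lit 4) (nat_lit 376) (nat_lit 342) (nat_lit 182)) (XT.lf (nat_lit 0) (nat_lit 21807663332233) (nat_lit 76) (nat_lit 12531354413973) (nat_lit 76) (nat_lit 10111611215501) (nat_lit 4) (nat_lit 4) (nat_lit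 5) (nat_lit 5) (nat_lit 5) (nat_lit 4) (nat_lit 377) (nat_lit 342) (nat_lit 181)))))) (XT.nd (nat_lit 44382) (nat_lit 0) (nat_lit 1368) (XT.nd (nat_lit 44148) (nat_lit 0) (nat_lit 1672) (XT.nd (nat_lit 78) (nat_lit 0) (nat_lit 0) (XT.lf (nat_lit 0) (nat_lit 34065439219931) (nat_lit 76) (nat_lit 9409646767760) (nat_lit 76) (nat_lit 6989903569234) (nat_lit 4) (nat_lit 4) (nat_lit 5) (nat_lit 5) (nat_lit 5) (nat_lit 4) (nat_lit 378) (nat_lit 342) (nat_lit 180)) (XT.lf (nat_lit 0) (nat_lit 48161881490414) (nat_lit 76) (nat_lit 5819682974806) (nat_lit 76) (nat_lit 3399939776234) (nat_lit 4) (nat_lit 4) (nat_lit 5) (nat_lit 5) (nat_lit 5) (nat_lit 4) (nat_lit 379) (nat_lit 342) (nat_lit 179))) (XT.nd (nat_lit 78) (nat_lit 0) (nat_lit 0) (XT.lf (nat_lit 0) (nat_lit 184787658434) (nat_lit 380) (nat_lit 321288715577) (nat_lit 380) (nat_lit 321288715577) (nat_lit 26) (nat_lit 3) (nat_lit 31) (nat_lit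 3) (nat_lit 31) (nat_lit 5) (nat_lit 343) (nat_lit 343) (nat_lit 214)) (XT.nd (nat_lit 78) (nat_lit 0) (nat_lit 76) (XT.lf (nat_lit 76) (nat_lit 168554603437) (nat_lit 0) (nat_lit 235718370787) (nat_lit 380) (nat_lit 1373515042056) (nat_lit 27) (nat_lit 5) (nat_lit 26) (nat_lit 3) (nat_lit 31) (nat_lit 5) (nat_lit 344) (nat_lit 343) (nat_lit 213)) (XT.lf (nat_lit 0) (nat_lit 506576510850) (nat_lit 304) (nat_lit 769504716602) (nat_lit 380) (nat_lit 633863116905) (nat_lit 27) (nat_lit 5) (nat_lit 31) (nat_lit 5) (nat_lit 32) (nat_lit 5) (nat_lit 345) (nat_lit 343) (nat_lit 212))))) (XT.nd (nat_lit 234) (nat_lit 152) (nat_lit 0) (XT.nd (nat_lit 78) (nat_lit 228) (nat_lit 0) (XT.lf (nat_lit 76) (nat_lit 203034096277) (nat_lit 0) (nat_lit 440823371546) (nat_lit 380) (nat_lit 1415121870351) (nat_lit 28) (nat_lit 5) (nat_lit 27) (nat_lit 5) (nat_lit 32) (nat_lit 5) (nat_lit 346) (nat_lit 343)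 (nat_lit 211)) (XT.nd (nat_lit 78) (nat_lit 304) (nat_lit 0) (XT.lf (nat_lit 0) (nat_lit 865390737137) (nat_lit 304) (nat_lit 839836461318) (nat_lit 76) (nat_lit 515593357296) (nat_lit 28) (nat_lit 5) (nat_lit 32) (nat_lit 5) (nat_lit 29) (nat_lit 5) (nat_lit 347) (nat_lit 343) (nat_lit 210)) (XT.lf (nat_lit 0) (nat_lit 337767437525) (nat_lit 304) (nat_lit 817364375075) (nat_lit 380) (nat_lit 1246559471007) (nat_lit 24) (nat_lit 5) (nat_lit 28) (nat_lit 5) (nat_lit 29) (nat_lit 5) (nat_lit 348) (nat_lit 343) (nat_lit 209)))) (XT.nd (nat_lit 78) (nat_lit 152) (nat_lit 0) (XT.lf (nat_lit 0) (nat_lit 1542758957590) (nat_lit 380) (nat_lit 827233823438) (nat_lit 76) (nat_lit 231536103387) (nat_lit 24) (nat_lit 5) (nat_lit 29) (nat_lit 5) (nat_lit 25) (nat_lit 5) (nat_lit 349) (nat_lit 343) (nat_lit 208)) (XT.nd (nat_lit 78) (nat_lit 0) (nat_lit 0) (XT.lf (nat_lit 0) (nat_lit 610377623860)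 (nat_lit 152) (nat_lit 1442349097223) (nat_lit 228) (nat_lit 768985922251) (nat_lit 22) (nat_lit 5) (nat_lit 24) (nat_lit 5) (nat_lit 25) (nat_lit 5) (nat_lit 350) (nat_lit 343) (nat_lit 207)) (XT.lf (nat_lit 0) (nat_lit 2356600587115) (nat_lit 152) (nat_lit 325830828091) (nat_lit 228) (nat_lit 386006285975) (nat_lit 22) (nat_lit 5) (nat_lit 24) (nat_lit 5) (nat_lit 25) (nat_lit 5) (nat_lit 351) (nat_lit 343) (nat_lit 206))))))))
noncomputable def xc113 : XT := (XT.nd (nat_lit 1638) (nat_lit 152) (nat_lit 0) (XT.nd (nat_lit 780) (nat_lit 532) (nat_lit 0) (XT.nd (nat_lit 390) (nat_lit 304) (nat_lit 0) (XT.nd (nat_lit 156) (nat_lit 228) (nat_lit 0) (XT.nd (nat_lit 78) (nat_lit 0) (nat_lit 0) (XT.lf (nat_lit 0) (nat_lit 137469355717) (nat_lit 152) (nat_lit 2277845583072) (nat_lit 76) (nat_lit 923334475005) (nat_lit 20) (nat_lit 5) (nat_lit 22) (nat_lit 5) (nat_lit 21) (nat_lit 5) (nat_lit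 352) (nat_lit 343) (nat_lit 205)) (XT.lf (nat_lit 0) (nat_lit 754443960795) (nat_lit 152) (nat_lit 500138627981) (nat_lit 76) (nat_lit 2383878510522) (nat_lit 20) (nat_lit 5) (nat_lit 22) (nat_lit 5) (nat_lit 21) (nat_lit 5) (nat_lit 353) (nat_lit 343) (nat_lit 204))) (XT.nd (nat_lit 78) (nat_lit 76) (nat_lit 0) (XT.lf (nat_lit 0) (nat_lit 1540822628348) (nat_lit 228) (nat_lit 2284244387476) (nat_lit 76) (nat_lit 146648841046) (nat_lit 18) (nat_lit 5) (nat_lit 21) (nat_lit 5) (nat_lit 19) (nat_lit 4) (nat_lit 354) (nat_lit 343) (nat_lit 203)) (XT.nd (nat_lit 78) (nat_lit 76) (nat_lit 0) (XT.lf (nat_lit 0) (nat_lit 2532288666625) (nat_lit 228) (nat_lit 152592407502) (nat_lit 76) (nat_lit 1657008168367) (nat_lit 18) (nat_lit 5) (nat_lit 21) (nat_lit 5) (nat_lit 19) (nat_lit 4) (nat_lit 355) (nat_lit 343) (nat_lit 202)) (XT.lf (nat_lit 0) (nat_lit 2523463542136) (nat_lit 76) (nat_lit 1253502311306)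 (nat_lit 152) (nat_lit 974949096100) (nat_lit 17) (nat_lit 5) (nat_lit 18) (nat_lit 5) (nat_lit 19) (nat_lit 4) (nat_lit 356) (nat_lit 343) (nat_lit 201))))) (XT.nd (nat_lit 156) (nat_lit 152) (nat_lit 0) (XT.nd (nat_lit 78) (nat_lit 0) (nat_lit 0) (XT.lf (nat_lit 0) (nat_lit 30085524390) (nat_lit 152) (nat_lit 4802283987360) (nat_lit 76) (nat_lit 384592620801) (nat_lit 15) (nat_lit 5) (nat_lit 17) (nat_lit 5) (nat_lit 16) (nat_lit 4) (nat_lit 357) (nat_lit 343) (nat_lit 200)) (XT.lf (nat_lit 0) (nat_lit 1267783949853) (nat_lit 152) (nat_lit 2141232373943) (nat_lit 76) (nat_lit 2308527422770) (nat_lit 15) (nat_lit 5) (nat_lit 17) (nat_lit 5) (nat_lit 16) (nat_lit 4) (nat_lit 358) (nat_lit 343) (nat_lit 199))) (XT.nd (nat_lit 78) (nat_lit 76) (nat_lit 0) (XT.lf (nat_lit 0) (nat_lit 1008786093710) (nat_lit 76) (nat_lit 1724122725355) (nat_lit 152) (nat_lit 3554038031628) (nat_lit 14) (nat_lit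 5) (nat_lit 15) (nat_lit 5) (nat_lit 16) (nat_lit 4) (nat_lit 359) (nat_lit 343) (nat_lit 198)) (XT.nd (nat_lit 78) (nat_lit 76) (nat_lit 0) (XT.lf (nat_lit 0) (nat_lit 4543901164198) (nat_lit 152) (nat_lit 2067189252636) (nat_lit 0) (nat_lit 311755191776) (nat_lit 14) (nat_lit 5) (nat_lit 16) (nat_lit 4) (nat_lit 14) (nat_lit 4) (nat_lit 360) (nat_lit 343) (nat_lit 197)) (XT.lf (nat_lit 0) (nat_lit 1694152021938) (nat_lit 76) (nat_lit 5084642642945) (nat_lit 76) (nat_lit 852496669765) (nat_lit 13) (nat_lit 4) (nat_lit 14) (nat_lit 5) (nat_lit 14) (nat_lit 4) (nat_lit 361) (nat_lit 343) (nat_lit 196)))))) (XT.nd (nat_lit 390) (nat_lit 304) (nat_lit 0) (XT.nd (nat_lit 156) (nat_lit 76) (nat_lit 0) (XT.nd (nat_lit 78) (nat_lit 76) (nat_lit 0) (XT.lf (nat_lit 0) (nat_lit 935737462976) (nat_lit 152) (nat_lit 2220310428439) (nat_lit 76) (nat_lit 5267367357132) (nat_lit 12) (nat_lit 5) (nat_lit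 14) (nat_lit 5) (nat_lit 13) (nat_lit 4) (nat_lit 362) (nat_lit 343) (nat_lit 195)) (XT.lf (nat_lit 0) (nat_lit 2210216460881) (nat_lit 76) (nat_lit 786231183441) (nat_lit 152) (nat_lit 6318092790836) (nat_lit 11) (nat_lit 5) (nat_lit 12) (nat_lit 5) (nat_lit 13) (nat_lit 4) (nat_lit 363) (nat_lit 343) (nat_lit 194))) (XT.nd (nat_lit 78) (nat_lit 76) (nat_lit 0) (XT.lf (nat_lit 0) (nat_lit 5568145038410) (nat_lit 152) (nat_lit 2852889154817) (nat_lit 0) (nat_lit 1888018103703) (nat_lit 11) (nat_lit 5) (nat_lit 13) (nat_lit 4) (nat_lit 11) (nat_lit 4) (nat_lit 364) (nat_lit 343) (nat_lit 193)) (XT.nd (nat_lit 78) (nat_lit 0) (nat_lit 0) (XT.lf (nat_lit 0) (nat_lit 2194160661161) (nat_lit 76) (nat_lit 6459731473934) (nat_lit 76) (nat_lit 2779604538850) (nat_lit 10) (nat_lit 4) (nat_lit 11) (nat_lit 5) (nat_lit 11) (nat_lit 4) (nat_lit 365) (nat_lit 343) (nat_lit 192)) (XT.lf (nat_lit 0)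 (nat_lit 8318893786394) (nat_lit 76) (nat_lit 4032735806053) (nat_lit 76) (nat_lit 352608870642) (nat_lit 10) (nat_lit 4) (nat_lit 11) (nat_lit 5) (nat_lit 11) (nat_lit 4) (nat_lit 366) (nat_lit 343) (nat_lit 191))))) (XT.nd (nat_lit 234) (nat_lit 152) (nat_lit 0) (XT.nd (nat_lit 78) (nat_lit 0) (nat_lit 0) (XT.lf (nat_lit 0) (nat_lit 1202862012136) (nat_lit 76) (nat_lit 1068295638018) (nat_lit 152) (nat_lit 11871817111771) (nat_lit 8) (nat_lit 5) (nat_lit 9) (nat_lit 5) (nat_lit 10) (nat_lit 4) (nat_lit 367) (nat_lit 343) (nat_lit 190)) (XT.nd (nat_lit 78) (nat_lit 0) (nat_lit 0) (XT.lf (nat_lit 0) (nat_lit 5589466517403) (nat_lit 152) (nat_lit 7765618545023) (nat_lit 0) (nat_lit 2389356138321) (nat_lit 8) (nat_lit 5) (nat_lit 10) (nat_lit 4) (nat_lit 8) (nat_lit 4) (nat_lit 368) (nat_lit 343) (nat_lit 189)) (XT.lf (nat_lit 0) (nat_lit 9456392935155) (nat_lit 152) (nat_lit 1865821431289)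 (nat_lit 0) (nat_lit 6256282555885) (nat_lit 8) (nat_lit 5) (nat_lit 10) (nat_lit 4) (nat_lit 8) (nat_lit 4) (nat_lit 369) (nat_lit 343) (nat_lit 188)))) (XT.nd (nat_lit 78) (nat_lit 76) (nat_lit 0) (XT.lf (nat_lit 0) (nat_lit 5399660352583) (nat_lit 76) (nat_lit 8727286382999) (nat_lit 76) (nat_lit 5527176003566) (nat_lit 7) (nat_lit 4) (nat_lit 8) (nat_lit 5) (nat_lit 8) (nat_lit 4) (nat_lit 370) (nat_lit 343) (nat_lit 187)) (XT.nd (nat_lit 78) (nat_lit 76) (nat_lit 0) (XT.lf (nat_lit 0) (nat_lit 13964657289155) (nat_lit 76) (nat_lit 5630957891370) (nat_lit 76) (nat_lit 2430847511795) (nat_lit 7) (nat_lit 4) (nat_lit 8) (nat_lit 5) (nat_lit 8) (nat_lit 4) (nat_lit 371) (nat_lit 343) (nat_lit 186)) (XT.lf (nat_lit 0) (nat_lit 1029336048623) (nat_lit 152) (nat_lit 987037875157) (nat_lit 76) (nat_lit 22731261514405) (nat_lit 6) (nat_lit 5) (nat_lit 8) (nat_lit 5) (nat_lit 7) (nat_lit 4)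 (nat_lit 372) (nat_lit 343) (nat_lit 185))))))) (XT.nd (nat_lit 44850) (nat_lit 0) (nat_lit 988) (XT.nd (nat_lit 390) (nat_lit 0) (nat_lit 0) (XT.nd (nat_lit 156) (nat_lit 76) (nat_lit 0) (XT.nd (nat_lit 78) (nat_lit 0) (nat_lit 0) (XT.lf (nat_lit 0) (nat_lit 5188729903247) (nat_lit 152) (nat_lit 20200507484491) (nat_lit 0) (nat_lit 2406025225156) (nat_lit 5) (nat_lit 5) (nat_lit 7) (nat_lit 4) (nat_lit 5) (nat_lit 4) (nat_lit 373) (nat_lit 343) (nat_lit 184)) (XT.lf (nat_lit 0) (nat_lit 10122102715789) (nat_lit 152) (nat_lit 13816022628445) (nat_lit 0) (nat_lit 7339398037616) (nat_lit 5) (nat_lit 5) (nat_lit 7) (nat_lit 4) (nat_lit 5) (nat_lit 4) (nat_lit 374) (nat_lit 343) (nat_lit 183))) (XT.nd (nat_lit 78) (nat_lit 76) (nat_lit 0) (XT.lf (nat_lit 0) (nat_lit 15795481449963) (nat_lit 152) (nat_lit 6473865044505) (nat_lit 0) (nat_lit 13012776771719) (nat_lit 5) (nat_lit 5) (nat_lit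 7) (nat_lit 4) (nat_lit 5) (nat_lit 4) (nat_lit 375) (nat_lit 343) (nat_lit 182)) (XT.nd (nat_lit 78) (nat_lit 0) (nat_lit 0) (XT.lf (nat_lit 0) (nat_lit 2162101393836) (nat_lit 76) (nat_lit 20247293608236) (nat_lit 76) (nat_lit 17464588929931) (nat_lit 4) (nat_lit 4) (nat_lit 5) (nat_lit 5) (nat_lit 5) (nat_lit 4) (nat_lit 376) (nat_lit 343) (nat_lit 181)) (XT.lf (nat_lit 0) (nat_lit 12821036948528) (nat_lit 76) (nat_lit 17532765220136) (nat_lit 76) (nat_lit 14750060541778) (nat_lit 4) (nat_lit 4) (nat_lit 5) (nat_lit 5) (nat_lit 5) (nat_lit 4) (nat_lit 377) (nat_lit 343) (nat_lit 180))))) (XT.nd (nat_lit 44226) (nat_lit 0) (nat_lit 1672) (XT.nd (nat_lit 78) (nat_lit 0) (nat_lit 0) (XT.lf (nat_lit 0) (nat_lit 25078812836054) (nat_lit 76) (nat_lit 14411057574012) (nat_lit 76) (nat_lit 11628352895607) (nat_lit 4) (nat_lit 4) (nat_lit 5) (nat_lit 5) (nat_lit 5) (nat_lit 4) (nat_lit 378)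 (nat_lit 343) (nat_lit 179)) (XT.nd (nat_lit 78) (nat_lit 0) (nat_lit 0) (XT.lf (nat_lit 0) (nat_lit 39175255106387) (nat_lit 76) (nat_lit 10821093781135) (nat_lit 76) (nat_lit 8038389102691) (nat_lit 4) (nat_lit 4) (nat_lit 5) (nat_lit 5) (nat_lit 5) (nat_lit 4) (nat_lit 379) (nat_lit 343) (nat_lit 178)) (XT.lf (nat_lit 0) (nat_lit 55386163716989) (nat_lit 76) (nat_lit 6692635419472) (nat_lit 76) (nat_lit 3909930740992) (nat_lit 4) (nat_lit 4) (nat_lit 5) (nat_lit 5) (nat_lit 5) (nat_lit 4) (nat_lit 380) (nat_lit 343) (nat_lit 177)))) (XT.nd (nat_lit 78) (nat_lit 0) (nat_lit 0) (XT.lf (nat_lit 0) (nat_lit 212505828197) (nat_lit 380) (nat_lit 369482010817) (nat_lit 380) (nat_lit 369482010817) (nat_lit 26) (nat_lit 3) (nat_lit 31) (nat_lit 3) (nat_lit 31) (nat_lit 5) (nat_lit 344) (nat_lit 344) (nat_lit 212)) (XT.nd (nat_lit 78) (nat_lit 0) (nat_lit 76) (XT.lf (nat_lit 76) (nat_lit 193837817045)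 (nat_lit 0) (nat_lit 271076140786) (nat_lit 380) (nat_lit 1579542255190) (nat_lit 27) (nat_lit 5) (nat_lit 26) (nat_lit 3) (nat_lit 31) (nat_lit 5) (nat_lit 345) (nat_lit 344) (nat_lit 211)) (XT.lf (nat_lit 0) (nat_lit 582563019546) (nat_lit 304) (nat_lit 884930398537) (nat_lit 380) (nat_lit 728942573048) (nat_lit 27) (nat_lit 5) (nat_lit 31) (nat_lit 5) (nat_lit 32) (nat_lit 5) (nat_lit 346) (nat_lit 344) (nat_lit 210)))))) (XT.nd (nat_lit 390) (nat_lit 380) (nat_lit 0) (XT.nd (nat_lit 156) (nat_lit 380) (nat_lit 0) (XT.nd (nat_lit 78) (nat_lit 0) (nat_lit 76) (XT.lf (nat_lit 76) (nat_lit 233489235112) (nat_lit 0) (nat_lit 506946881780) (nat_lit 380) (nat_lit 1627390117614) (nat_lit 28) (nat_lit 5) (nat_lit 27) (nat_lit 5) (nat_lit 32) (nat_lit 5) (nat_lit 347) (nat_lit 344) (nat_lit 209)) (XT.lf (nat_lit 0) (nat_lit 995199372672) (nat_lit 304) (nat_lit 965811905321) (nat_lit 76) (nat_lit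 592932357324) (nat_lit 28) (nat_lit 5) (nat_lit 32) (nat_lit 5) (nat_lit 29) (nat_lit 5) (nat_lit 348) (nat_lit 344) (nat_lit 208))) (XT.nd (nat_lit 78) (nat_lit 152) (nat_lit 0) (XT.lf (nat_lit 0) (nat_lit 388432577203) (nat_lit 304) (nat_lit 939969029991) (nat_lit 380) (nat_lit 1433543365503) (nat_lit 24) (nat_lit 5) (nat_lit 28) (nat_lit 5) (nat_lit 29) (nat_lit 5) (nat_lit 349) (nat_lit 344) (nat_lit 207)) (XT.nd (nat_lit 78) (nat_lit 152) (nat_lit 0) (XT.lf (nat_lit 0) (nat_lit 1774172821019) (nat_lit 380) (nat_lit 951318873089) (nat_lit 76) (nat_lit 266266519960) (nat_lit 24) (nat_lit 5) (nat_lit 29) (nat_lit 5) (nat_lit 25) (nat_lit 5) (nat_lit 350) (nat_lit 344) (nat_lit 206)) (XT.lf (nat_lit 0) (nat_lit 701934290219) (nat_lit 152) (nat_lit 1658701457179) (nat_lit 228) (nat_lit 884333789679) (nat_lit 22) (nat_lit 5) (nat_lit 24) (nat_lit 5) (nat_lit 25) (nat_lit 5) (nat_lit 351)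 (nat_lit 344) (nat_lit 205))))) (XT.nd (nat_lit 234) (nat_lit 228) (nat_lit 0) (XT.nd (nat_lit 78) (nat_lit 152) (nat_lit 0) (XT.lf (nat_lit 0) (nat_lit 2710090694991) (nat_lit 152) (nat_lit 374705448281) (nat_lit 228) (nat_lit 443907210689) (nat_lit 22) (nat_lit 5) (nat_lit 24) (nat_lit 5) (nat_lit 25) (nat_lit 5) (nat_lit 352) (nat_lit 344) (nat_lit 204)) (XT.nd (nat_lit 78) (nat_lit 0) (nat_lit 0) (XT.lf (nat_lit 0) (nat_lit 158089774543) (nat_lit 152) (nat_lit 2619522397961) (nat_lit 76) (nat_lit 1061834651017) (nat_lit 20) (nat_lit 5) (nat_lit 22) (nat_lit 5) (nat_lit 21) (nat_lit 5) (nat_lit 353) (nat_lit 344) (nat_lit 203)) (XT.lf (nat_lit 0) (nat_lit 867610568364) (nat_lit 152) (nat_lit 575159402550) (nat_lit 76) (nat_lit 2741460291241) (nat_lit 20) (nat_lit 5) (nat_lit 22) (nat_lit 5) (nat_lit 21) (nat_lit 5) (nat_lit 354) (nat_lit 344) (nat_lit 202)))) (XT.nd (nat_lit 78) (nat_lit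 76) (nat_lit 0) (XT.lf (nat_lit 0) (nat_lit 1771946035331) (nat_lit 228) (nat_lit 2626881025234) (nat_lit 76) (nat_lit 168646172909) (nat_lit 18) (nat_lit 5) (nat_lit 21) (nat_lit 5) (nat_lit 19) (nat_lit 4) (nat_lit 355) (nat_lit 344) (nat_lit 201)) (XT.nd (nat_lit 78) (nat_lit 76) (nat_lit 0) (XT.lf (nat_lit 0) (nat_lit 2912131977689) (nat_lit 228) (nat_lit 175481250920) (nat_lit 76) (nat_lit 1905559398584) (nat_lit 18) (nat_lit 5) (nat_lit 21) (nat_lit 5) (nat_lit 19) (nat_lit 4) (nat_lit 356) (nat_lit 344) (nat_lit 200)) (XT.lf (nat_lit 0) (nat_lit 2901983090359) (nat_lit 76) (nat_lit 1441527651426) (nat_lit 152) (nat_lit 1121191448627) (nat_lit 17) (nat_lit 5) (nat_lit 18) (nat_lit 5) (nat_lit 19) (nat_lit 4) (nat_lit 357) (nat_lit 344) (nat_lit 199))))))))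
noncomputable def xc114 : XT := (XT.nd (nat_lit 1638) (nat_lit 0) (nat_lit 0) (XT.nd (nat_lit 780) (nat_lit 456) (nat_lit 0) (XT.nd (nat_lit 390) (nat_lit 228) (nat_lit 0) (XT.nd (nat_lit 156) (nat_lit 152) (nat_lit 0) (XT.nd (nat_lit 78) (nat_lit 0) (nat_lit 0) (XT.lf (nat_lit 0) (nat_lit 34598363467) (nat_lit 152) (nat_lit 5522626567071) (nat_lit 76) (nat_lit 442281520323) (nat_lit 15) (nat_lit 5) (nat_lit 17) (nat_lit 5) (nat_lit 16) (nat_lit 4) (nat_lit 358) (nat_lit 344) (nat_lit 198)) (XT.lf (nat_lit 0) (nat_lit 1457951551390) (nat_lit 152) (nat_lit 2462417214040) (nat_lit 76) (nat_lit 2654806541752) (nat_lit 15) (nat_lit 5) (nat_lit 17) (nat_lit 5) (nat_lit 16) (nat_lit 4) (nat_lit 359) (nat_lit 344) (nat_lit 197))) (XT.nd (nat_lit 78) (nat_lit 76) (nat_lit 0) (XT.lf (nat_lit 0) (nat_lit 1160104023034) (nat_lit 76) (nat_lit 1982741127401) (nat_lit 152) (nat_lit 4087143726578) (nat_lit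 14) (nat_lit 5) (nat_lit 15) (nat_lit 5) (nat_lit 16) (nat_lit 4) (nat_lit 360) (nat_lit 344) (nat_lit 196)) (XT.nd (nat_lit 78) (nat_lit 76) (nat_lit 0) (XT.lf (nat_lit 0) (nat_lit 5225486346471) (nat_lit 152) (nat_lit 2377267626383) (nat_lit 0) (nat_lit 358518475895) (nat_lit 14) (nat_lit 5) (nat_lit 16) (nat_lit 4) (nat_lit 14) (nat_lit 4) (nat_lit 361) (nat_lit 344) (nat_lit 195)) (XT.lf (nat_lit 0) (nat_lit 1948274838735) (nat_lit 76) (nat_lit 5847339033087) (nat_lit 76) (nat_lit 980371161938) (nat_lit 13) (nat_lit 4) (nat_lit 14) (nat_lit 5) (nat_lit 14) (nat_lit 4) (nat_lit 362) (nat_lit 344) (nat_lit 194))))) (XT.nd (nat_lit 156) (nat_lit 76) (nat_lit 0) (XT.nd (nat_lit 78) (nat_lit 76) (nat_lit 0) (XT.lf (nat_lit 0) (nat_lit 1076098088991) (nat_lit 152) (nat_lit 2553356980315) (nat_lit 76) (nat_lit 6057472465534) (nat_lit 12) (nat_lit 5) (nat_lit 14) (nat_lit 5) (nat_lit 13)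 (nat_lit 4) (nat_lit 363) (nat_lit 344) (nat_lit 193)) (XT.lf (nat_lit 0) (nat_lit 2541748941841) (nat_lit 76) (nat_lit 904165855332) (nat_lit 152) (nat_lit 7265806702326) (nat_lit 11) (nat_lit 5) (nat_lit 12) (nat_lit 5) (nat_lit 13) (nat_lit 4) (nat_lit 364) (nat_lit 344) (nat_lit 192))) (XT.nd (nat_lit 78) (nat_lit 76) (nat_lit 0) (XT.lf (nat_lit 0) (nat_lit 6403366799767) (nat_lit 152) (nat_lit 3280822517146) (nat_lit 0) (nat_lit 2171220823715) (nat_lit 11) (nat_lit 5) (nat_lit 13) (nat_lit 4) (nat_lit 11) (nat_lit 4) (nat_lit 365) (nat_lit 344) (nat_lit 191)) (XT.nd (nat_lit 78) (nat_lit 0) (nat_lit 0) (XT.lf (nat_lit 0) (nat_lit 2523284770734) (nat_lit 76) (nat_lit 7428691189922) (nat_lit 76) (nat_lit 3196545213585) (nat_lit 10) (nat_lit 4) (nat_lit 11) (nat_lit 5) (nat_lit 11) (nat_lit 4) (nat_lit 366) (nat_lit 344) (nat_lit 190)) (XT.lf (nat_lit 0) (nat_lit 9566727863396) (nat_lit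 76) (nat_lit 4637646172524) (nat_lit 76) (nat_lit 405500195940) (nat_lit 10) (nat_lit 4) (nat_lit 11) (nat_lit 5) (nat_lit 11) (nat_lit 4) (nat_lit 367) (nat_lit 344) (nat_lit 189)))))) (XT.nd (nat_lit 390) (nat_lit 228) (nat_lit 0) (XT.nd (nat_lit 156) (nat_lit 76) (nat_lit 0) (XT.nd (nat_lit 78) (nat_lit 0) (nat_lit 0) (XT.lf (nat_lit 0) (nat_lit 1383291323040) (nat_lit 76) (nat_lit 1228539979211) (nat_lit 152) (nat_lit 13652589673275) (nat_lit 8) (nat_lit 5) (nat_lit 9) (nat_lit 5) (nat_lit 10) (nat_lit 4) (nat_lit 368) (nat_lit 344) (nat_lit 188)) (XT.lf (nat_lit 0) (nat_lit 6427886499153) (nat_lit 152) (nat_lit 8930461318442) (nat_lit 0) (nat_lit 2747759562641) (nat_lit 8) (nat_lit 5) (nat_lit 10) (nat_lit 4) (nat_lit 8) (nat_lit 4) (nat_lit 369) (nat_lit 344) (nat_lit 187))) (XT.nd (nat_lit 78) (nat_lit 76) (nat_lit 0) (XT.lf (nat_lit 0) (nat_lit 10874851879027) (nat_lit 152) (nat_lit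 2145694638735) (nat_lit 0) (nat_lit 7194724942374) (nat_lit 8) (nat_lit 5) (nat_lit 10) (nat_lit 4) (nat_lit 8) (nat_lit 4) (nat_lit 370) (nat_lit 344) (nat_lit 186)) (XT.nd (nat_lit 78) (nat_lit 0) (nat_lit 0) (XT.lf (nat_lit 0) (nat_lit 6209609412388) (nat_lit 76) (nat_lit 10036379336947) (nat_lit 76) (nat_lit 6356252400171) (nat_lit 7) (nat_lit 4) (nat_lit 8) (nat_lit 5) (nat_lit 8) (nat_lit 4) (nat_lit 371) (nat_lit 344) (nat_lit 185)) (XT.lf (nat_lit 0) (nat_lit 16059355888543) (nat_lit 76) (nat_lit 6475601572031) (nat_lit 76) (nat_lit 2795474635147) (nat_lit 7) (nat_lit 4) (nat_lit 8) (nat_lit 5) (nat_lit 8) (nat_lit 4) (nat_lit 372) (nat_lit 344) (nat_lit 184))))) (XT.nd (nat_lit 234) (nat_lit 76) (nat_lit 0) (XT.nd (nat_lit 78) (nat_lit 76) (nat_lit 0) (XT.lf (nat_lit 0) (nat_lit 1183736458623) (nat_lit 152) (nat_lit 1135093550935) (nat_lit 76) (nat_lit 26140950743948) (nat_lit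 6) (nat_lit 5) (nat_lit 8) (nat_lit 5) (nat_lit 7) (nat_lit 4) (nat_lit 373) (nat_lit 344) (nat_lit 183)) (XT.nd (nat_lit 78) (nat_lit 0) (nat_lit 0) (XT.lf (nat_lit 0) (nat_lit 5967039391416) (nat_lit 152) (nat_lit 23230583601643) (nat_lit 0) (nat_lit 2766929011366) (nat_lit 5) (nat_lit 5) (nat_lit 7) (nat_lit 4) (nat_lit 5) (nat_lit 4) (nat_lit 374) (nat_lit 344) (nat_lit 182)) (XT.lf (nat_lit 0) (nat_lit 11640418125489) (nat_lit 152) (nat_lit 15888426017910) (nat_lit 0) (nat_lit 8440307745378) (nat_lit 5) (nat_lit 5) (nat_lit 7) (nat_lit 4) (nat_lit 5) (nat_lit 4) (nat_lit 375) (nat_lit 344) (nat_lit 181)))) (XT.nd (nat_lit 78) (nat_lit 76) (nat_lit 0) (XT.lf (nat_lit 0) (nat_lit 18164803669485) (nat_lit 152) (nat_lit 7444944797005) (nat_lit 0) (nat_lit 14964693289320) (nat_lit 5) (nat_lit 5) (nat_lit 7) (nat_lit 4) (nat_lit 5) (nat_lit 4) (nat_lit 376) (nat_lit 344) (nat_lit 180))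 (XT.nd (nat_lit 78) (nat_lit 0) (nat_lit 0) (XT.lf (nat_lit 0) (nat_lit 2486416606897) (nat_lit 76) (nat_lit 23284387647414) (nat_lit 76) (nat_lit 20084277267203) (nat_lit 4) (nat_lit 4) (nat_lit 5) (nat_lit 5) (nat_lit 5) (nat_lit 4) (nat_lit 377) (nat_lit 344) (nat_lit 179)) (XT.lf (nat_lit 0) (nat_lit 14744192494273) (nat_lit 76) (nat_lit 20162680001367) (nat_lit 76) (nat_lit 16962569621116) (nat_lit 4) (nat_lit 4) (nat_lit 5) (nat_lit 5) (nat_lit 5) (nat_lit 4) (nat_lit 378) (nat_lit 344) (nat_lit 178))))))) (XT.nd (nat_lit 44928) (nat_lit 0) (nat_lit 608) (XT.nd (nat_lit 44460) (nat_lit 0) (nat_lit 1368) (XT.nd (nat_lit 44226) (nat_lit 0) (nat_lit 1672) (XT.nd (nat_lit 78) (nat_lit 0) (nat_lit 0) (XT.lf (nat_lit 0) (nat_lit 28840634764476) (nat_lit 76) (nat_lit 16572716208558) (nat_lit 76) (nat_lit 13372605828271) (nat_lit 4) (nat_lit 4) (nat_lit 5) (nat_lit 5) (nat_lit 5) (nat_lit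 4) (nat_lit 379) (nat_lit 344) (nat_lit 177)) (XT.lf (nat_lit 0) (nat_lit 45051543374965) (nat_lit 76) (nat_lit 12444257846953) (nat_lit 76) (nat_lit 9244147466636) (nat_lit 4) (nat_lit 4) (nat_lit 5) (nat_lit 5) (nat_lit 5) (nat_lit 4) (nat_lit 380) (nat_lit 344) (nat_lit 176))) (XT.nd (nat_lit 78) (nat_lit 0) (nat_lit 0) (XT.lf (nat_lit 0) (nat_lit 244381718305) (nat_lit 380) (nat_lit 424904303293) (nat_lit 380) (nat_lit 424904303293) (nat_lit 26) (nat_lit 3) (nat_lit 31) (nat_lit 3) (nat_lit 31) (nat_lit 5) (nat_lit 345) (nat_lit 345) (nat_lit 210)) (XT.nd (nat_lit 78) (nat_lit 0) (nat_lit 76) (XT.lf (nat_lit 76) (nat_lit 222913507064) (nat_lit 0) (nat_lit 311737572778) (nat_lit 380) (nat_lit 1816473560823) (nat_lit 27) (nat_lit 5) (nat_lit 26) (nat_lit 3) (nat_lit 31) (nat_lit 5) (nat_lit 346) (nat_lit 345) (nat_lit 209)) (XT.lf (nat_lit 0) (nat_lit 669947496726) (nat_lit 304) (nat_lit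 1017669938994) (nat_lit 380) (nat_lit 838283950392) (nat_lit 27) (nat_lit 5) (nat_lit 31) (nat_lit 5) (nat_lit 32) (nat_lit 5) (nat_lit 347) (nat_lit 345) (nat_lit 208))))) (XT.nd (nat_lit 234) (nat_lit 152) (nat_lit 0) (XT.nd (nat_lit 78) (nat_lit 228) (nat_lit 0) (XT.lf (nat_lit 76) (nat_lit 268512638823) (nat_lit 0) (nat_lit 582988917451) (nat_lit 380) (nat_lit 1871498610085) (nat_lit 28) (nat_lit 5) (nat_lit 27) (nat_lit 5) (nat_lit 32) (nat_lit 5) (nat_lit 348) (nat_lit 345) (nat_lit 207)) (XT.nd (nat_lit 78) (nat_lit 304) (nat_lit 0) (XT.lf (nat_lit 0) (nat_lit 1144479297450) (nat_lit 304) (nat_lit 1110683672068) (nat_lit 76) (nat_lit 681872208226) (nat_lit 28) (nat_lit 5) (nat_lit 32) (nat_lit 5) (nat_lit 29) (nat_lit 5) (nat_lit 349) (nat_lit 345) (nat_lit 206)) (XT.lf (nat_lit 0) (nat_lit 446697481968) (nat_lit 304) (nat_lit 1080964383472) (nat_lit 380) (nat_lit 1648574850552)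 (nat_lit 24) (nat_lit 5) (nat_lit 28) (nat_lit 5) (nat_lit 29) (nat_lit 5) (nat_lit 350) (nat_lit 345) (nat_lit 205)))) (XT.nd (nat_lit 78) (nat_lit 152) (nat_lit 0) (XT.lf (nat_lit 0) (nat_lit 2040298759137) (nat_lit 380) (nat_lit 1094016686008) (nat_lit 76) (nat_lit 306206498760) (nat_lit 24) (nat_lit 5) (nat_lit 29) (nat_lit 5) (nat_lit 25) (nat_lit 5) (nat_lit 351) (nat_lit 345) (nat_lit 204)) (XT.nd (nat_lit 78) (nat_lit 0) (nat_lit 0) (XT.lf (nat_lit 0) (nat_lit 807224450977) (nat_lit 152) (nat_lit 1907506672258) (nat_lit 228) (nat_lit 1016983842320) (nat_lit 22) (nat_lit 5) (nat_lit 24) (nat_lit 5) (nat_lit 25) (nat_lit 5) (nat_lit 352) (nat_lit 345) (nat_lit 203)) (XT.lf (nat_lit 0) (nat_lit 3116604314218) (nat_lit 152) (nat_lit 430911262481) (nat_lit 228) (nat_lit 510493278544) (nat_lit 22) (nat_lit 5) (nat_lit 24) (nat_lit 5) (nat_lit 25) (nat_lit 5) (nat_lit 353) (nat_lit 345)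 (nat_lit 202)))))) (XT.nd (nat_lit 390) (nat_lit 380) (nat_lit 0) (XT.nd (nat_lit 156) (nat_lit 228) (nat_lit 0) (XT.nd (nat_lit 78) (nat_lit 0) (nat_lit 0) (XT.lf (nat_lit 0) (nat_lit 181803252420) (nat_lit 152) (nat_lit 3012450740588) (nat_lit 76) (nat_lit 1221109852270) (nat_lit 20) (nat_lit 5) (nat_lit 22) (nat_lit 5) (nat_lit 21) (nat_lit 5) (nat_lit 354) (nat_lit 345) (nat_lit 201)) (XT.lf (nat_lit 0) (nat_lit 997752163789) (nat_lit 152) (nat_lit 661433298092) (nat_lit 76) (nat_lit 3152679338057) (nat_lit 20) (nat_lit 5) (nat_lit 22) (nat_lit 5) (nat_lit 21) (nat_lit 5) (nat_lit 355) (nat_lit 345) (nat_lit 200))) (XT.nd (nat_lit 78) (nat_lit 76) (nat_lit 0) (XT.lf (nat_lit 0) (nat_lit 2037737950258) (nat_lit 228) (nat_lit 3020913163622) (nat_lit 76) (nat_lit 193943103160) (nat_lit 18) (nat_lit 5) (nat_lit 21) (nat_lit 5) (nat_lit 19) (nat_lit 4) (nat_lit 356) (nat_lit 345) (nat_lit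 199)) (XT.nd (nat_lit 78) (nat_lit 76) (nat_lit 0) (XT.lf (nat_lit 0) (nat_lit 3348951782714) (nat_lit 228) (nat_lit 201803425168) (nat_lit 76) (nat_lit 2191393312123) (nat_lit 18) (nat_lit 5) (nat_lit 21) (nat_lit 5) (nat_lit 19) (nat_lit 4) (nat_lit 357) (nat_lit 345) (nat_lit 198)) (XT.lf (nat_lit 0) (nat_lit 3337280566693) (nat_lit 76) (nat_lit 1657756794167) (nat_lit 152) (nat_lit 1289370156932) (nat_lit 17) (nat_lit 5) (nat_lit 18) (nat_lit 5) (nat_lit 19) (nat_lit 4) (nat_lit 358) (nat_lit 345) (nat_lit 197))))) (XT.nd (nat_lit 234) (nat_lit 152) (nat_lit 0) (XT.nd (nat_lit 78) (nat_lit 76) (nat_lit 0) (XT.lf (nat_lit 0) (nat_lit 39788125865) (nat_lit 152) (nat_lit 6351020538224) (nat_lit 76) (nat_lit 508623753212) (nat_lit 15) (nat_lit 5) (nat_lit 17) (nat_lit 5) (nat_lit 16) (nat_lit 4) (nat_lit 359) (nat_lit 345) (nat_lit 196)) (XT.nd (nat_lit 78) (nat_lit 76) (nat_lit 0) (XT.lf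 (nat_lit 0) (nat_lit 1676644290949) (nat_lit 152) (nat_lit 2831779784053) (nat_lit 76) (nat_lit 3053027527225) (nat_lit 15) (nat_lit 5) (nat_lit 17) (nat_lit 5) (nat_lit 16) (nat_lit 4) (nat_lit 360) (nat_lit 345) (nat_lit 195)) (XT.lf (nat_lit 0) (nat_lit 1334119638033) (nat_lit 76) (nat_lit 2280152291402) (nat_lit 152) (nat_lit 4700215278160) (nat_lit 14) (nat_lit 5) (nat_lit 15) (nat_lit 5) (nat_lit 16) (nat_lit 4) (nat_lit 361) (nat_lit 345) (nat_lit 194)))) (XT.nd (nat_lit 78) (nat_lit 152) (nat_lit 0) (XT.lf (nat_lit 0) (nat_lit 6009309304221) (nat_lit 152) (nat_lit 2733857759642) (nat_lit 0) (nat_lit 412296251327) (nat_lit 14) (nat_lit 5) (nat_lit 16) (nat_lit 4) (nat_lit 14) (nat_lit 4) (nat_lit 362) (nat_lit 345) (nat_lit 193)) (XT.nd (nat_lit 78) (nat_lit 76) (nat_lit 0) (XT.lf (nat_lit 0) (nat_lit 2240516074757) (nat_lit 76) (nat_lit 6724439883286) (nat_lit 76) (nat_lit 1127426829958)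 (nat_lit 13) (nat_lit 4) (nat_lit 14) (nat_lit 5) (nat_lit 14) (nat_lit 4) (nat_lit 363) (nat_lit 345) (nat_lit 192)) (XT.lf (nat_lit 0) (nat_lit 1237512807307) (nat_lit 152) (nat_lit 2936360517994) (nat_lit 76) (nat_lit 6966093339018) (nat_lit 12) (nat_lit 5) (nat_lit 14) (nat_lit 5) (nat_lit 13) (nat_lit 4) (nat_lit 364) (nat_lit 345) (nat_lit 191))))))))
noncomputable def xc115 : XT := (XT.nd (nat_lit 45864) (nat_lit 0) (nat_lit 228) (XT.nd (nat_lit 858) (nat_lit 76) (nat_lit 0) (XT.nd (nat_lit 390) (nat_lit 228) (nat_lit 0) (XT.nd (nat_lit 156) (nat_lit 228) (nat_lit 0) (XT.nd (nat_lit 78) (nat_lit 0) (nat_lit 0) (XT.lf (nat_lit 0) (nat_lit 2923011292060) (nat_lit 76) (nat_lit 1039790729378) (nat_lit 152) (nat_lit 8355677702280) (nat_lit 11) (nat_lit 5) (nat_lit 12) (nat_lit 5) (nat_lit 13) (nat_lit 4) (nat_lit 365) (nat_lit 345) (nat_lit 190)) (XT.lf (nat_lit 0) (nat_lit 7363871823962)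 (nat_lit 152) (nat_lit 3772945886481) (nat_lit 0) (nat_lit 2496903950642) (nat_lit 11) (nat_lit 5) (nat_lit 13) (nat_lit 4) (nat_lit 11) (nat_lit 4) (nat_lit 366) (nat_lit 345) (nat_lit 189))) (XT.nd (nat_lit 78) (nat_lit 152) (nat_lit 0) (XT.lf (nat_lit 0) (nat_lit 2901777494207) (nat_lit 76) (nat_lit 8542994864552) (nat_lit 76) (nat_lit 3676026991016) (nat_lit 10) (nat_lit 4) (nat_lit 11) (nat_lit 5) (nat_lit 11) (nat_lit 4) (nat_lit 367) (nat_lit 345) (nat_lit 188)) (XT.nd (nat_lit 78) (nat_lit 152) (nat_lit 0) (XT.lf (nat_lit 0) (nat_lit 11001737049743) (nat_lit 76) (nat_lit 5333293095048) (nat_lit 76) (nat_lit 466325221324) (nat_lit 10) (nat_lit 4) (nat_lit 11) (nat_lit 5) (nat_lit 11) (nat_lit 4) (nat_lit 368) (nat_lit 345) (nat_lit 187)) (XT.lf (nat_lit 0) (nat_lit 1590785028364) (nat_lit 76) (nat_lit 1412820972682) (nat_lit 152) (nat_lit 15700478120289) (nat_lit 8) (nat_lit 5)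 (nat_lit 9) (nat_lit 5) (nat_lit 10) (nat_lit 4) (nat_lit 369) (nat_lit 345) (nat_lit 186))))) (XT.nd (nat_lit 234) (nat_lit 152) (nat_lit 0) (XT.nd (nat_lit 78) (nat_lit 76) (nat_lit 0) (XT.lf (nat_lit 0) (nat_lit 7392069477155) (nat_lit 152) (nat_lit 10270030509906) (nat_lit 0) (nat_lit 3159923499739) (nat_lit 8) (nat_lit 5) (nat_lit 10) (nat_lit 4) (nat_lit 8) (nat_lit 4) (nat_lit 370) (nat_lit 345) (nat_lit 185)) (XT.nd (nat_lit 78) (nat_lit 76) (nat_lit 0) (XT.lf (nat_lit 0) (nat_lit 12506079663603) (nat_lit 152) (nat_lit 2467548829066) (nat_lit 0) (nat_lit 8273933686080) (nat_lit 8) (nat_lit 5) (nat_lit 10) (nat_lit 4) (nat_lit 8) (nat_lit 4) (nat_lit 371) (nat_lit 345) (nat_lit 184)) (XT.lf (nat_lit 0) (nat_lit 7141050829477) (nat_lit 76) (nat_lit 11541836234841) (nat_lit 76) (nat_lit 7309690257225) (nat_lit 7) (nat_lit 4) (nat_lit 8) (nat_lit 5) (nat_lit 8) (nat_lit 4) (nat_lit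 372) (nat_lit 345) (nat_lit 183)))) (XT.nd (nat_lit 78) (nat_lit 152) (nat_lit 0) (XT.lf (nat_lit 0) (nat_lit 18468259276374) (nat_lit 76) (nat_lit 7446941805533) (nat_lit 76) (nat_lit 3214795827836) (nat_lit 7) (nat_lit 4) (nat_lit 8) (nat_lit 5) (nat_lit 8) (nat_lit 4) (nat_lit 373) (nat_lit 345) (nat_lit 182)) (XT.nd (nat_lit 78) (nat_lit 76) (nat_lit 0) (XT.lf (nat_lit 0) (nat_lit 1361296929464) (nat_lit 152) (nat_lit 1305357579419) (nat_lit 76) (nat_lit 30062093357342) (nat_lit 6) (nat_lit 5) (nat_lit 8) (nat_lit 5) (nat_lit 7) (nat_lit 4) (nat_lit 374) (nat_lit 345) (nat_lit 181)) (XT.lf (nat_lit 0) (nat_lit 6862095302157) (nat_lit 152) (nat_lit 26715171137714) (nat_lit 0) (nat_lit 3181968364914) (nat_lit 5) (nat_lit 5) (nat_lit 7) (nat_lit 4) (nat_lit 5) (nat_lit 4) (nat_lit 375) (nat_lit 345) (nat_lit 180)))))) (XT.nd (nat_lit 44538) (nat_lit 0) (nat_lit 1520) (XT.nd (nat_lit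 156) (nat_lit 76) (nat_lit 0) (XT.nd (nat_lit 78) (nat_lit 0) (nat_lit 0) (XT.lf (nat_lit 0) (nat_lit 13386480846076) (nat_lit 152) (nat_lit 18271689916966) (nat_lit 0) (nat_lit 9706353908787) (nat_lit 5) (nat_lit 5) (nat_lit 7) (nat_lit 4) (nat_lit 5) (nat_lit 4) (nat_lit 376) (nat_lit 345) (nat_lit 179)) (XT.lf (nat_lit 0) (nat_lit 20889524221441) (nat_lit 152) (nat_lit 8561686513399) (nat_lit 0) (nat_lit 17209397284112) (nat_lit 5) (nat_lit 5) (nat_lit 7) (nat_lit 4) (nat_lit 5) (nat_lit 4) (nat_lit 377) (nat_lit 345) (nat_lit 178))) (XT.nd (nat_lit 78) (nat_lit 0) (nat_lit 0) (XT.lf (nat_lit 0) (nat_lit 2859379100946) (nat_lit 76) (nat_lit 26777045792971) (nat_lit 76) (nat_lit 23096918855606) (nat_lit 4) (nat_lit 4) (nat_lit 5) (nat_lit 5) (nat_lit 5) (nat_lit 4) (nat_lit 378) (nat_lit 345) (nat_lit 177)) (XT.nd (nat_lit 78) (nat_lit 0) (nat_lit 0) (XT.lf (nat_lit 0) (nat_lit 16955821371035)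 (nat_lit 76) (nat_lit 23187082000220) (nat_lit 76) (nat_lit 19506955062825) (nat_lit 4) (nat_lit 4) (nat_lit 5) (nat_lit 5) (nat_lit 5) (nat_lit 4) (nat_lit 379) (nat_lit 345) (nat_lit 176)) (XT.lf (nat_lit 0) (nat_lit 33166729981426) (nat_lit 76) (nat_lit 19058623638666) (nat_lit 76) (nat_lit 15378496701244) (nat_lit 4) (nat_lit 4) (nat_lit 5) (nat_lit 5) (nat_lit 5) (nat_lit 4) (nat_lit 380) (nat_lit 345) (nat_lit 175))))) (XT.nd (nat_lit 234) (nat_lit 152) (nat_lit 0) (XT.nd (nat_lit 78) (nat_lit 0) (nat_lit 0) (XT.lf (nat_lit 0) (nat_lit 281038988056) (nat_lit 380) (nat_lit 488639941871) (nat_lit 380) (nat_lit 488639941871) (nat_lit 26) (nat_lit 3) (nat_lit 31) (nat_lit 3) (nat_lit 31) (nat_lit 5) (nat_lit 346) (nat_lit 346) (nat_lit 208)) (XT.nd (nat_lit 78) (nat_lit 0) (nat_lit 76) (XT.lf (nat_lit 76) (nat_lit 256350546327) (nat_lit 0) (nat_lit 358498216918) (nat_lit 380) (nat_lit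 2088944570262) (nat_lit 27) (nat_lit 5) (nat_lit 26) (nat_lit 3) (nat_lit 31) (nat_lit 5) (nat_lit 347) (nat_lit 346) (nat_lit 207)) (XT.lf (nat_lit 0) (nat_lit 770439639570) (nat_lit 304) (nat_lit 1170320415232) (nat_lit 380) (nat_lit 964026536437) (nat_lit 27) (nat_lit 5) (nat_lit 31) (nat_lit 5) (nat_lit 32) (nat_lit 5) (nat_lit 348) (nat_lit 346) (nat_lit 206)))) (XT.nd (nat_lit 78) (nat_lit 228) (nat_lit 0) (XT.lf (nat_lit 76) (nat_lit 308789548594) (nat_lit 0) (nat_lit 670437257643) (nat_lit 380) (nat_lit 2152223382564) (nat_lit 28) (nat_lit 5) (nat_lit 27) (nat_lit 5) (nat_lit 32) (nat_lit 5) (nat_lit 349) (nat_lit 346) (nat_lit 205)) (XT.nd (nat_lit 78) (nat_lit 304) (nat_lit 0) (XT.lf (nat_lit 0) (nat_lit 1316151206341) (nat_lit 304) (nat_lit 1277286208473) (nat_lit 76) (nat_lit 784153037421) (nat_lit 28) (nat_lit 5) (nat_lit 32) (nat_lit 5) (nat_lit 29) (nat_lit 5) (nat_lit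 350) (nat_lit 346) (nat_lit 204)) (XT.lf (nat_lit 0) (nat_lit 513702118014) (nat_lit 304) (nat_lit 1243109040224) (nat_lit 380) (nat_lit 1895861063180) (nat_lit 24) (nat_lit 5) (nat_lit 28) (nat_lit 5) (nat_lit 29) (nat_lit 5) (nat_lit 351) (nat_lit 346) (nat_lit 203))))))) (XT.nd (nat_lit 858) (nat_lit 532) (nat_lit 0) (XT.nd (nat_lit 390) (nat_lit 456) (nat_lit 0) (XT.nd (nat_lit 156) (nat_lit 152) (nat_lit 0) (XT.nd (nat_lit 78) (nat_lit 152) (nat_lit 0) (XT.lf (nat_lit 0) (nat_lit 2346343584324) (nat_lit 380) (nat_lit 1258119175264) (nat_lit 76) (nat_lit 352137474183) (nat_lit 24) (nat_lit 5) (nat_lit 29) (nat_lit 5) (nat_lit 25) (nat_lit 5) (nat_lit 352) (nat_lit 346) (nat_lit 202)) (XT.lf (nat_lit 0) (nat_lit 928308131648) (nat_lit 152) (nat_lit 2193632670451) (nat_lit 228) (nat_lit 1169531406713) (nat_lit 22) (nat_lit 5) (nat_lit 24) (nat_lit 5) (nat_lit 25) (nat_lit 5) (nat_lit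 353) (nat_lit 346) (nat_lit 201))) (XT.nd (nat_lit 78) (nat_lit 152) (nat_lit 0) (XT.lf (nat_lit 0) (nat_lit 3584094972676) (nat_lit 152) (nat_lit 495547949553) (nat_lit 228) (nat_lit 587067259929) (nat_lit 22) (nat_lit 5) (nat_lit 24) (nat_lit 5) (nat_lit 25) (nat_lit 5) (nat_lit 354) (nat_lit 346) (nat_lit 200)) (XT.nd (nat_lit 78) (nat_lit 0) (nat_lit 0) (XT.lf (nat_lit 0) (nat_lit 209073749127) (nat_lit 152) (nat_lit 3464318338771) (nat_lit 76) (nat_lit 1404276332833) (nat_lit 20) (nat_lit 5) (nat_lit 22) (nat_lit 5) (nat_lit 21) (nat_lit 5) (nat_lit 355) (nat_lit 346) (nat_lit 199)) (XT.lf (nat_lit 0) (nat_lit 1147414996048) (nat_lit 152) (nat_lit 760648281583) (nat_lit 76) (nat_lit 3625581241133) (nat_lit 20) (nat_lit 5) (nat_lit 22) (nat_lit 5) (nat_lit 21) (nat_lit 5) (nat_lit 356) (nat_lit 346) (nat_lit 198))))) (XT.nd (nat_lit 234) (nat_lit 228) (nat_lit 0) (XT.nd (nat_lit 78)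 (nat_lit 76) (nat_lit 0) (XT.lf (nat_lit 0) (nat_lit 2343398650075) (nat_lit 228) (nat_lit 3474050126522) (nat_lit 76) (nat_lit 223034571897) (nat_lit 18) (nat_lit 5) (nat_lit 21) (nat_lit 5) (nat_lit 19) (nat_lit 4) (nat_lit 357) (nat_lit 346) (nat_lit 197)) (XT.nd (nat_lit 78) (nat_lit 76) (nat_lit 0) (XT.lf (nat_lit 0) (nat_lit 3851294556450) (nat_lit 228) (nat_lit 232073928819) (nat_lit 76) (nat_lit 2520102311779) (nat_lit 18) (nat_lit 5) (nat_lit 21) (nat_lit 5) (nat_lit 19) (nat_lit 4) (nat_lit 358) (nat_lit 346) (nat_lit 196)) (XT.lf (nat_lit 0) (nat_lit 3837872661362) (nat_lit 76) (nat_lit 1906420309532) (nat_lit 152) (nat_lit 1482775673675) (nat_lit 17) (nat_lit 5) (nat_lit 18) (nat_lit 5) (nat_lit 19) (nat_lit 4) (nat_lit 359) (nat_lit 346) (nat_lit 195)))) (XT.nd (nat_lit 78) (nat_lit 76) (nat_lit 0) (XT.lf (nat_lit 0) (nat_lit 45756350702) (nat_lit 152) (nat_lit 7303673608442)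 (nat_lit 76) (nat_lit 584917319855) (nat_lit 15) (nat_lit 5) (nat_lit 17) (nat_lit 5) (nat_lit 16) (nat_lit 4) (nat_lit 360) (nat_lit 346) (nat_lit 194)) (XT.nd (nat_lit 78) (nat_lit 76) (nat_lit 0) (XT.lf (nat_lit 0) (nat_lit 1928140939771) (nat_lit 152) (nat_lit 3256546742517) (nat_lit 76) (nat_lit 3510981659492) (nat_lit 15) (nat_lit 5) (nat_lit 17) (nat_lit 5) (nat_lit 16) (nat_lit 4) (nat_lit 361) (nat_lit 346) (nat_lit 193)) (XT.lf (nat_lit 0) (nat_lit 1534237592467) (nat_lit 76) (nat_lit 2622175131249) (nat_lit 152) (nat_lit 5405247564284) (nat_lit 14) (nat_lit 5) (nat_lit 15) (nat_lit 5) (nat_lit 16) (nat_lit 4) (nat_lit 362) (nat_lit 346) (nat_lit 192)))))) (XT.nd (nat_lit 390) (nat_lit 304) (nat_lit 0) (XT.nd (nat_lit 156) (nat_lit 152) (nat_lit 0) (XT.nd (nat_lit 78) (nat_lit 76) (nat_lit 0) (XT.lf (nat_lit 0) (nat_lit 6910705704224) (nat_lit 152) (nat_lit 3143936415499) (nat_lit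 0) (nat_lit 474140692086) (nat_lit 14) (nat_lit 5) (nat_lit 16) (nat_lit 4) (nat_lit 14) (nat_lit 4) (nat_lit 363) (nat_lit 346) (nat_lit 191)) (XT.lf (nat_lit 0) (nat_lit 2576593493692) (nat_lit 76) (nat_lit 7733105862178) (nat_lit 76) (nat_lit 1296540849711) (nat_lit 13) (nat_lit 4) (nat_lit 14) (nat_lit 5) (nat_lit 14) (nat_lit 4) (nat_lit 364) (nat_lit 346) (nat_lit 190))) (XT.nd (nat_lit 78) (nat_lit 76) (nat_lit 0) (XT.lf (nat_lit 0) (nat_lit 1423139732158) (nat_lit 152) (nat_lit 3376814588609) (nat_lit 76) (nat_lit 8011007342633) (nat_lit 12) (nat_lit 5) (nat_lit 14) (nat_lit 5) (nat_lit 13) (nat_lit 4) (nat_lit 365) (nat_lit 346) (nat_lit 189)) (XT.nd (nat_lit 78) (nat_lit 0) (nat_lit 0) (XT.lf (nat_lit 0) (nat_lit 3361462992631) (nat_lit 76) (nat_lit 1195759335569) (nat_lit 152) (nat_lit 9609029353542) (nat_lit 11) (nat_lit 5) (nat_lit 12) (nat_lit 5) (nat_lit 13) (nat_lit 4)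 (nat_lit 366) (nat_lit 346) (nat_lit 188)) (XT.lf (nat_lit 0) (nat_lit 8468452600756) (nat_lit 152) (nat_lit 4338887763224) (nat_lit 0) (nat_lit 2871439545786) (nat_lit 11) (nat_lit 5) (nat_lit 13) (nat_lit 4) (nat_lit 11) (nat_lit 4) (nat_lit 367) (nat_lit 346) (nat_lit 187))))) (XT.nd (nat_lit 234) (nat_lit 76) (nat_lit 0) (XT.nd (nat_lit 78) (nat_lit 152) (nat_lit 0) (XT.lf (nat_lit 0) (nat_lit 3337044124284) (nat_lit 76) (nat_lit 9824444091317) (nat_lit 76) (nat_lit 4227431036184) (nat_lit 10) (nat_lit 4) (nat_lit 11) (nat_lit 5) (nat_lit 11) (nat_lit 4) (nat_lit 368) (nat_lit 346) (nat_lit 186)) (XT.nd (nat_lit 78) (nat_lit 152) (nat_lit 0) (XT.lf (nat_lit 0) (nat_lit 12651997612374) (nat_lit 76) (nat_lit 6133287056768) (nat_lit 76) (nat_lit 536274001494) (nat_lit 10) (nat_lit 4) (nat_lit 11) (nat_lit 5) (nat_lit 11) (nat_lit 4) (nat_lit 369) (nat_lit 346) (nat_lit 185)) (XT.lf (nat_lit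 0) (nat_lit 1829402787812) (nat_lit 76) (nat_lit 1624744116006) (nat_lit 152) (nat_lit 18055549835324) (nat_lit 8) (nat_lit 5) (nat_lit 9) (nat_lit 5) (nat_lit 10) (nat_lit 4) (nat_lit 370) (nat_lit 346) (nat_lit 184)))) (XT.nd (nat_lit 78) (nat_lit 76) (nat_lit 0) (XT.lf (nat_lit 0) (nat_lit 8500879901095) (nat_lit 152) (nat_lit 11810535081627) (nat_lit 0) (nat_lit 3633912026743) (nat_lit 8) (nat_lit 5) (nat_lit 10) (nat_lit 4) (nat_lit 8) (nat_lit 4) (nat_lit 371) (nat_lit 346) (nat_lit 183)) (XT.nd (nat_lit 78) (nat_lit 76) (nat_lit 0) (XT.lf (nat_lit 0) (nat_lit 14381991615201) (nat_lit 152) (nat_lit 2837681149282) (nat_lit 0) (nat_lit 9515023740768) (nat_lit 8) (nat_lit 5) (nat_lit 10) (nat_lit 4) (nat_lit 8) (nat_lit 4) (nat_lit 372) (nat_lit 346) (nat_lit 182)) (XT.lf (nat_lit 0) (nat_lit 8212208457854) (nat_lit 76) (nat_lit 13273111668066) (nat_lit 76) (nat_lit 8406143793562)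 (nat_lit 7) (nat_lit 4) (nat_lit 8) (nat_lit 5) (nat_lit 8) (nat_lit 4) (nat_lit 373) (nat_lit 346) (nat_lit 181))))))))
noncomputable def xc116 : XT := (XT.nd (nat_lit 45864) (nat_lit 0) (nat_lit 0) (XT.nd (nat_lit 45006) (nat_lit 0) (nat_lit 988) (XT.nd (nat_lit 390) (nat_lit 76) (nat_lit 0) (XT.nd (nat_lit 156) (nat_lit 76) (nat_lit 0) (XT.nd (nat_lit 78) (nat_lit 76) (nat_lit 0) (XT.lf (nat_lit 0) (nat_lit 21238498171269) (nat_lit 76) (nat_lit 8563983074622) (nat_lit 76) (nat_lit 3697015200057) (nat_lit 7) (nat_lit 4) (nat_lit 8) (nat_lit 5) (nat_lit 8) (nat_lit 4) (nat_lit 374) (nat_lit 346) (nat_lit 180)) (XT.lf (nat_lit 0) (nat_lit 1565491470431) (nat_lit 152) (nat_lit 1501161213190) (nat_lit 76) (nat_lit 34571407362305) (nat_lit 6) (nat_lit 5) (nat_lit 8) (nat_lit 5) (nat_lit 7) (nat_lit 4) (nat_lit 375) (nat_lit 346) (nat_lit 179))) (XT.nd (nat_lit 78) (nat_lit 0) (nat_lit 0)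 (XT.lf (nat_lit 0) (nat_lit 7891409599014) (nat_lit 152) (nat_lit 30722446805214) (nat_lit 0) (nat_lit 3659263621044) (nat_lit 5) (nat_lit 5) (nat_lit 7) (nat_lit 4) (nat_lit 5) (nat_lit 4) (nat_lit 376) (nat_lit 346) (nat_lit 178)) (XT.nd (nat_lit 78) (nat_lit 0) (nat_lit 0) (XT.lf (nat_lit 0) (nat_lit 15394452974321) (nat_lit 152) (nat_lit 21012443401765) (nat_lit 0) (nat_lit 11162306996317) (nat_lit 5) (nat_lit 5) (nat_lit 7) (nat_lit 4) (nat_lit 5) (nat_lit 4) (nat_lit 377) (nat_lit 346) (nat_lit 177)) (XT.lf (nat_lit 0) (nat_lit 24022952855817) (nat_lit 152) (nat_lit 9845939488021) (nat_lit 0) (nat_lit 19790806877782) (nat_lit 5) (nat_lit 5) (nat_lit 7) (nat_lit 4) (nat_lit 5) (nat_lit 4) (nat_lit 378) (nat_lit 346) (nat_lit 176))))) (XT.nd (nat_lit 44382) (nat_lit 0) (nat_lit 1672) (XT.nd (nat_lit 78) (nat_lit 0) (nat_lit 0) (XT.lf (nat_lit 0) (nat_lit 3288285968366) (nat_lit 76)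 (nat_lit 30793602660740) (nat_lit 76) (nat_lit 26561456682679) (nat_lit 4) (nat_lit 4) (nat_lit 5) (nat_lit 5) (nat_lit 5) (nat_lit 4) (nat_lit 379) (nat_lit 346) (nat_lit 175)) (XT.lf (nat_lit 0) (nat_lit 19499194578672) (nat_lit 76) (nat_lit 26665144299230) (nat_lit 76) (nat_lit 22432998321146) (nat_lit 4) (nat_lit 4) (nat_lit 5) (nat_lit 5) (nat_lit 5) (nat_lit 4) (nat_lit 380) (nat_lit 346) (nat_lit 174))) (XT.nd (nat_lit 78) (nat_lit 0) (nat_lit 0) (XT.lf (nat_lit 0) (nat_lit 323194845342) (nat_lit 380) (nat_lit 561935927922) (nat_lit 380) (nat_lit 561935927922) (nat_lit 26) (nat_lit 3) (nat_lit 31) (nat_lit 3) (nat_lit 31) (nat_lit 5) (nat_lit 347) (nat_lit 347) (nat_lit 206)) (XT.nd (nat_lit 78) (nat_lit 0) (nat_lit 76) (XT.lf (nat_lit 76) (nat_lit 294803138260) (nat_lit 0) (nat_lit 412272955673) (nat_lit 380) (nat_lit 2402286237136) (nat_lit 27) (nat_lit 5) (nat_lit 26) (nat_lit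 3) (nat_lit 31) (nat_lit 5) (nat_lit 348) (nat_lit 347) (nat_lit 205)) (XT.lf (nat_lit 0) (nat_lit 886005599370) (nat_lit 304) (nat_lit 1345868466469) (nat_lit 380) (nat_lit 1108630511977) (nat_lit 27) (nat_lit 5) (nat_lit 31) (nat_lit 5) (nat_lit 32) (nat_lit 5) (nat_lit 349) (nat_lit 347) (nat_lit 204)))))) (XT.nd (nat_lit 390) (nat_lit 380) (nat_lit 0) (XT.nd (nat_lit 156) (nat_lit 380) (nat_lit 0) (XT.nd (nat_lit 78) (nat_lit 0) (nat_lit 76) (XT.lf (nat_lit 76) (nat_lit 355107991429) (nat_lit 0) (nat_lit 771002848236) (nat_lit 380) (nat_lit 2475056875557) (nat_lit 28) (nat_lit 5) (nat_lit 27) (nat_lit 5) (nat_lit 32) (nat_lit 5) (nat_lit 350) (nat_lit 347) (nat_lit 203)) (XT.lf (nat_lit 0) (nat_lit 1513573898085) (nat_lit 304) (nat_lit 1468879128852) (nat_lit 76) (nat_lit 901775991492) (nat_lit 28) (nat_lit 5) (nat_lit 32) (nat_lit 5) (nat_lit 29) (nat_lit 5) (nat_lit 351) (nat_lit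 347) (nat_lit 202))) (XT.nd (nat_lit 78) (nat_lit 152) (nat_lit 0) (XT.lf (nat_lit 0) (nat_lit 590757446114) (nat_lit 304) (nat_lit 1429575395676) (nat_lit 380) (nat_lit 2180240211350) (nat_lit 24) (nat_lit 5) (nat_lit 28) (nat_lit 5) (nat_lit 29) (nat_lit 5) (nat_lit 352) (nat_lit 347) (nat_lit 201)) (XT.nd (nat_lit 78) (nat_lit 152) (nat_lit 0) (XT.lf (nat_lit 0) (nat_lit 2698295130529) (nat_lit 380) (nat_lit 1446837041236) (nat_lit 76) (nat_lit 404958095772) (nat_lit 24) (nat_lit 5) (nat_lit 29) (nat_lit 5) (nat_lit 25) (nat_lit 5) (nat_lit 353) (nat_lit 347) (nat_lit 200)) (XT.lf (nat_lit 0) (nat_lit 1067554361244) (nat_lit 152) (nat_lit 2522677569019) (nat_lit 228) (nat_lit 1344961108680) (nat_lit 22) (nat_lit 5) (nat_lit 24) (nat_lit 5) (nat_lit 25) (nat_lit 5) (nat_lit 354) (nat_lit 347) (nat_lit 199))))) (XT.nd (nat_lit 234) (nat_lit 228) (nat_lit 0) (XT.nd (nat_lit 78) (nat_lit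 152) (nat_lit 0) (XT.lf (nat_lit 0) (nat_lit 4121709227142) (nat_lit 152) (nat_lit 569880140247) (nat_lit 228) (nat_lit 675127341058) (nat_lit 22) (nat_lit 5) (nat_lit 24) (nat_lit 5) (nat_lit 25) (nat_lit 5) (nat_lit 355) (nat_lit 347) (nat_lit 198)) (XT.nd (nat_lit 78) (nat_lit 0) (nat_lit 0) (XT.lf (nat_lit 0) (nat_lit 240434818183) (nat_lit 152) (nat_lit 3983966079828) (nat_lit 76) (nat_lit 1614917784816) (nat_lit 20) (nat_lit 5) (nat_lit 22) (nat_lit 5) (nat_lit 21) (nat_lit 5) (nat_lit 356) (nat_lit 347) (nat_lit 197)) (XT.lf (nat_lit 0) (nat_lit 1319527251270) (nat_lit 152) (nat_lit 874745515336) (nat_lit 76) (nat_lit 4169418429093) (nat_lit 20) (nat_lit 5) (nat_lit 22) (nat_lit 5) (nat_lit 21) (nat_lit 5) (nat_lit 357) (nat_lit 347) (nat_lit 196)))) (XT.nd (nat_lit 78) (nat_lit 76) (nat_lit 0) (XT.lf (nat_lit 0) (nat_lit 2694908453091) (nat_lit 228) (nat_lit 3995157636697) (nat_lit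 76) (nat_lit 256489760148) (nat_lit 18) (nat_lit 5) (nat_lit 21) (nat_lit 5) (nat_lit 19) (nat_lit 4) (nat_lit 358) (nat_lit 347) (nat_lit 195)) (XT.nd (nat_lit 78) (nat_lit 76) (nat_lit 0) (XT.lf (nat_lit 0) (nat_lit 4428988744704) (nat_lit 228) (nat_lit 266885010487) (nat_lit 76) (nat_lit 2898117660691) (nat_lit 18) (nat_lit 5) (nat_lit 21) (nat_lit 5) (nat_lit 19) (nat_lit 4) (nat_lit 359) (nat_lit 347) (nat_lit 194)) (XT.lf (nat_lit 0) (nat_lit 4413553567873) (nat_lit 76) (nat_lit 2192383353119) (nat_lit 152) (nat_lit 1705192019587) (nat_lit 17) (nat_lit 5) (nat_lit 18) (nat_lit 5) (nat_lit 19) (nat_lit 4) (nat_lit 360) (nat_lit 347) (nat_lit 193))))))) (XT.nd (nat_lit 858) (nat_lit 304) (nat_lit 0) (XT.nd (nat_lit 390) (nat_lit 380) (nat_lit 0) (XT.nd (nat_lit 156) (nat_lit 152) (nat_lit 0) (XT.nd (nat_lit 78) (nat_lit 0) (nat_lit 0) (XT.lf (nat_lit 0) (nat_lit 52619807812) (nat_lit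 152) (nat_lit 8399224641756) (nat_lit 76) (nat_lit 672654920601) (nat_lit 15) (nat_lit 5) (nat_lit 17) (nat_lit 5) (nat_lit 16) (nat_lit 4) (nat_lit 361) (nat_lit 347) (nat_lit 192)) (XT.lf (nat_lit 0) (nat_lit 2217362084654) (nat_lit 152) (nat_lit 3745028746979) (nat_lit 76) (nat_lit 4037628910822) (nat_lit 15) (nat_lit 5) (nat_lit 17) (nat_lit 5) (nat_lit 16) (nat_lit 4) (nat_lit 362) (nat_lit 347) (nat_lit 191))) (XT.nd (nat_lit 78) (nat_lit 76) (nat_lit 0) (XT.lf (nat_lit 0) (nat_lit 1764373237937) (nat_lit 76) (nat_lit 3015501398016) (nat_lit 152) (nat_lit 6216034694692) (nat_lit 14) (nat_lit 5) (nat_lit 15) (nat_lit 5) (nat_lit 16) (nat_lit 4) (nat_lit 363) (nat_lit 347) (nat_lit 190)) (XT.nd (nat_lit 78) (nat_lit 76) (nat_lit 0) (XT.lf (nat_lit 0) (nat_lit 7947311563163) (nat_lit 152) (nat_lit 3615526871707) (nat_lit 0) (nat_lit 545261798213) (nat_lit 14) (nat_lit 5) (nat_lit 16)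 (nat_lit 4) (nat_lit 14) (nat_lit 4) (nat_lit 364) (nat_lit 347) (nat_lit 189)) (XT.lf (nat_lit 0) (nat_lit 2963082523585) (nat_lit 76) (nat_lit 8893071738781) (nat_lit 76) (nat_lit 1491021973583) (nat_lit 13) (nat_lit 4) (nat_lit 14) (nat_lit 5) (nat_lit 14) (nat_lit 4) (nat_lit 365) (nat_lit 347) (nat_lit 188))))) (XT.nd (nat_lit 234) (nat_lit 228) (nat_lit 0) (XT.nd (nat_lit 78) (nat_lit 76) (nat_lit 0) (XT.lf (nat_lit 0) (nat_lit 1636610694822) (nat_lit 152) (nat_lit 3883336771544) (nat_lit 76) (nat_lit 9212658446117) (nat_lit 12) (nat_lit 5) (nat_lit 14) (nat_lit 5) (nat_lit 13) (nat_lit 4) (nat_lit 366) (nat_lit 347) (nat_lit 187)) (XT.nd (nat_lit 78) (nat_lit 0) (nat_lit 0) (XT.lf (nat_lit 0) (nat_lit 3865682446638) (nat_lit 76) (nat_lit 1375123233472) (nat_lit 152) (nat_lit 11050383753488) (nat_lit 11) (nat_lit 5) (nat_lit 12) (nat_lit 5) (nat_lit 13) (nat_lit 4) (nat_lit 367)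 (nat_lit 347) (nat_lit 186)) (XT.lf (nat_lit 0) (nat_lit 9738720493288) (nat_lit 152) (nat_lit 4989720922999) (nat_lit 0) (nat_lit 3302155479581) (nat_lit 11) (nat_lit 5) (nat_lit 13) (nat_lit 4) (nat_lit 11) (nat_lit 4) (nat_lit 368) (nat_lit 347) (nat_lit 185)))) (XT.nd (nat_lit 78) (nat_lit 152) (nat_lit 0) (XT.lf (nat_lit 0) (nat_lit 3837600747422) (nat_lit 76) (nat_lit 11298110702809) (nat_lit 76) (nat_lit 4861545688978) (nat_lit 10) (nat_lit 4) (nat_lit 11) (nat_lit 5) (nat_lit 11) (nat_lit 4) (nat_lit 369) (nat_lit 347) (nat_lit 184)) (XT.nd (nat_lit 78) (nat_lit 152) (nat_lit 0) (XT.lf (nat_lit 0) (nat_lit 14549797258139) (nat_lit 76) (nat_lit 7053280113365) (nat_lit 76) (nat_lit 616715099427) (nat_lit 10) (nat_lit 4) (nat_lit 11) (nat_lit 5) (nat_lit 11) (nat_lit 4) (nat_lit 370) (nat_lit 347) (nat_lit 183)) (XT.lf (nat_lit 0) (nat_lit 2103813209911) (nat_lit 76) (nat_lit 1868455731457)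 (nat_lit 152) (nat_lit 20763882308348) (nat_lit 8) (nat_lit 5) (nat_lit 9) (nat_lit 5) (nat_lit 10) (nat_lit 4) (nat_lit 371) (nat_lit 347) (nat_lit 182)))))) (XT.nd (nat_lit 390) (nat_lit 152) (nat_lit 0) (XT.nd (nat_lit 156) (nat_lit 152) (nat_lit 0) (XT.nd (nat_lit 78) (nat_lit 0) (nat_lit 0) (XT.lf (nat_lit 0) (nat_lit 9776011888049) (nat_lit 152) (nat_lit 13582115340268) (nat_lit 0) (nat_lit 4178998832299) (nat_lit 8) (nat_lit 5) (nat_lit 10) (nat_lit 4) (nat_lit 8) (nat_lit 4) (nat_lit 372) (nat_lit 347) (nat_lit 181)) (XT.lf (nat_lit 0) (nat_lit 16539290359038) (nat_lit 152) (nat_lit 3263333318541) (nat_lit 0) (nat_lit 10942277303227) (nat_lit 8) (nat_lit 5) (nat_lit 10) (nat_lit 4) (nat_lit 8) (nat_lit 4) (nat_lit 373) (nat_lit 347) (nat_lit 180))) (XT.nd (nat_lit 78) (nat_lit 76) (nat_lit 0) (XT.lf (nat_lit 0) (nat_lit 9444039729523) (nat_lit 76) (nat_lit 15264078416762) (nat_lit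 76) (nat_lit 9667065360897) (nat_lit 7) (nat_lit 4) (nat_lit 8) (nat_lit 5) (nat_lit 8) (nat_lit 4) (nat_lit 374) (nat_lit 347) (nat_lit 179)) (XT.nd (nat_lit 78) (nat_lit 76) (nat_lit 0) (XT.lf (nat_lit 0) (nat_lit 24424272899560) (nat_lit 76) (nat_lit 9848580534499) (nat_lit 76) (nat_lit 4251567478588) (nat_lit 7) (nat_lit 4) (nat_lit 8) (nat_lit 5) (nat_lit 8) (nat_lit 4) (nat_lit 375) (nat_lit 347) (nat_lit 178)) (XT.lf (nat_lit 0) (nat_lit 1800315192166) (nat_lit 152) (nat_lit 1726335392792) (nat_lit 76) (nat_lit 39757118467681) (nat_lit 6) (nat_lit 5) (nat_lit 8) (nat_lit 5) (nat_lit 7) (nat_lit 4) (nat_lit 376) (nat_lit 347) (nat_lit 177))))) (XT.nd (nat_lit 234) (nat_lit 76) (nat_lit 0) (XT.nd (nat_lit 78) (nat_lit 0) (nat_lit 0) (XT.lf (nat_lit 0) (nat_lit 9075121040025) (nat_lit 152) (nat_lit 35330813823608) (nat_lit 0) (nat_lit 4208153165255) (nat_lit 5) (nat_lit 5) (nat_lit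 7) (nat_lit 4) (nat_lit 5) (nat_lit 4) (nat_lit 377) (nat_lit 347) (nat_lit 176)) (XT.nd (nat_lit 78) (nat_lit 0) (nat_lit 0) (XT.lf (nat_lit 0) (nat_lit 17703620921478) (nat_lit 152) (nat_lit 24164309909954) (nat_lit 0) (nat_lit 12836653046681) (nat_lit 5) (nat_lit 5) (nat_lit 7) (nat_lit 4) (nat_lit 5) (nat_lit 4) (nat_lit 378) (nat_lit 347) (nat_lit 175)) (XT.lf (nat_lit 0) (nat_lit 27626395785067) (nat_lit 152) (nat_lit 11322830409419) (nat_lit 0) (nat_lit 22759427910246) (nat_lit 5) (nat_lit 5) (nat_lit 7) (nat_lit 4) (nat_lit 5) (nat_lit 4) (nat_lit 379) (nat_lit 347) (nat_lit 174)))) (XT.nd (nat_lit 44382) (nat_lit 0) (nat_lit 1672) (XT.lf (nat_lit 0) (nat_lit 3781528865345) (nat_lit 76) (nat_lit 35412643058962) (nat_lit 76) (nat_lit 30545675184122) (nat_lit 4) (nat_lit 4) (nat_lit 5) (nat_lit 5) (nat_lit 5) (nat_lit 4) (nat_lit 380) (nat_lit 347) (nat_lit 173)) (XT.nd (nat_lit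 78) (nat_lit 0) (nat_lit 0) (XT.lf (nat_lit 0) (nat_lit 371674079008) (nat_lit 380) (nat_lit 646226313156) (nat_lit 380) (nat_lit 646226313156) (nat_lit 26) (nat_lit 3) (nat_lit 31) (nat_lit 3) (nat_lit 31) (nat_lit 5) (nat_lit 348) (nat_lit 348) (nat_lit 204)) (XT.lf (nat_lit 76) (nat_lit 339023616549) (nat_lit 0) (nat_lit 474113903725) (nat_lit 380) (nat_lit 2762629158593) (nat_lit 27) (nat_lit 5) (nat_lit 26) (nat_lit 3) (nat_lit 31) (nat_lit 5) (nat_lit 349) (nat_lit 348) (nat_lit 203))))))))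
noncomputable def xc117 : XT := (XT.nd (nat_lit 1716) (nat_lit 380) (nat_lit 0) (XT.nd (nat_lit 858) (nat_lit 608) (nat_lit 0) (XT.nd (nat_lit 390) (nat_lit 456) (nat_lit 0) (XT.nd (nat_lit 156) (nat_lit 228) (nat_lit 0) (XT.nd (nat_lit 78) (nat_lit 0) (nat_lit 0) (XT.lf (nat_lit 0) (nat_lit 1018906449759) (nat_lit 304) (nat_lit 1547748728086) (nat_lit 380) (nat_lit 1274925085050) (nat_lit 27) (nat_lit 5) (nat_lit 31) (nat_lit 5) (nat_lit 32) (nat_lit 5) (nat_lit 350) (nat_lit 348) (nat_lit 202)) (XT.lf (nat_lit 76) (nat_lit 408374198118) (nat_lit 0) (nat_lit 886653276943) (nat_lit 380) (nat_lit 2846315396008) (nat_lit 28) (nat_lit 5) (nat_lit 27) (nat_lit 5) (nat_lit 32) (nat_lit 5) (nat_lit 351) (nat_lit 348) (nat_lit 201))) (XT.nd (nat_lit 78) (nat_lit 304) (nat_lit 0) (XT.lf (nat_lit 0) (nat_lit 1740609990959) (nat_lit 304) (nat_lit 1689210989943) (nat_lit 76) (nat_lit 1037042389050)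 (nat_lit 28) (nat_lit 5) (nat_lit 32) (nat_lit 5) (nat_lit 29) (nat_lit 5) (nat_lit 352) (nat_lit 348) (nat_lit 200)) (XT.nd (nat_lit 78) (nat_lit 0) (nat_lit 0) (XT.lf (nat_lit 0) (nat_lit 679371070892) (nat_lit 304) (nat_lit 1644011704588) (nat_lit 380) (nat_lit 2507276234503) (nat_lit 24) (nat_lit 5) (nat_lit 28) (nat_lit 5) (nat_lit 29) (nat_lit 5) (nat_lit 353) (nat_lit 348) (nat_lit 199)) (XT.lf (nat_lit 0) (nat_lit 3103039406578) (nat_lit 380) (nat_lit 1663862589621) (nat_lit 76) (nat_lit 465701810486) (nat_lit 24) (nat_lit 5) (nat_lit 29) (nat_lit 5) (nat_lit 25) (nat_lit 5) (nat_lit 354) (nat_lit 348) (nat_lit 198))))) (XT.nd (nat_lit 234) (nat_lit 152) (nat_lit 0) (XT.nd (nat_lit 78) (nat_lit 152) (nat_lit 0) (XT.lf (nat_lit 0) (nat_lit 1227687522878) (nat_lit 152) (nat_lit 2901079202859) (nat_lit 228) (nat_lit 1546705268147) (nat_lit 22) (nat_lit 5) (nat_lit 24) (nat_lit 5)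 (nat_lit 25) (nat_lit 5) (nat_lit 355) (nat_lit 348) (nat_lit 197)) (XT.nd (nat_lit 78) (nat_lit 152) (nat_lit 0) (XT.lf (nat_lit 0) (nat_lit 4739965617688) (nat_lit 152) (nat_lit 655362159968) (nat_lit 228) (nat_lit 776396436273) (nat_lit 22) (nat_lit 5) (nat_lit 24) (nat_lit 5) (nat_lit 25) (nat_lit 5) (nat_lit 356) (nat_lit 348) (nat_lit 196)) (XT.lf (nat_lit 0) (nat_lit 276500045967) (nat_lit 152) (nat_lit 4581560984424) (nat_lit 76) (nat_lit 1857155454095) (nat_lit 20) (nat_lit 5) (nat_lit 22) (nat_lit 5) (nat_lit 21) (nat_lit 5) (nat_lit 357) (nat_lit 348) (nat_lit 195)))) (XT.nd (nat_lit 78) (nat_lit 152) (nat_lit 0) (XT.lf (nat_lit 0) (nat_lit 1517456343357) (nat_lit 152) (nat_lit 1005957336220) (nat_lit 76) (nat_lit 4794831194811) (nat_lit 20) (nat_lit 5) (nat_lit 22) (nat_lit 5) (nat_lit 21) (nat_lit 5) (nat_lit 358) (nat_lit 348) (nat_lit 194)) (XT.nd (nat_lit 78) (nat_lit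 0) (nat_lit 0) (XT.lf (nat_lit 0) (nat_lit 3099144725216) (nat_lit 228) (nat_lit 4594431275545) (nat_lit 76) (nat_lit 294963226036) (nat_lit 18) (nat_lit 5) (nat_lit 21) (nat_lit 5) (nat_lit 19) (nat_lit 4) (nat_lit 359) (nat_lit 348) (nat_lit 193)) (XT.lf (nat_lit 0) (nat_lit 5093337060029) (nat_lit 228) (nat_lit 306917756271) (nat_lit 76) (nat_lit 3332835311416) (nat_lit 18) (nat_lit 5) (nat_lit 21) (nat_lit 5) (nat_lit 19) (nat_lit 4) (nat_lit 360) (nat_lit 348) (nat_lit 192)))))) (XT.nd (nat_lit 390) (nat_lit 304) (nat_lit 0) (XT.nd (nat_lit 156) (nat_lit 76) (nat_lit 0) (XT.nd (nat_lit 78) (nat_lit 152) (nat_lit 0) (XT.lf (nat_lit 0) (nat_lit 5075586608580) (nat_lit 76) (nat_lit 2521240853937) (nat_lit 152) (nat_lit 1960970818639) (nat_lit 17) (nat_lit 5) (nat_lit 18) (nat_lit 5) (nat_lit 19) (nat_lit 4) (nat_lit 361) (nat_lit 348) (nat_lit 191)) (XT.lf (nat_lit 0) (nat_lit 60512782389)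 (nat_lit 152) (nat_lit 9659108332007) (nat_lit 76) (nat_lit 773553160784) (nat_lit 15) (nat_lit 5) (nat_lit 17) (nat_lit 5) (nat_lit 16) (nat_lit 4) (nat_lit 362) (nat_lit 348) (nat_lit 190))) (XT.nd (nat_lit 78) (nat_lit 76) (nat_lit 0) (XT.lf (nat_lit 0) (nat_lit 2549966400313) (nat_lit 152) (nat_lit 4306783053798) (nat_lit 76) (nat_lit 4643273249265) (nat_lit 15) (nat_lit 5) (nat_lit 17) (nat_lit 5) (nat_lit 16) (nat_lit 4) (nat_lit 363) (nat_lit 348) (nat_lit 189)) (XT.nd (nat_lit 78) (nat_lit 0) (nat_lit 0) (XT.lf (nat_lit 0) (nat_lit 2029029228619) (nat_lit 76) (nat_lit 3467826605509) (nat_lit 152) (nat_lit 7148439895695) (nat_lit 14) (nat_lit 5) (nat_lit 15) (nat_lit 5) (nat_lit 16) (nat_lit 4) (nat_lit 364) (nat_lit 348) (nat_lit 188)) (XT.lf (nat_lit 0) (nat_lit 9139408300136) (nat_lit 152) (nat_lit 4157855897838) (nat_lit 0) (nat_lit 627051069695) (nat_lit 14) (nat_lit 5) (nat_lit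 16) (nat_lit 4) (nat_lit 14) (nat_lit 4) (nat_lit 365) (nat_lit 348) (nat_lit 187))))) (XT.nd (nat_lit 234) (nat_lit 76) (nat_lit 0) (XT.nd (nat_lit 78) (nat_lit 152) (nat_lit 0) (XT.lf (nat_lit 0) (nat_lit 3407544906538) (nat_lit 76) (nat_lit 10227032497538) (nat_lit 76) (nat_lit 1714675266910) (nat_lit 13) (nat_lit 4) (nat_lit 14) (nat_lit 5) (nat_lit 14) (nat_lit 4) (nat_lit 366) (nat_lit 348) (nat_lit 186)) (XT.nd (nat_lit 78) (nat_lit 76) (nat_lit 0) (XT.lf (nat_lit 0) (nat_lit 1882102301193) (nat_lit 152) (nat_lit 4465837283226) (nat_lit 76) (nat_lit 10594557214614) (nat_lit 12) (nat_lit 5) (nat_lit 14) (nat_lit 5) (nat_lit 13) (nat_lit 4) (nat_lit 367) (nat_lit 348) (nat_lit 185)) (XT.lf (nat_lit 0) (nat_lit 4445534817500) (nat_lit 76) (nat_lit 1581391716654) (nat_lit 152) (nat_lit 12707941314179) (nat_lit 11) (nat_lit 5) (nat_lit 12) (nat_lit 5) (nat_lit 13) (nat_lit 4) (nat_lit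 368) (nat_lit 348) (nat_lit 184)))) (XT.nd (nat_lit 78) (nat_lit 76) (nat_lit 0) (XT.lf (nat_lit 0) (nat_lit 11199528569111) (nat_lit 152) (nat_lit 5738179057887) (nat_lit 0) (nat_lit 3797478802975) (nat_lit 11) (nat_lit 5) (nat_lit 13) (nat_lit 4) (nat_lit 11) (nat_lit 4) (nat_lit 369) (nat_lit 348) (nat_lit 183)) (XT.nd (nat_lit 78) (nat_lit 0) (nat_lit 0) (XT.lf (nat_lit 0) (nat_lit 4413240862934) (nat_lit 76) (nat_lit 12992827306562) (nat_lit 76) (nat_lit 5590777540333) (nat_lit 10) (nat_lit 4) (nat_lit 11) (nat_lit 5) (nat_lit 11) (nat_lit 4) (nat_lit 370) (nat_lit 348) (nat_lit 182)) (XT.lf (nat_lit 0) (nat_lit 16732266849816) (nat_lit 76) (nat_lit 8111272128920) (nat_lit 76) (nat_lit 709222362610) (nat_lit 10) (nat_lit 4) (nat_lit 11) (nat_lit 5) (nat_lit 11) (nat_lit 4) (nat_lit 371) (nat_lit 348) (nat_lit 181))))))) (XT.nd (nat_lit 45240) (nat_lit 0) (nat_lit 988) (XT.nd (nat_lit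 390) (nat_lit 152) (nat_lit 0) (XT.nd (nat_lit 156) (nat_lit 76) (nat_lit 0) (XT.nd (nat_lit 78) (nat_lit 0) (nat_lit 0) (XT.lf (nat_lit 0) (nat_lit 2419385194368) (nat_lit 76) (nat_lit 2148724089701) (nat_lit 152) (nat_lit 23878464652881) (nat_lit 8) (nat_lit 5) (nat_lit 9) (nat_lit 5) (nat_lit 10) (nat_lit 4) (nat_lit 372) (nat_lit 348) (nat_lit 180)) (XT.lf (nat_lit 0) (nat_lit 11242413672610) (nat_lit 152) (nat_lit 15619432638584) (nat_lit 0) (nat_lit 4805848658312) (nat_lit 8) (nat_lit 5) (nat_lit 10) (nat_lit 4) (nat_lit 8) (nat_lit 4) (nat_lit 373) (nat_lit 348) (nat_lit 179))) (XT.nd (nat_lit 78) (nat_lit 76) (nat_lit 0) (XT.lf (nat_lit 0) (nat_lit 19020183914070) (nat_lit 152) (nat_lit 3752833313954) (nat_lit 0) (nat_lit 12583618899726) (nat_lit 8) (nat_lit 5) (nat_lit 10) (nat_lit 4) (nat_lit 8) (nat_lit 4) (nat_lit 374) (nat_lit 348) (nat_lit 178)) (XT.nd (nat_lit 78) (nat_lit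 0) (nat_lit 0) (XT.lf (nat_lit 0) (nat_lit 10860645691213) (nat_lit 76) (nat_lit 17553690178131) (nat_lit 76) (nat_lit 11117125163747) (nat_lit 7) (nat_lit 4) (nat_lit 8) (nat_lit 5) (nat_lit 8) (nat_lit 4) (nat_lit 375) (nat_lit 348) (nat_lit 177)) (XT.lf (nat_lit 0) (nat_lit 28087913836461) (nat_lit 76) (nat_lit 11325867613679) (nat_lit 76) (nat_lit 4889302599260) (nat_lit 7) (nat_lit 4) (nat_lit 8) (nat_lit 5) (nat_lit 8) (nat_lit 4) (nat_lit 376) (nat_lit 348) (nat_lit 176))))) (XT.nd (nat_lit 234) (nat_lit 0) (nat_lit 0) (XT.nd (nat_lit 78) (nat_lit 76) (nat_lit 0) (XT.lf (nat_lit 0) (nat_lit 2070362471876) (nat_lit 152) (nat_lit 1985285699914) (nat_lit 76) (nat_lit 45720686238612) (nat_lit 6) (nat_lit 5) (nat_lit 8) (nat_lit 5) (nat_lit 7) (nat_lit 4) (nat_lit 377) (nat_lit 348) (nat_lit 175)) (XT.nd (nat_lit 78) (nat_lit 0) (nat_lit 0) (XT.lf (nat_lit 0) (nat_lit 10436389196906)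 (nat_lit 152) (nat_lit 40630435895345) (nat_lit 0) (nat_lit 4839376140840) (nat_lit 5) (nat_lit 5) (nat_lit 7) (nat_lit 4) (nat_lit 5) (nat_lit 4) (nat_lit 378) (nat_lit 348) (nat_lit 174)) (XT.lf (nat_lit 0) (nat_lit 20359164060462) (nat_lit 152) (nat_lit 27788956394878) (nat_lit 0) (nat_lit 14762151004375) (nat_lit 5) (nat_lit 5) (nat_lit 7) (nat_lit 4) (nat_lit 5) (nat_lit 4) (nat_lit 379) (nat_lit 348) (nat_lit 173)))) (XT.nd (nat_lit 44460) (nat_lit 0) (nat_lit 1596) (XT.lf (nat_lit 0) (nat_lit 31770355153489) (nat_lit 152) (nat_lit 13021254969468) (nat_lit 0) (nat_lit 26173342097386) (nat_lit 5) (nat_lit 5) (nat_lit 7) (nat_lit 4) (nat_lit 5) (nat_lit 4) (nat_lit 380) (nat_lit 348) (nat_lit 172)) (XT.nd (nat_lit 78) (nat_lit 0) (nat_lit 0) (XT.lf (nat_lit 0) (nat_lit 427425196050) (nat_lit 380) (nat_lit 743160257139) (nat_lit 380) (nat_lit 743160257139) (nat_lit 26) (nat_lit 3)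 (nat_lit 31) (nat_lit 3) (nat_lit 31) (nat_lit 5) (nat_lit 349) (nat_lit 349) (nat_lit 202)) (XT.lf (nat_lit 76) (nat_lit 389877164739) (nat_lit 0) (nat_lit 545230992839) (nat_lit 380) (nat_lit 3177023521709) (nat_lit 27) (nat_lit 5) (nat_lit 26) (nat_lit 3) (nat_lit 31) (nat_lit 5) (nat_lit 350) (nat_lit 349) (nat_lit 201)))))) (XT.nd (nat_lit 390) (nat_lit 456) (nat_lit 0) (XT.nd (nat_lit 156) (nat_lit 228) (nat_lit 0) (XT.nd (nat_lit 78) (nat_lit 0) (nat_lit 0) (XT.lf (nat_lit 0) (nat_lit 1171742425149) (nat_lit 304) (nat_lit 1779911030982) (nat_lit 380) (nat_lit 1466163844992) (nat_lit 27) (nat_lit 5) (nat_lit 31) (nat_lit 5) (nat_lit 32) (nat_lit 5) (nat_lit 351) (nat_lit 349) (nat_lit 200)) (XT.lf (nat_lit 76) (nat_lit 469630333866) (nat_lit 0) (nat_lit 1019651269597) (nat_lit 380) (nat_lit 3273262697181) (nat_lit 28) (nat_lit 5) (nat_lit 27) (nat_lit 5) (nat_lit 32) (nat_lit 5)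 (nat_lit 352) (nat_lit 349) (nat_lit 199))) (XT.nd (nat_lit 78) (nat_lit 304) (nat_lit 0) (XT.lf (nat_lit 0) (nat_lit 2001701495773) (nat_lit 304) (nat_lit 1942592632207) (nat_lit 76) (nat_lit 1192598746526) (nat_lit 28) (nat_lit 5) (nat_lit 32) (nat_lit 5) (nat_lit 29) (nat_lit 5) (nat_lit 353) (nat_lit 349) (nat_lit 198)) (XT.nd (nat_lit 78) (nat_lit 0) (nat_lit 0) (XT.lf (nat_lit 0) (nat_lit 781276737471) (nat_lit 304) (nat_lit 1890613459943) (nat_lit 380) (nat_lit 2883367663213) (nat_lit 24) (nat_lit 5) (nat_lit 28) (nat_lit 5) (nat_lit 29) (nat_lit 5) (nat_lit 354) (nat_lit 349) (nat_lit 197)) (XT.lf (nat_lit 0) (nat_lit 3568495322457) (nat_lit 380) (nat_lit 1913441972165) (nat_lit 76) (nat_lit 535557082322) (nat_lit 24) (nat_lit 5) (nat_lit 29) (nat_lit 5) (nat_lit 25) (nat_lit 5) (nat_lit 355) (nat_lit 349) (nat_lit 196))))) (XT.nd (nat_lit 234) (nat_lit 152) (nat_lit 0) (XT.nd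 (nat_lit 78) (nat_lit 152) (nat_lit 0) (XT.lf (nat_lit 0) (nat_lit 1411840656940) (nat_lit 152) (nat_lit 3336241082144) (nat_lit 228) (nat_lit 1778711053200) (nat_lit 22) (nat_lit 5) (nat_lit 24) (nat_lit 5) (nat_lit 25) (nat_lit 5) (nat_lit 356) (nat_lit 349) (nat_lit 195)) (XT.nd (nat_lit 78) (nat_lit 152) (nat_lit 0) (XT.lf (nat_lit 0) (nat_lit 5450960465238) (nat_lit 152) (nat_lit 753666482969) (nat_lit 228) (nat_lit 892855897219) (nat_lit 22) (nat_lit 5) (nat_lit 24) (nat_lit 5) (nat_lit 25) (nat_lit 5) (nat_lit 357) (nat_lit 349) (nat_lit 194)) (XT.lf (nat_lit 0) (nat_lit 317975056686) (nat_lit 152) (nat_lit 5268795126508) (nat_lit 76) (nat_lit 2135728773386) (nat_lit 20) (nat_lit 5) (nat_lit 22) (nat_lit 5) (nat_lit 21) (nat_lit 5) (nat_lit 358) (nat_lit 349) (nat_lit 193)))) (XT.nd (nat_lit 78) (nat_lit 152) (nat_lit 0) (XT.lf (nat_lit 0) (nat_lit 1745074798186) (nat_lit 152)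 (nat_lit 1156850931801) (nat_lit 76) (nat_lit 5514055875056) (nat_lit 20) (nat_lit 5) (nat_lit 22) (nat_lit 5) (nat_lit 21) (nat_lit 5) (nat_lit 359) (nat_lit 349) (nat_lit 192)) (XT.nd (nat_lit 78) (nat_lit 0) (nat_lit 0) (XT.lf (nat_lit 0) (nat_lit 3564016437146) (nat_lit 228) (nat_lit 5283595961843) (nat_lit 76) (nat_lit 339207711352) (nat_lit 18) (nat_lit 5) (nat_lit 21) (nat_lit 5) (nat_lit 19) (nat_lit 4) (nat_lit 360) (nat_lit 349) (nat_lit 191)) (XT.lf (nat_lit 0) (nat_lit 5857337621770) (nat_lit 228) (nat_lit 352955415335) (nat_lit 76) (nat_lit 3832760609355) (nat_lit 18) (nat_lit 5) (nat_lit 21) (nat_lit 5) (nat_lit 19) (nat_lit 4) (nat_lit 361) (nat_lit 349) (nat_lit 190))))))))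
noncomputable def xc118 : XT := (XT.nd (nat_lit 46020) (nat_lit 0) (nat_lit 380) (XT.nd (nat_lit 780) (nat_lit 380) (nat_lit 0) (XT.nd (nat_lit 390) (nat_lit 304) (nat_lit 0) (XT.nd (nat_lit 156) (nat_lit 76) (nat_lit 0) (XT.nd (nat_lit 78) (nat_lit 152) (nat_lit 0) (XT.lf (nat_lit 0) (nat_lit 5836924604045) (nat_lit 76) (nat_lit 2899426980402) (nat_lit 152) (nat_lit 2255116438496) (nat_lit 17) (nat_lit 5) (nat_lit 18) (nat_lit 5) (nat_lit 19) (nat_lit 4) (nat_lit 362) (nat_lit 349) (nat_lit 189)) (XT.lf (nat_lit 0) (nat_lit 69589702323) (nat_lit 152) (nat_lit 11107974577262) (nat_lit 76) (nat_lit 889586136484) (nat_lit 15) (nat_lit 5) (nat_lit 17) (nat_lit 5) (nat_lit 16) (nat_lit 4) (nat_lit 363) (nat_lit 349) (nat_lit 188))) (XT.nd (nat_lit 78) (nat_lit 76) (nat_lit 0) (XT.lf (nat_lit 0) (nat_lit 2932461362600) (nat_lit 152) (nat_lit 4952800507914) (nat_lit 76) (nat_lit 5339764238031)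 (nat_lit 15) (nat_lit 5) (nat_lit 17) (nat_lit 5) (nat_lit 16) (nat_lit 4) (nat_lit 364) (nat_lit 349) (nat_lit 187)) (XT.nd (nat_lit 78) (nat_lit 0) (nat_lit 0) (XT.lf (nat_lit 0) (nat_lit 2333383616686) (nat_lit 76) (nat_lit 3988000594666) (nat_lit 152) (nat_lit 8220705877628) (nat_lit 14) (nat_lit 5) (nat_lit 15) (nat_lit 5) (nat_lit 16) (nat_lit 4) (nat_lit 365) (nat_lit 349) (nat_lit 186)) (XT.lf (nat_lit 0) (nat_lit 10510319547045) (nat_lit 152) (nat_lit 4781534279016) (nat_lit 0) (nat_lit 721108731472) (nat_lit 14) (nat_lit 5) (nat_lit 16) (nat_lit 4) (nat_lit 14) (nat_lit 4) (nat_lit 366) (nat_lit 349) (nat_lit 185))))) (XT.nd (nat_lit 156) (nat_lit 152) (nat_lit 0) (XT.nd (nat_lit 78) (nat_lit 76) (nat_lit 0) (XT.lf (nat_lit 0) (nat_lit 3918676645857) (nat_lit 76) (nat_lit 11761087370612) (nat_lit 76) (nat_lit 1971876554897) (nat_lit 13) (nat_lit 4) (nat_lit 14) (nat_lit 5) (nat_lit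 14) (nat_lit 4) (nat_lit 367) (nat_lit 349) (nat_lit 184)) (XT.lf (nat_lit 0) (nat_lit 2164417647995) (nat_lit 152) (nat_lit 5135712872647) (nat_lit 76) (nat_lit 12183740798001) (nat_lit 12) (nat_lit 5) (nat_lit 14) (nat_lit 5) (nat_lit 13) (nat_lit 4) (nat_lit 368) (nat_lit 349) (nat_lit 183))) (XT.nd (nat_lit 78) (nat_lit 76) (nat_lit 0) (XT.lf (nat_lit 0) (nat_lit 5112365043049) (nat_lit 76) (nat_lit 1818600472762) (nat_lit 152) (nat_lit 14614132509543) (nat_lit 11) (nat_lit 5) (nat_lit 12) (nat_lit 5) (nat_lit 13) (nat_lit 4) (nat_lit 369) (nat_lit 349) (nat_lit 182)) (XT.nd (nat_lit 78) (nat_lit 76) (nat_lit 0) (XT.lf (nat_lit 0) (nat_lit 12879457855860) (nat_lit 152) (nat_lit 6598905913878) (nat_lit 0) (nat_lit 4367100624522) (nat_lit 11) (nat_lit 5) (nat_lit 13) (nat_lit 4) (nat_lit 11) (nat_lit 4) (nat_lit 370) (nat_lit 349) (nat_lit 181)) (XT.lf (nat_lit 0) (nat_lit 5075226994945)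 (nat_lit 76) (nat_lit 14941751401285) (nat_lit 76) (nat_lit 6429394169877) (nat_lit 10) (nat_lit 4) (nat_lit 11) (nat_lit 5) (nat_lit 11) (nat_lit 4) (nat_lit 371) (nat_lit 349) (nat_lit 180)))))) (XT.nd (nat_lit 390) (nat_lit 152) (nat_lit 0) (XT.nd (nat_lit 156) (nat_lit 76) (nat_lit 0) (XT.nd (nat_lit 78) (nat_lit 152) (nat_lit 0) (XT.lf (nat_lit 0) (nat_lit 19242106879524) (nat_lit 76) (nat_lit 9327962947161) (nat_lit 76) (nat_lit 815605715691) (nat_lit 10) (nat_lit 4) (nat_lit 11) (nat_lit 5) (nat_lit 11) (nat_lit 4) (nat_lit 372) (nat_lit 349) (nat_lit 179)) (XT.lf (nat_lit 0) (nat_lit 2782292975768) (nat_lit 76) (nat_lit 2471032702041) (nat_lit 152) (nat_lit 27460234349513) (nat_lit 8) (nat_lit 5) (nat_lit 9) (nat_lit 5) (nat_lit 10) (nat_lit 4) (nat_lit 373) (nat_lit 349) (nat_lit 178))) (XT.nd (nat_lit 78) (nat_lit 76) (nat_lit 0) (XT.lf (nat_lit 0) (nat_lit 12928775724524) (nat_lit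 152) (nat_lit 17962347532311) (nat_lit 0) (nat_lit 5526725957942) (nat_lit 8) (nat_lit 5) (nat_lit 10) (nat_lit 4) (nat_lit 8) (nat_lit 4) (nat_lit 374) (nat_lit 349) (nat_lit 177)) (XT.nd (nat_lit 78) (nat_lit 76) (nat_lit 0) (XT.lf (nat_lit 0) (nat_lit 21873211502070) (nat_lit 152) (nat_lit 4315758309255) (nat_lit 0) (nat_lit 14471161735453) (nat_lit 8) (nat_lit 5) (nat_lit 10) (nat_lit 4) (nat_lit 8) (nat_lit 4) (nat_lit 375) (nat_lit 349) (nat_lit 176)) (XT.lf (nat_lit 0) (nat_lit 12489742546605) (nat_lit 76) (nat_lit 20186743703986) (nat_lit 76) (nat_lit 12784693937338) (nat_lit 7) (nat_lit 4) (nat_lit 8) (nat_lit 5) (nat_lit 8) (nat_lit 4) (nat_lit 376) (nat_lit 349) (nat_lit 175))))) (XT.nd (nat_lit 234) (nat_lit 0) (nat_lit 0) (XT.nd (nat_lit 78) (nat_lit 152) (nat_lit 0) (XT.lf (nat_lit 0) (nat_lit 32301100913417) (nat_lit 76) (nat_lit 13024747754978) (nat_lit 76) (nat_lit 5622697988304)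 (nat_lit 7) (nat_lit 4) (nat_lit 8) (nat_lit 5) (nat_lit 8) (nat_lit 4) (nat_lit 377) (nat_lit 349) (nat_lit 174)) (XT.nd (nat_lit 78) (nat_lit 76) (nat_lit 0) (XT.lf (nat_lit 0) (nat_lit 2380916843327) (nat_lit 152) (nat_lit 2283078553543) (nat_lit 76) (nat_lit 52578789174993) (nat_lit 6) (nat_lit 5) (nat_lit 8) (nat_lit 5) (nat_lit 7) (nat_lit 4) (nat_lit 378) (nat_lit 349) (nat_lit 173)) (XT.lf (nat_lit 0) (nat_lit 12001847577105) (nat_lit 152) (nat_lit 46725001278281) (nat_lit 0) (nat_lit 5565282562568) (nat_lit 5) (nat_lit 5) (nat_lit 7) (nat_lit 4) (nat_lit 5) (nat_lit 4) (nat_lit 379) (nat_lit 349) (nat_lit 172)))) (XT.nd (nat_lit 78) (nat_lit 0) (nat_lit 0) (XT.lf (nat_lit 0) (nat_lit 23413038670108) (nat_lit 152) (nat_lit 31957299852923) (nat_lit 0) (nat_lit 16976473655556) (nat_lit 5) (nat_lit 5) (nat_lit 7) (nat_lit 4) (nat_lit 5) (nat_lit 4) (nat_lit 380) (nat_lit 349) (nat_lit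 171)) (XT.nd (nat_lit 44460) (nat_lit 0) (nat_lit 1596) (XT.lf (nat_lit 0) (nat_lit 36535908427014) (nat_lit 152) (nat_lit 14974443213856) (nat_lit 0) (nat_lit 30099343412449) (nat_lit 5) (nat_lit 5) (nat_lit 7) (nat_lit 4) (nat_lit 5) (nat_lit 4) (nat_lit 381) (nat_lit 349) (nat_lit 170)) (XT.lf (nat_lit 0) (nat_lit 491538979382) (nat_lit 380) (nat_lit 854634293449) (nat_lit 380) (nat_lit 854634293449) (nat_lit 26) (nat_lit 3) (nat_lit 31) (nat_lit 3) (nat_lit 31) (nat_lit 5) (nat_lit 350) (nat_lit 350) (nat_lit 200))))))) (XT.nd (nat_lit 858) (nat_lit 608) (nat_lit 0) (XT.nd (nat_lit 390) (nat_lit 456) (nat_lit 0) (XT.nd (nat_lit 156) (nat_lit 152) (nat_lit 0) (XT.nd (nat_lit 78) (nat_lit 0) (nat_lit 76) (XT.lf (nat_lit 76) (nat_lit 448358743766) (nat_lit 0) (nat_lit 627015644453) (nat_lit 380) (nat_lit 3653577041896) (nat_lit 27) (nat_lit 5) (nat_lit 26) (nat_lit 3) (nat_lit 31) (nat_lit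 5) (nat_lit 351) (nat_lit 350) (nat_lit 199)) (XT.lf (nat_lit 0) (nat_lit 1347503794916) (nat_lit 304) (nat_lit 2046897680853) (nat_lit 380) (nat_lit 1686088419611) (nat_lit 27) (nat_lit 5) (nat_lit 31) (nat_lit 5) (nat_lit 32) (nat_lit 5) (nat_lit 352) (nat_lit 350) (nat_lit 198))) (XT.nd (nat_lit 78) (nat_lit 228) (nat_lit 0) (XT.lf (nat_lit 76) (nat_lit 540074888505) (nat_lit 0) (nat_lit 1172598960878) (nat_lit 380) (nat_lit 3764252095536) (nat_lit 28) (nat_lit 5) (nat_lit 27) (nat_lit 5) (nat_lit 32) (nat_lit 5) (nat_lit 353) (nat_lit 350) (nat_lit 197)) (XT.nd (nat_lit 78) (nat_lit 304) (nat_lit 0) (XT.lf (nat_lit 0) (nat_lit 2301956724805) (nat_lit 304) (nat_lit 2233981522329) (nat_lit 76) (nat_lit 1371488557839) (nat_lit 28) (nat_lit 5) (nat_lit 32) (nat_lit 5) (nat_lit 29) (nat_lit 5) (nat_lit 354) (nat_lit 350) (nat_lit 196)) (XT.lf (nat_lit 0) (nat_lit 898468252587) (nat_lit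 304) (nat_lit 2174205478683) (nat_lit 380) (nat_lit 3315872807807) (nat_lit 24) (nat_lit 5) (nat_lit 28) (nat_lit 5) (nat_lit 29) (nat_lit 5) (nat_lit 355) (nat_lit 350) (nat_lit 195))))) (XT.nd (nat_lit 234) (nat_lit 304) (nat_lit 0) (XT.nd (nat_lit 78) (nat_lit 152) (nat_lit 0) (XT.lf (nat_lit 0) (nat_lit 4103769624525) (nat_lit 380) (nat_lit 2200458263529) (nat_lit 76) (nat_lit 615890644870) (nat_lit 24) (nat_lit 5) (nat_lit 29) (nat_lit 5) (nat_lit 25) (nat_lit 5) (nat_lit 356) (nat_lit 350) (nat_lit 194)) (XT.nd (nat_lit 78) (nat_lit 0) (nat_lit 0) (XT.lf (nat_lit 0) (nat_lit 1623616759739) (nat_lit 152) (nat_lit 3836677243601) (nat_lit 228) (nat_lit 2045517707272) (nat_lit 22) (nat_lit 5) (nat_lit 24) (nat_lit 5) (nat_lit 25) (nat_lit 5) (nat_lit 357) (nat_lit 350) (nat_lit 193)) (XT.lf (nat_lit 0) (nat_lit 6268604538726) (nat_lit 152) (nat_lit 866716454663) (nat_lit 228) (nat_lit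 1026784278404) (nat_lit 22) (nat_lit 5) (nat_lit 24) (nat_lit 5) (nat_lit 25) (nat_lit 5) (nat_lit 358) (nat_lit 350) (nat_lit 192)))) (XT.nd (nat_lit 78) (nat_lit 152) (nat_lit 0) (XT.lf (nat_lit 0) (nat_lit 365671318080) (nat_lit 152) (nat_lit 6059114391265) (nat_lit 76) (nat_lit 2456088090284) (nat_lit 20) (nat_lit 5) (nat_lit 22) (nat_lit 5) (nat_lit 21) (nat_lit 5) (nat_lit 359) (nat_lit 350) (nat_lit 191)) (XT.nd (nat_lit 78) (nat_lit 152) (nat_lit 0) (XT.lf (nat_lit 0) (nat_lit 2006836020428) (nat_lit 152) (nat_lit 1330378567903) (nat_lit 76) (nat_lit 6341164257088) (nat_lit 20) (nat_lit 5) (nat_lit 22) (nat_lit 5) (nat_lit 21) (nat_lit 5) (nat_lit 360) (nat_lit 350) (nat_lit 190)) (XT.lf (nat_lit 0) (nat_lit 4098618905097) (nat_lit 228) (nat_lit 6076135352313) (nat_lit 76) (nat_lit 390088869121) (nat_lit 18) (nat_lit 5) (nat_lit 21) (nat_lit 5) (nat_lit 19) (nat_lit 4) (nat_lit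 361) (nat_lit 350) (nat_lit 189)))))) (XT.nd (nat_lit 390) (nat_lit 304) (nat_lit 0) (XT.nd (nat_lit 156) (nat_lit 228) (nat_lit 0) (XT.nd (nat_lit 78) (nat_lit 76) (nat_lit 0) (XT.lf (nat_lit 0) (nat_lit 6735938267104) (nat_lit 228) (nat_lit 405898724326) (nat_lit 76) (nat_lit 4407674701686) (nat_lit 18) (nat_lit 5) (nat_lit 21) (nat_lit 5) (nat_lit 19) (nat_lit 4) (nat_lit 362) (nat_lit 350) (nat_lit 188)) (XT.lf (nat_lit 0) (nat_lit 6712463297811) (nat_lit 76) (nat_lit 3334341026234) (nat_lit 152) (nat_lit 2593383902049) (nat_lit 17) (nat_lit 5) (nat_lit 18) (nat_lit 5) (nat_lit 19) (nat_lit 4) (nat_lit 363) (nat_lit 350) (nat_lit 187))) (XT.nd (nat_lit 78) (nat_lit 76) (nat_lit 0) (XT.lf (nat_lit 0) (nat_lit 80028159619) (nat_lit 152) (nat_lit 12774170760413) (nat_lit 76) (nat_lit 1023024058153) (nat_lit 15) (nat_lit 5) (nat_lit 17) (nat_lit 5) (nat_lit 16) (nat_lit 4) (nat_lit 364)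 (nat_lit 350) (nat_lit 186)) (XT.nd (nat_lit 78) (nat_lit 76) (nat_lit 0) (XT.lf (nat_lit 0) (nat_lit 3372330568683) (nat_lit 152) (nat_lit 5695720581112) (nat_lit 76) (nat_lit 6140728874777) (nat_lit 15) (nat_lit 5) (nat_lit 17) (nat_lit 5) (nat_lit 16) (nat_lit 4) (nat_lit 365) (nat_lit 350) (nat_lit 185)) (XT.lf (nat_lit 0) (nat_lit 2683391162042) (nat_lit 76) (nat_lit 4586200682603) (nat_lit 152) (nat_lit 9453811757442) (nat_lit 14) (nat_lit 5) (nat_lit 15) (nat_lit 5) (nat_lit 16) (nat_lit 4) (nat_lit 366) (nat_lit 350) (nat_lit 184))))) (XT.nd (nat_lit 234) (nat_lit 152) (nat_lit 0) (XT.nd (nat_lit 78) (nat_lit 152) (nat_lit 0) (XT.lf (nat_lit 0) (nat_lit 12086867480531) (nat_lit 152) (nat_lit 5498764418225) (nat_lit 0) (nat_lit 829275042194) (nat_lit 14) (nat_lit 5) (nat_lit 16) (nat_lit 4) (nat_lit 14) (nat_lit 4) (nat_lit 367) (nat_lit 350) (nat_lit 183)) (XT.nd (nat_lit 78)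 (nat_lit 76) (nat_lit 0) (XT.lf (nat_lit 0) (nat_lit 4506478145260) (nat_lit 76) (nat_lit 13525250475026) (nat_lit 76) (nat_lit 2267658036582) (nat_lit 13) (nat_lit 4) (nat_lit 14) (nat_lit 5) (nat_lit 14) (nat_lit 4) (nat_lit 368) (nat_lit 350) (nat_lit 182)) (XT.lf (nat_lit 0) (nat_lit 2489080296422) (nat_lit 152) (nat_lit 5906069801228) (nat_lit 76) (nat_lit 14011301918604) (nat_lit 12) (nat_lit 5) (nat_lit 14) (nat_lit 5) (nat_lit 13) (nat_lit 4) (nat_lit 369) (nat_lit 350) (nat_lit 181)))) (XT.nd (nat_lit 78) (nat_lit 76) (nat_lit 0) (XT.lf (nat_lit 0) (nat_lit 5879219801717) (nat_lit 76) (nat_lit 2091390542624) (nat_lit 152) (nat_lit 16806252384640) (nat_lit 11) (nat_lit 5) (nat_lit 12) (nat_lit 5) (nat_lit 13) (nat_lit 4) (nat_lit 370) (nat_lit 350) (nat_lit 180)) (XT.nd (nat_lit 78) (nat_lit 76) (nat_lit 0) (XT.lf (nat_lit 0) (nat_lit 14811376535285) (nat_lit 152) (nat_lit 7588741798923)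 (nat_lit 0) (nat_lit 5022165719034) (nat_lit 11) (nat_lit 5) (nat_lit 13) (nat_lit 4) (nat_lit 11) (nat_lit 4) (nat_lit 371) (nat_lit 350) (nat_lit 179)) (XT.lf (nat_lit 0) (nat_lit 5836511046130) (nat_lit 76) (nat_lit 17183014110524) (nat_lit 76) (nat_lit 7393803294220) (nat_lit 10) (nat_lit 4) (nat_lit 11) (nat_lit 5) (nat_lit 11) (nat_lit 4) (nat_lit 372) (nat_lit 350) (nat_lit 178))))))))
noncomputable def xc119 : XT := (XT.nd (nat_lit 46176) (nat_lit 0) (nat_lit 0) (XT.nd (nat_lit 45318) (nat_lit 0) (nat_lit 988) (XT.nd (nat_lit 390) (nat_lit 152) (nat_lit 0) (XT.nd (nat_lit 156) (nat_lit 76) (nat_lit 0) (XT.nd (nat_lit 78) (nat_lit 152) (nat_lit 0) (XT.lf (nat_lit 0) (nat_lit 22128422913143) (nat_lit 76) (nat_lit 10727157388406) (nat_lit 76) (nat_lit 937946572055) (nat_lit 10) (nat_lit 4) (nat_lit 11) (nat_lit 5) (nat_lit 11) (nat_lit 4) (nat_lit 373) (nat_lit 350) (nat_lit 177))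 (XT.lf (nat_lit 0) (nat_lit 3199636923831) (nat_lit 76) (nat_lit 2841687606504) (nat_lit 152) (nat_lit 31579269500956) (nat_lit 8) (nat_lit 5) (nat_lit 9) (nat_lit 5) (nat_lit 10) (nat_lit 4) (nat_lit 374) (nat_lit 350) (nat_lit 176))) (XT.nd (nat_lit 78) (nat_lit 76) (nat_lit 0) (XT.lf (nat_lit 0) (nat_lit 14868092083977) (nat_lit 152) (nat_lit 20656699660600) (nat_lit 0) (nat_lit 6355734852301) (nat_lit 8) (nat_lit 5) (nat_lit 10) (nat_lit 4) (nat_lit 8) (nat_lit 4) (nat_lit 375) (nat_lit 350) (nat_lit 175)) (XT.nd (nat_lit 78) (nat_lit 76) (nat_lit 0) (XT.lf (nat_lit 0) (nat_lit 25154193228054) (nat_lit 152) (nat_lit 4963122054289) (nat_lit 0) (nat_lit 16641835996352) (nat_lit 8) (nat_lit 5) (nat_lit 10) (nat_lit 4) (nat_lit 8) (nat_lit 4) (nat_lit 376) (nat_lit 350) (nat_lit 174)) (XT.lf (nat_lit 0) (nat_lit 14363203929888) (nat_lit 76) (nat_lit 23214755258929) (nat_lit 76) (nat_lit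 14702398027204) (nat_lit 7) (nat_lit 4) (nat_lit 8) (nat_lit 5) (nat_lit 8) (nat_lit 4) (nat_lit 377) (nat_lit 350) (nat_lit 173))))) (XT.nd (nat_lit 234) (nat_lit 0) (nat_lit 0) (XT.nd (nat_lit 78) (nat_lit 152) (nat_lit 0) (XT.lf (nat_lit 0) (nat_lit 37146266051554) (nat_lit 76) (nat_lit 14978459917656) (nat_lit 76) (nat_lit 6466102685911) (nat_lit 7) (nat_lit 4) (nat_lit 8) (nat_lit 5) (nat_lit 8) (nat_lit 4) (nat_lit 378) (nat_lit 350) (nat_lit 172)) (XT.nd (nat_lit 78) (nat_lit 76) (nat_lit 0) (XT.lf (nat_lit 0) (nat_lit 2738054370332) (nat_lit 152) (nat_lit 2625540335547) (nat_lit 76) (nat_lit 60465607551688) (nat_lit 6) (nat_lit 5) (nat_lit 8) (nat_lit 5) (nat_lit 7) (nat_lit 4) (nat_lit 379) (nat_lit 350) (nat_lit 171)) (XT.lf (nat_lit 0) (nat_lit 13802124714172) (nat_lit 152) (nat_lit 53733751468992) (nat_lit 0) (nat_lit 6400074947409) (nat_lit 5) (nat_lit 5) (nat_lit 7) (nat_lit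 4) (nat_lit 5) (nat_lit 4) (nat_lit 380) (nat_lit 350) (nat_lit 170)))) (XT.nd (nat_lit 44538) (nat_lit 0) (nat_lit 1596) (XT.lf (nat_lit 0) (nat_lit 26924994471060) (nat_lit 152) (nat_lit 36750894829963) (nat_lit 0) (nat_lit 19522944704285) (nat_lit 5) (nat_lit 5) (nat_lit 7) (nat_lit 4) (nat_lit 5) (nat_lit 4) (nat_lit 381) (nat_lit 350) (nat_lit 169)) (XT.nd (nat_lit 78) (nat_lit 0) (nat_lit 0) (XT.lf (nat_lit 0) (nat_lit 565269829257) (nat_lit 380) (nat_lit 982829435757) (nat_lit 380) (nat_lit 982829435757) (nat_lit 26) (nat_lit 3) (nat_lit 31) (nat_lit 3) (nat_lit 31) (nat_lit 5) (nat_lit 351) (nat_lit 351) (nat_lit 198)) (XT.lf (nat_lit 76) (nat_lit 515612558595) (nat_lit 0) (nat_lit 721067993153) (nat_lit 380) (nat_lit 4201613592079) (nat_lit 27) (nat_lit 5) (nat_lit 26) (nat_lit 3) (nat_lit 31) (nat_lit 5) (nat_lit 352) (nat_lit 351) (nat_lit 197)))))) (XT.nd (nat_lit 390) (nat_lit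 456) (nat_lit 0) (XT.nd (nat_lit 156) (nat_lit 228) (nat_lit 0) (XT.nd (nat_lit 78) (nat_lit 0) (nat_lit 0) (XT.lf (nat_lit 0) (nat_lit 1549629368685) (nat_lit 304) (nat_lit 2353932329369) (nat_lit 380) (nat_lit 1939001680943) (nat_lit 27) (nat_lit 5) (nat_lit 31) (nat_lit 5) (nat_lit 32) (nat_lit 5) (nat_lit 353) (nat_lit 351) (nat_lit 196)) (XT.lf (nat_lit 76) (nat_lit 621086125228) (nat_lit 0) (nat_lit 1348488805647) (nat_lit 380) (nat_lit 4328889905161) (nat_lit 28) (nat_lit 5) (nat_lit 27) (nat_lit 5) (nat_lit 32) (nat_lit 5) (nat_lit 354) (nat_lit 351) (nat_lit 195))) (XT.nd (nat_lit 78) (nat_lit 304) (nat_lit 0) (XT.lf (nat_lit 0) (nat_lit 2647250237054) (nat_lit 304) (nat_lit 2569078747118) (nat_lit 76) (nat_lit 1577211841010) (nat_lit 28) (nat_lit 5) (nat_lit 32) (nat_lit 5) (nat_lit 29) (nat_lit 5) (nat_lit 355) (nat_lit 351) (nat_lit 194)) (XT.nd (nat_lit 78) (nat_lit 0) (nat_lit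 0) (XT.lf (nat_lit 0) (nat_lit 1033238493874) (nat_lit 304) (nat_lit 2500336300296) (nat_lit 380) (nat_lit 3813253725281) (nat_lit 24) (nat_lit 5) (nat_lit 28) (nat_lit 5) (nat_lit 29) (nat_lit 5) (nat_lit 356) (nat_lit 351) (nat_lit 193)) (XT.lf (nat_lit 0) (nat_lit 4719335071000) (nat_lit 380) (nat_lit 2530526999686) (nat_lit 76) (nat_lit 708274241751) (nat_lit 24) (nat_lit 5) (nat_lit 29) (nat_lit 5) (nat_lit 25) (nat_lit 5) (nat_lit 357) (nat_lit 351) (nat_lit 192))))) (XT.nd (nat_lit 234) (nat_lit 152) (nat_lit 0) (XT.nd (nat_lit 78) (nat_lit 152) (nat_lit 0) (XT.lf (nat_lit 0) (nat_lit 1867159276919) (nat_lit 152) (nat_lit 4412178829487) (nat_lit 228) (nat_lit 2352345360408) (nat_lit 22) (nat_lit 5) (nat_lit 24) (nat_lit 5) (nat_lit 25) (nat_lit 5) (nat_lit 358) (nat_lit 351) (nat_lit 191)) (XT.nd (nat_lit 78) (nat_lit 152) (nat_lit 0) (XT.lf (nat_lit 0) (nat_lit 7208895222335)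 (nat_lit 152) (nat_lit 996723922294) (nat_lit 228) (nat_lit 1180801917594) (nat_lit 22) (nat_lit 5) (nat_lit 24) (nat_lit 5) (nat_lit 25) (nat_lit 5) (nat_lit 359) (nat_lit 351) (nat_lit 190)) (XT.lf (nat_lit 0) (nat_lit 420522017978) (nat_lit 152) (nat_lit 6967981546765) (nat_lit 76) (nat_lit 2824501304500) (nat_lit 20) (nat_lit 5) (nat_lit 22) (nat_lit 5) (nat_lit 21) (nat_lit 5) (nat_lit 360) (nat_lit 351) (nat_lit 189)))) (XT.nd (nat_lit 78) (nat_lit 152) (nat_lit 0) (XT.lf (nat_lit 0) (nat_lit 2307861425393) (nat_lit 152) (nat_lit 1529935350314) (nat_lit 76) (nat_lit 7292338896237) (nat_lit 20) (nat_lit 5) (nat_lit 22) (nat_lit 5) (nat_lit 21) (nat_lit 5) (nat_lit 361) (nat_lit 351) (nat_lit 188)) (XT.nd (nat_lit 78) (nat_lit 0) (nat_lit 0) (XT.lf (nat_lit 0) (nat_lit 4713411742661) (nat_lit 228) (nat_lit 6987555652282) (nat_lit 76) (nat_lit 448602200296) (nat_lit 18) (nat_lit 5)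 (nat_lit 21) (nat_lit 5) (nat_lit 19) (nat_lit 4) (nat_lit 362) (nat_lit 351) (nat_lit 187)) (XT.lf (nat_lit 0) (nat_lit 7746329008735) (nat_lit 228) (nat_lit 466783530472) (nat_lit 76) (nat_lit 5068825907640) (nat_lit 18) (nat_lit 5) (nat_lit 21) (nat_lit 5) (nat_lit 19) (nat_lit 4) (nat_lit 363) (nat_lit 351) (nat_lit 186))))))) (XT.nd (nat_lit 858) (nat_lit 380) (nat_lit 0) (XT.nd (nat_lit 390) (nat_lit 304) (nat_lit 0) (XT.nd (nat_lit 156) (nat_lit 76) (nat_lit 0) (XT.nd (nat_lit 78) (nat_lit 152) (nat_lit 0) (XT.lf (nat_lit 0) (nat_lit 7719332794872) (nat_lit 76) (nat_lit 3834492179239) (nat_lit 152) (nat_lit 2982391485676) (nat_lit 17) (nat_lit 5) (nat_lit 18) (nat_lit 5) (nat_lit 19) (nat_lit 4) (nat_lit 364) (nat_lit 351) (nat_lit 185)) (XT.lf (nat_lit 0) (nat_lit 92032385034) (nat_lit 152) (nat_lit 14690296371876) (nat_lit 76) (nat_lit 1176477667781) (nat_lit 15) (nat_lit 5)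 (nat_lit 17) (nat_lit 5) (nat_lit 16) (nat_lit 4) (nat_lit 365) (nat_lit 351) (nat_lit 184))) (XT.nd (nat_lit 78) (nat_lit 76) (nat_lit 0) (XT.lf (nat_lit 0) (nat_lit 3878180155266) (nat_lit 152) (nat_lit 6550078666019) (nat_lit 76) (nat_lit 7061838206780) (nat_lit 15) (nat_lit 5) (nat_lit 17) (nat_lit 5) (nat_lit 16) (nat_lit 4) (nat_lit 366) (nat_lit 351) (nat_lit 183)) (XT.nd (nat_lit 78) (nat_lit 0) (nat_lit 0) (XT.lf (nat_lit 0) (nat_lit 3085899838506) (nat_lit 76) (nat_lit 5274130784038) (nat_lit 152) (nat_lit 10871883519674) (nat_lit 14) (nat_lit 5) (nat_lit 15) (nat_lit 5) (nat_lit 16) (nat_lit 4) (nat_lit 367) (nat_lit 351) (nat_lit 182)) (XT.lf (nat_lit 0) (nat_lit 13899897603691) (nat_lit 152) (nat_lit 6323579078959) (nat_lit 0) (nat_lit 953666299279) (nat_lit 14) (nat_lit 5) (nat_lit 16) (nat_lit 4) (nat_lit 14) (nat_lit 4) (nat_lit 368) (nat_lit 351) (nat_lit 181))))) (XT.nd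 (nat_lit 234) (nat_lit 76) (nat_lit 0) (XT.nd (nat_lit 78) (nat_lit 152) (nat_lit 0) (XT.lf (nat_lit 0) (nat_lit 5182449868958) (nat_lit 76) (nat_lit 15554038045390) (nat_lit 76) (nat_lit 2607806740897) (nat_lit 13) (nat_lit 4) (nat_lit 14) (nat_lit 5) (nat_lit 14) (nat_lit 4) (nat_lit 369) (nat_lit 351) (nat_lit 180)) (XT.nd (nat_lit 78) (nat_lit 76) (nat_lit 0) (XT.lf (nat_lit 0) (nat_lit 2862442341814) (nat_lit 152) (nat_lit 6791980269661) (nat_lit 76) (nat_lit 16112997207078) (nat_lit 12) (nat_lit 5) (nat_lit 14) (nat_lit 5) (nat_lit 13) (nat_lit 4) (nat_lit 370) (nat_lit 351) (nat_lit 179)) (XT.lf (nat_lit 0) (nat_lit 6761102773646) (nat_lit 76) (nat_lit 2405099123223) (nat_lit 152) (nat_lit 19327190241328) (nat_lit 11) (nat_lit 5) (nat_lit 12) (nat_lit 5) (nat_lit 13) (nat_lit 4) (nat_lit 371) (nat_lit 351) (nat_lit 178)))) (XT.nd (nat_lit 78) (nat_lit 76) (nat_lit 0) (XT.lf (nat_lit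 0) (nat_lit 17033083016369) (nat_lit 152) (nat_lit 8727053067222) (nat_lit 0) (nat_lit 5775490577519) (nat_lit 11) (nat_lit 5) (nat_lit 13) (nat_lit 4) (nat_lit 11) (nat_lit 4) (nat_lit 372) (nat_lit 351) (nat_lit 177)) (XT.nd (nat_lit 78) (nat_lit 0) (nat_lit 0) (XT.lf (nat_lit 0) (nat_lit 6711987704520) (nat_lit 76) (nat_lit 19760466226382) (nat_lit 76) (nat_lit 8502873787491) (nat_lit 10) (nat_lit 4) (nat_lit 11) (nat_lit 5) (nat_lit 11) (nat_lit 4) (nat_lit 373) (nat_lit 351) (nat_lit 176)) (XT.lf (nat_lit 0) (nat_lit 25447686351392) (nat_lit 76) (nat_lit 12336230996040) (nat_lit 76) (nat_lit 1078638557114) (nat_lit 10) (nat_lit 4) (nat_lit 11) (nat_lit 5) (nat_lit 11) (nat_lit 4) (nat_lit 374) (nat_lit 351) (nat_lit 175)))))) (XT.nd (nat_lit 390) (nat_lit 152) (nat_lit 0) (XT.nd (nat_lit 156) (nat_lit 76) (nat_lit 0) (XT.nd (nat_lit 78) (nat_lit 0) (nat_lit 0) (XT.lf (nat_lit 0)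 (nat_lit 3679582463690) (nat_lit 76) (nat_lit 3267940746843) (nat_lit 152) (nat_lit 36316159925356) (nat_lit 8) (nat_lit 5) (nat_lit 9) (nat_lit 5) (nat_lit 10) (nat_lit 4) (nat_lit 375) (nat_lit 351) (nat_lit 174)) (XT.lf (nat_lit 0) (nat_lit 17098305897158) (nat_lit 152) (nat_lit 23755204608512) (nat_lit 0) (nat_lit 7309095080652) (nat_lit 8) (nat_lit 5) (nat_lit 10) (nat_lit 4) (nat_lit 8) (nat_lit 4) (nat_lit 376) (nat_lit 351) (nat_lit 173))) (XT.nd (nat_lit 78) (nat_lit 76) (nat_lit 0) (XT.lf (nat_lit 0) (nat_lit 28927322212770) (nat_lit 152) (nat_lit 5707590361408) (nat_lit 0) (nat_lit 19138111396244) (nat_lit 8) (nat_lit 5) (nat_lit 10) (nat_lit 4) (nat_lit 8) (nat_lit 4) (nat_lit 377) (nat_lit 351) (nat_lit 172)) (XT.nd (nat_lit 78) (nat_lit 0) (nat_lit 0) (XT.lf (nat_lit 0) (nat_lit 16517684520349) (nat_lit 76) (nat_lit 26696968547274) (nat_lit 76) (nat_lit 16907757730729) (nat_lit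 7) (nat_lit 4) (nat_lit 8) (nat_lit 5) (nat_lit 8) (nat_lit 4) (nat_lit 378) (nat_lit 351) (nat_lit 171)) (XT.lf (nat_lit 0) (nat_lit 42718205960137) (nat_lit 76) (nat_lit 17225228904874) (nat_lit 76) (nat_lit 7436018088315) (nat_lit 7) (nat_lit 4) (nat_lit 8) (nat_lit 5) (nat_lit 8) (nat_lit 4) (nat_lit 379) (nat_lit 351) (nat_lit 170))))) (XT.nd (nat_lit 44694) (nat_lit 0) (nat_lit 1596) (XT.nd (nat_lit 78) (nat_lit 76) (nat_lit 0) (XT.lf (nat_lit 0) (nat_lit 3148762526264) (nat_lit 152) (nat_lit 3019371385102) (nat_lit 76) (nat_lit 69535448684777) (nat_lit 6) (nat_lit 5) (nat_lit 8) (nat_lit 5) (nat_lit 7) (nat_lit 4) (nat_lit 380) (nat_lit 351) (nat_lit 169)) (XT.nd (nat_lit 78) (nat_lit 0) (nat_lit 0) (XT.lf (nat_lit 0) (nat_lit 15872443421677) (nat_lit 152) (nat_lit 61793814188560) (nat_lit 0) (nat_lit 7360086189865) (nat_lit 5) (nat_lit 5) (nat_lit 7) (nat_lit 4) (nat_lit 5) (nat_lit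 4) (nat_lit 381) (nat_lit 351) (nat_lit 168)) (XT.lf (nat_lit 0) (nat_lit 30963743642048) (nat_lit 152) (nat_lit 42263529053779) (nat_lit 0) (nat_lit 22451386410228) (nat_lit 5) (nat_lit 5) (nat_lit 7) (nat_lit 4) (nat_lit 5) (nat_lit 4) (nat_lit 382) (nat_lit 351) (nat_lit 167)))) (XT.nd (nat_lit 78) (nat_lit 0) (nat_lit 0) (XT.lf (nat_lit 0) (nat_lit 650060305889) (nat_lit 380) (nat_lit 1130253849828) (nat_lit 380) (nat_lit 1130253849828) (nat_lit 26) (nat_lit 3) (nat_lit 31) (nat_lit 3) (nat_lit 31) (nat_lit 5) (nat_lit 352) (nat_lit 352) (nat_lit 196)) (XT.nd (nat_lit 78) (nat_lit 0) (nat_lit 76) (XT.lf (nat_lit 76) (nat_lit 592954444852) (nat_lit 0) (nat_lit 829228193663) (nat_lit 380) (nat_lit 4831855626277) (nat_lit 27) (nat_lit 5) (nat_lit 26) (nat_lit 3) (nat_lit 31) (nat_lit 5) (nat_lit 353) (nat_lit 352) (nat_lit 195)) (XT.lf (nat_lit 0) (nat_lit 1782073777415) (nat_lit 304)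 (nat_lit 2707022176043) (nat_lit 380) (nat_lit 2229851931867) (nat_lit 27) (nat_lit 5) (nat_lit 31) (nat_lit 5) (nat_lit 32) (nat_lit 5) (nat_lit 354) (nat_lit 352) (nat_lit 194))))))))
noncomputable def xc120 : XT := (XT.nd (nat_lit 1638) (nat_lit 380) (nat_lit 0) (XT.nd (nat_lit 780) (nat_lit 608) (nat_lit 0) (XT.nd (nat_lit 390) (nat_lit 304) (nat_lit 0) (XT.nd (nat_lit 156) (nat_lit 380) (nat_lit 0) (XT.nd (nat_lit 78) (nat_lit 0) (nat_lit 76) (XT.lf (nat_lit 76) (nat_lit 714249046619) (nat_lit 0) (nat_lit 1550762126975) (nat_lit 380) (nat_lit 4978223387378) (nat_lit 28) (nat_lit 5) (nat_lit 27) (nat_lit 5) (nat_lit 32) (nat_lit 5) (nat_lit 355) (nat_lit 352) (nat_lit 193)) (XT.lf (nat_lit 0) (nat_lit 3044337775281) (nat_lit 304) (nat_lit 2954440556494) (nat_lit 76) (nat_lit 1813793616781) (nat_lit 28) (nat_lit 5) (nat_lit 32) (nat_lit 5) (nat_lit 29) (nat_lit 5) (nat_lit 356) (nat_lit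 352) (nat_lit 192))) (XT.nd (nat_lit 78) (nat_lit 152) (nat_lit 0) (XT.lf (nat_lit 0) (nat_lit 1188224270525) (nat_lit 304) (nat_lit 2875386745197) (nat_lit 380) (nat_lit 4385241781278) (nat_lit 24) (nat_lit 5) (nat_lit 28) (nat_lit 5) (nat_lit 29) (nat_lit 5) (nat_lit 357) (nat_lit 352) (nat_lit 191)) (XT.nd (nat_lit 78) (nat_lit 152) (nat_lit 0) (XT.lf (nat_lit 0) (nat_lit 5427235333766) (nat_lit 380) (nat_lit 2910106047088) (nat_lit 76) (nat_lit 814515378128) (nat_lit 24) (nat_lit 5) (nat_lit 29) (nat_lit 5) (nat_lit 25) (nat_lit 5) (nat_lit 358) (nat_lit 352) (nat_lit 190)) (XT.lf (nat_lit 0) (nat_lit 2147233170892) (nat_lit 152) (nat_lit 5074005653416) (nat_lit 228) (nat_lit 2705197162234) (nat_lit 22) (nat_lit 5) (nat_lit 24) (nat_lit 5) (nat_lit 25) (nat_lit 5) (nat_lit 359) (nat_lit 352) (nat_lit 189))))) (XT.nd (nat_lit 156) (nat_lit 152) (nat_lit 0) (XT.nd (nat_lit 78) (nat_lit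 152) (nat_lit 0) (XT.lf (nat_lit 0) (nat_lit 8290229507802) (nat_lit 152) (nat_lit 1146232510208) (nat_lit 228) (nat_lit 1357922203291) (nat_lit 22) (nat_lit 5) (nat_lit 24) (nat_lit 5) (nat_lit 25) (nat_lit 5) (nat_lit 360) (nat_lit 352) (nat_lit 188)) (XT.lf (nat_lit 0) (nat_lit 483600322327) (nat_lit 152) (nat_lit 8013178776368) (nat_lit 76) (nat_lit 3248176500684) (nat_lit 20) (nat_lit 5) (nat_lit 22) (nat_lit 5) (nat_lit 21) (nat_lit 5) (nat_lit 361) (nat_lit 352) (nat_lit 187))) (XT.nd (nat_lit 78) (nat_lit 152) (nat_lit 0) (XT.lf (nat_lit 0) (nat_lit 2654040640639) (nat_lit 152) (nat_lit 1759425650764) (nat_lit 76) (nat_lit 8386189731115) (nat_lit 20) (nat_lit 5) (nat_lit 22) (nat_lit 5) (nat_lit 21) (nat_lit 5) (nat_lit 362) (nat_lit 352) (nat_lit 186)) (XT.nd (nat_lit 78) (nat_lit 0) (nat_lit 0) (XT.lf (nat_lit 0) (nat_lit 5420423505421) (nat_lit 228) (nat_lit 8035688997949)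 (nat_lit 76) (nat_lit 515892530950) (nat_lit 18) (nat_lit 5) (nat_lit 21) (nat_lit 5) (nat_lit 19) (nat_lit 4) (nat_lit 363) (nat_lit 352) (nat_lit 185)) (XT.lf (nat_lit 0) (nat_lit 8908278361228) (nat_lit 228) (nat_lit 536801058151) (nat_lit 76) (nat_lit 5829149794317) (nat_lit 18) (nat_lit 5) (nat_lit 21) (nat_lit 5) (nat_lit 19) (nat_lit 4) (nat_lit 364) (nat_lit 352) (nat_lit 184)))))) (XT.nd (nat_lit 390) (nat_lit 304) (nat_lit 0) (XT.nd (nat_lit 156) (nat_lit 76) (nat_lit 0) (XT.nd (nat_lit 78) (nat_lit 152) (nat_lit 0) (XT.lf (nat_lit 0) (nat_lit 8877232715909) (nat_lit 76) (nat_lit 4409666005422) (nat_lit 152) (nat_lit 3429750207257) (nat_lit 17) (nat_lit 5) (nat_lit 18) (nat_lit 5) (nat_lit 19) (nat_lit 4) (nat_lit 365) (nat_lit 352) (nat_lit 183)) (XT.lf (nat_lit 0) (nat_lit 105837243903) (nat_lit 152) (nat_lit 16893840825692) (nat_lit 76) (nat_lit 1352949318632) (nat_lit 15)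 (nat_lit 5) (nat_lit 17) (nat_lit 5) (nat_lit 16) (nat_lit 4) (nat_lit 366) (nat_lit 352) (nat_lit 182))) (XT.nd (nat_lit 78) (nat_lit 76) (nat_lit 0) (XT.lf (nat_lit 0) (nat_lit 4459907179524) (nat_lit 152) (nat_lit 7532590464212) (nat_lit 76) (nat_lit 8121113938392) (nat_lit 15) (nat_lit 5) (nat_lit 17) (nat_lit 5) (nat_lit 16) (nat_lit 4) (nat_lit 367) (nat_lit 352) (nat_lit 181)) (XT.nd (nat_lit 78) (nat_lit 0) (nat_lit 0) (XT.lf (nat_lit 0) (nat_lit 3548784815913) (nat_lit 76) (nat_lit 6065250400922) (nat_lit 152) (nat_lit 12502666046579) (nat_lit 14) (nat_lit 5) (nat_lit 15) (nat_lit 5) (nat_lit 16) (nat_lit 4) (nat_lit 368) (nat_lit 352) (nat_lit 180)) (XT.lf (nat_lit 0) (nat_lit 15984882245061) (nat_lit 152) (nat_lit 7272115939291) (nat_lit 0) (nat_lit 1096716244743) (nat_lit 14) (nat_lit 5) (nat_lit 16) (nat_lit 4) (nat_lit 14) (nat_lit 4) (nat_lit 369) (nat_lit 352) (nat_lit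 179))))) (XT.nd (nat_lit 234) (nat_lit 76) (nat_lit 0) (XT.nd (nat_lit 78) (nat_lit 152) (nat_lit 0) (XT.lf (nat_lit 0) (nat_lit 5959817350745) (nat_lit 76) (nat_lit 17887143751525) (nat_lit 76) (nat_lit 2998977751146) (nat_lit 13) (nat_lit 4) (nat_lit 14) (nat_lit 5) (nat_lit 14) (nat_lit 4) (nat_lit 370) (nat_lit 352) (nat_lit 178)) (XT.nd (nat_lit 78) (nat_lit 76) (nat_lit 0) (XT.lf (nat_lit 0) (nat_lit 3291808693788) (nat_lit 152) (nat_lit 7810777308787) (nat_lit 76) (nat_lit 18529946788656) (nat_lit 12) (nat_lit 5) (nat_lit 14) (nat_lit 5) (nat_lit 13) (nat_lit 4) (nat_lit 371) (nat_lit 352) (nat_lit 177)) (XT.lf (nat_lit 0) (nat_lit 7775268190957) (nat_lit 76) (nat_lit 2765863991106) (nat_lit 152) (nat_lit 22226268776765) (nat_lit 11) (nat_lit 5) (nat_lit 12) (nat_lit 5) (nat_lit 13) (nat_lit 4) (nat_lit 372) (nat_lit 352) (nat_lit 176)))) (XT.nd (nat_lit 78) (nat_lit 76) (nat_lit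 0) (XT.lf (nat_lit 0) (nat_lit 19588045469422) (nat_lit 152) (nat_lit 10036111026142) (nat_lit 0) (nat_lit 6641814164623) (nat_lit 11) (nat_lit 5) (nat_lit 13) (nat_lit 4) (nat_lit 11) (nat_lit 4) (nat_lit 373) (nat_lit 352) (nat_lit 175)) (XT.nd (nat_lit 78) (nat_lit 0) (nat_lit 0) (XT.lf (nat_lit 0) (nat_lit 7718785861309) (nat_lit 76) (nat_lit 22724536159794) (nat_lit 76) (nat_lit 9778304854964) (nat_lit 10) (nat_lit 4) (nat_lit 11) (nat_lit 5) (nat_lit 11) (nat_lit 4) (nat_lit 374) (nat_lit 352) (nat_lit 174)) (XT.lf (nat_lit 0) (nat_lit 29264839305067) (nat_lit 76) (nat_lit 14186665644972) (nat_lit 76) (nat_lit 1240434340115) (nat_lit 10) (nat_lit 4) (nat_lit 11) (nat_lit 5) (nat_lit 11) (nat_lit 4) (nat_lit 375) (nat_lit 352) (nat_lit 173))))))) (XT.nd (nat_lit 45396) (nat_lit 0) (nat_lit 760) (XT.nd (nat_lit 390) (nat_lit 152) (nat_lit 0) (XT.nd (nat_lit 156) (nat_lit 76) (nat_lit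 0) (XT.nd (nat_lit 78) (nat_lit 0) (nat_lit 0) (XT.lf (nat_lit 0) (nat_lit 4231519834214) (nat_lit 76) (nat_lit 3758131858387) (nat_lit 152) (nat_lit 41763583913598) (nat_lit 8) (nat_lit 5) (nat_lit 9) (nat_lit 5) (nat_lit 10) (nat_lit 4) (nat_lit 376) (nat_lit 352) (nat_lit 172)) (XT.lf (nat_lit 0) (nat_lit 19663051782174) (nat_lit 152) (nat_lit 27318485298899) (nat_lit 0) (nat_lit 8405459343131) (nat_lit 8) (nat_lit 5) (nat_lit 10) (nat_lit 4) (nat_lit 8) (nat_lit 4) (nat_lit 377) (nat_lit 352) (nat_lit 171))) (XT.nd (nat_lit 78) (nat_lit 76) (nat_lit 0) (XT.lf (nat_lit 0) (nat_lit 33266420545071) (nat_lit 152) (nat_lit 6563728914845) (nat_lit 0) (nat_lit 22008828106012) (nat_lit 8) (nat_lit 5) (nat_lit 10) (nat_lit 4) (nat_lit 8) (nat_lit 4) (nat_lit 378) (nat_lit 352) (nat_lit 170)) (XT.nd (nat_lit 78) (nat_lit 0) (nat_lit 0) (XT.lf (nat_lit 0) (nat_lit 18995337199141) (nat_lit 76)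 (nat_lit 30701513828990) (nat_lit 76) (nat_lit 19443921389919) (nat_lit 7) (nat_lit 4) (nat_lit 8) (nat_lit 5) (nat_lit 8) (nat_lit 4) (nat_lit 379) (nat_lit 352) (nat_lit 169)) (XT.lf (nat_lit 0) (nat_lit 49125936854800) (nat_lit 76) (nat_lit 19809013240280) (nat_lit 76) (nat_lit 8551420801197) (nat_lit 7) (nat_lit 4) (nat_lit 8) (nat_lit 5) (nat_lit 8) (nat_lit 4) (nat_lit 380) (nat_lit 352) (nat_lit 168))))) (XT.nd (nat_lit 44772) (nat_lit 0) (nat_lit 1596) (XT.nd (nat_lit 78) (nat_lit 76) (nat_lit 0) (XT.lf (nat_lit 0) (nat_lit 3621076905493) (nat_lit 152) (nat_lit 3472277092281) (nat_lit 76) (nat_lit 79965765987749) (nat_lit 6) (nat_lit 5) (nat_lit 8) (nat_lit 5) (nat_lit 7) (nat_lit 4) (nat_lit 381) (nat_lit 352) (nat_lit 167)) (XT.nd (nat_lit 44616) (nat_lit 0) (nat_lit 1596) (XT.lf (nat_lit 0) (nat_lit 18253309935215) (nat_lit 152) (nat_lit 71062886316254) (nat_lit 0) (nat_lit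 8464099118605) (nat_lit 5) (nat_lit 5) (nat_lit 7) (nat_lit 4) (nat_lit 5) (nat_lit 4) (nat_lit 382) (nat_lit 352) (nat_lit 166)) (XT.lf (nat_lit 0) (nat_lit 747569353470) (nat_lit 380) (nat_lit 1299791926325) (nat_lit 380) (nat_lit 1299791926325) (nat_lit 26) (nat_lit 3) (nat_lit 31) (nat_lit 3) (nat_lit 31) (nat_lit 5) (nat_lit 353) (nat_lit 353) (nat_lit 194)))) (XT.nd (nat_lit 78) (nat_lit 0) (nat_lit 76) (XT.lf (nat_lit 76) (nat_lit 681897613446) (nat_lit 0) (nat_lit 953612423874) (nat_lit 380) (nat_lit 5556633966730) (nat_lit 27) (nat_lit 5) (nat_lit 26) (nat_lit 3) (nat_lit 31) (nat_lit 5) (nat_lit 354) (nat_lit 353) (nat_lit 193)) (XT.nd (nat_lit 78) (nat_lit 0) (nat_lit 0) (XT.lf (nat_lit 0) (nat_lit 2049384846619) (nat_lit 304) (nat_lit 3113075500385) (nat_lit 380) (nat_lit 2564329720727) (nat_lit 27) (nat_lit 5) (nat_lit 31) (nat_lit 5) (nat_lit 32) (nat_lit 5) (nat_lit 355)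 (nat_lit 353) (nat_lit 192)) (XT.lf (nat_lit 76) (nat_lit 821386405584) (nat_lit 0) (nat_lit 1783376446385) (nat_lit 380) (nat_lit 5724956892795) (nat_lit 28) (nat_lit 5) (nat_lit 27) (nat_lit 5) (nat_lit 32) (nat_lit 5) (nat_lit 356) (nat_lit 353) (nat_lit 191)))))) (XT.nd (nat_lit 390) (nat_lit 532) (nat_lit 0) (XT.nd (nat_lit 156) (nat_lit 152) (nat_lit 0) (XT.nd (nat_lit 78) (nat_lit 304) (nat_lit 0) (XT.lf (nat_lit 0) (nat_lit 3500988443590) (nat_lit 304) (nat_lit 3397606637932) (nat_lit 76) (nat_lit 2085862659010) (nat_lit 28) (nat_lit 5) (nat_lit 32) (nat_lit 5) (nat_lit 29) (nat_lit 5) (nat_lit 357) (nat_lit 353) (nat_lit 190)) (XT.lf (nat_lit 0) (nat_lit 1366457913047) (nat_lit 304) (nat_lit 3306694756868) (nat_lit 380) (nat_lit 5043028046357) (nat_lit 24) (nat_lit 5) (nat_lit 28) (nat_lit 5) (nat_lit 29) (nat_lit 5) (nat_lit 358) (nat_lit 353) (nat_lit 189))) (XT.nd (nat_lit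 78) (nat_lit 152) (nat_lit 0) (XT.lf (nat_lit 0) (nat_lit 6241320635430) (nat_lit 380) (nat_lit 3346621952223) (nat_lit 76) (nat_lit 936692684933) (nat_lit 24) (nat_lit 5) (nat_lit 29) (nat_lit 5) (nat_lit 25) (nat_lit 5) (nat_lit 359) (nat_lit 353) (nat_lit 188)) (XT.nd (nat_lit 78) (nat_lit 0) (nat_lit 0) (XT.lf (nat_lit 0) (nat_lit 2469318148366) (nat_lit 152) (nat_lit 5835106501055) (nat_lit 228) (nat_lit 3110976734880) (nat_lit 22) (nat_lit 5) (nat_lit 24) (nat_lit 5) (nat_lit 25) (nat_lit 5) (nat_lit 360) (nat_lit 353) (nat_lit 187)) (XT.lf (nat_lit 0) (nat_lit 9533763935573) (nat_lit 152) (nat_lit 1318167386414) (nat_lit 228) (nat_lit 1561610532315) (nat_lit 22) (nat_lit 5) (nat_lit 24) (nat_lit 5) (nat_lit 25) (nat_lit 5) (nat_lit 361) (nat_lit 353) (nat_lit 186))))) (XT.nd (nat_lit 234) (nat_lit 228) (nat_lit 0) (XT.nd (nat_lit 78) (nat_lit 152) (nat_lit 0) (XT.lf (nat_lit 0)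 (nat_lit 556140371926) (nat_lit 152) (nat_lit 9215155590999) (nat_lit 76) (nat_lit 3735402976171) (nat_lit 20) (nat_lit 5) (nat_lit 22) (nat_lit 5) (nat_lit 21) (nat_lit 5) (nat_lit 362) (nat_lit 353) (nat_lit 185)) (XT.nd (nat_lit 78) (nat_lit 152) (nat_lit 0) (XT.lf (nat_lit 0) (nat_lit 3052146737822) (nat_lit 152) (nat_lit 2023339496793) (nat_lit 76) (nat_lit 9644118191116) (nat_lit 20) (nat_lit 5) (nat_lit 22) (nat_lit 5) (nat_lit 21) (nat_lit 5) (nat_lit 363) (nat_lit 353) (nat_lit 184)) (XT.lf (nat_lit 0) (nat_lit 6233487032263) (nat_lit 228) (nat_lit 9241042345995) (nat_lit 76) (nat_lit 593276411054) (nat_lit 18) (nat_lit 5) (nat_lit 21) (nat_lit 5) (nat_lit 19) (nat_lit 4) (nat_lit 364) (nat_lit 353) (nat_lit 183)))) (XT.nd (nat_lit 78) (nat_lit 228) (nat_lit 0) (XT.lf (nat_lit 0) (nat_lit 10244520116307) (nat_lit 228) (nat_lit 617321215442) (nat_lit 76) (nat_lit 6703522263865)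 (nat_lit 18) (nat_lit 5) (nat_lit 21) (nat_lit 5) (nat_lit 19) (nat_lit 4) (nat_lit 365) (nat_lit 353) (nat_lit 182)) (XT.nd (nat_lit 78) (nat_lit 152) (nat_lit 0) (XT.lf (nat_lit 0) (nat_lit 10208817624661) (nat_lit 76) (nat_lit 5071115905705) (nat_lit 152) (nat_lit 3944212737385) (nat_lit 17) (nat_lit 5) (nat_lit 18) (nat_lit 5) (nat_lit 19) (nat_lit 4) (nat_lit 366) (nat_lit 353) (nat_lit 181)) (XT.lf (nat_lit 0) (nat_lit 121712831330) (nat_lit 152) (nat_lit 19427916948059) (nat_lit 76) (nat_lit 1555891716944) (nat_lit 15) (nat_lit 5) (nat_lit 17) (nat_lit 5) (nat_lit 16) (nat_lit 4) (nat_lit 367) (nat_lit 353) (nat_lit 180))))))))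
noncomputable def xc121 : XT := (XT.nd (nat_lit 46410) (nat_lit 228) (nat_lit 0) (XT.nd (nat_lit 858) (nat_lit 76) (nat_lit 0) (XT.nd (nat_lit 390) (nat_lit 304) (nat_lit 0) (XT.nd (nat_lit 156) (nat_lit 152) (nat_lit 0) (XT.nd (nat_lit 78) (nat_lit 76) (nat_lit 0) (XT.lf (nat_lit 0) (nat_lit 5128893257185) (nat_lit 152) (nat_lit 8662479032552) (nat_lit 76) (nat_lit 9339281029601) (nat_lit 15) (nat_lit 5) (nat_lit 17) (nat_lit 5) (nat_lit 16) (nat_lit 4) (nat_lit 368) (nat_lit 353) (nat_lit 179)) (XT.lf (nat_lit 0) (nat_lit 4081102539534) (nat_lit 76) (nat_lit 6975037960515) (nat_lit 152) (nat_lit 14378065952774) (nat_lit 14) (nat_lit 5) (nat_lit 15) (nat_lit 5) (nat_lit 16) (nat_lit 4) (nat_lit 369) (nat_lit 353) (nat_lit 178))) (XT.nd (nat_lit 78) (nat_lit 152) (nat_lit 0) (XT.lf (nat_lit 0) (nat_lit 18382614582438) (nat_lit 152) (nat_lit 8362933329041) (nat_lit 0) (nat_lit 1261223681887)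 (nat_lit 14) (nat_lit 5) (nat_lit 16) (nat_lit 4) (nat_lit 14) (nat_lit 4) (nat_lit 370) (nat_lit 353) (nat_lit 177)) (XT.nd (nat_lit 78) (nat_lit 76) (nat_lit 0) (XT.lf (nat_lit 0) (nat_lit 6853789954448) (nat_lit 76) (nat_lit 20570215313745) (nat_lit 76) (nat_lit 3448824413148) (nat_lit 13) (nat_lit 4) (nat_lit 14) (nat_lit 5) (nat_lit 14) (nat_lit 4) (nat_lit 371) (nat_lit 353) (nat_lit 176)) (XT.lf (nat_lit 0) (nat_lit 3785579998387) (nat_lit 152) (nat_lit 8982393904104) (nat_lit 76) (nat_lit 21309438807345) (nat_lit 12) (nat_lit 5) (nat_lit 14) (nat_lit 5) (nat_lit 13) (nat_lit 4) (nat_lit 372) (nat_lit 353) (nat_lit 175))))) (XT.nd (nat_lit 234) (nat_lit 152) (nat_lit 0) (XT.nd (nat_lit 78) (nat_lit 76) (nat_lit 0) (XT.lf (nat_lit 0) (nat_lit 8941558420556) (nat_lit 76) (nat_lit 3180743589317) (nat_lit 152) (nat_lit 25560209092703) (nat_lit 11) (nat_lit 5) (nat_lit 12) (nat_lit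 5) (nat_lit 13) (nat_lit 4) (nat_lit 373) (nat_lit 353) (nat_lit 174)) (XT.nd (nat_lit 78) (nat_lit 76) (nat_lit 0) (XT.lf (nat_lit 0) (nat_lit 22526252290288) (nat_lit 152) (nat_lit 11541527679183) (nat_lit 0) (nat_lit 7638086289676) (nat_lit 11) (nat_lit 5) (nat_lit 13) (nat_lit 4) (nat_lit 11) (nat_lit 4) (nat_lit 374) (nat_lit 353) (nat_lit 173)) (XT.lf (nat_lit 0) (nat_lit 8876603741345) (nat_lit 76) (nat_lit 26133216583351) (nat_lit 76) (nat_lit 11245050582716) (nat_lit 10) (nat_lit 4) (nat_lit 11) (nat_lit 5) (nat_lit 11) (nat_lit 4) (nat_lit 375) (nat_lit 353) (nat_lit 172)))) (XT.nd (nat_lit 78) (nat_lit 152) (nat_lit 0) (XT.lf (nat_lit 0) (nat_lit 33654565201558) (nat_lit 76) (nat_lit 16314665491359) (nat_lit 76) (nat_lit 1426499490705) (nat_lit 10) (nat_lit 4) (nat_lit 11) (nat_lit 5) (nat_lit 11) (nat_lit 4) (nat_lit 376) (nat_lit 353) (nat_lit 171)) (XT.nd (nat_lit 78) (nat_lit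 0) (nat_lit 0) (XT.lf (nat_lit 0) (nat_lit 4866247810080) (nat_lit 76) (nat_lit 4321851636781) (nat_lit 152) (nat_lit 48028121500212) (nat_lit 8) (nat_lit 5) (nat_lit 9) (nat_lit 5) (nat_lit 10) (nat_lit 4) (nat_lit 377) (nat_lit 353) (nat_lit 170)) (XT.lf (nat_lit 0) (nat_lit 22612509549835) (nat_lit 152) (nat_lit 31416258093060) (nat_lit 0) (nat_lit 9666278244890) (nat_lit 8) (nat_lit 5) (nat_lit 10) (nat_lit 4) (nat_lit 8) (nat_lit 4) (nat_lit 378) (nat_lit 353) (nat_lit 169)))))) (XT.nd (nat_lit 45084) (nat_lit 0) (nat_lit 1140) (XT.nd (nat_lit 156) (nat_lit 0) (nat_lit 0) (XT.nd (nat_lit 78) (nat_lit 76) (nat_lit 0) (XT.lf (nat_lit 0) (nat_lit 38256383627122) (nat_lit 152) (nat_lit 7548288251486) (nat_lit 0) (nat_lit 25310152322165) (nat_lit 8) (nat_lit 5) (nat_lit 10) (nat_lit 4) (nat_lit 8) (nat_lit 4) (nat_lit 379) (nat_lit 353) (nat_lit 168)) (XT.lf (nat_lit 0) (nat_lit 21844637779571)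 (nat_lit 76) (nat_lit 35306740903056) (nat_lit 76) (nat_lit 22360509598089) (nat_lit 7) (nat_lit 4) (nat_lit 8) (nat_lit 5) (nat_lit 8) (nat_lit 4) (nat_lit 380) (nat_lit 353) (nat_lit 167))) (XT.nd (nat_lit 44772) (nat_lit 0) (nat_lit 1444) (XT.lf (nat_lit 0) (nat_lit 56494827383507) (nat_lit 76) (nat_lit 22780365226076) (nat_lit 76) (nat_lit 9834133921100) (nat_lit 7) (nat_lit 4) (nat_lit 8) (nat_lit 5) (nat_lit 8) (nat_lit 4) (nat_lit 381) (nat_lit 353) (nat_lit 166)) (XT.nd (nat_lit 78) (nat_lit 0) (nat_lit 0) (XT.lf (nat_lit 0) (nat_lit 859704757773) (nat_lit 380) (nat_lit 1494760714535) (nat_lit 380) (nat_lit 1494760714535) (nat_lit 26) (nat_lit 3) (nat_lit 31) (nat_lit 3) (nat_lit 31) (nat_lit 5) (nat_lit 354) (nat_lit 354) (nat_lit 192)) (XT.lf (nat_lit 76) (nat_lit 784182256874) (nat_lit 0) (nat_lit 1096654288334) (nat_lit 380) (nat_lit 6390129059102) (nat_lit 27) (nat_lit 5)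 (nat_lit 26) (nat_lit 3) (nat_lit 31) (nat_lit 5) (nat_lit 355) (nat_lit 354) (nat_lit 191))))) (XT.nd (nat_lit 234) (nat_lit 380) (nat_lit 0) (XT.nd (nat_lit 78) (nat_lit 0) (nat_lit 0) (XT.lf (nat_lit 0) (nat_lit 2356792575571) (nat_lit 304) (nat_lit 3580036823881) (nat_lit 380) (nat_lit 2948979178140) (nat_lit 27) (nat_lit 5) (nat_lit 31) (nat_lit 5) (nat_lit 32) (nat_lit 5) (nat_lit 356) (nat_lit 354) (nat_lit 190)) (XT.nd (nat_lit 78) (nat_lit 0) (nat_lit 76) (XT.lf (nat_lit 76) (nat_lit 944594367912) (nat_lit 0) (nat_lit 2050882913618) (nat_lit 380) (nat_lit 6583700424680) (nat_lit 28) (nat_lit 5) (nat_lit 27) (nat_lit 5) (nat_lit 32) (nat_lit 5) (nat_lit 357) (nat_lit 354) (nat_lit 189)) (XT.lf (nat_lit 0) (nat_lit 4026136711654) (nat_lit 304) (nat_lit 3907247632082) (nat_lit 76) (nat_lit 2398742057644) (nat_lit 28) (nat_lit 5) (nat_lit 32) (nat_lit 5) (nat_lit 29) (nat_lit 5)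 (nat_lit 358) (nat_lit 354) (nat_lit 188)))) (XT.nd (nat_lit 78) (nat_lit 152) (nat_lit 0) (XT.lf (nat_lit 0) (nat_lit 1571426601474) (nat_lit 304) (nat_lit 3802698970316) (nat_lit 380) (nat_lit 5799482251712) (nat_lit 24) (nat_lit 5) (nat_lit 28) (nat_lit 5) (nat_lit 29) (nat_lit 5) (nat_lit 359) (nat_lit 354) (nat_lit 187)) (XT.nd (nat_lit 78) (nat_lit 152) (nat_lit 0) (XT.lf (nat_lit 0) (nat_lit 7177518731954) (nat_lit 380) (nat_lit 3848615243599) (nat_lit 76) (nat_lit 1077196587738) (nat_lit 24) (nat_lit 5) (nat_lit 29) (nat_lit 5) (nat_lit 25) (nat_lit 5) (nat_lit 360) (nat_lit 354) (nat_lit 186)) (XT.lf (nat_lit 0) (nat_lit 2839715872013) (nat_lit 152) (nat_lit 6710372475930) (nat_lit 228) (nat_lit 3577623243834) (nat_lit 22) (nat_lit 5) (nat_lit 24) (nat_lit 5) (nat_lit 25) (nat_lit 5) (nat_lit 361) (nat_lit 354) (nat_lit 185))))))) (XT.nd (nat_lit 858) (nat_lit 684) (nat_lit 0)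 (XT.nd (nat_lit 390) (nat_lit 380) (nat_lit 0) (XT.nd (nat_lit 156) (nat_lit 152) (nat_lit 0) (XT.nd (nat_lit 78) (nat_lit 152) (nat_lit 0) (XT.lf (nat_lit 0) (nat_lit 10963828527119) (nat_lit 152) (nat_lit 1515892494130) (nat_lit 228) (nat_lit 1795852111051) (nat_lit 22) (nat_lit 5) (nat_lit 24) (nat_lit 5) (nat_lit 25) (nat_lit 5) (nat_lit 362) (nat_lit 354) (nat_lit 184)) (XT.lf (nat_lit 0) (nat_lit 639561428660) (nat_lit 152) (nat_lit 10597428928270) (nat_lit 76) (nat_lit 4295713422887) (nat_lit 20) (nat_lit 5) (nat_lit 22) (nat_lit 5) (nat_lit 21) (nat_lit 5) (nat_lit 363) (nat_lit 354) (nat_lit 183))) (XT.nd (nat_lit 78) (nat_lit 152) (nat_lit 0) (XT.lf (nat_lit 0) (nat_lit 3509968749317) (nat_lit 152) (nat_lit 2326840420113) (nat_lit 76) (nat_lit 11090735920037) (nat_lit 20) (nat_lit 5) (nat_lit 22) (nat_lit 5) (nat_lit 21) (nat_lit 5) (nat_lit 364) (nat_lit 354) (nat_lit 182))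 (XT.nd (nat_lit 78) (nat_lit 0) (nat_lit 0) (XT.lf (nat_lit 0) (nat_lit 7168510087880) (nat_lit 228) (nat_lit 10627198696651) (nat_lit 76) (nat_lit 682267873061) (nat_lit 18) (nat_lit 5) (nat_lit 21) (nat_lit 5) (nat_lit 19) (nat_lit 4) (nat_lit 365) (nat_lit 354) (nat_lit 181)) (XT.lf (nat_lit 0) (nat_lit 11781198134429) (nat_lit 228) (nat_lit 709919396677) (nat_lit 76) (nat_lit 7709050603748) (nat_lit 18) (nat_lit 5) (nat_lit 21) (nat_lit 5) (nat_lit 19) (nat_lit 4) (nat_lit 366) (nat_lit 354) (nat_lit 180))))) (XT.nd (nat_lit 234) (nat_lit 152) (nat_lit 0) (XT.nd (nat_lit 78) (nat_lit 152) (nat_lit 0) (XT.lf (nat_lit 0) (nat_lit 11740140269393) (nat_lit 76) (nat_lit 5831783291158) (nat_lit 152) (nat_lit 4535844647267) (nat_lit 17) (nat_lit 5) (nat_lit 18) (nat_lit 5) (nat_lit 19) (nat_lit 4) (nat_lit 367) (nat_lit 354) (nat_lit 179)) (XT.nd (nat_lit 78) (nat_lit 0) (nat_lit 0) (XT.lf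 (nat_lit 0) (nat_lit 139969756666) (nat_lit 152) (nat_lit 22342104489144) (nat_lit 76) (nat_lit 1789275474877) (nat_lit 15) (nat_lit 5) (nat_lit 17) (nat_lit 5) (nat_lit 16) (nat_lit 4) (nat_lit 368) (nat_lit 354) (nat_lit 178)) (XT.lf (nat_lit 0) (nat_lit 5898227246317) (nat_lit 152) (nat_lit 9961850886458) (nat_lit 76) (nat_lit 10740173184381) (nat_lit 15) (nat_lit 5) (nat_lit 17) (nat_lit 5) (nat_lit 16) (nat_lit 4) (nat_lit 369) (nat_lit 354) (nat_lit 177)))) (XT.nd (nat_lit 78) (nat_lit 76) (nat_lit 0) (XT.lf (nat_lit 0) (nat_lit 4693267921397) (nat_lit 76) (nat_lit 8021293654179) (nat_lit 152) (nat_lit 16534775845092) (nat_lit 14) (nat_lit 5) (nat_lit 15) (nat_lit 5) (nat_lit 16) (nat_lit 4) (nat_lit 370) (nat_lit 354) (nat_lit 176)) (XT.nd (nat_lit 78) (nat_lit 76) (nat_lit 0) (XT.lf (nat_lit 0) (nat_lit 21140006770271) (nat_lit 152) (nat_lit 9617373327533) (nat_lit 0) (nat_lit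 1450407234498) (nat_lit 14) (nat_lit 5) (nat_lit 16) (nat_lit 4) (nat_lit 14) (nat_lit 4) (nat_lit 371) (nat_lit 354) (nat_lit 175)) (XT.lf (nat_lit 0) (nat_lit 7881858448440) (nat_lit 76) (nat_lit 23655747610422) (nat_lit 76) (nat_lit 3966148074613) (nat_lit 13) (nat_lit 4) (nat_lit 14) (nat_lit 5) (nat_lit 14) (nat_lit 4) (nat_lit 372) (nat_lit 354) (nat_lit 174)))))) (XT.nd (nat_lit 390) (nat_lit 456) (nat_lit 0) (XT.nd (nat_lit 156) (nat_lit 76) (nat_lit 0) (XT.nd (nat_lit 78) (nat_lit 76) (nat_lit 0) (XT.lf (nat_lit 0) (nat_lit 4353416998547) (nat_lit 152) (nat_lit 10329752988962) (nat_lit 76) (nat_lit 24505854628742) (nat_lit 12) (nat_lit 5) (nat_lit 14) (nat_lit 5) (nat_lit 13) (nat_lit 4) (nat_lit 373) (nat_lit 354) (nat_lit 173)) (XT.lf (nat_lit 0) (nat_lit 10282792184362) (nat_lit 76) (nat_lit 3657855127371) (nat_lit 152) (nat_lit 29394240456173) (nat_lit 11) (nat_lit 5) (nat_lit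 12) (nat_lit 5) (nat_lit 13) (nat_lit 4) (nat_lit 374) (nat_lit 354) (nat_lit 172))) (XT.nd (nat_lit 78) (nat_lit 76) (nat_lit 0) (XT.lf (nat_lit 0) (nat_lit 25905190134173) (nat_lit 152) (nat_lit 13272756830394) (nat_lit 0) (nat_lit 8783799233400) (nat_lit 11) (nat_lit 5) (nat_lit 13) (nat_lit 4) (nat_lit 11) (nat_lit 4) (nat_lit 375) (nat_lit 354) (nat_lit 171)) (XT.nd (nat_lit 78) (nat_lit 0) (nat_lit 0) (XT.lf (nat_lit 0) (nat_lit 10208094303183) (nat_lit 76) (nat_lit 30053199070542) (nat_lit 76) (nat_lit 12931808169752) (nat_lit 10) (nat_lit 4) (nat_lit 11) (nat_lit 5) (nat_lit 11) (nat_lit 4) (nat_lit 376) (nat_lit 354) (nat_lit 170)) (XT.lf (nat_lit 0) (nat_lit 38702749982344) (nat_lit 76) (nat_lit 18761865314792) (nat_lit 76) (nat_lit 1640474413987) (nat_lit 10) (nat_lit 4) (nat_lit 11) (nat_lit 5) (nat_lit 11) (nat_lit 4) (nat_lit 377) (nat_lit 354) (nat_lit 169))))) (XT.nd (nat_lit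 234) (nat_lit 304) (nat_lit 0) (XT.nd (nat_lit 78) (nat_lit 0) (nat_lit 0) (XT.lf (nat_lit 0) (nat_lit 5596184982147) (nat_lit 76) (nat_lit 4970129382022) (nat_lit 152) (nat_lit 55232339724923) (nat_lit 8) (nat_lit 5) (nat_lit 9) (nat_lit 5) (nat_lit 10) (nat_lit 4) (nat_lit 378) (nat_lit 354) (nat_lit 168)) (XT.nd (nat_lit 78) (nat_lit 0) (nat_lit 0) (XT.lf (nat_lit 0) (nat_lit 26004385982563) (nat_lit 152) (nat_lit 36128696806510) (nat_lit 0) (nat_lit 11116219981841) (nat_lit 8) (nat_lit 5) (nat_lit 10) (nat_lit 4) (nat_lit 8) (nat_lit 4) (nat_lit 379) (nat_lit 354) (nat_lit 167)) (XT.lf (nat_lit 0) (nat_lit 43994841171410) (nat_lit 152) (nat_lit 8680531488766) (nat_lit 0) (nat_lit 29106675170680) (nat_lit 8) (nat_lit 5) (nat_lit 10) (nat_lit 4) (nat_lit 8) (nat_lit 4) (nat_lit 380) (nat_lit 354) (nat_lit 166)))) (XT.nd (nat_lit 546) (nat_lit 228) (nat_lit 0) (XT.lf (nat_lit 0) (nat_lit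 25121333446930) (nat_lit 76) (nat_lit 40602752038301) (nat_lit 76) (nat_lit 25714586037563) (nat_lit 7) (nat_lit 4) (nat_lit 8) (nat_lit 5) (nat_lit 8) (nat_lit 4) (nat_lit 381) (nat_lit 354) (nat_lit 165)) (XT.nd (nat_lit 78) (nat_lit 0) (nat_lit 0) (XT.lf (nat_lit 0) (nat_lit 59648482028487) (nat_lit 76) (nat_lit 81569286038452) (nat_lit 76) (nat_lit 68623054733436) (nat_lit 4) (nat_lit 4) (nat_lit 5) (nat_lit 5) (nat_lit 5) (nat_lit 4) (nat_lit 388) (nat_lit 354) (nat_lit 158)) (XT.lf (nat_lit 0) (nat_lit 116676453097206) (nat_lit 76) (nat_lit 67045880247327) (nat_lit 76) (nat_lit 54099648942308) (nat_lit 4) (nat_lit 4) (nat_lit 5) (nat_lit 5) (nat_lit 5) (nat_lit 4) (nat_lit 389) (nat_lit 354) (nat_lit 157))))))))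
noncomputable def xc122 : XT := (XT.nd (nat_lit 1638) (nat_lit 532) (nat_lit 0) (XT.nd (nat_lit 780) (nat_lit 684) (nat_lit 0) (XT.nd (nat_lit 390) (nat_lit 456) (nat_lit 0) (XT.nd (nat_lit 156) (nat_lit 0) (nat_lit 76) (XT.nd (nat_lit 78) (nat_lit 0) (nat_lit 0) (XT.lf (nat_lit 0) (nat_lit 988660472409) (nat_lit 380) (nat_lit 1718974821156) (nat_lit 380) (nat_lit 1718974821156) (nat_lit 26) (nat_lit 3) (nat_lit 31) (nat_lit 3) (nat_lit 31) (nat_lit 5) (nat_lit 355) (nat_lit 355) (nat_lit 190)) (XT.lf (nat_lit 76) (nat_lit 901809596472) (nat_lit 0) (nat_lit 1261152432249) (nat_lit 380) (nat_lit 7348648415973) (nat_lit 27) (nat_lit 5) (nat_lit 26) (nat_lit 3) (nat_lit 31) (nat_lit 5) (nat_lit 356) (nat_lit 355) (nat_lit 189))) (XT.nd (nat_lit 78) (nat_lit 0) (nat_lit 0) (XT.lf (nat_lit 0) (nat_lit 2710311463388) (nat_lit 304) (nat_lit 4117042346283) (nat_lit 380) (nat_lit 3391326054334)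 (nat_lit 27) (nat_lit 5) (nat_lit 31) (nat_lit 5) (nat_lit 32) (nat_lit 5) (nat_lit 357) (nat_lit 355) (nat_lit 188)) (XT.nd (nat_lit 78) (nat_lit 0) (nat_lit 76) (XT.lf (nat_lit 76) (nat_lit 1086283524225) (nat_lit 0) (nat_lit 2358515350868) (nat_lit 380) (nat_lit 7571255486845) (nat_lit 28) (nat_lit 5) (nat_lit 27) (nat_lit 5) (nat_lit 32) (nat_lit 5) (nat_lit 358) (nat_lit 355) (nat_lit 187)) (XT.lf (nat_lit 0) (nat_lit 4630057219555) (nat_lit 304) (nat_lit 4493334775731) (nat_lit 76) (nat_lit 2758553366125) (nat_lit 28) (nat_lit 5) (nat_lit 32) (nat_lit 5) (nat_lit 29) (nat_lit 5) (nat_lit 359) (nat_lit 355) (nat_lit 186))))) (XT.nd (nat_lit 156) (nat_lit 304) (nat_lit 0) (XT.nd (nat_lit 78) (nat_lit 0) (nat_lit 0) (XT.lf (nat_lit 0) (nat_lit 1807140592806) (nat_lit 304) (nat_lit 4373103815801) (nat_lit 380) (nat_lit 6669404588261) (nat_lit 24) (nat_lit 5) (nat_lit 28) (nat_lit 5)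 (nat_lit 29) (nat_lit 5) (nat_lit 360) (nat_lit 355) (nat_lit 185)) (XT.lf (nat_lit 0) (nat_lit 8254146542661) (nat_lit 380) (nat_lit 4425907529036) (nat_lit 76) (nat_lit 1238776075948) (nat_lit 24) (nat_lit 5) (nat_lit 29) (nat_lit 5) (nat_lit 25) (nat_lit 5) (nat_lit 361) (nat_lit 355) (nat_lit 184))) (XT.nd (nat_lit 78) (nat_lit 152) (nat_lit 0) (XT.lf (nat_lit 0) (nat_lit 3265673253868) (nat_lit 152) (nat_lit 7716928347106) (nat_lit 228) (nat_lit 4114266729443) (nat_lit 22) (nat_lit 5) (nat_lit 24) (nat_lit 5) (nat_lit 25) (nat_lit 5) (nat_lit 362) (nat_lit 355) (nat_lit 183)) (XT.nd (nat_lit 78) (nat_lit 152) (nat_lit 0) (XT.lf (nat_lit 0) (nat_lit 12608402807102) (nat_lit 152) (nat_lit 1743276368064) (nat_lit 228) (nat_lit 2065229926869) (nat_lit 22) (nat_lit 5) (nat_lit 24) (nat_lit 5) (nat_lit 25) (nat_lit 5) (nat_lit 363) (nat_lit 355) (nat_lit 182)) (XT.lf (nat_lit 0) (nat_lit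 735495643674) (nat_lit 152) (nat_lit 12187043266468) (nat_lit 76) (nat_lit 4940070436541) (nat_lit 20) (nat_lit 5) (nat_lit 22) (nat_lit 5) (nat_lit 21) (nat_lit 5) (nat_lit 364) (nat_lit 355) (nat_lit 181)))))) (XT.nd (nat_lit 390) (nat_lit 304) (nat_lit 0) (XT.nd (nat_lit 156) (nat_lit 228) (nat_lit 0) (XT.nd (nat_lit 78) (nat_lit 152) (nat_lit 0) (XT.lf (nat_lit 0) (nat_lit 4036464062336) (nat_lit 152) (nat_lit 2675866482223) (nat_lit 76) (nat_lit 12754346308234) (nat_lit 20) (nat_lit 5) (nat_lit 22) (nat_lit 5) (nat_lit 21) (nat_lit 5) (nat_lit 365) (nat_lit 355) (nat_lit 180)) (XT.lf (nat_lit 0) (nat_lit 8243786601650) (nat_lit 228) (nat_lit 12221278500208) (nat_lit 76) (nat_lit 784608054284) (nat_lit 18) (nat_lit 5) (nat_lit 21) (nat_lit 5) (nat_lit 19) (nat_lit 4) (nat_lit 366) (nat_lit 355) (nat_lit 179))) (XT.nd (nat_lit 78) (nat_lit 228) (nat_lit 0) (XT.lf (nat_lit 0) (nat_lit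 13548377855105) (nat_lit 228) (nat_lit 816407305360) (nat_lit 76) (nat_lit 8865408194540) (nat_lit 18) (nat_lit 5) (nat_lit 21) (nat_lit 5) (nat_lit 19) (nat_lit 4) (nat_lit 367) (nat_lit 355) (nat_lit 178)) (XT.nd (nat_lit 78) (nat_lit 152) (nat_lit 0) (XT.lf (nat_lit 0) (nat_lit 13501161310583) (nat_lit 76) (nat_lit 6706550784528) (nat_lit 152) (nat_lit 5216221343808) (nat_lit 17) (nat_lit 5) (nat_lit 18) (nat_lit 5) (nat_lit 19) (nat_lit 4) (nat_lit 368) (nat_lit 355) (nat_lit 177)) (XT.lf (nat_lit 0) (nat_lit 160965220648) (nat_lit 152) (nat_lit 25693420161666) (nat_lit 76) (nat_lit 2057666796404) (nat_lit 15) (nat_lit 5) (nat_lit 17) (nat_lit 5) (nat_lit 16) (nat_lit 4) (nat_lit 369) (nat_lit 355) (nat_lit 176))))) (XT.nd (nat_lit 234) (nat_lit 228) (nat_lit 0) (XT.nd (nat_lit 78) (nat_lit 76) (nat_lit 0) (XT.lf (nat_lit 0) (nat_lit 6782961333683) (nat_lit 152) (nat_lit 11456128518687)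 (nat_lit 76) (nat_lit 12351199162295) (nat_lit 15) (nat_lit 5) (nat_lit 17) (nat_lit 5) (nat_lit 16) (nat_lit 4) (nat_lit 370) (nat_lit 355) (nat_lit 175)) (XT.nd (nat_lit 78) (nat_lit 0) (nat_lit 0) (XT.lf (nat_lit 0) (nat_lit 5397258110312) (nat_lit 76) (nat_lit 9224487701994) (nat_lit 152) (nat_lit 19014992221403) (nat_lit 14) (nat_lit 5) (nat_lit 15) (nat_lit 5) (nat_lit 16) (nat_lit 4) (nat_lit 371) (nat_lit 355) (nat_lit 174)) (XT.lf (nat_lit 0) (nat_lit 24311007786165) (nat_lit 152) (nat_lit 11059979326009) (nat_lit 0) (nat_lit 1667968319920) (nat_lit 14) (nat_lit 5) (nat_lit 16) (nat_lit 4) (nat_lit 14) (nat_lit 4) (nat_lit 372) (nat_lit 355) (nat_lit 173)))) (XT.nd (nat_lit 78) (nat_lit 152) (nat_lit 0) (XT.lf (nat_lit 0) (nat_lit 9064137216331) (nat_lit 76) (nat_lit 27204109751694) (nat_lit 76) (nat_lit 4561070285422) (nat_lit 13) (nat_lit 4) (nat_lit 14) (nat_lit 5) (nat_lit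 14) (nat_lit 4) (nat_lit 373) (nat_lit 355) (nat_lit 172)) (XT.nd (nat_lit 78) (nat_lit 76) (nat_lit 0) (XT.lf (nat_lit 0) (nat_lit 5006429548632) (nat_lit 152) (nat_lit 11879215936734) (nat_lit 76) (nat_lit 28181732823277) (nat_lit 12) (nat_lit 5) (nat_lit 14) (nat_lit 5) (nat_lit 13) (nat_lit 4) (nat_lit 374) (nat_lit 355) (nat_lit 171)) (XT.lf (nat_lit 0) (nat_lit 11825211012563) (nat_lit 76) (nat_lit 4206533396217) (nat_lit 152) (nat_lit 33803376524269) (nat_lit 11) (nat_lit 5) (nat_lit 12) (nat_lit 5) (nat_lit 13) (nat_lit 4) (nat_lit 375) (nat_lit 355) (nat_lit 170))))))) (XT.nd (nat_lit 45474) (nat_lit 0) (nat_lit 1064) (XT.nd (nat_lit 390) (nat_lit 304) (nat_lit 0) (XT.nd (nat_lit 156) (nat_lit 152) (nat_lit 0) (XT.nd (nat_lit 78) (nat_lit 76) (nat_lit 0) (XT.lf (nat_lit 0) (nat_lit 29790968654557) (nat_lit 152) (nat_lit 15263670354450) (nat_lit 0) (nat_lit 10101369118616) (nat_lit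 11) (nat_lit 5) (nat_lit 13) (nat_lit 4) (nat_lit 11) (nat_lit 4) (nat_lit 376) (nat_lit 355) (nat_lit 169)) (XT.lf (nat_lit 0) (nat_lit 11739308449141) (nat_lit 76) (nat_lit 34561178930888) (nat_lit 76) (nat_lit 14871579394933) (nat_lit 10) (nat_lit 4) (nat_lit 11) (nat_lit 5) (nat_lit 11) (nat_lit 4) (nat_lit 377) (nat_lit 355) (nat_lit 168))) (XT.nd (nat_lit 78) (nat_lit 152) (nat_lit 0) (XT.lf (nat_lit 0) (nat_lit 44508162480114) (nat_lit 76) (nat_lit 21576145111806) (nat_lit 76) (nat_lit 1886545575840) (nat_lit 10) (nat_lit 4) (nat_lit 11) (nat_lit 5) (nat_lit 11) (nat_lit 4) (nat_lit 378) (nat_lit 355) (nat_lit 167)) (XT.nd (nat_lit 78) (nat_lit 0) (nat_lit 0) (XT.lf (nat_lit 0) (nat_lit 6435612729889) (nat_lit 76) (nat_lit 5715648789117) (nat_lit 152) (nat_lit 63517190683418) (nat_lit 8) (nat_lit 5) (nat_lit 9) (nat_lit 5) (nat_lit 10) (nat_lit 4) (nat_lit 379) (nat_lit 355) (nat_lit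 166)) (XT.lf (nat_lit 0) (nat_lit 29905043880139) (nat_lit 152) (nat_lit 41548001327102) (nat_lit 0) (nat_lit 12783652979283) (nat_lit 8) (nat_lit 5) (nat_lit 10) (nat_lit 4) (nat_lit 8) (nat_lit 4) (nat_lit 380) (nat_lit 355) (nat_lit 165))))) (XT.nd (nat_lit 624) (nat_lit 0) (nat_lit 0) (XT.nd (nat_lit 468) (nat_lit 304) (nat_lit 0) (XT.lf (nat_lit 0) (nat_lit 50594067347288) (nat_lit 152) (nat_lit 9982611211746) (nat_lit 0) (nat_lit 33472676446426) (nat_lit 8) (nat_lit 5) (nat_lit 10) (nat_lit 4) (nat_lit 8) (nat_lit 4) (nat_lit 381) (nat_lit 355) (nat_lit 164)) (XT.nd (nat_lit 78) (nat_lit 76) (nat_lit 0) (XT.lf (nat_lit 0) (nat_lit 84509776321041) (nat_lit 152) (nat_lit 34636797080836) (nat_lit 0) (nat_lit 69621610320270) (nat_lit 5) (nat_lit 5) (nat_lit 7) (nat_lit 4) (nat_lit 5) (nat_lit 4) (nat_lit 387) (nat_lit 355) (nat_lit 158)) (XT.lf (nat_lit 0) (nat_lit 11567783264207) (nat_lit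 76) (nat_lit 108328084735260) (nat_lit 76) (nat_lit 93439918734486) (nat_lit 4) (nat_lit 4) (nat_lit 5) (nat_lit 5) (nat_lit 5) (nat_lit 4) (nat_lit 388) (nat_lit 355) (nat_lit 157)))) (XT.nd (nat_lit 44304) (nat_lit 0) (nat_lit 1672) (XT.lf (nat_lit 0) (nat_lit 68595754332920) (nat_lit 76) (nat_lit 93804678944138) (nat_lit 76) (nat_lit 78916512943362) (nat_lit 4) (nat_lit 4) (nat_lit 5) (nat_lit 5) (nat_lit 5) (nat_lit 4) (nat_lit 389) (nat_lit 355) (nat_lit 156)) (XT.nd (nat_lit 78) (nat_lit 0) (nat_lit 0) (XT.lf (nat_lit 0) (nat_lit 1136959544004) (nat_lit 380) (nat_lit 1976821043907) (nat_lit 380) (nat_lit 1976821043907) (nat_lit 26) (nat_lit 3) (nat_lit 31) (nat_lit 3) (nat_lit 31) (nat_lit 5) (nat_lit 356) (nat_lit 356) (nat_lit 188)) (XT.lf (nat_lit 76) (nat_lit 1037081036750) (nat_lit 0) (nat_lit 1450325297589) (nat_lit 380) (nat_lit 8450945676861) (nat_lit 27) (nat_lit 5) (nat_lit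 26) (nat_lit 3) (nat_lit 31) (nat_lit 5) (nat_lit 357) (nat_lit 356) (nat_lit 187)))))) (XT.nd (nat_lit 390) (nat_lit 456) (nat_lit 0) (XT.nd (nat_lit 156) (nat_lit 228) (nat_lit 0) (XT.nd (nat_lit 78) (nat_lit 0) (nat_lit 0) (XT.lf (nat_lit 0) (nat_lit 3116858184017) (nat_lit 304) (nat_lit 4734598697333) (nat_lit 380) (nat_lit 3900024962087) (nat_lit 27) (nat_lit 5) (nat_lit 31) (nat_lit 5) (nat_lit 32) (nat_lit 5) (nat_lit 358) (nat_lit 356) (nat_lit 186)) (XT.lf (nat_lit 76) (nat_lit 1249226053712) (nat_lit 0) (nat_lit 2712292653656) (nat_lit 380) (nat_lit 8706943808708) (nat_lit 28) (nat_lit 5) (nat_lit 27) (nat_lit 5) (nat_lit 32) (nat_lit 5) (nat_lit 359) (nat_lit 356) (nat_lit 185))) (XT.nd (nat_lit 78) (nat_lit 304) (nat_lit 0) (XT.lf (nat_lit 0) (nat_lit 5324565803361) (nat_lit 304) (nat_lit 5167334991210) (nat_lit 76) (nat_lit 3172336370920) (nat_lit 28) (nat_lit 5) (nat_lit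 32) (nat_lit 5) (nat_lit 29) (nat_lit 5) (nat_lit 360) (nat_lit 356) (nat_lit 184)) (XT.nd (nat_lit 78) (nat_lit 0) (nat_lit 0) (XT.lf (nat_lit 0) (nat_lit 2078211682567) (nat_lit 304) (nat_lit 5029069388124) (nat_lit 380) (nat_lit 7669815275586) (nat_lit 24) (nat_lit 5) (nat_lit 28) (nat_lit 5) (nat_lit 29) (nat_lit 5) (nat_lit 361) (nat_lit 356) (nat_lit 183)) (XT.lf (nat_lit 0) (nat_lit 9492268524752) (nat_lit 380) (nat_lit 5089793657558) (nat_lit 76) (nat_lit 1424592487378) (nat_lit 24) (nat_lit 5) (nat_lit 29) (nat_lit 5) (nat_lit 25) (nat_lit 5) (nat_lit 362) (nat_lit 356) (nat_lit 182))))) (XT.nd (nat_lit 234) (nat_lit 152) (nat_lit 0) (XT.nd (nat_lit 78) (nat_lit 152) (nat_lit 0) (XT.lf (nat_lit 0) (nat_lit 3755524242743) (nat_lit 152) (nat_lit 8874467599011) (nat_lit 228) (nat_lit 4731406738129) (nat_lit 22) (nat_lit 5) (nat_lit 24) (nat_lit 5) (nat_lit 25) (nat_lit 5) (nat_lit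 363) (nat_lit 356) (nat_lit 181)) (XT.nd (nat_lit 78) (nat_lit 152) (nat_lit 0) (XT.lf (nat_lit 0) (nat_lit 14499663228860) (nat_lit 152) (nat_lit 2004767823133) (nat_lit 228) (nat_lit 2375014415264) (nat_lit 22) (nat_lit 5) (nat_lit 24) (nat_lit 5) (nat_lit 25) (nat_lit 5) (nat_lit 364) (nat_lit 356) (nat_lit 180)) (XT.lf (nat_lit 0) (nat_lit 845819990766) (nat_lit 152) (nat_lit 14015099755650) (nat_lit 76) (nat_lit 5681081002188) (nat_lit 20) (nat_lit 5) (nat_lit 22) (nat_lit 5) (nat_lit 21) (nat_lit 5) (nat_lit 365) (nat_lit 356) (nat_lit 179)))) (XT.nd (nat_lit 78) (nat_lit 152) (nat_lit 0) (XT.lf (nat_lit 0) (nat_lit 4641933672156) (nat_lit 152) (nat_lit 3077246453871) (nat_lit 76) (nat_lit 14667498254614) (nat_lit 20) (nat_lit 5) (nat_lit 22) (nat_lit 5) (nat_lit 21) (nat_lit 5) (nat_lit 366) (nat_lit 356) (nat_lit 178)) (XT.nd (nat_lit 78) (nat_lit 0) (nat_lit 0) (XT.lf (nat_lit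 0) (nat_lit 9480354592342) (nat_lit 228) (nat_lit 14054470274527) (nat_lit 76) (nat_lit 902299262625) (nat_lit 18) (nat_lit 5) (nat_lit 21) (nat_lit 5) (nat_lit 19) (nat_lit 4) (nat_lit 367) (nat_lit 356) (nat_lit 177)) (XT.lf (nat_lit 0) (nat_lit 15580634533758) (nat_lit 228) (nat_lit 938868400546) (nat_lit 76) (nat_lit 10195219423894) (nat_lit 18) (nat_lit 5) (nat_lit 21) (nat_lit 5) (nat_lit 19) (nat_lit 4) (nat_lit 368) (nat_lit 356) (nat_lit 176))))))))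
noncomputable def xc123 : XT := (XT.nd (nat_lit 46488) (nat_lit 0) (nat_lit 76) (XT.nd (nat_lit 1326) (nat_lit 304) (nat_lit 0) (XT.nd (nat_lit 468) (nat_lit 380) (nat_lit 0) (XT.nd (nat_lit 156) (nat_lit 152) (nat_lit 0) (XT.nd (nat_lit 78) (nat_lit 152) (nat_lit 0) (XT.lf (nat_lit 0) (nat_lit 15526335507761) (nat_lit 76) (nat_lit 7712533401978) (nat_lit 152) (nat_lit 5998654544964) (nat_lit 17) (nat_lit 5) (nat_lit 18) (nat_lit 5) (nat_lit 19) (nat_lit 4) (nat_lit 369) (nat_lit 356) (nat_lit 175)) (XT.lf (nat_lit 0) (nat_lit 185110004109) (nat_lit 152) (nat_lit 29547433185274) (nat_lit 76) (nat_lit 2366316816089) (nat_lit 15) (nat_lit 5) (nat_lit 17) (nat_lit 5) (nat_lit 16) (nat_lit 4) (nat_lit 370) (nat_lit 356) (nat_lit 174))) (XT.nd (nat_lit 78) (nat_lit 152) (nat_lit 0) (XT.lf (nat_lit 0) (nat_lit 7800405534052) (nat_lit 152) (nat_lit 13174547795932) (nat_lit 76) (nat_lit 14203879036834)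 (nat_lit 15) (nat_lit 5) (nat_lit 17) (nat_lit 5) (nat_lit 16) (nat_lit 4) (nat_lit 371) (nat_lit 356) (nat_lit 173)) (XT.nd (nat_lit 156) (nat_lit 76) (nat_lit 0) (XT.lf (nat_lit 0) (nat_lit 6206846827392) (nat_lit 76) (nat_lit 10608160857057) (nat_lit 152) (nat_lit 21867241054272) (nat_lit 14) (nat_lit 5) (nat_lit 15) (nat_lit 5) (nat_lit 16) (nat_lit 4) (nat_lit 372) (nat_lit 356) (nat_lit 172)) (XT.lf (nat_lit 0) (nat_lit 10423757799252) (nat_lit 76) (nat_lit 31284726214229) (nat_lit 76) (nat_lit 5245230827946) (nat_lit 13) (nat_lit 4) (nat_lit 14) (nat_lit 5) (nat_lit 14) (nat_lit 4) (nat_lit 374) (nat_lit 356) (nat_lit 170))))) (XT.nd (nat_lit 234) (nat_lit 228) (nat_lit 0) (XT.nd (nat_lit 78) (nat_lit 76) (nat_lit 0) (XT.lf (nat_lit 0) (nat_lit 5757393981157) (nat_lit 152) (nat_lit 13661098326812) (nat_lit 76) (nat_lit 32408992746937) (nat_lit 12) (nat_lit 5) (nat_lit 14) (nat_lit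 5) (nat_lit 13) (nat_lit 4) (nat_lit 375) (nat_lit 356) (nat_lit 169)) (XT.nd (nat_lit 78) (nat_lit 0) (nat_lit 0) (XT.lf (nat_lit 0) (nat_lit 13598992664861) (nat_lit 76) (nat_lit 4837513405453) (nat_lit 152) (nat_lit 38873883002660) (nat_lit 11) (nat_lit 5) (nat_lit 12) (nat_lit 5) (nat_lit 13) (nat_lit 4) (nat_lit 376) (nat_lit 356) (nat_lit 168)) (XT.lf (nat_lit 0) (nat_lit 34259613952936) (nat_lit 152) (nat_lit 17553220907238) (nat_lit 0) (nat_lit 11616574486564) (nat_lit 11) (nat_lit 5) (nat_lit 13) (nat_lit 4) (nat_lit 11) (nat_lit 4) (nat_lit 377) (nat_lit 356) (nat_lit 167)))) (XT.nd (nat_lit 78) (nat_lit 152) (nat_lit 0) (XT.lf (nat_lit 0) (nat_lit 13500204716875) (nat_lit 76) (nat_lit 39745355770343) (nat_lit 76) (nat_lit 17102316303960) (nat_lit 10) (nat_lit 4) (nat_lit 11) (nat_lit 5) (nat_lit 11) (nat_lit 4) (nat_lit 378) (nat_lit 356) (nat_lit 166)) (XT.nd (nat_lit 78)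 (nat_lit 152) (nat_lit 0) (XT.lf (nat_lit 0) (nat_lit 51184386852447) (nat_lit 76) (nat_lit 24812566878422) (nat_lit 76) (nat_lit 2169527412031) (nat_lit 10) (nat_lit 4) (nat_lit 11) (nat_lit 5) (nat_lit 11) (nat_lit 4) (nat_lit 379) (nat_lit 356) (nat_lit 165)) (XT.lf (nat_lit 0) (nat_lit 7400954639689) (nat_lit 76) (nat_lit 6572996107328) (nat_lit 152) (nat_lit 73044769285747) (nat_lit 8) (nat_lit 5) (nat_lit 9) (nat_lit 5) (nat_lit 10) (nat_lit 4) (nat_lit 380) (nat_lit 356) (nat_lit 164)))))) (XT.nd (nat_lit 44694) (nat_lit 0) (nat_lit 1520) (XT.nd (nat_lit 156) (nat_lit 76) (nat_lit 0) (XT.nd (nat_lit 78) (nat_lit 0) (nat_lit 0) (XT.lf (nat_lit 0) (nat_lit 31925153160661) (nat_lit 152) (nat_lit 124289432308557) (nat_lit 0) (nat_lit 14803762259771) (nat_lit 5) (nat_lit 5) (nat_lit 7) (nat_lit 4) (nat_lit 5) (nat_lit 4) (nat_lit 386) (nat_lit 356) (nat_lit 158)) (XT.lf (nat_lit 0)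 (nat_lit 62279148327458) (nat_lit 152) (nat_lit 85007052929137) (nat_lit 0) (nat_lit 45157757426566) (nat_lit 5) (nat_lit 5) (nat_lit 7) (nat_lit 4) (nat_lit 5) (nat_lit 4) (nat_lit 387) (nat_lit 356) (nat_lit 157))) (XT.nd (nat_lit 78) (nat_lit 76) (nat_lit 0) (XT.lf (nat_lit 0) (nat_lit 97186242769268) (nat_lit 152) (nat_lit 39832316642817) (nat_lit 0) (nat_lit 80064851868374) (nat_lit 5) (nat_lit 5) (nat_lit 7) (nat_lit 4) (nat_lit 5) (nat_lit 4) (nat_lit 388) (nat_lit 356) (nat_lit 156)) (XT.nd (nat_lit 44382) (nat_lit 0) (nat_lit 1672) (XT.lf (nat_lit 0) (nat_lit 13302950753977) (nat_lit 76) (nat_lit 124577297445477) (nat_lit 76) (nat_lit 107455906544581) (nat_lit 4) (nat_lit 4) (nat_lit 5) (nat_lit 5) (nat_lit 5) (nat_lit 4) (nat_lit 389) (nat_lit 356) (nat_lit 155)) (XT.lf (nat_lit 0) (nat_lit 1307503476160) (nat_lit 380) (nat_lit 2273344200173) (nat_lit 380) (nat_lit 2273344200173)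 (nat_lit 26) (nat_lit 3) (nat_lit 31) (nat_lit 3) (nat_lit 31) (nat_lit 5) (nat_lit 357) (nat_lit 357) (nat_lit 186))))) (XT.nd (nat_lit 234) (nat_lit 152) (nat_lit 0) (XT.nd (nat_lit 78) (nat_lit 0) (nat_lit 76) (XT.lf (nat_lit 76) (nat_lit 1192643192873) (nat_lit 0) (nat_lit 1667874092607) (nat_lit 380) (nat_lit 9718587527249) (nat_lit 27) (nat_lit 5) (nat_lit 26) (nat_lit 3) (nat_lit 31) (nat_lit 5) (nat_lit 358) (nat_lit 357) (nat_lit 185)) (XT.nd (nat_lit 78) (nat_lit 0) (nat_lit 0) (XT.lf (nat_lit 0) (nat_lit 3584386912467) (nat_lit 304) (nat_lit 5444788501258) (nat_lit 380) (nat_lit 4485028706099) (nat_lit 27) (nat_lit 5) (nat_lit 31) (nat_lit 5) (nat_lit 32) (nat_lit 5) (nat_lit 359) (nat_lit 357) (nat_lit 184)) (XT.lf (nat_lit 76) (nat_lit 1436609962413) (nat_lit 0) (nat_lit 3119136551823) (nat_lit 380) (nat_lit 10012985379135) (nat_lit 28) (nat_lit 5) (nat_lit 27) (nat_lit 5)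 (nat_lit 32) (nat_lit 5) (nat_lit 360) (nat_lit 357) (nat_lit 183)))) (XT.nd (nat_lit 78) (nat_lit 304) (nat_lit 0) (XT.lf (nat_lit 0) (nat_lit 6123250674525) (nat_lit 304) (nat_lit 5942435239226) (nat_lit 76) (nat_lit 3648186826463) (nat_lit 28) (nat_lit 5) (nat_lit 32) (nat_lit 5) (nat_lit 29) (nat_lit 5) (nat_lit 361) (nat_lit 357) (nat_lit 182)) (XT.nd (nat_lit 78) (nat_lit 0) (nat_lit 0) (XT.lf (nat_lit 0) (nat_lit 2389943435587) (nat_lit 304) (nat_lit 5783429796307) (nat_lit 380) (nat_lit 8820287566233) (nat_lit 24) (nat_lit 5) (nat_lit 28) (nat_lit 5) (nat_lit 29) (nat_lit 5) (nat_lit 362) (nat_lit 357) (nat_lit 181)) (XT.lf (nat_lit 0) (nat_lit 10916108803987) (nat_lit 380) (nat_lit 5853262705561) (nat_lit 76) (nat_lit 1638281360512) (nat_lit 24) (nat_lit 5) (nat_lit 29) (nat_lit 5) (nat_lit 25) (nat_lit 5) (nat_lit 363) (nat_lit 357) (nat_lit 180))))))) (XT.nd (nat_lit 1716)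 (nat_lit 152) (nat_lit 0) (XT.nd (nat_lit 390) (nat_lit 836) (nat_lit 0) (XT.nd (nat_lit 156) (nat_lit 304) (nat_lit 0) (XT.nd (nat_lit 78) (nat_lit 0) (nat_lit 0) (XT.lf (nat_lit 0) (nat_lit 4318852879757) (nat_lit 152) (nat_lit 10205637738740) (nat_lit 228) (nat_lit 5441117748297) (nat_lit 22) (nat_lit 5) (nat_lit 24) (nat_lit 5) (nat_lit 25) (nat_lit 5) (nat_lit 364) (nat_lit 357) (nat_lit 179)) (XT.lf (nat_lit 0) (nat_lit 16674612713712) (nat_lit 152) (nat_lit 2305482996497) (nat_lit 228) (nat_lit 2731266577074) (nat_lit 22) (nat_lit 5) (nat_lit 24) (nat_lit 5) (nat_lit 25) (nat_lit 5) (nat_lit 365) (nat_lit 357) (nat_lit 178))) (XT.nd (nat_lit 78) (nat_lit 152) (nat_lit 0) (XT.lf (nat_lit 0) (nat_lit 972692989789) (nat_lit 152) (nat_lit 16117364718401) (nat_lit 76) (nat_lit 6533243152642) (nat_lit 20) (nat_lit 5) (nat_lit 22) (nat_lit 5) (nat_lit 21) (nat_lit 5) (nat_lit 366) (nat_lit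 357) (nat_lit 177)) (XT.nd (nat_lit 78) (nat_lit 152) (nat_lit 0) (XT.lf (nat_lit 0) (nat_lit 5338223723335) (nat_lit 152) (nat_lit 3538833421433) (nat_lit 76) (nat_lit 16867622992915) (nat_lit 20) (nat_lit 5) (nat_lit 22) (nat_lit 5) (nat_lit 21) (nat_lit 5) (nat_lit 367) (nat_lit 357) (nat_lit 176)) (XT.lf (nat_lit 0) (nat_lit 10902407781530) (nat_lit 228) (nat_lit 16162640815169) (nat_lit 76) (nat_lit 1037644152170) (nat_lit 18) (nat_lit 5) (nat_lit 21) (nat_lit 5) (nat_lit 19) (nat_lit 4) (nat_lit 368) (nat_lit 357) (nat_lit 175))))) (XT.nd (nat_lit 624) (nat_lit 608) (nat_lit 0) (XT.nd (nat_lit 78) (nat_lit 228) (nat_lit 0) (XT.lf (nat_lit 0) (nat_lit 17917729714114) (nat_lit 228) (nat_lit 1079698660160) (nat_lit 76) (nat_lit 11724502337610) (nat_lit 18) (nat_lit 5) (nat_lit 21) (nat_lit 5) (nat_lit 19) (nat_lit 4) (nat_lit 369) (nat_lit 357) (nat_lit 174)) (XT.nd (nat_lit 78) (nat_lit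 152) (nat_lit 0) (XT.lf (nat_lit 0) (nat_lit 17855285834372) (nat_lit 76) (nat_lit 8869413412101) (nat_lit 152) (nat_lit 6898452726394) (nat_lit 17) (nat_lit 5) (nat_lit 18) (nat_lit 5) (nat_lit 19) (nat_lit 4) (nat_lit 370) (nat_lit 357) (nat_lit 173)) (XT.lf (nat_lit 0) (nat_lit 212876505000) (nat_lit 152) (nat_lit 33979548162579) (nat_lit 76) (nat_lit 2721264338671) (nat_lit 15) (nat_lit 5) (nat_lit 17) (nat_lit 5) (nat_lit 16) (nat_lit 4) (nat_lit 371) (nat_lit 357) (nat_lit 172)))) (XT.nd (nat_lit 78) (nat_lit 304) (nat_lit 0) (XT.lf (nat_lit 0) (nat_lit 15638841564902) (nat_lit 76) (nat_lit 5563140416122) (nat_lit 152) (nat_lit 44704965452871) (nat_lit 11) (nat_lit 5) (nat_lit 12) (nat_lit 5) (nat_lit 13) (nat_lit 4) (nat_lit 377) (nat_lit 357) (nat_lit 166)) (XT.nd (nat_lit 546) (nat_lit 304) (nat_lit 0) (XT.lf (nat_lit 0) (nat_lit 39398556046025) (nat_lit 152) (nat_lit 20186204043035)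 (nat_lit 0) (nat_lit 13359060659667) (nat_lit 11) (nat_lit 5) (nat_lit 13) (nat_lit 4) (nat_lit 11) (nat_lit 4) (nat_lit 378) (nat_lit 357) (nat_lit 165)) (XT.lf (nat_lit 0) (nat_lit 98809806187752) (nat_lit 76) (nat_lit 39843001157018) (nat_lit 76) (nat_lit 17199961690588) (nat_lit 7) (nat_lit 4) (nat_lit 8) (nat_lit 5) (nat_lit 8) (nat_lit 4) (nat_lit 385) (nat_lit 357) (nat_lit 158)))))) (XT.nd (nat_lit 44772) (nat_lit 0) (nat_lit 1444) (XT.nd (nat_lit 156) (nat_lit 0) (nat_lit 0) (XT.nd (nat_lit 78) (nat_lit 76) (nat_lit 0) (XT.lf (nat_lit 0) (nat_lit 7283279061335) (nat_lit 152) (nat_lit 6983989484562) (nat_lit 76) (nat_lit 160839718174264) (nat_lit 6) (nat_lit 5) (nat_lit 8) (nat_lit 5) (nat_lit 7) (nat_lit 4) (nat_lit 386) (nat_lit 357) (nat_lit 157)) (XT.lf (nat_lit 0) (nat_lit 36713926134831) (nat_lit 152) (nat_lit 142932847154695) (nat_lit 0) (nat_lit 17024326598801) (nat_lit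 5) (nat_lit 5) (nat_lit 7) (nat_lit 4) (nat_lit 5) (nat_lit 4) (nat_lit 387) (nat_lit 357) (nat_lit 156))) (XT.nd (nat_lit 78) (nat_lit 0) (nat_lit 0) (XT.lf (nat_lit 0) (nat_lit 71621020576638) (nat_lit 152) (nat_lit 97758110868381) (nat_lit 0) (nat_lit 51931421040606) (nat_lit 5) (nat_lit 5) (nat_lit 7) (nat_lit 4) (nat_lit 5) (nat_lit 4) (nat_lit 388) (nat_lit 357) (nat_lit 155)) (XT.nd (nat_lit 44460) (nat_lit 0) (nat_lit 1596) (XT.lf (nat_lit 0) (nat_lit 111764179184712) (nat_lit 152) (nat_lit 45807164139128) (nat_lit 0) (nat_lit 92074579648679) (nat_lit 5) (nat_lit 5) (nat_lit 7) (nat_lit 4) (nat_lit 5) (nat_lit 4) (nat_lit 389) (nat_lit 357) (nat_lit 154)) (XT.lf (nat_lit 0) (nat_lit 1503628998003) (nat_lit 380) (nat_lit 2614345829958) (nat_lit 380) (nat_lit 2614345829958) (nat_lit 26) (nat_lit 3) (nat_lit 31) (nat_lit 3) (nat_lit 31) (nat_lit 5) (nat_lit 358) (nat_lit 358) (nat_lit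 184))))) (XT.nd (nat_lit 234) (nat_lit 152) (nat_lit 0) (XT.nd (nat_lit 78) (nat_lit 0) (nat_lit 76) (XT.lf (nat_lit 76) (nat_lit 1371539672265) (nat_lit 0) (nat_lit 1918055206785) (nat_lit 380) (nat_lit 11176375655474) (nat_lit 27) (nat_lit 5) (nat_lit 26) (nat_lit 3) (nat_lit 31) (nat_lit 5) (nat_lit 359) (nat_lit 358) (nat_lit 183)) (XT.nd (nat_lit 78) (nat_lit 0) (nat_lit 0) (XT.lf (nat_lit 0) (nat_lit 4122044949977) (nat_lit 304) (nat_lit 6261506775936) (nat_lit 380) (nat_lit 5157783011786) (nat_lit 27) (nat_lit 5) (nat_lit 31) (nat_lit 5) (nat_lit 32) (nat_lit 5) (nat_lit 360) (nat_lit 358) (nat_lit 182)) (XT.lf (nat_lit 76) (nat_lit 1652101457262) (nat_lit 0) (nat_lit 3587007034687) (nat_lit 380) (nat_lit 11514933185341) (nat_lit 28) (nat_lit 5) (nat_lit 27) (nat_lit 5) (nat_lit 32) (nat_lit 5) (nat_lit 361) (nat_lit 358) (nat_lit 181)))) (XT.nd (nat_lit 78) (nat_lit 304) (nat_lit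 0) (XT.lf (nat_lit 0) (nat_lit 7041738276202) (nat_lit 304) (nat_lit 6833800524607) (nat_lit 76) (nat_lit 4195414850362) (nat_lit 28) (nat_lit 5) (nat_lit 32) (nat_lit 5) (nat_lit 29) (nat_lit 5) (nat_lit 362) (nat_lit 358) (nat_lit 180)) (XT.nd (nat_lit 78) (nat_lit 0) (nat_lit 0) (XT.lf (nat_lit 0) (nat_lit 2748434951406) (nat_lit 304) (nat_lit 6650944265726) (nat_lit 380) (nat_lit 10143330700646) (nat_lit 24) (nat_lit 5) (nat_lit 28) (nat_lit 5) (nat_lit 29) (nat_lit 5) (nat_lit 363) (nat_lit 358) (nat_lit 179)) (XT.lf (nat_lit 0) (nat_lit 12553525124981) (nat_lit 380) (nat_lit 6731252110919) (nat_lit 76) (nat_lit 1884023564611) (nat_lit 24) (nat_lit 5) (nat_lit 29) (nat_lit 5) (nat_lit 25) (nat_lit 5) (nat_lit 364) (nat_lit 358) (nat_lit 178))))))))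
noncomputable def xc124 : XT := (XT.nd (nat_lit 47112) (nat_lit 0) (nat_lit 152) (XT.nd (nat_lit 1716) (nat_lit 152) (nat_lit 0) (XT.nd (nat_lit 390) (nat_lit 836) (nat_lit 0) (XT.nd (nat_lit 156) (nat_lit 304) (nat_lit 0) (XT.nd (nat_lit 78) (nat_lit 0) (nat_lit 0) (XT.lf (nat_lit 0) (nat_lit 4966680812176) (nat_lit 152) (nat_lit 11736483399459) (nat_lit 228) (nat_lit 6257285410123) (nat_lit 22) (nat_lit 5) (nat_lit 24) (nat_lit 5) (nat_lit 25) (nat_lit 5) (nat_lit 365) (nat_lit 358) (nat_lit 177)) (XT.lf (nat_lit 0) (nat_lit 19175804621164) (nat_lit 152) (nat_lit 2651305445891) (nat_lit 228) (nat_lit 3140956563272) (nat_lit 22) (nat_lit 5) (nat_lit 24) (nat_lit 5) (nat_lit 25) (nat_lit 5) (nat_lit 366) (nat_lit 358) (nat_lit 176))) (XT.nd (nat_lit 78) (nat_lit 152) (nat_lit 0) (XT.lf (nat_lit 0) (nat_lit 1118596938567) (nat_lit 152) (nat_lit 18534969425710) (nat_lit 76) (nat_lit 7513229625634)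 (nat_lit 20) (nat_lit 5) (nat_lit 22) (nat_lit 5) (nat_lit 21) (nat_lit 5) (nat_lit 367) (nat_lit 358) (nat_lit 175)) (XT.nd (nat_lit 78) (nat_lit 152) (nat_lit 0) (XT.lf (nat_lit 0) (nat_lit 6138957282104) (nat_lit 152) (nat_lit 4069658434256) (nat_lit 76) (nat_lit 19397766441935) (nat_lit 20) (nat_lit 5) (nat_lit 22) (nat_lit 5) (nat_lit 21) (nat_lit 5) (nat_lit 368) (nat_lit 358) (nat_lit 174)) (XT.lf (nat_lit 0) (nat_lit 12537768949014) (nat_lit 228) (nat_lit 18587036937037) (nat_lit 76) (nat_lit 1193290775110) (nat_lit 18) (nat_lit 5) (nat_lit 21) (nat_lit 5) (nat_lit 19) (nat_lit 4) (nat_lit 369) (nat_lit 358) (nat_lit 173))))) (XT.nd (nat_lit 1092) (nat_lit 760) (nat_lit 0) (XT.nd (nat_lit 78) (nat_lit 76) (nat_lit 0) (XT.lf (nat_lit 0) (nat_lit 20605389171452) (nat_lit 228) (nat_lit 1241653458830) (nat_lit 76) (nat_lit 13483177688350) (nat_lit 18) (nat_lit 5) (nat_lit 21) (nat_lit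 5) (nat_lit 19) (nat_lit 4) (nat_lit 370) (nat_lit 358) (nat_lit 172)) (XT.lf (nat_lit 0) (nat_lit 20533578709865) (nat_lit 76) (nat_lit 10199825423785) (nat_lit 152) (nat_lit 7933220635116) (nat_lit 17) (nat_lit 5) (nat_lit 18) (nat_lit 5) (nat_lit 19) (nat_lit 4) (nat_lit 371) (nat_lit 358) (nat_lit 171))) (XT.nd (nat_lit 78) (nat_lit 76) (nat_lit 0) (XT.lf (nat_lit 0) (nat_lit 76947252177155) (nat_lit 152) (nat_lit 15182303825965) (nat_lit 0) (nat_lit 50907756790758) (nat_lit 8) (nat_lit 5) (nat_lit 10) (nat_lit 4) (nat_lit 8) (nat_lit 4) (nat_lit 384) (nat_lit 358) (nat_lit 158)) (XT.nd (nat_lit 78) (nat_lit 0) (nat_lit 0) (XT.lf (nat_lit 0) (nat_lit 43937369208168) (nat_lit 76) (nat_lit 71014467081604) (nat_lit 76) (nat_lit 44974971695205) (nat_lit 7) (nat_lit 4) (nat_lit 8) (nat_lit 5) (nat_lit 8) (nat_lit 4) (nat_lit 385) (nat_lit 358) (nat_lit 157)) (XT.lf (nat_lit 0) (nat_lit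 113631277116035) (nat_lit 76) (nat_lit 45819451330510) (nat_lit 76) (nat_lit 19779955944108) (nat_lit 7) (nat_lit 4) (nat_lit 8) (nat_lit 5) (nat_lit 8) (nat_lit 4) (nat_lit 386) (nat_lit 358) (nat_lit 156)))))) (XT.nd (nat_lit 44928) (nat_lit 0) (nat_lit 1292) (XT.nd (nat_lit 44694) (nat_lit 0) (nat_lit 1596) (XT.nd (nat_lit 78) (nat_lit 76) (nat_lit 0) (XT.lf (nat_lit 0) (nat_lit 8375770920589) (nat_lit 152) (nat_lit 8031587907136) (nat_lit 76) (nat_lit 184965675900451) (nat_lit 6) (nat_lit 5) (nat_lit 8) (nat_lit 5) (nat_lit 7) (nat_lit 4) (nat_lit 387) (nat_lit 358) (nat_lit 155)) (XT.lf (nat_lit 0) (nat_lit 42221015055109) (nat_lit 152) (nat_lit 164372774227789) (nat_lit 0) (nat_lit 19577975588670) (nat_lit 5) (nat_lit 5) (nat_lit 7) (nat_lit 4) (nat_lit 5) (nat_lit 4) (nat_lit 388) (nat_lit 358) (nat_lit 154))) (XT.nd (nat_lit 78) (nat_lit 0) (nat_lit 0) (XT.lf (nat_lit 0) (nat_lit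 1729173348021) (nat_lit 380) (nat_lit 3006497704269) (nat_lit 380) (nat_lit 3006497704269) (nat_lit 26) (nat_lit 3) (nat_lit 31) (nat_lit 3) (nat_lit 31) (nat_lit 5) (nat_lit 359) (nat_lit 359) (nat_lit 182)) (XT.nd (nat_lit 78) (nat_lit 0) (nat_lit 76) (XT.lf (nat_lit 76) (nat_lit 1577270623453) (nat_lit 0) (nat_lit 2205763488020) (nat_lit 380) (nat_lit 12852832003144) (nat_lit 27) (nat_lit 5) (nat_lit 26) (nat_lit 3) (nat_lit 31) (nat_lit 5) (nat_lit 360) (nat_lit 359) (nat_lit 181)) (XT.lf (nat_lit 0) (nat_lit 4740351692958) (nat_lit 304) (nat_lit 7200732791941) (nat_lit 380) (nat_lit 5931450463382) (nat_lit 27) (nat_lit 5) (nat_lit 31) (nat_lit 5) (nat_lit 32) (nat_lit 5) (nat_lit 361) (nat_lit 359) (nat_lit 180))))) (XT.nd (nat_lit 234) (nat_lit 152) (nat_lit 0) (XT.nd (nat_lit 78) (nat_lit 228) (nat_lit 0) (XT.lf (nat_lit 76) (nat_lit 1899916676220) (nat_lit 0) (nat_lit 4125058089958)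 (nat_lit 380) (nat_lit 13242173162639) (nat_lit 28) (nat_lit 5) (nat_lit 27) (nat_lit 5) (nat_lit 32) (nat_lit 5) (nat_lit 362) (nat_lit 359) (nat_lit 179)) (XT.nd (nat_lit 78) (nat_lit 304) (nat_lit 0) (XT.lf (nat_lit 0) (nat_lit 8097999018009) (nat_lit 304) (nat_lit 7858870602918) (nat_lit 76) (nat_lit 4824727077862) (nat_lit 28) (nat_lit 5) (nat_lit 32) (nat_lit 5) (nat_lit 29) (nat_lit 5) (nat_lit 363) (nat_lit 359) (nat_lit 178)) (XT.lf (nat_lit 0) (nat_lit 3160700194480) (nat_lit 304) (nat_lit 7648585905565) (nat_lit 380) (nat_lit 11664830305348) (nat_lit 24) (nat_lit 5) (nat_lit 28) (nat_lit 5) (nat_lit 29) (nat_lit 5) (nat_lit 364) (nat_lit 359) (nat_lit 177)))) (XT.nd (nat_lit 78) (nat_lit 152) (nat_lit 0) (XT.lf (nat_lit 0) (nat_lit 14436553894027) (nat_lit 380) (nat_lit 7740939927197) (nat_lit 76) (nat_lit 2166627099318) (nat_lit 24) (nat_lit 5) (nat_lit 29) (nat_lit 5) (nat_lit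 25) (nat_lit 5) (nat_lit 365) (nat_lit 359) (nat_lit 176)) (XT.nd (nat_lit 78) (nat_lit 0) (nat_lit 0) (XT.lf (nat_lit 0) (nat_lit 5711682934346) (nat_lit 152) (nat_lit 13496955909308) (nat_lit 228) (nat_lit 7195878221326) (nat_lit 22) (nat_lit 5) (nat_lit 24) (nat_lit 5) (nat_lit 25) (nat_lit 5) (nat_lit 366) (nat_lit 359) (nat_lit 175)) (XT.lf (nat_lit 0) (nat_lit 22052175314638) (nat_lit 152) (nat_lit 3049001262714) (nat_lit 228) (nat_lit 3612100047488) (nat_lit 22) (nat_lit 5) (nat_lit 24) (nat_lit 5) (nat_lit 25) (nat_lit 5) (nat_lit 367) (nat_lit 359) (nat_lit 174))))))) (XT.nd (nat_lit 46410) (nat_lit 0) (nat_lit 228) (XT.nd (nat_lit 1248) (nat_lit 76) (nat_lit 0) (XT.nd (nat_lit 156) (nat_lit 912) (nat_lit 0) (XT.nd (nat_lit 78) (nat_lit 0) (nat_lit 0) (XT.lf (nat_lit 0) (nat_lit 1286386479585) (nat_lit 152) (nat_lit 21315214839226) (nat_lit 76) (nat_lit 8640214069551) (nat_lit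 20) (nat_lit 5) (nat_lit 22) (nat_lit 5) (nat_lit 21) (nat_lit 5) (nat_lit 368) (nat_lit 359) (nat_lit 173)) (XT.lf (nat_lit 0) (nat_lit 7059800874623) (nat_lit 152) (nat_lit 4680107199098) (nat_lit 76) (nat_lit 22307431408288) (nat_lit 20) (nat_lit 5) (nat_lit 22) (nat_lit 5) (nat_lit 21) (nat_lit 5) (nat_lit 369) (nat_lit 359) (nat_lit 172))) (XT.nd (nat_lit 78) (nat_lit 760) (nat_lit 0) (XT.lf (nat_lit 0) (nat_lit 14418434291558) (nat_lit 228) (nat_lit 21375092477285) (nat_lit 76) (nat_lit 1372284391462) (nat_lit 18) (nat_lit 5) (nat_lit 21) (nat_lit 5) (nat_lit 19) (nat_lit 4) (nat_lit 370) (nat_lit 359) (nat_lit 171)) (XT.nd (nat_lit 936) (nat_lit 760) (nat_lit 0) (XT.lf (nat_lit 0) (nat_lit 23696197547337) (nat_lit 228) (nat_lit 1427901477388) (nat_lit 76) (nat_lit 15505654341678) (nat_lit 18) (nat_lit 5) (nat_lit 21) (nat_lit 5) (nat_lit 19) (nat_lit 4) (nat_lit 371) (nat_lit 359)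 (nat_lit 170)) (XT.lf (nat_lit 0) (nat_lit 11255926888301) (nat_lit 76) (nat_lit 9996705454403) (nat_lit 152) (nat_lit 111091963487077) (nat_lit 8) (nat_lit 5) (nat_lit 9) (nat_lit 5) (nat_lit 10) (nat_lit 4) (nat_lit 383) (nat_lit 359) (nat_lit 158))))) (XT.nd (nat_lit 234) (nat_lit 0) (nat_lit 0) (XT.nd (nat_lit 78) (nat_lit 76) (nat_lit 0) (XT.lf (nat_lit 0) (nat_lit 52304108653410) (nat_lit 152) (nat_lit 72667713995058) (nat_lit 0) (nat_lit 22358688959048) (nat_lit 8) (nat_lit 5) (nat_lit 10) (nat_lit 4) (nat_lit 8) (nat_lit 4) (nat_lit 384) (nat_lit 359) (nat_lit 157)) (XT.nd (nat_lit 78) (nat_lit 76) (nat_lit 0) (XT.lf (nat_lit 0) (nat_lit 88489340003782) (nat_lit 152) (nat_lit 17459649399751) (nat_lit 0) (nat_lit 58543920309418) (nat_lit 8) (nat_lit 5) (nat_lit 10) (nat_lit 4) (nat_lit 8) (nat_lit 4) (nat_lit 385) (nat_lit 359) (nat_lit 156)) (XT.lf (nat_lit 0) (nat_lit 50527974589498)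 (nat_lit 76) (nat_lit 81666637143792) (nat_lit 76) (nat_lit 51721217449426) (nat_lit 7) (nat_lit 4) (nat_lit 8) (nat_lit 5) (nat_lit 8) (nat_lit 4) (nat_lit 386) (nat_lit 359) (nat_lit 155)))) (XT.nd (nat_lit 44772) (nat_lit 0) (nat_lit 1444) (XT.lf (nat_lit 0) (nat_lit 130675968683531) (nat_lit 76) (nat_lit 52692369030041) (nat_lit 76) (nat_lit 22746949335673) (nat_lit 7) (nat_lit 4) (nat_lit 8) (nat_lit 5) (nat_lit 8) (nat_lit 4) (nat_lit 387) (nat_lit 359) (nat_lit 154)) (XT.nd (nat_lit 78) (nat_lit 0) (nat_lit 0) (XT.lf (nat_lit 0) (nat_lit 1988549350464) (nat_lit 380) (nat_lit 3457472359771) (nat_lit 380) (nat_lit 3457472359771) (nat_lit 26) (nat_lit 3) (nat_lit 31) (nat_lit 3) (nat_lit 31) (nat_lit 5) (nat_lit 360) (nat_lit 360) (nat_lit 180)) (XT.lf (nat_lit 76) (nat_lit 1813861217235) (nat_lit 0) (nat_lit 2536628011388) (nat_lit 380) (nat_lit 14780756803122) (nat_lit 27) (nat_lit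 5) (nat_lit 26) (nat_lit 3) (nat_lit 31) (nat_lit 5) (nat_lit 361) (nat_lit 360) (nat_lit 179)))))) (XT.nd (nat_lit 390) (nat_lit 1064) (nat_lit 0) (XT.nd (nat_lit 156) (nat_lit 228) (nat_lit 0) (XT.nd (nat_lit 78) (nat_lit 0) (nat_lit 0) (XT.lf (nat_lit 0) (nat_lit 5451404447268) (nat_lit 304) (nat_lit 8280842710440) (nat_lit 380) (nat_lit 6821168032760) (nat_lit 27) (nat_lit 5) (nat_lit 31) (nat_lit 5) (nat_lit 32) (nat_lit 5) (nat_lit 362) (nat_lit 360) (nat_lit 178)) (XT.lf (nat_lit 76) (nat_lit 2184904177931) (nat_lit 0) (nat_lit 4743816803503) (nat_lit 380) (nat_lit 15228499136655) (nat_lit 28) (nat_lit 5) (nat_lit 27) (nat_lit 5) (nat_lit 32) (nat_lit 5) (nat_lit 363) (nat_lit 360) (nat_lit 177))) (XT.nd (nat_lit 78) (nat_lit 304) (nat_lit 0) (XT.lf (nat_lit 0) (nat_lit 9312698870996) (nat_lit 304) (nat_lit 9037701193068) (nat_lit 76) (nat_lit 5548436139501) (nat_lit 28) (nat_lit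 5) (nat_lit 32) (nat_lit 5) (nat_lit 29) (nat_lit 5) (nat_lit 364) (nat_lit 360) (nat_lit 176)) (XT.nd (nat_lit 78) (nat_lit 0) (nat_lit 0) (XT.lf (nat_lit 0) (nat_lit 3634805223927) (nat_lit 304) (nat_lit 8795873791385) (nat_lit 380) (nat_lit 13414554850852) (nat_lit 24) (nat_lit 5) (nat_lit 28) (nat_lit 5) (nat_lit 29) (nat_lit 5) (nat_lit 365) (nat_lit 360) (nat_lit 175)) (XT.lf (nat_lit 0) (nat_lit 16602036978357) (nat_lit 380) (nat_lit 8902080916004) (nat_lit 76) (nat_lit 2491621164228) (nat_lit 24) (nat_lit 5) (nat_lit 29) (nat_lit 5) (nat_lit 25) (nat_lit 5) (nat_lit 366) (nat_lit 360) (nat_lit 174))))) (XT.nd (nat_lit 234) (nat_lit 760) (nat_lit 0) (XT.nd (nat_lit 78) (nat_lit 152) (nat_lit 0) (XT.lf (nat_lit 0) (nat_lit 6568435374758) (nat_lit 152) (nat_lit 15521499295651) (nat_lit 228) (nat_lit 8275259954286) (nat_lit 22) (nat_lit 5) (nat_lit 24) (nat_lit 5) (nat_lit 25) (nat_lit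 5) (nat_lit 367) (nat_lit 360) (nat_lit 173)) (XT.nd (nat_lit 78) (nat_lit 152) (nat_lit 0) (XT.lf (nat_lit 0) (nat_lit 25360001612061) (nat_lit 152) (nat_lit 3506351452075) (nat_lit 228) (nat_lit 4153915054404) (nat_lit 22) (nat_lit 5) (nat_lit 24) (nat_lit 5) (nat_lit 25) (nat_lit 5) (nat_lit 368) (nat_lit 360) (nat_lit 172)) (XT.lf (nat_lit 0) (nat_lit 1479344451700) (nat_lit 152) (nat_lit 24512497064852) (nat_lit 76) (nat_lit 9936246180038) (nat_lit 20) (nat_lit 5) (nat_lit 22) (nat_lit 5) (nat_lit 21) (nat_lit 5) (nat_lit 369) (nat_lit 360) (nat_lit 171)))) (XT.nd (nat_lit 78) (nat_lit 760) (nat_lit 0) (XT.lf (nat_lit 0) (nat_lit 8118771005970) (nat_lit 152) (nat_lit 5382123278738) (nat_lit 76) (nat_lit 25653546119579) (nat_lit 20) (nat_lit 5) (nat_lit 22) (nat_lit 5) (nat_lit 21) (nat_lit 5) (nat_lit 370) (nat_lit 360) (nat_lit 170)) (XT.nd (nat_lit 858) (nat_lit 608) (nat_lit 0)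 (XT.lf (nat_lit 0) (nat_lit 16581199435438) (nat_lit 228) (nat_lit 24581356348646) (nat_lit 76) (nat_lit 1578127050247) (nat_lit 18) (nat_lit 5) (nat_lit 21) (nat_lit 5) (nat_lit 19) (nat_lit 4) (nat_lit 371) (nat_lit 360) (nat_lit 169)) (XT.lf (nat_lit 0) (nat_lit 23611942427087) (nat_lit 76) (nat_lit 69514875650316) (nat_lit 76) (nat_lit 29912058104522) (nat_lit 10) (nat_lit 4) (nat_lit 11) (nat_lit 5) (nat_lit 11) (nat_lit 4) (nat_lit 382) (nat_lit 360) (nat_lit 158))))))))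
noncomputable def xc125 : XT := (XT.nd (nat_lit 92586) (nat_lit 0) (nat_lit 912) (XT.nd (nat_lit 45708) (nat_lit 0) (nat_lit 152) (XT.nd (nat_lit 45240) (nat_lit 0) (nat_lit 1216) (XT.nd (nat_lit 156) (nat_lit 0) (nat_lit 0) (XT.nd (nat_lit 78) (nat_lit 152) (nat_lit 0) (XT.lf (nat_lit 0) (nat_lit 89521812508210) (nat_lit 76) (nat_lit 43397334548480) (nat_lit 76) (nat_lit 3794517002683) (nat_lit 10) (nat_lit 4) (nat_lit 11) (nat_lit 5) (nat_lit 11) (nat_lit 4) (nat_lit 383) (nat_lit 360) (nat_lit 157)) (XT.lf (nat_lit 0) (nat_lit 12944315921651) (nat_lit 76) (nat_lit 11496211272511) (nat_lit 152) (nat_lit 127755758010078) (nat_lit 8) (nat_lit 5) (nat_lit 9) (nat_lit 5) (nat_lit 10) (nat_lit 4) (nat_lit 384) (nat_lit 360) (nat_lit 156))) (XT.nd (nat_lit 78) (nat_lit 0) (nat_lit 0) (XT.lf (nat_lit 0) (nat_lit 60149724951468) (nat_lit 152) (nat_lit 83567871094222) (nat_lit 0) (nat_lit 25712492302946)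 (nat_lit 8) (nat_lit 5) (nat_lit 10) (nat_lit 4) (nat_lit 8) (nat_lit 4) (nat_lit 385) (nat_lit 360) (nat_lit 155)) (XT.nd (nat_lit 44928) (nat_lit 0) (nat_lit 1368) (XT.lf (nat_lit 0) (nat_lit 101762741004391) (nat_lit 152) (nat_lit 20078596809630) (nat_lit 0) (nat_lit 67325508355867) (nat_lit 8) (nat_lit 5) (nat_lit 10) (nat_lit 4) (nat_lit 8) (nat_lit 4) (nat_lit 386) (nat_lit 360) (nat_lit 154)) (XT.lf (nat_lit 0) (nat_lit 2286831753214) (nat_lit 380) (nat_lit 3976093213633) (nat_lit 380) (nat_lit 3976093213633) (nat_lit 26) (nat_lit 3) (nat_lit 31) (nat_lit 3) (nat_lit 31) (nat_lit 5) (nat_lit 361) (nat_lit 361) (nat_lit 178))))) (XT.nd (nat_lit 234) (nat_lit 152) (nat_lit 0) (XT.nd (nat_lit 78) (nat_lit 0) (nat_lit 76) (XT.lf (nat_lit 76) (nat_lit 2085940400020) (nat_lit 0) (nat_lit 2917122213220) (nat_lit 380) (nat_lit 16997870323218) (nat_lit 27) (nat_lit 5) (nat_lit 26) (nat_lit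 3) (nat_lit 31) (nat_lit 5) (nat_lit 362) (nat_lit 361) (nat_lit 177)) (XT.nd (nat_lit 78) (nat_lit 0) (nat_lit 0) (XT.lf (nat_lit 0) (nat_lit 6269115114636) (nat_lit 304) (nat_lit 9522969116785) (nat_lit 380) (nat_lit 7844343237575) (nat_lit 27) (nat_lit 5) (nat_lit 31) (nat_lit 5) (nat_lit 32) (nat_lit 5) (nat_lit 363) (nat_lit 361) (nat_lit 176)) (XT.lf (nat_lit 76) (nat_lit 2512639804832) (nat_lit 0) (nat_lit 5455389324068) (nat_lit 380) (nat_lit 17512774006866) (nat_lit 28) (nat_lit 5) (nat_lit 27) (nat_lit 5) (nat_lit 32) (nat_lit 5) (nat_lit 364) (nat_lit 361) (nat_lit 175)))) (XT.nd (nat_lit 78) (nat_lit 304) (nat_lit 0) (XT.lf (nat_lit 0) (nat_lit 10709603701861) (nat_lit 304) (nat_lit 10393356371810) (nat_lit 76) (nat_lit 6380701560396) (nat_lit 28) (nat_lit 5) (nat_lit 32) (nat_lit 5) (nat_lit 29) (nat_lit 5) (nat_lit 365) (nat_lit 361) (nat_lit 174)) (XT.nd (nat_lit 78) (nat_lit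 0) (nat_lit 0) (XT.lf (nat_lit 0) (nat_lit 4180026007723) (nat_lit 304) (nat_lit 10115254860081) (nat_lit 380) (nat_lit 15426738078254) (nat_lit 24) (nat_lit 5) (nat_lit 28) (nat_lit 5) (nat_lit 29) (nat_lit 5) (nat_lit 366) (nat_lit 361) (nat_lit 173)) (XT.lf (nat_lit 0) (nat_lit 19092342525281) (nat_lit 380) (nat_lit 10237393053198) (nat_lit 76) (nat_lit 2865364338872) (nat_lit 24) (nat_lit 5) (nat_lit 29) (nat_lit 5) (nat_lit 25) (nat_lit 5) (nat_lit 367) (nat_lit 361) (nat_lit 172)))))) (XT.nd (nat_lit 46410) (nat_lit 0) (nat_lit 1064) (XT.nd (nat_lit 156) (nat_lit 912) (nat_lit 0) (XT.nd (nat_lit 78) (nat_lit 0) (nat_lit 0) (XT.lf (nat_lit 0) (nat_lit 7553700681169) (nat_lit 152) (nat_lit 17849724189959) (nat_lit 228) (nat_lit 9516548947249) (nat_lit 22) (nat_lit 5) (nat_lit 24) (nat_lit 5) (nat_lit 25) (nat_lit 5) (nat_lit 368) (nat_lit 361) (nat_lit 171)) (XT.lf (nat_lit 0) (nat_lit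 29164001854041) (nat_lit 152) (nat_lit 4032304169852) (nat_lit 228) (nat_lit 4777002312407) (nat_lit 22) (nat_lit 5) (nat_lit 24) (nat_lit 5) (nat_lit 25) (nat_lit 5) (nat_lit 369) (nat_lit 361) (nat_lit 170))) (XT.nd (nat_lit 78) (nat_lit 760) (nat_lit 0) (XT.lf (nat_lit 0) (nat_lit 1701246119588) (nat_lit 152) (nat_lit 28189371624385) (nat_lit 76) (nat_lit 11426683107085) (nat_lit 20) (nat_lit 5) (nat_lit 22) (nat_lit 5) (nat_lit 21) (nat_lit 5) (nat_lit 370) (nat_lit 361) (nat_lit 169)) (XT.nd (nat_lit 936) (nat_lit 760) (nat_lit 0) (XT.lf (nat_lit 0) (nat_lit 9336586656982) (nat_lit 152) (nat_lit 6189441770380) (nat_lit 76) (nat_lit 29501578037551) (nat_lit 20) (nat_lit 5) (nat_lit 22) (nat_lit 5) (nat_lit 21) (nat_lit 5) (nat_lit 371) (nat_lit 361) (nat_lit 168)) (XT.lf (nat_lit 0) (nat_lit 27153733791239) (nat_lit 76) (nat_lit 79942106997820) (nat_lit 76) (nat_lit 34398866820149)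 (nat_lit 10) (nat_lit 4) (nat_lit 11) (nat_lit 5) (nat_lit 11) (nat_lit 4) (nat_lit 383) (nat_lit 361) (nat_lit 156))))) (XT.nd (nat_lit 234) (nat_lit 152) (nat_lit 0) (XT.nd (nat_lit 78) (nat_lit 0) (nat_lit 0) (XT.lf (nat_lit 0) (nat_lit 2629856516334) (nat_lit 380) (nat_lit 4572507195599) (nat_lit 380) (nat_lit 4572507195599) (nat_lit 26) (nat_lit 3) (nat_lit 31) (nat_lit 3) (nat_lit 31) (nat_lit 5) (nat_lit 362) (nat_lit 362) (nat_lit 176)) (XT.nd (nat_lit 78) (nat_lit 0) (nat_lit 76) (XT.lf (nat_lit 76) (nat_lit 2398831460174) (nat_lit 0) (nat_lit 3354690545297) (nat_lit 380) (nat_lit 19547550871418) (nat_lit 27) (nat_lit 5) (nat_lit 26) (nat_lit 3) (nat_lit 31) (nat_lit 5) (nat_lit 363) (nat_lit 362) (nat_lit 175)) (XT.lf (nat_lit 0) (nat_lit 7209482382040) (nat_lit 304) (nat_lit 10951414484136) (nat_lit 380) (nat_lit 9020994723137) (nat_lit 27) (nat_lit 5) (nat_lit 31) (nat_lit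 5) (nat_lit 32) (nat_lit 5) (nat_lit 364) (nat_lit 362) (nat_lit 174)))) (XT.nd (nat_lit 78) (nat_lit 228) (nat_lit 0) (XT.lf (nat_lit 76) (nat_lit 2889535775716) (nat_lit 0) (nat_lit 6273697722707) (nat_lit 380) (nat_lit 20139690107679) (nat_lit 28) (nat_lit 5) (nat_lit 27) (nat_lit 5) (nat_lit 32) (nat_lit 5) (nat_lit 365) (nat_lit 362) (nat_lit 173)) (XT.nd (nat_lit 78) (nat_lit 304) (nat_lit 0) (XT.lf (nat_lit 0) (nat_lit 12316044257303) (nat_lit 304) (nat_lit 11952359827418) (nat_lit 76) (nat_lit 7337806794432) (nat_lit 28) (nat_lit 5) (nat_lit 32) (nat_lit 5) (nat_lit 29) (nat_lit 5) (nat_lit 366) (nat_lit 362) (nat_lit 172)) (XT.lf (nat_lit 0) (nat_lit 4807029909039) (nat_lit 304) (nat_lit 11632543089084) (nat_lit 380) (nat_lit 17740748789821) (nat_lit 24) (nat_lit 5) (nat_lit 28) (nat_lit 5) (nat_lit 29) (nat_lit 5) (nat_lit 367) (nat_lit 362) (nat_lit 171))))))) (XT.nd (nat_lit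 46956) (nat_lit 0) (nat_lit 0) (XT.nd (nat_lit 46488) (nat_lit 0) (nat_lit 304) (XT.nd (nat_lit 156) (nat_lit 152) (nat_lit 0) (XT.nd (nat_lit 78) (nat_lit 152) (nat_lit 0) (XT.lf (nat_lit 0) (nat_lit 21956193904203) (nat_lit 380) (nat_lit 11773002011022) (nat_lit 76) (nat_lit 3295168989710) (nat_lit 24) (nat_lit 5) (nat_lit 29) (nat_lit 5) (nat_lit 25) (nat_lit 5) (nat_lit 368) (nat_lit 362) (nat_lit 170)) (XT.lf (nat_lit 0) (nat_lit 8686755783492) (nat_lit 152) (nat_lit 20527182818423) (nat_lit 228) (nat_lit 10944031289200) (nat_lit 22) (nat_lit 5) (nat_lit 24) (nat_lit 5) (nat_lit 25) (nat_lit 5) (nat_lit 369) (nat_lit 362) (nat_lit 169))) (XT.nd (nat_lit 78) (nat_lit 152) (nat_lit 0) (XT.lf (nat_lit 0) (nat_lit 33538602132276) (nat_lit 152) (nat_lit 4637149795303) (nat_lit 228) (nat_lit 5493552659150) (nat_lit 22) (nat_lit 5) (nat_lit 24) (nat_lit 5) (nat_lit 25) (nat_lit 5) (nat_lit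 370) (nat_lit 362) (nat_lit 168)) (XT.nd (nat_lit 78) (nat_lit 0) (nat_lit 0) (XT.lf (nat_lit 0) (nat_lit 1956433037627) (nat_lit 152) (nat_lit 32417777367896) (nat_lit 76) (nat_lit 13140685573179) (nat_lit 20) (nat_lit 5) (nat_lit 22) (nat_lit 5) (nat_lit 21) (nat_lit 5) (nat_lit 371) (nat_lit 362) (nat_lit 167)) (XT.lf (nat_lit 0) (nat_lit 10737074655617) (nat_lit 152) (nat_lit 7117858035809) (nat_lit 76) (nat_lit 33926814743211) (nat_lit 20) (nat_lit 5) (nat_lit 22) (nat_lit 5) (nat_lit 21) (nat_lit 5) (nat_lit 372) (nat_lit 362) (nat_lit 166))))) (XT.nd (nat_lit 234) (nat_lit 152) (nat_lit 0) (XT.nd (nat_lit 78) (nat_lit 0) (nat_lit 0) (XT.lf (nat_lit 0) (nat_lit 3024334993888) (nat_lit 380) (nat_lit 5258383274879) (nat_lit 380) (nat_lit 5258383274879) (nat_lit 26) (nat_lit 3) (nat_lit 31) (nat_lit 3) (nat_lit 31) (nat_lit 5) (nat_lit 363) (nat_lit 363) (nat_lit 174)) (XT.nd (nat_lit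 78) (nat_lit 0) (nat_lit 76) (XT.lf (nat_lit 76) (nat_lit 2758656179314) (nat_lit 0) (nat_lit 3857894127163) (nat_lit 380) (nat_lit 22479683501918) (nat_lit 27) (nat_lit 5) (nat_lit 26) (nat_lit 3) (nat_lit 31) (nat_lit 5) (nat_lit 364) (nat_lit 363) (nat_lit 173)) (XT.lf (nat_lit 0) (nat_lit 8290904739505) (nat_lit 304) (nat_lit 12594126656630) (nat_lit 380) (nat_lit 10374143931552) (nat_lit 27) (nat_lit 5) (nat_lit 31) (nat_lit 5) (nat_lit 32) (nat_lit 5) (nat_lit 365) (nat_lit 363) (nat_lit 172)))) (XT.nd (nat_lit 78) (nat_lit 228) (nat_lit 0) (XT.lf (nat_lit 76) (nat_lit 3322966142194) (nat_lit 0) (nat_lit 7214752381136) (nat_lit 380) (nat_lit 23160643623666) (nat_lit 28) (nat_lit 5) (nat_lit 27) (nat_lit 5) (nat_lit 32) (nat_lit 5) (nat_lit 366) (nat_lit 363) (nat_lit 171)) (XT.nd (nat_lit 78) (nat_lit 304) (nat_lit 0) (XT.lf (nat_lit 0) (nat_lit 14163450896022) (nat_lit 304) (nat_lit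 13745213801406) (nat_lit 76) (nat_lit 8438477813579) (nat_lit 28) (nat_lit 5) (nat_lit 32) (nat_lit 5) (nat_lit 29) (nat_lit 5) (nat_lit 367) (nat_lit 363) (nat_lit 170)) (XT.lf (nat_lit 0) (nat_lit 5528084395514) (nat_lit 304) (nat_lit 13377424552440) (nat_lit 380) (nat_lit 20401861108165) (nat_lit 24) (nat_lit 5) (nat_lit 28) (nat_lit 5) (nat_lit 29) (nat_lit 5) (nat_lit 368) (nat_lit 363) (nat_lit 169)))))) (XT.nd (nat_lit 46566) (nat_lit 0) (nat_lit 304) (XT.nd (nat_lit 156) (nat_lit 152) (nat_lit 0) (XT.nd (nat_lit 78) (nat_lit 152) (nat_lit 0) (XT.lf (nat_lit 0) (nat_lit 25249622989931) (nat_lit 380) (nat_lit 13538952312558) (nat_lit 76) (nat_lit 3789444338171) (nat_lit 24) (nat_lit 5) (nat_lit 29) (nat_lit 5) (nat_lit 25) (nat_lit 5) (nat_lit 369) (nat_lit 363) (nat_lit 168)) (XT.lf (nat_lit 0) (nat_lit 9989769151129) (nat_lit 152) (nat_lit 23606260241163) (nat_lit 228) (nat_lit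 12585635982477) (nat_lit 22) (nat_lit 5) (nat_lit 24) (nat_lit 5) (nat_lit 25) (nat_lit 5) (nat_lit 370) (nat_lit 363) (nat_lit 167))) (XT.nd (nat_lit 78) (nat_lit 152) (nat_lit 0) (XT.lf (nat_lit 0) (nat_lit 38569392452215) (nat_lit 152) (nat_lit 5332722264579) (nat_lit 228) (nat_lit 6317585557932) (nat_lit 22) (nat_lit 5) (nat_lit 24) (nat_lit 5) (nat_lit 25) (nat_lit 5) (nat_lit 371) (nat_lit 363) (nat_lit 166)) (XT.nd (nat_lit 46254) (nat_lit 0) (nat_lit 456) (XT.lf (nat_lit 0) (nat_lit 2249897993348) (nat_lit 152) (nat_lit 37280443972969) (nat_lit 76) (nat_lit 15111788409179) (nat_lit 20) (nat_lit 5) (nat_lit 22) (nat_lit 5) (nat_lit 21) (nat_lit 5) (nat_lit 372) (nat_lit 363) (nat_lit 165)) (XT.lf (nat_lit 0) (nat_lit 3477985243049) (nat_lit 380) (nat_lit 6047140766065) (nat_lit 380) (nat_lit 6047140766065) (nat_lit 26) (nat_lit 3) (nat_lit 31) (nat_lit 3) (nat_lit 31) (nat_lit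 5) (nat_lit 364) (nat_lit 364) (nat_lit 172))))) (XT.nd (nat_lit 234) (nat_lit 152) (nat_lit 0) (XT.nd (nat_lit 78) (nat_lit 0) (nat_lit 76) (XT.lf (nat_lit 76) (nat_lit 3172454606298) (nat_lit 0) (nat_lit 4436578246291) (nat_lit 380) (nat_lit 25851636027045) (nat_lit 27) (nat_lit 5) (nat_lit 26) (nat_lit 3) (nat_lit 31) (nat_lit 5) (nat_lit 365) (nat_lit 364) (nat_lit 171)) (XT.nd (nat_lit 78) (nat_lit 0) (nat_lit 0) (XT.lf (nat_lit 0) (nat_lit 9534540450551) (nat_lit 304) (nat_lit 14483245655030) (nat_lit 380) (nat_lit 11930265521242) (nat_lit 27) (nat_lit 5) (nat_lit 31) (nat_lit 5) (nat_lit 32) (nat_lit 5) (nat_lit 366) (nat_lit 364) (nat_lit 170)) (XT.lf (nat_lit 76) (nat_lit 3821411063614) (nat_lit 0) (nat_lit 8296965238323) (nat_lit 380) (nat_lit 26634740167092) (nat_lit 28) (nat_lit 5) (nat_lit 27) (nat_lit 5) (nat_lit 32) (nat_lit 5) (nat_lit 367) (nat_lit 364) (nat_lit 169))))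 (XT.nd (nat_lit 78) (nat_lit 304) (nat_lit 0) (XT.lf (nat_lit 0) (nat_lit 16287968530519) (nat_lit 304) (nat_lit 15806995871523) (nat_lit 76) (nat_lit 9704249485602) (nat_lit 28) (nat_lit 5) (nat_lit 32) (nat_lit 5) (nat_lit 29) (nat_lit 5) (nat_lit 368) (nat_lit 364) (nat_lit 168)) (XT.nd (nat_lit 78) (nat_lit 0) (nat_lit 0) (XT.lf (nat_lit 0) (nat_lit 6357297054931) (nat_lit 304) (nat_lit 15384038235301) (nat_lit 380) (nat_lit 23462140274292) (nat_lit 24) (nat_lit 5) (nat_lit 28) (nat_lit 5) (nat_lit 29) (nat_lit 5) (nat_lit 369) (nat_lit 364) (nat_lit 167)) (XT.lf (nat_lit 0) (nat_lit 29037066438495) (nat_lit 380) (nat_lit 15569795159352) (nat_lit 76) (nat_lit 4357860988901) (nat_lit 24) (nat_lit 5) (nat_lit 29) (nat_lit 5) (nat_lit 25) (nat_lit 5) (nat_lit 370) (nat_lit 364) (nat_lit 166))))))))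
noncomputable def xc126 : XT := (XT.nd (nat_lit 93990) (nat_lit 0) (nat_lit 0) (XT.nd (nat_lit 46956) (nat_lit 1140) (nat_lit 0) (XT.nd (nat_lit 46566) (nat_lit 0) (nat_lit 304) (XT.nd (nat_lit 156) (nat_lit 152) (nat_lit 0) (XT.nd (nat_lit 78) (nat_lit 0) (nat_lit 0) (XT.lf (nat_lit 0) (nat_lit 11488234523883) (nat_lit 152) (nat_lit 27147199277321) (nat_lit 228) (nat_lit 14473481379770) (nat_lit 22) (nat_lit 5) (nat_lit 24) (nat_lit 5) (nat_lit 25) (nat_lit 5) (nat_lit 371) (nat_lit 364) (nat_lit 165)) (XT.lf (nat_lit 0) (nat_lit 44354801320122) (nat_lit 152) (nat_lit 6132630604251) (nat_lit 228) (nat_lit 7265223391555) (nat_lit 22) (nat_lit 5) (nat_lit 24) (nat_lit 5) (nat_lit 25) (nat_lit 5) (nat_lit 372) (nat_lit 364) (nat_lit 164))) (XT.nd (nat_lit 46254) (nat_lit 0) (nat_lit 456) (XT.lf (nat_lit 0) (nat_lit 2587382692408) (nat_lit 152) (nat_lit 42872510568830) (nat_lit 76) (nat_lit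 17378556670574) (nat_lit 20) (nat_lit 5) (nat_lit 22) (nat_lit 5) (nat_lit 21) (nat_lit 5) (nat_lit 373) (nat_lit 364) (nat_lit 163)) (XT.nd (nat_lit 78) (nat_lit 0) (nat_lit 0) (XT.lf (nat_lit 0) (nat_lit 3999683029566) (nat_lit 380) (nat_lit 6954211880941) (nat_lit 380) (nat_lit 6954211880941) (nat_lit 26) (nat_lit 3) (nat_lit 31) (nat_lit 3) (nat_lit 31) (nat_lit 5) (nat_lit 365) (nat_lit 365) (nat_lit 170)) (XT.lf (nat_lit 76) (nat_lit 3648322797307) (nat_lit 0) (nat_lit 5102064983276) (nat_lit 380) (nat_lit 29729381430980) (nat_lit 27) (nat_lit 5) (nat_lit 26) (nat_lit 3) (nat_lit 31) (nat_lit 5) (nat_lit 366) (nat_lit 365) (nat_lit 169))))) (XT.nd (nat_lit 156) (nat_lit 228) (nat_lit 0) (XT.nd (nat_lit 78) (nat_lit 0) (nat_lit 0) (XT.lf (nat_lit 0) (nat_lit 10964721518224) (nat_lit 304) (nat_lit 16655732503212) (nat_lit 380) (nat_lit 13719805349396) (nat_lit 27) (nat_lit 5) (nat_lit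 31) (nat_lit 5) (nat_lit 32) (nat_lit 5) (nat_lit 367) (nat_lit 365) (nat_lit 168)) (XT.lf (nat_lit 76) (nat_lit 4394622723225) (nat_lit 0) (nat_lit 9541510024084) (nat_lit 380) (nat_lit 30629951192062) (nat_lit 28) (nat_lit 5) (nat_lit 27) (nat_lit 5) (nat_lit 32) (nat_lit 5) (nat_lit 368) (nat_lit 365) (nat_lit 167))) (XT.nd (nat_lit 78) (nat_lit 304) (nat_lit 0) (XT.lf (nat_lit 0) (nat_lit 18731163810167) (nat_lit 304) (nat_lit 18178045252180) (nat_lit 76) (nat_lit 11159886908433) (nat_lit 28) (nat_lit 5) (nat_lit 32) (nat_lit 5) (nat_lit 29) (nat_lit 5) (nat_lit 369) (nat_lit 365) (nat_lit 166)) (XT.nd (nat_lit 78) (nat_lit 0) (nat_lit 0) (XT.lf (nat_lit 0) (nat_lit 7310891613238) (nat_lit 304) (nat_lit 17691643970593) (nat_lit 380) (nat_lit 26981461315362) (nat_lit 24) (nat_lit 5) (nat_lit 28) (nat_lit 5) (nat_lit 29) (nat_lit 5) (nat_lit 370) (nat_lit 365) (nat_lit 165)) (XT.lf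 (nat_lit 0) (nat_lit 33392626404325) (nat_lit 380) (nat_lit 17905264433188) (nat_lit 76) (nat_lit 5011540137239) (nat_lit 24) (nat_lit 5) (nat_lit 29) (nat_lit 5) (nat_lit 25) (nat_lit 5) (nat_lit 371) (nat_lit 365) (nat_lit 164)))))) (XT.nd (nat_lit 46566) (nat_lit 0) (nat_lit 1292) (XT.nd (nat_lit 1950) (nat_lit 1292) (nat_lit 0) (XT.nd (nat_lit 78) (nat_lit 0) (nat_lit 0) (XT.lf (nat_lit 0) (nat_lit 13211469702530) (nat_lit 152) (nat_lit 31219279168906) (nat_lit 228) (nat_lit 16644503586677) (nat_lit 22) (nat_lit 5) (nat_lit 24) (nat_lit 5) (nat_lit 25) (nat_lit 5) (nat_lit 372) (nat_lit 365) (nat_lit 163)) (XT.lf (nat_lit 0) (nat_lit 51008021518196) (nat_lit 152) (nat_lit 7052525194877) (nat_lit 228) (nat_lit 8355006900236) (nat_lit 22) (nat_lit 5) (nat_lit 24) (nat_lit 5) (nat_lit 25) (nat_lit 5) (nat_lit 373) (nat_lit 365) (nat_lit 162))) (XT.nd (nat_lit 44460) (nat_lit 0) (nat_lit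 1596) (XT.lf (nat_lit 0) (nat_lit 341889179339250) (nat_lit 152) (nat_lit 140125162369051) (nat_lit 0) (nat_lit 281658244204259) (nat_lit 5) (nat_lit 5) (nat_lit 7) (nat_lit 4) (nat_lit 5) (nat_lit 4) (nat_lit 397) (nat_lit 365) (nat_lit 138)) (XT.nd (nat_lit 78) (nat_lit 0) (nat_lit 0) (XT.lf (nat_lit 0) (nat_lit 4599635484046) (nat_lit 380) (nat_lit 7997343663056) (nat_lit 380) (nat_lit 7997343663056) (nat_lit 26) (nat_lit 3) (nat_lit 31) (nat_lit 3) (nat_lit 31) (nat_lit 5) (nat_lit 366) (nat_lit 366) (nat_lit 168)) (XT.lf (nat_lit 76) (nat_lit 4195571216953) (nat_lit 0) (nat_lit 5867374730797) (nat_lit 380) (nat_lit 34188788645535) (nat_lit 27) (nat_lit 5) (nat_lit 26) (nat_lit 3) (nat_lit 31) (nat_lit 5) (nat_lit 367) (nat_lit 366) (nat_lit 167))))) (XT.nd (nat_lit 234) (nat_lit 380) (nat_lit 0) (XT.nd (nat_lit 78) (nat_lit 0) (nat_lit 0) (XT.lf (nat_lit 0) (nat_lit 12609429746026)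 (nat_lit 304) (nat_lit 19154092378639) (nat_lit 380) (nat_lit 15777776151781) (nat_lit 27) (nat_lit 5) (nat_lit 31) (nat_lit 5) (nat_lit 32) (nat_lit 5) (nat_lit 368) (nat_lit 366) (nat_lit 166)) (XT.nd (nat_lit 78) (nat_lit 0) (nat_lit 76) (XT.lf (nat_lit 76) (nat_lit 5053816131761) (nat_lit 0) (nat_lit 10972736527707) (nat_lit 380) (nat_lit 35224443870800) (nat_lit 28) (nat_lit 5) (nat_lit 27) (nat_lit 5) (nat_lit 32) (nat_lit 5) (nat_lit 369) (nat_lit 366) (nat_lit 165)) (XT.lf (nat_lit 0) (nat_lit 21540838381745) (nat_lit 304) (nat_lit 20904752039953) (nat_lit 76) (nat_lit 12833869944690) (nat_lit 28) (nat_lit 5) (nat_lit 32) (nat_lit 5) (nat_lit 29) (nat_lit 5) (nat_lit 370) (nat_lit 366) (nat_lit 164)))) (XT.nd (nat_lit 78) (nat_lit 152) (nat_lit 0) (XT.lf (nat_lit 0) (nat_lit 8407525355275) (nat_lit 304) (nat_lit 20345390566179) (nat_lit 380) (nat_lit 31028680512611) (nat_lit 24)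 (nat_lit 5) (nat_lit 28) (nat_lit 5) (nat_lit 29) (nat_lit 5) (nat_lit 371) (nat_lit 366) (nat_lit 163)) (XT.nd (nat_lit 78) (nat_lit 152) (nat_lit 0) (XT.lf (nat_lit 0) (nat_lit 38401520365016) (nat_lit 380) (nat_lit 20591054098115) (nat_lit 76) (nat_lit 5763271157828) (nat_lit 24) (nat_lit 5) (nat_lit 29) (nat_lit 5) (nat_lit 25) (nat_lit 5) (nat_lit 372) (nat_lit 366) (nat_lit 162)) (XT.lf (nat_lit 0) (nat_lit 15193190157959) (nat_lit 152) (nat_lit 35902171044232) (nat_lit 228) (nat_lit 19141179124634) (nat_lit 22) (nat_lit 5) (nat_lit 24) (nat_lit 5) (nat_lit 25) (nat_lit 5) (nat_lit 373) (nat_lit 366) (nat_lit 161))))))) (XT.nd (nat_lit 48516) (nat_lit 0) (nat_lit 76) (XT.nd (nat_lit 46488) (nat_lit 0) (nat_lit 1292) (XT.nd (nat_lit 1794) (nat_lit 0) (nat_lit 0) (XT.nd (nat_lit 1716) (nat_lit 1292) (nat_lit 0) (XT.lf (nat_lit 0) (nat_lit 58659224745968) (nat_lit 152) (nat_lit 8110403974100)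 (nat_lit 228) (nat_lit 9608257935233) (nat_lit 22) (nat_lit 5) (nat_lit 24) (nat_lit 5) (nat_lit 25) (nat_lit 5) (nat_lit 374) (nat_lit 366) (nat_lit 160)) (XT.lf (nat_lit 0) (nat_lit 129155050333490) (nat_lit 152) (nat_lit 502820074341152) (nat_lit 0) (nat_lit 59889474928251) (nat_lit 5) (nat_lit 5) (nat_lit 7) (nat_lit 4) (nat_lit 5) (nat_lit 4) (nat_lit 396) (nat_lit 366) (nat_lit 138))) (XT.nd (nat_lit 44538) (nat_lit 0) (nat_lit 1596) (XT.lf (nat_lit 0) (nat_lit 251953890290073) (nat_lit 152) (nat_lit 343900940565918) (nat_lit 0) (nat_lit 182688314884832) (nat_lit 5) (nat_lit 5) (nat_lit 7) (nat_lit 4) (nat_lit 5) (nat_lit 4) (nat_lit 397) (nat_lit 366) (nat_lit 137)) (XT.nd (nat_lit 78) (nat_lit 0) (nat_lit 0) (XT.lf (nat_lit 0) (nat_lit 5289580806687) (nat_lit 380) (nat_lit 9196945212496) (nat_lit 380) (nat_lit 9196945212496) (nat_lit 26) (nat_lit 3) (nat_lit 31) (nat_lit 3) (nat_lit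 31) (nat_lit 5) (nat_lit 367) (nat_lit 367) (nat_lit 166)) (XT.lf (nat_lit 76) (nat_lit 4824906899534) (nat_lit 0) (nat_lit 6747480940440) (nat_lit 380) (nat_lit 39317106942295) (nat_lit 27) (nat_lit 5) (nat_lit 26) (nat_lit 3) (nat_lit 31) (nat_lit 5) (nat_lit 368) (nat_lit 367) (nat_lit 165))))) (XT.nd (nat_lit 234) (nat_lit 380) (nat_lit 0) (XT.nd (nat_lit 78) (nat_lit 0) (nat_lit 0) (XT.lf (nat_lit 0) (nat_lit 14500844207981) (nat_lit 304) (nat_lit 22027206235394) (nat_lit 380) (nat_lit 18144442574530) (nat_lit 27) (nat_lit 5) (nat_lit 31) (nat_lit 5) (nat_lit 32) (nat_lit 5) (nat_lit 369) (nat_lit 367) (nat_lit 164)) (XT.nd (nat_lit 78) (nat_lit 0) (nat_lit 76) (XT.lf (nat_lit 76) (nat_lit 5811888551564) (nat_lit 0) (nat_lit 12618647006870) (nat_lit 380) (nat_lit 40508110451366) (nat_lit 28) (nat_lit 5) (nat_lit 27) (nat_lit 5) (nat_lit 32) (nat_lit 5) (nat_lit 370) (nat_lit 367)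 (nat_lit 163)) (XT.lf (nat_lit 0) (nat_lit 24771964139048) (nat_lit 304) (nat_lit 24040464845906) (nat_lit 76) (nat_lit 14758950436388) (nat_lit 28) (nat_lit 5) (nat_lit 32) (nat_lit 5) (nat_lit 29) (nat_lit 5) (nat_lit 371) (nat_lit 367) (nat_lit 162)))) (XT.nd (nat_lit 78) (nat_lit 152) (nat_lit 0) (XT.lf (nat_lit 0) (nat_lit 9668654158606) (nat_lit 304) (nat_lit 23397199151104) (nat_lit 380) (nat_lit 35682982589460) (nat_lit 24) (nat_lit 5) (nat_lit 28) (nat_lit 5) (nat_lit 29) (nat_lit 5) (nat_lit 372) (nat_lit 367) (nat_lit 161)) (XT.nd (nat_lit 78) (nat_lit 152) (nat_lit 0) (XT.lf (nat_lit 0) (nat_lit 44161748419801) (nat_lit 380) (nat_lit 23679712212794) (nat_lit 76) (nat_lit 6627761831504) (nat_lit 24) (nat_lit 5) (nat_lit 29) (nat_lit 5) (nat_lit 25) (nat_lit 5) (nat_lit 373) (nat_lit 367) (nat_lit 160)) (XT.lf (nat_lit 0) (nat_lit 17472168681689) (nat_lit 152) (nat_lit 41287496700860)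 (nat_lit 228) (nat_lit 22012355993295) (nat_lit 22) (nat_lit 5) (nat_lit 24) (nat_lit 5) (nat_lit 25) (nat_lit 5) (nat_lit 374) (nat_lit 367) (nat_lit 159)))))) (XT.nd (nat_lit 45006) (nat_lit 0) (nat_lit 152) (XT.nd (nat_lit 44772) (nat_lit 0) (nat_lit 1520) (XT.nd (nat_lit 78) (nat_lit 76) (nat_lit 0) (XT.lf (nat_lit 0) (nat_lit 399740775787875) (nat_lit 76) (nat_lit 161187161543979) (nat_lit 76) (nat_lit 69583438070549) (nat_lit 7) (nat_lit 4) (nat_lit 8) (nat_lit 5) (nat_lit 8) (nat_lit 4) (nat_lit 395) (nat_lit 367) (nat_lit 138)) (XT.lf (nat_lit 0) (nat_lit 29464925948451) (nat_lit 152) (nat_lit 28254132684260) (nat_lit 76) (nat_lit 650686366069457) (nat_lit 6) (nat_lit 5) (nat_lit 8) (nat_lit 5) (nat_lit 7) (nat_lit 4) (nat_lit 396) (nat_lit 367) (nat_lit 137))) (XT.nd (nat_lit 78) (nat_lit 0) (nat_lit 0) (XT.lf (nat_lit 0) (nat_lit 6083017927715) (nat_lit 380) (nat_lit 10576486994355)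 (nat_lit 380) (nat_lit 10576486994355) (nat_lit 26) (nat_lit 3) (nat_lit 31) (nat_lit 3) (nat_lit 31) (nat_lit 5) (nat_lit 368) (nat_lit 368) (nat_lit 164)) (XT.nd (nat_lit 78) (nat_lit 0) (nat_lit 76) (XT.lf (nat_lit 76) (nat_lit 5548642934491) (nat_lit 0) (nat_lit 7759603081524) (nat_lit 380) (nat_lit 45214672983587) (nat_lit 27) (nat_lit 5) (nat_lit 26) (nat_lit 3) (nat_lit 31) (nat_lit 5) (nat_lit 369) (nat_lit 368) (nat_lit 163)) (XT.lf (nat_lit 0) (nat_lit 16675970839218) (nat_lit 304) (nat_lit 25331287170672) (nat_lit 380) (nat_lit 20866108960695) (nat_lit 27) (nat_lit 5) (nat_lit 31) (nat_lit 5) (nat_lit 32) (nat_lit 5) (nat_lit 370) (nat_lit 368) (nat_lit 162))))) (XT.nd (nat_lit 234) (nat_lit 1216) (nat_lit 0) (XT.nd (nat_lit 78) (nat_lit 228) (nat_lit 0) (XT.lf (nat_lit 76) (nat_lit 6683671834329) (nat_lit 0) (nat_lit 14511444057906) (nat_lit 380) (nat_lit 46584327019031) (nat_lit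 28) (nat_lit 5) (nat_lit 27) (nat_lit 5) (nat_lit 32) (nat_lit 5) (nat_lit 371) (nat_lit 368) (nat_lit 161)) (XT.nd (nat_lit 78) (nat_lit 304) (nat_lit 0) (XT.lf (nat_lit 0) (nat_lit 28487758759935) (nat_lit 304) (nat_lit 27646534572761) (nat_lit 76) (nat_lit 16972793001842) (nat_lit 28) (nat_lit 5) (nat_lit 32) (nat_lit 5) (nat_lit 29) (nat_lit 5) (nat_lit 372) (nat_lit 368) (nat_lit 160)) (XT.lf (nat_lit 0) (nat_lit 11118952282426) (nat_lit 304) (nat_lit 26906779023768) (nat_lit 380) (nat_lit 41035429977848) (nat_lit 24) (nat_lit 5) (nat_lit 28) (nat_lit 5) (nat_lit 29) (nat_lit 5) (nat_lit 373) (nat_lit 368) (nat_lit 159)))) (XT.nd (nat_lit 78) (nat_lit 1216) (nat_lit 0) (XT.lf (nat_lit 0) (nat_lit 50786010682795) (nat_lit 380) (nat_lit 27231669044685) (nat_lit 76) (nat_lit 7621926106230) (nat_lit 24) (nat_lit 5) (nat_lit 29) (nat_lit 5) (nat_lit 25) (nat_lit 5) (nat_lit 374) (nat_lit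 368) (nat_lit 158)) (XT.nd (nat_lit 1482) (nat_lit 1064) (nat_lit 0) (XT.lf (nat_lit 0) (nat_lit 20092993983970) (nat_lit 152) (nat_lit 47480621205983) (nat_lit 228) (nat_lit 25314209392264) (nat_lit 22) (nat_lit 5) (nat_lit 24) (nat_lit 5) (nat_lit 25) (nat_lit 5) (nat_lit 375) (nat_lit 368) (nat_lit 157)) (XT.lf (nat_lit 0) (nat_lit 311294551287307) (nat_lit 152) (nat_lit 61420886687897) (nat_lit 0) (nat_lit 205950269292863) (nat_lit 8) (nat_lit 5) (nat_lit 10) (nat_lit 4) (nat_lit 8) (nat_lit 4) (nat_lit 394) (nat_lit 368) (nat_lit 138))))))))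
noncomputable def xc127 : XT := (XT.nd (nat_lit 185952) (nat_lit 0) (nat_lit 1140) (XT.nd (nat_lit 92040) (nat_lit 0) (nat_lit 1292) (XT.nd (nat_lit 45162) (nat_lit 0) (nat_lit 1292) (XT.nd (nat_lit 44928) (nat_lit 0) (nat_lit 1444) (XT.nd (nat_lit 44850) (nat_lit 0) (nat_lit 1444) (XT.lf (nat_lit 0) (nat_lit 177751163887818) (nat_lit 76) (nat_lit 287293126648626) (nat_lit 76) (nat_lit 181948844654182) (nat_lit 7) (nat_lit 4) (nat_lit 8) (nat_lit 5) (nat_lit 8) (nat_lit 4) (nat_lit 395) (nat_lit 368) (nat_lit 137)) (XT.lf (nat_lit 0) (nat_lit 6995470616892) (nat_lit 380) (nat_lit 12162960043497) (nat_lit 380) (nat_lit 12162960043497) (nat_lit 26) (nat_lit 3) (nat_lit 31) (nat_lit 3) (nat_lit 31) (nat_lit 5) (nat_lit 369) (nat_lit 369) (nat_lit 162))) (XT.nd (nat_lit 78) (nat_lit 0) (nat_lit 76) (XT.lf (nat_lit 76) (nat_lit 6380939374687) (nat_lit 0) (nat_lit 8923543543766) (nat_lit 380)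 (nat_lit 51996873931085) (nat_lit 27) (nat_lit 5) (nat_lit 26) (nat_lit 3) (nat_lit 31) (nat_lit 5) (nat_lit 370) (nat_lit 369) (nat_lit 161)) (XT.nd (nat_lit 78) (nat_lit 0) (nat_lit 0) (XT.lf (nat_lit 0) (nat_lit 19177366465130) (nat_lit 304) (nat_lit 29130980246250) (nat_lit 380) (nat_lit 23996025304789) (nat_lit 27) (nat_lit 5) (nat_lit 31) (nat_lit 5) (nat_lit 32) (nat_lit 5) (nat_lit 371) (nat_lit 369) (nat_lit 160)) (XT.lf (nat_lit 76) (nat_lit 7686222609501) (nat_lit 0) (nat_lit 16688160666596) (nat_lit 380) (nat_lit 53571976071855) (nat_lit 28) (nat_lit 5) (nat_lit 27) (nat_lit 5) (nat_lit 32) (nat_lit 5) (nat_lit 372) (nat_lit 369) (nat_lit 159))))) (XT.nd (nat_lit 46644) (nat_lit 0) (nat_lit 152) (XT.nd (nat_lit 78) (nat_lit 304) (nat_lit 0) (XT.lf (nat_lit 0) (nat_lit 32760922573949) (nat_lit 304) (nat_lit 31793514758652) (nat_lit 76) (nat_lit 19518711952115) (nat_lit 28)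 (nat_lit 5) (nat_lit 32) (nat_lit 5) (nat_lit 29) (nat_lit 5) (nat_lit 373) (nat_lit 369) (nat_lit 158)) (XT.nd (nat_lit 78) (nat_lit 0) (nat_lit 0) (XT.lf (nat_lit 0) (nat_lit 12786795124812) (nat_lit 304) (nat_lit 30942795877332) (nat_lit 380) (nat_lit 47190744474501) (nat_lit 24) (nat_lit 5) (nat_lit 28) (nat_lit 5) (nat_lit 29) (nat_lit 5) (nat_lit 374) (nat_lit 369) (nat_lit 157)) (XT.lf (nat_lit 0) (nat_lit 58403912285232) (nat_lit 380) (nat_lit 31316419401365) (nat_lit 76) (nat_lit 8765215022166) (nat_lit 24) (nat_lit 5) (nat_lit 29) (nat_lit 5) (nat_lit 25) (nat_lit 5) (nat_lit 375) (nat_lit 369) (nat_lit 156)))) (XT.nd (nat_lit 78) (nat_lit 0) (nat_lit 0) (XT.lf (nat_lit 0) (nat_lit 8044791209441) (nat_lit 380) (nat_lit 13987404050014) (nat_lit 380) (nat_lit 13987404050014) (nat_lit 26) (nat_lit 3) (nat_lit 31) (nat_lit 3) (nat_lit 31) (nat_lit 5) (nat_lit 370) (nat_lit 370)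 (nat_lit 160)) (XT.nd (nat_lit 78) (nat_lit 0) (nat_lit 76) (XT.lf (nat_lit 76) (nat_lit 7338080280906) (nat_lit 0) (nat_lit 10262075075341) (nat_lit 380) (nat_lit 59796405020718) (nat_lit 27) (nat_lit 5) (nat_lit 26) (nat_lit 3) (nat_lit 31) (nat_lit 5) (nat_lit 371) (nat_lit 370) (nat_lit 159)) (XT.lf (nat_lit 0) (nat_lit 22053971434922) (nat_lit 304) (nat_lit 33500627283169) (nat_lit 380) (nat_lit 27595429100500) (nat_lit 27) (nat_lit 5) (nat_lit 31) (nat_lit 5) (nat_lit 32) (nat_lit 5) (nat_lit 372) (nat_lit 370) (nat_lit 158)))))) (XT.nd (nat_lit 46878) (nat_lit 0) (nat_lit 152) (XT.nd (nat_lit 156) (nat_lit 228) (nat_lit 0) (XT.nd (nat_lit 78) (nat_lit 0) (nat_lit 76) (XT.lf (nat_lit 76) (nat_lit 8839156000943) (nat_lit 0) (nat_lit 19191384766589) (nat_lit 380) (nat_lit 61607772482610) (nat_lit 28) (nat_lit 5) (nat_lit 27) (nat_lit 5) (nat_lit 32) (nat_lit 5) (nat_lit 373) (nat_lit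 370) (nat_lit 157)) (XT.lf (nat_lit 0) (nat_lit 37675060960058) (nat_lit 304) (nat_lit 36562541972433) (nat_lit 76) (nat_lit 22446518744930) (nat_lit 28) (nat_lit 5) (nat_lit 32) (nat_lit 5) (nat_lit 29) (nat_lit 5) (nat_lit 374) (nat_lit 370) (nat_lit 156))) (XT.nd (nat_lit 46566) (nat_lit 0) (nat_lit 152) (XT.lf (nat_lit 0) (nat_lit 14704814393551) (nat_lit 304) (nat_lit 35584215258931) (nat_lit 380) (nat_lit 54269356145658) (nat_lit 24) (nat_lit 5) (nat_lit 28) (nat_lit 5) (nat_lit 29) (nat_lit 5) (nat_lit 375) (nat_lit 370) (nat_lit 155)) (XT.nd (nat_lit 78) (nat_lit 0) (nat_lit 0) (XT.lf (nat_lit 0) (nat_lit 9251509890868) (nat_lit 380) (nat_lit 16085514657509) (nat_lit 380) (nat_lit 16085514657509) (nat_lit 26) (nat_lit 3) (nat_lit 31) (nat_lit 3) (nat_lit 31) (nat_lit 5) (nat_lit 371) (nat_lit 371) (nat_lit 158)) (XT.lf (nat_lit 76) (nat_lit 8438792323054) (nat_lit 0) (nat_lit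 11801386336649) (nat_lit 380) (nat_lit 68765865773803) (nat_lit 27) (nat_lit 5) (nat_lit 26) (nat_lit 3) (nat_lit 31) (nat_lit 5) (nat_lit 372) (nat_lit 371) (nat_lit 157))))) (XT.nd (nat_lit 46800) (nat_lit 76) (nat_lit 0) (XT.nd (nat_lit 78) (nat_lit 0) (nat_lit 0) (XT.lf (nat_lit 0) (nat_lit 25362067150178) (nat_lit 304) (nat_lit 38525721375631) (nat_lit 380) (nat_lit 31734743465569) (nat_lit 27) (nat_lit 5) (nat_lit 31) (nat_lit 5) (nat_lit 32) (nat_lit 5) (nat_lit 373) (nat_lit 371) (nat_lit 156)) (XT.nd (nat_lit 78) (nat_lit 0) (nat_lit 76) (XT.lf (nat_lit 76) (nat_lit 10165029401098) (nat_lit 0) (nat_lit 22070092481579) (nat_lit 380) (nat_lit 70848938354984) (nat_lit 28) (nat_lit 5) (nat_lit 27) (nat_lit 5) (nat_lit 32) (nat_lit 5) (nat_lit 374) (nat_lit 371) (nat_lit 155)) (XT.lf (nat_lit 0) (nat_lit 43326320104081) (nat_lit 304) (nat_lit 42046923268284) (nat_lit 76) (nat_lit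 25813496556668) (nat_lit 28) (nat_lit 5) (nat_lit 32) (nat_lit 5) (nat_lit 29) (nat_lit 5) (nat_lit 375) (nat_lit 371) (nat_lit 154)))) (XT.nd (nat_lit 78) (nat_lit 0) (nat_lit 0) (XT.lf (nat_lit 0) (nat_lit 10639236374506) (nat_lit 380) (nat_lit 18498341856131) (nat_lit 380) (nat_lit 18498341856131) (nat_lit 26) (nat_lit 3) (nat_lit 31) (nat_lit 3) (nat_lit 31) (nat_lit 5) (nat_lit 372) (nat_lit 372) (nat_lit 156)) (XT.nd (nat_lit 78) (nat_lit 0) (nat_lit 76) (XT.lf (nat_lit 76) (nat_lit 9704611171522) (nat_lit 0) (nat_lit 13571594287153) (nat_lit 380) (nat_lit 79080745639856) (nat_lit 27) (nat_lit 5) (nat_lit 26) (nat_lit 3) (nat_lit 31) (nat_lit 5) (nat_lit 373) (nat_lit 372) (nat_lit 155)) (XT.lf (nat_lit 0) (nat_lit 29166377222717) (nat_lit 304) (nat_lit 44304579581966) (nat_lit 380) (nat_lit 36494954985400) (nat_lit 27) (nat_lit 5) (nat_lit 31) (nat_lit 5) (nat_lit 32) (nat_lit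 5) (nat_lit 374) (nat_lit 372) (nat_lit 154))))))) (XT.nd (nat_lit 140868) (nat_lit 0) (nat_lit 152) (XT.nd (nat_lit 47268) (nat_lit 0) (nat_lit 0) (XT.nd (nat_lit 46722) (nat_lit 0) (nat_lit 152) (XT.nd (nat_lit 390) (nat_lit 380) (nat_lit 0) (XT.lf (nat_lit 76) (nat_lit 11689783811272) (nat_lit 0) (nat_lit 25380606353818) (nat_lit 380) (nat_lit 81476279108218) (nat_lit 28) (nat_lit 5) (nat_lit 27) (nat_lit 5) (nat_lit 32) (nat_lit 5) (nat_lit 375) (nat_lit 372) (nat_lit 153)) (XT.lf (nat_lit 0) (nat_lit 135682351302050) (nat_lit 152) (nat_lit 18759857225826) (nat_lit 228) (nat_lit 22224484455835) (nat_lit 22) (nat_lit 5) (nat_lit 24) (nat_lit 5) (nat_lit 25) (nat_lit 5) (nat_lit 380) (nat_lit 372) (nat_lit 148))) (XT.nd (nat_lit 78) (nat_lit 152) (nat_lit 0) (XT.lf (nat_lit 0) (nat_lit 12235121830689) (nat_lit 380) (nat_lit 21273093134547) (nat_lit 380) (nat_lit 21273093134547) (nat_lit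 26) (nat_lit 3) (nat_lit 31) (nat_lit 3) (nat_lit 31) (nat_lit 5) (nat_lit 373) (nat_lit 373) (nat_lit 154)) (XT.nd (nat_lit 390) (nat_lit 152) (nat_lit 0) (XT.lf (nat_lit 76) (nat_lit 11160302847256) (nat_lit 0) (nat_lit 15607333430231) (nat_lit 380) (nat_lit 90942857485821) (nat_lit 27) (nat_lit 5) (nat_lit 26) (nat_lit 3) (nat_lit 31) (nat_lit 5) (nat_lit 374) (nat_lit 373) (nat_lit 153)) (XT.lf (nat_lit 0) (nat_lit 102148807611374) (nat_lit 380) (nat_lit 54772613260548) (nat_lit 76) (nat_lit 15330415856366) (nat_lit 24) (nat_lit 5) (nat_lit 29) (nat_lit 5) (nat_lit 25) (nat_lit 5) (nat_lit 379) (nat_lit 373) (nat_lit 148))))) (XT.nd (nat_lit 46800) (nat_lit 0) (nat_lit 152) (XT.nd (nat_lit 46410) (nat_lit 0) (nat_lit 304) (XT.lf (nat_lit 0) (nat_lit 40414187868148) (nat_lit 152) (nat_lit 95500488729600) (nat_lit 228) (nat_lit 50915917006924) (nat_lit 22) (nat_lit 5) (nat_lit 24) (nat_lit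 5) (nat_lit 25) (nat_lit 5) (nat_lit 380) (nat_lit 373) (nat_lit 147)) (XT.nd (nat_lit 312) (nat_lit 0) (nat_lit 152) (XT.lf (nat_lit 0) (nat_lit 14070390105297) (nat_lit 380) (nat_lit 24464057104726) (nat_lit 380) (nat_lit 24464057104726) (nat_lit 26) (nat_lit 3) (nat_lit 31) (nat_lit 3) (nat_lit 31) (nat_lit 5) (nat_lit 374) (nat_lit 374) (nat_lit 152)) (XT.lf (nat_lit 0) (nat_lit 65893917088321) (nat_lit 304) (nat_lit 63948114425624) (nat_lit 76) (nat_lit 39259101575618) (nat_lit 28) (nat_lit 5) (nat_lit 32) (nat_lit 5) (nat_lit 29) (nat_lit 5) (nat_lit 378) (nat_lit 374) (nat_lit 148)))) (XT.nd (nat_lit 78) (nat_lit 0) (nat_lit 0) (XT.lf (nat_lit 0) (nat_lit 25718812279458) (nat_lit 304) (nat_lit 62237014889212) (nat_lit 380) (nat_lit 94917443082181) (nat_lit 24) (nat_lit 5) (nat_lit 28) (nat_lit 5) (nat_lit 29) (nat_lit 5) (nat_lit 379) (nat_lit 374) (nat_lit 147)) (XT.nd (nat_lit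 46644) (nat_lit 0) (nat_lit 228) (XT.lf (nat_lit 0) (nat_lit 117471128753084) (nat_lit 380) (nat_lit 62988505249625) (nat_lit 76) (nat_lit 17629978234821) (nat_lit 24) (nat_lit 5) (nat_lit 29) (nat_lit 5) (nat_lit 25) (nat_lit 5) (nat_lit 380) (nat_lit 374) (nat_lit 146)) (XT.lf (nat_lit 0) (nat_lit 44358413958627) (nat_lit 304) (nat_lit 67381727471702) (nat_lit 380) (nat_lit 55504264663410) (nat_lit 27) (nat_lit 5) (nat_lit 31) (nat_lit 5) (nat_lit 32) (nat_lit 5) (nat_lit 377) (nat_lit 375) (nat_lit 148)))))) (XT.nd (nat_lit 46878) (nat_lit 0) (nat_lit 152) (XT.nd (nat_lit 156) (nat_lit 228) (nat_lit 0) (XT.nd (nat_lit 78) (nat_lit 0) (nat_lit 76) (XT.lf (nat_lit 76) (nat_lit 17778699953989) (nat_lit 0) (nat_lit 38600729688367) (nat_lit 380) (nat_lit 123915235988684) (nat_lit 28) (nat_lit 5) (nat_lit 27) (nat_lit 5) (nat_lit 32) (nat_lit 5) (nat_lit 378) (nat_lit 375) (nat_lit 147))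 (XT.lf (nat_lit 0) (nat_lit 75778004651574) (nat_lit 304) (nat_lit 73540331589463) (nat_lit 76) (nat_lit 45147966811960) (nat_lit 28) (nat_lit 5) (nat_lit 32) (nat_lit 5) (nat_lit 29) (nat_lit 5) (nat_lit 379) (nat_lit 375) (nat_lit 146))) (XT.nd (nat_lit 46566) (nat_lit 0) (nat_lit 152) (XT.lf (nat_lit 0) (nat_lit 29576634121379) (nat_lit 304) (nat_lit 71572567122595) (nat_lit 380) (nat_lit 109155059544504) (nat_lit 24) (nat_lit 5) (nat_lit 28) (nat_lit 5) (nat_lit 29) (nat_lit 5) (nat_lit 380) (nat_lit 375) (nat_lit 145)) (XT.nd (nat_lit 78) (nat_lit 0) (nat_lit 0) (XT.lf (nat_lit 0) (nat_lit 18608090914262) (nat_lit 380) (nat_lit 32353715520997) (nat_lit 380) (nat_lit 32353715520997) (nat_lit 26) (nat_lit 3) (nat_lit 31) (nat_lit 3) (nat_lit 31) (nat_lit 5) (nat_lit 376) (nat_lit 376) (nat_lit 148)) (XT.lf (nat_lit 76) (nat_lit 16973425592836) (nat_lit 0) (nat_lit 23736803230712) (nat_lit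 380) (nat_lit 138312718378722) (nat_lit 27) (nat_lit 5) (nat_lit 26) (nat_lit 3) (nat_lit 31) (nat_lit 5) (nat_lit 377) (nat_lit 376) (nat_lit 147))))) (XT.nd (nat_lit 46878) (nat_lit 0) (nat_lit 0) (XT.nd (nat_lit 78) (nat_lit 76) (nat_lit 0) (XT.lf (nat_lit 0) (nat_lit 51012176052425) (nat_lit 304) (nat_lit 77488986592453) (nat_lit 380) (nat_lit 63829904362921) (nat_lit 27) (nat_lit 5) (nat_lit 31) (nat_lit 5) (nat_lit 32) (nat_lit 5) (nat_lit 378) (nat_lit 376) (nat_lit 146)) (XT.nd (nat_lit 46722) (nat_lit 76) (nat_lit 0) (XT.lf (nat_lit 76) (nat_lit 20445504947091) (nat_lit 0) (nat_lit 44390839141623) (nat_lit 380) (nat_lit 142502521386982) (nat_lit 28) (nat_lit 5) (nat_lit 27) (nat_lit 5) (nat_lit 32) (nat_lit 5) (nat_lit 379) (nat_lit 376) (nat_lit 145)) (XT.lf (nat_lit 0) (nat_lit 21399304551404) (nat_lit 380) (nat_lit 37206772849145) (nat_lit 380) (nat_lit 37206772849145) (nat_lit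 26) (nat_lit 3) (nat_lit 31) (nat_lit 3) (nat_lit 31) (nat_lit 5) (nat_lit 377) (nat_lit 377) (nat_lit 146)))) (XT.nd (nat_lit 78) (nat_lit 0) (nat_lit 0) (XT.lf (nat_lit 76) (nat_lit 19519439431765) (nat_lit 0) (nat_lit 27297323715319) (nat_lit 380) (nat_lit 159059626135526) (nat_lit 27) (nat_lit 5) (nat_lit 26) (nat_lit 3) (nat_lit 31) (nat_lit 5) (nat_lit 378) (nat_lit 377) (nat_lit 145)) (XT.nd (nat_lit 46800) (nat_lit 76) (nat_lit 0) (XT.lf (nat_lit 0) (nat_lit 58664002460292) (nat_lit 304) (nat_lit 89112334581318) (nat_lit 380) (nat_lit 73404390017359) (nat_lit 27) (nat_lit 5) (nat_lit 31) (nat_lit 5) (nat_lit 32) (nat_lit 5) (nat_lit 379) (nat_lit 377) (nat_lit 144)) (XT.lf (nat_lit 0) (nat_lit 24609200234116) (nat_lit 380) (nat_lit 42787788776516) (nat_lit 380) (nat_lit 42787788776516) (nat_lit 26) (nat_lit 3) (nat_lit 31) (nat_lit 3) (nat_lit 31) (nat_lit 5) (nat_lit 378) (nat_lit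 378) (nat_lit 144))))))))

set_option maxRecDepth 10000000 in
noncomputable def Tp : PT := (PT.nd (nat_lit 7137078) (PT.nd (nat_lit 6856200) pc0 pc1) (PT.nd (nat_lit 141102) pc2 pc3))

set_option maxRecDepth 10000000 in
noncomputable def Tx : XT := (XT.nd (nat_lit 11797422) (nat_lit 0) (nat_lit 76) XT.nil (XT.nd (nat_lit 5952024) (nat_lit 0) (nat_lit 0) (XT.nd (nat_lit 2667678) (nat_lit 0) (nat_lit 0) (XT.nd (nat_lit 1872702) (nat_lit 0) (nat_lit 0) (XT.nd (nat_lit 1358604) (nat_lit 0) (nat_lit 0) (XT.nd (nat_lit 983736) (nat_lit 0) (nat_lit 0) (XT.nd (nat_lit 747864) (nat_lit 0) (nat_lit 0) (XT.nd (nat_lit 514722) (nat_lit 0) (nat_lit 0) (XT.nd (nat_lit 374088) (nat_lit 0) (nat_lit 0) xc0 xc1) (XT.nd (nat_lit 95082) (nat_lit 0) (nat_lit 0) xc2 xc3)) (XT.nd (nat_lit 140634) (nat_lit 0) (nat_lit 0) (XT.nd (nat_lit 48126) (nat_lit 0) (nat_lit 0) xc4 xc5) (XT.nd (nat_lit 47658) (nat_lit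 0) (nat_lit 0) xc6 xc7))) (XT.nd (nat_lit 232752) (nat_lit 0) (nat_lit 0) (XT.nd (nat_lit 138684) (nat_lit 0) (nat_lit 0) (XT.nd (nat_lit 91338) (nat_lit 0) (nat_lit 0) xc8 xc9) (XT.nd (nat_lit 47112) (nat_lit 0) (nat_lit 0) xc10 xc11)) (XT.nd (nat_lit 92820) (nat_lit 0) (nat_lit 0) (XT.nd (nat_lit 46566) (nat_lit 0) (nat_lit 0) xc12 xc13) (XT.nd (nat_lit 45864) (nat_lit 0) (nat_lit 0) xc14 xc15)))) (XT.nd (nat_lit 279006) (nat_lit 0) (nat_lit 0) (XT.nd (nat_lit 139776) (nat_lit 0) (nat_lit 0) (XT.nd (nat_lit 91104) (nat_lit 0) (nat_lit 0) (XT.nd (nat_lit 45630) (nat_lit 0) (nat_lit 0) xc16 xc17) (XT.nd (nat_lit 3432) (nat_lit 0) (nat_lit 0) xc18 xc19)) (XT.nd (nat_lit 90402) (nat_lit 0) (nat_lit 0) (XT.nd (nat_lit 45084) (nat_lit 0) (nat_lit 0) xc20 xc21) (XT.nd (nat_lit 3354) (nat_lit 0) (nat_lit 0) xc22 xc23))) (XT.nd (nat_lit 138996) (nat_lit 0) (nat_lit 0) (XT.nd (nat_lit 48672)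 (nat_lit 0) (nat_lit 0) (XT.nd (nat_lit 45240) (nat_lit 0) (nat_lit 0) xc24 xc25) (XT.nd (nat_lit 45162) (nat_lit 0) (nat_lit 0) xc26 xc27)) (XT.nd (nat_lit 48126) (nat_lit 0) (nat_lit 0) (XT.nd (nat_lit 3354) (nat_lit 0) (nat_lit 0) xc28 xc29) (XT.nd (nat_lit 44538) (nat_lit 0) (nat_lit 0) xc30 xc31))))) (XT.nd (nat_lit 418938) (nat_lit 0) (nat_lit 0) (XT.nd (nat_lit 231660) (nat_lit 0) (nat_lit 0) (XT.nd (nat_lit 136500) (nat_lit 0) (nat_lit 0) (XT.nd (nat_lit 47736) (nat_lit 0) (nat_lit 0) (XT.nd (nat_lit 44382) (nat_lit 0) (nat_lit 0) xc32 xc33) (XT.nd (nat_lit 44304) (nat_lit 0) (nat_lit 0) xc34 xc35)) (XT.nd (nat_lit 47658) (nat_lit 0) (nat_lit 0) (XT.nd (nat_lit 3354) (nat_lit 0) (nat_lit 0) xc36 xc37) (XT.nd (nat_lit 3354) (nat_lit 0) (nat_lit 0) xc38 xc39))) (XT.nd (nat_lit 93990) (nat_lit 0) (nat_lit 0) (XT.nd (nat_lit 47112) (nat_lit 0) (nat_lit 0) (XT.nd (nat_lit 3354) (nat_lit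 0) (nat_lit 0) xc40 xc41) (XT.nd (nat_lit 3354) (nat_lit 0) (nat_lit 0) xc42 xc43)) (XT.nd (nat_lit 46722) (nat_lit 0) (nat_lit 0) (XT.nd (nat_lit 3354) (nat_lit 0) (nat_lit 0) xc44 xc45) (XT.nd (nat_lit 3354) (nat_lit 0) (nat_lit 0) xc46 xc47)))) (XT.nd (nat_lit 187434) (nat_lit 0) (nat_lit 0) (XT.nd (nat_lit 93366) (nat_lit 0) (nat_lit 0) (XT.nd (nat_lit 46566) (nat_lit 0) (nat_lit 0) (XT.nd (nat_lit 3354) (nat_lit 0) (nat_lit 0) xc48 xc49) (XT.nd (nat_lit 3354) (nat_lit 0) (nat_lit 0) xc50 xc51)) (XT.nd (nat_lit 46956) (nat_lit 0) (nat_lit 0) (XT.nd (nat_lit 3354) (nat_lit 0) (nat_lit 0) xc52 xc53) (XT.nd (nat_lit 3354) (nat_lit 0) (nat_lit 0) xc54 xc55))) (XT.nd (nat_lit 94536) (nat_lit 0) (nat_lit 0) (XT.nd (nat_lit 47268) (nat_lit 0) (nat_lit 0) (XT.nd (nat_lit 3354) (nat_lit 0) (nat_lit 0) xc56 xc57) (XT.nd (nat_lit 3354) (nat_lit 0) (nat_lit 0) xc58 xc59)) (XT.nd (nat_lit 47034)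 (nat_lit 0) (nat_lit 0) (XT.nd (nat_lit 3354) (nat_lit 0) (nat_lit 0) xc60 xc61) (XT.nd (nat_lit 3354) (nat_lit 0) (nat_lit 0) xc62 xc63)))))) (XT.nd (nat_lit 937638) (nat_lit 0) (nat_lit 0) (XT.nd (nat_lit 422448) (nat_lit 0) (nat_lit 0) (XT.nd (nat_lit 188448) (nat_lit 0) (nat_lit 0) (XT.nd (nat_lit 94068) (nat_lit 0) (nat_lit 0) (XT.nd (nat_lit 46956) (nat_lit 0) (nat_lit 0) (XT.nd (nat_lit 3354) (nat_lit 0) (nat_lit 0) xc64 xc65) (XT.nd (nat_lit 3354) (nat_lit 0) (nat_lit 0) xc66 xc67)) (XT.nd (nat_lit 47112) (nat_lit 0) (nat_lit 0) (XT.nd (nat_lit 3666) (nat_lit 0) (nat_lit 0) xc68 xc69) (XT.nd (nat_lit 3666) (nat_lit 0) (nat_lit 0) xc70 xc71))) (XT.nd (nat_lit 95472) (nat_lit 0) (nat_lit 0) (XT.nd (nat_lit 47502) (nat_lit 0) (nat_lit 0) (XT.nd (nat_lit 44070) (nat_lit 0) (nat_lit 76) xc72 xc73) (XT.nd (nat_lit 44538) (nat_lit 0) (nat_lit 0) xc74 xc75)) (XT.nd (nat_lit 90012) (nat_lit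 0) (nat_lit 0) (XT.nd (nat_lit 44928) (nat_lit 0) (nat_lit 0) xc76 xc77) (XT.nd (nat_lit 3354) (nat_lit 76) (nat_lit 0) xc78 xc79)))) (XT.nd (nat_lit 236028) (nat_lit 0) (nat_lit 0) (XT.nd (nat_lit 138684) (nat_lit 0) (nat_lit 0) (XT.nd (nat_lit 48516) (nat_lit 0) (nat_lit 0) (XT.nd (nat_lit 45162) (nat_lit 0) (nat_lit 76) xc80 xc81) (XT.nd (nat_lit 45084) (nat_lit 0) (nat_lit 0) xc82 xc83)) (XT.nd (nat_lit 48594) (nat_lit 0) (nat_lit 0) (XT.nd (nat_lit 3354) (nat_lit 76) (nat_lit 0) xc84 xc85) (XT.nd (nat_lit 45318) (nat_lit 0) (nat_lit 76) xc86 xc87))) (XT.nd (nat_lit 139698) (nat_lit 0) (nat_lit 0) (XT.nd (nat_lit 90870) (nat_lit 0) (nat_lit 0) (XT.nd (nat_lit 45396) (nat_lit 0) (nat_lit 0) xc88 xc89) (XT.nd (nat_lit 3354) (nat_lit 76) (nat_lit 0) xc90 xc91)) (XT.nd (nat_lit 48750) (nat_lit 0) (nat_lit 0) (XT.nd (nat_lit 45318) (nat_lit 0) (nat_lit 76) xc92 xc93) (XT.nd (nat_lit 45318)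 (nat_lit 0) (nat_lit 0) xc94 xc95))))) (XT.nd (nat_lit 656526) (nat_lit 0) (nat_lit 228) (XT.nd (nat_lit 282048) (nat_lit 0) (nat_lit 0) (XT.nd (nat_lit 140166) (nat_lit 0) (nat_lit 0) (XT.nd (nat_lit 48828) (nat_lit 0) (nat_lit 0) (XT.nd (nat_lit 3354) (nat_lit 0) (nat_lit 0) xc96 xc97) (XT.nd (nat_lit 45552) (nat_lit 0) (nat_lit 0) xc98 xc99)) (XT.nd (nat_lit 49296) (nat_lit 0) (nat_lit 76) (XT.nd (nat_lit 3354) (nat_lit 76) (nat_lit 0) xc100 xc101) (XT.nd (nat_lit 46098) (nat_lit 0) (nat_lit 0) xc102 xc103))) (XT.nd (nat_lit 186888) (nat_lit 0) (nat_lit 0) (XT.nd (nat_lit 93366) (nat_lit 0) (nat_lit 0) (XT.nd (nat_lit 46566) (nat_lit 76) (nat_lit 0) xc104 xc105) (XT.nd (nat_lit 46722) (nat_lit 0) (nat_lit 0) xc106 xc107)) (XT.nd (nat_lit 93600) (nat_lit 0) (nat_lit 0) (XT.nd (nat_lit 46722) (nat_lit 0) (nat_lit 0) xc108 xc109) (XT.nd (nat_lit 46800) (nat_lit 0) (nat_lit 76) xc110 xc111))))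 (XT.nd (nat_lit 469482) (nat_lit 0) (nat_lit 0) (XT.nd (nat_lit 189696) (nat_lit 0) (nat_lit 0) (XT.nd (nat_lit 94692) (nat_lit 0) (nat_lit 0) (XT.nd (nat_lit 47346) (nat_lit 0) (nat_lit 0) xc112 xc113) (XT.nd (nat_lit 47424) (nat_lit 0) (nat_lit 0) xc114 xc115)) (XT.nd (nat_lit 139698) (nat_lit 0) (nat_lit 76) (XT.nd (nat_lit 91884) (nat_lit 0) (nat_lit 76) xc116 xc117) (XT.nd (nat_lit 47736) (nat_lit 0) (nat_lit 0) xc118 xc119))) (XT.nd (nat_lit 282048) (nat_lit 0) (nat_lit 76) (XT.nd (nat_lit 140634) (nat_lit 0) (nat_lit 0) (XT.nd (nat_lit 47892) (nat_lit 76) (nat_lit 0) xc120 xc121) (XT.nd (nat_lit 47970) (nat_lit 0) (nat_lit 0) xc122 xc123)) (XT.nd (nat_lit 281736) (nat_lit 0) (nat_lit 0) (XT.nd (nat_lit 95160) (nat_lit 0) (nat_lit 228) xc124 xc125) (XT.nd (nat_lit 189384) (nat_lit 0) (nat_lit 152) xc126 xc127))))))) XT.nil))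

set_option maxRecDepth 10000000 in
noncomputable def Te : XT := XT.nil

set_option maxRecDepth 10000000 in
noncomputable def Tz : ZL := (ZL.cons (nat_lit 76) (nat_lit 3) (nat_lit 150381837580488096491) (ZL.cons (nat_lit 152) (nat_lit 6) (nat_lit 281633796431505641996) (ZL.cons (nat_lit 228) (nat_lit 6) (nat_lit 265093942790155081756) (ZL.cons (nat_lit 304) (nat_lit 3) (nat_lit 131277318628207640089) (ZL.cons (nat_lit 380) (nat_lit 6) (nat_lit 246073111102601937482) (ZL.cons (nat_lit 456) (nat_lit 6) (nat_lit 231866753327925787634) (ZL.cons (nat_lit 532) (nat_lit 3) (nat_lit 114829330779728197479) (ZL.cons (nat_lit 608) (nat_lit 6) (nat_lit 215529441887048215310) (ZL.cons (nat_lit 684) (nat_lit 6) (nat_lit 203409010830917238504) (ZL.cons (nat_lit 760) (nat_lit 3) (nat_lit 100744465516124100696) (ZL.cons (nat_lit 836) (nat_lit 6) (nat_lit 189470515116366615174) (ZL.cons (nat_lit 912) (nat_lit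 6) (nat_lit 179239051219310121276) (ZL.cons (nat_lit 988) (nat_lit 3) (nat_lit 88784708305885914068) (ZL.cons (nat_lit 1064) (nat_lit 6) (nat_lit 167472867737695153290) (ZL.cons (nat_lit 1140) (nat_lit 6) (nat_lit 158983327320513351348) (ZL.cons (nat_lit 1216) (nat_lit 3) (nat_lit 78765735570022635179) (ZL.cons (nat_lit 1292) (nat_lit 6) (nat_lit 149220355840754279116) (ZL.cons (nat_lit 1368) (nat_lit 6) (nat_lit 142376913062227355818) (ZL.cons (nat_lit 1444) (nat_lit 3) (nat_lit 70557214713518860088) (ZL.cons (nat_lit 1520) (nat_lit 6) (nat_lit 136867249358797669366) (ZL.cons (nat_lit 1596) (nat_lit 6) (nat_lit 134506953866921394030) (ZL.cons (nat_lit 1672) (nat_lit 6) (nat_lit 129268652464663894298) (ZL.cons (nat_lit 1748) (nat_lit 3) (nat_lit 64085420303988627302) (ZL.cons (nat_lit 1824) (nat_lit 6) (nat_lit 125297036714568878594) (ZL.cons (nat_lit 1900) (nat_lit 6) (nat_lit 123244605852067769606)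 (ZL.cons (nat_lit 1976) (nat_lit 3) (nat_lit 60160248104228468906) (ZL.cons (nat_lit 2052) (nat_lit 6) (nat_lit 120866302723336155254) (ZL.cons (nat_lit 2128) (nat_lit 6) (nat_lit 122514401091091009652) (ZL.cons (nat_lit 2204) (nat_lit 6) (nat_lit 119631866745272970840) (ZL.cons (nat_lit 2280) (nat_lit 3) (nat_lit 59338623869729250773) (ZL.cons (nat_lit 2356) (nat_lit 6) (nat_lit 116088455254600033884) (ZL.cons (nat_lit 2432) (nat_lit 6) (nat_lit 117261939261590351380) (ZL.cons (nat_lit 2508) (nat_lit 6) (nat_lit 115477216772458952262) (ZL.cons (nat_lit 2584) (nat_lit 3) (nat_lit 56477113078714884825) (ZL.cons (nat_lit 2660) (nat_lit 6) (nat_lit 113581903649540869704) (ZL.cons (nat_lit 2736) (nat_lit 3) (nat_lit 56375900083111969940) (ZL.cons (nat_lit 2812) (nat_lit 6) (nat_lit 111402293558185074764) (ZL.cons (nat_lit 2888) (nat_lit 1) (nat_lit 18446744073709551617) ZL.nil))))))))))))))))))))))))))))))))))))))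

noncomputable def vl : XL := ⟨(nat_lit 0), (nat_lit 76), (nat_lit 47291229), (nat_lit 152), (nat_lit 185735449), (nat_lit 152), (nat_lit 185735449), (nat_lit 1), (nat_lit 4), (nat_lit 2), (nat_lit 5), (nat_lit 2), (nat_lit 4), (nat_lit 0), (nat_lit 0), (nat_lit 0)⟩

noncomputable def cp0 : Nat := (nat_lit 582940154620362170145352637594862562823047334668102562529922777088)

noncomputable def cp1 : Nat := (nat_lit 1204404766739544220473040782095551232195261290809670493036018120741445075702457434517727892543437246315974525002623200077386300897874307019002771750524678779858265517824944136911001428683320347511256302521069425141193864650510530259087279117618417964234309744547495351011952255935470951909266764844067277696873090000852393810685485189604131943982100332575110527631991966644253050704877889976549972990438742389568685664672526706284104602577113335801623714853370750181651698398210130982948493145510306040662983530527195903021812887090951246647077718921504887126763008722852200791125978231653318637838744600127387628960618331516571773275032845785433152230842528415787377647357032680137491412311835830675775058205583067174160305012752656729010226802751197535119115486722018083064830805861634541542366427978003463230723544058759442182665850308135753822843088234359196226571740476000896322371584)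

noncomputable def rc0 : Nat := (nat_lit 1204404766739544220473040782095551232195261290809670493036018120741445075702457434517727892543437246315974525002623200077386300897874307019002771750524678779858265517824944136911001428683320347511256302521069425141193864650510530259087279117618417964234309744547495351011952255935470951909266764844067277696873090000852393810685485189604131943982100332575110527631991966644253050704877889976549972990438742389568685664672526706284104602577113335801623714853370750181651698398210130982948493145510306040662983530527195903021812887090951246647077718921504887126763008722852200791125978231653318637838744600127387628960618331516571773275032845785433152230842528415787377647357032680137491412311835830675775058205583067174160305012752656729010226802751197535119115486722018083064830805861634541542366427978003463230723544058759442182665850308135753822843088234359196226571740476000896322371584)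

end Vale.Agent.Lib.P154.PChain.BG.S0
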