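import Vale.Agent.Lib.P154.PChain.BG.R0_0

set_option linter.all false

namespace Vale.Agent.Lib.P154.PChain.BG.S1

open Vale.Agent.Lib.P154.Chain

noncomputable def pc0 : PT := (PT.nd (nat_lit 6574932) (PT.nd (nat_lit 6340776) (PT.nd (nat_lit 6200376) (PT.nd (nat_lit 6153498) (PT.nd (nat_lit 6153420) (PT.nd (nat_lit 6106620) PT.nil (PT.lf (nat_lit 76) (nat_lit 3) (nat_lit 1) (nat_lit 1) (nat_lit 160) (nat_lit 130) (nat_lit 160))) (PT.lf (nat_lit 152) (nat_lit 6) (nat_lit 2) (nat_lit 3) (nat_lit 159) (nat_lit 131) (nat_lit 160))) (PT.nd (nat_lit 46722) (PT.lf (nat_lit 152) (nat_lit 6) (nat_lit 2) (nat_lit 1) (nat_lit 160) (nat_lit 131) (nat_lit 159)) (PT.nd (nat_lit 78) (PT.lf (nat_lit 228) (nat_lit 6) (nat_lit 3) (nat_lit 3) (nat_lit 158) (nat_lit 132) (nat_lit 160)) (PT.lf (nat_lit 304) (nat_lit 3) (nat_lit 4) (nat_lit 1) (nat_lit 159) (nat_lit 132) (nat_lit 159))))) (PT.nd (nat_lit 93522)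 (PT.nd (nat_lit 46722) (PT.lf (nat_lit 228) (nat_lit 6) (nat_lit 3) (nat_lit 1) (nat_lit 160) (nat_lit 132) (nat_lit 158)) (PT.nd (nat_lit 78) (PT.lf (nat_lit 380) (nat_lit 6) (nat_lit 5) (nat_lit 3) (nat_lit 158) (nat_lit 133) (nat_lit 159)) (PT.lf (nat_lit 380) (nat_lit 6) (nat_lit 5) (nat_lit 1) (nat_lit 159) (nat_lit 133) (nat_lit 158)))) (PT.nd (nat_lit 78) (PT.lf (nat_lit 456) (nat_lit 6) (nat_lit 6) (nat_lit 3) (nat_lit 157) (nat_lit 134) (nat_lit 159)) (PT.nd (nat_lit 78) (PT.lf (nat_lit 532) (nat_lit 3) (nat_lit 7) (nat_lit 1) (nat_lit 158) (nat_lit 134) (nat_lit 158)) (PT.lf (nat_lit 456) (nat_lit 6) (nat_lit 6) (nat_lit 1) (nat_lit 159) (nat_lit 134) (nat_lit 157)))))) (PT.nd (nat_lit 93756) (PT.nd (nat_lit 46878) (PT.nd (nat_lit 78) (PT.lf (nat_lit 608) (nat_lit 6) (nat_lit 8) (nat_lit 3) (nat_lit 157) (nat_lit 135) (nat_lit 158)) (PT.nd (nat_lit 46722) (PT.lf (nat_lit 608)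 (nat_lit 6) (nat_lit 8) (nat_lit 1) (nat_lit 158) (nat_lit 135) (nat_lit 157)) (PT.lf (nat_lit 684) (nat_lit 6) (nat_lit 9) (nat_lit 3) (nat_lit 156) (nat_lit 136) (nat_lit 158)))) (PT.nd (nat_lit 78) (PT.lf (nat_lit 760) (nat_lit 3) (nat_lit 10) (nat_lit 1) (nat_lit 157) (nat_lit 136) (nat_lit 157)) (PT.nd (nat_lit 46722) (PT.lf (nat_lit 684) (nat_lit 6) (nat_lit 9) (nat_lit 1) (nat_lit 158) (nat_lit 136) (nat_lit 156)) (PT.lf (nat_lit 836) (nat_lit 6) (nat_lit 11) (nat_lit 3) (nat_lit 156) (nat_lit 137) (nat_lit 157))))) (PT.nd (nat_lit 46878) (PT.nd (nat_lit 46722) (PT.lf (nat_lit 836) (nat_lit 6) (nat_lit 11) (nat_lit 1) (nat_lit 157) (nat_lit 137) (nat_lit 156)) (PT.nd (nat_lit 78) (PT.lf (nat_lit 912) (nat_lit 6) (nat_lit 12) (nat_lit 3) (nat_lit 155) (nat_lit 138) (nat_lit 157)) (PT.lf (nat_lit 988) (nat_lit 3) (nat_lit 13) (nat_lit 1) (nat_lit 156) (nat_lit 138) (nat_lit 156))))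 (PT.nd (nat_lit 46722) (PT.lf (nat_lit 912) (nat_lit 6) (nat_lit 12) (nat_lit 1) (nat_lit 157) (nat_lit 138) (nat_lit 155)) (PT.nd (nat_lit 78) (PT.lf (nat_lit 1064) (nat_lit 6) (nat_lit 14) (nat_lit 3) (nat_lit 155) (nat_lit 139) (nat_lit 156)) (PT.lf (nat_lit 1064) (nat_lit 6) (nat_lit 14) (nat_lit 1) (nat_lit 156) (nat_lit 139) (nat_lit 155))))))) (PT.nd (nat_lit 140712) (PT.nd (nat_lit 93678) (PT.nd (nat_lit 156) (PT.nd (nat_lit 78) (PT.lf (nat_lit 1140) (nat_lit 6) (nat_lit 15) (nat_lit 3) (nat_lit 154) (nat_lit 140) (nat_lit 156)) (PT.lf (nat_lit 1216) (nat_lit 3) (nat_lit 16) (nat_lit 1) (nat_lit 155) (nat_lit 140) (nat_lit 155))) (PT.nd (nat_lit 46722) (PT.lf (nat_lit 1140) (nat_lit 6) (nat_lit 15) (nat_lit 1) (nat_lit 156) (nat_lit 140) (nat_lit 154)) (PT.nd (nat_lit 78) (PT.lf (nat_lit 1292) (nat_lit 6) (nat_lit 17) (nat_lit 3) (nat_lit 154) (nat_lit 141) (nat_lit 155)) (PT.lf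 (nat_lit 1292) (nat_lit 6) (nat_lit 17) (nat_lit 1) (nat_lit 155) (nat_lit 141) (nat_lit 154))))) (PT.nd (nat_lit 46800) (PT.nd (nat_lit 78) (PT.lf (nat_lit 1368) (nat_lit 6) (nat_lit 18) (nat_lit 3) (nat_lit 153) (nat_lit 142) (nat_lit 155)) (PT.nd (nat_lit 78) (PT.lf (nat_lit 1444) (nat_lit 3) (nat_lit 19) (nat_lit 1) (nat_lit 154) (nat_lit 142) (nat_lit 154)) (PT.lf (nat_lit 1368) (nat_lit 6) (nat_lit 18) (nat_lit 1) (nat_lit 155) (nat_lit 142) (nat_lit 153)))) (PT.nd (nat_lit 78) (PT.lf (nat_lit 1520) (nat_lit 6) (nat_lit 20) (nat_lit 3) (nat_lit 152) (nat_lit 143) (nat_lit 155)) (PT.nd (nat_lit 78) (PT.lf (nat_lit 1596) (nat_lit 6) (nat_lit 21) (nat_lit 3) (nat_lit 153) (nat_lit 143) (nat_lit 154)) (PT.lf (nat_lit 1596) (nat_lit 6) (nat_lit 21) (nat_lit 1) (nat_lit 154) (nat_lit 143) (nat_lit 153)))))) (PT.nd (nat_lit 93600) (PT.nd (nat_lit 46800) (PT.nd (nat_lit 46644) (PT.lf (nat_lit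 1520) (nat_lit 6) (nat_lit 20) (nat_lit 1) (nat_lit 155) (nat_lit 143) (nat_lit 152)) (PT.nd (nat_lit 78) (PT.lf (nat_lit 1672) (nat_lit 6) (nat_lit 22) (nat_lit 3) (nat_lit 152) (nat_lit 144) (nat_lit 154)) (PT.lf (nat_lit 1748) (nat_lit 3) (nat_lit 23) (nat_lit 1) (nat_lit 153) (nat_lit 144) (nat_lit 153)))) (PT.nd (nat_lit 46644) (PT.lf (nat_lit 1672) (nat_lit 6) (nat_lit 22) (nat_lit 1) (nat_lit 154) (nat_lit 144) (nat_lit 152)) (PT.nd (nat_lit 78) (PT.lf (nat_lit 1824) (nat_lit 6) (nat_lit 24) (nat_lit 3) (nat_lit 151) (nat_lit 145) (nat_lit 154)) (PT.lf (nat_lit 1900) (nat_lit 6) (nat_lit 25) (nat_lit 3) (nat_lit 152) (nat_lit 145) (nat_lit 153))))) (PT.nd (nat_lit 46722) (PT.nd (nat_lit 78) (PT.lf (nat_lit 1900) (nat_lit 6) (nat_lit 25) (nat_lit 1) (nat_lit 153) (nat_lit 145) (nat_lit 152)) (PT.nd (nat_lit 46566) (PT.lf (nat_lit 1824) (nat_lit 6) (nat_lit 24) (nat_lit 1) (nat_lit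 154) (nat_lit 145) (nat_lit 151)) (PT.lf (nat_lit 2128) (nat_lit 6) (nat_lit 28) (nat_lit 3) (nat_lit 150) (nat_lit 146) (nat_lit 154)))) (PT.nd (nat_lit 78) (PT.lf (nat_lit 2204) (nat_lit 6) (nat_lit 29) (nat_lit 3) (nat_lit 151) (nat_lit 146) (nat_lit 153)) (PT.nd (nat_lit 78) (PT.lf (nat_lit 2280) (nat_lit 3) (nat_lit 30) (nat_lit 1) (nat_lit 152) (nat_lit 146) (nat_lit 152)) (PT.lf (nat_lit 2204) (nat_lit 6) (nat_lit 29) (nat_lit 1) (nat_lit 153) (nat_lit 146) (nat_lit 151))))))))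
noncomputable def pc1 : PT := (PT.nd (nat_lit 186966) (PT.nd (nat_lit 93600) (PT.nd (nat_lit 46800) (PT.nd (nat_lit 46566) (PT.nd (nat_lit 46488) (PT.lf (nat_lit 2128) (nat_lit 6) (nat_lit 28) (nat_lit 1) (nat_lit 154) (nat_lit 146) (nat_lit 150)) (PT.lf (nat_lit 2052) (nat_lit 6) (nat_lit 27) (nat_lit 3) (nat_lit 149) (nat_lit 147) (nat_lit 154))) (PT.nd (nat_lit 78) (PT.lf (nat_lit 2432) (nat_lit 6) (nat_lit 32) (nat_lit 3) (nat_lit 150) (nat_lit 147) (nat_lit 153)) (PT.nd (nat_lit 78) (PT.lf (nat_lit 2508) (nat_lit 6) (nat_lit 33) (nat_lit 3) (nat_lit 151) (nat_lit 147) (nat_lit 152)) (PT.lf (nat_lit 2508) (nat_lit 6) (nat_lit 33) (nat_lit 1) (nat_lit 152) (nat_lit 147) (nat_lit 151))))) (PT.nd (nat_lit 46566) (PT.nd (nat_lit 78) (PT.lf (nat_lit 2432) (nat_lit 6) (nat_lit 32) (nat_lit 1) (nat_lit 153) (nat_lit 147) (nat_lit 150)) (PT.nd (nat_lit 46410) (PT.lf (nat_lit 2052) (nat_lit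 6) (nat_lit 27) (nat_lit 1) (nat_lit 154) (nat_lit 147) (nat_lit 149)) (PT.lf (nat_lit 1976) (nat_lit 3) (nat_lit 26) (nat_lit 3) (nat_lit 148) (nat_lit 148) (nat_lit 154)))) (PT.nd (nat_lit 78) (PT.lf (nat_lit 2356) (nat_lit 6) (nat_lit 31) (nat_lit 3) (nat_lit 149) (nat_lit 148) (nat_lit 153)) (PT.nd (nat_lit 78) (PT.lf (nat_lit 2660) (nat_lit 6) (nat_lit 35) (nat_lit 3) (nat_lit 150) (nat_lit 148) (nat_lit 152)) (PT.lf (nat_lit 2736) (nat_lit 3) (nat_lit 36) (nat_lit 1) (nat_lit 151) (nat_lit 148) (nat_lit 151)))))) (PT.nd (nat_lit 46722) (PT.nd (nat_lit 46488) (PT.nd (nat_lit 78) (PT.lf (nat_lit 2660) (nat_lit 6) (nat_lit 35) (nat_lit 1) (nat_lit 152) (nat_lit 148) (nat_lit 150)) (PT.nd (nat_lit 78) (PT.lf (nat_lit 2356) (nat_lit 6) (nat_lit 31) (nat_lit 1) (nat_lit 153) (nat_lit 148) (nat_lit 149)) (PT.lf (nat_lit 1976) (nat_lit 3) (nat_lit 26) (nat_lit 0) (nat_lit 154) (nat_lit 148)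 (nat_lit 148)))) (PT.nd (nat_lit 78) (PT.lf (nat_lit 2052) (nat_lit 6) (nat_lit 27) (nat_lit 5) (nat_lit 147) (nat_lit 149) (nat_lit 154)) (PT.nd (nat_lit 78) (PT.lf (nat_lit 2356) (nat_lit 6) (nat_lit 31) (nat_lit 5) (nat_lit 148) (nat_lit 149) (nat_lit 153)) (PT.lf (nat_lit 2584) (nat_lit 3) (nat_lit 34) (nat_lit 3) (nat_lit 149) (nat_lit 149) (nat_lit 152))))) (PT.nd (nat_lit 234) (PT.nd (nat_lit 78) (PT.lf (nat_lit 2812) (nat_lit 6) (nat_lit 37) (nat_lit 3) (nat_lit 150) (nat_lit 149) (nat_lit 151)) (PT.nd (nat_lit 78) (PT.lf (nat_lit 2812) (nat_lit 6) (nat_lit 37) (nat_lit 1) (nat_lit 151) (nat_lit 149) (nat_lit 150)) (PT.lf (nat_lit 2584) (nat_lit 3) (nat_lit 34) (nat_lit 0) (nat_lit 152) (nat_lit 149) (nat_lit 149)))) (PT.nd (nat_lit 78) (PT.lf (nat_lit 2356) (nat_lit 6) (nat_lit 31) (nat_lit 0) (nat_lit 153) (nat_lit 149) (nat_lit 148)) (PT.nd (nat_lit 46254) (PT.lf (nat_lit 2052)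 (nat_lit 6) (nat_lit 27) (nat_lit 0) (nat_lit 154) (nat_lit 149) (nat_lit 147)) (PT.lf (nat_lit 2128) (nat_lit 6) (nat_lit 28) (nat_lit 5) (nat_lit 146) (nat_lit 150) (nat_lit 154))))))) (PT.nd (nat_lit 47034) (PT.nd (nat_lit 468) (PT.nd (nat_lit 234) (PT.nd (nat_lit 78) (PT.lf (nat_lit 2432) (nat_lit 6) (nat_lit 32) (nat_lit 5) (nat_lit 147) (nat_lit 150) (nat_lit 153)) (PT.nd (nat_lit 78) (PT.lf (nat_lit 2660) (nat_lit 6) (nat_lit 35) (nat_lit 5) (nat_lit 148) (nat_lit 150) (nat_lit 152)) (PT.lf (nat_lit 2812) (nat_lit 6) (nat_lit 37) (nat_lit 5) (nat_lit 149) (nat_lit 150) (nat_lit 151)))) (PT.nd (nat_lit 78) (PT.lf (nat_lit 2888) (nat_lit 1) (nat_lit 38) (nat_lit 0) (nat_lit 150) (nat_lit 150) (nat_lit 150)) (PT.nd (nat_lit 78) (PT.lf (nat_lit 2812) (nat_lit 6) (nat_lit 37) (nat_lit 0) (nat_lit 151) (nat_lit 150) (nat_lit 149)) (PT.lf (nat_lit 2660) (nat_lit 6) (nat_lit 35) (nat_lit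 0) (nat_lit 152) (nat_lit 150) (nat_lit 148))))) (PT.nd (nat_lit 46332) (PT.nd (nat_lit 78) (PT.lf (nat_lit 2432) (nat_lit 6) (nat_lit 32) (nat_lit 0) (nat_lit 153) (nat_lit 150) (nat_lit 147)) (PT.nd (nat_lit 46176) (PT.lf (nat_lit 2128) (nat_lit 6) (nat_lit 28) (nat_lit 0) (nat_lit 154) (nat_lit 150) (nat_lit 146)) (PT.lf (nat_lit 1824) (nat_lit 6) (nat_lit 24) (nat_lit 5) (nat_lit 145) (nat_lit 151) (nat_lit 154)))) (PT.nd (nat_lit 78) (PT.lf (nat_lit 2204) (nat_lit 6) (nat_lit 29) (nat_lit 5) (nat_lit 146) (nat_lit 151) (nat_lit 153)) (PT.nd (nat_lit 78) (PT.lf (nat_lit 2508) (nat_lit 6) (nat_lit 33) (nat_lit 5) (nat_lit 147) (nat_lit 151) (nat_lit 152)) (PT.lf (nat_lit 2736) (nat_lit 3) (nat_lit 36) (nat_lit 4) (nat_lit 148) (nat_lit 151) (nat_lit 151)))))) (PT.nd (nat_lit 46410) (PT.nd (nat_lit 234) (PT.nd (nat_lit 78) (PT.lf (nat_lit 2812) (nat_lit 6) (nat_lit 37) (nat_lit 4) (nat_lit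 149) (nat_lit 151) (nat_lit 150)) (PT.nd (nat_lit 78) (PT.lf (nat_lit 2812) (nat_lit 6) (nat_lit 37) (nat_lit 2) (nat_lit 150) (nat_lit 151) (nat_lit 149)) (PT.lf (nat_lit 2736) (nat_lit 3) (nat_lit 36) (nat_lit 0) (nat_lit 151) (nat_lit 151) (nat_lit 148)))) (PT.nd (nat_lit 78) (PT.lf (nat_lit 2508) (nat_lit 6) (nat_lit 33) (nat_lit 0) (nat_lit 152) (nat_lit 151) (nat_lit 147)) (PT.nd (nat_lit 78) (PT.lf (nat_lit 2204) (nat_lit 6) (nat_lit 29) (nat_lit 0) (nat_lit 153) (nat_lit 151) (nat_lit 146)) (PT.lf (nat_lit 1824) (nat_lit 6) (nat_lit 24) (nat_lit 0) (nat_lit 154) (nat_lit 151) (nat_lit 145))))) (PT.nd (nat_lit 234) (PT.nd (nat_lit 78) (PT.lf (nat_lit 1520) (nat_lit 6) (nat_lit 20) (nat_lit 5) (nat_lit 143) (nat_lit 152) (nat_lit 155)) (PT.nd (nat_lit 78) (PT.lf (nat_lit 1672) (nat_lit 6) (nat_lit 22) (nat_lit 5) (nat_lit 144) (nat_lit 152) (nat_lit 154)) (PT.lf (nat_lit 1900) (nat_lit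 6) (nat_lit 25) (nat_lit 5) (nat_lit 145) (nat_lit 152) (nat_lit 153)))) (PT.nd (nat_lit 78) (PT.lf (nat_lit 2280) (nat_lit 3) (nat_lit 30) (nat_lit 4) (nat_lit 146) (nat_lit 152) (nat_lit 152)) (PT.nd (nat_lit 78) (PT.lf (nat_lit 2508) (nat_lit 6) (nat_lit 33) (nat_lit 4) (nat_lit 147) (nat_lit 152) (nat_lit 151)) (PT.lf (nat_lit 2660) (nat_lit 6) (nat_lit 35) (nat_lit 4) (nat_lit 148) (nat_lit 152) (nat_lit 150))))))))
noncomputable def pc2 : PT := (PT.nd (nat_lit 93210) (PT.nd (nat_lit 46644) (PT.nd (nat_lit 390) (PT.nd (nat_lit 156) (PT.nd (nat_lit 78) (PT.lf (nat_lit 2584) (nat_lit 3) (nat_lit 34) (nat_lit 2) (nat_lit 149) (nat_lit 152) (nat_lit 149)) (PT.lf (nat_lit 2660) (nat_lit 6) (nat_lit 35) (nat_lit 2) (nat_lit 150) (nat_lit 152) (nat_lit 148))) (PT.nd (nat_lit 78) (PT.lf (nat_lit 2508) (nat_lit 6) (nat_lit 33) (nat_lit 2) (nat_lit 151) (nat_lit 152) (nat_lit 147)) (PT.nd (nat_lit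 78) (PT.lf (nat_lit 2280) (nat_lit 3) (nat_lit 30) (nat_lit 0) (nat_lit 152) (nat_lit 152) (nat_lit 146)) (PT.lf (nat_lit 1900) (nat_lit 6) (nat_lit 25) (nat_lit 0) (nat_lit 153) (nat_lit 152) (nat_lit 145))))) (PT.nd (nat_lit 46020) (PT.nd (nat_lit 78) (PT.lf (nat_lit 1672) (nat_lit 6) (nat_lit 22) (nat_lit 0) (nat_lit 154) (nat_lit 152) (nat_lit 144)) (PT.nd (nat_lit 45864) (PT.lf (nat_lit 1520) (nat_lit 6) (nat_lit 20) (nat_lit 0) (nat_lit 155) (nat_lit 152) (nat_lit 143)) (PT.lf (nat_lit 1368) (nat_lit 6) (nat_lit 18) (nat_lit 5) (nat_lit 142) (nat_lit 153) (nat_lit 155)))) (PT.nd (nat_lit 78) (PT.lf (nat_lit 1596) (nat_lit 6) (nat_lit 21) (nat_lit 5) (nat_lit 143) (nat_lit 153) (nat_lit 154)) (PT.nd (nat_lit 78) (PT.lf (nat_lit 1748) (nat_lit 3) (nat_lit 23) (nat_lit 4) (nat_lit 144) (nat_lit 153) (nat_lit 153)) (PT.lf (nat_lit 1900) (nat_lit 6) (nat_lit 25) (nat_lit 4) (nat_lit 145)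 (nat_lit 153) (nat_lit 152)))))) (PT.nd (nat_lit 468) (PT.nd (nat_lit 234) (PT.nd (nat_lit 78) (PT.lf (nat_lit 2204) (nat_lit 6) (nat_lit 29) (nat_lit 4) (nat_lit 146) (nat_lit 153) (nat_lit 151)) (PT.nd (nat_lit 78) (PT.lf (nat_lit 2432) (nat_lit 6) (nat_lit 32) (nat_lit 4) (nat_lit 147) (nat_lit 153) (nat_lit 150)) (PT.lf (nat_lit 2356) (nat_lit 6) (nat_lit 31) (nat_lit 4) (nat_lit 148) (nat_lit 153) (nat_lit 149)))) (PT.nd (nat_lit 78) (PT.lf (nat_lit 2356) (nat_lit 6) (nat_lit 31) (nat_lit 2) (nat_lit 149) (nat_lit 153) (nat_lit 148)) (PT.nd (nat_lit 78) (PT.lf (nat_lit 2432) (nat_lit 6) (nat_lit 32) (nat_lit 2) (nat_lit 150) (nat_lit 153) (nat_lit 147)) (PT.lf (nat_lit 2204) (nat_lit 6) (nat_lit 29) (nat_lit 2) (nat_lit 151) (nat_lit 153) (nat_lit 146))))) (PT.nd (nat_lit 234) (PT.nd (nat_lit 78) (PT.lf (nat_lit 1900) (nat_lit 6) (nat_lit 25) (nat_lit 2) (nat_lit 152) (nat_lit 153)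 (nat_lit 145)) (PT.nd (nat_lit 78) (PT.lf (nat_lit 1748) (nat_lit 3) (nat_lit 23) (nat_lit 0) (nat_lit 153) (nat_lit 153) (nat_lit 144)) (PT.lf (nat_lit 1596) (nat_lit 6) (nat_lit 21) (nat_lit 0) (nat_lit 154) (nat_lit 153) (nat_lit 143)))) (PT.nd (nat_lit 45708) (PT.lf (nat_lit 1368) (nat_lit 6) (nat_lit 18) (nat_lit 0) (nat_lit 155) (nat_lit 153) (nat_lit 142)) (PT.nd (nat_lit 78) (PT.lf (nat_lit 1140) (nat_lit 6) (nat_lit 15) (nat_lit 5) (nat_lit 140) (nat_lit 154) (nat_lit 156)) (PT.lf (nat_lit 1292) (nat_lit 6) (nat_lit 17) (nat_lit 5) (nat_lit 141) (nat_lit 154) (nat_lit 155))))))) (PT.nd (nat_lit 936) (PT.nd (nat_lit 468) (PT.nd (nat_lit 234) (PT.nd (nat_lit 78) (PT.lf (nat_lit 1444) (nat_lit 3) (nat_lit 19) (nat_lit 4) (nat_lit 142) (nat_lit 154) (nat_lit 154)) (PT.nd (nat_lit 78) (PT.lf (nat_lit 1596) (nat_lit 6) (nat_lit 21) (nat_lit 4) (nat_lit 143) (nat_lit 154) (nat_lit 153))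 (PT.lf (nat_lit 1672) (nat_lit 6) (nat_lit 22) (nat_lit 4) (nat_lit 144) (nat_lit 154) (nat_lit 152)))) (PT.nd (nat_lit 78) (PT.lf (nat_lit 1824) (nat_lit 6) (nat_lit 24) (nat_lit 4) (nat_lit 145) (nat_lit 154) (nat_lit 151)) (PT.nd (nat_lit 78) (PT.lf (nat_lit 2128) (nat_lit 6) (nat_lit 28) (nat_lit 4) (nat_lit 146) (nat_lit 154) (nat_lit 150)) (PT.lf (nat_lit 2052) (nat_lit 6) (nat_lit 27) (nat_lit 4) (nat_lit 147) (nat_lit 154) (nat_lit 149))))) (PT.nd (nat_lit 234) (PT.nd (nat_lit 78) (PT.lf (nat_lit 1976) (nat_lit 3) (nat_lit 26) (nat_lit 2) (nat_lit 148) (nat_lit 154) (nat_lit 148)) (PT.nd (nat_lit 78) (PT.lf (nat_lit 2052) (nat_lit 6) (nat_lit 27) (nat_lit 2) (nat_lit 149) (nat_lit 154) (nat_lit 147)) (PT.lf (nat_lit 2128) (nat_lit 6) (nat_lit 28) (nat_lit 2) (nat_lit 150) (nat_lit 154) (nat_lit 146)))) (PT.nd (nat_lit 78) (PT.lf (nat_lit 1824) (nat_lit 6) (nat_lit 24) (nat_lit 2)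 (nat_lit 151) (nat_lit 154) (nat_lit 145)) (PT.nd (nat_lit 78) (PT.lf (nat_lit 1672) (nat_lit 6) (nat_lit 22) (nat_lit 2) (nat_lit 152) (nat_lit 154) (nat_lit 144)) (PT.lf (nat_lit 1596) (nat_lit 6) (nat_lit 21) (nat_lit 2) (nat_lit 153) (nat_lit 154) (nat_lit 143)))))) (PT.nd (nat_lit 45864) (PT.nd (nat_lit 45630) (PT.nd (nat_lit 78) (PT.lf (nat_lit 1444) (nat_lit 3) (nat_lit 19) (nat_lit 0) (nat_lit 154) (nat_lit 154) (nat_lit 142)) (PT.nd (nat_lit 78) (PT.lf (nat_lit 1292) (nat_lit 6) (nat_lit 17) (nat_lit 0) (nat_lit 155) (nat_lit 154) (nat_lit 141)) (PT.lf (nat_lit 1140) (nat_lit 6) (nat_lit 15) (nat_lit 0) (nat_lit 156) (nat_lit 154) (nat_lit 140)))) (PT.nd (nat_lit 78) (PT.lf (nat_lit 912) (nat_lit 6) (nat_lit 12) (nat_lit 5) (nat_lit 138) (nat_lit 155) (nat_lit 157)) (PT.nd (nat_lit 78) (PT.lf (nat_lit 1064) (nat_lit 6) (nat_lit 14) (nat_lit 5) (nat_lit 139) (nat_lit 155) (nat_lit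 156)) (PT.lf (nat_lit 1216) (nat_lit 3) (nat_lit 16) (nat_lit 4) (nat_lit 140) (nat_lit 155) (nat_lit 155))))) (PT.nd (nat_lit 858) (PT.nd (nat_lit 78) (PT.lf (nat_lit 1292) (nat_lit 6) (nat_lit 17) (nat_lit 4) (nat_lit 141) (nat_lit 155) (nat_lit 154)) (PT.nd (nat_lit 78) (PT.lf (nat_lit 1368) (nat_lit 6) (nat_lit 18) (nat_lit 4) (nat_lit 142) (nat_lit 155) (nat_lit 153)) (PT.lf (nat_lit 1520) (nat_lit 6) (nat_lit 20) (nat_lit 4) (nat_lit 143) (nat_lit 155) (nat_lit 152)))) (PT.nd (nat_lit 78) (PT.lf (nat_lit 1520) (nat_lit 6) (nat_lit 20) (nat_lit 2) (nat_lit 152) (nat_lit 155) (nat_lit 143)) (PT.nd (nat_lit 78) (PT.lf (nat_lit 1368) (nat_lit 6) (nat_lit 18) (nat_lit 2) (nat_lit 153) (nat_lit 155) (nat_lit 142)) (PT.lf (nat_lit 1292) (nat_lit 6) (nat_lit 17) (nat_lit 2) (nat_lit 154) (nat_lit 155) (nat_lit 141))))))))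
noncomputable def pc3 : PT := (PT.nd (nat_lit 138840) (PT.nd (nat_lit 47034) (PT.nd (nat_lit 45552) (PT.nd (nat_lit 156) (PT.nd (nat_lit 78) (PT.lf (nat_lit 1216) (nat_lit 3) (nat_lit 16) (nat_lit 0) (nat_lit 155) (nat_lit 155) (nat_lit 140)) (PT.lf (nat_lit 1064) (nat_lit 6) (nat_lit 14) (nat_lit 0) (nat_lit 156) (nat_lit 155) (nat_lit 139))) (PT.nd (nat_lit 45240) (PT.lf (nat_lit 912) (nat_lit 6) (nat_lit 12) (nat_lit 0) (nat_lit 157) (nat_lit 155) (nat_lit 138)) (PT.nd (nat_lit 78) (PT.lf (nat_lit 684) (nat_lit 6) (nat_lit 9) (nat_lit 5) (nat_lit 136) (nat_lit 156) (nat_lit 158)) (PT.lf (nat_lit 836) (nat_lit 6) (nat_lit 11) (nat_lit 5) (nat_lit 137) (nat_lit 156) (nat_lit 157))))) (PT.nd (nat_lit 1248) (PT.nd (nat_lit 78) (PT.lf (nat_lit 988) (nat_lit 3) (nat_lit 13) (nat_lit 4) (nat_lit 138) (nat_lit 156) (nat_lit 156)) (PT.nd (nat_lit 78) (PT.lf (nat_lit 1064) (nat_lit 6) (nat_lit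 14) (nat_lit 4) (nat_lit 139) (nat_lit 156) (nat_lit 155)) (PT.lf (nat_lit 1140) (nat_lit 6) (nat_lit 15) (nat_lit 4) (nat_lit 140) (nat_lit 156) (nat_lit 154)))) (PT.nd (nat_lit 78) (PT.lf (nat_lit 1140) (nat_lit 6) (nat_lit 15) (nat_lit 2) (nat_lit 154) (nat_lit 156) (nat_lit 140)) (PT.nd (nat_lit 78) (PT.lf (nat_lit 1064) (nat_lit 6) (nat_lit 14) (nat_lit 2) (nat_lit 155) (nat_lit 156) (nat_lit 139)) (PT.lf (nat_lit 988) (nat_lit 3) (nat_lit 13) (nat_lit 0) (nat_lit 156) (nat_lit 156) (nat_lit 138)))))) (PT.nd (nat_lit 45396) (PT.nd (nat_lit 45162) (PT.nd (nat_lit 78) (PT.lf (nat_lit 836) (nat_lit 6) (nat_lit 11) (nat_lit 0) (nat_lit 157) (nat_lit 156) (nat_lit 137)) (PT.nd (nat_lit 45006) (PT.lf (nat_lit 684) (nat_lit 6) (nat_lit 9) (nat_lit 0) (nat_lit 158) (nat_lit 156) (nat_lit 136)) (PT.lf (nat_lit 456) (nat_lit 6) (nat_lit 6) (nat_lit 5) (nat_lit 134) (nat_lit 157) (nat_lit 159))))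 (PT.nd (nat_lit 78) (PT.lf (nat_lit 608) (nat_lit 6) (nat_lit 8) (nat_lit 5) (nat_lit 135) (nat_lit 157) (nat_lit 158)) (PT.nd (nat_lit 78) (PT.lf (nat_lit 760) (nat_lit 3) (nat_lit 10) (nat_lit 4) (nat_lit 136) (nat_lit 157) (nat_lit 157)) (PT.lf (nat_lit 836) (nat_lit 6) (nat_lit 11) (nat_lit 4) (nat_lit 137) (nat_lit 157) (nat_lit 156))))) (PT.nd (nat_lit 1482) (PT.nd (nat_lit 1326) (PT.lf (nat_lit 912) (nat_lit 6) (nat_lit 12) (nat_lit 4) (nat_lit 138) (nat_lit 157) (nat_lit 155)) (PT.nd (nat_lit 78) (PT.lf (nat_lit 912) (nat_lit 6) (nat_lit 12) (nat_lit 2) (nat_lit 155) (nat_lit 157) (nat_lit 138)) (PT.lf (nat_lit 836) (nat_lit 6) (nat_lit 11) (nat_lit 2) (nat_lit 156) (nat_lit 157) (nat_lit 137)))) (PT.nd (nat_lit 78) (PT.lf (nat_lit 760) (nat_lit 3) (nat_lit 10) (nat_lit 0) (nat_lit 157) (nat_lit 157) (nat_lit 136)) (PT.nd (nat_lit 78) (PT.lf (nat_lit 608) (nat_lit 6) (nat_lit 8)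 (nat_lit 0) (nat_lit 158) (nat_lit 157) (nat_lit 135)) (PT.lf (nat_lit 456) (nat_lit 6) (nat_lit 6) (nat_lit 0) (nat_lit 159) (nat_lit 157) (nat_lit 134))))))) (PT.nd (nat_lit 46956) (PT.nd (nat_lit 1950) (PT.nd (nat_lit 234) (PT.nd (nat_lit 78) (PT.lf (nat_lit 228) (nat_lit 6) (nat_lit 3) (nat_lit 5) (nat_lit 132) (nat_lit 158) (nat_lit 160)) (PT.nd (nat_lit 78) (PT.lf (nat_lit 380) (nat_lit 6) (nat_lit 5) (nat_lit 5) (nat_lit 133) (nat_lit 158) (nat_lit 159)) (PT.lf (nat_lit 532) (nat_lit 3) (nat_lit 7) (nat_lit 4) (nat_lit 134) (nat_lit 158) (nat_lit 158)))) (PT.nd (nat_lit 78) (PT.lf (nat_lit 608) (nat_lit 6) (nat_lit 8) (nat_lit 4) (nat_lit 135) (nat_lit 158) (nat_lit 157)) (PT.nd (nat_lit 1560) (PT.lf (nat_lit 684) (nat_lit 6) (nat_lit 9) (nat_lit 4) (nat_lit 136) (nat_lit 158) (nat_lit 156)) (PT.lf (nat_lit 684) (nat_lit 6) (nat_lit 9) (nat_lit 2) (nat_lit 156) (nat_lit 158) (nat_lit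 136))))) (PT.nd (nat_lit 234) (PT.nd (nat_lit 78) (PT.lf (nat_lit 608) (nat_lit 6) (nat_lit 8) (nat_lit 2) (nat_lit 157) (nat_lit 158) (nat_lit 135)) (PT.nd (nat_lit 78) (PT.lf (nat_lit 532) (nat_lit 3) (nat_lit 7) (nat_lit 0) (nat_lit 158) (nat_lit 158) (nat_lit 134)) (PT.lf (nat_lit 380) (nat_lit 6) (nat_lit 5) (nat_lit 0) (nat_lit 159) (nat_lit 158) (nat_lit 133)))) (PT.nd (nat_lit 44616) (PT.lf (nat_lit 228) (nat_lit 6) (nat_lit 3) (nat_lit 0) (nat_lit 160) (nat_lit 158) (nat_lit 132)) (PT.nd (nat_lit 78) (PT.lf (nat_lit 152) (nat_lit 6) (nat_lit 2) (nat_lit 5) (nat_lit 131) (nat_lit 159) (nat_lit 160)) (PT.lf (nat_lit 304) (nat_lit 3) (nat_lit 4) (nat_lit 4) (nat_lit 132) (nat_lit 159) (nat_lit 159)))))) (PT.nd (nat_lit 46644) (PT.nd (nat_lit 1950) (PT.nd (nat_lit 78) (PT.lf (nat_lit 380) (nat_lit 6) (nat_lit 5) (nat_lit 4) (nat_lit 133) (nat_lit 159) (nat_lit 158)) (PT.nd (nat_lit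 1794) (PT.lf (nat_lit 456) (nat_lit 6) (nat_lit 6) (nat_lit 4) (nat_lit 134) (nat_lit 159) (nat_lit 157)) (PT.lf (nat_lit 456) (nat_lit 6) (nat_lit 6) (nat_lit 2) (nat_lit 157) (nat_lit 159) (nat_lit 134)))) (PT.nd (nat_lit 78) (PT.lf (nat_lit 380) (nat_lit 6) (nat_lit 5) (nat_lit 2) (nat_lit 158) (nat_lit 159) (nat_lit 133)) (PT.nd (nat_lit 78) (PT.lf (nat_lit 304) (nat_lit 3) (nat_lit 4) (nat_lit 0) (nat_lit 159) (nat_lit 159) (nat_lit 132)) (PT.lf (nat_lit 152) (nat_lit 6) (nat_lit 2) (nat_lit 0) (nat_lit 160) (nat_lit 159) (nat_lit 131))))) (PT.nd (nat_lit 2184) (PT.nd (nat_lit 78) (PT.lf (nat_lit 76) (nat_lit 3) (nat_lit 1) (nat_lit 4) (nat_lit 130) (nat_lit 160) (nat_lit 160)) (PT.nd (nat_lit 78) (PT.lf (nat_lit 152) (nat_lit 6) (nat_lit 2) (nat_lit 4) (nat_lit 131) (nat_lit 160) (nat_lit 159)) (PT.lf (nat_lit 228) (nat_lit 6) (nat_lit 3) (nat_lit 4) (nat_lit 132) (nat_lit 160) (nat_lit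 158)))) (PT.nd (nat_lit 78) (PT.lf (nat_lit 228) (nat_lit 6) (nat_lit 3) (nat_lit 2) (nat_lit 158) (nat_lit 160) (nat_lit 132)) (PT.nd (nat_lit 78) (PT.lf (nat_lit 152) (nat_lit 6) (nat_lit 2) (nat_lit 2) (nat_lit 159) (nat_lit 160) (nat_lit 131)) (PT.lf (nat_lit 76) (nat_lit 3) (nat_lit 1) (nat_lit 0) (nat_lit 160) (nat_lit 160) (nat_lit 130))))))))
noncomputable def xc0 : XT := (XT.nd (nat_lit 187512) (nat_lit 0) (nat_lit 0) (XT.nd (nat_lit 140322) (nat_lit 0) (nat_lit 0) (XT.nd (nat_lit 93522) (nat_lit 0) (nat_lit 0) (XT.nd (nat_lit 46800) (nat_lit 0) (nat_lit 0) (XT.nd (nat_lit 78) (nat_lit 0) (nat_lit 0) (XT.lf (nat_lit 0) (nat_lit 3544601063497) (nat_lit 152) (nat_lit 2745483586734) (nat_lit 0) (nat_lit 3544601063497) (nat_lit 1) (nat_lit 5) (nat_lit 3) (nat_lit 4) (nat_lit 1) (nat_lit 4) (nat_lit 372) (nat_lit 264) (nat_lit 264)) (XT.nd (nat_lit 46644) (nat_lit 0) (nat_lit 0) (XT.lf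 (nat_lit 0) (nat_lit 8153119901762) (nat_lit 152) (nat_lit 6313502485917) (nat_lit 0) (nat_lit 8153110883740) (nat_lit 1) (nat_lit 5) (nat_lit 3) (nat_lit 4) (nat_lit 1) (nat_lit 4) (nat_lit 373) (nat_lit 264) (nat_lit 263)) (XT.lf (nat_lit 0) (nat_lit 2679739990488) (nat_lit 152) (nat_lit 2076995483376) (nat_lit 0) (nat_lit 2679739990488) (nat_lit 1) (nat_lit 5) (nat_lit 3) (nat_lit 4) (nat_lit 1) (nat_lit 4) (nat_lit 370) (nat_lit 265) (nat_lit 265)))) (XT.nd (nat_lit 156) (nat_lit 0) (nat_lit 0) (XT.nd (nat_lit 78) (nat_lit 0) (nat_lit 0) (XT.lf (nat_lit 0) (nat_lit 6164020052198) (nat_lit 152) (nat_lit 4775813383658) (nat_lit 0) (nat_lit 6164009681472) (nat_lit 1) (nat_lit 5) (nat_lit 3) (nat_lit 4) (nat_lit 1) (nat_lit 4) (nat_lit 371) (nat_lit 265) (nat_lit 264)) (XT.lf (nat_lit 0) (nat_lit 7089187596519) (nat_lit 152) (nat_lit 5491017617267) (nat_lit 0) (nat_lit 7089168207771) (nat_lit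 1) (nat_lit 5) (nat_lit 3) (nat_lit 4) (nat_lit 1) (nat_lit 4) (nat_lit 372) (nat_lit 265) (nat_lit 263))) (XT.nd (nat_lit 46488) (nat_lit 0) (nat_lit 0) (XT.lf (nat_lit 0) (nat_lit 8153083718067) (nat_lit 152) (nat_lit 6313596793889) (nat_lit 0) (nat_lit 8153056487561) (nat_lit 1) (nat_lit 5) (nat_lit 3) (nat_lit 4) (nat_lit 1) (nat_lit 4) (nat_lit 373) (nat_lit 265) (nat_lit 262)) (XT.lf (nat_lit 0) (nat_lit 2025707618525) (nat_lit 152) (nat_lit 1571674755698) (nat_lit 0) (nat_lit 2025707618525) (nat_lit 1) (nat_lit 5) (nat_lit 3) (nat_lit 4) (nat_lit 1) (nat_lit 4) (nat_lit 368) (nat_lit 266) (nat_lit 266))))) (XT.nd (nat_lit 234) (nat_lit 0) (nat_lit 0) (XT.nd (nat_lit 78) (nat_lit 0) (nat_lit 0) (XT.lf (nat_lit 0) (nat_lit 4659838307794) (nat_lit 152) (nat_lit 3613384275784) (nat_lit 0) (nat_lit 4659826381460) (nat_lit 1) (nat_lit 5) (nat_lit 3) (nat_lit 4) (nat_lit 1) (nat_lit 4)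 (nat_lit 369) (nat_lit 266) (nat_lit 265)) (XT.nd (nat_lit 78) (nat_lit 0) (nat_lit 0) (XT.lf (nat_lit 0) (nat_lit 5359463270928) (nat_lit 152) (nat_lit 4154048977121) (nat_lit 0) (nat_lit 5359440973868) (nat_lit 1) (nat_lit 5) (nat_lit 3) (nat_lit 4) (nat_lit 1) (nat_lit 4) (nat_lit 370) (nat_lit 266) (nat_lit 264)) (XT.lf (nat_lit 0) (nat_lit 6163978440948) (nat_lit 152) (nat_lit 4775921837825) (nat_lit 0) (nat_lit 6163947125866) (nat_lit 1) (nat_lit 5) (nat_lit 3) (nat_lit 4) (nat_lit 1) (nat_lit 4) (nat_lit 371) (nat_lit 266) (nat_lit 263)))) (XT.nd (nat_lit 46410) (nat_lit 0) (nat_lit 0) (XT.nd (nat_lit 78) (nat_lit 0) (nat_lit 0) (XT.lf (nat_lit 0) (nat_lit 7089124332050) (nat_lit 152) (nat_lit 5491169935607) (nat_lit 0) (nat_lit 7089085175209) (nat_lit 1) (nat_lit 5) (nat_lit 3) (nat_lit 4) (nat_lit 1) (nat_lit 4) (nat_lit 372) (nat_lit 266) (nat_lit 262)) (XT.lf (nat_lit 0) (nat_lit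 8153001624712) (nat_lit 152) (nat_lit 6313787254988) (nat_lit 0) (nat_lit 8152955648951) (nat_lit 1) (nat_lit 5) (nat_lit 3) (nat_lit 4) (nat_lit 1) (nat_lit 4) (nat_lit 373) (nat_lit 266) (nat_lit 261))) (XT.nd (nat_lit 78) (nat_lit 0) (nat_lit 0) (XT.lf (nat_lit 0) (nat_lit 1531081061465) (nat_lit 152) (nat_lit 1189754853602) (nat_lit 0) (nat_lit 1531081061465) (nat_lit 1) (nat_lit 5) (nat_lit 3) (nat_lit 4) (nat_lit 1) (nat_lit 4) (nat_lit 366) (nat_lit 267) (nat_lit 267)) (XT.lf (nat_lit 0) (nat_lit 3522303844335) (nat_lit 152) (nat_lit 2734748351614) (nat_lit 0) (nat_lit 3522290129051) (nat_lit 1) (nat_lit 5) (nat_lit 3) (nat_lit 4) (nat_lit 1) (nat_lit 4) (nat_lit 367) (nat_lit 267) (nat_lit 266)))))) (XT.nd (nat_lit 46644) (nat_lit 0) (nat_lit 0) (XT.nd (nat_lit 234) (nat_lit 0) (nat_lit 0) (XT.nd (nat_lit 78) (nat_lit 0) (nat_lit 0) (XT.lf (nat_lit 0) (nat_lit 4051396020495) (nat_lit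 152) (nat_lit 3143416223321) (nat_lit 0) (nat_lit 4051370378876) (nat_lit 1) (nat_lit 5) (nat_lit 3) (nat_lit 4) (nat_lit 1) (nat_lit 4) (nat_lit 368) (nat_lit 267) (nat_lit 265)) (XT.nd (nat_lit 78) (nat_lit 0) (nat_lit 0) (XT.lf (nat_lit 0) (nat_lit 4659790454857) (nat_lit 152) (nat_lit 3613508998076) (nat_lit 0) (nat_lit 4659754442513) (nat_lit 1) (nat_lit 5) (nat_lit 3) (nat_lit 4) (nat_lit 1) (nat_lit 4) (nat_lit 369) (nat_lit 267) (nat_lit 264)) (XT.lf (nat_lit 0) (nat_lit 5359390516789) (nat_lit 152) (nat_lit 4154224143212) (nat_lit 0) (nat_lit 5359345486422) (nat_lit 1) (nat_lit 5) (nat_lit 3) (nat_lit 4) (nat_lit 1) (nat_lit 4) (nat_lit 370) (nat_lit 267) (nat_lit 263)))) (XT.nd (nat_lit 156) (nat_lit 0) (nat_lit 0) (XT.nd (nat_lit 78) (nat_lit 0) (nat_lit 0) (XT.lf (nat_lit 0) (nat_lit 6163884033590) (nat_lit 152) (nat_lit 4776140868089) (nat_lit 0) (nat_lit 6163831161465) (nat_lit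 1) (nat_lit 5) (nat_lit 3) (nat_lit 4) (nat_lit 1) (nat_lit 4) (nat_lit 371) (nat_lit 267) (nat_lit 262)) (XT.lf (nat_lit 0) (nat_lit 7089011095805) (nat_lit 152) (nat_lit 5491427108630) (nat_lit 0) (nat_lit 7088951404760) (nat_lit 1) (nat_lit 5) (nat_lit 3) (nat_lit 4) (nat_lit 1) (nat_lit 4) (nat_lit 372) (nat_lit 267) (nat_lit 261))) (XT.nd (nat_lit 46176) (nat_lit 0) (nat_lit 0) (XT.lf (nat_lit 0) (nat_lit 8152872015523) (nat_lit 152) (nat_lit 6314077595627) (nat_lit 0) (nat_lit 8152806394981) (nat_lit 1) (nat_lit 5) (nat_lit 3) (nat_lit 4) (nat_lit 1) (nat_lit 4) (nat_lit 373) (nat_lit 267) (nat_lit 260)) (XT.lf (nat_lit 0) (nat_lit 1156975583756) (nat_lit 152) (nat_lit 901169979222) (nat_lit 0) (nat_lit 1156975583756) (nat_lit 1) (nat_lit 5) (nat_lit 3) (nat_lit 4) (nat_lit 1) (nat_lit 4) (nat_lit 364) (nat_lit 268) (nat_lit 268))))) (XT.nd (nat_lit 234) (nat_lit 0) (nat_lit 0) (XT.nd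 (nat_lit 78) (nat_lit 0) (nat_lit 0) (XT.lf (nat_lit 0) (nat_lit 2661983856049) (nat_lit 152) (nat_lit 2070749968790) (nat_lit 0) (nat_lit 2661968083472) (nat_lit 1) (nat_lit 5) (nat_lit 3) (nat_lit 4) (nat_lit 1) (nat_lit 4) (nat_lit 365) (nat_lit 268) (nat_lit 267)) (XT.nd (nat_lit 78) (nat_lit 0) (nat_lit 0) (XT.lf (nat_lit 0) (nat_lit 3062140023893) (nat_lit 152) (nat_lit 2379586425918) (nat_lit 0) (nat_lit 3062110536031) (nat_lit 1) (nat_lit 5) (nat_lit 3) (nat_lit 4) (nat_lit 1) (nat_lit 4) (nat_lit 366) (nat_lit 268) (nat_lit 266)) (XT.lf (nat_lit 0) (nat_lit 3522248813457) (nat_lit 152) (nat_lit 2734891782251) (nat_lit 0) (nat_lit 3522207399261) (nat_lit 1) (nat_lit 5) (nat_lit 3) (nat_lit 4) (nat_lit 1) (nat_lit 4) (nat_lit 367) (nat_lit 268) (nat_lit 265)))) (XT.nd (nat_lit 156) (nat_lit 0) (nat_lit 0) (XT.nd (nat_lit 78) (nat_lit 0) (nat_lit 0) (XT.lf (nat_lit 0) (nat_lit 4051312353235)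 (nat_lit 152) (nat_lit 3143617664326) (nat_lit 0) (nat_lit 4051260568313) (nat_lit 1) (nat_lit 5) (nat_lit 3) (nat_lit 4) (nat_lit 1) (nat_lit 4) (nat_lit 368) (nat_lit 268) (nat_lit 264)) (XT.lf (nat_lit 0) (nat_lit 4659681886395) (nat_lit 152) (nat_lit 3613760882880) (nat_lit 0) (nat_lit 4659621083451) (nat_lit 1) (nat_lit 5) (nat_lit 3) (nat_lit 4) (nat_lit 1) (nat_lit 4) (nat_lit 369) (nat_lit 268) (nat_lit 263))) (XT.nd (nat_lit 78) (nat_lit 0) (nat_lit 0) (XT.lf (nat_lit 0) (nat_lit 5359260295108) (nat_lit 152) (nat_lit 4154519892188) (nat_lit 0) (nat_lit 5359191650405) (nat_lit 1) (nat_lit 5) (nat_lit 3) (nat_lit 4) (nat_lit 1) (nat_lit 4) (nat_lit 370) (nat_lit 268) (nat_lit 262)) (XT.lf (nat_lit 0) (nat_lit 6163734983022) (nat_lit 152) (nat_lit 4776474759824) (nat_lit 0) (nat_lit 6163659519400) (nat_lit 1) (nat_lit 5) (nat_lit 3) (nat_lit 4) (nat_lit 1) (nat_lit 4) (nat_lit 371)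 (nat_lit 268) (nat_lit 261))))))) (XT.nd (nat_lit 92820) (nat_lit 0) (nat_lit 0) (XT.nd (nat_lit 46488) (nat_lit 0) (nat_lit 0) (XT.nd (nat_lit 46176) (nat_lit 0) (nat_lit 0) (XT.nd (nat_lit 78) (nat_lit 0) (nat_lit 0) (XT.lf (nat_lit 0) (nat_lit 7088845672293) (nat_lit 152) (nat_lit 5491794167981) (nat_lit 0) (nat_lit 7088764279175) (nat_lit 1) (nat_lit 5) (nat_lit 3) (nat_lit 4) (nat_lit 1) (nat_lit 4) (nat_lit 372) (nat_lit 268) (nat_lit 260)) (XT.nd (nat_lit 46020) (nat_lit 0) (nat_lit 0) (XT.lf (nat_lit 0) (nat_lit 8152692354668) (nat_lit 152) (nat_lit 6314473496384) (nat_lit 0) (nat_lit 8152605805466) (nat_lit 1) (nat_lit 5) (nat_lit 3) (nat_lit 4) (nat_lit 1) (nat_lit 4) (nat_lit 373) (nat_lit 268) (nat_lit 259)) (XT.lf (nat_lit 0) (nat_lit 873986846137) (nat_lit 152) (nat_lit 683190011138) (nat_lit 0) (nat_lit 873986846137) (nat_lit 1) (nat_lit 5) (nat_lit 3) (nat_lit 4) (nat_lit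 1) (nat_lit 4) (nat_lit 362) (nat_lit 269) (nat_lit 269)))) (XT.nd (nat_lit 156) (nat_lit 0) (nat_lit 0) (XT.nd (nat_lit 78) (nat_lit 0) (nat_lit 0) (XT.lf (nat_lit 0) (nat_lit 2011250761537) (nat_lit 152) (nat_lit 1569104894682) (nat_lit 0) (nat_lit 2011232623073) (nat_lit 1) (nat_lit 5) (nat_lit 3) (nat_lit 4) (nat_lit 1) (nat_lit 4) (nat_lit 363) (nat_lit 269) (nat_lit 268)) (XT.lf (nat_lit 0) (nat_lit 2313925753619) (nat_lit 152) (nat_lit 1802428184964) (nat_lit 0) (nat_lit 2313891842578) (nat_lit 1) (nat_lit 5) (nat_lit 3) (nat_lit 4) (nat_lit 1) (nat_lit 4) (nat_lit 364) (nat_lit 269) (nat_lit 267))) (XT.nd (nat_lit 78) (nat_lit 0) (nat_lit 0) (XT.lf (nat_lit 0) (nat_lit 2661920570540) (nat_lit 152) (nat_lit 2070914914021) (nat_lit 0) (nat_lit 2661872944214) (nat_lit 1) (nat_lit 5) (nat_lit 3) (nat_lit 4) (nat_lit 1) (nat_lit 4) (nat_lit 365) (nat_lit 269) (nat_lit 266)) (XT.lf (nat_lit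 0) (nat_lit 3062043806543) (nat_lit 152) (nat_lit 2379818083073) (nat_lit 0) (nat_lit 3061984253884) (nat_lit 1) (nat_lit 5) (nat_lit 3) (nat_lit 4) (nat_lit 1) (nat_lit 4) (nat_lit 366) (nat_lit 269) (nat_lit 265))))) (XT.nd (nat_lit 234) (nat_lit 0) (nat_lit 0) (XT.nd (nat_lit 78) (nat_lit 0) (nat_lit 0) (XT.lf (nat_lit 0) (nat_lit 3522123959726) (nat_lit 152) (nat_lit 2735181449774) (nat_lit 0) (nat_lit 3522054036340) (nat_lit 1) (nat_lit 5) (nat_lit 3) (nat_lit 4) (nat_lit 1) (nat_lit 4) (nat_lit 367) (nat_lit 269) (nat_lit 264)) (XT.nd (nat_lit 78) (nat_lit 0) (nat_lit 0) (XT.lf (nat_lit 0) (nat_lit 4051162598301) (nat_lit 152) (nat_lit 3143957775648) (nat_lit 0) (nat_lit 4051083656894) (nat_lit 1) (nat_lit 5) (nat_lit 3) (nat_lit 4) (nat_lit 1) (nat_lit 4) (nat_lit 368) (nat_lit 269) (nat_lit 263)) (XT.lf (nat_lit 0) (nat_lit 4659510478242) (nat_lit 152) (nat_lit 3614144858375) (nat_lit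 0) (nat_lit 4659423695076) (nat_lit 1) (nat_lit 5) (nat_lit 3) (nat_lit 4) (nat_lit 1) (nat_lit 4) (nat_lit 369) (nat_lit 269) (nat_lit 262)))) (XT.nd (nat_lit 156) (nat_lit 0) (nat_lit 0) (XT.nd (nat_lit 78) (nat_lit 0) (nat_lit 0) (XT.lf (nat_lit 0) (nat_lit 5359070058069) (nat_lit 152) (nat_lit 4154942010442) (nat_lit 0) (nat_lit 5358976455983) (nat_lit 1) (nat_lit 5) (nat_lit 3) (nat_lit 4) (nat_lit 1) (nat_lit 4) (nat_lit 370) (nat_lit 269) (nat_lit 261)) (XT.lf (nat_lit 0) (nat_lit 6163528373039) (nat_lit 152) (nat_lit 4776930045695) (nat_lit 0) (nat_lit 6163428841457) (nat_lit 1) (nat_lit 5) (nat_lit 3) (nat_lit 4) (nat_lit 1) (nat_lit 4) (nat_lit 371) (nat_lit 269) (nat_lit 260))) (XT.nd (nat_lit 78) (nat_lit 0) (nat_lit 0) (XT.lf (nat_lit 0) (nat_lit 7088624824967) (nat_lit 152) (nat_lit 5492278295258) (nat_lit 0) (nat_lit 7088520137301) (nat_lit 1) (nat_lit 5) (nat_lit 3) (nat_lit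 4) (nat_lit 1) (nat_lit 4) (nat_lit 372) (nat_lit 269) (nat_lit 259)) (XT.lf (nat_lit 0) (nat_lit 8152459127043) (nat_lit 152) (nat_lit 6314982703144) (nat_lit 0) (nat_lit 8152349955826) (nat_lit 1) (nat_lit 5) (nat_lit 3) (nat_lit 4) (nat_lit 1) (nat_lit 4) (nat_lit 373) (nat_lit 269) (nat_lit 258)))))) (XT.nd (nat_lit 546) (nat_lit 0) (nat_lit 0) (XT.nd (nat_lit 234) (nat_lit 0) (nat_lit 0) (XT.nd (nat_lit 78) (nat_lit 0) (nat_lit 0) (XT.lf (nat_lit 0) (nat_lit 659878767060) (nat_lit 152) (nat_lit 518632244401) (nat_lit 0) (nat_lit 659878767060) (nat_lit 1) (nat_lit 5) (nat_lit 3) (nat_lit 4) (nat_lit 1) (nat_lit 4) (nat_lit 360) (nat_lit 270) (nat_lit 270)) (XT.nd (nat_lit 78) (nat_lit 0) (nat_lit 0) (XT.lf (nat_lit 0) (nat_lit 1518964331972) (nat_lit 152) (nat_lit 1190287211548) (nat_lit 0) (nat_lit 1518943472739) (nat_lit 1) (nat_lit 5) (nat_lit 3) (nat_lit 4) (nat_lit 1) (nat_lit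 4) (nat_lit 361) (nat_lit 270) (nat_lit 269)) (XT.lf (nat_lit 0) (nat_lit 1747944466297) (nat_lit 152) (nat_lit 1366481482773) (nat_lit 0) (nat_lit 1747905468600) (nat_lit 1) (nat_lit 5) (nat_lit 3) (nat_lit 4) (nat_lit 1) (nat_lit 4) (nat_lit 362) (nat_lit 270) (nat_lit 268)))) (XT.nd (nat_lit 156) (nat_lit 0) (nat_lit 0) (XT.nd (nat_lit 78) (nat_lit 0) (nat_lit 0) (XT.lf (nat_lit 0) (nat_lit 2011177983201) (nat_lit 152) (nat_lit 1569294581698) (nat_lit 0) (nat_lit 2011123212927) (nat_lit 1) (nat_lit 5) (nat_lit 3) (nat_lit 4) (nat_lit 1) (nat_lit 4) (nat_lit 363) (nat_lit 270) (nat_lit 267)) (XT.lf (nat_lit 0) (nat_lit 2313815103667) (nat_lit 152) (nat_lit 1802694590693) (nat_lit 0) (nat_lit 2313746618108) (nat_lit 1) (nat_lit 5) (nat_lit 3) (nat_lit 4) (nat_lit 1) (nat_lit 4) (nat_lit 364) (nat_lit 270) (nat_lit 266))) (XT.nd (nat_lit 78) (nat_lit 0) (nat_lit 0) (XT.lf (nat_lit 0) (nat_lit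 2661776988748) (nat_lit 152) (nat_lit 2071248031674) (nat_lit 0) (nat_lit 2661696576855) (nat_lit 1) (nat_lit 5) (nat_lit 3) (nat_lit 4) (nat_lit 1) (nat_lit 4) (nat_lit 365) (nat_lit 270) (nat_lit 265)) (XT.lf (nat_lit 0) (nat_lit 3061871588370) (nat_lit 152) (nat_lit 2380209211094) (nat_lit 0) (nat_lit 3061780805751) (nat_lit 1) (nat_lit 5) (nat_lit 3) (nat_lit 4) (nat_lit 1) (nat_lit 4) (nat_lit 366) (nat_lit 270) (nat_lit 264))))) (XT.nd (nat_lit 312) (nat_lit 0) (nat_lit 0) (XT.nd (nat_lit 156) (nat_lit 0) (nat_lit 0) (XT.nd (nat_lit 78) (nat_lit 0) (nat_lit 0) (XT.lf (nat_lit 0) (nat_lit 3521926840350) (nat_lit 152) (nat_lit 2735623021594) (nat_lit 0) (nat_lit 3521827039709) (nat_lit 1) (nat_lit 5) (nat_lit 3) (nat_lit 4) (nat_lit 1) (nat_lit 4) (nat_lit 367) (nat_lit 270) (nat_lit 263)) (XT.lf (nat_lit 0) (nat_lit 4050943825707) (nat_lit 152) (nat_lit 3144443211641) (nat_lit 0) (nat_lit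 4050836183308) (nat_lit 1) (nat_lit 5) (nat_lit 3) (nat_lit 4) (nat_lit 1) (nat_lit 4) (nat_lit 368) (nat_lit 270) (nat_lit 262))) (XT.nd (nat_lit 78) (nat_lit 0) (nat_lit 0) (XT.lf (nat_lit 0) (nat_lit 4659272876762) (nat_lit 152) (nat_lit 3614668437126) (nat_lit 0) (nat_lit 4659158415442) (nat_lit 1) (nat_lit 5) (nat_lit 3) (nat_lit 4) (nat_lit 1) (nat_lit 4) (nat_lit 369) (nat_lit 270) (nat_lit 261)) (XT.lf (nat_lit 0) (nat_lit 5358816083644) (nat_lit 152) (nat_lit 4155498756810) (nat_lit 0) (nat_lit 5358695692828) (nat_lit 1) (nat_lit 5) (nat_lit 3) (nat_lit 4) (nat_lit 1) (nat_lit 4) (nat_lit 370) (nat_lit 270) (nat_lit 260)))) (XT.nd (nat_lit 156) (nat_lit 0) (nat_lit 0) (XT.nd (nat_lit 78) (nat_lit 0) (nat_lit 0) (XT.lf (nat_lit 0) (nat_lit 6163260161271) (nat_lit 152) (nat_lit 4777515633468) (nat_lit 0) (nat_lit 6163134614372) (nat_lit 1) (nat_lit 5) (nat_lit 3) (nat_lit 4) (nat_lit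 1) (nat_lit 4) (nat_lit 371) (nat_lit 270) (nat_lit 259)) (XT.lf (nat_lit 0) (nat_lit 7088344232901) (nat_lit 152) (nat_lit 5492888962514) (nat_lit 0) (nat_lit 7088214202451) (nat_lit 1) (nat_lit 5) (nat_lit 3) (nat_lit 4) (nat_lit 1) (nat_lit 4) (nat_lit 372) (nat_lit 270) (nat_lit 258))) (XT.nd (nat_lit 45708) (nat_lit 0) (nat_lit 0) (XT.lf (nat_lit 0) (nat_lit 8152167769500) (nat_lit 152) (nat_lit 6315615178646) (nat_lit 0) (nat_lit 8152033840310) (nat_lit 1) (nat_lit 5) (nat_lit 3) (nat_lit 4) (nat_lit 1) (nat_lit 4) (nat_lit 373) (nat_lit 270) (nat_lit 257)) (XT.lf (nat_lit 0) (nat_lit 497835171156) (nat_lit 152) (nat_lit 394509297767) (nat_lit 0) (nat_lit 497835171156) (nat_lit 1) (nat_lit 5) (nat_lit 3) (nat_lit 4) (nat_lit 1) (nat_lit 4) (nat_lit 358) (nat_lit 271) (nat_lit 271))))))))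
noncomputable def xc1 : XT := (XT.nd (nat_lit 47736) (nat_lit 0) (nat_lit 0) (XT.nd (nat_lit 1092) (nat_lit 0) (nat_lit 0) (XT.nd (nat_lit 546) (nat_lit 0) (nat_lit 0) (XT.nd (nat_lit 234) (nat_lit 0) (nat_lit 0) (XT.nd (nat_lit 78) (nat_lit 0) (nat_lit 0) (XT.lf (nat_lit 0) (nat_lit 1146450536554) (nat_lit 152) (nat_lit 904419391703) (nat_lit 0) (nat_lit 1146426548435) (nat_lit 1) (nat_lit 5) (nat_lit 3) (nat_lit 4) (nat_lit 1) (nat_lit 4) (nat_lit 359) (nat_lit 271) (nat_lit 270)) (XT.nd (nat_lit 78) (nat_lit 0) (nat_lit 0) (XT.lf (nat_lit 0) (nat_lit 1319723924245) (nat_lit 152) (nat_lit 1037381168375) (nat_lit 0) (nat_lit 1319679076894) (nat_lit 1) (nat_lit 5) (nat_lit 3) (nat_lit 4) (nat_lit 1) (nat_lit 4) (nat_lit 360) (nat_lit 271) (nat_lit 269)) (XT.lf (nat_lit 0) (nat_lit 1518880636886) (nat_lit 152) (nat_lit 1190505351617) (nat_lit 0) (nat_lit 1518817651070) (nat_lit 1) (nat_lit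 5) (nat_lit 3) (nat_lit 4) (nat_lit 1) (nat_lit 4) (nat_lit 361) (nat_lit 271) (nat_lit 268)))) (XT.nd (nat_lit 156) (nat_lit 0) (nat_lit 0) (XT.nd (nat_lit 78) (nat_lit 0) (nat_lit 0) (XT.lf (nat_lit 0) (nat_lit 1747817218853) (nat_lit 152) (nat_lit 1366787849361) (nat_lit 0) (nat_lit 1747738460460) (nat_lit 1) (nat_lit 5) (nat_lit 3) (nat_lit 4) (nat_lit 1) (nat_lit 4) (nat_lit 362) (nat_lit 271) (nat_lit 267)) (XT.lf (nat_lit 0) (nat_lit 2011012864141) (nat_lit 152) (nat_lit 1569677666998) (nat_lit 0) (nat_lit 2010920390464) (nat_lit 1) (nat_lit 5) (nat_lit 3) (nat_lit 4) (nat_lit 1) (nat_lit 4) (nat_lit 363) (nat_lit 271) (nat_lit 266))) (XT.nd (nat_lit 78) (nat_lit 0) (nat_lit 0) (XT.lf (nat_lit 0) (nat_lit 2313617052768) (nat_lit 152) (nat_lit 1803144387917) (nat_lit 0) (nat_lit 2313512652756) (nat_lit 1) (nat_lit 5) (nat_lit 3) (nat_lit 4) (nat_lit 1) (nat_lit 4) (nat_lit 364) (nat_lit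 271) (nat_lit 265)) (XT.lf (nat_lit 0) (nat_lit 2661550301467) (nat_lit 152) (nat_lit 2071755839266) (nat_lit 0) (nat_lit 2661435530730) (nat_lit 1) (nat_lit 5) (nat_lit 3) (nat_lit 4) (nat_lit 1) (nat_lit 4) (nat_lit 365) (nat_lit 271) (nat_lit 264))))) (XT.nd (nat_lit 234) (nat_lit 0) (nat_lit 0) (XT.nd (nat_lit 78) (nat_lit 0) (nat_lit 0) (XT.lf (nat_lit 0) (nat_lit 3061619999886) (nat_lit 152) (nat_lit 2380767462485) (nat_lit 0) (nat_lit 3061496211127) (nat_lit 1) (nat_lit 5) (nat_lit 3) (nat_lit 4) (nat_lit 1) (nat_lit 4) (nat_lit 366) (nat_lit 271) (nat_lit 263)) (XT.nd (nat_lit 78) (nat_lit 0) (nat_lit 0) (XT.lf (nat_lit 0) (nat_lit 3521653598648) (nat_lit 152) (nat_lit 2736225137158) (nat_lit 0) (nat_lit 3521521968130) (nat_lit 1) (nat_lit 5) (nat_lit 3) (nat_lit 4) (nat_lit 1) (nat_lit 4) (nat_lit 367) (nat_lit 271) (nat_lit 262)) (XT.lf (nat_lit 0) (nat_lit 4050651755118) (nat_lit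 152) (nat_lit 3145083469964) (nat_lit 0) (nat_lit 4050513305680) (nat_lit 1) (nat_lit 5) (nat_lit 3) (nat_lit 4) (nat_lit 1) (nat_lit 4) (nat_lit 368) (nat_lit 271) (nat_lit 261)))) (XT.nd (nat_lit 156) (nat_lit 0) (nat_lit 0) (XT.nd (nat_lit 78) (nat_lit 0) (nat_lit 0) (XT.lf (nat_lit 0) (nat_lit 4658964433228) (nat_lit 152) (nat_lit 3615341863066) (nat_lit 0) (nat_lit 4658820054294) (nat_lit 1) (nat_lit 5) (nat_lit 3) (nat_lit 4) (nat_lit 1) (nat_lit 4) (nat_lit 369) (nat_lit 271) (nat_lit 260)) (XT.lf (nat_lit 0) (nat_lit 5358493402767) (nat_lit 152) (nat_lit 4156201024155) (nat_lit 0) (nat_lit 5358343867750) (nat_lit 1) (nat_lit 5) (nat_lit 3) (nat_lit 4) (nat_lit 1) (nat_lit 4) (nat_lit 370) (nat_lit 271) (nat_lit 259))) (XT.nd (nat_lit 78) (nat_lit 0) (nat_lit 0) (XT.lf (nat_lit 0) (nat_lit 6162925100096) (nat_lit 152) (nat_lit 4778242980297) (nat_lit 0) (nat_lit 6162771081528) (nat_lit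 1) (nat_lit 5) (nat_lit 3) (nat_lit 4) (nat_lit 1) (nat_lit 4) (nat_lit 371) (nat_lit 271) (nat_lit 258)) (XT.lf (nat_lit 0) (nat_lit 7087998406249) (nat_lit 152) (nat_lit 5493638117589) (nat_lit 0) (nat_lit 7087840488941) (nat_lit 1) (nat_lit 5) (nat_lit 3) (nat_lit 4) (nat_lit 1) (nat_lit 4) (nat_lit 372) (nat_lit 271) (nat_lit 257)))))) (XT.nd (nat_lit 46020) (nat_lit 0) (nat_lit 0) (XT.nd (nat_lit 45708) (nat_lit 0) (nat_lit 0) (XT.nd (nat_lit 45552) (nat_lit 0) (nat_lit 0) (XT.lf (nat_lit 0) (nat_lit 8151812581564) (nat_lit 152) (nat_lit 6316383297413) (nat_lit 0) (nat_lit 8151651274047) (nat_lit 1) (nat_lit 5) (nat_lit 3) (nat_lit 4) (nat_lit 1) (nat_lit 4) (nat_lit 373) (nat_lit 271) (nat_lit 256)) (XT.nd (nat_lit 78) (nat_lit 0) (nat_lit 0) (XT.lf (nat_lit 0) (nat_lit 375137735327) (nat_lit 152) (nat_lit 301006839280) (nat_lit 0) (nat_lit 375137735327) (nat_lit 1) (nat_lit 5) (nat_lit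 3) (nat_lit 4) (nat_lit 1) (nat_lit 4) (nat_lit 356) (nat_lit 272) (nat_lit 272)) (XT.lf (nat_lit 0) (nat_lit 864460880580) (nat_lit 152) (nat_lit 688920938207) (nat_lit 0) (nat_lit 864433294244) (nat_lit 1) (nat_lit 5) (nat_lit 3) (nat_lit 4) (nat_lit 1) (nat_lit 4) (nat_lit 357) (nat_lit 272) (nat_lit 271)))) (XT.nd (nat_lit 156) (nat_lit 0) (nat_lit 0) (XT.nd (nat_lit 78) (nat_lit 0) (nat_lit 0) (XT.lf (nat_lit 0) (nat_lit 995631690957) (nat_lit 152) (nat_lit 789152777042) (nat_lit 0) (nat_lit 995580116502) (nat_lit 1) (nat_lit 5) (nat_lit 3) (nat_lit 4) (nat_lit 1) (nat_lit 4) (nat_lit 358) (nat_lit 272) (nat_lit 270)) (XT.lf (nat_lit 0) (nat_lit 1146354287204) (nat_lit 152) (nat_lit 904670252782) (nat_lit 0) (nat_lit 1146281853517) (nat_lit 1) (nat_lit 5) (nat_lit 3) (nat_lit 4) (nat_lit 1) (nat_lit 4) (nat_lit 359) (nat_lit 272) (nat_lit 269))) (XT.nd (nat_lit 78) (nat_lit 0) (nat_lit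 0) (XT.lf (nat_lit 0) (nat_lit 1319577589684) (nat_lit 152) (nat_lit 1037733489951) (nat_lit 0) (nat_lit 1319487017533) (nat_lit 1) (nat_lit 5) (nat_lit 3) (nat_lit 4) (nat_lit 1) (nat_lit 4) (nat_lit 360) (nat_lit 272) (nat_lit 268)) (XT.lf (nat_lit 0) (nat_lit 1518690749967) (nat_lit 152) (nat_lit 1190945899712) (nat_lit 0) (nat_lit 1518584405238) (nat_lit 1) (nat_lit 5) (nat_lit 3) (nat_lit 4) (nat_lit 1) (nat_lit 4) (nat_lit 361) (nat_lit 272) (nat_lit 267))))) (XT.nd (nat_lit 312) (nat_lit 0) (nat_lit 0) (XT.nd (nat_lit 156) (nat_lit 0) (nat_lit 0) (XT.nd (nat_lit 78) (nat_lit 0) (nat_lit 0) (XT.lf (nat_lit 0) (nat_lit 1747589460318) (nat_lit 152) (nat_lit 1367305116168) (nat_lit 0) (nat_lit 1747469400305) (nat_lit 1) (nat_lit 5) (nat_lit 3) (nat_lit 4) (nat_lit 1) (nat_lit 4) (nat_lit 362) (nat_lit 272) (nat_lit 266)) (XT.lf (nat_lit 0) (nat_lit 2010752173767) (nat_lit 152) (nat_lit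 1570261645729) (nat_lit 0) (nat_lit 2010620187419) (nat_lit 1) (nat_lit 5) (nat_lit 3) (nat_lit 4) (nat_lit 1) (nat_lit 4) (nat_lit 363) (nat_lit 272) (nat_lit 265))) (XT.nd (nat_lit 78) (nat_lit 0) (nat_lit 0) (XT.lf (nat_lit 0) (nat_lit 2313327726012) (nat_lit 152) (nat_lit 1803786377017) (nat_lit 0) (nat_lit 2313185368938) (nat_lit 1) (nat_lit 5) (nat_lit 3) (nat_lit 4) (nat_lit 1) (nat_lit 4) (nat_lit 364) (nat_lit 272) (nat_lit 264)) (XT.lf (nat_lit 0) (nat_lit 2661236073509) (nat_lit 152) (nat_lit 2072448272165) (nat_lit 0) (nat_lit 2661084698413) (nat_lit 1) (nat_lit 5) (nat_lit 3) (nat_lit 4) (nat_lit 1) (nat_lit 4) (nat_lit 365) (nat_lit 272) (nat_lit 263)))) (XT.nd (nat_lit 156) (nat_lit 0) (nat_lit 0) (XT.nd (nat_lit 78) (nat_lit 0) (nat_lit 0) (XT.lf (nat_lit 0) (nat_lit 3061284118709) (nat_lit 152) (nat_lit 2381503759556) (nat_lit 0) (nat_lit 3061124901855) (nat_lit 1) (nat_lit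 5) (nat_lit 3) (nat_lit 4) (nat_lit 1) (nat_lit 4) (nat_lit 366) (nat_lit 272) (nat_lit 262)) (XT.lf (nat_lit 0) (nat_lit 3521298888584) (nat_lit 152) (nat_lit 2736999576988) (nat_lit 0) (nat_lit 3521132852810) (nat_lit 1) (nat_lit 5) (nat_lit 3) (nat_lit 4) (nat_lit 1) (nat_lit 4) (nat_lit 367) (nat_lit 272) (nat_lit 261))) (XT.nd (nat_lit 78) (nat_lit 0) (nat_lit 0) (XT.lf (nat_lit 0) (nat_lit 4050280672110) (nat_lit 152) (nat_lit 3145891077410) (nat_lit 0) (nat_lit 4050108706840) (nat_lit 1) (nat_lit 5) (nat_lit 3) (nat_lit 4) (nat_lit 1) (nat_lit 4) (nat_lit 368) (nat_lit 272) (nat_lit 260)) (XT.lf (nat_lit 0) (nat_lit 4658579112877) (nat_lit 152) (nat_lit 3616178311918) (nat_lit 0) (nat_lit 4658401991523) (nat_lit 1) (nat_lit 5) (nat_lit 3) (nat_lit 4) (nat_lit 1) (nat_lit 4) (nat_lit 369) (nat_lit 272) (nat_lit 259))))))) (XT.nd (nat_lit 46410) (nat_lit 0) (nat_lit 0) (XT.nd (nat_lit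 45864) (nat_lit 0) (nat_lit 0) (XT.nd (nat_lit 234) (nat_lit 0) (nat_lit 0) (XT.nd (nat_lit 78) (nat_lit 0) (nat_lit 0) (XT.lf (nat_lit 0) (nat_lit 5358095702118) (nat_lit 152) (nat_lit 4157062552491) (nat_lit 0) (nat_lit 5357914097213) (nat_lit 1) (nat_lit 5) (nat_lit 3) (nat_lit 4) (nat_lit 1) (nat_lit 4) (nat_lit 370) (nat_lit 272) (nat_lit 258)) (XT.nd (nat_lit 78) (nat_lit 0) (nat_lit 0) (XT.lf (nat_lit 0) (nat_lit 6162516633970) (nat_lit 152) (nat_lit 4779126316878) (nat_lit 0) (nat_lit 6162331130326) (nat_lit 1) (nat_lit 5) (nat_lit 3) (nat_lit 4) (nat_lit 1) (nat_lit 4) (nat_lit 371) (nat_lit 272) (nat_lit 257)) (XT.lf (nat_lit 0) (nat_lit 7087580578839) (nat_lit 152) (nat_lit 5494540417863) (nat_lit 0) (nat_lit 7087391684986) (nat_lit 1) (nat_lit 5) (nat_lit 3) (nat_lit 4) (nat_lit 1) (nat_lit 4) (nat_lit 372) (nat_lit 272) (nat_lit 256)))) (XT.nd (nat_lit 45474) (nat_lit 0) (nat_lit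 0) (XT.nd (nat_lit 45396) (nat_lit 0) (nat_lit 0) (XT.lf (nat_lit 0) (nat_lit 8151386613907) (nat_lit 152) (nat_lit 6317302087855) (nat_lit 0) (nat_lit 8151194772046) (nat_lit 1) (nat_lit 5) (nat_lit 3) (nat_lit 4) (nat_lit 1) (nat_lit 4) (nat_lit 373) (nat_lit 272) (nat_lit 255)) (XT.lf (nat_lit 0) (nat_lit 282166269726) (nat_lit 152) (nat_lit 230710717230) (nat_lit 0) (nat_lit 282166269726) (nat_lit 1) (nat_lit 5) (nat_lit 3) (nat_lit 4) (nat_lit 1) (nat_lit 4) (nat_lit 354) (nat_lit 273) (nat_lit 273))) (XT.nd (nat_lit 78) (nat_lit 0) (nat_lit 0) (XT.lf (nat_lit 0) (nat_lit 650873123097) (nat_lit 152) (nat_lit 526730638673) (nat_lit 0) (nat_lit 650841398810) (nat_lit 1) (nat_lit 5) (nat_lit 3) (nat_lit 4) (nat_lit 1) (nat_lit 4) (nat_lit 355) (nat_lit 273) (nat_lit 272)) (XT.lf (nat_lit 0) (nat_lit 750231021594) (nat_lit 152) (nat_lit 602167987293) (nat_lit 0) (nat_lit 750171710972)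 (nat_lit 1) (nat_lit 5) (nat_lit 3) (nat_lit 4) (nat_lit 1) (nat_lit 4) (nat_lit 356) (nat_lit 273) (nat_lit 271))))) (XT.nd (nat_lit 234) (nat_lit 0) (nat_lit 0) (XT.nd (nat_lit 78) (nat_lit 0) (nat_lit 0) (XT.lf (nat_lit 0) (nat_lit 864350193828) (nat_lit 152) (nat_lit 689209428448) (nat_lit 0) (nat_lit 864266895087) (nat_lit 1) (nat_lit 5) (nat_lit 3) (nat_lit 4) (nat_lit 1) (nat_lit 4) (nat_lit 357) (nat_lit 273) (nat_lit 270)) (XT.nd (nat_lit 78) (nat_lit 0) (nat_lit 0) (XT.lf (nat_lit 0) (nat_lit 995463406212) (nat_lit 152) (nat_lit 789557946855) (nat_lit 0) (nat_lit 995359248237) (nat_lit 1) (nat_lit 5) (nat_lit 3) (nat_lit 4) (nat_lit 1) (nat_lit 4) (nat_lit 358) (nat_lit 273) (nat_lit 269)) (XT.lf (nat_lit 0) (nat_lit 1146135917248) (nat_lit 152) (nat_lit 905176883091) (nat_lit 0) (nat_lit 1146013620810) (nat_lit 1) (nat_lit 5) (nat_lit 3) (nat_lit 4) (nat_lit 1) (nat_lit 4) (nat_lit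 359) (nat_lit 273) (nat_lit 268)))) (XT.nd (nat_lit 156) (nat_lit 0) (nat_lit 0) (XT.nd (nat_lit 78) (nat_lit 0) (nat_lit 0) (XT.lf (nat_lit 0) (nat_lit 1319315667370) (nat_lit 152) (nat_lit 1038328346780) (nat_lit 0) (nat_lit 1319177598354) (nat_lit 1) (nat_lit 5) (nat_lit 3) (nat_lit 4) (nat_lit 1) (nat_lit 4) (nat_lit 360) (nat_lit 273) (nat_lit 267)) (XT.lf (nat_lit 0) (nat_lit 1518390956037) (nat_lit 152) (nat_lit 1191617475253) (nat_lit 0) (nat_lit 1518239171737) (nat_lit 1) (nat_lit 5) (nat_lit 3) (nat_lit 4) (nat_lit 1) (nat_lit 4) (nat_lit 361) (nat_lit 273) (nat_lit 266))) (XT.nd (nat_lit 78) (nat_lit 0) (nat_lit 0) (XT.lf (nat_lit 0) (nat_lit 1747256734548) (nat_lit 152) (nat_lit 1368043403633) (nat_lit 0) (nat_lit 1747093023914) (nat_lit 1) (nat_lit 5) (nat_lit 3) (nat_lit 4) (nat_lit 1) (nat_lit 4) (nat_lit 362) (nat_lit 273) (nat_lit 265)) (XT.lf (nat_lit 0) (nat_lit 2010390811615)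 (nat_lit 152) (nat_lit 1571057943563) (nat_lit 0) (nat_lit 2010216730255) (nat_lit 1) (nat_lit 5) (nat_lit 3) (nat_lit 4) (nat_lit 1) (nat_lit 4) (nat_lit 363) (nat_lit 273) (nat_lit 264)))))) (XT.nd (nat_lit 546) (nat_lit 0) (nat_lit 0) (XT.nd (nat_lit 234) (nat_lit 0) (nat_lit 0) (XT.nd (nat_lit 78) (nat_lit 0) (nat_lit 0) (XT.lf (nat_lit 0) (nat_lit 2312941462658) (nat_lit 152) (nat_lit 1804633118649) (nat_lit 0) (nat_lit 2312758363276) (nat_lit 1) (nat_lit 5) (nat_lit 3) (nat_lit 4) (nat_lit 1) (nat_lit 4) (nat_lit 364) (nat_lit 273) (nat_lit 263)) (XT.nd (nat_lit 78) (nat_lit 0) (nat_lit 0) (XT.lf (nat_lit 0) (nat_lit 2660828156936) (nat_lit 152) (nat_lit 2073338877970) (nat_lit 0) (nat_lit 2660637215795) (nat_lit 1) (nat_lit 5) (nat_lit 3) (nat_lit 4) (nat_lit 1) (nat_lit 4) (nat_lit 365) (nat_lit 273) (nat_lit 262)) (XT.lf (nat_lit 0) (nat_lit 3060857373250) (nat_lit 152) (nat_lit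 2382432508120) (nat_lit 0) (nat_lit 3060659613189) (nat_lit 1) (nat_lit 5) (nat_lit 3) (nat_lit 4) (nat_lit 1) (nat_lit 4) (nat_lit 366) (nat_lit 273) (nat_lit 261)))) (XT.nd (nat_lit 156) (nat_lit 0) (nat_lit 0) (XT.nd (nat_lit 78) (nat_lit 0) (nat_lit 0) (XT.lf (nat_lit 0) (nat_lit 3520855770181) (nat_lit 152) (nat_lit 2737961493169) (nat_lit 0) (nat_lit 3520652080624) (nat_lit 1) (nat_lit 5) (nat_lit 3) (nat_lit 4) (nat_lit 1) (nat_lit 4) (nat_lit 367) (nat_lit 273) (nat_lit 260)) (XT.lf (nat_lit 0) (nat_lit 4049823316363) (nat_lit 152) (nat_lit 3146881834996) (nat_lit 0) (nat_lit 4049614470723) (nat_lit 1) (nat_lit 5) (nat_lit 3) (nat_lit 4) (nat_lit 1) (nat_lit 4) (nat_lit 368) (nat_lit 273) (nat_lit 259))) (XT.nd (nat_lit 78) (nat_lit 0) (nat_lit 0) (XT.lf (nat_lit 0) (nat_lit 4658109376832) (nat_lit 152) (nat_lit 3617194148987) (nat_lit 0) (nat_lit 4657896047641) (nat_lit 1) (nat_lit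 5) (nat_lit 3) (nat_lit 4) (nat_lit 1) (nat_lit 4) (nat_lit 369) (nat_lit 273) (nat_lit 258)) (XT.lf (nat_lit 0) (nat_lit 5357615200596) (nat_lit 152) (nat_lit 4158100197806) (nat_lit 0) (nat_lit 5357397972665) (nat_lit 1) (nat_lit 5) (nat_lit 3) (nat_lit 4) (nat_lit 1) (nat_lit 4) (nat_lit 370) (nat_lit 273) (nat_lit 257))))) (XT.nd (nat_lit 45474) (nat_lit 0) (nat_lit 0) (XT.nd (nat_lit 156) (nat_lit 0) (nat_lit 0) (XT.nd (nat_lit 78) (nat_lit 0) (nat_lit 0) (XT.lf (nat_lit 0) (nat_lit 6162026771164) (nat_lit 152) (nat_lit 4780182925886) (nat_lit 0) (nat_lit 6161806153025) (nat_lit 1) (nat_lit 5) (nat_lit 3) (nat_lit 4) (nat_lit 1) (nat_lit 4) (nat_lit 371) (nat_lit 273) (nat_lit 256)) (XT.lf (nat_lit 0) (nat_lit 7087082575786) (nat_lit 152) (nat_lit 5495613517038) (nat_lit 0) (nat_lit 7086859009639) (nat_lit 1) (nat_lit 5) (nat_lit 3) (nat_lit 4) (nat_lit 1) (nat_lit 4) (nat_lit 372)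 (nat_lit 273) (nat_lit 255))) (XT.nd (nat_lit 45240) (nat_lit 0) (nat_lit 0) (XT.lf (nat_lit 0) (nat_lit 8150881532378) (nat_lit 152) (nat_lit 6318389526305) (nat_lit 0) (nat_lit 8150655402746) (nat_lit 1) (nat_lit 5) (nat_lit 3) (nat_lit 4) (nat_lit 1) (nat_lit 4) (nat_lit 373) (nat_lit 273) (nat_lit 254)) (XT.lf (nat_lit 0) (nat_lit 211642721791) (nat_lit 152) (nat_lit 178022694991) (nat_lit 0) (nat_lit 211642721791) (nat_lit 1) (nat_lit 5) (nat_lit 3) (nat_lit 4) (nat_lit 1) (nat_lit 4) (nat_lit 352) (nat_lit 274) (nat_lit 274)))) (XT.nd (nat_lit 156) (nat_lit 0) (nat_lit 0) (XT.nd (nat_lit 78) (nat_lit 0) (nat_lit 0) (XT.lf (nat_lit 0) (nat_lit 488952568257) (nat_lit 152) (nat_lit 404962585880) (nat_lit 0) (nat_lit 488916085327) (nat_lit 1) (nat_lit 5) (nat_lit 3) (nat_lit 4) (nat_lit 1) (nat_lit 4) (nat_lit 353) (nat_lit 274) (nat_lit 273)) (XT.lf (nat_lit 0) (nat_lit 564281423033)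 (nat_lit 152) (nat_lit 461598889504) (nat_lit 0) (nat_lit 564213215817) (nat_lit 1) (nat_lit 5) (nat_lit 3) (nat_lit 4) (nat_lit 1) (nat_lit 4) (nat_lit 354) (nat_lit 274) (nat_lit 272))) (XT.nd (nat_lit 78) (nat_lit 0) (nat_lit 0) (XT.lf (nat_lit 0) (nat_lit 650745833332) (nat_lit 152) (nat_lit 527062402450) (nat_lit 0) (nat_lit 650650039780) (nat_lit 1) (nat_lit 5) (nat_lit 3) (nat_lit 4) (nat_lit 1) (nat_lit 4) (nat_lit 355) (nat_lit 274) (nat_lit 271)) (XT.lf (nat_lit 0) (nat_lit 750037494138) (nat_lit 152) (nat_lit 602633932578) (nat_lit 0) (nat_lit 749917712467) (nat_lit 1) (nat_lit 5) (nat_lit 3) (nat_lit 4) (nat_lit 1) (nat_lit 4) (nat_lit 356) (nat_lit 274) (nat_lit 270))))))))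
noncomputable def xc2 : XT := (XT.nd (nat_lit 47190) (nat_lit 0) (nat_lit 0) (XT.nd (nat_lit 1092) (nat_lit 0) (nat_lit 0) (XT.nd (nat_lit 546) (nat_lit 0) (nat_lit 0) (XT.nd (nat_lit 234) (nat_lit 0) (nat_lit 0) (XT.nd (nat_lit 78) (nat_lit 0) (nat_lit 0) (XT.lf (nat_lit 0) (nat_lit 864099068378) (nat_lit 152) (nat_lit 689792053304) (nat_lit 0) (nat_lit 863958427474) (nat_lit 1) (nat_lit 5) (nat_lit 3) (nat_lit 4) (nat_lit 1) (nat_lit 4) (nat_lit 357) (nat_lit 274) (nat_lit 269)) (XT.nd (nat_lit 78) (nat_lit 0) (nat_lit 0) (XT.lf (nat_lit 0) (nat_lit 995162195550) (nat_lit 152) (nat_lit 790242032208) (nat_lit 0) (nat_lit 995003416182) (nat_lit 1) (nat_lit 5) (nat_lit 3) (nat_lit 4) (nat_lit 1) (nat_lit 4) (nat_lit 358) (nat_lit 274) (nat_lit 268)) (XT.lf (nat_lit 0) (nat_lit 1145791154228) (nat_lit 152) (nat_lit 905949194964) (nat_lit 0) (nat_lit 1145616602283) (nat_lit 1) (nat_lit 5)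 (nat_lit 3) (nat_lit 4) (nat_lit 1) (nat_lit 4) (nat_lit 359) (nat_lit 274) (nat_lit 267)))) (XT.nd (nat_lit 156) (nat_lit 0) (nat_lit 0) (XT.nd (nat_lit 78) (nat_lit 0) (nat_lit 0) (XT.lf (nat_lit 0) (nat_lit 1318933032735) (nat_lit 152) (nat_lit 1039177377364) (nat_lit 0) (nat_lit 1318744765505) (nat_lit 1) (nat_lit 5) (nat_lit 3) (nat_lit 4) (nat_lit 1) (nat_lit 4) (nat_lit 360) (nat_lit 274) (nat_lit 266)) (XT.lf (nat_lit 0) (nat_lit 1517975389562) (nat_lit 152) (nat_lit 1192533217761) (nat_lit 0) (nat_lit 1517775195998) (nat_lit 1) (nat_lit 5) (nat_lit 3) (nat_lit 4) (nat_lit 1) (nat_lit 4) (nat_lit 361) (nat_lit 274) (nat_lit 265))) (XT.nd (nat_lit 78) (nat_lit 0) (nat_lit 0) (XT.lf (nat_lit 0) (nat_lit 1746812531691) (nat_lit 152) (nat_lit 1369017156510) (nat_lit 0) (nat_lit 1746601967402) (nat_lit 1) (nat_lit 5) (nat_lit 3) (nat_lit 4) (nat_lit 1) (nat_lit 4) (nat_lit 362) (nat_lit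 274) (nat_lit 264)) (XT.lf (nat_lit 0) (nat_lit 2009921707556) (nat_lit 152) (nat_lit 1572082140238) (nat_lit 0) (nat_lit 2009702125245) (nat_lit 1) (nat_lit 5) (nat_lit 3) (nat_lit 4) (nat_lit 1) (nat_lit 4) (nat_lit 363) (nat_lit 274) (nat_lit 263))))) (XT.nd (nat_lit 234) (nat_lit 0) (nat_lit 0) (XT.nd (nat_lit 78) (nat_lit 0) (nat_lit 0) (XT.lf (nat_lit 0) (nat_lit 2312450705380) (nat_lit 152) (nat_lit 1805701179497) (nat_lit 0) (nat_lit 2312223281310) (nat_lit 1) (nat_lit 5) (nat_lit 3) (nat_lit 4) (nat_lit 1) (nat_lit 4) (nat_lit 364) (nat_lit 274) (nat_lit 262)) (XT.nd (nat_lit 78) (nat_lit 0) (nat_lit 0) (XT.lf (nat_lit 0) (nat_lit 2660318570771) (nat_lit 152) (nat_lit 2074445081577) (nat_lit 0) (nat_lit 2660084327781) (nat_lit 1) (nat_lit 5) (nat_lit 3) (nat_lit 4) (nat_lit 1) (nat_lit 4) (nat_lit 365) (nat_lit 274) (nat_lit 261)) (XT.lf (nat_lit 0) (nat_lit 3060331414141) (nat_lit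 152) (nat_lit 2383571879344) (nat_lit 0) (nat_lit 3060091241655) (nat_lit 1) (nat_lit 5) (nat_lit 3) (nat_lit 4) (nat_lit 1) (nat_lit 4) (nat_lit 366) (nat_lit 274) (nat_lit 260)))) (XT.nd (nat_lit 156) (nat_lit 0) (nat_lit 0) (XT.nd (nat_lit 78) (nat_lit 0) (nat_lit 0) (XT.lf (nat_lit 0) (nat_lit 3520315573729) (nat_lit 152) (nat_lit 2739129705798) (nat_lit 0) (nat_lit 3520070245159) (nat_lit 1) (nat_lit 5) (nat_lit 3) (nat_lit 4) (nat_lit 1) (nat_lit 4) (nat_lit 367) (nat_lit 274) (nat_lit 259)) (XT.lf (nat_lit 0) (nat_lit 4049270739613) (nat_lit 152) (nat_lit 3148075127109) (nat_lit 0) (nat_lit 4049020927493) (nat_lit 1) (nat_lit 5) (nat_lit 3) (nat_lit 4) (nat_lit 1) (nat_lit 4) (nat_lit 368) (nat_lit 274) (nat_lit 258))) (XT.nd (nat_lit 78) (nat_lit 0) (nat_lit 0) (XT.lf (nat_lit 0) (nat_lit 4657546034605) (nat_lit 152) (nat_lit 3618409249346) (nat_lit 0) (nat_lit 4657292323745) (nat_lit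 1) (nat_lit 5) (nat_lit 3) (nat_lit 4) (nat_lit 1) (nat_lit 4) (nat_lit 369) (nat_lit 274) (nat_lit 257)) (XT.lf (nat_lit 0) (nat_lit 5357042497085) (nat_lit 152) (nat_lit 4159334261857) (nat_lit 0) (nat_lit 5356785396016) (nat_lit 1) (nat_lit 5) (nat_lit 3) (nat_lit 4) (nat_lit 1) (nat_lit 4) (nat_lit 370) (nat_lit 274) (nat_lit 256)))))) (XT.nd (nat_lit 45552) (nat_lit 0) (nat_lit 0) (XT.nd (nat_lit 45240) (nat_lit 0) (nat_lit 0) (XT.nd (nat_lit 78) (nat_lit 0) (nat_lit 0) (XT.lf (nat_lit 0) (nat_lit 6161445927406) (nat_lit 152) (nat_lit 4781433480104) (nat_lit 0) (nat_lit 6161185878329) (nat_lit 1) (nat_lit 5) (nat_lit 3) (nat_lit 4) (nat_lit 1) (nat_lit 4) (nat_lit 371) (nat_lit 274) (nat_lit 255)) (XT.nd (nat_lit 78) (nat_lit 0) (nat_lit 0) (XT.lf (nat_lit 0) (nat_lit 7086494653552) (nat_lit 152) (nat_lit 5496878410532) (nat_lit 0) (nat_lit 7086232040991) (nat_lit 1) (nat_lit 5) (nat_lit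 3) (nat_lit 4) (nat_lit 1) (nat_lit 4) (nat_lit 372) (nat_lit 274) (nat_lit 254)) (XT.lf (nat_lit 0) (nat_lit 8150287454948) (nat_lit 152) (nat_lit 6319666888735) (nat_lit 0) (nat_lit 8150022613269) (nat_lit 1) (nat_lit 5) (nat_lit 3) (nat_lit 4) (nat_lit 1) (nat_lit 4) (nat_lit 373) (nat_lit 274) (nat_lit 253)))) (XT.nd (nat_lit 156) (nat_lit 0) (nat_lit 0) (XT.nd (nat_lit 78) (nat_lit 0) (nat_lit 0) (XT.lf (nat_lit 0) (nat_lit 158059460198) (nat_lit 152) (nat_lit 138718817710) (nat_lit 0) (nat_lit 158059460198) (nat_lit 1) (nat_lit 5) (nat_lit 3) (nat_lit 4) (nat_lit 1) (nat_lit 4) (nat_lit 350) (nat_lit 275) (nat_lit 275)) (XT.lf (nat_lit 0) (nat_lit 366037212812) (nat_lit 152) (nat_lit 313890226243) (nat_lit 0) (nat_lit 365995257443) (nat_lit 1) (nat_lit 5) (nat_lit 3) (nat_lit 4) (nat_lit 1) (nat_lit 4) (nat_lit 351) (nat_lit 275) (nat_lit 274))) (XT.nd (nat_lit 78) (nat_lit 0) (nat_lit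 0) (XT.lf (nat_lit 0) (nat_lit 423226659702) (nat_lit 152) (nat_lit 356249463283) (nat_lit 0) (nat_lit 423148221403) (nat_lit 1) (nat_lit 5) (nat_lit 3) (nat_lit 4) (nat_lit 1) (nat_lit 4) (nat_lit 352) (nat_lit 275) (nat_lit 273)) (XT.lf (nat_lit 0) (nat_lit 488806185028) (nat_lit 152) (nat_lit 405344114223) (nat_lit 0) (nat_lit 488696022443) (nat_lit 1) (nat_lit 5) (nat_lit 3) (nat_lit 4) (nat_lit 1) (nat_lit 4) (nat_lit 353) (nat_lit 275) (nat_lit 272))))) (XT.nd (nat_lit 234) (nat_lit 0) (nat_lit 0) (XT.nd (nat_lit 78) (nat_lit 0) (nat_lit 0) (XT.lf (nat_lit 0) (nat_lit 564058866458) (nat_lit 152) (nat_lit 462134726581) (nat_lit 0) (nat_lit 563921117537) (nat_lit 1) (nat_lit 5) (nat_lit 3) (nat_lit 4) (nat_lit 1) (nat_lit 4) (nat_lit 354) (nat_lit 275) (nat_lit 271)) (XT.nd (nat_lit 78) (nat_lit 0) (nat_lit 0) (XT.lf (nat_lit 0) (nat_lit 650457039065) (nat_lit 152) (nat_lit 527732421034)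 (nat_lit 0) (nat_lit 650295302025) (nat_lit 1) (nat_lit 5) (nat_lit 3) (nat_lit 4) (nat_lit 1) (nat_lit 4) (nat_lit 355) (nat_lit 275) (nat_lit 270)) (XT.lf (nat_lit 0) (nat_lit 749691101877) (nat_lit 152) (nat_lit 603420630734) (nat_lit 0) (nat_lit 749508505604) (nat_lit 1) (nat_lit 5) (nat_lit 3) (nat_lit 4) (nat_lit 1) (nat_lit 4) (nat_lit 356) (nat_lit 275) (nat_lit 269)))) (XT.nd (nat_lit 156) (nat_lit 0) (nat_lit 0) (XT.nd (nat_lit 78) (nat_lit 0) (nat_lit 0) (XT.lf (nat_lit 0) (nat_lit 863702590906) (nat_lit 152) (nat_lit 690680211957) (nat_lit 0) (nat_lit 863501856169) (nat_lit 1) (nat_lit 5) (nat_lit 3) (nat_lit 4) (nat_lit 1) (nat_lit 4) (nat_lit 357) (nat_lit 275) (nat_lit 268)) (XT.lf (nat_lit 0) (nat_lit 994722165720) (nat_lit 152) (nat_lit 791218417380) (nat_lit 0) (nat_lit 994505658406) (nat_lit 1) (nat_lit 5) (nat_lit 3) (nat_lit 4) (nat_lit 1) (nat_lit 4) (nat_lit 358)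 (nat_lit 275) (nat_lit 267))) (XT.nd (nat_lit 78) (nat_lit 0) (nat_lit 0) (XT.lf (nat_lit 0) (nat_lit 1145313252782) (nat_lit 152) (nat_lit 907002298848) (nat_lit 0) (nat_lit 1145083030184) (nat_lit 1) (nat_lit 5) (nat_lit 3) (nat_lit 4) (nat_lit 1) (nat_lit 4) (nat_lit 359) (nat_lit 275) (nat_lit 266)) (XT.lf (nat_lit 0) (nat_lit 1318422199449) (nat_lit 152) (nat_lit 1040297193173) (nat_lit 0) (nat_lit 1318180050516) (nat_lit 1) (nat_lit 5) (nat_lit 3) (nat_lit 4) (nat_lit 1) (nat_lit 4) (nat_lit 360) (nat_lit 275) (nat_lit 265))))))) (XT.nd (nat_lit 45942) (nat_lit 0) (nat_lit 0) (XT.nd (nat_lit 546) (nat_lit 0) (nat_lit 0) (XT.nd (nat_lit 234) (nat_lit 0) (nat_lit 0) (XT.nd (nat_lit 78) (nat_lit 0) (nat_lit 0) (XT.lf (nat_lit 0) (nat_lit 1517435919894) (nat_lit 152) (nat_lit 1193711043938) (nat_lit 0) (nat_lit 1517183400236) (nat_lit 1) (nat_lit 5) (nat_lit 3) (nat_lit 4) (nat_lit 1)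 (nat_lit 4) (nat_lit 361) (nat_lit 275) (nat_lit 264)) (XT.nd (nat_lit 78) (nat_lit 0) (nat_lit 0) (XT.lf (nat_lit 0) (nat_lit 1746248160822) (nat_lit 152) (nat_lit 1370245426486) (nat_lit 0) (nat_lit 1745986623141) (nat_lit 1) (nat_lit 5) (nat_lit 3) (nat_lit 4) (nat_lit 1) (nat_lit 4) (nat_lit 362) (nat_lit 275) (nat_lit 263)) (XT.lf (nat_lit 0) (nat_lit 2009335683467) (nat_lit 152) (nat_lit 1573354274387) (nat_lit 0) (nat_lit 2009066304028) (nat_lit 1) (nat_lit 5) (nat_lit 3) (nat_lit 4) (nat_lit 1) (nat_lit 4) (nat_lit 363) (nat_lit 275) (nat_lit 262)))) (XT.nd (nat_lit 156) (nat_lit 0) (nat_lit 0) (XT.nd (nat_lit 78) (nat_lit 0) (nat_lit 0) (XT.lf (nat_lit 0) (nat_lit 2311845852405) (nat_lit 152) (nat_lit 1807011456405) (nat_lit 0) (nat_lit 2311569654045) (nat_lit 1) (nat_lit 5) (nat_lit 3) (nat_lit 4) (nat_lit 1) (nat_lit 4) (nat_lit 364) (nat_lit 275) (nat_lit 261)) (XT.lf (nat_lit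 0) (nat_lit 2659697344852) (nat_lit 152) (nat_lit 2075788526101) (nat_lit 0) (nat_lit 2659415216997) (nat_lit 1) (nat_lit 5) (nat_lit 3) (nat_lit 4) (nat_lit 1) (nat_lit 4) (nat_lit 365) (nat_lit 275) (nat_lit 260))) (XT.nd (nat_lit 78) (nat_lit 0) (nat_lit 0) (XT.lf (nat_lit 0) (nat_lit 3059695950879) (nat_lit 152) (nat_lit 2384944165273) (nat_lit 0) (nat_lit 3059408666940) (nat_lit 1) (nat_lit 5) (nat_lit 3) (nat_lit 4) (nat_lit 1) (nat_lit 4) (nat_lit 366) (nat_lit 275) (nat_lit 259)) (XT.lf (nat_lit 0) (nat_lit 3519667730168) (nat_lit 152) (nat_lit 2740527071211) (nat_lit 0) (nat_lit 3519375962678) (nat_lit 1) (nat_lit 5) (nat_lit 3) (nat_lit 4) (nat_lit 1) (nat_lit 4) (nat_lit 367) (nat_lit 275) (nat_lit 258))))) (XT.nd (nat_lit 234) (nat_lit 0) (nat_lit 0) (XT.nd (nat_lit 78) (nat_lit 0) (nat_lit 0) (XT.lf (nat_lit 0) (nat_lit 4048612130576) (nat_lit 152) (nat_lit 3149494300768) (nat_lit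 0) (nat_lit 4048316464346) (nat_lit 1) (nat_lit 5) (nat_lit 3) (nat_lit 4) (nat_lit 1) (nat_lit 4) (nat_lit 368) (nat_lit 275) (nat_lit 257)) (XT.nd (nat_lit 78) (nat_lit 0) (nat_lit 0) (XT.lf (nat_lit 0) (nat_lit 4656878064284) (nat_lit 152) (nat_lit 3619847386697) (nat_lit 0) (nat_lit 4656579007846) (nat_lit 1) (nat_lit 5) (nat_lit 3) (nat_lit 4) (nat_lit 1) (nat_lit 4) (nat_lit 369) (nat_lit 275) (nat_lit 256)) (XT.lf (nat_lit 0) (nat_lit 5356366386516) (nat_lit 152) (nat_lit 4160788889376) (nat_lit 0) (nat_lit 5356064382071) (nat_lit 1) (nat_lit 5) (nat_lit 3) (nat_lit 4) (nat_lit 1) (nat_lit 4) (nat_lit 370) (nat_lit 275) (nat_lit 255)))) (XT.nd (nat_lit 156) (nat_lit 0) (nat_lit 0) (XT.nd (nat_lit 78) (nat_lit 0) (nat_lit 0) (XT.lf (nat_lit 0) (nat_lit 6160762738361) (nat_lit 152) (nat_lit 4782902446899) (nat_lit 0) (nat_lit 6160458170431) (nat_lit 1) (nat_lit 5) (nat_lit 3) (nat_lit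 4) (nat_lit 1) (nat_lit 4) (nat_lit 371) (nat_lit 275) (nat_lit 254)) (XT.lf (nat_lit 0) (nat_lit 7085805309311) (nat_lit 152) (nat_lit 5498359846262) (nat_lit 0) (nat_lit 7085498512264) (nat_lit 1) (nat_lit 5) (nat_lit 3) (nat_lit 4) (nat_lit 1) (nat_lit 4) (nat_lit 372) (nat_lit 275) (nat_lit 253))) (XT.nd (nat_lit 44928) (nat_lit 0) (nat_lit 0) (XT.lf (nat_lit 0) (nat_lit 8149592758362) (nat_lit 152) (nat_lit 6321159167018) (nat_lit 0) (nat_lit 8149284022952) (nat_lit 1) (nat_lit 5) (nat_lit 3) (nat_lit 4) (nat_lit 1) (nat_lit 4) (nat_lit 373) (nat_lit 275) (nat_lit 252)) (XT.lf (nat_lit 0) (nat_lit 117246889728) (nat_lit 152) (nat_lit 109615652442) (nat_lit 0) (nat_lit 117246889728) (nat_lit 1) (nat_lit 5) (nat_lit 3) (nat_lit 4) (nat_lit 1) (nat_lit 4) (nat_lit 348) (nat_lit 276) (nat_lit 276)))))) (XT.nd (nat_lit 546) (nat_lit 0) (nat_lit 0) (XT.nd (nat_lit 234) (nat_lit 0) (nat_lit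 0) (XT.nd (nat_lit 78) (nat_lit 0) (nat_lit 0) (XT.lf (nat_lit 0) (nat_lit 272543368885) (nat_lit 152) (nat_lit 246178487953) (nat_lit 0) (nat_lit 272495120211) (nat_lit 1) (nat_lit 5) (nat_lit 3) (nat_lit 4) (nat_lit 1) (nat_lit 4) (nat_lit 349) (nat_lit 276) (nat_lit 275)) (XT.nd (nat_lit 78) (nat_lit 0) (nat_lit 0) (XT.lf (nat_lit 0) (nat_lit 316051318932) (nat_lit 152) (nat_lit 277672319715) (nat_lit 0) (nat_lit 315961114889) (nat_lit 1) (nat_lit 5) (nat_lit 3) (nat_lit 4) (nat_lit 1) (nat_lit 4) (nat_lit 350) (nat_lit 276) (nat_lit 274)) (XT.lf (nat_lit 0) (nat_lit 365868872098) (nat_lit 152) (nat_lit 314328983838) (nat_lit 0) (nat_lit 365742185125) (nat_lit 1) (nat_lit 5) (nat_lit 3) (nat_lit 4) (nat_lit 1) (nat_lit 4) (nat_lit 351) (nat_lit 276) (nat_lit 273)))) (XT.nd (nat_lit 156) (nat_lit 0) (nat_lit 0) (XT.nd (nat_lit 78) (nat_lit 0) (nat_lit 0) (XT.lf (nat_lit 0) (nat_lit 422970719640)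 (nat_lit 152) (nat_lit 356865675922) (nat_lit 0) (nat_lit 422812308381) (nat_lit 1) (nat_lit 5) (nat_lit 3) (nat_lit 4) (nat_lit 1) (nat_lit 4) (nat_lit 352) (nat_lit 276) (nat_lit 272)) (XT.lf (nat_lit 0) (nat_lit 488474071620) (nat_lit 152) (nat_lit 406114635595) (nat_lit 0) (nat_lit 488288074024) (nat_lit 1) (nat_lit 5) (nat_lit 3) (nat_lit 4) (nat_lit 1) (nat_lit 4) (nat_lit 353) (nat_lit 276) (nat_lit 271))) (XT.nd (nat_lit 78) (nat_lit 0) (nat_lit 0) (XT.lf (nat_lit 0) (nat_lit 563660515358) (nat_lit 152) (nat_lit 463039429461) (nat_lit 0) (nat_lit 563450529644) (nat_lit 1) (nat_lit 5) (nat_lit 3) (nat_lit 4) (nat_lit 1) (nat_lit 4) (nat_lit 354) (nat_lit 276) (nat_lit 270)) (XT.lf (nat_lit 0) (nat_lit 650001089971) (nat_lit 152) (nat_lit 528753803485) (nat_lit 0) (nat_lit 649770245024) (nat_lit 1) (nat_lit 5) (nat_lit 3) (nat_lit 4) (nat_lit 1) (nat_lit 4) (nat_lit 355) (nat_lit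 276) (nat_lit 269))))) (XT.nd (nat_lit 312) (nat_lit 0) (nat_lit 0) (XT.nd (nat_lit 156) (nat_lit 0) (nat_lit 0) (XT.nd (nat_lit 78) (nat_lit 0) (nat_lit 0) (XT.lf (nat_lit 0) (nat_lit 749185067572) (nat_lit 152) (nat_lit 604543473682) (nat_lit 0) (nat_lit 748936084161) (nat_lit 1) (nat_lit 5) (nat_lit 3) (nat_lit 4) (nat_lit 1) (nat_lit 4) (nat_lit 356) (nat_lit 276) (nat_lit 268)) (XT.lf (nat_lit 0) (nat_lit 863153004243) (nat_lit 152) (nat_lit 691891281425) (nat_lit 0) (nat_lit 862888248255) (nat_lit 1) (nat_lit 5) (nat_lit 3) (nat_lit 4) (nat_lit 1) (nat_lit 4) (nat_lit 357) (nat_lit 276) (nat_lit 267))) (XT.nd (nat_lit 78) (nat_lit 0) (nat_lit 0) (XT.lf (nat_lit 0) (nat_lit 994134707441) (nat_lit 152) (nat_lit 792506205560) (nat_lit 0) (nat_lit 993856236169) (nat_lit 1) (nat_lit 5) (nat_lit 3) (nat_lit 4) (nat_lit 1) (nat_lit 4) (nat_lit 358) (nat_lit 276) (nat_lit 266)) (XT.lf (nat_lit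 0) (nat_lit 1144692862664) (nat_lit 152) (nat_lit 908356798952) (nat_lit 0) (nat_lit 1144402465057) (nat_lit 1) (nat_lit 5) (nat_lit 3) (nat_lit 4) (nat_lit 1) (nat_lit 4) (nat_lit 359) (nat_lit 276) (nat_lit 265)))) (XT.nd (nat_lit 156) (nat_lit 0) (nat_lit 0) (XT.nd (nat_lit 78) (nat_lit 0) (nat_lit 0) (XT.lf (nat_lit 0) (nat_lit 1317773172949) (nat_lit 152) (nat_lit 1041709703645) (nat_lit 0) (nat_lit 1317472404616) (nat_lit 1) (nat_lit 5) (nat_lit 3) (nat_lit 4) (nat_lit 1) (nat_lit 4) (nat_lit 360) (nat_lit 276) (nat_lit 264)) (XT.lf (nat_lit 0) (nat_lit 1516761992192) (nat_lit 152) (nat_lit 1195173998209) (nat_lit 0) (nat_lit 1516452205837) (nat_lit 1) (nat_lit 5) (nat_lit 3) (nat_lit 4) (nat_lit 1) (nat_lit 4) (nat_lit 361) (nat_lit 276) (nat_lit 263))) (XT.nd (nat_lit 78) (nat_lit 0) (nat_lit 0) (XT.lf (nat_lit 0) (nat_lit 1745552579900) (nat_lit 152) (nat_lit 1371752244929) (nat_lit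 0) (nat_lit 1745234951787) (nat_lit 1) (nat_lit 5) (nat_lit 3) (nat_lit 4) (nat_lit 1) (nat_lit 4) (nat_lit 362) (nat_lit 276) (nat_lit 262)) (XT.lf (nat_lit 0) (nat_lit 2008621273660) (nat_lit 152) (nat_lit 1574899235589) (nat_lit 0) (nat_lit 2008296826626) (nat_lit 1) (nat_lit 5) (nat_lit 3) (nat_lit 4) (nat_lit 1) (nat_lit 4) (nat_lit 363) (nat_lit 276) (nat_lit 261))))))))
noncomputable def xc3 : XT := (XT.nd (nat_lit 46956) (nat_lit 0) (nat_lit 0) (XT.nd (nat_lit 45786) (nat_lit 0) (nat_lit 0) (XT.nd (nat_lit 546) (nat_lit 0) (nat_lit 0) (XT.nd (nat_lit 234) (nat_lit 0) (nat_lit 0) (XT.nd (nat_lit 78) (nat_lit 0) (nat_lit 0) (XT.lf (nat_lit 0) (nat_lit 2311115069653) (nat_lit 152) (nat_lit 1808589585224) (nat_lit 0) (nat_lit 2310784693123) (nat_lit 1) (nat_lit 5) (nat_lit 3) (nat_lit 4) (nat_lit 1) (nat_lit 4) (nat_lit 364) (nat_lit 276) (nat_lit 260)) (XT.nd (nat_lit 78) (nat_lit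 0) (nat_lit 0) (XT.lf (nat_lit 0) (nat_lit 2658952324757) (nat_lit 152) (nat_lit 2077395496325) (nat_lit 0) (nat_lit 2658616792144) (nat_lit 1) (nat_lit 5) (nat_lit 3) (nat_lit 4) (nat_lit 1) (nat_lit 4) (nat_lit 365) (nat_lit 276) (nat_lit 259)) (XT.lf (nat_lit 0) (nat_lit 3058938550485) (nat_lit 152) (nat_lit 2386576214981) (nat_lit 0) (nat_lit 3058598534321) (nat_lit 1) (nat_lit 5) (nat_lit 3) (nat_lit 4) (nat_lit 1) (nat_lit 4) (nat_lit 366) (nat_lit 276) (nat_lit 258)))) (XT.nd (nat_lit 156) (nat_lit 0) (nat_lit 0) (XT.nd (nat_lit 78) (nat_lit 0) (nat_lit 0) (XT.lf (nat_lit 0) (nat_lit 3518899564298) (nat_lit 152) (nat_lit 2742180929165) (nat_lit 0) (nat_lit 3518555649394) (nat_lit 1) (nat_lit 5) (nat_lit 3) (nat_lit 4) (nat_lit 1) (nat_lit 4) (nat_lit 367) (nat_lit 276) (nat_lit 257)) (XT.lf (nat_lit 0) (nat_lit 4047834603421) (nat_lit 152) (nat_lit 3151167122414) (nat_lit 0) (nat_lit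 4047487298309) (nat_lit 1) (nat_lit 5) (nat_lit 3) (nat_lit 4) (nat_lit 1) (nat_lit 4) (nat_lit 368) (nat_lit 276) (nat_lit 256))) (XT.nd (nat_lit 78) (nat_lit 0) (nat_lit 0) (XT.lf (nat_lit 0) (nat_lit 4656092396882) (nat_lit 152) (nat_lit 3621536698511) (nat_lit 0) (nat_lit 4655742143762) (nat_lit 1) (nat_lit 5) (nat_lit 3) (nat_lit 4) (nat_lit 1) (nat_lit 4) (nat_lit 369) (nat_lit 276) (nat_lit 255)) (XT.lf (nat_lit 0) (nat_lit 5355573640639) (nat_lit 152) (nat_lit 4162492540465) (nat_lit 0) (nat_lit 5355220824035) (nat_lit 1) (nat_lit 5) (nat_lit 3) (nat_lit 4) (nat_lit 1) (nat_lit 4) (nat_lit 370) (nat_lit 276) (nat_lit 254))))) (XT.nd (nat_lit 44928) (nat_lit 0) (nat_lit 0) (XT.nd (nat_lit 78) (nat_lit 0) (nat_lit 0) (XT.lf (nat_lit 0) (nat_lit 6159963837288) (nat_lit 152) (nat_lit 4784618566924) (nat_lit 0) (nat_lit 6159608791566) (nat_lit 1) (nat_lit 5) (nat_lit 3) (nat_lit 4) (nat_lit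 1) (nat_lit 4) (nat_lit 371) (nat_lit 276) (nat_lit 253)) (XT.nd (nat_lit 78) (nat_lit 0) (nat_lit 0) (XT.lf (nat_lit 0) (nat_lit 7085001055893) (nat_lit 152) (nat_lit 5500086808840) (nat_lit 0) (nat_lit 7084644071809) (nat_lit 1) (nat_lit 5) (nat_lit 3) (nat_lit 4) (nat_lit 1) (nat_lit 4) (nat_lit 372) (nat_lit 276) (nat_lit 252)) (XT.lf (nat_lit 0) (nat_lit 8148783850732) (nat_lit 152) (nat_lit 6322895557902) (nat_lit 0) (nat_lit 8148425181115) (nat_lit 1) (nat_lit 5) (nat_lit 3) (nat_lit 4) (nat_lit 1) (nat_lit 4) (nat_lit 373) (nat_lit 276) (nat_lit 251)))) (XT.nd (nat_lit 156) (nat_lit 0) (nat_lit 0) (XT.nd (nat_lit 78) (nat_lit 0) (nat_lit 0) (XT.lf (nat_lit 0) (nat_lit 86046407498) (nat_lit 152) (nat_lit 88318122861) (nat_lit 0) (nat_lit 86046407498) (nat_lit 1) (nat_lit 5) (nat_lit 3) (nat_lit 4) (nat_lit 1) (nat_lit 4) (nat_lit 346) (nat_lit 277) (nat_lit 277)) (XT.lf (nat_lit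 0) (nat_lit 201213588133) (nat_lit 152) (nat_lit 196303543016) (nat_lit 0) (nat_lit 201158102157) (nat_lit 1) (nat_lit 5) (nat_lit 3) (nat_lit 4) (nat_lit 1) (nat_lit 4) (nat_lit 347) (nat_lit 277) (nat_lit 276))) (XT.nd (nat_lit 78) (nat_lit 0) (nat_lit 0) (XT.lf (nat_lit 0) (nat_lit 234416037774) (nat_lit 152) (nat_lit 219501191824) (nat_lit 0) (nat_lit 234312303124) (nat_lit 1) (nat_lit 5) (nat_lit 3) (nat_lit 4) (nat_lit 1) (nat_lit 4) (nat_lit 348) (nat_lit 277) (nat_lit 275)) (XT.lf (nat_lit 0) (nat_lit 272349777065) (nat_lit 152) (nat_lit 246683059187) (nat_lit 0) (nat_lit 272204087046) (nat_lit 1) (nat_lit 5) (nat_lit 3) (nat_lit 4) (nat_lit 1) (nat_lit 4) (nat_lit 349) (nat_lit 277) (nat_lit 274)))))) (XT.nd (nat_lit 546) (nat_lit 0) (nat_lit 0) (XT.nd (nat_lit 234) (nat_lit 0) (nat_lit 0) (XT.nd (nat_lit 78) (nat_lit 0) (nat_lit 0) (XT.lf (nat_lit 0) (nat_lit 315756987861) (nat_lit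 152) (nat_lit 278380964250) (nat_lit 0) (nat_lit 315574814913) (nat_lit 1) (nat_lit 5) (nat_lit 3) (nat_lit 4) (nat_lit 1) (nat_lit 4) (nat_lit 350) (nat_lit 277) (nat_lit 273)) (XT.nd (nat_lit 78) (nat_lit 0) (nat_lit 0) (XT.lf (nat_lit 0) (nat_lit 365486941679) (nat_lit 152) (nat_lit 315215083416) (nat_lit 0) (nat_lit 365273044444) (nat_lit 1) (nat_lit 5) (nat_lit 3) (nat_lit 4) (nat_lit 1) (nat_lit 4) (nat_lit 351) (nat_lit 277) (nat_lit 272)) (XT.lf (nat_lit 0) (nat_lit 422512615875) (nat_lit 152) (nat_lit 357906084233) (nat_lit 0) (nat_lit 422271132304) (nat_lit 1) (nat_lit 5) (nat_lit 3) (nat_lit 4) (nat_lit 1) (nat_lit 4) (nat_lit 352) (nat_lit 277) (nat_lit 271)))) (XT.nd (nat_lit 156) (nat_lit 0) (nat_lit 0) (XT.nd (nat_lit 78) (nat_lit 0) (nat_lit 0) (XT.lf (nat_lit 0) (nat_lit 487949730162) (nat_lit 152) (nat_lit 407289225414) (nat_lit 0) (nat_lit 487684258473) (nat_lit 1) (nat_lit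 5) (nat_lit 3) (nat_lit 4) (nat_lit 1) (nat_lit 4) (nat_lit 353) (nat_lit 277) (nat_lit 270)) (XT.lf (nat_lit 0) (nat_lit 563078575907) (nat_lit 152) (nat_lit 464330698851) (nat_lit 0) (nat_lit 562792244985) (nat_lit 1) (nat_lit 5) (nat_lit 3) (nat_lit 4) (nat_lit 1) (nat_lit 4) (nat_lit 354) (nat_lit 277) (nat_lit 269))) (XT.nd (nat_lit 78) (nat_lit 0) (nat_lit 0) (XT.lf (nat_lit 0) (nat_lit 649369065309) (nat_lit 152) (nat_lit 530146533373) (nat_lit 0) (nat_lit 649064595923) (nat_lit 1) (nat_lit 5) (nat_lit 3) (nat_lit 4) (nat_lit 1) (nat_lit 4) (nat_lit 355) (nat_lit 277) (nat_lit 268)) (XT.lf (nat_lit 0) (nat_lit 748509490552) (nat_lit 152) (nat_lit 606024430089) (nat_lit 0) (nat_lit 748189248588) (nat_lit 1) (nat_lit 5) (nat_lit 3) (nat_lit 4) (nat_lit 1) (nat_lit 4) (nat_lit 356) (nat_lit 277) (nat_lit 267))))) (XT.nd (nat_lit 312) (nat_lit 0) (nat_lit 0) (XT.nd (nat_lit 156) (nat_lit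 0) (nat_lit 0) (XT.nd (nat_lit 78) (nat_lit 0) (nat_lit 0) (XT.lf (nat_lit 0) (nat_lit 862439555607) (nat_lit 152) (nat_lit 693448956544) (nat_lit 0) (nat_lit 862105598359) (nat_lit 1) (nat_lit 5) (nat_lit 3) (nat_lit 4) (nat_lit 1) (nat_lit 4) (nat_lit 357) (nat_lit 277) (nat_lit 266)) (XT.lf (nat_lit 0) (nat_lit 993388326966) (nat_lit 152) (nat_lit 794130592603) (nat_lit 0) (nat_lit 993042443384) (nat_lit 1) (nat_lit 5) (nat_lit 3) (nat_lit 4) (nat_lit 1) (nat_lit 4) (nat_lit 358) (nat_lit 277) (nat_lit 265))) (XT.nd (nat_lit 78) (nat_lit 0) (nat_lit 0) (XT.lf (nat_lit 0) (nat_lit 1143917845807) (nat_lit 152) (nat_lit 910039196363) (nat_lit 0) (nat_lit 1143561591499) (nat_lit 1) (nat_lit 5) (nat_lit 3) (nat_lit 4) (nat_lit 1) (nat_lit 4) (nat_lit 359) (nat_lit 277) (nat_lit 264)) (XT.lf (nat_lit 0) (nat_lit 1316973254889) (nat_lit 152) (nat_lit 1043442544855) (nat_lit 0) (nat_lit 1316607982559)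 (nat_lit 1) (nat_lit 5) (nat_lit 3) (nat_lit 4) (nat_lit 1) (nat_lit 4) (nat_lit 360) (nat_lit 277) (nat_lit 263)))) (XT.nd (nat_lit 156) (nat_lit 0) (nat_lit 0) (XT.nd (nat_lit 78) (nat_lit 0) (nat_lit 0) (XT.lf (nat_lit 0) (nat_lit 1515940420913) (nat_lit 152) (nat_lit 1196950703592) (nat_lit 0) (nat_lit 1515567306825) (nat_lit 1) (nat_lit 5) (nat_lit 3) (nat_lit 4) (nat_lit 1) (nat_lit 4) (nat_lit 361) (nat_lit 277) (nat_lit 262)) (XT.lf (nat_lit 0) (nat_lit 1744712179736) (nat_lit 152) (nat_lit 1373567093071) (nat_lit 0) (nat_lit 1744332246727) (nat_lit 1) (nat_lit 5) (nat_lit 3) (nat_lit 4) (nat_lit 1) (nat_lit 4) (nat_lit 362) (nat_lit 277) (nat_lit 261))) (XT.nd (nat_lit 78) (nat_lit 0) (nat_lit 0) (XT.lf (nat_lit 0) (nat_lit 2007764500551) (nat_lit 152) (nat_lit 1576747251348) (nat_lit 0) (nat_lit 2007378638046) (nat_lit 1) (nat_lit 5) (nat_lit 3) (nat_lit 4) (nat_lit 1) (nat_lit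 4) (nat_lit 363) (nat_lit 277) (nat_lit 260)) (XT.lf (nat_lit 0) (nat_lit 2310244059200) (nat_lit 152) (nat_lit 1810466442388) (nat_lit 0) (nat_lit 2309853040612) (nat_lit 1) (nat_lit 5) (nat_lit 3) (nat_lit 4) (nat_lit 1) (nat_lit 4) (nat_lit 364) (nat_lit 277) (nat_lit 259))))))) (XT.nd (nat_lit 45630) (nat_lit 0) (nat_lit 0) (XT.nd (nat_lit 546) (nat_lit 0) (nat_lit 0) (XT.nd (nat_lit 234) (nat_lit 0) (nat_lit 0) (XT.nd (nat_lit 78) (nat_lit 0) (nat_lit 0) (XT.lf (nat_lit 0) (nat_lit 2658068934006) (nat_lit 152) (nat_lit 2079297432972) (nat_lit 0) (nat_lit 2657673431867) (nat_lit 1) (nat_lit 5) (nat_lit 3) (nat_lit 4) (nat_lit 1) (nat_lit 4) (nat_lit 365) (nat_lit 277) (nat_lit 258)) (XT.nd (nat_lit 78) (nat_lit 0) (nat_lit 0) (XT.lf (nat_lit 0) (nat_lit 3058044394258) (nat_lit 152) (nat_lit 2388499959874) (nat_lit 0) (nat_lit 3057644993379) (nat_lit 1) (nat_lit 5) (nat_lit 3) (nat_lit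 4) (nat_lit 1) (nat_lit 4) (nat_lit 366) (nat_lit 277) (nat_lit 257)) (XT.lf (nat_lit 0) (nat_lit 3517996046786) (nat_lit 152) (nat_lit 2744123637750) (nat_lit 0) (nat_lit 3517593255699) (nat_lit 1) (nat_lit 5) (nat_lit 3) (nat_lit 4) (nat_lit 1) (nat_lit 4) (nat_lit 367) (nat_lit 277) (nat_lit 256)))) (XT.nd (nat_lit 156) (nat_lit 0) (nat_lit 0) (XT.nd (nat_lit 78) (nat_lit 0) (nat_lit 0) (XT.lf (nat_lit 0) (nat_lit 4046922945663) (nat_lit 152) (nat_lit 3153126321167) (nat_lit 0) (nat_lit 4046517206568) (nat_lit 1) (nat_lit 5) (nat_lit 3) (nat_lit 4) (nat_lit 1) (nat_lit 4) (nat_lit 368) (nat_lit 277) (nat_lit 255)) (XT.lf (nat_lit 0) (nat_lit 4655173660648) (nat_lit 152) (nat_lit 3623510236539) (nat_lit 0) (nat_lit 4654765358068) (nat_lit 1) (nat_lit 5) (nat_lit 3) (nat_lit 4) (nat_lit 1) (nat_lit 4) (nat_lit 369) (nat_lit 277) (nat_lit 254))) (XT.nd (nat_lit 78) (nat_lit 0) (nat_lit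 0) (XT.lf (nat_lit 0) (nat_lit 5354648749209) (nat_lit 152) (nat_lit 4164478547429) (nat_lit 0) (nat_lit 5354238217512) (nat_lit 1) (nat_lit 5) (nat_lit 3) (nat_lit 4) (nat_lit 1) (nat_lit 4) (nat_lit 370) (nat_lit 277) (nat_lit 253)) (XT.lf (nat_lit 0) (nat_lit 6159033593513) (nat_lit 152) (nat_lit 4786615416441) (nat_lit 0) (nat_lit 6158621123453) (nat_lit 1) (nat_lit 5) (nat_lit 3) (nat_lit 4) (nat_lit 1) (nat_lit 4) (nat_lit 371) (nat_lit 277) (nat_lit 252))))) (XT.nd (nat_lit 44772) (nat_lit 0) (nat_lit 0) (XT.nd (nat_lit 78) (nat_lit 0) (nat_lit 0) (XT.lf (nat_lit 0) (nat_lit 7084066157905) (nat_lit 152) (nat_lit 5502093086663) (nat_lit 0) (nat_lit 7083652002313) (nat_lit 1) (nat_lit 5) (nat_lit 3) (nat_lit 4) (nat_lit 1) (nat_lit 4) (nat_lit 372) (nat_lit 277) (nat_lit 251)) (XT.nd (nat_lit 44616) (nat_lit 0) (nat_lit 0) (XT.lf (nat_lit 0) (nat_lit 8147844905602) (nat_lit 152) (nat_lit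 6324910034253) (nat_lit 0) (nat_lit 8147429284329) (nat_lit 1) (nat_lit 5) (nat_lit 3) (nat_lit 4) (nat_lit 1) (nat_lit 4) (nat_lit 373) (nat_lit 277) (nat_lit 250)) (XT.lf (nat_lit 0) (nat_lit 62062997591) (nat_lit 152) (nat_lit 73029071954) (nat_lit 0) (nat_lit 62062997591) (nat_lit 1) (nat_lit 5) (nat_lit 3) (nat_lit 4) (nat_lit 1) (nat_lit 4) (nat_lit 344) (nat_lit 278) (nat_lit 278)))) (XT.nd (nat_lit 156) (nat_lit 0) (nat_lit 0) (XT.nd (nat_lit 78) (nat_lit 0) (nat_lit 0) (XT.lf (nat_lit 0) (nat_lit 146547772980) (nat_lit 152) (nat_lit 160114504995) (nat_lit 0) (nat_lit 146483964108) (nat_lit 1) (nat_lit 5) (nat_lit 3) (nat_lit 4) (nat_lit 1) (nat_lit 4) (nat_lit 345) (nat_lit 278) (nat_lit 277)) (XT.lf (nat_lit 0) (nat_lit 172003412061) (nat_lit 152) (nat_lit 176946615703) (nat_lit 0) (nat_lit 171884117214) (nat_lit 1) (nat_lit 5) (nat_lit 3) (nat_lit 4) (nat_lit 1) (nat_lit 4) (nat_lit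 346) (nat_lit 278) (nat_lit 276))) (XT.nd (nat_lit 78) (nat_lit 0) (nat_lit 0) (XT.lf (nat_lit 0) (nat_lit 200990957539) (nat_lit 152) (nat_lit 196883799936) (nat_lit 0) (nat_lit 200823414017) (nat_lit 1) (nat_lit 5) (nat_lit 3) (nat_lit 4) (nat_lit 1) (nat_lit 4) (nat_lit 347) (nat_lit 278) (nat_lit 275)) (XT.lf (nat_lit 0) (nat_lit 234077557042) (nat_lit 152) (nat_lit 220316133039) (nat_lit 0) (nat_lit 233868058152) (nat_lit 1) (nat_lit 5) (nat_lit 3) (nat_lit 4) (nat_lit 1) (nat_lit 4) (nat_lit 348) (nat_lit 278) (nat_lit 274)))))) (XT.nd (nat_lit 546) (nat_lit 0) (nat_lit 0) (XT.nd (nat_lit 234) (nat_lit 0) (nat_lit 0) (XT.nd (nat_lit 78) (nat_lit 0) (nat_lit 0) (XT.lf (nat_lit 0) (nat_lit 271910557083) (nat_lit 152) (nat_lit 247702073702) (nat_lit 0) (nat_lit 271664575263) (nat_lit 1) (nat_lit 5) (nat_lit 3) (nat_lit 4) (nat_lit 1) (nat_lit 4) (nat_lit 349) (nat_lit 278) (nat_lit 273))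 (XT.nd (nat_lit 78) (nat_lit 0) (nat_lit 0) (XT.lf (nat_lit 0) (nat_lit 315230168531) (nat_lit 152) (nat_lit 279577433808) (nat_lit 0) (nat_lit 314952462425) (nat_lit 1) (nat_lit 5) (nat_lit 3) (nat_lit 4) (nat_lit 1) (nat_lit 4) (nat_lit 350) (nat_lit 278) (nat_lit 272)) (XT.lf (nat_lit 0) (nat_lit 364883949003) (nat_lit 152) (nat_lit 316565861707) (nat_lit 0) (nat_lit 364578656560) (nat_lit 1) (nat_lit 5) (nat_lit 3) (nat_lit 4) (nat_lit 1) (nat_lit 4) (nat_lit 351) (nat_lit 278) (nat_lit 271)))) (XT.nd (nat_lit 156) (nat_lit 0) (nat_lit 0) (XT.nd (nat_lit 78) (nat_lit 0) (nat_lit 0) (XT.lf (nat_lit 0) (nat_lit 421843385507) (nat_lit 152) (nat_lit 359391044032) (nat_lit 0) (nat_lit 421514104946) (nat_lit 1) (nat_lit 5) (nat_lit 3) (nat_lit 4) (nat_lit 1) (nat_lit 4) (nat_lit 352) (nat_lit 278) (nat_lit 270)) (XT.lf (nat_lit 0) (nat_lit 487222901801) (nat_lit 152) (nat_lit 408890864785)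 (nat_lit 0) (nat_lit 486872762006) (nat_lit 1) (nat_lit 5) (nat_lit 3) (nat_lit 4) (nat_lit 1) (nat_lit 4) (nat_lit 353) (nat_lit 278) (nat_lit 269))) (XT.nd (nat_lit 78) (nat_lit 0) (nat_lit 0) (XT.lf (nat_lit 0) (nat_lit 562301662334) (nat_lit 152) (nat_lit 466033798719) (nat_lit 0) (nat_lit 561933384076) (nat_lit 1) (nat_lit 5) (nat_lit 3) (nat_lit 4) (nat_lit 1) (nat_lit 4) (nat_lit 354) (nat_lit 278) (nat_lit 268)) (XT.lf (nat_lit 0) (nat_lit 648548599378) (nat_lit 152) (nat_lit 531937859760) (nat_lit 0) (nat_lit 648164548543) (nat_lit 1) (nat_lit 5) (nat_lit 3) (nat_lit 4) (nat_lit 1) (nat_lit 4) (nat_lit 355) (nat_lit 278) (nat_lit 267))))) (XT.nd (nat_lit 312) (nat_lit 0) (nat_lit 0) (XT.nd (nat_lit 156) (nat_lit 0) (nat_lit 0) (XT.nd (nat_lit 78) (nat_lit 0) (nat_lit 0) (XT.lf (nat_lit 0) (nat_lit 747651153005) (nat_lit 152) (nat_lit 607892475188) (nat_lit 0) (nat_lit 747253386885)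 (nat_lit 1) (nat_lit 5) (nat_lit 3) (nat_lit 4) (nat_lit 1) (nat_lit 4) (nat_lit 356) (nat_lit 278) (nat_lit 266)) (XT.lf (nat_lit 0) (nat_lit 861548286221) (nat_lit 152) (nat_lit 695383713567) (nat_lit 0) (nat_lit 861138593767) (nat_lit 1) (nat_lit 5) (nat_lit 3) (nat_lit 4) (nat_lit 1) (nat_lit 4) (nat_lit 357) (nat_lit 278) (nat_lit 265))) (XT.nd (nat_lit 78) (nat_lit 0) (nat_lit 0) (XT.lf (nat_lit 0) (nat_lit 992468421198) (nat_lit 152) (nat_lit 796123359994) (nat_lit 0) (nat_lit 992048358018) (nat_lit 1) (nat_lit 5) (nat_lit 3) (nat_lit 4) (nat_lit 1) (nat_lit 4) (nat_lit 358) (nat_lit 278) (nat_lit 264)) (XT.lf (nat_lit 0) (nat_lit 1142973038836) (nat_lit 152) (nat_lit 912082407553) (nat_lit 0) (nat_lit 1142543957634) (nat_lit 1) (nat_lit 5) (nat_lit 3) (nat_lit 4) (nat_lit 1) (nat_lit 4) (nat_lit 359) (nat_lit 278) (nat_lit 263)))) (XT.nd (nat_lit 156) (nat_lit 0) (nat_lit 0) (XT.nd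 (nat_lit 78) (nat_lit 0) (nat_lit 0) (XT.lf (nat_lit 0) (nat_lit 1316006794700) (nat_lit 152) (nat_lit 1045529620218) (nat_lit 0) (nat_lit 1315569871740) (nat_lit 1) (nat_lit 5) (nat_lit 3) (nat_lit 4) (nat_lit 1) (nat_lit 4) (nat_lit 360) (nat_lit 278) (nat_lit 262)) (XT.lf (nat_lit 0) (nat_lit 1514955131838) (nat_lit 152) (nat_lit 1199075921714) (nat_lit 0) (nat_lit 1514511389957) (nat_lit 1) (nat_lit 5) (nat_lit 3) (nat_lit 4) (nat_lit 1) (nat_lit 4) (nat_lit 361) (nat_lit 278) (nat_lit 261))) (XT.nd (nat_lit 78) (nat_lit 0) (nat_lit 0) (XT.lf (nat_lit 0) (nat_lit 1743710517716) (nat_lit 152) (nat_lit 1375725478809) (nat_lit 0) (nat_lit 1743260846339) (nat_lit 1) (nat_lit 5) (nat_lit 3) (nat_lit 4) (nat_lit 1) (nat_lit 4) (nat_lit 362) (nat_lit 278) (nat_lit 260)) (XT.lf (nat_lit 0) (nat_lit 2006748601188) (nat_lit 152) (nat_lit 1578934478492) (nat_lit 0) (nat_lit 2006293773727) (nat_lit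 1) (nat_lit 5) (nat_lit 3) (nat_lit 4) (nat_lit 1) (nat_lit 4) (nat_lit 363) (nat_lit 278) (nat_lit 259))))))))
noncomputable def xc4 : XT := (XT.nd (nat_lit 46566) (nat_lit 0) (nat_lit 0) (XT.nd (nat_lit 45474) (nat_lit 0) (nat_lit 0) (XT.nd (nat_lit 546) (nat_lit 0) (nat_lit 0) (XT.nd (nat_lit 234) (nat_lit 0) (nat_lit 0) (XT.nd (nat_lit 78) (nat_lit 0) (nat_lit 0) (XT.lf (nat_lit 0) (nat_lit 2309215779539) (nat_lit 152) (nat_lit 1812678749015) (nat_lit 0) (nat_lit 2308756468528) (nat_lit 1) (nat_lit 5) (nat_lit 3) (nat_lit 4) (nat_lit 1) (nat_lit 4) (nat_lit 364) (nat_lit 278) (nat_lit 258)) (XT.nd (nat_lit 78) (nat_lit 0) (nat_lit 0) (XT.lf (nat_lit 0) (nat_lit 2657029888868) (nat_lit 152) (nat_lit 2081531547846) (nat_lit 0) (nat_lit 2656566679117) (nat_lit 1) (nat_lit 5) (nat_lit 3) (nat_lit 4) (nat_lit 1) (nat_lit 4) (nat_lit 365) (nat_lit 278) (nat_lit 257)) (XT.lf (nat_lit 0) (nat_lit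 3056995987836) (nat_lit 152) (nat_lit 2390753038440) (nat_lit 0) (nat_lit 3056529387876) (nat_lit 1) (nat_lit 5) (nat_lit 3) (nat_lit 4) (nat_lit 1) (nat_lit 4) (nat_lit 366) (nat_lit 278) (nat_lit 256)))) (XT.nd (nat_lit 156) (nat_lit 0) (nat_lit 0) (XT.nd (nat_lit 78) (nat_lit 0) (nat_lit 0) (XT.lf (nat_lit 0) (nat_lit 3516939500117) (nat_lit 152) (nat_lit 2746393206483) (nat_lit 0) (nat_lit 3516469952150) (nat_lit 1) (nat_lit 5) (nat_lit 3) (nat_lit 4) (nat_lit 1) (nat_lit 4) (nat_lit 367) (nat_lit 278) (nat_lit 255)) (XT.lf (nat_lit 0) (nat_lit 4045859320518) (nat_lit 152) (nat_lit 3155410229176) (nat_lit 0) (nat_lit 4045387209066) (nat_lit 1) (nat_lit 5) (nat_lit 3) (nat_lit 4) (nat_lit 1) (nat_lit 4) (nat_lit 368) (nat_lit 278) (nat_lit 254))) (XT.nd (nat_lit 78) (nat_lit 0) (nat_lit 0) (XT.lf (nat_lit 0) (nat_lit 4654103880306) (nat_lit 152) (nat_lit 3625806613484) (nat_lit 0) (nat_lit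 4653629539738) (nat_lit 1) (nat_lit 5) (nat_lit 3) (nat_lit 4) (nat_lit 1) (nat_lit 4) (nat_lit 369) (nat_lit 278) (nat_lit 253)) (XT.lf (nat_lit 0) (nat_lit 5353573616523) (nat_lit 152) (nat_lit 4166785766926) (nat_lit 0) (nat_lit 5353097337591) (nat_lit 1) (nat_lit 5) (nat_lit 3) (nat_lit 4) (nat_lit 1) (nat_lit 4) (nat_lit 370) (nat_lit 278) (nat_lit 252))))) (XT.nd (nat_lit 44616) (nat_lit 0) (nat_lit 0) (XT.nd (nat_lit 78) (nat_lit 0) (nat_lit 0) (XT.lf (nat_lit 0) (nat_lit 6157953806614) (nat_lit 152) (nat_lit 4788932064245) (nat_lit 0) (nat_lit 6157475842150) (nat_lit 1) (nat_lit 5) (nat_lit 3) (nat_lit 4) (nat_lit 1) (nat_lit 4) (nat_lit 371) (nat_lit 278) (nat_lit 251)) (XT.nd (nat_lit 78) (nat_lit 0) (nat_lit 0) (XT.lf (nat_lit 0) (nat_lit 7082982323865) (nat_lit 152) (nat_lit 5504417932995) (nat_lit 0) (nat_lit 7082502893720) (nat_lit 1) (nat_lit 5) (nat_lit 3) (nat_lit 4) (nat_lit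 1) (nat_lit 4) (nat_lit 372) (nat_lit 278) (nat_lit 250)) (XT.lf (nat_lit 0) (nat_lit 8146757552309) (nat_lit 152) (nat_lit 6327242009739) (nat_lit 0) (nat_lit 8146276847659) (nat_lit 1) (nat_lit 5) (nat_lit 3) (nat_lit 4) (nat_lit 1) (nat_lit 4) (nat_lit 373) (nat_lit 278) (nat_lit 249)))) (XT.nd (nat_lit 156) (nat_lit 0) (nat_lit 0) (XT.nd (nat_lit 78) (nat_lit 0) (nat_lit 0) (XT.lf (nat_lit 0) (nat_lit 43478026790) (nat_lit 152) (nat_lit 62405535328) (nat_lit 0) (nat_lit 43478026790) (nat_lit 1) (nat_lit 5) (nat_lit 3) (nat_lit 4) (nat_lit 1) (nat_lit 4) (nat_lit 342) (nat_lit 279) (nat_lit 279)) (XT.lf (nat_lit 0) (nat_lit 104372771915) (nat_lit 152) (nat_lit 134502516681) (nat_lit 0) (nat_lit 104299391713) (nat_lit 1) (nat_lit 5) (nat_lit 3) (nat_lit 4) (nat_lit 1) (nat_lit 4) (nat_lit 343) (nat_lit 279) (nat_lit 278))) (XT.nd (nat_lit 78) (nat_lit 0) (nat_lit 0) (XT.lf (nat_lit 0)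 (nat_lit 124023181807) (nat_lit 152) (nat_lit 146415069385) (nat_lit 0) (nat_lit 123885992733) (nat_lit 1) (nat_lit 5) (nat_lit 3) (nat_lit 4) (nat_lit 1) (nat_lit 4) (nat_lit 344) (nat_lit 279) (nat_lit 277)) (XT.lf (nat_lit 0) (nat_lit 146291747797) (nat_lit 152) (nat_lit 160781800452) (nat_lit 0) (nat_lit 146099072747) (nat_lit 1) (nat_lit 5) (nat_lit 3) (nat_lit 4) (nat_lit 1) (nat_lit 4) (nat_lit 345) (nat_lit 279) (nat_lit 276)))))) (XT.nd (nat_lit 546) (nat_lit 0) (nat_lit 0) (XT.nd (nat_lit 234) (nat_lit 0) (nat_lit 0) (XT.nd (nat_lit 78) (nat_lit 0) (nat_lit 0) (XT.lf (nat_lit 0) (nat_lit 171614159220) (nat_lit 152) (nat_lit 177883798099) (nat_lit 0) (nat_lit 171373235496) (nat_lit 1) (nat_lit 5) (nat_lit 3) (nat_lit 4) (nat_lit 1) (nat_lit 4) (nat_lit 346) (nat_lit 279) (nat_lit 275)) (XT.nd (nat_lit 78) (nat_lit 0) (nat_lit 0) (XT.lf (nat_lit 0) (nat_lit 200485854560) (nat_lit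 152) (nat_lit 198055666628) (nat_lit 0) (nat_lit 200202975467) (nat_lit 1) (nat_lit 5) (nat_lit 3) (nat_lit 4) (nat_lit 1) (nat_lit 4) (nat_lit 347) (nat_lit 279) (nat_lit 274)) (XT.lf (nat_lit 0) (nat_lit 233471714813) (nat_lit 152) (nat_lit 221692073030) (nat_lit 0) (nat_lit 233152352790) (nat_lit 1) (nat_lit 5) (nat_lit 3) (nat_lit 4) (nat_lit 1) (nat_lit 4) (nat_lit 348) (nat_lit 279) (nat_lit 273)))) (XT.nd (nat_lit 156) (nat_lit 0) (nat_lit 0) (XT.nd (nat_lit 78) (nat_lit 0) (nat_lit 0) (XT.lf (nat_lit 0) (nat_lit 271217115505) (nat_lit 152) (nat_lit 249255468737) (nat_lit 0) (nat_lit 270866029196) (nat_lit 1) (nat_lit 5) (nat_lit 3) (nat_lit 4) (nat_lit 1) (nat_lit 4) (nat_lit 349) (nat_lit 279) (nat_lit 272)) (XT.lf (nat_lit 0) (nat_lit 314460553608) (nat_lit 152) (nat_lit 281285137577) (nat_lit 0) (nat_lit 314081880963) (nat_lit 1) (nat_lit 5) (nat_lit 3) (nat_lit 4) (nat_lit 1)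 (nat_lit 4) (nat_lit 350) (nat_lit 279) (nat_lit 271))) (XT.nd (nat_lit 78) (nat_lit 0) (nat_lit 0) (XT.lf (nat_lit 0) (nat_lit 364048096387) (nat_lit 152) (nat_lit 318407746983) (nat_lit 0) (nat_lit 363645435624) (nat_lit 1) (nat_lit 5) (nat_lit 3) (nat_lit 4) (nat_lit 1) (nat_lit 4) (nat_lit 351) (nat_lit 279) (nat_lit 270)) (XT.lf (nat_lit 0) (nat_lit 420949934898) (nat_lit 152) (nat_lit 361349608880) (nat_lit 0) (nat_lit 420526414901) (nat_lit 1) (nat_lit 5) (nat_lit 3) (nat_lit 4) (nat_lit 1) (nat_lit 4) (nat_lit 352) (nat_lit 279) (nat_lit 269))))) (XT.nd (nat_lit 234) (nat_lit 0) (nat_lit 0) (XT.nd (nat_lit 78) (nat_lit 0) (nat_lit 0) (XT.lf (nat_lit 0) (nat_lit 486279365980) (nat_lit 152) (nat_lit 410950890130) (nat_lit 0) (nat_lit 485837707520) (nat_lit 1) (nat_lit 5) (nat_lit 3) (nat_lit 4) (nat_lit 1) (nat_lit 4) (nat_lit 353) (nat_lit 279) (nat_lit 268)) (XT.nd (nat_lit 78)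 (nat_lit 0) (nat_lit 0) (XT.lf (nat_lit 0) (nat_lit 561314574156) (nat_lit 152) (nat_lit 468182050583) (nat_lit 0) (nat_lit 560857143118) (nat_lit 1) (nat_lit 5) (nat_lit 3) (nat_lit 4) (nat_lit 1) (nat_lit 4) (nat_lit 354) (nat_lit 279) (nat_lit 267)) (XT.lf (nat_lit 0) (nat_lit 647523639584) (nat_lit 152) (nat_lit 534162830336) (nat_lit 0) (nat_lit 647052493262) (nat_lit 1) (nat_lit 5) (nat_lit 3) (nat_lit 4) (nat_lit 1) (nat_lit 4) (nat_lit 355) (nat_lit 279) (nat_lit 266)))) (XT.nd (nat_lit 156) (nat_lit 0) (nat_lit 0) (XT.nd (nat_lit 78) (nat_lit 0) (nat_lit 0) (XT.lf (nat_lit 0) (nat_lit 746593261371) (nat_lit 152) (nat_lit 610184157688) (nat_lit 0) (nat_lit 746110188715) (nat_lit 1) (nat_lit 5) (nat_lit 3) (nat_lit 4) (nat_lit 1) (nat_lit 4) (nat_lit 356) (nat_lit 279) (nat_lit 265)) (XT.lf (nat_lit 0) (nat_lit 860461758205) (nat_lit 152) (nat_lit 697733406435) (nat_lit 0) (nat_lit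 859968314823) (nat_lit 1) (nat_lit 5) (nat_lit 3) (nat_lit 4) (nat_lit 1) (nat_lit 4) (nat_lit 357) (nat_lit 279) (nat_lit 264))) (XT.nd (nat_lit 78) (nat_lit 0) (nat_lit 0) (XT.lf (nat_lit 0) (nat_lit 991356991980) (nat_lit 152) (nat_lit 798523496662) (nat_lit 0) (nat_lit 990854530575) (nat_lit 1) (nat_lit 5) (nat_lit 3) (nat_lit 4) (nat_lit 1) (nat_lit 4) (nat_lit 358) (nat_lit 279) (nat_lit 263)) (XT.lf (nat_lit 0) (nat_lit 1141839956399) (nat_lit 152) (nat_lit 914526408394) (nat_lit 0) (nat_lit 1141329653237) (nat_lit 1) (nat_lit 5) (nat_lit 3) (nat_lit 4) (nat_lit 1) (nat_lit 4) (nat_lit 359) (nat_lit 279) (nat_lit 262))))))) (XT.nd (nat_lit 45318) (nat_lit 0) (nat_lit 0) (XT.nd (nat_lit 546) (nat_lit 0) (nat_lit 0) (XT.nd (nat_lit 234) (nat_lit 0) (nat_lit 0) (XT.nd (nat_lit 78) (nat_lit 0) (nat_lit 0) (XT.lf (nat_lit 0) (nat_lit 1314854883377) (nat_lit 152) (nat_lit 1048011763817)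 (nat_lit 0) (nat_lit 1314337761294) (nat_lit 1) (nat_lit 5) (nat_lit 3) (nat_lit 4) (nat_lit 1) (nat_lit 4) (nat_lit 360) (nat_lit 279) (nat_lit 261)) (XT.nd (nat_lit 78) (nat_lit 0) (nat_lit 0) (XT.lf (nat_lit 0) (nat_lit 1513786847570) (nat_lit 152) (nat_lit 1201591232929) (nat_lit 0) (nat_lit 1513263795991) (nat_lit 1) (nat_lit 5) (nat_lit 3) (nat_lit 4) (nat_lit 1) (nat_lit 4) (nat_lit 361) (nat_lit 279) (nat_lit 260)) (XT.lf (nat_lit 0) (nat_lit 1742527996105) (nat_lit 152) (nat_lit 1378269631431) (nat_lit 0) (nat_lit 1741999788442) (nat_lit 1) (nat_lit 5) (nat_lit 3) (nat_lit 4) (nat_lit 1) (nat_lit 4) (nat_lit 362) (nat_lit 279) (nat_lit 259)))) (XT.nd (nat_lit 156) (nat_lit 0) (nat_lit 0) (XT.nd (nat_lit 78) (nat_lit 0) (nat_lit 0) (XT.lf (nat_lit 0) (nat_lit 2005553699279) (nat_lit 152) (nat_lit 1581503710596) (nat_lit 0) (nat_lit 2005021008065) (nat_lit 1) (nat_lit 5) (nat_lit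 3) (nat_lit 4) (nat_lit 1) (nat_lit 4) (nat_lit 363) (nat_lit 279) (nat_lit 258)) (XT.lf (nat_lit 0) (nat_lit 2308010112153) (nat_lit 152) (nat_lit 1815269789365) (nat_lit 0) (nat_lit 2307473522200) (nat_lit 1) (nat_lit 5) (nat_lit 3) (nat_lit 4) (nat_lit 1) (nat_lit 4) (nat_lit 364) (nat_lit 279) (nat_lit 257))) (XT.nd (nat_lit 78) (nat_lit 0) (nat_lit 0) (XT.lf (nat_lit 0) (nat_lit 2655814860198) (nat_lit 152) (nat_lit 2084141551889) (nat_lit 0) (nat_lit 2655274880036) (nat_lit 1) (nat_lit 5) (nat_lit 3) (nat_lit 4) (nat_lit 1) (nat_lit 4) (nat_lit 365) (nat_lit 279) (nat_lit 256)) (XT.lf (nat_lit 0) (nat_lit 3055772818919) (nat_lit 152) (nat_lit 2393379532650) (nat_lit 0) (nat_lit 3055229890749) (nat_lit 1) (nat_lit 5) (nat_lit 3) (nat_lit 4) (nat_lit 1) (nat_lit 4) (nat_lit 366) (nat_lit 279) (nat_lit 255))))) (XT.nd (nat_lit 234) (nat_lit 0) (nat_lit 0) (XT.nd (nat_lit 78) (nat_lit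 0) (nat_lit 0) (XT.lf (nat_lit 0) (nat_lit 3515709252724) (nat_lit 152) (nat_lit 2749034039969) (nat_lit 0) (nat_lit 3515163761070) (nat_lit 1) (nat_lit 5) (nat_lit 3) (nat_lit 4) (nat_lit 1) (nat_lit 4) (nat_lit 367) (nat_lit 279) (nat_lit 254)) (XT.nd (nat_lit 78) (nat_lit 0) (nat_lit 0) (XT.lf (nat_lit 0) (nat_lit 4044622917929) (nat_lit 152) (nat_lit 3158063531598) (nat_lit 0) (nat_lit 4044075197157) (nat_lit 1) (nat_lit 5) (nat_lit 3) (nat_lit 4) (nat_lit 1) (nat_lit 4) (nat_lit 368) (nat_lit 279) (nat_lit 253)) (XT.lf (nat_lit 0) (nat_lit 4652862125373) (nat_lit 152) (nat_lit 3628470758458) (nat_lit 0) (nat_lit 4652312466239) (nat_lit 1) (nat_lit 5) (nat_lit 3) (nat_lit 4) (nat_lit 1) (nat_lit 4) (nat_lit 369) (nat_lit 279) (nat_lit 252)))) (XT.nd (nat_lit 156) (nat_lit 0) (nat_lit 0) (XT.nd (nat_lit 78) (nat_lit 0) (nat_lit 0) (XT.lf (nat_lit 0) (nat_lit 5352327207376) (nat_lit 152)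 (nat_lit 4169459340207) (nat_lit 0) (nat_lit 5351775862709) (nat_lit 1) (nat_lit 5) (nat_lit 3) (nat_lit 4) (nat_lit 1) (nat_lit 4) (nat_lit 370) (nat_lit 279) (nat_lit 251)) (XT.lf (nat_lit 0) (nat_lit 6156703350326) (nat_lit 152) (nat_lit 4791613836053) (nat_lit 0) (nat_lit 6156150539979) (nat_lit 1) (nat_lit 5) (nat_lit 3) (nat_lit 4) (nat_lit 1) (nat_lit 4) (nat_lit 371) (nat_lit 279) (nat_lit 250))) (XT.nd (nat_lit 78) (nat_lit 0) (nat_lit 0) (XT.lf (nat_lit 0) (nat_lit 7081728348324) (nat_lit 152) (nat_lit 5507106833958) (nat_lit 0) (nat_lit 7081174263471) (nat_lit 1) (nat_lit 5) (nat_lit 3) (nat_lit 4) (nat_lit 1) (nat_lit 4) (nat_lit 372) (nat_lit 279) (nat_lit 249)) (XT.lf (nat_lit 0) (nat_lit 8145500516547) (nat_lit 152) (nat_lit 6329937109967) (nat_lit 0) (nat_lit 8144945323429) (nat_lit 1) (nat_lit 5) (nat_lit 3) (nat_lit 4) (nat_lit 1) (nat_lit 4) (nat_lit 373) (nat_lit 279)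 (nat_lit 248)))))) (XT.nd (nat_lit 546) (nat_lit 0) (nat_lit 0) (XT.nd (nat_lit 234) (nat_lit 0) (nat_lit 0) (XT.nd (nat_lit 78) (nat_lit 0) (nat_lit 0) (XT.lf (nat_lit 0) (nat_lit 28907541440) (nat_lit 152) (nat_lit 55450375140) (nat_lit 0) (nat_lit 28907541440) (nat_lit 1) (nat_lit 5) (nat_lit 3) (nat_lit 4) (nat_lit 1) (nat_lit 4) (nat_lit 340) (nat_lit 280) (nat_lit 280)) (XT.nd (nat_lit 78) (nat_lit 0) (nat_lit 0) (XT.lf (nat_lit 0) (nat_lit 71516652155) (nat_lit 152) (nat_lit 117151116063) (nat_lit 0) (nat_lit 71432264923) (nat_lit 1) (nat_lit 5) (nat_lit 3) (nat_lit 4) (nat_lit 1) (nat_lit 4) (nat_lit 341) (nat_lit 280) (nat_lit 279)) (XT.lf (nat_lit 0) (nat_lit 86837818199) (nat_lit 152) (nat_lit 125221534955) (nat_lit 0) (nat_lit 86680050763) (nat_lit 1) (nat_lit 5) (nat_lit 3) (nat_lit 4) (nat_lit 1) (nat_lit 4) (nat_lit 342) (nat_lit 280) (nat_lit 278)))) (XT.nd (nat_lit 156)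 (nat_lit 0) (nat_lit 0) (XT.nd (nat_lit 78) (nat_lit 0) (nat_lit 0) (XT.lf (nat_lit 0) (nat_lit 104078342955) (nat_lit 152) (nat_lit 135269906457) (nat_lit 0) (nat_lit 103856766648) (nat_lit 1) (nat_lit 5) (nat_lit 3) (nat_lit 4) (nat_lit 1) (nat_lit 4) (nat_lit 343) (nat_lit 280) (nat_lit 277)) (XT.lf (nat_lit 0) (nat_lit 123575541039) (nat_lit 152) (nat_lit 147492829141) (nat_lit 0) (nat_lit 123298478757) (nat_lit 1) (nat_lit 5) (nat_lit 3) (nat_lit 4) (nat_lit 1) (nat_lit 4) (nat_lit 344) (nat_lit 280) (nat_lit 276))) (XT.nd (nat_lit 78) (nat_lit 0) (nat_lit 0) (XT.lf (nat_lit 0) (nat_lit 145710879371) (nat_lit 152) (nat_lit 162129447148) (nat_lit 0) (nat_lit 145385568414) (nat_lit 1) (nat_lit 5) (nat_lit 3) (nat_lit 4) (nat_lit 1) (nat_lit 4) (nat_lit 345) (nat_lit 280) (nat_lit 275)) (XT.lf (nat_lit 0) (nat_lit 170917440656) (nat_lit 152) (nat_lit 179466129090) (nat_lit 0) (nat_lit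 170550174330) (nat_lit 1) (nat_lit 5) (nat_lit 3) (nat_lit 4) (nat_lit 1) (nat_lit 4) (nat_lit 346) (nat_lit 280) (nat_lit 274))))) (XT.nd (nat_lit 312) (nat_lit 0) (nat_lit 0) (XT.nd (nat_lit 156) (nat_lit 0) (nat_lit 0) (XT.nd (nat_lit 78) (nat_lit 0) (nat_lit 0) (XT.lf (nat_lit 0) (nat_lit 199688396746) (nat_lit 152) (nat_lit 199842070918) (nat_lit 0) (nat_lit 199284647490) (nat_lit 1) (nat_lit 5) (nat_lit 3) (nat_lit 4) (nat_lit 1) (nat_lit 4) (nat_lit 347) (nat_lit 280) (nat_lit 273)) (XT.lf (nat_lit 0) (nat_lit 232586657651) (nat_lit 152) (nat_lit 223655932365) (nat_lit 0) (nat_lit 232151184109) (nat_lit 1) (nat_lit 5) (nat_lit 3) (nat_lit 4) (nat_lit 1) (nat_lit 4) (nat_lit 348) (nat_lit 280) (nat_lit 272))) (XT.nd (nat_lit 78) (nat_lit 0) (nat_lit 0) (XT.lf (nat_lit 0) (nat_lit 270255884997) (nat_lit 152) (nat_lit 251373636805) (nat_lit 0) (nat_lit 269792825119) (nat_lit 1) (nat_lit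 5) (nat_lit 3) (nat_lit 4) (nat_lit 1) (nat_lit 4) (nat_lit 349) (nat_lit 280) (nat_lit 271)) (XT.lf (nat_lit 0) (nat_lit 313433085407) (nat_lit 152) (nat_lit 283537487152) (nat_lit 0) (nat_lit 312946037411) (nat_lit 1) (nat_lit 5) (nat_lit 3) (nat_lit 4) (nat_lit 1) (nat_lit 4) (nat_lit 350) (nat_lit 280) (nat_lit 270)))) (XT.nd (nat_lit 156) (nat_lit 0) (nat_lit 0) (XT.nd (nat_lit 78) (nat_lit 0) (nat_lit 0) (XT.lf (nat_lit 0) (nat_lit 362963030193) (nat_lit 152) (nat_lit 320776776130) (nat_lit 0) (nat_lit 362455122964) (nat_lit 1) (nat_lit 5) (nat_lit 3) (nat_lit 4) (nat_lit 1) (nat_lit 4) (nat_lit 351) (nat_lit 280) (nat_lit 269)) (XT.lf (nat_lit 0) (nat_lit 419814783492) (nat_lit 152) (nat_lit 363820098524) (nat_lit 0) (nat_lit 419288737799) (nat_lit 1) (nat_lit 5) (nat_lit 3) (nat_lit 4) (nat_lit 1) (nat_lit 4) (nat_lit 352) (nat_lit 280) (nat_lit 268))) (XT.nd (nat_lit 78) (nat_lit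 0) (nat_lit 0) (XT.lf (nat_lit 0) (nat_lit 485100662217) (nat_lit 152) (nat_lit 413509606293) (nat_lit 0) (nat_lit 484558843946) (nat_lit 1) (nat_lit 5) (nat_lit 3) (nat_lit 4) (nat_lit 1) (nat_lit 4) (nat_lit 353) (nat_lit 280) (nat_lit 267)) (XT.lf (nat_lit 0) (nat_lit 560097998777) (nat_lit 152) (nat_lit 470817485458) (nat_lit 0) (nat_lit 559542465222) (nat_lit 1) (nat_lit 5) (nat_lit 3) (nat_lit 4) (nat_lit 1) (nat_lit 4) (nat_lit 354) (nat_lit 280) (nat_lit 266))))))))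
noncomputable def xc5 : XT := (XT.nd (nat_lit 46332) (nat_lit 0) (nat_lit 0) (XT.nd (nat_lit 1092) (nat_lit 0) (nat_lit 0) (XT.nd (nat_lit 546) (nat_lit 0) (nat_lit 0) (XT.nd (nat_lit 234) (nat_lit 0) (nat_lit 0) (XT.nd (nat_lit 78) (nat_lit 0) (nat_lit 0) (XT.lf (nat_lit 0) (nat_lit 646274132366) (nat_lit 152) (nat_lit 536864977135) (nat_lit 0) (nat_lit 645706672476) (nat_lit 1) (nat_lit 5) (nat_lit 3) (nat_lit 4) (nat_lit 1) (nat_lit 4) (nat_lit 355) (nat_lit 280) (nat_lit 265)) (XT.nd (nat_lit 78) (nat_lit 0) (nat_lit 0) (XT.lf (nat_lit 0) (nat_lit 745315117771) (nat_lit 152) (nat_lit 612944314856) (nat_lit 0) (nat_lit 744737287156) (nat_lit 1) (nat_lit 5) (nat_lit 3) (nat_lit 4) (nat_lit 1) (nat_lit 4) (nat_lit 356) (nat_lit 280) (nat_lit 264)) (XT.lf (nat_lit 0) (nat_lit 859158713403) (nat_lit 152) (nat_lit 700544007402) (nat_lit 0) (nat_lit 858571864765) (nat_lit 1) (nat_lit 5) (nat_lit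 3) (nat_lit 4) (nat_lit 1) (nat_lit 4) (nat_lit 357) (nat_lit 280) (nat_lit 263)))) (XT.nd (nat_lit 156) (nat_lit 0) (nat_lit 0) (XT.nd (nat_lit 78) (nat_lit 0) (nat_lit 0) (XT.lf (nat_lit 0) (nat_lit 990032293958) (nat_lit 152) (nat_lit 801377961801) (nat_lit 0) (nat_lit 989437603562) (nat_lit 1) (nat_lit 5) (nat_lit 3) (nat_lit 4) (nat_lit 1) (nat_lit 4) (nat_lit 358) (nat_lit 280) (nat_lit 262)) (XT.lf (nat_lit 0) (nat_lit 1140496429492) (nat_lit 152) (nat_lit 917419016292) (nat_lit 0) (nat_lit 1139894920176) (nat_lit 1) (nat_lit 5) (nat_lit 3) (nat_lit 4) (nat_lit 1) (nat_lit 4) (nat_lit 359) (nat_lit 280) (nat_lit 261))) (XT.nd (nat_lit 78) (nat_lit 0) (nat_lit 0) (XT.lf (nat_lit 0) (nat_lit 1313494983525) (nat_lit 152) (nat_lit 1050937539332) (nat_lit 0) (nat_lit 1312887544712) (nat_lit 1) (nat_lit 5) (nat_lit 3) (nat_lit 4) (nat_lit 1) (nat_lit 4) (nat_lit 360) (nat_lit 280) (nat_lit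 260)) (XT.lf (nat_lit 0) (nat_lit 1512412710375) (nat_lit 152) (nat_lit 1204545849850) (nat_lit 0) (nat_lit 1511800115479) (nat_lit 1) (nat_lit 5) (nat_lit 3) (nat_lit 4) (nat_lit 1) (nat_lit 4) (nat_lit 361) (nat_lit 280) (nat_lit 259))))) (XT.nd (nat_lit 234) (nat_lit 0) (nat_lit 0) (XT.nd (nat_lit 78) (nat_lit 0) (nat_lit 0) (XT.lf (nat_lit 0) (nat_lit 1741141478611) (nat_lit 152) (nat_lit 1381249327834) (nat_lit 0) (nat_lit 1740524400165) (nat_lit 1) (nat_lit 5) (nat_lit 3) (nat_lit 4) (nat_lit 1) (nat_lit 4) (nat_lit 362) (nat_lit 280) (nat_lit 258)) (XT.nd (nat_lit 78) (nat_lit 0) (nat_lit 0) (XT.lf (nat_lit 0) (nat_lit 2004156416308) (nat_lit 152) (nat_lit 1584505215245) (nat_lit 0) (nat_lit 2003535439122) (nat_lit 1) (nat_lit 5) (nat_lit 3) (nat_lit 4) (nat_lit 1) (nat_lit 4) (nat_lit 363) (nat_lit 280) (nat_lit 257)) (XT.lf (nat_lit 0) (nat_lit 2306603467899) (nat_lit 152) (nat_lit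 1818290257707) (nat_lit 0) (nat_lit 2305979100504) (nat_lit 1) (nat_lit 5) (nat_lit 3) (nat_lit 4) (nat_lit 1) (nat_lit 4) (nat_lit 364) (nat_lit 280) (nat_lit 256)))) (XT.nd (nat_lit 156) (nat_lit 0) (nat_lit 0) (XT.nd (nat_lit 78) (nat_lit 0) (nat_lit 0) (XT.lf (nat_lit 0) (nat_lit 2654400075697) (nat_lit 152) (nat_lit 2087178510398) (nat_lit 0) (nat_lit 2653772760294) (nat_lit 1) (nat_lit 5) (nat_lit 3) (nat_lit 4) (nat_lit 1) (nat_lit 4) (nat_lit 365) (nat_lit 280) (nat_lit 255)) (XT.lf (nat_lit 0) (nat_lit 3054350955941) (nat_lit 152) (nat_lit 2396430830435) (nat_lit 0) (nat_lit 3053721077054) (nat_lit 1) (nat_lit 5) (nat_lit 3) (nat_lit 4) (nat_lit 1) (nat_lit 4) (nat_lit 366) (nat_lit 280) (nat_lit 254))) (XT.nd (nat_lit 78) (nat_lit 0) (nat_lit 0) (XT.lf (nat_lit 0) (nat_lit 3514281234550) (nat_lit 152) (nat_lit 2752097806690) (nat_lit 0) (nat_lit 3513649126546) (nat_lit 1) (nat_lit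 5) (nat_lit 3) (nat_lit 4) (nat_lit 1) (nat_lit 4) (nat_lit 367) (nat_lit 280) (nat_lit 253)) (XT.lf (nat_lit 0) (nat_lit 4043189547410) (nat_lit 152) (nat_lit 3161138140871) (nat_lit 0) (nat_lit 4042555501043) (nat_lit 1) (nat_lit 5) (nat_lit 3) (nat_lit 4) (nat_lit 1) (nat_lit 4) (nat_lit 368) (nat_lit 280) (nat_lit 252)))))) (XT.nd (nat_lit 44616) (nat_lit 0) (nat_lit 0) (XT.nd (nat_lit 234) (nat_lit 0) (nat_lit 0) (XT.nd (nat_lit 78) (nat_lit 0) (nat_lit 0) (XT.lf (nat_lit 0) (nat_lit 4651424100642) (nat_lit 152) (nat_lit 3631554796038) (nat_lit 0) (nat_lit 4650788368742) (nat_lit 1) (nat_lit 5) (nat_lit 3) (nat_lit 4) (nat_lit 1) (nat_lit 4) (nat_lit 369) (nat_lit 280) (nat_lit 251)) (XT.nd (nat_lit 78) (nat_lit 0) (nat_lit 0) (XT.lf (nat_lit 0) (nat_lit 5350885135504) (nat_lit 152) (nat_lit 4172551576315) (nat_lit 0) (nat_lit 5350247937923) (nat_lit 1) (nat_lit 5) (nat_lit 3) (nat_lit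 4) (nat_lit 1) (nat_lit 4) (nat_lit 370) (nat_lit 280) (nat_lit 250)) (XT.lf (nat_lit 0) (nat_lit 6155257759200) (nat_lit 152) (nat_lit 4794713201315) (nat_lit 0) (nat_lit 6154619287115) (nat_lit 1) (nat_lit 5) (nat_lit 3) (nat_lit 4) (nat_lit 1) (nat_lit 4) (nat_lit 371) (nat_lit 280) (nat_lit 249)))) (XT.nd (nat_lit 44226) (nat_lit 0) (nat_lit 0) (XT.nd (nat_lit 78) (nat_lit 0) (nat_lit 0) (XT.lf (nat_lit 0) (nat_lit 7080279696977) (nat_lit 152) (nat_lit 5510212398484) (nat_lit 0) (nat_lit 7079640116627) (nat_lit 1) (nat_lit 5) (nat_lit 3) (nat_lit 4) (nat_lit 1) (nat_lit 4) (nat_lit 372) (nat_lit 280) (nat_lit 248)) (XT.lf (nat_lit 0) (nat_lit 8144049204140) (nat_lit 152) (nat_lit 6333048065158) (nat_lit 0) (nat_lit 8143408660080) (nat_lit 1) (nat_lit 5) (nat_lit 3) (nat_lit 4) (nat_lit 1) (nat_lit 4) (nat_lit 373) (nat_lit 280) (nat_lit 247))) (XT.nd (nat_lit 78) (nat_lit 0) (nat_lit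 0) (XT.lf (nat_lit 0) (nat_lit 17294947236) (nat_lit 152) (nat_lit 51430698529) (nat_lit 0) (nat_lit 17294947236) (nat_lit 1) (nat_lit 5) (nat_lit 3) (nat_lit 4) (nat_lit 1) (nat_lit 4) (nat_lit 338) (nat_lit 281) (nat_lit 281)) (XT.lf (nat_lit 0) (nat_lit 45562081512) (nat_lit 152) (nat_lit 106348147843) (nat_lit 0) (nat_lit 45465036194) (nat_lit 1) (nat_lit 5) (nat_lit 3) (nat_lit 4) (nat_lit 1) (nat_lit 4) (nat_lit 339) (nat_lit 281) (nat_lit 280))))) (XT.nd (nat_lit 312) (nat_lit 0) (nat_lit 0) (XT.nd (nat_lit 156) (nat_lit 0) (nat_lit 0) (XT.nd (nat_lit 78) (nat_lit 0) (nat_lit 0) (XT.lf (nat_lit 0) (nat_lit 57679112192) (nat_lit 152) (nat_lit 111372784224) (nat_lit 0) (nat_lit 57497679641) (nat_lit 1) (nat_lit 5) (nat_lit 3) (nat_lit 4) (nat_lit 1) (nat_lit 4) (nat_lit 340) (nat_lit 281) (nat_lit 279)) (XT.lf (nat_lit 0) (nat_lit 71178058851) (nat_lit 152) (nat_lit 118033614305) (nat_lit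 0) (nat_lit 70923246098) (nat_lit 1) (nat_lit 5) (nat_lit 3) (nat_lit 4) (nat_lit 1) (nat_lit 4) (nat_lit 341) (nat_lit 281) (nat_lit 278))) (XT.nd (nat_lit 78) (nat_lit 0) (nat_lit 0) (XT.lf (nat_lit 0) (nat_lit 86323031316) (nat_lit 152) (nat_lit 126460958675) (nat_lit 0) (nat_lit 86004409691) (nat_lit 1) (nat_lit 5) (nat_lit 3) (nat_lit 4) (nat_lit 1) (nat_lit 4) (nat_lit 342) (nat_lit 281) (nat_lit 277)) (XT.lf (nat_lit 0) (nat_lit 103410344265) (nat_lit 152) (nat_lit 136819700157) (nat_lit 0) (nat_lit 103036236665) (nat_lit 1) (nat_lit 5) (nat_lit 3) (nat_lit 4) (nat_lit 1) (nat_lit 4) (nat_lit 343) (nat_lit 281) (nat_lit 276)))) (XT.nd (nat_lit 156) (nat_lit 0) (nat_lit 0) (XT.nd (nat_lit 78) (nat_lit 0) (nat_lit 0) (XT.lf (nat_lit 0) (nat_lit 122774314691) (nat_lit 152) (nat_lit 149312509780) (nat_lit 0) (nat_lit 122351958416) (nat_lit 1) (nat_lit 5) (nat_lit 3) (nat_lit 4) (nat_lit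 1) (nat_lit 4) (nat_lit 344) (nat_lit 281) (nat_lit 275)) (XT.lf (nat_lit 0) (nat_lit 144793802885) (nat_lit 152) (nat_lit 164183812082) (nat_lit 0) (nat_lit 144329491241) (nat_lit 1) (nat_lit 5) (nat_lit 3) (nat_lit 4) (nat_lit 1) (nat_lit 4) (nat_lit 345) (nat_lit 281) (nat_lit 274))) (XT.nd (nat_lit 78) (nat_lit 0) (nat_lit 0) (XT.lf (nat_lit 0) (nat_lit 169899624920) (nat_lit 152) (nat_lit 181724567324) (nat_lit 0) (nat_lit 169398830346) (nat_lit 1) (nat_lit 5) (nat_lit 3) (nat_lit 4) (nat_lit 1) (nat_lit 4) (nat_lit 346) (nat_lit 281) (nat_lit 273)) (XT.lf (nat_lit 0) (nat_lit 198582981661) (nat_lit 152) (nat_lit 202277964196) (nat_lit 0) (nat_lit 198050462802) (nat_lit 1) (nat_lit 5) (nat_lit 3) (nat_lit 4) (nat_lit 1) (nat_lit 4) (nat_lit 347) (nat_lit 281) (nat_lit 272))))))) (XT.nd (nat_lit 1092) (nat_lit 0) (nat_lit 0) (XT.nd (nat_lit 546) (nat_lit 0) (nat_lit 0) (XT.nd (nat_lit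 234) (nat_lit 0) (nat_lit 0) (XT.nd (nat_lit 78) (nat_lit 0) (nat_lit 0) (XT.lf (nat_lit 0) (nat_lit 231405069220) (nat_lit 152) (nat_lit 226246134376) (nat_lit 0) (nat_lit 230844964024) (nat_lit 1) (nat_lit 5) (nat_lit 3) (nat_lit 4) (nat_lit 1) (nat_lit 4) (nat_lit 348) (nat_lit 281) (nat_lit 271)) (XT.nd (nat_lit 78) (nat_lit 0) (nat_lit 0) (XT.lf (nat_lit 0) (nat_lit 269008058874) (nat_lit 152) (nat_lit 254098020323) (nat_lit 0) (nat_lit 268423965560) (nat_lit 1) (nat_lit 5) (nat_lit 3) (nat_lit 4) (nat_lit 1) (nat_lit 4) (nat_lit 349) (nat_lit 281) (nat_lit 270)) (XT.lf (nat_lit 0) (nat_lit 312127661291) (nat_lit 152) (nat_lit 286378550242) (nat_lit 0) (nat_lit 311522708744) (nat_lit 1) (nat_lit 5) (nat_lit 3) (nat_lit 4) (nat_lit 1) (nat_lit 4) (nat_lit 350) (nat_lit 281) (nat_lit 269)))) (XT.nd (nat_lit 156) (nat_lit 0) (nat_lit 0) (XT.nd (nat_lit 78) (nat_lit 0) (nat_lit 0) (XT.lf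 (nat_lit 0) (nat_lit 361607520866) (nat_lit 152) (nat_lit 323719299717) (nat_lit 0) (nat_lit 360984429854) (nat_lit 1) (nat_lit 5) (nat_lit 3) (nat_lit 4) (nat_lit 1) (nat_lit 4) (nat_lit 351) (nat_lit 281) (nat_lit 268)) (XT.lf (nat_lit 0) (nat_lit 418415721807) (nat_lit 152) (nat_lit 366850848630) (nat_lit 0) (nat_lit 417776858218) (nat_lit 1) (nat_lit 5) (nat_lit 3) (nat_lit 4) (nat_lit 1) (nat_lit 4) (nat_lit 352) (nat_lit 281) (nat_lit 267))) (XT.nd (nat_lit 78) (nat_lit 0) (nat_lit 0) (XT.lf (nat_lit 0) (nat_lit 483663728916) (nat_lit 152) (nat_lit 416617075111) (nat_lit 0) (nat_lit 483011150043) (nat_lit 1) (nat_lit 5) (nat_lit 3) (nat_lit 4) (nat_lit 1) (nat_lit 4) (nat_lit 353) (nat_lit 281) (nat_lit 266)) (XT.lf (nat_lit 0) (nat_lit 558628133636) (nat_lit 152) (nat_lit 473991666201) (nat_lit 0) (nat_lit 557963628429) (nat_lit 1) (nat_lit 5) (nat_lit 3) (nat_lit 4) (nat_lit 1)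 (nat_lit 4) (nat_lit 354) (nat_lit 281) (nat_lit 265))))) (XT.nd (nat_lit 234) (nat_lit 0) (nat_lit 0) (XT.nd (nat_lit 78) (nat_lit 0) (nat_lit 0) (XT.lf (nat_lit 0) (nat_lit 644775630843) (nat_lit 152) (nat_lit 540097168246) (nat_lit 0) (nat_lit 644100754910) (nat_lit 1) (nat_lit 5) (nat_lit 3) (nat_lit 4) (nat_lit 1) (nat_lit 4) (nat_lit 355) (nat_lit 281) (nat_lit 264)) (XT.nd (nat_lit 78) (nat_lit 0) (nat_lit 0) (XT.lf (nat_lit 0) (nat_lit 743791715046) (nat_lit 152) (nat_lit 616226949766) (nat_lit 0) (nat_lit 743107821091) (nat_lit 1) (nat_lit 5) (nat_lit 3) (nat_lit 4) (nat_lit 1) (nat_lit 4) (nat_lit 356) (nat_lit 281) (nat_lit 263)) (XT.lf (nat_lit 0) (nat_lit 857613657459) (nat_lit 152) (nat_lit 703870506484) (nat_lit 0) (nat_lit 856921921745) (nat_lit 1) (nat_lit 5) (nat_lit 3) (nat_lit 4) (nat_lit 1) (nat_lit 4) (nat_lit 357) (nat_lit 281) (nat_lit 262)))) (XT.nd (nat_lit 156)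 (nat_lit 0) (nat_lit 0) (XT.nd (nat_lit 78) (nat_lit 0) (nat_lit 0) (XT.lf (nat_lit 0) (nat_lit 988468409128) (nat_lit 152) (nat_lit 804742603642) (nat_lit 0) (nat_lit 987769854494) (nat_lit 1) (nat_lit 5) (nat_lit 3) (nat_lit 4) (nat_lit 1) (nat_lit 4) (nat_lit 358) (nat_lit 281) (nat_lit 261)) (XT.lf (nat_lit 0) (nat_lit 1138916171717) (nat_lit 152) (nat_lit 920816825750) (nat_lit 0) (nat_lit 1138211687587) (nat_lit 1) (nat_lit 5) (nat_lit 3) (nat_lit 4) (nat_lit 1) (nat_lit 4) (nat_lit 359) (nat_lit 281) (nat_lit 260))) (XT.nd (nat_lit 78) (nat_lit 0) (nat_lit 0) (XT.lf (nat_lit 0) (nat_lit 1311900488407) (nat_lit 152) (nat_lit 1054364190195) (nat_lit 0) (nat_lit 1311190848193) (nat_lit 1) (nat_lit 5) (nat_lit 3) (nat_lit 4) (nat_lit 1) (nat_lit 4) (nat_lit 360) (nat_lit 281) (nat_lit 259)) (XT.lf (nat_lit 0) (nat_lit 1510805834959) (nat_lit 152) (nat_lit 1207997580196) (nat_lit 0) (nat_lit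 1510091711195) (nat_lit 1) (nat_lit 5) (nat_lit 3) (nat_lit 4) (nat_lit 1) (nat_lit 4) (nat_lit 361) (nat_lit 281) (nat_lit 258)))))) (XT.nd (nat_lit 546) (nat_lit 0) (nat_lit 0) (XT.nd (nat_lit 234) (nat_lit 0) (nat_lit 0) (XT.nd (nat_lit 78) (nat_lit 0) (nat_lit 0) (XT.lf (nat_lit 0) (nat_lit 1739523837719) (nat_lit 152) (nat_lit 1384722866427) (nat_lit 0) (nat_lit 1738805815214) (nat_lit 1) (nat_lit 5) (nat_lit 3) (nat_lit 4) (nat_lit 1) (nat_lit 4) (nat_lit 362) (nat_lit 281) (nat_lit 257)) (XT.nd (nat_lit 78) (nat_lit 0) (nat_lit 0) (XT.lf (nat_lit 0) (nat_lit 2002529414131) (nat_lit 152) (nat_lit 1587997717531) (nat_lit 0) (nat_lit 2001808001419) (nat_lit 1) (nat_lit 5) (nat_lit 3) (nat_lit 4) (nat_lit 1) (nat_lit 4) (nat_lit 363) (nat_lit 281) (nat_lit 256)) (XT.lf (nat_lit 0) (nat_lit 2304968325475) (nat_lit 152) (nat_lit 1821799250160) (nat_lit 0) (nat_lit 2304243964755) (nat_lit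 1) (nat_lit 5) (nat_lit 3) (nat_lit 4) (nat_lit 1) (nat_lit 4) (nat_lit 364) (nat_lit 281) (nat_lit 255)))) (XT.nd (nat_lit 156) (nat_lit 0) (nat_lit 0) (XT.nd (nat_lit 78) (nat_lit 0) (nat_lit 0) (XT.lf (nat_lit 0) (nat_lit 2652757854797) (nat_lit 152) (nat_lit 2090701842127) (nat_lit 0) (nat_lit 2652030930592) (nat_lit 1) (nat_lit 5) (nat_lit 3) (nat_lit 4) (nat_lit 1) (nat_lit 4) (nat_lit 365) (nat_lit 281) (nat_lit 254)) (XT.lf (nat_lit 0) (nat_lit 3052702579845) (nat_lit 152) (nat_lit 2399966631100) (nat_lit 0) (nat_lit 3051973426523) (nat_lit 1) (nat_lit 5) (nat_lit 3) (nat_lit 4) (nat_lit 1) (nat_lit 4) (nat_lit 366) (nat_lit 281) (nat_lit 253))) (XT.nd (nat_lit 78) (nat_lit 0) (nat_lit 0) (XT.lf (nat_lit 0) (nat_lit 3512627506110) (nat_lit 152) (nat_lit 2755644449907) (nat_lit 0) (nat_lit 3511896414425) (nat_lit 1) (nat_lit 5) (nat_lit 3) (nat_lit 4) (nat_lit 1) (nat_lit 4) (nat_lit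 367) (nat_lit 281) (nat_lit 252)) (XT.lf (nat_lit 0) (nat_lit 4041531164757) (nat_lit 152) (nat_lit 3164694212394) (nat_lit 0) (nat_lit 4040798387539) (nat_lit 1) (nat_lit 5) (nat_lit 3) (nat_lit 4) (nat_lit 1) (nat_lit 4) (nat_lit 368) (nat_lit 281) (nat_lit 251))))) (XT.nd (nat_lit 312) (nat_lit 0) (nat_lit 0) (XT.nd (nat_lit 156) (nat_lit 0) (nat_lit 0) (XT.nd (nat_lit 78) (nat_lit 0) (nat_lit 0) (XT.lf (nat_lit 0) (nat_lit 4649761670847) (nat_lit 152) (nat_lit 3635119066089) (nat_lit 0) (nat_lit 4649027427949) (nat_lit 1) (nat_lit 5) (nat_lit 3) (nat_lit 4) (nat_lit 1) (nat_lit 4) (nat_lit 369) (nat_lit 281) (nat_lit 250)) (XT.lf (nat_lit 0) (nat_lit 5349219186456) (nat_lit 152) (nat_lit 4176122975520) (nat_lit 0) (nat_lit 5348483669052) (nat_lit 1) (nat_lit 5) (nat_lit 3) (nat_lit 4) (nat_lit 1) (nat_lit 4) (nat_lit 370) (nat_lit 281) (nat_lit 249))) (XT.nd (nat_lit 78) (nat_lit 0)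 (nat_lit 0) (XT.lf (nat_lit 0) (nat_lit 6153588749932) (nat_lit 152) (nat_lit 4798290799785) (nat_lit 0) (nat_lit 6152852124263) (nat_lit 1) (nat_lit 5) (nat_lit 3) (nat_lit 4) (nat_lit 1) (nat_lit 4) (nat_lit 371) (nat_lit 281) (nat_lit 248)) (XT.lf (nat_lit 0) (nat_lit 7078608026648) (nat_lit 152) (nat_lit 5513795387619) (nat_lit 0) (nat_lit 7077870437270) (nat_lit 1) (nat_lit 5) (nat_lit 3) (nat_lit 4) (nat_lit 1) (nat_lit 4) (nat_lit 372) (nat_lit 281) (nat_lit 247)))) (XT.nd (nat_lit 44070) (nat_lit 0) (nat_lit 0) (XT.nd (nat_lit 43992) (nat_lit 0) (nat_lit 0) (XT.lf (nat_lit 0) (nat_lit 8142375219843) (nat_lit 152) (nat_lit 6336635741828) (nat_lit 0) (nat_lit 8141636792458) (nat_lit 1) (nat_lit 5) (nat_lit 3) (nat_lit 4) (nat_lit 1) (nat_lit 4) (nat_lit 373) (nat_lit 281) (nat_lit 246)) (XT.lf (nat_lit 0) (nat_lit 7829661593) (nat_lit 152) (nat_lit 49816582792) (nat_lit 0) (nat_lit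 7829661593) (nat_lit 1) (nat_lit 5) (nat_lit 3) (nat_lit 4) (nat_lit 1) (nat_lit 4) (nat_lit 336) (nat_lit 282) (nat_lit 282))) (XT.nd (nat_lit 78) (nat_lit 0) (nat_lit 0) (XT.lf (nat_lit 0) (nat_lit 24659479964) (nat_lit 152) (nat_lit 100844312833) (nat_lit 0) (nat_lit 24547877849) (nat_lit 1) (nat_lit 5) (nat_lit 3) (nat_lit 4) (nat_lit 1) (nat_lit 4) (nat_lit 337) (nat_lit 282) (nat_lit 281)) (XT.lf (nat_lit 0) (nat_lit 34433528180) (nat_lit 152) (nat_lit 103404236093) (nat_lit 0) (nat_lit 34224880746) (nat_lit 1) (nat_lit 5) (nat_lit 3) (nat_lit 4) (nat_lit 1) (nat_lit 4) (nat_lit 338) (nat_lit 282) (nat_lit 280))))))))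
noncomputable def xc6 : XT := (XT.nd (nat_lit 2262) (nat_lit 0) (nat_lit 0) (XT.nd (nat_lit 1092) (nat_lit 0) (nat_lit 0) (XT.nd (nat_lit 546) (nat_lit 0) (nat_lit 0) (XT.nd (nat_lit 234) (nat_lit 0) (nat_lit 0) (XT.nd (nat_lit 78) (nat_lit 0) (nat_lit 0) (XT.lf (nat_lit 0) (nat_lit 45172699212) (nat_lit 152) (nat_lit 107363020822) (nat_lit 0) (nat_lit 44879664546) (nat_lit 1) (nat_lit 5) (nat_lit 3) (nat_lit 4) (nat_lit 1) (nat_lit 4) (nat_lit 339) (nat_lit 282) (nat_lit 279)) (XT.nd (nat_lit 78) (nat_lit 0) (nat_lit 0) (XT.lf (nat_lit 0) (nat_lit 57087107276) (nat_lit 152) (nat_lit 112798121502) (nat_lit 0) (nat_lit 56720692408) (nat_lit 1) (nat_lit 5) (nat_lit 3) (nat_lit 4) (nat_lit 1) (nat_lit 4) (nat_lit 340) (nat_lit 282) (nat_lit 278)) (XT.lf (nat_lit 0) (nat_lit 70409860357) (nat_lit 152) (nat_lit 119815877060) (nat_lit 0) (nat_lit 69979636617) (nat_lit 1) (nat_lit 5) (nat_lit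 3) (nat_lit 4) (nat_lit 1) (nat_lit 4) (nat_lit 341) (nat_lit 282) (nat_lit 277)))) (XT.nd (nat_lit 156) (nat_lit 0) (nat_lit 0) (XT.nd (nat_lit 78) (nat_lit 0) (nat_lit 0) (XT.lf (nat_lit 0) (nat_lit 85401621015) (nat_lit 152) (nat_lit 128553591410) (nat_lit 0) (nat_lit 84915911299) (nat_lit 1) (nat_lit 5) (nat_lit 3) (nat_lit 4) (nat_lit 1) (nat_lit 4) (nat_lit 342) (nat_lit 282) (nat_lit 276)) (XT.lf (nat_lit 0) (nat_lit 102355706306) (nat_lit 152) (nat_lit 139182219831) (nat_lit 0) (nat_lit 101821747916) (nat_lit 1) (nat_lit 5) (nat_lit 3) (nat_lit 4) (nat_lit 1) (nat_lit 4) (nat_lit 343) (nat_lit 282) (nat_lit 275))) (XT.nd (nat_lit 78) (nat_lit 0) (nat_lit 0) (XT.lf (nat_lit 0) (nat_lit 121603826594) (nat_lit 152) (nat_lit 151909713750) (nat_lit 0) (nat_lit 121027912835) (nat_lit 1) (nat_lit 5) (nat_lit 3) (nat_lit 4) (nat_lit 1) (nat_lit 4) (nat_lit 344) (nat_lit 282) (nat_lit 274))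 (XT.lf (nat_lit 0) (nat_lit 143522575538) (nat_lit 152) (nat_lit 166985089352) (nat_lit 0) (nat_lit 142910178849) (nat_lit 1) (nat_lit 5) (nat_lit 3) (nat_lit 4) (nat_lit 1) (nat_lit 4) (nat_lit 345) (nat_lit 282) (nat_lit 273))))) (XT.nd (nat_lit 234) (nat_lit 0) (nat_lit 0) (XT.nd (nat_lit 78) (nat_lit 0) (nat_lit 0) (XT.lf (nat_lit 0) (nat_lit 168540798224) (nat_lit 152) (nat_lit 184703299637) (nat_lit 0) (nat_lit 167896677249) (nat_lit 1) (nat_lit 5) (nat_lit 3) (nat_lit 4) (nat_lit 1) (nat_lit 4) (nat_lit 346) (nat_lit 282) (nat_lit 272)) (XT.nd (nat_lit 78) (nat_lit 0) (nat_lit 0) (XT.lf (nat_lit 0) (nat_lit 197147981620) (nat_lit 152) (nat_lit 205411005243) (nat_lit 0) (nat_lit 196476274309) (nat_lit 1) (nat_lit 5) (nat_lit 3) (nat_lit 4) (nat_lit 1) (nat_lit 4) (nat_lit 347) (nat_lit 282) (nat_lit 271)) (XT.lf (nat_lit 0) (nat_lit 229903831487) (nat_lit 152) (nat_lit 229513356930)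 (nat_lit 0) (nat_lit 229208136057) (nat_lit 1) (nat_lit 5) (nat_lit 3) (nat_lit 4) (nat_lit 1) (nat_lit 4) (nat_lit 348) (nat_lit 282) (nat_lit 270)))) (XT.nd (nat_lit 156) (nat_lit 0) (nat_lit 0) (XT.nd (nat_lit 78) (nat_lit 0) (nat_lit 0) (XT.lf (nat_lit 0) (nat_lit 267449223147) (nat_lit 152) (nat_lit 257481922449) (nat_lit 0) (nat_lit 266732668485) (nat_lit 1) (nat_lit 5) (nat_lit 3) (nat_lit 4) (nat_lit 1) (nat_lit 4) (nat_lit 349) (nat_lit 282) (nat_lit 269)) (XT.lf (nat_lit 0) (nat_lit 310518740353) (nat_lit 152) (nat_lit 289863912865) (nat_lit 0) (nat_lit 309784047226) (nat_lit 1) (nat_lit 5) (nat_lit 3) (nat_lit 4) (nat_lit 1) (nat_lit 4) (nat_lit 350) (nat_lit 282) (nat_lit 268))) (XT.nd (nat_lit 78) (nat_lit 0) (nat_lit 0) (XT.lf (nat_lit 0) (nat_lit 359955047569) (nat_lit 152) (nat_lit 327292888859) (nat_lit 0) (nat_lit 359204581865) (nat_lit 1) (nat_lit 5) (nat_lit 3) (nat_lit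 4) (nat_lit 1) (nat_lit 4) (nat_lit 351) (nat_lit 282) (nat_lit 267)) (XT.lf (nat_lit 0) (nat_lit 416725376895) (nat_lit 152) (nat_lit 370501156484) (nat_lit 0) (nat_lit 415961195907) (nat_lit 1) (nat_lit 5) (nat_lit 3) (nat_lit 4) (nat_lit 1) (nat_lit 4) (nat_lit 352) (nat_lit 282) (nat_lit 266)))))) (XT.nd (nat_lit 546) (nat_lit 0) (nat_lit 0) (XT.nd (nat_lit 234) (nat_lit 0) (nat_lit 0) (XT.nd (nat_lit 78) (nat_lit 0) (nat_lit 0) (XT.lf (nat_lit 0) (nat_lit 481940452165) (nat_lit 152) (nat_lit 420334094889) (nat_lit 0) (nat_lit 481164344842) (nat_lit 1) (nat_lit 5) (nat_lit 3) (nat_lit 4) (nat_lit 1) (nat_lit 4) (nat_lit 353) (nat_lit 282) (nat_lit 265)) (XT.nd (nat_lit 78) (nat_lit 0) (nat_lit 0) (XT.lf (nat_lit 0) (nat_lit 556876220503) (nat_lit 152) (nat_lit 477766696347) (nat_lit 0) (nat_lit 556089742454) (nat_lit 1) (nat_lit 5) (nat_lit 3) (nat_lit 4) (nat_lit 1) (nat_lit 4) (nat_lit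 354) (nat_lit 282) (nat_lit 264)) (XT.lf (nat_lit 0) (nat_lit 642998816507) (nat_lit 152) (nat_lit 543922642191) (nat_lit 0) (nat_lit 642203320437) (nat_lit 1) (nat_lit 5) (nat_lit 3) (nat_lit 4) (nat_lit 1) (nat_lit 4) (nat_lit 355) (nat_lit 282) (nat_lit 263)))) (XT.nd (nat_lit 156) (nat_lit 0) (nat_lit 0) (XT.nd (nat_lit 78) (nat_lit 0) (nat_lit 0) (XT.lf (nat_lit 0) (nat_lit 741993247491) (nat_lit 152) (nat_lit 620096287883) (nat_lit 0) (nat_lit 741189909662) (nat_lit 1) (nat_lit 5) (nat_lit 3) (nat_lit 4) (nat_lit 1) (nat_lit 4) (nat_lit 356) (nat_lit 282) (nat_lit 262)) (XT.lf (nat_lit 0) (nat_lit 855796361018) (nat_lit 152) (nat_lit 707777987361) (nat_lit 0) (nat_lit 854986204268) (nat_lit 1) (nat_lit 5) (nat_lit 3) (nat_lit 4) (nat_lit 1) (nat_lit 4) (nat_lit 357) (nat_lit 282) (nat_lit 261))) (XT.nd (nat_lit 78) (nat_lit 0) (nat_lit 0) (XT.lf (nat_lit 0) (nat_lit 986634739743)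 (nat_lit 152) (nat_lit 808683252136) (nat_lit 0) (nat_lit 985818653497) (nat_lit 1) (nat_lit 5) (nat_lit 3) (nat_lit 4) (nat_lit 1) (nat_lit 4) (nat_lit 358) (nat_lit 282) (nat_lit 260)) (XT.lf (nat_lit 0) (nat_lit 1137068264989) (nat_lit 152) (nat_lit 924786315649) (nat_lit 0) (nat_lit 1136247022660) (nat_lit 1) (nat_lit 5) (nat_lit 3) (nat_lit 4) (nat_lit 1) (nat_lit 4) (nat_lit 359) (nat_lit 282) (nat_lit 259))))) (XT.nd (nat_lit 312) (nat_lit 0) (nat_lit 0) (XT.nd (nat_lit 156) (nat_lit 0) (nat_lit 0) (XT.nd (nat_lit 78) (nat_lit 0) (nat_lit 0) (XT.lf (nat_lit 0) (nat_lit 1310040201380) (nat_lit 152) (nat_lit 1058358759577) (nat_lit 0) (nat_lit 1309214475501) (nat_lit 1) (nat_lit 5) (nat_lit 3) (nat_lit 4) (nat_lit 1) (nat_lit 4) (nat_lit 360) (nat_lit 282) (nat_lit 258)) (XT.lf (nat_lit 0) (nat_lit 1508934782455) (nat_lit 152) (nat_lit 1212013957825) (nat_lit 0) (nat_lit 1508105157836)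 (nat_lit 1) (nat_lit 5) (nat_lit 3) (nat_lit 4) (nat_lit 1) (nat_lit 4) (nat_lit 361) (nat_lit 282) (nat_lit 257))) (XT.nd (nat_lit 78) (nat_lit 0) (nat_lit 0) (XT.lf (nat_lit 0) (nat_lit 1737643423931) (nat_lit 152) (nat_lit 1388758207748) (nat_lit 0) (nat_lit 1736810409103) (nat_lit 1) (nat_lit 5) (nat_lit 3) (nat_lit 4) (nat_lit 1) (nat_lit 4) (nat_lit 362) (nat_lit 282) (nat_lit 256)) (XT.lf (nat_lit 0) (nat_lit 2000640860097) (nat_lit 152) (nat_lit 1592049549019) (nat_lit 0) (nat_lit 1999804897261) (nat_lit 1) (nat_lit 5) (nat_lit 3) (nat_lit 4) (nat_lit 1) (nat_lit 4) (nat_lit 363) (nat_lit 282) (nat_lit 255)))) (XT.nd (nat_lit 156) (nat_lit 0) (nat_lit 0) (XT.nd (nat_lit 78) (nat_lit 0) (nat_lit 0) (XT.lf (nat_lit 0) (nat_lit 2303072692964) (nat_lit 152) (nat_lit 1825865420924) (nat_lit 0) (nat_lit 2302234166644) (nat_lit 1) (nat_lit 5) (nat_lit 3) (nat_lit 4) (nat_lit 1) (nat_lit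 4) (nat_lit 364) (nat_lit 282) (nat_lit 254)) (XT.lf (nat_lit 0) (nat_lit 2650856067090) (nat_lit 152) (nat_lit 2094780481826) (nat_lit 0) (nat_lit 2650015311653) (nat_lit 1) (nat_lit 5) (nat_lit 3) (nat_lit 4) (nat_lit 1) (nat_lit 4) (nat_lit 365) (nat_lit 282) (nat_lit 253))) (XT.nd (nat_lit 78) (nat_lit 0) (nat_lit 0) (XT.lf (nat_lit 0) (nat_lit 3050795439794) (nat_lit 152) (nat_lit 2404056113352) (nat_lit 0) (nat_lit 3049952745994) (nat_lit 1) (nat_lit 5) (nat_lit 3) (nat_lit 4) (nat_lit 1) (nat_lit 4) (nat_lit 366) (nat_lit 282) (nat_lit 252)) (XT.lf (nat_lit 0) (nat_lit 3510715711846) (nat_lit 152) (nat_lit 2759743360465) (nat_lit 0) (nat_lit 3509871332513) (nat_lit 1) (nat_lit 5) (nat_lit 3) (nat_lit 4) (nat_lit 1) (nat_lit 4) (nat_lit 367) (nat_lit 282) (nat_lit 251))))))) (XT.nd (nat_lit 44850) (nat_lit 0) (nat_lit 0) (XT.nd (nat_lit 44304) (nat_lit 0) (nat_lit 0) (XT.nd (nat_lit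 234) (nat_lit 0) (nat_lit 0) (XT.nd (nat_lit 78) (nat_lit 0) (nat_lit 0) (XT.lf (nat_lit 0) (nat_lit 4039615323352) (nat_lit 152) (nat_lit 3168801321480) (nat_lit 0) (nat_lit 4038769478338) (nat_lit 1) (nat_lit 5) (nat_lit 3) (nat_lit 4) (nat_lit 1) (nat_lit 4) (nat_lit 368) (nat_lit 282) (nat_lit 250)) (XT.nd (nat_lit 78) (nat_lit 0) (nat_lit 0) (XT.lf (nat_lit 0) (nat_lit 4647842310188) (nat_lit 152) (nat_lit 3639233304330) (nat_lit 0) (nat_lit 4646995190669) (nat_lit 1) (nat_lit 5) (nat_lit 3) (nat_lit 4) (nat_lit 1) (nat_lit 4) (nat_lit 369) (nat_lit 282) (nat_lit 249)) (XT.lf (nat_lit 0) (nat_lit 5347296765576) (nat_lit 152) (nat_lit 4180243413025) (nat_lit 0) (nat_lit 5346448537792) (nat_lit 1) (nat_lit 5) (nat_lit 3) (nat_lit 4) (nat_lit 1) (nat_lit 4) (nat_lit 370) (nat_lit 282) (nat_lit 248)))) (XT.nd (nat_lit 156) (nat_lit 0) (nat_lit 0) (XT.nd (nat_lit 78) (nat_lit 0) (nat_lit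 0) (XT.lf (nat_lit 0) (nat_lit 6151663667991) (nat_lit 152) (nat_lit 4802416627955) (nat_lit 0) (nat_lit 6150814476498) (nat_lit 1) (nat_lit 5) (nat_lit 3) (nat_lit 4) (nat_lit 1) (nat_lit 4) (nat_lit 371) (nat_lit 282) (nat_lit 247)) (XT.lf (nat_lit 0) (nat_lit 7076680630741) (nat_lit 152) (nat_lit 5517925903324) (nat_lit 0) (nat_lit 7075830601240) (nat_lit 1) (nat_lit 5) (nat_lit 3) (nat_lit 4) (nat_lit 1) (nat_lit 4) (nat_lit 372) (nat_lit 282) (nat_lit 246))) (XT.nd (nat_lit 43836) (nat_lit 0) (nat_lit 152) (XT.lf (nat_lit 0) (nat_lit 8140445811792) (nat_lit 152) (nat_lit 6340770333650) (nat_lit 0) (nat_lit 8139595053589) (nat_lit 1) (nat_lit 5) (nat_lit 3) (nat_lit 4) (nat_lit 1) (nat_lit 4) (nat_lit 373) (nat_lit 282) (nat_lit 245)) (XT.lf (nat_lit 0) (nat_lit 49781628082) (nat_lit 76) (nat_lit 111722798) (nat_lit 76) (nat_lit 111722798) (nat_lit 3) (nat_lit 4) (nat_lit 4) (nat_lit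 5) (nat_lit 4) (nat_lit 4) (nat_lit 334) (nat_lit 283) (nat_lit 283))))) (XT.nd (nat_lit 234) (nat_lit 0) (nat_lit 0) (XT.nd (nat_lit 78) (nat_lit 0) (nat_lit 0) (XT.lf (nat_lit 0) (nat_lit 7385310258) (nat_lit 152) (nat_lit 99747097991) (nat_lit 0) (nat_lit 7256967825) (nat_lit 1) (nat_lit 5) (nat_lit 3) (nat_lit 4) (nat_lit 1) (nat_lit 4) (nat_lit 335) (nat_lit 283) (nat_lit 282)) (XT.nd (nat_lit 78) (nat_lit 0) (nat_lit 0) (XT.lf (nat_lit 0) (nat_lit 15479501950) (nat_lit 152) (nat_lit 100257430476) (nat_lit 0) (nat_lit 15239557402) (nat_lit 1) (nat_lit 5) (nat_lit 3) (nat_lit 4) (nat_lit 1) (nat_lit 4) (nat_lit 336) (nat_lit 283) (nat_lit 281)) (XT.lf (nat_lit 0) (nat_lit 24211690319) (nat_lit 152) (nat_lit 102011416758) (nat_lit 0) (nat_lit 23874700453) (nat_lit 1) (nat_lit 5) (nat_lit 3) (nat_lit 4) (nat_lit 1) (nat_lit 4) (nat_lit 337) (nat_lit 283) (nat_lit 280)))) (XT.nd (nat_lit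 156) (nat_lit 0) (nat_lit 0) (XT.nd (nat_lit 78) (nat_lit 0) (nat_lit 0) (XT.lf (nat_lit 0) (nat_lit 33752722527) (nat_lit 152) (nat_lit 105043373963) (nat_lit 0) (nat_lit 33331345428) (nat_lit 1) (nat_lit 5) (nat_lit 3) (nat_lit 4) (nat_lit 1) (nat_lit 4) (nat_lit 338) (nat_lit 283) (nat_lit 279)) (XT.lf (nat_lit 0) (nat_lit 44289270944) (nat_lit 152) (nat_lit 109412622990) (nat_lit 0) (nat_lit 43794513643) (nat_lit 1) (nat_lit 5) (nat_lit 3) (nat_lit 4) (nat_lit 1) (nat_lit 4) (nat_lit 339) (nat_lit 283) (nat_lit 278))) (XT.nd (nat_lit 78) (nat_lit 0) (nat_lit 0) (XT.lf (nat_lit 0) (nat_lit 56027485431) (nat_lit 152) (nat_lit 115204649147) (nat_lit 0) (nat_lit 55468919257) (nat_lit 1) (nat_lit 5) (nat_lit 3) (nat_lit 4) (nat_lit 1) (nat_lit 4) (nat_lit 340) (nat_lit 283) (nat_lit 277)) (XT.lf (nat_lit 0) (nat_lit 69197026705) (nat_lit 152) (nat_lit 122532774686) (nat_lit 0) (nat_lit 68582974556)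 (nat_lit 1) (nat_lit 5) (nat_lit 3) (nat_lit 4) (nat_lit 1) (nat_lit 4) (nat_lit 341) (nat_lit 283) (nat_lit 276)))))) (XT.nd (nat_lit 546) (nat_lit 0) (nat_lit 0) (XT.nd (nat_lit 234) (nat_lit 0) (nat_lit 0) (XT.nd (nat_lit 78) (nat_lit 0) (nat_lit 0) (XT.lf (nat_lit 0) (nat_lit 84055559704) (nat_lit 152) (nat_lit 131540375974) (nat_lit 0) (nat_lit 83393258881) (nat_lit 1) (nat_lit 5) (nat_lit 3) (nat_lit 4) (nat_lit 1) (nat_lit 4) (nat_lit 342) (nat_lit 283) (nat_lit 275)) (XT.nd (nat_lit 78) (nat_lit 0) (nat_lit 0) (XT.lf (nat_lit 0) (nat_lit 100893794857) (nat_lit 152) (nat_lit 142403688691) (nat_lit 0) (nat_lit 100189538665) (nat_lit 1) (nat_lit 5) (nat_lit 3) (nat_lit 4) (nat_lit 1) (nat_lit 4) (nat_lit 343) (nat_lit 283) (nat_lit 274)) (XT.lf (nat_lit 0) (nat_lit 120041175895) (nat_lit 152) (nat_lit 155335255910) (nat_lit 0) (nat_lit 119300436773) (nat_lit 1) (nat_lit 5) (nat_lit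 3) (nat_lit 4) (nat_lit 1) (nat_lit 4) (nat_lit 344) (nat_lit 283) (nat_lit 273)))) (XT.nd (nat_lit 156) (nat_lit 0) (nat_lit 0) (XT.nd (nat_lit 78) (nat_lit 0) (nat_lit 0) (XT.lf (nat_lit 0) (nat_lit 141872325490) (nat_lit 152) (nat_lit 170588086555) (nat_lit 0) (nat_lit 141099862082) (nat_lit 1) (nat_lit 5) (nat_lit 3) (nat_lit 4) (nat_lit 1) (nat_lit 4) (nat_lit 345) (nat_lit 283) (nat_lit 272)) (XT.lf (nat_lit 0) (nat_lit 166814374831) (nat_lit 152) (nat_lit 188460605574) (nat_lit 0) (nat_lit 166014325087) (nat_lit 1) (nat_lit 5) (nat_lit 3) (nat_lit 4) (nat_lit 1) (nat_lit 4) (nat_lit 346) (nat_lit 283) (nat_lit 271))) (XT.nd (nat_lit 78) (nat_lit 0) (nat_lit 0) (XT.lf (nat_lit 0) (nat_lit 195355320534) (nat_lit 152) (nat_lit 209302492687) (nat_lit 0) (nat_lit 194531282672) (nat_lit 1) (nat_lit 5) (nat_lit 3) (nat_lit 4) (nat_lit 1) (nat_lit 4) (nat_lit 347) (nat_lit 283) (nat_lit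 270)) (XT.lf (nat_lit 0) (nat_lit 228053572407) (nat_lit 152) (nat_lit 233521523946) (nat_lit 0) (nat_lit 227208675312) (nat_lit 1) (nat_lit 5) (nat_lit 3) (nat_lit 4) (nat_lit 1) (nat_lit 4) (nat_lit 348) (nat_lit 283) (nat_lit 269))))) (XT.nd (nat_lit 312) (nat_lit 0) (nat_lit 0) (XT.nd (nat_lit 156) (nat_lit 0) (nat_lit 0) (XT.nd (nat_lit 78) (nat_lit 0) (nat_lit 0) (XT.lf (nat_lit 0) (nat_lit 265548878857) (nat_lit 152) (nat_lit 261591549962) (nat_lit 0) (nat_lit 264685843297) (nat_lit 1) (nat_lit 5) (nat_lit 3) (nat_lit 4) (nat_lit 1) (nat_lit 4) (nat_lit 349) (nat_lit 283) (nat_lit 268)) (XT.lf (nat_lit 0) (nat_lit 308574843704) (nat_lit 152) (nat_lit 294061766897) (nat_lit 0) (nat_lit 307696035568) (nat_lit 1) (nat_lit 5) (nat_lit 3) (nat_lit 4) (nat_lit 1) (nat_lit 4) (nat_lit 350) (nat_lit 283) (nat_lit 267))) (XT.nd (nat_lit 78) (nat_lit 0) (nat_lit 0) (XT.lf (nat_lit 0) (nat_lit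 357973279305) (nat_lit 152) (nat_lit 331567461604) (nat_lit 0) (nat_lit 357080755884) (nat_lit 1) (nat_lit 5) (nat_lit 3) (nat_lit 4) (nat_lit 1) (nat_lit 4) (nat_lit 351) (nat_lit 283) (nat_lit 266)) (XT.lf (nat_lit 0) (nat_lit 414710676792) (nat_lit 152) (nat_lit 374842441153) (nat_lit 0) (nat_lit 413806227036) (nat_lit 1) (nat_lit 5) (nat_lit 3) (nat_lit 4) (nat_lit 1) (nat_lit 4) (nat_lit 352) (nat_lit 283) (nat_lit 265)))) (XT.nd (nat_lit 156) (nat_lit 0) (nat_lit 0) (XT.nd (nat_lit 78) (nat_lit 0) (nat_lit 0) (XT.lf (nat_lit 0) (nat_lit 479897115679) (nat_lit 152) (nat_lit 424733389926) (nat_lit 0) (nat_lit 478982295198) (nat_lit 1) (nat_lit 5) (nat_lit 3) (nat_lit 4) (nat_lit 1) (nat_lit 4) (nat_lit 353) (nat_lit 283) (nat_lit 264)) (XT.lf (nat_lit 0) (nat_lit 554807982815) (nat_lit 152) (nat_lit 482216435183) (nat_lit 0) (nat_lit 553884144311) (nat_lit 1) (nat_lit 5) (nat_lit 3)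 (nat_lit 4) (nat_lit 1) (nat_lit 4) (nat_lit 354) (nat_lit 283) (nat_lit 263))) (XT.nd (nat_lit 78) (nat_lit 0) (nat_lit 0) (XT.lf (nat_lit 0) (nat_lit 640908925600) (nat_lit 152) (nat_lit 548416245200) (nat_lit 0) (nat_lit 639977245338) (nat_lit 1) (nat_lit 5) (nat_lit 3) (nat_lit 4) (nat_lit 1) (nat_lit 4) (nat_lit 355) (nat_lit 283) (nat_lit 262)) (XT.lf (nat_lit 0) (nat_lit 739884527698) (nat_lit 152) (nat_lit 624628033651) (nat_lit 0) (nat_lit 738946028516) (nat_lit 1) (nat_lit 5) (nat_lit 3) (nat_lit 4) (nat_lit 1) (nat_lit 4) (nat_lit 356) (nat_lit 283) (nat_lit 261))))))))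
noncomputable def xc7 : XT := (XT.nd (nat_lit 45864) (nat_lit 0) (nat_lit 0) (XT.nd (nat_lit 1092) (nat_lit 0) (nat_lit 0) (XT.nd (nat_lit 546) (nat_lit 0) (nat_lit 0) (XT.nd (nat_lit 234) (nat_lit 0) (nat_lit 0) (XT.nd (nat_lit 78) (nat_lit 0) (nat_lit 0) (XT.lf (nat_lit 0) (nat_lit 853671268280) (nat_lit 152) (nat_lit 712342900745) (nat_lit 0) (nat_lit 852726839602) (nat_lit 1) (nat_lit 5) (nat_lit 3) (nat_lit 4) (nat_lit 1) (nat_lit 4) (nat_lit 357) (nat_lit 283) (nat_lit 260)) (XT.nd (nat_lit 78) (nat_lit 0) (nat_lit 0) (XT.lf (nat_lit 0) (nat_lit 984495409662) (nat_lit 152) (nat_lit 813277006925) (nat_lit 0) (nat_lit 983545824900) (nat_lit 1) (nat_lit 5) (nat_lit 3) (nat_lit 4) (nat_lit 1) (nat_lit 4) (nat_lit 358) (nat_lit 283) (nat_lit 259)) (XT.lf (nat_lit 0) (nat_lit 1134916554610) (nat_lit 152) (nat_lit 929405149921) (nat_lit 0) (nat_lit 1133962486297) (nat_lit 1) (nat_lit 5)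 (nat_lit 3) (nat_lit 4) (nat_lit 1) (nat_lit 4) (nat_lit 359) (nat_lit 283) (nat_lit 258)))) (XT.nd (nat_lit 156) (nat_lit 0) (nat_lit 0) (XT.nd (nat_lit 78) (nat_lit 0) (nat_lit 0) (XT.lf (nat_lit 0) (nat_lit 1307877725525) (nat_lit 152) (nat_lit 1062999402096) (nat_lit 0) (nat_lit 1306919758472) (nat_lit 1) (nat_lit 5) (nat_lit 3) (nat_lit 4) (nat_lit 1) (nat_lit 4) (nat_lit 360) (nat_lit 283) (nat_lit 257)) (XT.lf (nat_lit 0) (nat_lit 1506762945316) (nat_lit 152) (nat_lit 1216673564036) (nat_lit 0) (nat_lit 1505801588055) (nat_lit 1) (nat_lit 5) (nat_lit 3) (nat_lit 4) (nat_lit 1) (nat_lit 4) (nat_lit 361) (nat_lit 283) (nat_lit 256))) (XT.nd (nat_lit 78) (nat_lit 0) (nat_lit 0) (XT.lf (nat_lit 0) (nat_lit 1735463446544) (nat_lit 152) (nat_lit 1393434304126) (nat_lit 0) (nat_lit 1734499141276) (nat_lit 1) (nat_lit 5) (nat_lit 3) (nat_lit 4) (nat_lit 1) (nat_lit 4) (nat_lit 362) (nat_lit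 283) (nat_lit 255)) (XT.lf (nat_lit 0) (nat_lit 1998453804234) (nat_lit 152) (nat_lit 1596739984673) (nat_lit 0) (nat_lit 1997486935481) (nat_lit 1) (nat_lit 5) (nat_lit 3) (nat_lit 4) (nat_lit 1) (nat_lit 4) (nat_lit 363) (nat_lit 283) (nat_lit 254))))) (XT.nd (nat_lit 234) (nat_lit 0) (nat_lit 0) (XT.nd (nat_lit 78) (nat_lit 0) (nat_lit 0) (XT.lf (nat_lit 0) (nat_lit 2300879481905) (nat_lit 152) (nat_lit 1830568325514) (nat_lit 0) (nat_lit 2299910384035) (nat_lit 1) (nat_lit 5) (nat_lit 3) (nat_lit 4) (nat_lit 1) (nat_lit 4) (nat_lit 364) (nat_lit 283) (nat_lit 253)) (XT.nd (nat_lit 78) (nat_lit 0) (nat_lit 0) (XT.lf (nat_lit 0) (nat_lit 2648657503687) (nat_lit 152) (nat_lit 2099494228968) (nat_lit 0) (nat_lit 2647686467453) (nat_lit 1) (nat_lit 5) (nat_lit 3) (nat_lit 4) (nat_lit 1) (nat_lit 4) (nat_lit 365) (nat_lit 283) (nat_lit 252)) (XT.lf (nat_lit 0) (nat_lit 3048592222178) (nat_lit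 152) (nat_lit 2408779288801) (nat_lit 0) (nat_lit 3047619500412) (nat_lit 1) (nat_lit 5) (nat_lit 3) (nat_lit 4) (nat_lit 1) (nat_lit 4) (nat_lit 366) (nat_lit 283) (nat_lit 251)))) (XT.nd (nat_lit 156) (nat_lit 0) (nat_lit 0) (XT.nd (nat_lit 78) (nat_lit 0) (nat_lit 0) (XT.lf (nat_lit 0) (nat_lit 3508508447088) (nat_lit 152) (nat_lit 2764474734442) (nat_lit 0) (nat_lit 3507534259642) (nat_lit 1) (nat_lit 5) (nat_lit 3) (nat_lit 4) (nat_lit 1) (nat_lit 4) (nat_lit 367) (nat_lit 283) (nat_lit 250)) (XT.lf (nat_lit 0) (nat_lit 4037404539340) (nat_lit 152) (nat_lit 3173539824611) (nat_lit 0) (nat_lit 4036429077389) (nat_lit 1) (nat_lit 5) (nat_lit 3) (nat_lit 4) (nat_lit 1) (nat_lit 4) (nat_lit 368) (nat_lit 283) (nat_lit 249))) (XT.nd (nat_lit 78) (nat_lit 0) (nat_lit 0) (XT.lf (nat_lit 0) (nat_lit 4645628465957) (nat_lit 152) (nat_lit 3643978006725) (nat_lit 0) (nat_lit 4644651895740) (nat_lit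 1) (nat_lit 5) (nat_lit 3) (nat_lit 4) (nat_lit 1) (nat_lit 4) (nat_lit 369) (nat_lit 283) (nat_lit 248)) (XT.lf (nat_lit 0) (nat_lit 5345080260284) (nat_lit 152) (nat_lit 4184993506086) (nat_lit 0) (nat_lit 5344102726358) (nat_lit 1) (nat_lit 5) (nat_lit 3) (nat_lit 4) (nat_lit 1) (nat_lit 4) (nat_lit 370) (nat_lit 283) (nat_lit 247)))))) (XT.nd (nat_lit 44148) (nat_lit 0) (nat_lit 0) (XT.nd (nat_lit 43836) (nat_lit 0) (nat_lit 0) (XT.nd (nat_lit 78) (nat_lit 0) (nat_lit 0) (XT.lf (nat_lit 0) (nat_lit 6149444848732) (nat_lit 152) (nat_lit 4807171408550) (nat_lit 0) (nat_lit 6148466476799) (nat_lit 1) (nat_lit 5) (nat_lit 3) (nat_lit 4) (nat_lit 1) (nat_lit 4) (nat_lit 371) (nat_lit 283) (nat_lit 246)) (XT.nd (nat_lit 78) (nat_lit 0) (nat_lit 0) (XT.lf (nat_lit 0) (nat_lit 7074459799337) (nat_lit 152) (nat_lit 5522684760036) (nat_lit 0) (nat_lit 7073480698701) (nat_lit 1) (nat_lit 5) (nat_lit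 3) (nat_lit 4) (nat_lit 1) (nat_lit 4) (nat_lit 372) (nat_lit 283) (nat_lit 245)) (XT.lf (nat_lit 0) (nat_lit 8138223230697) (nat_lit 152) (nat_lit 6345532734812) (nat_lit 0) (nat_lit 8137243496407) (nat_lit 1) (nat_lit 5) (nat_lit 3) (nat_lit 4) (nat_lit 1) (nat_lit 4) (nat_lit 373) (nat_lit 283) (nat_lit 244)))) (XT.nd (nat_lit 156) (nat_lit 152) (nat_lit 0) (XT.nd (nat_lit 78) (nat_lit 0) (nat_lit 0) (XT.lf (nat_lit 0) (nat_lit 24630177280) (nat_lit 76) (nat_lit 6848996498) (nat_lit 76) (nat_lit 6848996498) (nat_lit 3) (nat_lit 4) (nat_lit 4) (nat_lit 5) (nat_lit 4) (nat_lit 4) (nat_lit 332) (nat_lit 284) (nat_lit 284)) (XT.lf (nat_lit 0) (nat_lit 73002790459) (nat_lit 76) (nat_lit 7330722983) (nat_lit 76) (nat_lit 7171321681) (nat_lit 3) (nat_lit 4) (nat_lit 4) (nat_lit 5) (nat_lit 4) (nat_lit 4) (nat_lit 333) (nat_lit 284) (nat_lit 283))) (XT.nd (nat_lit 78) (nat_lit 152) (nat_lit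 0) (XT.lf (nat_lit 0) (nat_lit 98916877400) (nat_lit 76) (nat_lit 708485533) (nat_lit 76) (nat_lit 410474404) (nat_lit 3) (nat_lit 4) (nat_lit 4) (nat_lit 5) (nat_lit 4) (nat_lit 4) (nat_lit 334) (nat_lit 284) (nat_lit 282)) (XT.lf (nat_lit 0) (nat_lit 6870352166) (nat_lit 152) (nat_lit 101089267505) (nat_lit 0) (nat_lit 6482813820) (nat_lit 1) (nat_lit 5) (nat_lit 3) (nat_lit 4) (nat_lit 1) (nat_lit 4) (nat_lit 335) (nat_lit 284) (nat_lit 281))))) (XT.nd (nat_lit 312) (nat_lit 0) (nat_lit 0) (XT.nd (nat_lit 156) (nat_lit 0) (nat_lit 0) (XT.nd (nat_lit 78) (nat_lit 0) (nat_lit 0) (XT.lf (nat_lit 0) (nat_lit 14696575450) (nat_lit 152) (nat_lit 102142439025) (nat_lit 0) (nat_lit 14211991786) (nat_lit 1) (nat_lit 5) (nat_lit 3) (nat_lit 4) (nat_lit 1) (nat_lit 4) (nat_lit 336) (nat_lit 284) (nat_lit 280)) (XT.lf (nat_lit 0) (nat_lit 23195747811) (nat_lit 152) (nat_lit 104368459252) (nat_lit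 0) (nat_lit 22626776915) (nat_lit 1) (nat_lit 5) (nat_lit 3) (nat_lit 4) (nat_lit 1) (nat_lit 4) (nat_lit 337) (nat_lit 284) (nat_lit 279))) (XT.nd (nat_lit 78) (nat_lit 0) (nat_lit 0) (XT.lf (nat_lit 0) (nat_lit 32534157405) (nat_lit 152) (nat_lit 107810880755) (nat_lit 0) (nat_lit 31891806305) (nat_lit 1) (nat_lit 5) (nat_lit 3) (nat_lit 4) (nat_lit 1) (nat_lit 4) (nat_lit 338) (nat_lit 284) (nat_lit 278)) (XT.lf (nat_lit 0) (nat_lit 42894512243) (nat_lit 152) (nat_lit 112537055259) (nat_lit 0) (nat_lit 42188352272) (nat_lit 1) (nat_lit 5) (nat_lit 3) (nat_lit 4) (nat_lit 1) (nat_lit 4) (nat_lit 339) (nat_lit 284) (nat_lit 277)))) (XT.nd (nat_lit 156) (nat_lit 0) (nat_lit 0) (XT.nd (nat_lit 78) (nat_lit 0) (nat_lit 0) (XT.lf (nat_lit 0) (nat_lit 54479514923) (nat_lit 152) (nat_lit 118639451397) (nat_lit 0) (nat_lit 53717868976) (nat_lit 1) (nat_lit 5) (nat_lit 3) (nat_lit 4) (nat_lit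 1) (nat_lit 4) (nat_lit 340) (nat_lit 284) (nat_lit 276)) (XT.lf (nat_lit 0) (nat_lit 67515828538) (nat_lit 152) (nat_lit 126237463875) (nat_lit 0) (nat_lit 66705933917) (nat_lit 1) (nat_lit 5) (nat_lit 3) (nat_lit 4) (nat_lit 1) (nat_lit 4) (nat_lit 341) (nat_lit 284) (nat_lit 275))) (XT.nd (nat_lit 78) (nat_lit 0) (nat_lit 0) (XT.lf (nat_lit 0) (nat_lit 82258511400) (nat_lit 152) (nat_lit 135479749458) (nat_lit 0) (nat_lit 81406661410) (nat_lit 1) (nat_lit 5) (nat_lit 3) (nat_lit 4) (nat_lit 1) (nat_lit 4) (nat_lit 342) (nat_lit 284) (nat_lit 274)) (XT.lf (nat_lit 0) (nat_lit 98996007302) (nat_lit 152) (nat_lit 146547135475) (nat_lit 0) (nat_lit 98107674383) (nat_lit 1) (nat_lit 5) (nat_lit 3) (nat_lit 4) (nat_lit 1) (nat_lit 4) (nat_lit 343) (nat_lit 284) (nat_lit 273))))))) (XT.nd (nat_lit 1092) (nat_lit 0) (nat_lit 0) (XT.nd (nat_lit 546) (nat_lit 0) (nat_lit 0) (XT.nd (nat_lit 234)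 (nat_lit 0) (nat_lit 0) (XT.nd (nat_lit 78) (nat_lit 0) (nat_lit 0) (XT.lf (nat_lit 0) (nat_lit 118055788992) (nat_lit 152) (nat_lit 159656157737) (nat_lit 0) (nat_lit 117135731787) (nat_lit 1) (nat_lit 5) (nat_lit 3) (nat_lit 4) (nat_lit 1) (nat_lit 4) (nat_lit 344) (nat_lit 284) (nat_lit 272)) (XT.nd (nat_lit 78) (nat_lit 0) (nat_lit 0) (XT.lf (nat_lit 0) (nat_lit 139810765242) (nat_lit 152) (nat_lit 175063297116) (nat_lit 0) (nat_lit 138863121700) (nat_lit 1) (nat_lit 5) (nat_lit 3) (nat_lit 4) (nat_lit 1) (nat_lit 4) (nat_lit 345) (nat_lit 284) (nat_lit 271)) (XT.lf (nat_lit 0) (nat_lit 164686576890) (nat_lit 152) (nat_lit 193069997642) (nat_lit 0) (nat_lit 163714945230) (nat_lit 1) (nat_lit 5) (nat_lit 3) (nat_lit 4) (nat_lit 1) (nat_lit 4) (nat_lit 346) (nat_lit 284) (nat_lit 270)))) (XT.nd (nat_lit 156) (nat_lit 0) (nat_lit 0) (XT.nd (nat_lit 78) (nat_lit 0) (nat_lit 0) (XT.lf (nat_lit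 0) (nat_lit 193169924600) (nat_lit 152) (nat_lit 214028564327) (nat_lit 0) (nat_lit 192177433707) (nat_lit 1) (nat_lit 5) (nat_lit 3) (nat_lit 4) (nat_lit 1) (nat_lit 4) (nat_lit 347) (nat_lit 284) (nat_lit 269)) (XT.lf (nat_lit 0) (nat_lit 225818091262) (nat_lit 152) (nat_lit 238349056083) (nat_lit 0) (nat_lit 224807461904) (nat_lit 1) (nat_lit 5) (nat_lit 3) (nat_lit 4) (nat_lit 1) (nat_lit 4) (nat_lit 348) (nat_lit 284) (nat_lit 268))) (XT.nd (nat_lit 78) (nat_lit 0) (nat_lit 0) (XT.lf (nat_lit 0) (nat_lit 263269845353) (nat_lit 152) (nat_lit 266507308618) (nat_lit 0) (nat_lit 262243443419) (nat_lit 1) (nat_lit 5) (nat_lit 3) (nat_lit 4) (nat_lit 1) (nat_lit 4) (nat_lit 349) (nat_lit 284) (nat_lit 267)) (XT.lf (nat_lit 0) (nat_lit 306257938585) (nat_lit 152) (nat_lit 299054244265) (nat_lit 0) (nat_lit 305217821366) (nat_lit 1) (nat_lit 5) (nat_lit 3) (nat_lit 4) (nat_lit 1) (nat_lit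 4) (nat_lit 350) (nat_lit 284) (nat_lit 266))))) (XT.nd (nat_lit 234) (nat_lit 0) (nat_lit 0) (XT.nd (nat_lit 78) (nat_lit 0) (nat_lit 0) (XT.lf (nat_lit 0) (nat_lit 355623442347) (nat_lit 152) (nat_lit 336626650896) (nat_lit 0) (nat_lit 354571398793) (nat_lit 1) (nat_lit 5) (nat_lit 3) (nat_lit 4) (nat_lit 1) (nat_lit 4) (nat_lit 351) (nat_lit 284) (nat_lit 265)) (XT.nd (nat_lit 78) (nat_lit 0) (nat_lit 0) (XT.lf (nat_lit 0) (nat_lit 412332203451) (nat_lit 152) (nat_lit 379959640813) (nat_lit 0) (nat_lit 411269789172) (nat_lit 1) (nat_lit 5) (nat_lit 3) (nat_lit 4) (nat_lit 1) (nat_lit 4) (nat_lit 352) (nat_lit 284) (nat_lit 264)) (XT.lf (nat_lit 0) (nat_lit 477493741136) (nat_lit 152) (nat_lit 429901033386) (nat_lit 0) (nat_lit 476422308835) (nat_lit 1) (nat_lit 5) (nat_lit 3) (nat_lit 4) (nat_lit 1) (nat_lit 4) (nat_lit 353) (nat_lit 284) (nat_lit 263)))) (XT.nd (nat_lit 156) (nat_lit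 0) (nat_lit 0) (XT.nd (nat_lit 78) (nat_lit 0) (nat_lit 0) (XT.lf (nat_lit 0) (nat_lit 552382955053) (nat_lit 152) (nat_lit 487427942815) (nat_lit 0) (nat_lit 551303680993) (nat_lit 1) (nat_lit 5) (nat_lit 3) (nat_lit 4) (nat_lit 1) (nat_lit 4) (nat_lit 354) (nat_lit 284) (nat_lit 262)) (XT.lf (nat_lit 0) (nat_lit 638465068952) (nat_lit 152) (nat_lit 553665895591) (nat_lit 0) (nat_lit 637378975972) (nat_lit 1) (nat_lit 5) (nat_lit 3) (nat_lit 4) (nat_lit 1) (nat_lit 4) (nat_lit 355) (nat_lit 284) (nat_lit 261))) (XT.nd (nat_lit 78) (nat_lit 0) (nat_lit 0) (XT.lf (nat_lit 0) (nat_lit 737424298106) (nat_lit 152) (nat_lit 629910851658) (nat_lit 0) (nat_lit 736332275630) (nat_lit 1) (nat_lit 5) (nat_lit 3) (nat_lit 4) (nat_lit 1) (nat_lit 4) (nat_lit 356) (nat_lit 284) (nat_lit 260)) (XT.lf (nat_lit 0) (nat_lit 851196801345) (nat_lit 152) (nat_lit 717654560158) (nat_lit 0) (nat_lit 850099622785)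 (nat_lit 1) (nat_lit 5) (nat_lit 3) (nat_lit 4) (nat_lit 1) (nat_lit 4) (nat_lit 357) (nat_lit 284) (nat_lit 259)))))) (XT.nd (nat_lit 546) (nat_lit 0) (nat_lit 0) (XT.nd (nat_lit 234) (nat_lit 0) (nat_lit 0) (XT.nd (nat_lit 78) (nat_lit 0) (nat_lit 0) (XT.lf (nat_lit 0) (nat_lit 982008562428) (nat_lit 152) (nat_lit 818613745822) (nat_lit 0) (nat_lit 980906900318) (nat_lit 1) (nat_lit 5) (nat_lit 3) (nat_lit 4) (nat_lit 1) (nat_lit 4) (nat_lit 358) (nat_lit 284) (nat_lit 258)) (XT.nd (nat_lit 78) (nat_lit 0) (nat_lit 0) (XT.lf (nat_lit 0) (nat_lit 1132418941899) (nat_lit 152) (nat_lit 934763697064) (nat_lit 0) (nat_lit 1131313381049) (nat_lit 1) (nat_lit 5) (nat_lit 3) (nat_lit 4) (nat_lit 1) (nat_lit 4) (nat_lit 359) (nat_lit 284) (nat_lit 257)) (XT.lf (nat_lit 0) (nat_lit 1305370751530) (nat_lit 152) (nat_lit 1068376912931) (nat_lit 0) (nat_lit 1304261800471) (nat_lit 1) (nat_lit 5) (nat_lit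 3) (nat_lit 4) (nat_lit 1) (nat_lit 4) (nat_lit 360) (nat_lit 284) (nat_lit 256)))) (XT.nd (nat_lit 156) (nat_lit 0) (nat_lit 0) (XT.nd (nat_lit 78) (nat_lit 0) (nat_lit 0) (XT.lf (nat_lit 0) (nat_lit 1504247831074) (nat_lit 152) (nat_lit 1222067565038) (nat_lit 0) (nat_lit 1503135932007) (nat_lit 1) (nat_lit 5) (nat_lit 3) (nat_lit 4) (nat_lit 1) (nat_lit 4) (nat_lit 361) (nat_lit 284) (nat_lit 255)) (XT.lf (nat_lit 0) (nat_lit 1732941253826) (nat_lit 152) (nat_lit 1398842644404) (nat_lit 0) (nat_lit 1731826791275) (nat_lit 1) (nat_lit 5) (nat_lit 3) (nat_lit 4) (nat_lit 1) (nat_lit 4) (nat_lit 362) (nat_lit 284) (nat_lit 254))) (XT.nd (nat_lit 78) (nat_lit 0) (nat_lit 0) (XT.lf (nat_lit 0) (nat_lit 1995925456320) (nat_lit 152) (nat_lit 1602160793887) (nat_lit 0) (nat_lit 1994808764652) (nat_lit 1) (nat_lit 5) (nat_lit 3) (nat_lit 4) (nat_lit 1) (nat_lit 4) (nat_lit 363) (nat_lit 284)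 (nat_lit 253)) (XT.lf (nat_lit 0) (nat_lit 2298345781647) (nat_lit 152) (nat_lit 1835999977280) (nat_lit 0) (nat_lit 2297227151616) (nat_lit 1) (nat_lit 5) (nat_lit 3) (nat_lit 4) (nat_lit 1) (nat_lit 4) (nat_lit 364) (nat_lit 284) (nat_lit 252))))) (XT.nd (nat_lit 312) (nat_lit 0) (nat_lit 0) (XT.nd (nat_lit 156) (nat_lit 0) (nat_lit 0) (XT.nd (nat_lit 78) (nat_lit 0) (nat_lit 0) (XT.lf (nat_lit 0) (nat_lit 2646119149215) (nat_lit 152) (nat_lit 2104935309041) (nat_lit 0) (nat_lit 2644998833651) (nat_lit 1) (nat_lit 5) (nat_lit 3) (nat_lit 4) (nat_lit 1) (nat_lit 4) (nat_lit 365) (nat_lit 284) (nat_lit 251)) (XT.lf (nat_lit 0) (nat_lit 3046049820565) (nat_lit 152) (nat_lit 2414228567401) (nat_lit 0) (nat_lit 3044928039320) (nat_lit 1) (nat_lit 5) (nat_lit 3) (nat_lit 4) (nat_lit 1) (nat_lit 4) (nat_lit 366) (nat_lit 284) (nat_lit 250))) (XT.nd (nat_lit 78) (nat_lit 0) (nat_lit 0) (XT.lf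 (nat_lit 0) (nat_lit 3505962526222) (nat_lit 152) (nat_lit 2769931142197) (nat_lit 0) (nat_lit 3504839470472) (nat_lit 1) (nat_lit 5) (nat_lit 3) (nat_lit 4) (nat_lit 1) (nat_lit 4) (nat_lit 367) (nat_lit 284) (nat_lit 249)) (XT.lf (nat_lit 0) (nat_lit 4034855558254) (nat_lit 152) (nat_lit 3179002431631) (nat_lit 0) (nat_lit 4033731394239) (nat_lit 1) (nat_lit 5) (nat_lit 3) (nat_lit 4) (nat_lit 1) (nat_lit 4) (nat_lit 368) (nat_lit 284) (nat_lit 248)))) (XT.nd (nat_lit 156) (nat_lit 0) (nat_lit 0) (XT.nd (nat_lit 78) (nat_lit 0) (nat_lit 0) (XT.lf (nat_lit 0) (nat_lit 4643076823809) (nat_lit 152) (nat_lit 3649446004410) (nat_lit 0) (nat_lit 4641951696085) (nat_lit 1) (nat_lit 5) (nat_lit 3) (nat_lit 4) (nat_lit 1) (nat_lit 4) (nat_lit 369) (nat_lit 284) (nat_lit 247)) (XT.lf (nat_lit 0) (nat_lit 5342526304169) (nat_lit 152) (nat_lit 4190466191305) (nat_lit 0) (nat_lit 5341400338438) (nat_lit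 1) (nat_lit 5) (nat_lit 3) (nat_lit 4) (nat_lit 1) (nat_lit 4) (nat_lit 370) (nat_lit 284) (nat_lit 246))) (XT.nd (nat_lit 78) (nat_lit 0) (nat_lit 0) (XT.lf (nat_lit 0) (nat_lit 6146888880473) (nat_lit 152) (nat_lit 4812648169887) (nat_lit 0) (nat_lit 6145762186040) (nat_lit 1) (nat_lit 5) (nat_lit 3) (nat_lit 4) (nat_lit 1) (nat_lit 4) (nat_lit 371) (nat_lit 284) (nat_lit 245)) (XT.lf (nat_lit 0) (nat_lit 7071902081387) (nat_lit 152) (nat_lit 5528165065823) (nat_lit 0) (nat_lit 7070774753300) (nat_lit 1) (nat_lit 5) (nat_lit 3) (nat_lit 4) (nat_lit 1) (nat_lit 4) (nat_lit 372) (nat_lit 284) (nat_lit 244))))))))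
noncomputable def xc8 : XT := (XT.nd (nat_lit 45630) (nat_lit 0) (nat_lit 0) (XT.nd (nat_lit 44538) (nat_lit 0) (nat_lit 0) (XT.nd (nat_lit 43992) (nat_lit 0) (nat_lit 0) (XT.nd (nat_lit 43680) (nat_lit 0) (nat_lit 0) (XT.nd (nat_lit 43524) (nat_lit 0) (nat_lit 152) (XT.lf (nat_lit 0) (nat_lit 8135663991277) (nat_lit 152) (nat_lit 6351016122728) (nat_lit 0) (nat_lit 8134536112186) (nat_lit 1) (nat_lit 5) (nat_lit 3) (nat_lit 4) (nat_lit 1) (nat_lit 4) (nat_lit 373) (nat_lit 284) (nat_lit 243)) (XT.nd (nat_lit 78) (nat_lit 0) (nat_lit 0) (XT.lf (nat_lit 0) (nat_lit 3660284203) (nat_lit 76) (nat_lit 12958021043) (nat_lit 76) (nat_lit 12958021043) (nat_lit 3) (nat_lit 4) (nat_lit 4) (nat_lit 5) (nat_lit 4) (nat_lit 4) (nat_lit 330) (nat_lit 285) (nat_lit 285)) (XT.lf (nat_lit 0) (nat_lit 27225043787) (nat_lit 76) (nat_lit 20118184092) (nat_lit 76) (nat_lit 19934872595) (nat_lit 3) (nat_lit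 4) (nat_lit 4) (nat_lit 5) (nat_lit 4) (nat_lit 4) (nat_lit 331) (nat_lit 285) (nat_lit 284)))) (XT.nd (nat_lit 156) (nat_lit 152) (nat_lit 0) (XT.nd (nat_lit 78) (nat_lit 0) (nat_lit 0) (XT.lf (nat_lit 0) (nat_lit 48517018983) (nat_lit 76) (nat_lit 14255788924) (nat_lit 76) (nat_lit 13913076125) (nat_lit 3) (nat_lit 4) (nat_lit 4) (nat_lit 5) (nat_lit 4) (nat_lit 4) (nat_lit 332) (nat_lit 285) (nat_lit 283)) (XT.lf (nat_lit 0) (nat_lit 71613076118) (nat_lit 76) (nat_lit 8214157545) (nat_lit 76) (nat_lit 7732834919) (nat_lit 3) (nat_lit 4) (nat_lit 4) (nat_lit 5) (nat_lit 4) (nat_lit 4) (nat_lit 333) (nat_lit 285) (nat_lit 282))) (XT.nd (nat_lit 78) (nat_lit 152) (nat_lit 0) (XT.lf (nat_lit 0) (nat_lit 96965094569) (nat_lit 76) (nat_lit 1875084125) (nat_lit 76) (nat_lit 1273231215) (nat_lit 3) (nat_lit 4) (nat_lit 4) (nat_lit 5) (nat_lit 4) (nat_lit 4) (nat_lit 334) (nat_lit 285) (nat_lit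 281)) (XT.lf (nat_lit 0) (nat_lit 5702018282) (nat_lit 152) (nat_lit 103799866373) (nat_lit 0) (nat_lit 5047701751) (nat_lit 1) (nat_lit 5) (nat_lit 3) (nat_lit 4) (nat_lit 1) (nat_lit 4) (nat_lit 335) (nat_lit 285) (nat_lit 280))))) (XT.nd (nat_lit 234) (nat_lit 0) (nat_lit 0) (XT.nd (nat_lit 78) (nat_lit 0) (nat_lit 0) (XT.lf (nat_lit 0) (nat_lit 13295225559) (nat_lit 152) (nat_lit 105325071836) (nat_lit 0) (nat_lit 12556521795) (nat_lit 1) (nat_lit 5) (nat_lit 3) (nat_lit 4) (nat_lit 1) (nat_lit 4) (nat_lit 336) (nat_lit 285) (nat_lit 279)) (XT.nd (nat_lit 78) (nat_lit 0) (nat_lit 0) (XT.lf (nat_lit 0) (nat_lit 21591775305) (nat_lit 152) (nat_lit 107961556362) (nat_lit 0) (nat_lit 20779691339) (nat_lit 1) (nat_lit 5) (nat_lit 3) (nat_lit 4) (nat_lit 1) (nat_lit 4) (nat_lit 337) (nat_lit 285) (nat_lit 278)) (XT.lf (nat_lit 0) (nat_lit 30753991320) (nat_lit 152) (nat_lit 111760903342)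 (nat_lit 0) (nat_lit 29878098482) (nat_lit 1) (nat_lit 5) (nat_lit 3) (nat_lit 4) (nat_lit 1) (nat_lit 4) (nat_lit 338) (nat_lit 285) (nat_lit 277)))) (XT.nd (nat_lit 156) (nat_lit 0) (nat_lit 0) (XT.nd (nat_lit 78) (nat_lit 0) (nat_lit 0) (XT.lf (nat_lit 0) (nat_lit 40961134352) (nat_lit 152) (nat_lit 116797447826) (nat_lit 0) (nat_lit 40029755538) (nat_lit 1) (nat_lit 5) (nat_lit 3) (nat_lit 4) (nat_lit 1) (nat_lit 4) (nat_lit 339) (nat_lit 285) (nat_lit 276)) (XT.lf (nat_lit 0) (nat_lit 52412909373) (nat_lit 152) (nat_lit 123169730903) (nat_lit 0) (nat_lit 51433281885) (nat_lit 1) (nat_lit 5) (nat_lit 3) (nat_lit 4) (nat_lit 1) (nat_lit 4) (nat_lit 340) (nat_lit 285) (nat_lit 275))) (XT.nd (nat_lit 78) (nat_lit 0) (nat_lit 0) (XT.lf (nat_lit 0) (nat_lit 65333372850) (nat_lit 152) (nat_lit 131002427676) (nat_lit 0) (nat_lit 64311789993) (nat_lit 1) (nat_lit 5) (nat_lit 3) (nat_lit 4)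 (nat_lit 1) (nat_lit 4) (nat_lit 341) (nat_lit 285) (nat_lit 274)) (XT.lf (nat_lit 0) (nat_lit 79975316462) (nat_lit 152) (nat_lit 140448786560) (nat_lit 0) (nat_lit 78917250675) (nat_lit 1) (nat_lit 5) (nat_lit 3) (nat_lit 4) (nat_lit 1) (nat_lit 4) (nat_lit 342) (nat_lit 285) (nat_lit 273)))))) (XT.nd (nat_lit 546) (nat_lit 0) (nat_lit 0) (XT.nd (nat_lit 234) (nat_lit 0) (nat_lit 0) (XT.nd (nat_lit 78) (nat_lit 0) (nat_lit 0) (XT.lf (nat_lit 0) (nat_lit 96625213016) (nat_lit 152) (nat_lit 151693627620) (nat_lit 0) (nat_lit 95535422943) (nat_lit 1) (nat_lit 5) (nat_lit 3) (nat_lit 4) (nat_lit 1) (nat_lit 4) (nat_lit 343) (nat_lit 285) (nat_lit 272)) (XT.nd (nat_lit 78) (nat_lit 0) (nat_lit 0) (XT.lf (nat_lit 0) (nat_lit 115608821360) (nat_lit 152) (nat_lit 164956958616) (nat_lit 0) (nat_lit 114491444951) (nat_lit 1) (nat_lit 5) (nat_lit 3) (nat_lit 4) (nat_lit 1) (nat_lit 4) (nat_lit 344)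 (nat_lit 285) (nat_lit 271)) (XT.lf (nat_lit 0) (nat_lit 137297559917) (nat_lit 152) (nat_lit 180498279502) (nat_lit 0) (nat_lit 136156195390) (nat_lit 1) (nat_lit 5) (nat_lit 3) (nat_lit 4) (nat_lit 1) (nat_lit 4) (nat_lit 345) (nat_lit 285) (nat_lit 270)))) (XT.nd (nat_lit 156) (nat_lit 0) (nat_lit 0) (XT.nd (nat_lit 78) (nat_lit 0) (nat_lit 0) (XT.lf (nat_lit 0) (nat_lit 162115773572) (nat_lit 152) (nat_lit 198621659600) (nat_lit 0) (nat_lit 160953549812) (nat_lit 1) (nat_lit 5) (nat_lit 3) (nat_lit 4) (nat_lit 1) (nat_lit 4) (nat_lit 346) (nat_lit 285) (nat_lit 269)) (XT.lf (nat_lit 0) (nat_lit 190549036071) (nat_lit 152) (nat_lit 219681686781) (nat_lit 0) (nat_lit 189368673846) (nat_lit 1) (nat_lit 5) (nat_lit 3) (nat_lit 4) (nat_lit 1) (nat_lit 4) (nat_lit 347) (nat_lit 285) (nat_lit 268))) (XT.nd (nat_lit 78) (nat_lit 0) (nat_lit 0) (XT.lf (nat_lit 0) (nat_lit 223153650375) (nat_lit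 152) (nat_lit 244090405056) (nat_lit 0) (nat_lit 221957515573) (nat_lit 1) (nat_lit 5) (nat_lit 3) (nat_lit 4) (nat_lit 1) (nat_lit 4) (nat_lit 348) (nat_lit 285) (nat_lit 267)) (XT.lf (nat_lit 0) (nat_lit 260567532851) (nat_lit 152) (nat_lit 272325376304) (nat_lit 0) (nat_lit 259357682764) (nat_lit 1) (nat_lit 5) (nat_lit 3) (nat_lit 4) (nat_lit 1) (nat_lit 4) (nat_lit 349) (nat_lit 285) (nat_lit 266))))) (XT.nd (nat_lit 234) (nat_lit 0) (nat_lit 0) (XT.nd (nat_lit 78) (nat_lit 0) (nat_lit 0) (XT.lf (nat_lit 0) (nat_lit 303522694243) (nat_lit 152) (nat_lit 304939023875) (nat_lit 0) (nat_lit 302300917822) (nat_lit 1) (nat_lit 5) (nat_lit 3) (nat_lit 4) (nat_lit 1) (nat_lit 4) (nat_lit 350) (nat_lit 285) (nat_lit 265)) (XT.nd (nat_lit 78) (nat_lit 0) (nat_lit 0) (XT.lf (nat_lit 0) (nat_lit 352859561622) (nat_lit 152) (nat_lit 342569440874) (nat_lit 0) (nat_lit 351627414476) (nat_lit 1) (nat_lit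 5) (nat_lit 3) (nat_lit 4) (nat_lit 1) (nat_lit 4) (nat_lit 351) (nat_lit 285) (nat_lit 264)) (XT.lf (nat_lit 0) (nat_lit 409543421524) (nat_lit 152) (nat_lit 385952874591) (nat_lit 0) (nat_lit 408302256356) (nat_lit 1) (nat_lit 5) (nat_lit 3) (nat_lit 4) (nat_lit 1) (nat_lit 4) (nat_lit 352) (nat_lit 285) (nat_lit 263)))) (XT.nd (nat_lit 156) (nat_lit 0) (nat_lit 0) (XT.nd (nat_lit 78) (nat_lit 0) (nat_lit 0) (XT.lf (nat_lit 0) (nat_lit 474683305990) (nat_lit 152) (nat_lit 435938131336) (nat_lit 0) (nat_lit 473434299063) (nat_lit 1) (nat_lit 5) (nat_lit 3) (nat_lit 4) (nat_lit 1) (nat_lit 4) (nat_lit 353) (nat_lit 285) (nat_lit 262)) (XT.lf (nat_lit 0) (nat_lit 549553691021) (nat_lit 152) (nat_lit 493503183524) (nat_lit 0) (nat_lit 548297865174) (nat_lit 1) (nat_lit 5) (nat_lit 3) (nat_lit 4) (nat_lit 1) (nat_lit 4) (nat_lit 354) (nat_lit 285) (nat_lit 261))) (XT.nd (nat_lit 78) (nat_lit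 0) (nat_lit 0) (XT.lf (nat_lit 0) (nat_lit 635619431976) (nat_lit 152) (nat_lit 559774303916) (nat_lit 0) (nat_lit 634357676633) (nat_lit 1) (nat_lit 5) (nat_lit 3) (nat_lit 4) (nat_lit 1) (nat_lit 4) (nat_lit 355) (nat_lit 285) (nat_lit 260)) (XT.lf (nat_lit 0) (nat_lit 734564423786) (nat_lit 152) (nat_lit 636048101389) (nat_lit 0) (nat_lit 733297512360) (nat_lit 1) (nat_lit 5) (nat_lit 3) (nat_lit 4) (nat_lit 1) (nat_lit 4) (nat_lit 356) (nat_lit 285) (nat_lit 259))))))) (XT.nd (nat_lit 1092) (nat_lit 0) (nat_lit 0) (XT.nd (nat_lit 546) (nat_lit 0) (nat_lit 0) (XT.nd (nat_lit 234) (nat_lit 0) (nat_lit 0) (XT.nd (nat_lit 78) (nat_lit 0) (nat_lit 0) (XT.lf (nat_lit 0) (nat_lit 848324546727) (nat_lit 152) (nat_lit 723816889372) (nat_lit 0) (nat_lit 847053151749) (nat_lit 1) (nat_lit 5) (nat_lit 3) (nat_lit 4) (nat_lit 1) (nat_lit 4) (nat_lit 357) (nat_lit 285) (nat_lit 258)) (XT.nd (nat_lit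 78) (nat_lit 0) (nat_lit 0) (XT.lf (nat_lit 0) (nat_lit 979125542334) (nat_lit 152) (nat_lit 824797883282) (nat_lit 0) (nat_lit 977850248616) (nat_lit 1) (nat_lit 5) (nat_lit 3) (nat_lit 4) (nat_lit 1) (nat_lit 4) (nat_lit 358) (nat_lit 285) (nat_lit 257)) (XT.lf (nat_lit 0) (nat_lit 1129526560521) (nat_lit 152) (nat_lit 940966798217) (nat_lit 0) (nat_lit 1128247876594) (nat_lit 1) (nat_lit 5) (nat_lit 3) (nat_lit 4) (nat_lit 1) (nat_lit 4) (nat_lit 359) (nat_lit 285) (nat_lit 256)))) (XT.nd (nat_lit 156) (nat_lit 0) (nat_lit 0) (XT.nd (nat_lit 78) (nat_lit 0) (nat_lit 0) (XT.lf (nat_lit 0) (nat_lit 1302470229904) (nat_lit 152) (nat_lit 1074596504251) (nat_lit 0) (nat_lit 1301188597971) (nat_lit 1) (nat_lit 5) (nat_lit 3) (nat_lit 4) (nat_lit 1) (nat_lit 4) (nat_lit 360) (nat_lit 285) (nat_lit 255)) (XT.lf (nat_lit 0) (nat_lit 1501340230972) (nat_lit 152) (nat_lit 1228301495634) (nat_lit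 0) (nat_lit 1500056035554) (nat_lit 1) (nat_lit 5) (nat_lit 3) (nat_lit 4) (nat_lit 1) (nat_lit 4) (nat_lit 361) (nat_lit 285) (nat_lit 254))) (XT.nd (nat_lit 78) (nat_lit 0) (nat_lit 0) (XT.lf (nat_lit 0) (nat_lit 1730027498529) (nat_lit 152) (nat_lit 1405089043936) (nat_lit 0) (nat_lit 1728741073993) (nat_lit 1) (nat_lit 5) (nat_lit 3) (nat_lit 4) (nat_lit 1) (nat_lit 4) (nat_lit 362) (nat_lit 285) (nat_lit 253)) (XT.lf (nat_lit 0) (nat_lit 1993006348678) (nat_lit 152) (nat_lit 1608418035971) (nat_lit 0) (nat_lit 1991717985780) (nat_lit 1) (nat_lit 5) (nat_lit 3) (nat_lit 4) (nat_lit 1) (nat_lit 4) (nat_lit 363) (nat_lit 285) (nat_lit 252))))) (XT.nd (nat_lit 234) (nat_lit 0) (nat_lit 0) (XT.nd (nat_lit 78) (nat_lit 0) (nat_lit 0) (XT.lf (nat_lit 0) (nat_lit 2295422019792) (nat_lit 152) (nat_lit 1842266647671) (nat_lit 0) (nat_lit 2294131971361) (nat_lit 1) (nat_lit 5) (nat_lit 3) (nat_lit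 4) (nat_lit 1) (nat_lit 4) (nat_lit 364) (nat_lit 285) (nat_lit 251)) (XT.nd (nat_lit 78) (nat_lit 0) (nat_lit 0) (XT.lf (nat_lit 0) (nat_lit 2643191340219) (nat_lit 152) (nat_lit 2111210177960) (nat_lit 0) (nat_lit 2641899826107) (nat_lit 1) (nat_lit 5) (nat_lit 3) (nat_lit 4) (nat_lit 1) (nat_lit 4) (nat_lit 365) (nat_lit 285) (nat_lit 250)) (XT.lf (nat_lit 0) (nat_lit 3043118492315) (nat_lit 152) (nat_lit 2420510565474) (nat_lit 0) (nat_lit 3041825703698) (nat_lit 1) (nat_lit 5) (nat_lit 3) (nat_lit 4) (nat_lit 1) (nat_lit 4) (nat_lit 366) (nat_lit 285) (nat_lit 249)))) (XT.nd (nat_lit 156) (nat_lit 0) (nat_lit 0) (XT.nd (nat_lit 78) (nat_lit 0) (nat_lit 0) (XT.lf (nat_lit 0) (nat_lit 3503028137752) (nat_lit 152) (nat_lit 2776219339534) (nat_lit 0) (nat_lit 3501734240870) (nat_lit 1) (nat_lit 5) (nat_lit 3) (nat_lit 4) (nat_lit 1) (nat_lit 4) (nat_lit 367) (nat_lit 285) (nat_lit 248))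 (XT.lf (nat_lit 0) (nat_lit 4031918508722) (nat_lit 152) (nat_lit 3185296019634) (nat_lit 0) (nat_lit 4030623648131) (nat_lit 1) (nat_lit 5) (nat_lit 3) (nat_lit 4) (nat_lit 1) (nat_lit 4) (nat_lit 368) (nat_lit 285) (nat_lit 247))) (XT.nd (nat_lit 78) (nat_lit 0) (nat_lit 0) (XT.lf (nat_lit 0) (nat_lit 4640137460311) (nat_lit 152) (nat_lit 3655744279947) (nat_lit 0) (nat_lit 4638841761712) (nat_lit 1) (nat_lit 5) (nat_lit 3) (nat_lit 4) (nat_lit 1) (nat_lit 4) (nat_lit 369) (nat_lit 285) (nat_lit 246)) (XT.lf (nat_lit 0) (nat_lit 5339584928527) (nat_lit 152) (nat_lit 4196768542960) (nat_lit 0) (nat_lit 5338288501226) (nat_lit 1) (nat_lit 5) (nat_lit 3) (nat_lit 4) (nat_lit 1) (nat_lit 4) (nat_lit 370) (nat_lit 285) (nat_lit 245)))))) (XT.nd (nat_lit 43836) (nat_lit 0) (nat_lit 0) (XT.nd (nat_lit 43524) (nat_lit 0) (nat_lit 152) (XT.nd (nat_lit 78) (nat_lit 0) (nat_lit 0) (XT.lf (nat_lit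 0) (nat_lit 6143945755140) (nat_lit 152) (nat_lit 4818954065991) (nat_lit 0) (nat_lit 6142648694185) (nat_lit 1) (nat_lit 5) (nat_lit 3) (nat_lit 4) (nat_lit 1) (nat_lit 4) (nat_lit 371) (nat_lit 285) (nat_lit 244)) (XT.nd (nat_lit 78) (nat_lit 0) (nat_lit 0) (XT.lf (nat_lit 0) (nat_lit 7068957434584) (nat_lit 152) (nat_lit 5534474044057) (nat_lit 0) (nat_lit 7067659822625) (nat_lit 1) (nat_lit 5) (nat_lit 3) (nat_lit 4) (nat_lit 1) (nat_lit 4) (nat_lit 372) (nat_lit 285) (nat_lit 243)) (XT.lf (nat_lit 0) (nat_lit 8132718021456) (nat_lit 152) (nat_lit 6357327781076) (nat_lit 0) (nat_lit 8131419930364) (nat_lit 1) (nat_lit 5) (nat_lit 3) (nat_lit 4) (nat_lit 1) (nat_lit 4) (nat_lit 373) (nat_lit 285) (nat_lit 242)))) (XT.nd (nat_lit 156) (nat_lit 76) (nat_lit 0) (XT.nd (nat_lit 78) (nat_lit 0) (nat_lit 0) (XT.lf (nat_lit 0) (nat_lit 4650977519) (nat_lit 152) (nat_lit 13718144717) (nat_lit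 0) (nat_lit 4650977519) (nat_lit 4) (nat_lit 5) (nat_lit 6) (nat_lit 4) (nat_lit 4) (nat_lit 4) (nat_lit 328) (nat_lit 286) (nat_lit 286)) (XT.lf (nat_lit 0) (nat_lit 20666404724) (nat_lit 152) (nat_lit 11006271781) (nat_lit 0) (nat_lit 20455596502) (nat_lit 4) (nat_lit 5) (nat_lit 6) (nat_lit 4) (nat_lit 4) (nat_lit 4) (nat_lit 329) (nat_lit 286) (nat_lit 285))) (XT.nd (nat_lit 78) (nat_lit 0) (nat_lit 0) (XT.lf (nat_lit 0) (nat_lit 6465732491) (nat_lit 76) (nat_lit 26557507403) (nat_lit 76) (nat_lit 26163387685) (nat_lit 3) (nat_lit 4) (nat_lit 4) (nat_lit 5) (nat_lit 4) (nat_lit 4) (nat_lit 330) (nat_lit 286) (nat_lit 284)) (XT.lf (nat_lit 0) (nat_lit 25626872295) (nat_lit 76) (nat_lit 21134133838) (nat_lit 76) (nat_lit 20580612819) (nat_lit 3) (nat_lit 4) (nat_lit 4) (nat_lit 5) (nat_lit 4) (nat_lit 4) (nat_lit 331) (nat_lit 286) (nat_lit 283))))) (XT.nd (nat_lit 312) (nat_lit 0) (nat_lit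 0) (XT.nd (nat_lit 156) (nat_lit 152) (nat_lit 0) (XT.nd (nat_lit 78) (nat_lit 0) (nat_lit 0) (XT.lf (nat_lit 0) (nat_lit 46272468728) (nat_lit 76) (nat_lit 15597377305) (nat_lit 76) (nat_lit 14905246458) (nat_lit 3) (nat_lit 4) (nat_lit 4) (nat_lit 5) (nat_lit 4) (nat_lit 4) (nat_lit 332) (nat_lit 286) (nat_lit 282)) (XT.lf (nat_lit 0) (nat_lit 68806457372) (nat_lit 76) (nat_lit 9838909957) (nat_lit 76) (nat_lit 9026248825) (nat_lit 3) (nat_lit 4) (nat_lit 4) (nat_lit 5) (nat_lit 4) (nat_lit 4) (nat_lit 333) (nat_lit 286) (nat_lit 281))) (XT.nd (nat_lit 78) (nat_lit 152) (nat_lit 0) (XT.lf (nat_lit 0) (nat_lit 93669720615) (nat_lit 76) (nat_lit 3746066129) (nat_lit 76) (nat_lit 2828596054) (nat_lit 3) (nat_lit 4) (nat_lit 4) (nat_lit 5) (nat_lit 4) (nat_lit 4) (nat_lit 334) (nat_lit 286) (nat_lit 280)) (XT.lf (nat_lit 0) (nat_lit 3857449900) (nat_lit 152) (nat_lit 107931928049) (nat_lit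 0) (nat_lit 2923553339) (nat_lit 1) (nat_lit 5) (nat_lit 3) (nat_lit 4) (nat_lit 1) (nat_lit 4) (nat_lit 335) (nat_lit 286) (nat_lit 279)))) (XT.nd (nat_lit 156) (nat_lit 0) (nat_lit 0) (XT.nd (nat_lit 78) (nat_lit 0) (nat_lit 0) (XT.lf (nat_lit 0) (nat_lit 11248034562) (nat_lit 152) (nat_lit 109867597811) (nat_lit 0) (nat_lit 10240757798) (nat_lit 1) (nat_lit 5) (nat_lit 3) (nat_lit 4) (nat_lit 1) (nat_lit 4) (nat_lit 336) (nat_lit 286) (nat_lit 278)) (XT.lf (nat_lit 0) (nat_lit 19368390730) (nat_lit 152) (nat_lit 112861007814) (nat_lit 0) (nat_lit 18297305094) (nat_lit 1) (nat_lit 5) (nat_lit 3) (nat_lit 4) (nat_lit 1) (nat_lit 4) (nat_lit 337) (nat_lit 286) (nat_lit 277))) (XT.nd (nat_lit 78) (nat_lit 0) (nat_lit 0) (XT.lf (nat_lit 0) (nat_lit 28377394938) (nat_lit 152) (nat_lit 116970724774) (nat_lit 0) (nat_lit 27250823327) (nat_lit 1) (nat_lit 5) (nat_lit 3) (nat_lit 4) (nat_lit 1)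 (nat_lit 4) (nat_lit 338) (nat_lit 286) (nat_lit 276)) (XT.lf (nat_lit 0) (nat_lit 38451310311) (nat_lit 152) (nat_lit 122277156198) (nat_lit 0) (nat_lit 37276490026) (nat_lit 1) (nat_lit 5) (nat_lit 3) (nat_lit 4) (nat_lit 1) (nat_lit 4) (nat_lit 339) (nat_lit 286) (nat_lit 275))))))))
noncomputable def xc9 : XT := (XT.nd (nat_lit 2262) (nat_lit 0) (nat_lit 0) (XT.nd (nat_lit 1092) (nat_lit 0) (nat_lit 0) (XT.nd (nat_lit 546) (nat_lit 0) (nat_lit 0) (XT.nd (nat_lit 234) (nat_lit 0) (nat_lit 0) (XT.nd (nat_lit 78) (nat_lit 0) (nat_lit 0) (XT.lf (nat_lit 0) (nat_lit 49787235194) (nat_lit 152) (nat_lit 128884123570) (nat_lit 0) (nat_lit 48570459540) (nat_lit 1) (nat_lit 5) (nat_lit 3) (nat_lit 4) (nat_lit 1) (nat_lit 4) (nat_lit 340) (nat_lit 286) (nat_lit 274)) (XT.nd (nat_lit 78) (nat_lit 0) (nat_lit 0) (XT.lf (nat_lit 0) (nat_lit 62606959422) (nat_lit 152) (nat_lit 136920893643) (nat_lit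 0) (nat_lit 61353700838) (nat_lit 1) (nat_lit 5) (nat_lit 3) (nat_lit 4) (nat_lit 1) (nat_lit 4) (nat_lit 341) (nat_lit 286) (nat_lit 273)) (XT.lf (nat_lit 0) (nat_lit 77161303685) (nat_lit 152) (nat_lit 146544707570) (nat_lit 0) (nat_lit 75876320814) (nat_lit 1) (nat_lit 5) (nat_lit 3) (nat_lit 4) (nat_lit 1) (nat_lit 4) (nat_lit 342) (nat_lit 286) (nat_lit 272)))) (XT.nd (nat_lit 156) (nat_lit 0) (nat_lit 0) (XT.nd (nat_lit 78) (nat_lit 0) (nat_lit 0) (XT.lf (nat_lit 0) (nat_lit 93735026893) (nat_lit 152) (nat_lit 157943857364) (nat_lit 0) (nat_lit 92422457687) (nat_lit 1) (nat_lit 5) (nat_lit 3) (nat_lit 4) (nat_lit 1) (nat_lit 4) (nat_lit 343) (nat_lit 286) (nat_lit 271)) (XT.lf (nat_lit 0) (nat_lit 112652397545) (nat_lit 152) (nat_lit 171341369867) (nat_lit 0) (nat_lit 111315840220) (nat_lit 1) (nat_lit 5) (nat_lit 3) (nat_lit 4) (nat_lit 1) (nat_lit 4) (nat_lit 344) (nat_lit 286)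 (nat_lit 270))) (XT.nd (nat_lit 78) (nat_lit 0) (nat_lit 0) (XT.lf (nat_lit 0) (nat_lit 134283538109) (nat_lit 152) (nat_lit 186999370325) (nat_lit 0) (nat_lit 132926121550) (nat_lit 1) (nat_lit 5) (nat_lit 3) (nat_lit 4) (nat_lit 1) (nat_lit 4) (nat_lit 345) (nat_lit 286) (nat_lit 269)) (XT.lf (nat_lit 0) (nat_lit 159051666552) (nat_lit 152) (nat_lit 205224210920) (nat_lit 0) (nat_lit 157676111530) (nat_lit 1) (nat_lit 5) (nat_lit 3) (nat_lit 4) (nat_lit 1) (nat_lit 4) (nat_lit 346) (nat_lit 286) (nat_lit 268))))) (XT.nd (nat_lit 234) (nat_lit 0) (nat_lit 0) (XT.nd (nat_lit 78) (nat_lit 0) (nat_lit 0) (XT.lf (nat_lit 0) (nat_lit 187441376693) (nat_lit 152) (nat_lit 226372464621) (nat_lit 0) (nat_lit 186050049094) (nat_lit 1) (nat_lit 5) (nat_lit 3) (nat_lit 4) (nat_lit 1) (nat_lit 4) (nat_lit 347) (nat_lit 286) (nat_lit 267)) (XT.nd (nat_lit 78) (nat_lit 0) (nat_lit 0) (XT.lf (nat_lit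 0) (nat_lit 220008119381) (nat_lit 152) (nat_lit 250857901608) (nat_lit 0) (nat_lit 218603076497) (nat_lit 1) (nat_lit 5) (nat_lit 3) (nat_lit 4) (nat_lit 1) (nat_lit 4) (nat_lit 348) (nat_lit 286) (nat_lit 266)) (XT.lf (nat_lit 0) (nat_lit 257389070018) (nat_lit 152) (nat_lit 279159584780) (nat_lit 0) (nat_lit 255972100799) (nat_lit 1) (nat_lit 5) (nat_lit 3) (nat_lit 4) (nat_lit 1) (nat_lit 4) (nat_lit 349) (nat_lit 286) (nat_lit 265)))) (XT.nd (nat_lit 156) (nat_lit 0) (nat_lit 0) (XT.nd (nat_lit 78) (nat_lit 0) (nat_lit 0) (XT.lf (nat_lit 0) (nat_lit 300315595028) (nat_lit 152) (nat_lit 311831242719) (nat_lit 0) (nat_lit 298888255084) (nat_lit 1) (nat_lit 5) (nat_lit 3) (nat_lit 4) (nat_lit 1) (nat_lit 4) (nat_lit 350) (nat_lit 286) (nat_lit 264)) (XT.lf (nat_lit 0) (nat_lit 349627561205) (nat_lit 152) (nat_lit 349512103517) (nat_lit 0) (nat_lit 348191203239) (nat_lit 1) (nat_lit 5)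 (nat_lit 3) (nat_lit 4) (nat_lit 1) (nat_lit 4) (nat_lit 351) (nat_lit 286) (nat_lit 263))) (XT.nd (nat_lit 78) (nat_lit 0) (nat_lit 0) (XT.lf (nat_lit 0) (nat_lit 406289767888) (nat_lit 152) (nat_lit 392939401406) (nat_lit 0) (nat_lit 404845568163) (nat_lit 1) (nat_lit 5) (nat_lit 3) (nat_lit 4) (nat_lit 1) (nat_lit 4) (nat_lit 352) (nat_lit 286) (nat_lit 262)) (XT.lf (nat_lit 0) (nat_lit 471410823468) (nat_lit 152) (nat_lit 442962800910) (nat_lit 0) (nat_lit 469959804823) (nat_lit 1) (nat_lit 5) (nat_lit 3) (nat_lit 4) (nat_lit 1) (nat_lit 4) (nat_lit 353) (nat_lit 286) (nat_lit 261)))))) (XT.nd (nat_lit 546) (nat_lit 0) (nat_lit 0) (XT.nd (nat_lit 234) (nat_lit 0) (nat_lit 0) (XT.nd (nat_lit 78) (nat_lit 0) (nat_lit 0) (XT.lf (nat_lit 0) (nat_lit 546264835554) (nat_lit 152) (nat_lit 500561020715) (nat_lit 0) (nat_lit 544807887413) (nat_lit 1) (nat_lit 5) (nat_lit 3) (nat_lit 4) (nat_lit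 1) (nat_lit 4) (nat_lit 354) (nat_lit 286) (nat_lit 260)) (XT.nd (nat_lit 78) (nat_lit 0) (nat_lit 0) (XT.lf (nat_lit 0) (nat_lit 632316339166) (nat_lit 152) (nat_lit 566860982513) (nat_lit 0) (nat_lit 630854234942) (nat_lit 1) (nat_lit 5) (nat_lit 3) (nat_lit 4) (nat_lit 1) (nat_lit 4) (nat_lit 355) (nat_lit 286) (nat_lit 259)) (XT.lf (nat_lit 0) (nat_lit 731248950678) (nat_lit 152) (nat_lit 643159859469) (nat_lit 0) (nat_lit 729782362903) (nat_lit 1) (nat_lit 5) (nat_lit 3) (nat_lit 4) (nat_lit 1) (nat_lit 4) (nat_lit 356) (nat_lit 286) (nat_lit 258)))) (XT.nd (nat_lit 156) (nat_lit 0) (nat_lit 0) (XT.nd (nat_lit 78) (nat_lit 0) (nat_lit 0) (XT.lf (nat_lit 0) (nat_lit 844998308142) (nat_lit 152) (nat_lit 730950455698) (nat_lit 0) (nat_lit 843527821627) (nat_lit 1) (nat_lit 5) (nat_lit 3) (nat_lit 4) (nat_lit 1) (nat_lit 4) (nat_lit 357) (nat_lit 286) (nat_lit 257)) (XT.lf (nat_lit 0)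 (nat_lit 975789942464) (nat_lit 152) (nat_lit 831950413300) (nat_lit 0) (nat_lit 974316065741) (nat_lit 1) (nat_lit 5) (nat_lit 3) (nat_lit 4) (nat_lit 1) (nat_lit 4) (nat_lit 358) (nat_lit 286) (nat_lit 256))) (XT.nd (nat_lit 78) (nat_lit 0) (nat_lit 0) (XT.lf (nat_lit 0) (nat_lit 1126182820404) (nat_lit 152) (nat_lit 948135818402) (nat_lit 0) (nat_lit 1124705995673) (nat_lit 1) (nat_lit 5) (nat_lit 3) (nat_lit 4) (nat_lit 1) (nat_lit 4) (nat_lit 359) (nat_lit 286) (nat_lit 255)) (XT.lf (nat_lit 0) (nat_lit 1299119411312) (nat_lit 152) (nat_lit 1081779863712) (nat_lit 0) (nat_lit 1297640023096) (nat_lit 1) (nat_lit 5) (nat_lit 3) (nat_lit 4) (nat_lit 1) (nat_lit 4) (nat_lit 360) (nat_lit 286) (nat_lit 254))))) (XT.nd (nat_lit 312) (nat_lit 0) (nat_lit 0) (XT.nd (nat_lit 156) (nat_lit 0) (nat_lit 0) (XT.nd (nat_lit 78) (nat_lit 0) (nat_lit 0) (XT.lf (nat_lit 0) (nat_lit 1497983257184) (nat_lit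 152) (nat_lit 1235497324031) (nat_lit 0) (nat_lit 1496501639851) (nat_lit 1) (nat_lit 5) (nat_lit 3) (nat_lit 4) (nat_lit 1) (nat_lit 4) (nat_lit 361) (nat_lit 286) (nat_lit 253)) (XT.lf (nat_lit 0) (nat_lit 1726665172396) (nat_lit 152) (nat_lit 1412295714885) (nat_lit 0) (nat_lit 1725181616700) (nat_lit 1) (nat_lit 5) (nat_lit 3) (nat_lit 4) (nat_lit 1) (nat_lit 4) (nat_lit 362) (nat_lit 286) (nat_lit 252))) (XT.nd (nat_lit 78) (nat_lit 0) (nat_lit 0) (XT.lf (nat_lit 0) (nat_lit 1989639368332) (nat_lit 152) (nat_lit 1615634135227) (nat_lit 0) (nat_lit 1988154127103) (nat_lit 1) (nat_lit 5) (nat_lit 3) (nat_lit 4) (nat_lit 1) (nat_lit 4) (nat_lit 363) (nat_lit 286) (nat_lit 251)) (XT.lf (nat_lit 0) (nat_lit 2292050992305) (nat_lit 152) (nat_lit 1849490945454) (nat_lit 0) (nat_lit 2290564285395) (nat_lit 1) (nat_lit 5) (nat_lit 3) (nat_lit 4) (nat_lit 1) (nat_lit 4) (nat_lit 364) (nat_lit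 286) (nat_lit 250)))) (XT.nd (nat_lit 156) (nat_lit 0) (nat_lit 0) (XT.nd (nat_lit 78) (nat_lit 0) (nat_lit 0) (XT.lf (nat_lit 0) (nat_lit 2639816793478) (nat_lit 152) (nat_lit 2118441604898) (nat_lit 0) (nat_lit 2638328812064) (nat_lit 1) (nat_lit 5) (nat_lit 3) (nat_lit 4) (nat_lit 1) (nat_lit 4) (nat_lit 365) (nat_lit 286) (nat_lit 249)) (XT.lf (nat_lit 0) (nat_lit 3039740885354) (nat_lit 152) (nat_lit 2427748191677) (nat_lit 0) (nat_lit 3038251795674) (nat_lit 1) (nat_lit 5) (nat_lit 3) (nat_lit 4) (nat_lit 1) (nat_lit 4) (nat_lit 366) (nat_lit 286) (nat_lit 248))) (XT.nd (nat_lit 78) (nat_lit 0) (nat_lit 0) (XT.lf (nat_lit 0) (nat_lit 3499647869729) (nat_lit 152) (nat_lit 2783462356402) (nat_lit 0) (nat_lit 3498157816341) (nat_lit 1) (nat_lit 5) (nat_lit 3) (nat_lit 4) (nat_lit 1) (nat_lit 4) (nat_lit 367) (nat_lit 286) (nat_lit 247)) (XT.lf (nat_lit 0) (nat_lit 4028535926734) (nat_lit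 152) (nat_lit 3192543724036) (nat_lit 0) (nat_lit 4027045035338) (nat_lit 1) (nat_lit 5) (nat_lit 3) (nat_lit 4) (nat_lit 1) (nat_lit 4) (nat_lit 368) (nat_lit 286) (nat_lit 246))))))) (XT.nd (nat_lit 44226) (nat_lit 0) (nat_lit 0) (XT.nd (nat_lit 43680) (nat_lit 0) (nat_lit 152) (XT.nd (nat_lit 234) (nat_lit 0) (nat_lit 0) (XT.nd (nat_lit 78) (nat_lit 0) (nat_lit 0) (XT.lf (nat_lit 0) (nat_lit 4636752866178) (nat_lit 152) (nat_lit 3662996060467) (nat_lit 0) (nat_lit 4635261246079) (nat_lit 1) (nat_lit 5) (nat_lit 3) (nat_lit 4) (nat_lit 1) (nat_lit 4) (nat_lit 369) (nat_lit 286) (nat_lit 245)) (XT.nd (nat_lit 78) (nat_lit 0) (nat_lit 0) (XT.lf (nat_lit 0) (nat_lit 5336198584703) (nat_lit 152) (nat_lit 4204023867929) (nat_lit 0) (nat_lit 5334706330950) (nat_lit 1) (nat_lit 5) (nat_lit 3) (nat_lit 4) (nat_lit 1) (nat_lit 4) (nat_lit 370) (nat_lit 286) (nat_lit 244)) (XT.lf (nat_lit 0) (nat_lit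 6140557889846) (nat_lit 152) (nat_lit 4826212473090) (nat_lit 0) (nat_lit 6139065085089) (nat_lit 1) (nat_lit 5) (nat_lit 3) (nat_lit 4) (nat_lit 1) (nat_lit 4) (nat_lit 371) (nat_lit 286) (nat_lit 243)))) (XT.nd (nat_lit 43290) (nat_lit 0) (nat_lit 380) (XT.nd (nat_lit 78) (nat_lit 0) (nat_lit 0) (XT.lf (nat_lit 0) (nat_lit 7065568246272) (nat_lit 152) (nat_lit 5541735131269) (nat_lit 0) (nat_lit 7064074962382) (nat_lit 1) (nat_lit 5) (nat_lit 3) (nat_lit 4) (nat_lit 1) (nat_lit 4) (nat_lit 372) (nat_lit 286) (nat_lit 242)) (XT.lf (nat_lit 0) (nat_lit 8129327682694) (nat_lit 152) (nat_lit 6364591198821) (nat_lit 0) (nat_lit 8127833982166) (nat_lit 1) (nat_lit 5) (nat_lit 3) (nat_lit 4) (nat_lit 1) (nat_lit 4) (nat_lit 373) (nat_lit 286) (nat_lit 241))) (XT.nd (nat_lit 78) (nat_lit 0) (nat_lit 0) (XT.lf (nat_lit 0) (nat_lit 7373454576) (nat_lit 76) (nat_lit 5369259816) (nat_lit 76) (nat_lit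 5369259816) (nat_lit 6) (nat_lit 4) (nat_lit 7) (nat_lit 5) (nat_lit 7) (nat_lit 4) (nat_lit 326) (nat_lit 287) (nat_lit 287)) (XT.lf (nat_lit 0) (nat_lit 38219072580) (nat_lit 76) (nat_lit 1424066851) (nat_lit 76) (nat_lit 1162243040) (nat_lit 6) (nat_lit 4) (nat_lit 7) (nat_lit 5) (nat_lit 7) (nat_lit 4) (nat_lit 327) (nat_lit 287) (nat_lit 286))))) (XT.nd (nat_lit 234) (nat_lit 0) (nat_lit 0) (XT.nd (nat_lit 78) (nat_lit 76) (nat_lit 0) (XT.lf (nat_lit 0) (nat_lit 9080221498) (nat_lit 152) (nat_lit 28370174028) (nat_lit 0) (nat_lit 8626983822) (nat_lit 4) (nat_lit 5) (nat_lit 6) (nat_lit 4) (nat_lit 4) (nat_lit 4) (nat_lit 328) (nat_lit 287) (nat_lit 285)) (XT.nd (nat_lit 78) (nat_lit 76) (nat_lit 0) (XT.lf (nat_lit 0) (nat_lit 20041051188) (nat_lit 152) (nat_lit 12752229935) (nat_lit 0) (nat_lit 19404502015) (nat_lit 4) (nat_lit 5) (nat_lit 6) (nat_lit 4) (nat_lit 4) (nat_lit 4) (nat_lit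 329) (nat_lit 287) (nat_lit 284)) (XT.lf (nat_lit 0) (nat_lit 3884499697) (nat_lit 76) (nat_lit 28100334041) (nat_lit 76) (nat_lit 27304383567) (nat_lit 3) (nat_lit 4) (nat_lit 4) (nat_lit 5) (nat_lit 4) (nat_lit 4) (nat_lit 330) (nat_lit 287) (nat_lit 283)))) (XT.nd (nat_lit 156) (nat_lit 0) (nat_lit 0) (XT.nd (nat_lit 78) (nat_lit 0) (nat_lit 0) (XT.lf (nat_lit 0) (nat_lit 22399260737) (nat_lit 76) (nat_lit 23002599112) (nat_lit 76) (nat_lit 22068038811) (nat_lit 3) (nat_lit 4) (nat_lit 4) (nat_lit 5) (nat_lit 4) (nat_lit 4) (nat_lit 331) (nat_lit 287) (nat_lit 282)) (XT.lf (nat_lit 0) (nat_lit 42482788680) (nat_lit 76) (nat_lit 17749006609) (nat_lit 76) (nat_lit 16693916023) (nat_lit 3) (nat_lit 4) (nat_lit 4) (nat_lit 5) (nat_lit 4) (nat_lit 4) (nat_lit 332) (nat_lit 287) (nat_lit 281))) (XT.nd (nat_lit 78) (nat_lit 0) (nat_lit 0) (XT.lf (nat_lit 0) (nat_lit 64528022116) (nat_lit 76)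 (nat_lit 12236768853) (nat_lit 76) (nat_lit 11076869323) (nat_lit 3) (nat_lit 4) (nat_lit 4) (nat_lit 5) (nat_lit 4) (nat_lit 4) (nat_lit 333) (nat_lit 287) (nat_lit 280)) (XT.lf (nat_lit 0) (nat_lit 88966280830) (nat_lit 76) (nat_lit 6358037713) (nat_lit 76) (nat_lit 5106999972) (nat_lit 3) (nat_lit 4) (nat_lit 4) (nat_lit 5) (nat_lit 4) (nat_lit 4) (nat_lit 334) (nat_lit 287) (nat_lit 279)))))) (XT.nd (nat_lit 546) (nat_lit 0) (nat_lit 0) (XT.nd (nat_lit 234) (nat_lit 0) (nat_lit 0) (XT.nd (nat_lit 78) (nat_lit 0) (nat_lit 0) (XT.lf (nat_lit 0) (nat_lit 1300557639) (nat_lit 152) (nat_lit 113566297219) (nat_lit 0) (nat_lit 68809158) (nat_lit 1) (nat_lit 5) (nat_lit 3) (nat_lit 4) (nat_lit 1) (nat_lit 4) (nat_lit 335) (nat_lit 287) (nat_lit 278)) (XT.nd (nat_lit 78) (nat_lit 0) (nat_lit 0) (XT.lf (nat_lit 0) (nat_lit 8514948722) (nat_lit 152) (nat_lit 115858892458) (nat_lit 0) (nat_lit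 7219391370) (nat_lit 1) (nat_lit 5) (nat_lit 3) (nat_lit 4) (nat_lit 1) (nat_lit 4) (nat_lit 336) (nat_lit 287) (nat_lit 277)) (XT.lf (nat_lit 0) (nat_lit 16482093083) (nat_lit 152) (nat_lit 119162672441) (nat_lit 0) (nat_lit 15131049755) (nat_lit 1) (nat_lit 5) (nat_lit 3) (nat_lit 4) (nat_lit 1) (nat_lit 4) (nat_lit 337) (nat_lit 287) (nat_lit 276)))) (XT.nd (nat_lit 156) (nat_lit 0) (nat_lit 0) (XT.nd (nat_lit 78) (nat_lit 0) (nat_lit 0) (XT.lf (nat_lit 0) (nat_lit 25357869632) (nat_lit 152) (nat_lit 123542276341) (nat_lit 0) (nat_lit 23958577630) (nat_lit 1) (nat_lit 5) (nat_lit 3) (nat_lit 4) (nat_lit 1) (nat_lit 4) (nat_lit 338) (nat_lit 287) (nat_lit 275)) (XT.lf (nat_lit 0) (nat_lit 35315934868) (nat_lit 152) (nat_lit 129083392060) (nat_lit 0) (nat_lit 33874687496) (nat_lit 1) (nat_lit 5) (nat_lit 3) (nat_lit 4) (nat_lit 1) (nat_lit 4) (nat_lit 339) (nat_lit 287) (nat_lit 274)))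 (XT.nd (nat_lit 78) (nat_lit 0) (nat_lit 0) (XT.lf (nat_lit 0) (nat_lit 46551120501) (nat_lit 152) (nat_lit 135894432732) (nat_lit 0) (nat_lit 45073390200) (nat_lit 1) (nat_lit 5) (nat_lit 3) (nat_lit 4) (nat_lit 1) (nat_lit 4) (nat_lit 340) (nat_lit 287) (nat_lit 273)) (XT.lf (nat_lit 0) (nat_lit 59283245380) (nat_lit 152) (nat_lit 144108657848) (nat_lit 0) (nat_lit 57773790792) (nat_lit 1) (nat_lit 5) (nat_lit 3) (nat_lit 4) (nat_lit 1) (nat_lit 4) (nat_lit 341) (nat_lit 287) (nat_lit 272))))) (XT.nd (nat_lit 312) (nat_lit 0) (nat_lit 0) (XT.nd (nat_lit 156) (nat_lit 0) (nat_lit 0) (XT.nd (nat_lit 78) (nat_lit 0) (nat_lit 0) (XT.lf (nat_lit 0) (nat_lit 73761416297) (nat_lit 152) (nat_lit 153886780509) (nat_lit 0) (nat_lit 72224375374) (nat_lit 1) (nat_lit 5) (nat_lit 3) (nat_lit 4) (nat_lit 1) (nat_lit 4) (nat_lit 342) (nat_lit 287) (nat_lit 271)) (XT.lf (nat_lit 0) (nat_lit 90268901814)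 (nat_lit 152) (nat_lit 165420111810) (nat_lit 0) (nat_lit 88707872772) (nat_lit 1) (nat_lit 5) (nat_lit 3) (nat_lit 4) (nat_lit 1) (nat_lit 4) (nat_lit 343) (nat_lit 287) (nat_lit 270))) (XT.nd (nat_lit 78) (nat_lit 0) (nat_lit 0) (XT.lf (nat_lit 0) (nat_lit 109128674472) (nat_lit 152) (nat_lit 178934303885) (nat_lit 0) (nat_lit 107546786197) (nat_lit 1) (nat_lit 5) (nat_lit 3) (nat_lit 4) (nat_lit 1) (nat_lit 4) (nat_lit 344) (nat_lit 287) (nat_lit 269)) (XT.lf (nat_lit 0) (nat_lit 130709729824) (nat_lit 152) (nat_lit 194693764840) (nat_lit 0) (nat_lit 129109703085) (nat_lit 1) (nat_lit 5) (nat_lit 3) (nat_lit 4) (nat_lit 1) (nat_lit 4) (nat_lit 345) (nat_lit 287) (nat_lit 268)))) (XT.nd (nat_lit 156) (nat_lit 0) (nat_lit 0) (XT.nd (nat_lit 78) (nat_lit 0) (nat_lit 0) (XT.lf (nat_lit 0) (nat_lit 155434305910) (nat_lit 152) (nat_lit 213006831954) (nat_lit 0) (nat_lit 153818506593) (nat_lit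 1) (nat_lit 5) (nat_lit 3) (nat_lit 4) (nat_lit 1) (nat_lit 4) (nat_lit 346) (nat_lit 287) (nat_lit 267)) (XT.lf (nat_lit 0) (nat_lit 183786144435) (nat_lit 152) (nat_lit 234231804367) (nat_lit 0) (nat_lit 182156629834) (nat_lit 1) (nat_lit 5) (nat_lit 3) (nat_lit 4) (nat_lit 1) (nat_lit 4) (nat_lit 347) (nat_lit 287) (nat_lit 266))) (XT.nd (nat_lit 78) (nat_lit 0) (nat_lit 0) (XT.lf (nat_lit 0) (nat_lit 216319955284) (nat_lit 152) (nat_lit 258783953278) (nat_lit 0) (nat_lit 214678514348) (nat_lit 1) (nat_lit 5) (nat_lit 3) (nat_lit 4) (nat_lit 1) (nat_lit 4) (nat_lit 348) (nat_lit 287) (nat_lit 265)) (XT.lf (nat_lit 0) (nat_lit 253672269538) (nat_lit 152) (nat_lit 287143646818) (nat_lit 0) (nat_lit 252020457877) (nat_lit 1) (nat_lit 5) (nat_lit 3) (nat_lit 4) (nat_lit 1) (nat_lit 4) (nat_lit 349) (nat_lit 287) (nat_lit 264))))))))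
noncomputable def xc10 : XT := (XT.nd (nat_lit 45162) (nat_lit 0) (nat_lit 0) (XT.nd (nat_lit 1092) (nat_lit 0) (nat_lit 0) (XT.nd (nat_lit 546) (nat_lit 0) (nat_lit 0) (XT.nd (nat_lit 234) (nat_lit 0) (nat_lit 0) (XT.nd (nat_lit 78) (nat_lit 0) (nat_lit 0) (XT.lf (nat_lit 0) (nat_lit 296573893346) (nat_lit 152) (nat_lit 319865748557) (nat_lit 0) (nat_lit 294913063663) (nat_lit 1) (nat_lit 5) (nat_lit 3) (nat_lit 4) (nat_lit 1) (nat_lit 4) (nat_lit 350) (nat_lit 287) (nat_lit 263)) (XT.nd (nat_lit 78) (nat_lit 0) (nat_lit 0) (XT.lf (nat_lit 0) (nat_lit 345864206304) (nat_lit 152) (nat_lit 357590473527) (nat_lit 0) (nat_lit 344195534862) (nat_lit 1) (nat_lit 5) (nat_lit 3) (nat_lit 4) (nat_lit 1) (nat_lit 4) (nat_lit 351) (nat_lit 287) (nat_lit 262)) (XT.lf (nat_lit 0) (nat_lit 402507584101) (nat_lit 152) (nat_lit 401055914175) (nat_lit 0) (nat_lit 400832093739) (nat_lit 1) (nat_lit 5) (nat_lit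 3) (nat_lit 4) (nat_lit 1) (nat_lit 4) (nat_lit 352) (nat_lit 287) (nat_lit 261)))) (XT.nd (nat_lit 156) (nat_lit 0) (nat_lit 0) (XT.nd (nat_lit 78) (nat_lit 0) (nat_lit 0) (XT.lf (nat_lit 0) (nat_lit 467612266736) (nat_lit 152) (nat_lit 451112481296) (nat_lit 0) (nat_lit 465930846878) (nat_lit 1) (nat_lit 5) (nat_lit 3) (nat_lit 4) (nat_lit 1) (nat_lit 4) (nat_lit 353) (nat_lit 287) (nat_lit 260)) (XT.lf (nat_lit 0) (nat_lit 542452041479) (nat_lit 152) (nat_lit 508739542506) (nat_lit 0) (nat_lit 540765465538) (nat_lit 1) (nat_lit 5) (nat_lit 3) (nat_lit 4) (nat_lit 1) (nat_lit 4) (nat_lit 354) (nat_lit 287) (nat_lit 259))) (XT.nd (nat_lit 78) (nat_lit 0) (nat_lit 0) (XT.lf (nat_lit 0) (nat_lit 628491164793) (nat_lit 152) (nat_lit 575064583787) (nat_lit 0) (nat_lit 626800105301) (nat_lit 1) (nat_lit 5) (nat_lit 3) (nat_lit 4) (nat_lit 1) (nat_lit 4) (nat_lit 355) (nat_lit 287) (nat_lit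 258)) (XT.lf (nat_lit 0) (nat_lit 727413010828) (nat_lit 152) (nat_lit 651385268990) (nat_lit 0) (nat_lit 725718052596) (nat_lit 1) (nat_lit 5) (nat_lit 3) (nat_lit 4) (nat_lit 1) (nat_lit 4) (nat_lit 356) (nat_lit 287) (nat_lit 257))))) (XT.nd (nat_lit 234) (nat_lit 0) (nat_lit 0) (XT.nd (nat_lit 78) (nat_lit 0) (nat_lit 0) (XT.lf (nat_lit 0) (nat_lit 841153007008) (nat_lit 152) (nat_lit 739194828911) (nat_lit 0) (nat_lit 839454658567) (nat_lit 1) (nat_lit 5) (nat_lit 3) (nat_lit 4) (nat_lit 1) (nat_lit 4) (nat_lit 357) (nat_lit 287) (nat_lit 256)) (XT.nd (nat_lit 78) (nat_lit 0) (nat_lit 0) (XT.lf (nat_lit 0) (nat_lit 971936501083) (nat_lit 152) (nat_lit 840211276680) (nat_lit 0) (nat_lit 970235204635) (nat_lit 1) (nat_lit 5) (nat_lit 3) (nat_lit 4) (nat_lit 1) (nat_lit 4) (nat_lit 358) (nat_lit 287) (nat_lit 255)) (XT.lf (nat_lit 0) (nat_lit 1122322300547) (nat_lit 152) (nat_lit 956411021058)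 (nat_lit 0) (nat_lit 1120618440615) (nat_lit 1) (nat_lit 5) (nat_lit 3) (nat_lit 4) (nat_lit 1) (nat_lit 4) (nat_lit 359) (nat_lit 287) (nat_lit 254)))) (XT.nd (nat_lit 156) (nat_lit 0) (nat_lit 0) (XT.nd (nat_lit 78) (nat_lit 0) (nat_lit 0) (XT.lf (nat_lit 0) (nat_lit 1295252736259) (nat_lit 152) (nat_lit 1090067535304) (nat_lit 0) (nat_lit 1293546647209) (nat_lit 1) (nat_lit 5) (nat_lit 3) (nat_lit 4) (nat_lit 1) (nat_lit 4) (nat_lit 360) (nat_lit 287) (nat_lit 253)) (XT.lf (nat_lit 0) (nat_lit 1494111229786) (nat_lit 152) (nat_lit 1243795838175) (nat_lit 0) (nat_lit 1492403202373) (nat_lit 1) (nat_lit 5) (nat_lit 3) (nat_lit 4) (nat_lit 1) (nat_lit 4) (nat_lit 361) (nat_lit 287) (nat_lit 252))) (XT.nd (nat_lit 78) (nat_lit 0) (nat_lit 0) (XT.lf (nat_lit 0) (nat_lit 1722788490785) (nat_lit 152) (nat_lit 1420603657336) (nat_lit 0) (nat_lit 1721078777840) (nat_lit 1) (nat_lit 5) (nat_lit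 3) (nat_lit 4) (nat_lit 1) (nat_lit 4) (nat_lit 362) (nat_lit 287) (nat_lit 251)) (XT.lf (nat_lit 0) (nat_lit 1985758639580) (nat_lit 152) (nat_lit 1623950276206) (nat_lit 0) (nat_lit 1984047460954) (nat_lit 1) (nat_lit 5) (nat_lit 3) (nat_lit 4) (nat_lit 1) (nat_lit 4) (nat_lit 363) (nat_lit 287) (nat_lit 250)))))) (XT.nd (nat_lit 546) (nat_lit 0) (nat_lit 0) (XT.nd (nat_lit 234) (nat_lit 0) (nat_lit 0) (XT.nd (nat_lit 78) (nat_lit 0) (nat_lit 0) (XT.lf (nat_lit 0) (nat_lit 2288166744299) (nat_lit 152) (nat_lit 1857814215587) (nat_lit 0) (nat_lit 2286454291168) (nat_lit 1) (nat_lit 5) (nat_lit 3) (nat_lit 4) (nat_lit 1) (nat_lit 4) (nat_lit 364) (nat_lit 287) (nat_lit 249)) (XT.nd (nat_lit 78) (nat_lit 0) (nat_lit 0) (XT.lf (nat_lit 0) (nat_lit 2635929485253) (nat_lit 152) (nat_lit 2126771074295) (nat_lit 0) (nat_lit 2634215923856) (nat_lit 1) (nat_lit 5) (nat_lit 3) (nat_lit 4) (nat_lit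 1) (nat_lit 4) (nat_lit 365) (nat_lit 287) (nat_lit 248)) (XT.lf (nat_lit 0) (nat_lit 3035850916067) (nat_lit 152) (nat_lit 2436083051739) (nat_lit 0) (nat_lit 3034136390962) (nat_lit 1) (nat_lit 5) (nat_lit 3) (nat_lit 4) (nat_lit 1) (nat_lit 4) (nat_lit 366) (nat_lit 287) (nat_lit 247)))) (XT.nd (nat_lit 156) (nat_lit 0) (nat_lit 0) (XT.nd (nat_lit 78) (nat_lit 0) (nat_lit 0) (XT.lf (nat_lit 0) (nat_lit 3495755586476) (nat_lit 152) (nat_lit 2791801903999) (nat_lit 0) (nat_lit 3494040223363) (nat_lit 1) (nat_lit 5) (nat_lit 3) (nat_lit 4) (nat_lit 1) (nat_lit 4) (nat_lit 367) (nat_lit 287) (nat_lit 246)) (XT.lf (nat_lit 0) (nat_lit 4024641631336) (nat_lit 152) (nat_lit 3200887347750) (nat_lit 0) (nat_lit 4022925539521) (nat_lit 1) (nat_lit 5) (nat_lit 3) (nat_lit 4) (nat_lit 1) (nat_lit 4) (nat_lit 368) (nat_lit 287) (nat_lit 245))) (XT.nd (nat_lit 78) (nat_lit 0) (nat_lit 0) (XT.lf (nat_lit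 0) (nat_lit 4632856821089) (nat_lit 152) (nat_lit 3671343228631) (nat_lit 0) (nat_lit 4631140095620) (nat_lit 1) (nat_lit 5) (nat_lit 3) (nat_lit 4) (nat_lit 1) (nat_lit 4) (nat_lit 369) (nat_lit 287) (nat_lit 244)) (XT.lf (nat_lit 0) (nat_lit 5332301018144) (nat_lit 152) (nat_lit 4212374118223) (nat_lit 0) (nat_lit 5330583741671) (nat_lit 1) (nat_lit 5) (nat_lit 3) (nat_lit 4) (nat_lit 1) (nat_lit 4) (nat_lit 370) (nat_lit 287) (nat_lit 243))))) (XT.nd (nat_lit 43212) (nat_lit 0) (nat_lit 380) (XT.nd (nat_lit 78) (nat_lit 0) (nat_lit 0) (XT.lf (nat_lit 0) (nat_lit 6136659000269) (nat_lit 152) (nat_lit 4834565403498) (nat_lit 0) (nat_lit 6134941244662) (nat_lit 1) (nat_lit 5) (nat_lit 3) (nat_lit 4) (nat_lit 1) (nat_lit 4) (nat_lit 371) (nat_lit 287) (nat_lit 242)) (XT.nd (nat_lit 78) (nat_lit 0) (nat_lit 0) (XT.lf (nat_lit 0) (nat_lit 7061668206245) (nat_lit 152) (nat_lit 5550090392210)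 (nat_lit 0) (nat_lit 7059950034000) (nat_lit 1) (nat_lit 5) (nat_lit 3) (nat_lit 4) (nat_lit 1) (nat_lit 4) (nat_lit 372) (nat_lit 287) (nat_lit 241)) (XT.lf (nat_lit 0) (nat_lit 8125426642275) (nat_lit 152) (nat_lit 6372948486313) (nat_lit 0) (nat_lit 8123708107736) (nat_lit 1) (nat_lit 5) (nat_lit 3) (nat_lit 4) (nat_lit 1) (nat_lit 4) (nat_lit 373) (nat_lit 287) (nat_lit 240)))) (XT.nd (nat_lit 156) (nat_lit 76) (nat_lit 0) (XT.nd (nat_lit 78) (nat_lit 0) (nat_lit 0) (XT.lf (nat_lit 0) (nat_lit 632242712) (nat_lit 152) (nat_lit 13183809392) (nat_lit 0) (nat_lit 632242712) (nat_lit 7) (nat_lit 5) (nat_lit 9) (nat_lit 4) (nat_lit 7) (nat_lit 4) (nat_lit 324) (nat_lit 288) (nat_lit 288)) (XT.lf (nat_lit 0) (nat_lit 12751286463) (nat_lit 152) (nat_lit 7096660797) (nat_lit 0) (nat_lit 12450189081) (nat_lit 7) (nat_lit 5) (nat_lit 9) (nat_lit 4) (nat_lit 7) (nat_lit 4) (nat_lit 325) (nat_lit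 288) (nat_lit 287))) (XT.nd (nat_lit 78) (nat_lit 0) (nat_lit 0) (XT.lf (nat_lit 0) (nat_lit 13780539742) (nat_lit 76) (nat_lit 11522532167) (nat_lit 76) (nat_lit 10959610973) (nat_lit 6) (nat_lit 4) (nat_lit 7) (nat_lit 5) (nat_lit 7) (nat_lit 4) (nat_lit 326) (nat_lit 288) (nat_lit 286)) (XT.lf (nat_lit 0) (nat_lit 36412381941) (nat_lit 76) (nat_lit 2628005605) (nat_lit 76) (nat_lit 1837411532) (nat_lit 6) (nat_lit 4) (nat_lit 7) (nat_lit 5) (nat_lit 7) (nat_lit 4) (nat_lit 327) (nat_lit 288) (nat_lit 285))))))) (XT.nd (nat_lit 1092) (nat_lit 0) (nat_lit 0) (XT.nd (nat_lit 546) (nat_lit 152) (nat_lit 0) (XT.nd (nat_lit 234) (nat_lit 76) (nat_lit 0) (XT.nd (nat_lit 78) (nat_lit 0) (nat_lit 0) (XT.lf (nat_lit 0) (nat_lit 7957444936) (nat_lit 152) (nat_lit 31190099465) (nat_lit 0) (nat_lit 7042101891) (nat_lit 4) (nat_lit 5) (nat_lit 6) (nat_lit 4) (nat_lit 4) (nat_lit 4) (nat_lit 328) (nat_lit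 288) (nat_lit 284)) (XT.nd (nat_lit 78) (nat_lit 0) (nat_lit 0) (XT.lf (nat_lit 0) (nat_lit 18567300717) (nat_lit 152) (nat_lit 16278306294) (nat_lit 0) (nat_lit 17492556371) (nat_lit 4) (nat_lit 5) (nat_lit 6) (nat_lit 4) (nat_lit 4) (nat_lit 4) (nat_lit 329) (nat_lit 288) (nat_lit 283)) (XT.lf (nat_lit 0) (nat_lit 30112466253) (nat_lit 152) (nat_lit 449939348) (nat_lit 0) (nat_lit 28899112079) (nat_lit 4) (nat_lit 5) (nat_lit 6) (nat_lit 4) (nat_lit 4) (nat_lit 4) (nat_lit 330) (nat_lit 288) (nat_lit 282)))) (XT.nd (nat_lit 156) (nat_lit 0) (nat_lit 0) (XT.nd (nat_lit 78) (nat_lit 0) (nat_lit 0) (XT.lf (nat_lit 0) (nat_lit 17479060193) (nat_lit 76) (nat_lit 25760136842) (nat_lit 76) (nat_lit 24426252384) (nat_lit 3) (nat_lit 4) (nat_lit 4) (nat_lit 5) (nat_lit 4) (nat_lit 4) (nat_lit 331) (nat_lit 288) (nat_lit 281)) (XT.lf (nat_lit 0) (nat_lit 37073832927) (nat_lit 76) (nat_lit 20752773931)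 (nat_lit 76) (nat_lit 19314080529) (nat_lit 3) (nat_lit 4) (nat_lit 4) (nat_lit 5) (nat_lit 4) (nat_lit 4) (nat_lit 332) (nat_lit 288) (nat_lit 280))) (XT.nd (nat_lit 78) (nat_lit 0) (nat_lit 0) (XT.lf (nat_lit 0) (nat_lit 58694061834) (nat_lit 76) (nat_lit 15454648863) (nat_lit 76) (nat_lit 13924817250) (nat_lit 3) (nat_lit 4) (nat_lit 4) (nat_lit 5) (nat_lit 4) (nat_lit 4) (nat_lit 333) (nat_lit 288) (nat_lit 279)) (XT.lf (nat_lit 0) (nat_lit 82762751391) (nat_lit 76) (nat_lit 9762102670) (nat_lit 76) (nat_lit 8153020438) (nat_lit 3) (nat_lit 4) (nat_lit 4) (nat_lit 5) (nat_lit 4) (nat_lit 4) (nat_lit 334) (nat_lit 288) (nat_lit 278))))) (XT.nd (nat_lit 234) (nat_lit 0) (nat_lit 0) (XT.nd (nat_lit 78) (nat_lit 152) (nat_lit 0) (XT.lf (nat_lit 0) (nat_lit 109750810743) (nat_lit 76) (nat_lit 3563759448) (nat_lit 76) (nat_lit 1885763634) (nat_lit 3) (nat_lit 4) (nat_lit 4) (nat_lit 5) (nat_lit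 4) (nat_lit 4) (nat_lit 335) (nat_lit 288) (nat_lit 277)) (XT.nd (nat_lit 78) (nat_lit 0) (nat_lit 0) (XT.lf (nat_lit 0) (nat_lit 5042494621) (nat_lit 152) (nat_lit 123416176760) (nat_lit 0) (nat_lit 3433308818) (nat_lit 1) (nat_lit 5) (nat_lit 3) (nat_lit 4) (nat_lit 1) (nat_lit 4) (nat_lit 336) (nat_lit 288) (nat_lit 276)) (XT.lf (nat_lit 0) (nat_lit 12876411324) (nat_lit 152) (nat_lit 126989843682) (nat_lit 0) (nat_lit 11218976846) (nat_lit 1) (nat_lit 5) (nat_lit 3) (nat_lit 4) (nat_lit 1) (nat_lit 4) (nat_lit 337) (nat_lit 288) (nat_lit 275)))) (XT.nd (nat_lit 156) (nat_lit 0) (nat_lit 0) (XT.nd (nat_lit 78) (nat_lit 0) (nat_lit 0) (XT.lf (nat_lit 0) (nat_lit 21636337735) (nat_lit 152) (nat_lit 131604131877) (nat_lit 0) (nat_lit 19936947889) (nat_lit 1) (nat_lit 5) (nat_lit 3) (nat_lit 4) (nat_lit 1) (nat_lit 4) (nat_lit 338) (nat_lit 288) (nat_lit 274)) (XT.lf (nat_lit 0) (nat_lit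 31493663720) (nat_lit 152) (nat_lit 137349320896) (nat_lit 0) (nat_lit 29757790945) (nat_lit 1) (nat_lit 5) (nat_lit 3) (nat_lit 4) (nat_lit 1) (nat_lit 4) (nat_lit 339) (nat_lit 288) (nat_lit 273))) (XT.nd (nat_lit 78) (nat_lit 0) (nat_lit 0) (XT.lf (nat_lit 0) (nat_lit 42641250005) (nat_lit 152) (nat_lit 144337816612) (nat_lit 0) (nat_lit 40873652943) (nat_lit 1) (nat_lit 5) (nat_lit 3) (nat_lit 4) (nat_lit 1) (nat_lit 4) (nat_lit 340) (nat_lit 288) (nat_lit 272)) (XT.lf (nat_lit 0) (nat_lit 55297201538) (nat_lit 152) (nat_lit 152706350462) (nat_lit 0) (nat_lit 53502018140) (nat_lit 1) (nat_lit 5) (nat_lit 3) (nat_lit 4) (nat_lit 1) (nat_lit 4) (nat_lit 341) (nat_lit 288) (nat_lit 271)))))) (XT.nd (nat_lit 546) (nat_lit 0) (nat_lit 0) (XT.nd (nat_lit 234) (nat_lit 0) (nat_lit 0) (XT.nd (nat_lit 78) (nat_lit 0) (nat_lit 0) (XT.lf (nat_lit 0) (nat_lit 69709134763) (nat_lit 152) (nat_lit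 162618654630) (nat_lit 0) (nat_lit 67889963246) (nat_lit 1) (nat_lit 5) (nat_lit 3) (nat_lit 4) (nat_lit 1) (nat_lit 4) (nat_lit 342) (nat_lit 288) (nat_lit 270)) (XT.nd (nat_lit 78) (nat_lit 0) (nat_lit 0) (XT.lf (nat_lit 0) (nat_lit 86159022286) (nat_lit 152) (nat_lit 174268665502) (nat_lit 0) (nat_lit 84318991536) (nat_lit 1) (nat_lit 5) (nat_lit 3) (nat_lit 4) (nat_lit 1) (nat_lit 4) (nat_lit 343) (nat_lit 288) (nat_lit 269)) (XT.lf (nat_lit 0) (nat_lit 104968709733) (nat_lit 152) (nat_lit 187884318074) (nat_lit 0) (nat_lit 103110540519) (nat_lit 1) (nat_lit 5) (nat_lit 3) (nat_lit 4) (nat_lit 1) (nat_lit 4) (nat_lit 344) (nat_lit 288) (nat_lit 268)))) (XT.nd (nat_lit 156) (nat_lit 0) (nat_lit 0) (XT.nd (nat_lit 78) (nat_lit 0) (nat_lit 0) (XT.lf (nat_lit 0) (nat_lit 126506212727) (nat_lit 152) (nat_lit 203732005548) (nat_lit 0) (nat_lit 124632270936) (nat_lit 1) (nat_lit 5) (nat_lit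 3) (nat_lit 4) (nat_lit 1) (nat_lit 4) (nat_lit 345) (nat_lit 288) (nat_lit 267)) (XT.lf (nat_lit 0) (nat_lit 151192917198) (nat_lit 152) (nat_lit 222121791375) (nat_lit 0) (nat_lit 149305260122) (nat_lit 1) (nat_lit 5) (nat_lit 3) (nat_lit 4) (nat_lit 1) (nat_lit 4) (nat_lit 346) (nat_lit 288) (nat_lit 266))) (XT.nd (nat_lit 78) (nat_lit 0) (nat_lit 0) (XT.lf (nat_lit 0) (nat_lit 179511823883) (nat_lit 152) (nat_lit 243413475712) (nat_lit 0) (nat_lit 177612240473) (nat_lit 1) (nat_lit 5) (nat_lit 3) (nat_lit 4) (nat_lit 1) (nat_lit 4) (nat_lit 347) (nat_lit 288) (nat_lit 265)) (XT.lf (nat_lit 0) (nat_lit 212016998349) (nat_lit 152) (nat_lit 268023634991) (nat_lit 0) (nat_lit 210107044214) (nat_lit 1) (nat_lit 5) (nat_lit 3) (nat_lit 4) (nat_lit 1) (nat_lit 4) (nat_lit 348) (nat_lit 288) (nat_lit 264))))) (XT.nd (nat_lit 312) (nat_lit 0) (nat_lit 0) (XT.nd (nat_lit 156) (nat_lit 0) (nat_lit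 0) (XT.nd (nat_lit 78) (nat_lit 0) (nat_lit 0) (XT.lf (nat_lit 0) (nat_lit 249344411402) (nat_lit 152) (nat_lit 296433772330) (nat_lit 0) (nat_lit 247425439244) (nat_lit 1) (nat_lit 5) (nat_lit 3) (nat_lit 4) (nat_lit 1) (nat_lit 4) (nat_lit 349) (nat_lit 288) (nat_lit 263)) (XT.lf (nat_lit 0) (nat_lit 292224381991) (nat_lit 152) (nat_lit 329199738241) (nat_lit 0) (nat_lit 290297568074) (nat_lit 1) (nat_lit 5) (nat_lit 3) (nat_lit 4) (nat_lit 1) (nat_lit 4) (nat_lit 350) (nat_lit 288) (nat_lit 262))) (XT.nd (nat_lit 78) (nat_lit 0) (nat_lit 0) (XT.lf (nat_lit 0) (nat_lit 341495866063) (nat_lit 152) (nat_lit 366962605971) (nat_lit 0) (nat_lit 339562233226) (nat_lit 1) (nat_lit 5) (nat_lit 3) (nat_lit 4) (nat_lit 1) (nat_lit 4) (nat_lit 351) (nat_lit 288) (nat_lit 261)) (XT.lf (nat_lit 0) (nat_lit 398122870915) (nat_lit 152) (nat_lit 410461214235) (nat_lit 0) (nat_lit 396183308582) (nat_lit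 1) (nat_lit 5) (nat_lit 3) (nat_lit 4) (nat_lit 1) (nat_lit 4) (nat_lit 352) (nat_lit 288) (nat_lit 260)))) (XT.nd (nat_lit 156) (nat_lit 0) (nat_lit 0) (XT.nd (nat_lit 78) (nat_lit 0) (nat_lit 0) (XT.lf (nat_lit 0) (nat_lit 463213316207) (nat_lit 152) (nat_lit 460546622761) (nat_lit 0) (nat_lit 461268597791) (nat_lit 1) (nat_lit 5) (nat_lit 3) (nat_lit 4) (nat_lit 1) (nat_lit 4) (nat_lit 353) (nat_lit 288) (nat_lit 259)) (XT.lf (nat_lit 0) (nat_lit 538040710652) (nat_lit 152) (nat_lit 518198763455) (nat_lit 0) (nat_lit 536091508685) (nat_lit 1) (nat_lit 5) (nat_lit 3) (nat_lit 4) (nat_lit 1) (nat_lit 4) (nat_lit 354) (nat_lit 288) (nat_lit 258))) (XT.nd (nat_lit 78) (nat_lit 0) (nat_lit 0) (XT.lf (nat_lit 0) (nat_lit 624069068489) (nat_lit 152) (nat_lit 584545612982) (nat_lit 0) (nat_lit 622115967782) (nat_lit 1) (nat_lit 5) (nat_lit 3) (nat_lit 4) (nat_lit 1) (nat_lit 4) (nat_lit 355)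 (nat_lit 288) (nat_lit 257)) (XT.lf (nat_lit 0) (nat_lit 722981553240) (nat_lit 152) (nat_lit 660885261877) (nat_lit 0) (nat_lit 721025062325) (nat_lit 1) (nat_lit 5) (nat_lit 3) (nat_lit 4) (nat_lit 1) (nat_lit 4) (nat_lit 356) (nat_lit 288) (nat_lit 256))))))))
noncomputable def xc11 : XT := (XT.nd (nat_lit 45084) (nat_lit 0) (nat_lit 0) (XT.nd (nat_lit 1092) (nat_lit 0) (nat_lit 0) (XT.nd (nat_lit 546) (nat_lit 0) (nat_lit 0) (XT.nd (nat_lit 234) (nat_lit 0) (nat_lit 0) (XT.nd (nat_lit 78) (nat_lit 0) (nat_lit 0) (XT.lf (nat_lit 0) (nat_lit 836713409173) (nat_lit 152) (nat_lit 748711311966) (nat_lit 0) (nat_lit 834753970250) (nat_lit 1) (nat_lit 5) (nat_lit 3) (nat_lit 4) (nat_lit 1) (nat_lit 4) (nat_lit 357) (nat_lit 288) (nat_lit 255)) (XT.nd (nat_lit 78) (nat_lit 0) (nat_lit 0) (XT.lf (nat_lit 0) (nat_lit 967489824772) (nat_lit 152) (nat_lit 849742099011) (nat_lit 0) (nat_lit 965527822365)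 (nat_lit 1) (nat_lit 5) (nat_lit 3) (nat_lit 4) (nat_lit 1) (nat_lit 4) (nat_lit 358) (nat_lit 288) (nat_lit 254)) (XT.lf (nat_lit 0) (nat_lit 1117869469040) (nat_lit 152) (nat_lit 965954312324) (nat_lit 0) (nat_lit 1115905237515) (nat_lit 1) (nat_lit 5) (nat_lit 3) (nat_lit 4) (nat_lit 1) (nat_lit 4) (nat_lit 359) (nat_lit 288) (nat_lit 253)))) (XT.nd (nat_lit 156) (nat_lit 0) (nat_lit 0) (XT.nd (nat_lit 78) (nat_lit 0) (nat_lit 0) (XT.lf (nat_lit 0) (nat_lit 1290794552407) (nat_lit 152) (nat_lit 1099621669123) (nat_lit 0) (nat_lit 1288828382520) (nat_lit 1) (nat_lit 5) (nat_lit 3) (nat_lit 4) (nat_lit 1) (nat_lit 4) (nat_lit 360) (nat_lit 288) (nat_lit 252)) (XT.lf (nat_lit 0) (nat_lit 1489648391722) (nat_lit 152) (nat_lit 1253359400301) (nat_lit 0) (nat_lit 1487680536301) (nat_lit 1) (nat_lit 5) (nat_lit 3) (nat_lit 4) (nat_lit 1) (nat_lit 4) (nat_lit 361) (nat_lit 288) (nat_lit 251)))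 (XT.nd (nat_lit 78) (nat_lit 0) (nat_lit 0) (XT.lf (nat_lit 0) (nat_lit 1718321605579) (nat_lit 152) (nat_lit 1430175417989) (nat_lit 0) (nat_lit 1716352284478) (nat_lit 1) (nat_lit 5) (nat_lit 3) (nat_lit 4) (nat_lit 1) (nat_lit 4) (nat_lit 362) (nat_lit 288) (nat_lit 250)) (XT.lf (nat_lit 0) (nat_lit 1981288235121) (nat_lit 152) (nat_lit 1633529166013) (nat_lit 0) (nat_lit 1979317639515) (nat_lit 1) (nat_lit 5) (nat_lit 3) (nat_lit 4) (nat_lit 1) (nat_lit 4) (nat_lit 363) (nat_lit 288) (nat_lit 249))))) (XT.nd (nat_lit 234) (nat_lit 0) (nat_lit 0) (XT.nd (nat_lit 78) (nat_lit 0) (nat_lit 0) (XT.lf (nat_lit 0) (nat_lit 2283693279619) (nat_lit 152) (nat_lit 1867399304659) (nat_lit 0) (nat_lit 2281721575748) (nat_lit 1) (nat_lit 5) (nat_lit 3) (nat_lit 4) (nat_lit 1) (nat_lit 4) (nat_lit 364) (nat_lit 288) (nat_lit 248)) (XT.nd (nat_lit 78) (nat_lit 0) (nat_lit 0) (XT.lf (nat_lit 0) (nat_lit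 2631453359511) (nat_lit 152) (nat_lit 2136361554032) (nat_lit 0) (nat_lit 2629480691931) (nat_lit 1) (nat_lit 5) (nat_lit 3) (nat_lit 4) (nat_lit 1) (nat_lit 4) (nat_lit 365) (nat_lit 288) (nat_lit 247)) (XT.lf (nat_lit 0) (nat_lit 3031372476360) (nat_lit 152) (nat_lit 2445678219011) (nat_lit 0) (nat_lit 3029398970772) (nat_lit 1) (nat_lit 5) (nat_lit 3) (nat_lit 4) (nat_lit 1) (nat_lit 4) (nat_lit 366) (nat_lit 288) (nat_lit 246)))) (XT.nd (nat_lit 156) (nat_lit 0) (nat_lit 0) (XT.nd (nat_lit 78) (nat_lit 0) (nat_lit 0) (XT.lf (nat_lit 0) (nat_lit 3491275134624) (nat_lit 152) (nat_lit 2801401147388) (nat_lit 0) (nat_lit 3489300900334) (nat_lit 1) (nat_lit 5) (nat_lit 3) (nat_lit 4) (nat_lit 1) (nat_lit 4) (nat_lit 367) (nat_lit 288) (nat_lit 245)) (XT.lf (nat_lit 0) (nat_lit 4020159429793) (nat_lit 152) (nat_lit 3210490135589) (nat_lit 0) (nat_lit 4018184561849) (nat_lit 1) (nat_lit 5)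 (nat_lit 3) (nat_lit 4) (nat_lit 1) (nat_lit 4) (nat_lit 368) (nat_lit 288) (nat_lit 244))) (XT.nd (nat_lit 78) (nat_lit 0) (nat_lit 0) (XT.lf (nat_lit 0) (nat_lit 4628373098076) (nat_lit 152) (nat_lit 3680949098599) (nat_lit 0) (nat_lit 4626397679128) (nat_lit 1) (nat_lit 5) (nat_lit 3) (nat_lit 4) (nat_lit 1) (nat_lit 4) (nat_lit 369) (nat_lit 288) (nat_lit 243)) (XT.lf (nat_lit 0) (nat_lit 5327815972113) (nat_lit 152) (nat_lit 4221982668305) (nat_lit 0) (nat_lit 5325840074031) (nat_lit 1) (nat_lit 5) (nat_lit 3) (nat_lit 4) (nat_lit 1) (nat_lit 4) (nat_lit 370) (nat_lit 288) (nat_lit 242)))))) (XT.nd (nat_lit 43368) (nat_lit 0) (nat_lit 152) (XT.nd (nat_lit 43056) (nat_lit 0) (nat_lit 456) (XT.nd (nat_lit 78) (nat_lit 0) (nat_lit 0) (XT.lf (nat_lit 0) (nat_lit 6132172803788) (nat_lit 152) (nat_lit 4844176284113) (nat_lit 0) (nat_lit 6130196489068) (nat_lit 1) (nat_lit 5) (nat_lit 3)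 (nat_lit 4) (nat_lit 1) (nat_lit 4) (nat_lit 371) (nat_lit 288) (nat_lit 241)) (XT.nd (nat_lit 78) (nat_lit 0) (nat_lit 0) (XT.lf (nat_lit 0) (nat_lit 7057181009372) (nat_lit 152) (nat_lit 5559703299376) (nat_lit 0) (nat_lit 7055204332359) (nat_lit 1) (nat_lit 5) (nat_lit 3) (nat_lit 4) (nat_lit 1) (nat_lit 4) (nat_lit 372) (nat_lit 288) (nat_lit 240)) (XT.lf (nat_lit 0) (nat_lit 8120938575497) (nat_lit 152) (nat_lit 6382563155696) (nat_lit 0) (nat_lit 8118961583445) (nat_lit 1) (nat_lit 5) (nat_lit 3) (nat_lit 4) (nat_lit 1) (nat_lit 4) (nat_lit 373) (nat_lit 288) (nat_lit 239)))) (XT.nd (nat_lit 156) (nat_lit 152) (nat_lit 0) (XT.nd (nat_lit 78) (nat_lit 76) (nat_lit 0) (XT.lf (nat_lit 0) (nat_lit 2401946040) (nat_lit 152) (nat_lit 6884972636) (nat_lit 0) (nat_lit 2401946040) (nat_lit 10) (nat_lit 5) (nat_lit 12) (nat_lit 4) (nat_lit 10) (nat_lit 4) (nat_lit 322) (nat_lit 289) (nat_lit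 289)) (XT.lf (nat_lit 0) (nat_lit 7345905919) (nat_lit 76) (nat_lit 9485817549) (nat_lit 76) (nat_lit 9111854600) (nat_lit 9) (nat_lit 4) (nat_lit 10) (nat_lit 5) (nat_lit 10) (nat_lit 4) (nat_lit 323) (nat_lit 289) (nat_lit 288))) (XT.nd (nat_lit 78) (nat_lit 0) (nat_lit 0) (XT.lf (nat_lit 0) (nat_lit 1081502404) (nat_lit 152) (nat_lit 27423350638) (nat_lit 0) (nat_lit 434143032) (nat_lit 7) (nat_lit 5) (nat_lit 9) (nat_lit 4) (nat_lit 7) (nat_lit 4) (nat_lit 324) (nat_lit 289) (nat_lit 287)) (XT.lf (nat_lit 0) (nat_lit 12108090391) (nat_lit 152) (nat_lit 9070420351) (nat_lit 0) (nat_lit 11198907208) (nat_lit 7) (nat_lit 5) (nat_lit 9) (nat_lit 4) (nat_lit 7) (nat_lit 4) (nat_lit 325) (nat_lit 289) (nat_lit 286))))) (XT.nd (nat_lit 312) (nat_lit 76) (nat_lit 0) (XT.nd (nat_lit 156) (nat_lit 152) (nat_lit 0) (XT.nd (nat_lit 78) (nat_lit 0) (nat_lit 0) (XT.lf (nat_lit 0) (nat_lit 10862524279)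 (nat_lit 76) (nat_lit 13326987952) (nat_lit 76) (nat_lit 12190131890) (nat_lit 6) (nat_lit 4) (nat_lit 7) (nat_lit 5) (nat_lit 7) (nat_lit 4) (nat_lit 326) (nat_lit 289) (nat_lit 285)) (XT.lf (nat_lit 0) (nat_lit 32763652368) (nat_lit 76) (nat_lit 4797614624) (nat_lit 76) (nat_lit 3462782146) (nat_lit 6) (nat_lit 4) (nat_lit 7) (nat_lit 5) (nat_lit 7) (nat_lit 4) (nat_lit 327) (nat_lit 289) (nat_lit 284))) (XT.nd (nat_lit 78) (nat_lit 0) (nat_lit 0) (XT.lf (nat_lit 0) (nat_lit 5911657986) (nat_lit 152) (nat_lit 35951238200) (nat_lit 0) (nat_lit 4516300686) (nat_lit 4) (nat_lit 5) (nat_lit 6) (nat_lit 4) (nat_lit 4) (nat_lit 4) (nat_lit 328) (nat_lit 289) (nat_lit 283)) (XT.lf (nat_lit 0) (nat_lit 16216319064) (nat_lit 152) (nat_lit 21653489308) (nat_lit 0) (nat_lit 14682351936) (nat_lit 4) (nat_lit 5) (nat_lit 6) (nat_lit 4) (nat_lit 4) (nat_lit 4) (nat_lit 329) (nat_lit 289) (nat_lit 282))))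 (XT.nd (nat_lit 156) (nat_lit 0) (nat_lit 0) (XT.nd (nat_lit 78) (nat_lit 76) (nat_lit 0) (XT.lf (nat_lit 0) (nat_lit 27496097901) (nat_lit 152) (nat_lit 6359073910) (nat_lit 0) (nat_lit 25841600488) (nat_lit 4) (nat_lit 5) (nat_lit 6) (nat_lit 4) (nat_lit 4) (nat_lit 4) (nat_lit 330) (nat_lit 289) (nat_lit 281)) (XT.lf (nat_lit 0) (nat_lit 10770005868) (nat_lit 76) (nat_lit 29460698854) (nat_lit 76) (nat_lit 27701392499) (nat_lit 3) (nat_lit 4) (nat_lit 4) (nat_lit 5) (nat_lit 4) (nat_lit 4) (nat_lit 331) (nat_lit 289) (nat_lit 280))) (XT.nd (nat_lit 78) (nat_lit 0) (nat_lit 0) (XT.lf (nat_lit 0) (nat_lit 29939774073) (nat_lit 76) (nat_lit 24667448631) (nat_lit 76) (nat_lit 22817004064) (nat_lit 3) (nat_lit 4) (nat_lit 4) (nat_lit 5) (nat_lit 4) (nat_lit 4) (nat_lit 332) (nat_lit 289) (nat_lit 279)) (XT.lf (nat_lit 0) (nat_lit 51190433824) (nat_lit 76) (nat_lit 19555508510) (nat_lit 76)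 (nat_lit 17625813324) (nat_lit 3) (nat_lit 4) (nat_lit 4) (nat_lit 5) (nat_lit 4) (nat_lit 4) (nat_lit 333) (nat_lit 289) (nat_lit 278))))))) (XT.nd (nat_lit 1092) (nat_lit 0) (nat_lit 0) (XT.nd (nat_lit 546) (nat_lit 0) (nat_lit 0) (XT.nd (nat_lit 234) (nat_lit 76) (nat_lit 0) (XT.nd (nat_lit 78) (nat_lit 76) (nat_lit 0) (XT.lf (nat_lit 0) (nat_lit 74937758898) (nat_lit 76) (nat_lit 14024862270) (nat_lit 76) (nat_lit 12026253503) (nat_lit 3) (nat_lit 4) (nat_lit 4) (nat_lit 5) (nat_lit 4) (nat_lit 4) (nat_lit 334) (nat_lit 289) (nat_lit 277)) (XT.nd (nat_lit 78) (nat_lit 76) (nat_lit 0) (XT.lf (nat_lit 0) (nat_lit 101646370874) (nat_lit 76) (nat_lit 7967301616) (nat_lit 76) (nat_lit 5908767996) (nat_lit 3) (nat_lit 4) (nat_lit 4) (nat_lit 5) (nat_lit 4) (nat_lit 4) (nat_lit 335) (nat_lit 289) (nat_lit 276)) (XT.lf (nat_lit 0) (nat_lit 803996120) (nat_lit 152) (nat_lit 438330258) (nat_lit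 76) (nat_lit 131012850750) (nat_lit 2) (nat_lit 5) (nat_lit 4) (nat_lit 5) (nat_lit 3) (nat_lit 4) (nat_lit 336) (nat_lit 289) (nat_lit 275)))) (XT.nd (nat_lit 156) (nat_lit 0) (nat_lit 0) (XT.nd (nat_lit 78) (nat_lit 0) (nat_lit 0) (XT.lf (nat_lit 0) (nat_lit 8480799504) (nat_lit 152) (nat_lit 136495661844) (nat_lit 0) (nat_lit 6484545812) (nat_lit 1) (nat_lit 5) (nat_lit 3) (nat_lit 4) (nat_lit 1) (nat_lit 4) (nat_lit 337) (nat_lit 289) (nat_lit 274)) (XT.lf (nat_lit 0) (nat_lit 17139986665) (nat_lit 152) (nat_lit 141314023339) (nat_lit 0) (nat_lit 15107250043) (nat_lit 1) (nat_lit 5) (nat_lit 3) (nat_lit 4) (nat_lit 1) (nat_lit 4) (nat_lit 338) (nat_lit 289) (nat_lit 273))) (XT.nd (nat_lit 78) (nat_lit 0) (nat_lit 0) (XT.lf (nat_lit 0) (nat_lit 26909713302) (nat_lit 152) (nat_lit 147236667402) (nat_lit 0) (nat_lit 24845252394) (nat_lit 1) (nat_lit 5) (nat_lit 3) (nat_lit 4) (nat_lit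 1) (nat_lit 4) (nat_lit 339) (nat_lit 289) (nat_lit 272)) (XT.lf (nat_lit 0) (nat_lit 37981126241) (nat_lit 152) (nat_lit 154379471851) (nat_lit 0) (nat_lit 35889078997) (nat_lit 1) (nat_lit 5) (nat_lit 3) (nat_lit 4) (nat_lit 1) (nat_lit 4) (nat_lit 340) (nat_lit 289) (nat_lit 271))))) (XT.nd (nat_lit 234) (nat_lit 0) (nat_lit 0) (XT.nd (nat_lit 78) (nat_lit 0) (nat_lit 0) (XT.lf (nat_lit 0) (nat_lit 50570840082) (nat_lit 152) (nat_lit 162882187208) (nat_lit 0) (nat_lit 48454804719) (nat_lit 1) (nat_lit 5) (nat_lit 3) (nat_lit 4) (nat_lit 1) (nat_lit 4) (nat_lit 341) (nat_lit 289) (nat_lit 270)) (XT.nd (nat_lit 78) (nat_lit 0) (nat_lit 0) (XT.lf (nat_lit 0) (nat_lit 64925175314) (nat_lit 152) (nat_lit 172911170948) (nat_lit 0) (nat_lit 62788280718) (nat_lit 1) (nat_lit 5) (nat_lit 3) (nat_lit 4) (nat_lit 1) (nat_lit 4) (nat_lit 342) (nat_lit 289) (nat_lit 269)) (XT.lf (nat_lit 0) (nat_lit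 81324977625) (nat_lit 152) (nat_lit 184662642317) (nat_lit 0) (nat_lit 79169944565) (nat_lit 1) (nat_lit 5) (nat_lit 3) (nat_lit 4) (nat_lit 1) (nat_lit 4) (nat_lit 343) (nat_lit 289) (nat_lit 268)))) (XT.nd (nat_lit 156) (nat_lit 0) (nat_lit 0) (XT.nd (nat_lit 78) (nat_lit 0) (nat_lit 0) (XT.lf (nat_lit 0) (nat_lit 100091112714) (nat_lit 152) (nat_lit 198366521408) (nat_lit 0) (nat_lit 97920307077) (nat_lit 1) (nat_lit 5) (nat_lit 3) (nat_lit 4) (nat_lit 1) (nat_lit 4) (nat_lit 344) (nat_lit 289) (nat_lit 267)) (XT.lf (nat_lit 0) (nat_lit 121590744093) (nat_lit 152) (nat_lit 214290927595) (nat_lit 0) (nat_lit 119406223171) (nat_lit 1) (nat_lit 5) (nat_lit 3) (nat_lit 4) (nat_lit 1) (nat_lit 4) (nat_lit 345) (nat_lit 289) (nat_lit 266))) (XT.nd (nat_lit 78) (nat_lit 0) (nat_lit 0) (XT.lf (nat_lit 0) (nat_lit 146244516723) (nat_lit 152) (nat_lit 232747425345) (nat_lit 0) (nat_lit 144048069467)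 (nat_lit 1) (nat_lit 5) (nat_lit 3) (nat_lit 4) (nat_lit 1) (nat_lit 4) (nat_lit 346) (nat_lit 289) (nat_lit 265)) (XT.lf (nat_lit 0) (nat_lit 174534787027) (nat_lit 152) (nat_lit 254097120050) (nat_lit 0) (nat_lit 172327969045) (nat_lit 1) (nat_lit 5) (nat_lit 3) (nat_lit 4) (nat_lit 1) (nat_lit 4) (nat_lit 347) (nat_lit 289) (nat_lit 264)))))) (XT.nd (nat_lit 546) (nat_lit 0) (nat_lit 0) (XT.nd (nat_lit 234) (nat_lit 0) (nat_lit 0) (XT.nd (nat_lit 78) (nat_lit 0) (nat_lit 0) (XT.lf (nat_lit 0) (nat_lit 207015060291) (nat_lit 152) (nat_lit 278757723129) (nat_lit 0) (nat_lit 204799224287) (nat_lit 1) (nat_lit 5) (nat_lit 3) (nat_lit 4) (nat_lit 1) (nat_lit 4) (nat_lit 348) (nat_lit 289) (nat_lit 263)) (XT.nd (nat_lit 78) (nat_lit 0) (nat_lit 0) (XT.lf (nat_lit 0) (nat_lit 244320820124) (nat_lit 152) (nat_lit 307211724640) (nat_lit 0) (nat_lit 242097142362) (nat_lit 1) (nat_lit 5) (nat_lit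 3) (nat_lit 4) (nat_lit 1) (nat_lit 4) (nat_lit 349) (nat_lit 289) (nat_lit 262)) (XT.lf (nat_lit 0) (nat_lit 287181961827) (nat_lit 152) (nat_lit 340015833310) (nat_lit 0) (nat_lit 284951465144) (nat_lit 1) (nat_lit 5) (nat_lit 3) (nat_lit 4) (nat_lit 1) (nat_lit 4) (nat_lit 350) (nat_lit 289) (nat_lit 261)))) (XT.nd (nat_lit 156) (nat_lit 0) (nat_lit 0) (XT.nd (nat_lit 78) (nat_lit 0) (nat_lit 0) (XT.lf (nat_lit 0) (nat_lit 336437072954) (nat_lit 152) (nat_lit 377811868656) (nat_lit 0) (nat_lit 334200646776) (nat_lit 1) (nat_lit 5) (nat_lit 3) (nat_lit 4) (nat_lit 1) (nat_lit 4) (nat_lit 351) (nat_lit 289) (nat_lit 260)) (XT.lf (nat_lit 0) (nat_lit 393049840464) (nat_lit 152) (nat_lit 421339318326) (nat_lit 0) (nat_lit 390808258202) (nat_lit 1) (nat_lit 5) (nat_lit 3) (nat_lit 4) (nat_lit 1) (nat_lit 4) (nat_lit 352) (nat_lit 289) (nat_lit 259))) (XT.nd (nat_lit 78) (nat_lit 0) (nat_lit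 0) (XT.lf (nat_lit 0) (nat_lit 458127905458) (nat_lit 152) (nat_lit 471449806336) (nat_lit 0) (nat_lit 455881839645) (nat_lit 1) (nat_lit 5) (nat_lit 3) (nat_lit 4) (nat_lit 1) (nat_lit 4) (nat_lit 353) (nat_lit 289) (nat_lit 258)) (XT.lf (nat_lit 0) (nat_lit 532944534426) (nat_lit 152) (nat_lit 529123755276) (nat_lit 0) (nat_lit 530694569873) (nat_lit 1) (nat_lit 5) (nat_lit 3) (nat_lit 4) (nat_lit 1) (nat_lit 4) (nat_lit 354) (nat_lit 289) (nat_lit 257))))) (XT.nd (nat_lit 312) (nat_lit 0) (nat_lit 0) (XT.nd (nat_lit 156) (nat_lit 0) (nat_lit 0) (XT.nd (nat_lit 78) (nat_lit 0) (nat_lit 0) (XT.lf (nat_lit 0) (nat_lit 618963530978) (nat_lit 152) (nat_lit 595489568495) (nat_lit 0) (nat_lit 616710176217) (nat_lit 1) (nat_lit 5) (nat_lit 3) (nat_lit 4) (nat_lit 1) (nat_lit 4) (nat_lit 355) (nat_lit 289) (nat_lit 256)) (XT.lf (nat_lit 0) (nat_lit 717867875483) (nat_lit 152) (nat_lit 671845707557)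 (nat_lit 0) (nat_lit 715611572714) (nat_lit 1) (nat_lit 5) (nat_lit 3) (nat_lit 4) (nat_lit 1) (nat_lit 4) (nat_lit 356) (nat_lit 289) (nat_lit 255))) (XT.nd (nat_lit 78) (nat_lit 0) (nat_lit 0) (XT.lf (nat_lit 0) (nat_lit 831592652939) (nat_lit 152) (nat_lit 759686096922) (nat_lit 0) (nat_lit 829333786686) (nat_lit 1) (nat_lit 5) (nat_lit 3) (nat_lit 4) (nat_lit 1) (nat_lit 4) (nat_lit 357) (nat_lit 289) (nat_lit 254)) (XT.lf (nat_lit 0) (nat_lit 962362913343) (nat_lit 152) (nat_lit 860729352903) (nat_lit 0) (nat_lit 960101817972) (nat_lit 1) (nat_lit 5) (nat_lit 3) (nat_lit 4) (nat_lit 1) (nat_lit 4) (nat_lit 358) (nat_lit 289) (nat_lit 253)))) (XT.nd (nat_lit 156) (nat_lit 0) (nat_lit 0) (XT.nd (nat_lit 78) (nat_lit 0) (nat_lit 0) (XT.lf (nat_lit 0) (nat_lit 1112737205266) (nat_lit 152) (nat_lit 976952408769) (nat_lit 0) (nat_lit 1110474171533) (nat_lit 1) (nat_lit 5) (nat_lit 3) (nat_lit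 4) (nat_lit 1) (nat_lit 4) (nat_lit 359) (nat_lit 289) (nat_lit 252)) (XT.lf (nat_lit 0) (nat_lit 1285657634420) (nat_lit 152) (nat_lit 1110629193874) (nat_lit 0) (nat_lit 1283392915154) (nat_lit 1) (nat_lit 5) (nat_lit 3) (nat_lit 4) (nat_lit 1) (nat_lit 4) (nat_lit 360) (nat_lit 289) (nat_lit 251))) (XT.nd (nat_lit 78) (nat_lit 0) (nat_lit 0) (XT.lf (nat_lit 0) (nat_lit 1484507426593) (nat_lit 152) (nat_lit 1264375123579) (nat_lit 0) (nat_lit 1482241241646) (nat_lit 1) (nat_lit 5) (nat_lit 3) (nat_lit 4) (nat_lit 1) (nat_lit 4) (nat_lit 361) (nat_lit 289) (nat_lit 250)) (XT.lf (nat_lit 0) (nat_lit 1713177121197) (nat_lit 152) (nat_lit 1441198270422) (nat_lit 0) (nat_lit 1710909661746) (nat_lit 1) (nat_lit 5) (nat_lit 3) (nat_lit 4) (nat_lit 1) (nat_lit 4) (nat_lit 362) (nat_lit 289) (nat_lit 249))))))))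
noncomputable def xc12 : XT := (XT.nd (nat_lit 44850) (nat_lit 0) (nat_lit 0) (XT.nd (nat_lit 43758) (nat_lit 0) (nat_lit 152) (XT.nd (nat_lit 546) (nat_lit 0) (nat_lit 0) (XT.nd (nat_lit 234) (nat_lit 0) (nat_lit 0) (XT.nd (nat_lit 78) (nat_lit 0) (nat_lit 0) (XT.lf (nat_lit 0) (nat_lit 1976140690518) (nat_lit 152) (nat_lit 1644558217711) (nat_lit 0) (nat_lit 1973872122801) (nat_lit 1) (nat_lit 5) (nat_lit 3) (nat_lit 4) (nat_lit 1) (nat_lit 4) (nat_lit 363) (nat_lit 289) (nat_lit 248)) (XT.nd (nat_lit 78) (nat_lit 0) (nat_lit 0) (XT.lf (nat_lit 0) (nat_lit 2278543073956) (nat_lit 152) (nat_lit 1878433747022) (nat_lit 0) (nat_lit 2276273542530) (nat_lit 1) (nat_lit 5) (nat_lit 3) (nat_lit 4) (nat_lit 1) (nat_lit 4) (nat_lit 364) (nat_lit 289) (nat_lit 247)) (XT.lf (nat_lit 0) (nat_lit 2626300839882) (nat_lit 152) (nat_lit 2147400683930) (nat_lit 0) (nat_lit 2624030470448) (nat_lit 1) (nat_lit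 5) (nat_lit 3) (nat_lit 4) (nat_lit 1) (nat_lit 4) (nat_lit 365) (nat_lit 289) (nat_lit 246)))) (XT.nd (nat_lit 156) (nat_lit 0) (nat_lit 0) (XT.nd (nat_lit 78) (nat_lit 0) (nat_lit 0) (XT.lf (nat_lit 0) (nat_lit 3026217944585) (nat_lit 152) (nat_lit 2456721425025) (nat_lit 0) (nat_lit 3023946846449) (nat_lit 1) (nat_lit 5) (nat_lit 3) (nat_lit 4) (nat_lit 1) (nat_lit 4) (nat_lit 366) (nat_lit 289) (nat_lit 245)) (XT.lf (nat_lit 0) (nat_lit 3486118853159) (nat_lit 152) (nat_lit 2812447897852) (nat_lit 0) (nat_lit 3483847121369) (nat_lit 1) (nat_lit 5) (nat_lit 3) (nat_lit 4) (nat_lit 1) (nat_lit 4) (nat_lit 367) (nat_lit 289) (nat_lit 244))) (XT.nd (nat_lit 78) (nat_lit 0) (nat_lit 0) (XT.lf (nat_lit 0) (nat_lit 4015001626857) (nat_lit 152) (nat_lit 3221539968183) (nat_lit 0) (nat_lit 4012729344064) (nat_lit 1) (nat_lit 5) (nat_lit 3) (nat_lit 4) (nat_lit 1) (nat_lit 4) (nat_lit 368) (nat_lit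 289) (nat_lit 243)) (XT.lf (nat_lit 0) (nat_lit 4623213972123) (nat_lit 152) (nat_lit 3692001611307) (nat_lit 0) (nat_lit 4620941210195) (nat_lit 1) (nat_lit 5) (nat_lit 3) (nat_lit 4) (nat_lit 1) (nat_lit 4) (nat_lit 369) (nat_lit 289) (nat_lit 242))))) (XT.nd (nat_lit 234) (nat_lit 0) (nat_lit 0) (XT.nd (nat_lit 78) (nat_lit 0) (nat_lit 0) (XT.lf (nat_lit 0) (nat_lit 5322655695709) (nat_lit 152) (nat_lit 4233037511546) (nat_lit 0) (nat_lit 5320382517144) (nat_lit 1) (nat_lit 5) (nat_lit 3) (nat_lit 4) (nat_lit 1) (nat_lit 4) (nat_lit 370) (nat_lit 289) (nat_lit 241)) (XT.nd (nat_lit 78) (nat_lit 0) (nat_lit 0) (XT.lf (nat_lit 0) (nat_lit 6127011526993) (nat_lit 152) (nat_lit 4855233153904) (nat_lit 0) (nat_lit 6124737986133) (nat_lit 1) (nat_lit 5) (nat_lit 3) (nat_lit 4) (nat_lit 1) (nat_lit 4) (nat_lit 371) (nat_lit 289) (nat_lit 240)) (XT.lf (nat_lit 0) (nat_lit 7052018862671) (nat_lit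 152) (nat_lit 5570761931385) (nat_lit 0) (nat_lit 7049745006774) (nat_lit 1) (nat_lit 5) (nat_lit 3) (nat_lit 4) (nat_lit 1) (nat_lit 4) (nat_lit 372) (nat_lit 289) (nat_lit 239)))) (XT.nd (nat_lit 42822) (nat_lit 0) (nat_lit 684) (XT.nd (nat_lit 42744) (nat_lit 0) (nat_lit 912) (XT.lf (nat_lit 0) (nat_lit 8115775672357) (nat_lit 152) (nat_lit 6393623320069) (nat_lit 0) (nat_lit 8113501542513) (nat_lit 1) (nat_lit 5) (nat_lit 3) (nat_lit 4) (nat_lit 1) (nat_lit 4) (nat_lit 373) (nat_lit 289) (nat_lit 238)) (XT.lf (nat_lit 0) (nat_lit 1785469993) (nat_lit 152) (nat_lit 6039267967) (nat_lit 0) (nat_lit 1785469993) (nat_lit 13) (nat_lit 5) (nat_lit 15) (nat_lit 4) (nat_lit 13) (nat_lit 4) (nat_lit 320) (nat_lit 290) (nat_lit 290))) (XT.nd (nat_lit 78) (nat_lit 152) (nat_lit 0) (XT.lf (nat_lit 0) (nat_lit 8943795547) (nat_lit 76) (nat_lit 6342388795) (nat_lit 76) (nat_lit 5877926813) (nat_lit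 12) (nat_lit 4) (nat_lit 13) (nat_lit 5) (nat_lit 13) (nat_lit 4) (nat_lit 321) (nat_lit 290) (nat_lit 289)) (XT.lf (nat_lit 0) (nat_lit 4708466029) (nat_lit 152) (nat_lit 14806939409) (nat_lit 0) (nat_lit 3904445689) (nat_lit 10) (nat_lit 5) (nat_lit 12) (nat_lit 4) (nat_lit 10) (nat_lit 4) (nat_lit 322) (nat_lit 290) (nat_lit 288)))))) (XT.nd (nat_lit 546) (nat_lit 76) (nat_lit 0) (XT.nd (nat_lit 234) (nat_lit 228) (nat_lit 0) (XT.nd (nat_lit 78) (nat_lit 152) (nat_lit 0) (XT.lf (nat_lit 0) (nat_lit 5305087760) (nat_lit 76) (nat_lit 10925185806) (nat_lit 76) (nat_lit 9795980292) (nat_lit 9) (nat_lit 4) (nat_lit 10) (nat_lit 5) (nat_lit 10) (nat_lit 4) (nat_lit 323) (nat_lit 290) (nat_lit 287)) (XT.nd (nat_lit 78) (nat_lit 152) (nat_lit 0) (XT.lf (nat_lit 0) (nat_lit 27555957786) (nat_lit 76) (nat_lit 1458519692) (nat_lit 76) (nat_lit 46544463) (nat_lit 9) (nat_lit 4) (nat_lit 10) (nat_lit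 5) (nat_lit 10) (nat_lit 4) (nat_lit 324) (nat_lit 290) (nat_lit 286)) (XT.lf (nat_lit 0) (nat_lit 10508016594) (nat_lit 152) (nat_lit 13056556495) (nat_lit 0) (nat_lit 8972959244) (nat_lit 7) (nat_lit 5) (nat_lit 9) (nat_lit 4) (nat_lit 7) (nat_lit 4) (nat_lit 325) (nat_lit 290) (nat_lit 285)))) (XT.nd (nat_lit 156) (nat_lit 152) (nat_lit 0) (XT.nd (nat_lit 78) (nat_lit 0) (nat_lit 0) (XT.lf (nat_lit 0) (nat_lit 5935771159) (nat_lit 76) (nat_lit 16187191559) (nat_lit 76) (nat_lit 14454157792) (nat_lit 6) (nat_lit 4) (nat_lit 7) (nat_lit 5) (nat_lit 7) (nat_lit 4) (nat_lit 326) (nat_lit 290) (nat_lit 284)) (XT.lf (nat_lit 0) (nat_lit 27201495674) (nat_lit 76) (nat_lit 7975342782) (nat_lit 76) (nat_lit 6070155610) (nat_lit 6) (nat_lit 4) (nat_lit 7) (nat_lit 5) (nat_lit 7) (nat_lit 4) (nat_lit 327) (nat_lit 290) (nat_lit 283))) (XT.nd (nat_lit 78) (nat_lit 0) (nat_lit 0) (XT.lf (nat_lit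 0) (nat_lit 2902834380) (nat_lit 152) (nat_lit 42746742946) (nat_lit 0) (nat_lit 1000162356) (nat_lit 4) (nat_lit 5) (nat_lit 6) (nat_lit 4) (nat_lit 4) (nat_lit 4) (nat_lit 328) (nat_lit 290) (nat_lit 282)) (XT.lf (nat_lit 0) (nat_lit 12942108759) (nat_lit 152) (nat_lit 28982945602) (nat_lit 0) (nat_lit 10918906450) (nat_lit 4) (nat_lit 5) (nat_lit 6) (nat_lit 4) (nat_lit 4) (nat_lit 4) (nat_lit 329) (nat_lit 290) (nat_lit 281))))) (XT.nd (nat_lit 234) (nat_lit 0) (nat_lit 0) (XT.nd (nat_lit 78) (nat_lit 76) (nat_lit 0) (XT.lf (nat_lit 0) (nat_lit 23991116554) (nat_lit 152) (nat_lit 14152835897) (nat_lit 0) (nat_lit 21863105302) (nat_lit 4) (nat_lit 5) (nat_lit 6) (nat_lit 4) (nat_lit 4) (nat_lit 4) (nat_lit 330) (nat_lit 290) (nat_lit 280)) (XT.nd (nat_lit 78) (nat_lit 0) (nat_lit 0) (XT.lf (nat_lit 0) (nat_lit 2140833657) (nat_lit 76) (nat_lit 34176687448) (nat_lit 76) (nat_lit 31957537984)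 (nat_lit 3) (nat_lit 4) (nat_lit 4) (nat_lit 5) (nat_lit 4) (nat_lit 4) (nat_lit 331) (nat_lit 290) (nat_lit 279)) (XT.lf (nat_lit 0) (nat_lit 20941032706) (nat_lit 76) (nat_lit 29569622172) (nat_lit 76) (nat_lit 27271222089) (nat_lit 3) (nat_lit 4) (nat_lit 4) (nat_lit 5) (nat_lit 4) (nat_lit 4) (nat_lit 332) (nat_lit 290) (nat_lit 278)))) (XT.nd (nat_lit 156) (nat_lit 0) (nat_lit 0) (XT.nd (nat_lit 78) (nat_lit 0) (nat_lit 0) (XT.lf (nat_lit 0) (nat_lit 41870327973) (nat_lit 76) (nat_lit 24619582004) (nat_lit 76) (nat_lit 22252268340) (nat_lit 3) (nat_lit 4) (nat_lit 4) (nat_lit 5) (nat_lit 4) (nat_lit 4) (nat_lit 333) (nat_lit 290) (nat_lit 277)) (XT.lf (nat_lit 0) (nat_lit 65338205671) (nat_lit 76) (nat_lit 19229718332) (nat_lit 76) (nat_lit 16802479815) (nat_lit 3) (nat_lit 4) (nat_lit 4) (nat_lit 5) (nat_lit 4) (nat_lit 4) (nat_lit 334) (nat_lit 290) (nat_lit 276))) (XT.nd (nat_lit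 78) (nat_lit 0) (nat_lit 0) (XT.lf (nat_lit 0) (nat_lit 91803819927) (nat_lit 76) (nat_lit 13294577303) (nat_lit 76) (nat_lit 10815230217) (nat_lit 3) (nat_lit 4) (nat_lit 4) (nat_lit 5) (nat_lit 4) (nat_lit 4) (nat_lit 335) (nat_lit 290) (nat_lit 275)) (XT.lf (nat_lit 0) (nat_lit 121784976239) (nat_lit 76) (nat_lit 6698036591) (nat_lit 76) (nat_lit 4173377707) (nat_lit 3) (nat_lit 4) (nat_lit 4) (nat_lit 5) (nat_lit 4) (nat_lit 4) (nat_lit 336) (nat_lit 290) (nat_lit 274))))))) (XT.nd (nat_lit 1092) (nat_lit 0) (nat_lit 0) (XT.nd (nat_lit 546) (nat_lit 0) (nat_lit 0) (XT.nd (nat_lit 234) (nat_lit 0) (nat_lit 0) (XT.nd (nat_lit 78) (nat_lit 0) (nat_lit 0) (XT.lf (nat_lit 0) (nat_lit 3209256523) (nat_lit 152) (nat_lit 147866110325) (nat_lit 0) (nat_lit 835126479) (nat_lit 1) (nat_lit 5) (nat_lit 3) (nat_lit 4) (nat_lit 1) (nat_lit 4) (nat_lit 337) (nat_lit 290) (nat_lit 273)) (XT.nd (nat_lit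 78) (nat_lit 0) (nat_lit 0) (XT.lf (nat_lit 0) (nat_lit 11780844336) (nat_lit 152) (nat_lit 152861926863) (nat_lit 0) (nat_lit 9374990005) (nat_lit 1) (nat_lit 5) (nat_lit 3) (nat_lit 4) (nat_lit 1) (nat_lit 4) (nat_lit 338) (nat_lit 290) (nat_lit 272)) (XT.lf (nat_lit 0) (nat_lit 21474397627) (nat_lit 152) (nat_lit 158938879660) (nat_lit 0) (nat_lit 19040956960) (nat_lit 1) (nat_lit 5) (nat_lit 3) (nat_lit 4) (nat_lit 1) (nat_lit 4) (nat_lit 339) (nat_lit 290) (nat_lit 271)))) (XT.nd (nat_lit 156) (nat_lit 0) (nat_lit 0) (XT.nd (nat_lit 78) (nat_lit 0) (nat_lit 0) (XT.lf (nat_lit 0) (nat_lit 32479572874) (nat_lit 152) (nat_lit 166215865616) (nat_lit 0) (nat_lit 30022144088) (nat_lit 1) (nat_lit 5) (nat_lit 3) (nat_lit 4) (nat_lit 1) (nat_lit 4) (nat_lit 340) (nat_lit 290) (nat_lit 270)) (XT.lf (nat_lit 0) (nat_lit 45011688722) (nat_lit 152) (nat_lit 174835260545) (nat_lit 0) (nat_lit 42533400703)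 (nat_lit 1) (nat_lit 5) (nat_lit 3) (nat_lit 4) (nat_lit 1) (nat_lit 4) (nat_lit 341) (nat_lit 290) (nat_lit 269))) (XT.nd (nat_lit 78) (nat_lit 0) (nat_lit 0) (XT.lf (nat_lit 0) (nat_lit 59315938742) (nat_lit 152) (nat_lit 184965704782) (nat_lit 0) (nat_lit 56819512259) (nat_lit 1) (nat_lit 5) (nat_lit 3) (nat_lit 4) (nat_lit 1) (nat_lit 4) (nat_lit 342) (nat_lit 290) (nat_lit 268)) (XT.lf (nat_lit 0) (nat_lit 75672188695) (nat_lit 152) (nat_lit 196805402670) (nat_lit 0) (nat_lit 73159989636) (nat_lit 1) (nat_lit 5) (nat_lit 3) (nat_lit 4) (nat_lit 1) (nat_lit 4) (nat_lit 343) (nat_lit 290) (nat_lit 267))))) (XT.nd (nat_lit 234) (nat_lit 0) (nat_lit 0) (XT.nd (nat_lit 78) (nat_lit 0) (nat_lit 0) (XT.lf (nat_lit 0) (nat_lit 94400452169) (nat_lit 152) (nat_lit 210586000474) (nat_lit 0) (nat_lit 91874537824) (nat_lit 1) (nat_lit 5) (nat_lit 3) (nat_lit 4) (nat_lit 1) (nat_lit 4) (nat_lit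 344) (nat_lit 290) (nat_lit 266)) (XT.nd (nat_lit 78) (nat_lit 0) (nat_lit 0) (XT.lf (nat_lit 0) (nat_lit 115867151708) (nat_lit 152) (nat_lit 226577118584) (nat_lit 0) (nat_lit 113329311029) (nat_lit 1) (nat_lit 5) (nat_lit 3) (nat_lit 4) (nat_lit 1) (nat_lit 4) (nat_lit 345) (nat_lit 290) (nat_lit 265)) (XT.lf (nat_lit 0) (nat_lit 140492287956) (nat_lit 152) (nat_lit 245091626703) (nat_lit 0) (nat_lit 137944076552) (nat_lit 1) (nat_lit 5) (nat_lit 3) (nat_lit 4) (nat_lit 1) (nat_lit 4) (nat_lit 346) (nat_lit 290) (nat_lit 264)))) (XT.nd (nat_lit 156) (nat_lit 0) (nat_lit 0) (XT.nd (nat_lit 78) (nat_lit 0) (nat_lit 0) (XT.lf (nat_lit 0) (nat_lit 168757657057) (nat_lit 152) (nat_lit 266491765207) (nat_lit 0) (nat_lit 166200427631) (nat_lit 1) (nat_lit 5) (nat_lit 3) (nat_lit 4) (nat_lit 1) (nat_lit 4) (nat_lit 347) (nat_lit 290) (nat_lit 263)) (XT.lf (nat_lit 0) (nat_lit 201216277103) (nat_lit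 152) (nat_lit 291196232458) (nat_lit 0) (nat_lit 198651205918) (nat_lit 1) (nat_lit 5) (nat_lit 3) (nat_lit 4) (nat_lit 1) (nat_lit 4) (nat_lit 348) (nat_lit 290) (nat_lit 262))) (XT.nd (nat_lit 78) (nat_lit 0) (nat_lit 0) (XT.lf (nat_lit 0) (nat_lit 238503208050) (nat_lit 152) (nat_lit 319688376729) (nat_lit 0) (nat_lit 235931317944) (nat_lit 1) (nat_lit 5) (nat_lit 3) (nat_lit 4) (nat_lit 1) (nat_lit 4) (nat_lit 349) (nat_lit 290) (nat_lit 261)) (XT.lf (nat_lit 0) (nat_lit 281347976808) (nat_lit 152) (nat_lit 352525653015) (nat_lit 0) (nat_lit 278770157207) (nat_lit 1) (nat_lit 5) (nat_lit 3) (nat_lit 4) (nat_lit 1) (nat_lit 4) (nat_lit 350) (nat_lit 290) (nat_lit 260)))))) (XT.nd (nat_lit 546) (nat_lit 0) (nat_lit 0) (XT.nd (nat_lit 234) (nat_lit 0) (nat_lit 0) (XT.nd (nat_lit 78) (nat_lit 0) (nat_lit 0) (XT.lf (nat_lit 0) (nat_lit 330588850592) (nat_lit 152) (nat_lit 390350529767) (nat_lit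 0) (nat_lit 328005874908) (nat_lit 1) (nat_lit 5) (nat_lit 3) (nat_lit 4) (nat_lit 1) (nat_lit 4) (nat_lit 351) (nat_lit 290) (nat_lit 259)) (XT.nd (nat_lit 78) (nat_lit 0) (nat_lit 0) (XT.lf (nat_lit 0) (nat_lit 387189237803) (nat_lit 152) (nat_lit 433903058920) (nat_lit 0) (nat_lit 384601778568) (nat_lit 1) (nat_lit 5) (nat_lit 3) (nat_lit 4) (nat_lit 1) (nat_lit 4) (nat_lit 352) (nat_lit 290) (nat_lit 258)) (XT.lf (nat_lit 0) (nat_lit 452256537321) (nat_lit 152) (nat_lit 484035355175) (nat_lit 0) (nat_lit 449665179345) (nat_lit 1) (nat_lit 5) (nat_lit 3) (nat_lit 4) (nat_lit 1) (nat_lit 4) (nat_lit 353) (nat_lit 290) (nat_lit 257)))) (XT.nd (nat_lit 156) (nat_lit 0) (nat_lit 0) (XT.nd (nat_lit 78) (nat_lit 0) (nat_lit 0) (XT.lf (nat_lit 0) (nat_lit 527063805005) (nat_lit 152) (nat_lit 541728267808) (nat_lit 0) (nat_lit 524469056821) (nat_lit 1) (nat_lit 5) (nat_lit 3) (nat_lit 4) (nat_lit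 1) (nat_lit 4) (nat_lit 354) (nat_lit 290) (nat_lit 256)) (XT.lf (nat_lit 0) (nat_lit 613074661310) (nat_lit 152) (nat_lit 608110571195) (nat_lit 0) (nat_lit 610476965119) (nat_lit 1) (nat_lit 5) (nat_lit 3) (nat_lit 4) (nat_lit 1) (nat_lit 4) (nat_lit 355) (nat_lit 290) (nat_lit 255))) (XT.nd (nat_lit 78) (nat_lit 0) (nat_lit 0) (XT.lf (nat_lit 0) (nat_lit 711971927338) (nat_lit 152) (nat_lit 684481049533) (nat_lit 0) (nat_lit 709371667662) (nat_lit 1) (nat_lit 5) (nat_lit 3) (nat_lit 4) (nat_lit 1) (nat_lit 4) (nat_lit 356) (nat_lit 290) (nat_lit 254)) (XT.lf (nat_lit 0) (nat_lit 825690549599) (nat_lit 152) (nat_lit 772333907833) (nat_lit 0) (nat_lit 823088060806) (nat_lit 1) (nat_lit 5) (nat_lit 3) (nat_lit 4) (nat_lit 1) (nat_lit 4) (nat_lit 357) (nat_lit 290) (nat_lit 253))))) (XT.nd (nat_lit 312) (nat_lit 0) (nat_lit 0) (XT.nd (nat_lit 156) (nat_lit 0) (nat_lit 0) (XT.nd (nat_lit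 78) (nat_lit 0) (nat_lit 0) (XT.lf (nat_lit 0) (nat_lit 956455457658) (nat_lit 152) (nat_lit 873388006366) (nat_lit 0) (nat_lit 953851030502) (nat_lit 1) (nat_lit 5) (nat_lit 3) (nat_lit 4) (nat_lit 1) (nat_lit 4) (nat_lit 358) (nat_lit 290) (nat_lit 252)) (XT.lf (nat_lit 0) (nat_lit 1106825095368) (nat_lit 152) (nat_lit 989620490539) (nat_lit 0) (nat_lit 1104218982679) (nat_lit 1) (nat_lit 5) (nat_lit 3) (nat_lit 4) (nat_lit 1) (nat_lit 4) (nat_lit 359) (nat_lit 290) (nat_lit 251))) (XT.nd (nat_lit 78) (nat_lit 0) (nat_lit 0) (XT.lf (nat_lit 0) (nat_lit 1279741477381) (nat_lit 152) (nat_lit 1123305474172) (nat_lit 0) (nat_lit 1277133899011) (nat_lit 1) (nat_lit 5) (nat_lit 3) (nat_lit 4) (nat_lit 1) (nat_lit 4) (nat_lit 360) (nat_lit 290) (nat_lit 250)) (XT.lf (nat_lit 0) (nat_lit 1478587750301) (nat_lit 152) (nat_lit 1277058533031) (nat_lit 0) (nat_lit 1475978897426) (nat_lit 1) (nat_lit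 5) (nat_lit 3) (nat_lit 4) (nat_lit 1) (nat_lit 4) (nat_lit 361) (nat_lit 290) (nat_lit 249)))) (XT.nd (nat_lit 156) (nat_lit 0) (nat_lit 0) (XT.nd (nat_lit 78) (nat_lit 0) (nat_lit 0) (XT.lf (nat_lit 0) (nat_lit 1707254384685) (nat_lit 152) (nat_lit 1453887879139) (nat_lit 0) (nat_lit 1704644423545) (nat_lit 1) (nat_lit 5) (nat_lit 3) (nat_lit 4) (nat_lit 1) (nat_lit 4) (nat_lit 362) (nat_lit 290) (nat_lit 248)) (XT.lf (nat_lit 0) (nat_lit 1970215292944) (nat_lit 152) (nat_lit 1657253217092) (nat_lit 0) (nat_lit 1967604368096) (nat_lit 1) (nat_lit 5) (nat_lit 3) (nat_lit 4) (nat_lit 1) (nat_lit 4) (nat_lit 363) (nat_lit 290) (nat_lit 247))) (XT.nd (nat_lit 78) (nat_lit 0) (nat_lit 0) (XT.lf (nat_lit 0) (nat_lit 2272615362416) (nat_lit 152) (nat_lit 1891133433938) (nat_lit 0) (nat_lit 2270003599559) (nat_lit 1) (nat_lit 5) (nat_lit 3) (nat_lit 4) (nat_lit 1) (nat_lit 4) (nat_lit 364) (nat_lit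 290) (nat_lit 246)) (XT.lf (nat_lit 0) (nat_lit 2620371116197) (nat_lit 152) (nat_lit 2160104446963) (nat_lit 0) (nat_lit 2617758624638) (nat_lit 1) (nat_lit 5) (nat_lit 3) (nat_lit 4) (nat_lit 1) (nat_lit 4) (nat_lit 365) (nat_lit 290) (nat_lit 245))))))))
noncomputable def xc13 : XT := (XT.nd (nat_lit 44772) (nat_lit 0) (nat_lit 0) (XT.nd (nat_lit 43602) (nat_lit 0) (nat_lit 0) (XT.nd (nat_lit 546) (nat_lit 0) (nat_lit 0) (XT.nd (nat_lit 234) (nat_lit 0) (nat_lit 0) (XT.nd (nat_lit 78) (nat_lit 0) (nat_lit 0) (XT.lf (nat_lit 0) (nat_lit 3020286471209) (nat_lit 152) (nat_lit 2469428732509) (nat_lit 0) (nat_lit 3017673345996) (nat_lit 1) (nat_lit 5) (nat_lit 3) (nat_lit 4) (nat_lit 1) (nat_lit 4) (nat_lit 366) (nat_lit 290) (nat_lit 244)) (XT.nd (nat_lit 78) (nat_lit 0) (nat_lit 0) (XT.lf (nat_lit 0) (nat_lit 3480185858313) (nat_lit 152) (nat_lit 2825158287466) (nat_lit 0) (nat_lit 3477572182096)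 (nat_lit 1) (nat_lit 5) (nat_lit 3) (nat_lit 4) (nat_lit 1) (nat_lit 4) (nat_lit 367) (nat_lit 290) (nat_lit 243)) (XT.lf (nat_lit 0) (nat_lit 4009067308993) (nat_lit 152) (nat_lit 3234253037910) (nat_lit 0) (nat_lit 4006453153643) (nat_lit 1) (nat_lit 5) (nat_lit 3) (nat_lit 4) (nat_lit 1) (nat_lit 4) (nat_lit 368) (nat_lit 290) (nat_lit 242)))) (XT.nd (nat_lit 156) (nat_lit 0) (nat_lit 0) (XT.nd (nat_lit 78) (nat_lit 0) (nat_lit 0) (XT.lf (nat_lit 0) (nat_lit 4617278503808) (nat_lit 152) (nat_lit 3704717011567) (nat_lit 0) (nat_lit 4614663931820) (nat_lit 1) (nat_lit 5) (nat_lit 3) (nat_lit 4) (nat_lit 1) (nat_lit 4) (nat_lit 369) (nat_lit 290) (nat_lit 241)) (XT.lf (nat_lit 0) (nat_lit 5316719227004) (nat_lit 152) (nat_lit 4245754938356) (nat_lit 0) (nat_lit 5314104292722) (nat_lit 1) (nat_lit 5) (nat_lit 3) (nat_lit 4) (nat_lit 1) (nat_lit 4) (nat_lit 370) (nat_lit 290) (nat_lit 240)))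 (XT.nd (nat_lit 78) (nat_lit 0) (nat_lit 0) (XT.lf (nat_lit 0) (nat_lit 6121074188381) (nat_lit 152) (nat_lit 4867952342932) (nat_lit 0) (nat_lit 6118458939061) (nat_lit 1) (nat_lit 5) (nat_lit 3) (nat_lit 4) (nat_lit 1) (nat_lit 4) (nat_lit 371) (nat_lit 290) (nat_lit 239)) (XT.lf (nat_lit 0) (nat_lit 7046080767620) (nat_lit 152) (nat_lit 5583482652777) (nat_lit 0) (nat_lit 7043465244354) (nat_lit 1) (nat_lit 5) (nat_lit 3) (nat_lit 4) (nat_lit 1) (nat_lit 4) (nat_lit 372) (nat_lit 290) (nat_lit 238))))) (XT.nd (nat_lit 42744) (nat_lit 0) (nat_lit 608) (XT.nd (nat_lit 42588) (nat_lit 0) (nat_lit 1064) (XT.lf (nat_lit 0) (nat_lit 8109836919532) (nat_lit 152) (nat_lit 6406345373951) (nat_lit 0) (nat_lit 8107221158051) (nat_lit 1) (nat_lit 5) (nat_lit 3) (nat_lit 4) (nat_lit 1) (nat_lit 4) (nat_lit 373) (nat_lit 290) (nat_lit 237)) (XT.nd (nat_lit 78) (nat_lit 228) (nat_lit 0) (XT.lf (nat_lit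 0) (nat_lit 8013074821) (nat_lit 76) (nat_lit 7494368) (nat_lit 76) (nat_lit 7494368) (nat_lit 18) (nat_lit 4) (nat_lit 19) (nat_lit 5) (nat_lit 19) (nat_lit 4) (nat_lit 318) (nat_lit 291) (nat_lit 291)) (XT.lf (nat_lit 0) (nat_lit 3620879366) (nat_lit 76) (nat_lit 7246967707) (nat_lit 76) (nat_lit 6670105924) (nat_lit 15) (nat_lit 4) (nat_lit 16) (nat_lit 5) (nat_lit 16) (nat_lit 4) (nat_lit 319) (nat_lit 291) (nat_lit 290)))) (XT.nd (nat_lit 156) (nat_lit 228) (nat_lit 0) (XT.nd (nat_lit 78) (nat_lit 76) (nat_lit 0) (XT.lf (nat_lit 0) (nat_lit 3582405988) (nat_lit 152) (nat_lit 13096113526) (nat_lit 0) (nat_lit 2583812725) (nat_lit 13) (nat_lit 5) (nat_lit 15) (nat_lit 4) (nat_lit 13) (nat_lit 4) (nat_lit 320) (nat_lit 291) (nat_lit 289)) (XT.lf (nat_lit 0) (nat_lit 6941189407) (nat_lit 76) (nat_lit 7853806663) (nat_lit 76) (nat_lit 6451333415) (nat_lit 12) (nat_lit 4) (nat_lit 13) (nat_lit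 5) (nat_lit 13) (nat_lit 4) (nat_lit 321) (nat_lit 291) (nat_lit 288))) (XT.nd (nat_lit 78) (nat_lit 76) (nat_lit 0) (XT.lf (nat_lit 0) (nat_lit 3616300502) (nat_lit 152) (nat_lit 17938210836) (nat_lit 0) (nat_lit 1992528988) (nat_lit 10) (nat_lit 5) (nat_lit 12) (nat_lit 4) (nat_lit 10) (nat_lit 4) (nat_lit 322) (nat_lit 291) (nat_lit 287)) (XT.lf (nat_lit 0) (nat_lit 1183522391) (nat_lit 76) (nat_lit 13458120923) (nat_lit 76) (nat_lit 11551579694) (nat_lit 9) (nat_lit 4) (nat_lit 10) (nat_lit 5) (nat_lit 10) (nat_lit 4) (nat_lit 323) (nat_lit 291) (nat_lit 286)))))) (XT.nd (nat_lit 546) (nat_lit 228) (nat_lit 0) (XT.nd (nat_lit 234) (nat_lit 228) (nat_lit 0) (XT.nd (nat_lit 78) (nat_lit 152) (nat_lit 0) (XT.lf (nat_lit 0) (nat_lit 22716647428) (nat_lit 76) (nat_lit 4346424121) (nat_lit 76) (nat_lit 2193996182) (nat_lit 9) (nat_lit 4) (nat_lit 10) (nat_lit 5) (nat_lit 10) (nat_lit 4) (nat_lit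 324) (nat_lit 291) (nat_lit 285)) (XT.nd (nat_lit 78) (nat_lit 0) (nat_lit 0) (XT.lf (nat_lit 0) (nat_lit 7919759280) (nat_lit 152) (nat_lit 19133058848) (nat_lit 0) (nat_lit 5728794031) (nat_lit 7) (nat_lit 5) (nat_lit 9) (nat_lit 4) (nat_lit 7) (nat_lit 4) (nat_lit 325) (nat_lit 291) (nat_lit 284)) (XT.lf (nat_lit 0) (nat_lit 19089352413) (nat_lit 152) (nat_lit 1041280621) (nat_lit 0) (nat_lit 16726233759) (nat_lit 7) (nat_lit 5) (nat_lit 9) (nat_lit 4) (nat_lit 7) (nat_lit 4) (nat_lit 326) (nat_lit 291) (nat_lit 283)))) (XT.nd (nat_lit 156) (nat_lit 152) (nat_lit 0) (XT.nd (nat_lit 78) (nat_lit 0) (nat_lit 0) (XT.lf (nat_lit 0) (nat_lit 19617087053) (nat_lit 76) (nat_lit 12223363021) (nat_lit 76) (nat_lit 9710545753) (nat_lit 6) (nat_lit 4) (nat_lit 7) (nat_lit 5) (nat_lit 7) (nat_lit 4) (nat_lit 327) (nat_lit 291) (nat_lit 282)) (XT.lf (nat_lit 0) (nat_lit 42404285433) (nat_lit 76)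 (nat_lit 3613463963) (nat_lit 76) (nat_lit 970473988) (nat_lit 6) (nat_lit 4) (nat_lit 7) (nat_lit 5) (nat_lit 7) (nat_lit 4) (nat_lit 328) (nat_lit 291) (nat_lit 281))) (XT.nd (nat_lit 78) (nat_lit 0) (nat_lit 0) (XT.lf (nat_lit 0) (nat_lit 8680609169) (nat_lit 152) (nat_lit 38410077581) (nat_lit 0) (nat_lit 6128587285) (nat_lit 4) (nat_lit 5) (nat_lit 6) (nat_lit 4) (nat_lit 4) (nat_lit 4) (nat_lit 329) (nat_lit 291) (nat_lit 280)) (XT.lf (nat_lit 0) (nat_lit 19528946492) (nat_lit 152) (nat_lit 23983711958) (nat_lit 0) (nat_lit 16885786397) (nat_lit 4) (nat_lit 5) (nat_lit 6) (nat_lit 4) (nat_lit 4) (nat_lit 4) (nat_lit 330) (nat_lit 291) (nat_lit 279))))) (XT.nd (nat_lit 312) (nat_lit 152) (nat_lit 0) (XT.nd (nat_lit 156) (nat_lit 0) (nat_lit 0) (XT.nd (nat_lit 78) (nat_lit 76) (nat_lit 0) (XT.lf (nat_lit 0) (nat_lit 31629367880) (nat_lit 152) (nat_lit 8148217383) (nat_lit 0) (nat_lit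 28906957166) (nat_lit 4) (nat_lit 5) (nat_lit 6) (nat_lit 4) (nat_lit 4) (nat_lit 4) (nat_lit 331) (nat_lit 291) (nat_lit 278)) (XT.lf (nat_lit 0) (nat_lit 9901546495) (nat_lit 76) (nat_lit 35555206643) (nat_lit 76) (nat_lit 32763882348) (nat_lit 3) (nat_lit 4) (nat_lit 4) (nat_lit 5) (nat_lit 4) (nat_lit 4) (nat_lit 332) (nat_lit 291) (nat_lit 277))) (XT.nd (nat_lit 78) (nat_lit 0) (nat_lit 0) (XT.lf (nat_lit 0) (nat_lit 30551394385) (nat_lit 76) (nat_lit 30745949043) (nat_lit 76) (nat_lit 27894699895) (nat_lit 3) (nat_lit 4) (nat_lit 4) (nat_lit 5) (nat_lit 4) (nat_lit 4) (nat_lit 333) (nat_lit 291) (nat_lit 276)) (XT.lf (nat_lit 0) (nat_lit 53776274364) (nat_lit 76) (nat_lit 25478504996) (nat_lit 76) (nat_lit 22575147280) (nat_lit 3) (nat_lit 4) (nat_lit 4) (nat_lit 5) (nat_lit 4) (nat_lit 4) (nat_lit 334) (nat_lit 291) (nat_lit 275)))) (XT.nd (nat_lit 156) (nat_lit 152) (nat_lit 0)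 (XT.nd (nat_lit 78) (nat_lit 0) (nat_lit 0) (XT.lf (nat_lit 0) (nat_lit 80030586256) (nat_lit 76) (nat_lit 19649815814) (nat_lit 76) (nat_lit 16701146299) (nat_lit 3) (nat_lit 4) (nat_lit 4) (nat_lit 5) (nat_lit 4) (nat_lit 4) (nat_lit 335) (nat_lit 291) (nat_lit 274)) (XT.lf (nat_lit 0) (nat_lit 109828001381) (nat_lit 76) (nat_lit 13145841926) (nat_lit 76) (nat_lit 10157770847) (nat_lit 3) (nat_lit 4) (nat_lit 4) (nat_lit 5) (nat_lit 4) (nat_lit 4) (nat_lit 336) (nat_lit 291) (nat_lit 273))) (XT.nd (nat_lit 78) (nat_lit 152) (nat_lit 0) (XT.lf (nat_lit 0) (nat_lit 143751512644) (nat_lit 76) (nat_lit 5839331669) (nat_lit 76) (nat_lit 2816998361) (nat_lit 3) (nat_lit 4) (nat_lit 4) (nat_lit 5) (nat_lit 4) (nat_lit 4) (nat_lit 337) (nat_lit 291) (nat_lit 272)) (XT.lf (nat_lit 0) (nat_lit 5454057964) (nat_lit 152) (nat_lit 166473779694) (nat_lit 0) (nat_lit 2628014861) (nat_lit 1) (nat_lit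 5) (nat_lit 3) (nat_lit 4) (nat_lit 1) (nat_lit 4) (nat_lit 338) (nat_lit 291) (nat_lit 271))))))) (XT.nd (nat_lit 1092) (nat_lit 0) (nat_lit 0) (XT.nd (nat_lit 546) (nat_lit 0) (nat_lit 0) (XT.nd (nat_lit 234) (nat_lit 0) (nat_lit 0) (XT.nd (nat_lit 78) (nat_lit 0) (nat_lit 0) (XT.lf (nat_lit 0) (nat_lit 15081373563) (nat_lit 152) (nat_lit 172684913997) (nat_lit 0) (nat_lit 12231342341) (nat_lit 1) (nat_lit 5) (nat_lit 3) (nat_lit 4) (nat_lit 1) (nat_lit 4) (nat_lit 339) (nat_lit 291) (nat_lit 270)) (XT.nd (nat_lit 78) (nat_lit 0) (nat_lit 0) (XT.lf (nat_lit 0) (nat_lit 26028950816) (nat_lit 152) (nat_lit 180078579525) (nat_lit 0) (nat_lit 23158060361) (nat_lit 1) (nat_lit 5) (nat_lit 3) (nat_lit 4) (nat_lit 1) (nat_lit 4) (nat_lit 340) (nat_lit 291) (nat_lit 269)) (XT.lf (nat_lit 0) (nat_lit 38510981452) (nat_lit 152) (nat_lit 188799434951) (nat_lit 0) (nat_lit 35621952533) (nat_lit 1)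 (nat_lit 5) (nat_lit 3) (nat_lit 4) (nat_lit 1) (nat_lit 4) (nat_lit 341) (nat_lit 291) (nat_lit 268)))) (XT.nd (nat_lit 156) (nat_lit 0) (nat_lit 0) (XT.nd (nat_lit 78) (nat_lit 0) (nat_lit 0) (XT.lf (nat_lit 0) (nat_lit 52771679114) (nat_lit 152) (nat_lit 199018105707) (nat_lit 0) (nat_lit 49866877618) (nat_lit 1) (nat_lit 5) (nat_lit 3) (nat_lit 4) (nat_lit 1) (nat_lit 4) (nat_lit 342) (nat_lit 291) (nat_lit 267)) (XT.lf (nat_lit 0) (nat_lit 69090057453) (nat_lit 152) (nat_lit 210934522308) (nat_lit 0) (nat_lit 66171540672) (nat_lit 1) (nat_lit 5) (nat_lit 3) (nat_lit 4) (nat_lit 1) (nat_lit 4) (nat_lit 343) (nat_lit 291) (nat_lit 266))) (XT.nd (nat_lit 78) (nat_lit 0) (nat_lit 0) (XT.lf (nat_lit 0) (nat_lit 87785389086) (nat_lit 152) (nat_lit 224781832036) (nat_lit 0) (nat_lit 84854945971) (nat_lit 1) (nat_lit 5) (nat_lit 3) (nat_lit 4) (nat_lit 1) (nat_lit 4) (nat_lit 344) (nat_lit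 291) (nat_lit 265)) (XT.lf (nat_lit 0) (nat_lit 109223452243) (nat_lit 152) (nat_lit 240830960514) (nat_lit 0) (nat_lit 106282638403) (nat_lit 1) (nat_lit 5) (nat_lit 3) (nat_lit 4) (nat_lit 1) (nat_lit 4) (nat_lit 345) (nat_lit 291) (nat_lit 264))))) (XT.nd (nat_lit 234) (nat_lit 0) (nat_lit 0) (XT.nd (nat_lit 78) (nat_lit 0) (nat_lit 0) (XT.lf (nat_lit 0) (nat_lit 133823687290) (nat_lit 152) (nat_lit 259395912432) (nat_lit 0) (nat_lit 130873855427) (nat_lit 1) (nat_lit 5) (nat_lit 3) (nat_lit 4) (nat_lit 1) (nat_lit 4) (nat_lit 346) (nat_lit 291) (nat_lit 263)) (XT.nd (nat_lit 78) (nat_lit 0) (nat_lit 0) (XT.lf (nat_lit 0) (nat_lit 162067403172) (nat_lit 152) (nat_lit 280839915109) (nat_lit 0) (nat_lit 159109729551) (nat_lit 1) (nat_lit 5) (nat_lit 3) (nat_lit 4) (nat_lit 1) (nat_lit 4) (nat_lit 347) (nat_lit 291) (nat_lit 262)) (XT.lf (nat_lit 0) (nat_lit 194507194331) (nat_lit 152)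 (nat_lit 305582525119) (nat_lit 0) (nat_lit 191542701790) (nat_lit 1) (nat_lit 5) (nat_lit 3) (nat_lit 4) (nat_lit 1) (nat_lit 4) (nat_lit 348) (nat_lit 291) (nat_lit 261)))) (XT.nd (nat_lit 156) (nat_lit 0) (nat_lit 0) (XT.nd (nat_lit 78) (nat_lit 0) (nat_lit 0) (XT.lf (nat_lit 0) (nat_lit 231777752333) (nat_lit 152) (nat_lit 334107837006) (nat_lit 0) (nat_lit 228807330296) (nat_lit 1) (nat_lit 5) (nat_lit 3) (nat_lit 4) (nat_lit 1) (nat_lit 4) (nat_lit 349) (nat_lit 291) (nat_lit 260)) (XT.lf (nat_lit 0) (nat_lit 274608283749) (nat_lit 152) (nat_lit 366973954698) (nat_lit 0) (nat_lit 271632705628) (nat_lit 1) (nat_lit 5) (nat_lit 3) (nat_lit 4) (nat_lit 1) (nat_lit 4) (nat_lit 350) (nat_lit 291) (nat_lit 259))) (XT.nd (nat_lit 78) (nat_lit 0) (nat_lit 0) (XT.lf (nat_lit 0) (nat_lit 323836777235) (nat_lit 152) (nat_lit 404823910933) (nat_lit 0) (nat_lit 320856715563) (nat_lit 1) (nat_lit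 5) (nat_lit 3) (nat_lit 4) (nat_lit 1) (nat_lit 4) (nat_lit 351) (nat_lit 291) (nat_lit 258)) (XT.lf (nat_lit 0) (nat_lit 380426398969) (nat_lit 152) (nat_lit 448398248332) (nat_lit 0) (nat_lit 377442438557) (nat_lit 1) (nat_lit 5) (nat_lit 3) (nat_lit 4) (nat_lit 1) (nat_lit 4) (nat_lit 352) (nat_lit 291) (nat_lit 257)))))) (XT.nd (nat_lit 546) (nat_lit 0) (nat_lit 0) (XT.nd (nat_lit 234) (nat_lit 0) (nat_lit 0) (XT.nd (nat_lit 78) (nat_lit 0) (nat_lit 0) (XT.lf (nat_lit 0) (nat_lit 445484337202) (nat_lit 152) (nat_lit 498549508280) (nat_lit 0) (nat_lit 442496986582) (nat_lit 1) (nat_lit 5) (nat_lit 3) (nat_lit 4) (nat_lit 1) (nat_lit 4) (nat_lit 353) (nat_lit 291) (nat_lit 256)) (XT.nd (nat_lit 78) (nat_lit 0) (nat_lit 0) (XT.lf (nat_lit 0) (nat_lit 520283464639) (nat_lit 152) (nat_lit 556258911079) (nat_lit 0) (nat_lit 517293166011) (nat_lit 1) (nat_lit 5) (nat_lit 3) (nat_lit 4) (nat_lit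 1) (nat_lit 4) (nat_lit 354) (nat_lit 291) (nat_lit 255)) (XT.lf (nat_lit 0) (nat_lit 606287242469) (nat_lit 152) (nat_lit 622655553742) (nat_lit 0) (nat_lit 603294380356) (nat_lit 1) (nat_lit 5) (nat_lit 3) (nat_lit 4) (nat_lit 1) (nat_lit 4) (nat_lit 355) (nat_lit 291) (nat_lit 254)))) (XT.nd (nat_lit 156) (nat_lit 0) (nat_lit 0) (XT.nd (nat_lit 78) (nat_lit 0) (nat_lit 0) (XT.lf (nat_lit 0) (nat_lit 705178353301) (nat_lit 152) (nat_lit 699038501016) (nat_lit 0) (nat_lit 702183262071) (nat_lit 1) (nat_lit 5) (nat_lit 3) (nat_lit 4) (nat_lit 1) (nat_lit 4) (nat_lit 356) (nat_lit 291) (nat_lit 253)) (XT.lf (nat_lit 0) (nat_lit 818891623217) (nat_lit 152) (nat_lit 786902201868) (nat_lit 0) (nat_lit 815894593625) (nat_lit 1) (nat_lit 5) (nat_lit 3) (nat_lit 4) (nat_lit 1) (nat_lit 4) (nat_lit 357) (nat_lit 291) (nat_lit 252))) (XT.nd (nat_lit 78) (nat_lit 0) (nat_lit 0) (XT.lf (nat_lit 0)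 (nat_lit 949651877063) (nat_lit 152) (nat_lit 887965728709) (nat_lit 0) (nat_lit 946653161938) (nat_lit 1) (nat_lit 5) (nat_lit 3) (nat_lit 4) (nat_lit 1) (nat_lit 4) (nat_lit 358) (nat_lit 291) (nat_lit 251)) (XT.lf (nat_lit 0) (nat_lit 1100017467632) (nat_lit 152) (nat_lit 1004206411409) (nat_lit 0) (nat_lit 1097017286826) (nat_lit 1) (nat_lit 5) (nat_lit 3) (nat_lit 4) (nat_lit 1) (nat_lit 4) (nat_lit 359) (nat_lit 291) (nat_lit 250))))) (XT.nd (nat_lit 312) (nat_lit 0) (nat_lit 0) (XT.nd (nat_lit 156) (nat_lit 0) (nat_lit 0) (XT.nd (nat_lit 78) (nat_lit 0) (nat_lit 0) (XT.lf (nat_lit 0) (nat_lit 1272930330391) (nat_lit 152) (nat_lit 1137898524196) (nat_lit 0) (nat_lit 1269928875080) (nat_lit 1) (nat_lit 5) (nat_lit 3) (nat_lit 4) (nat_lit 1) (nat_lit 4) (nat_lit 360) (nat_lit 291) (nat_lit 249)) (XT.lf (nat_lit 0) (nat_lit 1471773543090) (nat_lit 152) (nat_lit 1291657782320) (nat_lit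 0) (nat_lit 1468770979514) (nat_lit 1) (nat_lit 5) (nat_lit 3) (nat_lit 4) (nat_lit 1) (nat_lit 4) (nat_lit 361) (nat_lit 291) (nat_lit 248))) (XT.nd (nat_lit 78) (nat_lit 0) (nat_lit 0) (XT.lf (nat_lit 0) (nat_lit 1700437516413) (nat_lit 152) (nat_lit 1468492519093) (nat_lit 0) (nat_lit 1697433989128) (nat_lit 1) (nat_lit 5) (nat_lit 3) (nat_lit 4) (nat_lit 1) (nat_lit 4) (nat_lit 362) (nat_lit 291) (nat_lit 247)) (XT.lf (nat_lit 0) (nat_lit 1963396110707) (nat_lit 152) (nat_lit 1671862544581) (nat_lit 0) (nat_lit 1960391745414) (nat_lit 1) (nat_lit 5) (nat_lit 3) (nat_lit 4) (nat_lit 1) (nat_lit 4) (nat_lit 363) (nat_lit 291) (nat_lit 246)))) (XT.nd (nat_lit 156) (nat_lit 0) (nat_lit 0) (XT.nd (nat_lit 78) (nat_lit 0) (nat_lit 0) (XT.lf (nat_lit 0) (nat_lit 2265794168033) (nat_lit 152) (nat_lit 1905746837544) (nat_lit 0) (nat_lit 2262789074038) (nat_lit 1) (nat_lit 5) (nat_lit 3) (nat_lit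 4) (nat_lit 1) (nat_lit 4) (nat_lit 364) (nat_lit 291) (nat_lit 245)) (XT.lf (nat_lit 0) (nat_lit 2613548172123) (nat_lit 152) (nat_lit 2174721395019) (nat_lit 0) (nat_lit 2610542444474) (nat_lit 1) (nat_lit 5) (nat_lit 3) (nat_lit 4) (nat_lit 1) (nat_lit 4) (nat_lit 365) (nat_lit 291) (nat_lit 244))) (XT.nd (nat_lit 78) (nat_lit 0) (nat_lit 0) (XT.lf (nat_lit 0) (nat_lit 3013462005666) (nat_lit 152) (nat_lit 2484048762694) (nat_lit 0) (nat_lit 3010455727013) (nat_lit 1) (nat_lit 5) (nat_lit 3) (nat_lit 4) (nat_lit 1) (nat_lit 4) (nat_lit 366) (nat_lit 291) (nat_lit 243)) (XT.lf (nat_lit 0) (nat_lit 3473360069751) (nat_lit 152) (nat_lit 2839780997765) (nat_lit 0) (nat_lit 3470353311965) (nat_lit 1) (nat_lit 5) (nat_lit 3) (nat_lit 4) (nat_lit 1) (nat_lit 4) (nat_lit 367) (nat_lit 291) (nat_lit 242))))))))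
noncomputable def xc14 : XT := (XT.nd (nat_lit 44616) (nat_lit 0) (nat_lit 0) (XT.nd (nat_lit 43446) (nat_lit 0) (nat_lit 152) (XT.nd (nat_lit 42900) (nat_lit 0) (nat_lit 684) (XT.nd (nat_lit 234) (nat_lit 0) (nat_lit 0) (XT.nd (nat_lit 78) (nat_lit 0) (nat_lit 0) (XT.lf (nat_lit 0) (nat_lit 4002240369982) (nat_lit 152) (nat_lit 3248878078742) (nat_lit 0) (nat_lit 3999233195557) (nat_lit 1) (nat_lit 5) (nat_lit 3) (nat_lit 4) (nat_lit 1) (nat_lit 4) (nat_lit 368) (nat_lit 291) (nat_lit 241)) (XT.nd (nat_lit 78) (nat_lit 0) (nat_lit 0) (XT.lf (nat_lit 0) (nat_lit 4610450564405) (nat_lit 152) (nat_lit 3719344078949) (nat_lit 0) (nat_lit 4607443027687) (nat_lit 1) (nat_lit 5) (nat_lit 3) (nat_lit 4) (nat_lit 1) (nat_lit 4) (nat_lit 369) (nat_lit 291) (nat_lit 240)) (XT.lf (nat_lit 0) (nat_lit 5309890417695) (nat_lit 152) (nat_lit 4260383767957) (nat_lit 0) (nat_lit 5306882565939) (nat_lit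 1) (nat_lit 5) (nat_lit 3) (nat_lit 4) (nat_lit 1) (nat_lit 4) (nat_lit 370) (nat_lit 291) (nat_lit 239)))) (XT.nd (nat_lit 156) (nat_lit 0) (nat_lit 0) (XT.nd (nat_lit 78) (nat_lit 0) (nat_lit 0) (XT.lf (nat_lit 0) (nat_lit 6114244622633) (nat_lit 152) (nat_lit 4882582704897) (nat_lit 0) (nat_lit 6111236496930) (nat_lit 1) (nat_lit 5) (nat_lit 3) (nat_lit 4) (nat_lit 1) (nat_lit 4) (nat_lit 371) (nat_lit 291) (nat_lit 238)) (XT.lf (nat_lit 0) (nat_lit 7039250544098) (nat_lit 152) (nat_lit 5598114347231) (nat_lit 0) (nat_lit 7036242180182) (nat_lit 1) (nat_lit 5) (nat_lit 3) (nat_lit 4) (nat_lit 1) (nat_lit 4) (nat_lit 372) (nat_lit 291) (nat_lit 237))) (XT.nd (nat_lit 42432) (nat_lit 0) (nat_lit 1520) (XT.lf (nat_lit 0) (nat_lit 8103006124033) (nat_lit 152) (nat_lit 6420978227092) (nat_lit 0) (nat_lit 8099997552973) (nat_lit 1) (nat_lit 5) (nat_lit 3) (nat_lit 4) (nat_lit 1) (nat_lit 4)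 (nat_lit 373) (nat_lit 291) (nat_lit 236)) (XT.lf (nat_lit 0) (nat_lit 2399771195) (nat_lit 76) (nat_lit 2198323084) (nat_lit 76) (nat_lit 2198323084) (nat_lit 21) (nat_lit 4) (nat_lit 22) (nat_lit 5) (nat_lit 22) (nat_lit 4) (nat_lit 316) (nat_lit 292) (nat_lit 292))))) (XT.nd (nat_lit 234) (nat_lit 380) (nat_lit 0) (XT.nd (nat_lit 78) (nat_lit 304) (nat_lit 0) (XT.lf (nat_lit 0) (nat_lit 5444380169) (nat_lit 152) (nat_lit 4579968763) (nat_lit 0) (nat_lit 4727917835) (nat_lit 19) (nat_lit 5) (nat_lit 21) (nat_lit 4) (nat_lit 19) (nat_lit 4) (nat_lit 317) (nat_lit 292) (nat_lit 291)) (XT.nd (nat_lit 78) (nat_lit 152) (nat_lit 0) (XT.lf (nat_lit 0) (nat_lit 179653802) (nat_lit 152) (nat_lit 965793150) (nat_lit 76) (nat_lit 14948396924) (nat_lit 17) (nat_lit 5) (nat_lit 19) (nat_lit 5) (nat_lit 18) (nat_lit 4) (nat_lit 318) (nat_lit 292) (nat_lit 290)) (XT.lf (nat_lit 0) (nat_lit 1658251180)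 (nat_lit 76) (nat_lit 8851755751) (nat_lit 76) (nat_lit 7109883977) (nat_lit 15) (nat_lit 4) (nat_lit 16) (nat_lit 5) (nat_lit 16) (nat_lit 4) (nat_lit 319) (nat_lit 292) (nat_lit 289)))) (XT.nd (nat_lit 156) (nat_lit 152) (nat_lit 0) (XT.nd (nat_lit 78) (nat_lit 76) (nat_lit 0) (XT.lf (nat_lit 0) (nat_lit 2618435063) (nat_lit 152) (nat_lit 16168755425) (nat_lit 0) (nat_lit 601710843) (nat_lit 13) (nat_lit 5) (nat_lit 15) (nat_lit 4) (nat_lit 13) (nat_lit 4) (nat_lit 320) (nat_lit 292) (nat_lit 288)) (XT.lf (nat_lit 0) (nat_lit 2896795704) (nat_lit 76) (nat_lit 10441751635) (nat_lit 76) (nat_lit 8073827428) (nat_lit 12) (nat_lit 4) (nat_lit 13) (nat_lit 5) (nat_lit 13) (nat_lit 4) (nat_lit 321) (nat_lit 292) (nat_lit 287))) (XT.nd (nat_lit 78) (nat_lit 0) (nat_lit 0) (XT.lf (nat_lit 0) (nat_lit 510260531) (nat_lit 76) (nat_lit 1020304868) (nat_lit 152) (nat_lit 22229257048) (nat_lit 10)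 (nat_lit 5) (nat_lit 11) (nat_lit 5) (nat_lit 12) (nat_lit 4) (nat_lit 322) (nat_lit 292) (nat_lit 286)) (XT.lf (nat_lit 0) (nat_lit 12157392219) (nat_lit 152) (nat_lit 4844335393) (nat_lit 0) (nat_lit 9436213381) (nat_lit 10) (nat_lit 5) (nat_lit 12) (nat_lit 4) (nat_lit 10) (nat_lit 4) (nat_lit 323) (nat_lit 292) (nat_lit 285)))))) (XT.nd (nat_lit 546) (nat_lit 76) (nat_lit 0) (XT.nd (nat_lit 234) (nat_lit 228) (nat_lit 0) (XT.nd (nat_lit 78) (nat_lit 152) (nat_lit 0) (XT.lf (nat_lit 0) (nat_lit 15809569448) (nat_lit 76) (nat_lit 8331152491) (nat_lit 76) (nat_lit 5396159123) (nat_lit 9) (nat_lit 4) (nat_lit 10) (nat_lit 5) (nat_lit 10) (nat_lit 4) (nat_lit 324) (nat_lit 292) (nat_lit 284)) (XT.nd (nat_lit 78) (nat_lit 0) (nat_lit 0) (XT.lf (nat_lit 0) (nat_lit 4292678631) (nat_lit 152) (nat_lit 27418815501) (nat_lit 0) (nat_lit 1402938773) (nat_lit 7) (nat_lit 5) (nat_lit 9) (nat_lit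 4) (nat_lit 7) (nat_lit 4) (nat_lit 325) (nat_lit 292) (nat_lit 283)) (XT.lf (nat_lit 0) (nat_lit 15199143459) (nat_lit 152) (nat_lit 9851922590) (nat_lit 0) (nat_lit 12159704987) (nat_lit 7) (nat_lit 5) (nat_lit 9) (nat_lit 4) (nat_lit 7) (nat_lit 4) (nat_lit 326) (nat_lit 292) (nat_lit 282)))) (XT.nd (nat_lit 156) (nat_lit 152) (nat_lit 0) (XT.nd (nat_lit 78) (nat_lit 0) (nat_lit 0) (XT.lf (nat_lit 0) (nat_lit 9862035902) (nat_lit 76) (nat_lit 17624788779) (nat_lit 76) (nat_lit 14455177600) (nat_lit 6) (nat_lit 4) (nat_lit 7) (nat_lit 5) (nat_lit 7) (nat_lit 4) (nat_lit 327) (nat_lit 292) (nat_lit 281)) (XT.lf (nat_lit 0) (nat_lit 32231446118) (nat_lit 76) (nat_lit 9223667268) (nat_lit 76) (nat_lit 5940862430) (nat_lit 6) (nat_lit 4) (nat_lit 7) (nat_lit 5) (nat_lit 7) (nat_lit 4) (nat_lit 328) (nat_lit 292) (nat_lit 280))) (XT.nd (nat_lit 78) (nat_lit 0) (nat_lit 0) (XT.lf (nat_lit 0)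 (nat_lit 3348443125) (nat_lit 152) (nat_lit 50119329132) (nat_lit 0) (nat_lit 217670805) (nat_lit 4) (nat_lit 5) (nat_lit 6) (nat_lit 4) (nat_lit 4) (nat_lit 4) (nat_lit 329) (nat_lit 292) (nat_lit 279)) (XT.lf (nat_lit 0) (nat_lit 14022284386) (nat_lit 152) (nat_lit 36044045319) (nat_lit 0) (nat_lit 10812261447) (nat_lit 4) (nat_lit 5) (nat_lit 6) (nat_lit 4) (nat_lit 4) (nat_lit 4) (nat_lit 330) (nat_lit 292) (nat_lit 278))))) (XT.nd (nat_lit 312) (nat_lit 0) (nat_lit 0) (XT.nd (nat_lit 156) (nat_lit 76) (nat_lit 0) (XT.nd (nat_lit 78) (nat_lit 0) (nat_lit 0) (XT.lf (nat_lit 0) (nat_lit 25970970067) (nat_lit 152) (nat_lit 20513839274) (nat_lit 0) (nat_lit 22692033547) (nat_lit 4) (nat_lit 5) (nat_lit 6) (nat_lit 4) (nat_lit 4) (nat_lit 4) (nat_lit 331) (nat_lit 292) (nat_lit 277)) (XT.lf (nat_lit 0) (nat_lit 39428278802) (nat_lit 152) (nat_lit 3224859140) (nat_lit 0) (nat_lit 36089417428)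 (nat_lit 4) (nat_lit 5) (nat_lit 6) (nat_lit 4) (nat_lit 4) (nat_lit 4) (nat_lit 332) (nat_lit 292) (nat_lit 276))) (XT.nd (nat_lit 78) (nat_lit 0) (nat_lit 0) (XT.lf (nat_lit 0) (nat_lit 17012175663) (nat_lit 76) (nat_lit 38054473332) (nat_lit 76) (nat_lit 34663503389) (nat_lit 3) (nat_lit 4) (nat_lit 4) (nat_lit 5) (nat_lit 4) (nat_lit 4) (nat_lit 333) (nat_lit 292) (nat_lit 275)) (XT.lf (nat_lit 0) (nat_lit 40025753277) (nat_lit 76) (nat_lit 32893481132) (nat_lit 76) (nat_lit 29457199391) (nat_lit 3) (nat_lit 4) (nat_lit 4) (nat_lit 5) (nat_lit 4) (nat_lit 4) (nat_lit 334) (nat_lit 292) (nat_lit 274)))) (XT.nd (nat_lit 156) (nat_lit 0) (nat_lit 0) (XT.nd (nat_lit 78) (nat_lit 0) (nat_lit 0) (XT.lf (nat_lit 0) (nat_lit 66096323983) (nat_lit 76) (nat_lit 27157358774) (nat_lit 76) (nat_lit 23681675469) (nat_lit 3) (nat_lit 4) (nat_lit 4) (nat_lit 5) (nat_lit 4) (nat_lit 4) (nat_lit 335)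 (nat_lit 292) (nat_lit 273)) (XT.lf (nat_lit 0) (nat_lit 95733964163) (nat_lit 76) (nat_lit 20733877776) (nat_lit 76) (nat_lit 17223932242) (nat_lit 3) (nat_lit 4) (nat_lit 4) (nat_lit 5) (nat_lit 4) (nat_lit 4) (nat_lit 336) (nat_lit 292) (nat_lit 272))) (XT.nd (nat_lit 78) (nat_lit 0) (nat_lit 0) (XT.lf (nat_lit 0) (nat_lit 129518540692) (nat_lit 76) (nat_lit 13497361337) (nat_lit 76) (nat_lit 9957622560) (nat_lit 3) (nat_lit 4) (nat_lit 4) (nat_lit 5) (nat_lit 4) (nat_lit 4) (nat_lit 337) (nat_lit 292) (nat_lit 271)) (XT.lf (nat_lit 0) (nat_lit 168111056152) (nat_lit 76) (nat_lit 5306225438) (nat_lit 76) (nat_lit 1740579493) (nat_lit 3) (nat_lit 4) (nat_lit 4) (nat_lit 5) (nat_lit 4) (nat_lit 4) (nat_lit 338) (nat_lit 292) (nat_lit 270))))))) (XT.nd (nat_lit 1092) (nat_lit 0) (nat_lit 0) (XT.nd (nat_lit 546) (nat_lit 0) (nat_lit 0) (XT.nd (nat_lit 234) (nat_lit 0) (nat_lit 0) (XT.nd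 (nat_lit 78) (nat_lit 0) (nat_lit 0) (XT.lf (nat_lit 0) (nat_lit 7605560203) (nat_lit 152) (nat_lit 188743714564) (nat_lit 0) (nat_lit 4283176947) (nat_lit 1) (nat_lit 5) (nat_lit 3) (nat_lit 4) (nat_lit 1) (nat_lit 4) (nat_lit 339) (nat_lit 292) (nat_lit 269)) (XT.nd (nat_lit 78) (nat_lit 0) (nat_lit 0) (XT.lf (nat_lit 0) (nat_lit 18503052245) (nat_lit 152) (nat_lit 196238840589) (nat_lit 0) (nat_lit 15162530524) (nat_lit 1) (nat_lit 5) (nat_lit 3) (nat_lit 4) (nat_lit 1) (nat_lit 4) (nat_lit 340) (nat_lit 292) (nat_lit 268)) (XT.lf (nat_lit 0) (nat_lit 30941530523) (nat_lit 152) (nat_lit 205047922535) (nat_lit 0) (nat_lit 27585236226) (nat_lit 1) (nat_lit 5) (nat_lit 3) (nat_lit 4) (nat_lit 1) (nat_lit 4) (nat_lit 341) (nat_lit 292) (nat_lit 267)))) (XT.nd (nat_lit 156) (nat_lit 0) (nat_lit 0) (XT.nd (nat_lit 78) (nat_lit 0) (nat_lit 0) (XT.lf (nat_lit 0) (nat_lit 45164356570) (nat_lit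 152) (nat_lit 215343312003) (nat_lit 0) (nat_lit 41794346988) (nat_lit 1) (nat_lit 5) (nat_lit 3) (nat_lit 4) (nat_lit 1) (nat_lit 4) (nat_lit 342) (nat_lit 292) (nat_lit 266)) (XT.lf (nat_lit 0) (nat_lit 61449803068) (nat_lit 152) (nat_lit 227326440528) (nat_lit 0) (nat_lit 58067867152) (nat_lit 1) (nat_lit 5) (nat_lit 3) (nat_lit 4) (nat_lit 1) (nat_lit 4) (nat_lit 343) (nat_lit 292) (nat_lit 265))) (XT.nd (nat_lit 78) (nat_lit 0) (nat_lit 0) (XT.lf (nat_lit 0) (nat_lit 80116498320) (nat_lit 152) (nat_lit 241231760624) (nat_lit 0) (nat_lit 76724191678) (nat_lit 1) (nat_lit 5) (nat_lit 3) (nat_lit 4) (nat_lit 1) (nat_lit 4) (nat_lit 344) (nat_lit 292) (nat_lit 264)) (XT.lf (nat_lit 0) (nat_lit 101529660275) (nat_lit 152) (nat_lit 257331332901) (nat_lit 0) (nat_lit 98128335611) (nat_lit 1) (nat_lit 5) (nat_lit 3) (nat_lit 4) (nat_lit 1) (nat_lit 4) (nat_lit 345) (nat_lit 292) (nat_lit 263)))))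 (XT.nd (nat_lit 234) (nat_lit 0) (nat_lit 0) (XT.nd (nat_lit 78) (nat_lit 0) (nat_lit 0) (XT.lf (nat_lit 0) (nat_lit 126108242102) (nat_lit 152) (nat_lit 275940148992) (nat_lit 0) (nat_lit 122699075679) (nat_lit 1) (nat_lit 5) (nat_lit 3) (nat_lit 4) (nat_lit 1) (nat_lit 4) (nat_lit 346) (nat_lit 292) (nat_lit 262)) (XT.nd (nat_lit 78) (nat_lit 0) (nat_lit 0) (XT.lf (nat_lit 0) (nat_lit 154333129098) (nat_lit 152) (nat_lit 297422294427) (nat_lit 0) (nat_lit 150917143755) (nat_lit 1) (nat_lit 5) (nat_lit 3) (nat_lit 4) (nat_lit 1) (nat_lit 4) (nat_lit 347) (nat_lit 292) (nat_lit 261)) (XT.lf (nat_lit 0) (nat_lit 186756547313) (nat_lit 152) (nat_lit 322198072054) (nat_lit 0) (nat_lit 183334632474) (nat_lit 1) (nat_lit 5) (nat_lit 3) (nat_lit 4) (nat_lit 1) (nat_lit 4) (nat_lit 348) (nat_lit 292) (nat_lit 260)))) (XT.nd (nat_lit 156) (nat_lit 0) (nat_lit 0) (XT.nd (nat_lit 78) (nat_lit 0)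 (nat_lit 0) (XT.lf (nat_lit 0) (nat_lit 224012867972) (nat_lit 152) (nat_lit 350752225346) (nat_lit 0) (nat_lit 220585797050) (nat_lit 1) (nat_lit 5) (nat_lit 3) (nat_lit 4) (nat_lit 1) (nat_lit 4) (nat_lit 349) (nat_lit 292) (nat_lit 259)) (XT.lf (nat_lit 0) (nat_lit 266831019089) (nat_lit 152) (nat_lit 383643422522) (nat_lit 0) (nat_lit 263399464616) (nat_lit 1) (nat_lit 5) (nat_lit 3) (nat_lit 4) (nat_lit 1) (nat_lit 4) (nat_lit 350) (nat_lit 292) (nat_lit 258))) (XT.nd (nat_lit 78) (nat_lit 0) (nat_lit 0) (XT.lf (nat_lit 0) (nat_lit 316048747098) (nat_lit 152) (nat_lit 421515187003) (nat_lit 0) (nat_lit 312613293885) (nat_lit 1) (nat_lit 5) (nat_lit 3) (nat_lit 4) (nat_lit 1) (nat_lit 4) (nat_lit 351) (nat_lit 292) (nat_lit 257)) (XT.lf (nat_lit 0) (nat_lit 372629007548) (nat_lit 152) (nat_lit 465108488094) (nat_lit 0) (nat_lit 369190164127) (nat_lit 1) (nat_lit 5) (nat_lit 3) (nat_lit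 4) (nat_lit 1) (nat_lit 4) (nat_lit 352) (nat_lit 292) (nat_lit 256)))))) (XT.nd (nat_lit 546) (nat_lit 0) (nat_lit 0) (XT.nd (nat_lit 234) (nat_lit 0) (nat_lit 0) (XT.nd (nat_lit 78) (nat_lit 0) (nat_lit 0) (XT.lf (nat_lit 0) (nat_lit 437678805534) (nat_lit 152) (nat_lit 515276238209) (nat_lit 0) (nat_lit 434237014105) (nat_lit 1) (nat_lit 5) (nat_lit 3) (nat_lit 4) (nat_lit 1) (nat_lit 4) (nat_lit 353) (nat_lit 292) (nat_lit 255)) (XT.nd (nat_lit 78) (nat_lit 0) (nat_lit 0) (XT.lf (nat_lit 0) (nat_lit 512470854496) (nat_lit 152) (nat_lit 572999980285) (nat_lit 0) (nat_lit 509026499582) (nat_lit 1) (nat_lit 5) (nat_lit 3) (nat_lit 4) (nat_lit 1) (nat_lit 4) (nat_lit 354) (nat_lit 292) (nat_lit 254)) (XT.lf (nat_lit 0) (nat_lit 598468477129) (nat_lit 152) (nat_lit 639409091883) (nat_lit 0) (nat_lit 595021893098) (nat_lit 1) (nat_lit 5) (nat_lit 3) (nat_lit 4) (nat_lit 1) (nat_lit 4) (nat_lit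 355) (nat_lit 292) (nat_lit 253)))) (XT.nd (nat_lit 156) (nat_lit 0) (nat_lit 0) (XT.nd (nat_lit 78) (nat_lit 0) (nat_lit 0) (XT.lf (nat_lit 0) (nat_lit 697354235617) (nat_lit 152) (nat_lit 715802881709) (nat_lit 0) (nat_lit 693905713223) (nat_lit 1) (nat_lit 5) (nat_lit 3) (nat_lit 4) (nat_lit 1) (nat_lit 4) (nat_lit 356) (nat_lit 292) (nat_lit 252)) (XT.lf (nat_lit 0) (nat_lit 811062851320) (nat_lit 152) (nat_lit 803676010869) (nat_lit 0) (nat_lit 807612643393) (nat_lit 1) (nat_lit 5) (nat_lit 3) (nat_lit 4) (nat_lit 1) (nat_lit 4) (nat_lit 357) (nat_lit 292) (nat_lit 251))) (XT.nd (nat_lit 78) (nat_lit 0) (nat_lit 0) (XT.lf (nat_lit 0) (nat_lit 941819058025) (nat_lit 152) (nat_lit 904747736236) (nat_lit 0) (nat_lit 938367384417) (nat_lit 1) (nat_lit 5) (nat_lit 3) (nat_lit 4) (nat_lit 1) (nat_lit 4) (nat_lit 358) (nat_lit 292) (nat_lit 250)) (XT.lf (nat_lit 0) (nat_lit 1092181129340)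 (nat_lit 152) (nat_lit 1020995548091) (nat_lit 0) (nat_lit 1088728181228) (nat_lit 1) (nat_lit 5) (nat_lit 3) (nat_lit 4) (nat_lit 1) (nat_lit 4) (nat_lit 359) (nat_lit 292) (nat_lit 249))))) (XT.nd (nat_lit 312) (nat_lit 0) (nat_lit 0) (XT.nd (nat_lit 156) (nat_lit 0) (nat_lit 0) (XT.nd (nat_lit 78) (nat_lit 0) (nat_lit 0) (XT.lf (nat_lit 0) (nat_lit 1265090931879) (nat_lit 152) (nat_lit 1154693860143) (nat_lit 0) (nat_lit 1261636875501) (nat_lit 1) (nat_lit 5) (nat_lit 3) (nat_lit 4) (nat_lit 1) (nat_lit 4) (nat_lit 360) (nat_lit 292) (nat_lit 248)) (XT.lf (nat_lit 0) (nat_lit 1463931483517) (nat_lit 152) (nat_lit 1308458508932) (nat_lit 0) (nat_lit 1460476463430) (nat_lit 1) (nat_lit 5) (nat_lit 3) (nat_lit 4) (nat_lit 1) (nat_lit 4) (nat_lit 361) (nat_lit 292) (nat_lit 247))) (XT.nd (nat_lit 78) (nat_lit 0) (nat_lit 0) (XT.lf (nat_lit 0) (nat_lit 1692593142873) (nat_lit 152) (nat_lit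 1485297933240) (nat_lit 0) (nat_lit 1689137284779) (nat_lit 1) (nat_lit 5) (nat_lit 3) (nat_lit 4) (nat_lit 1) (nat_lit 4) (nat_lit 362) (nat_lit 292) (nat_lit 246)) (XT.lf (nat_lit 0) (nat_lit 1955549725022) (nat_lit 152) (nat_lit 1688672034845) (nat_lit 0) (nat_lit 1952093138226) (nat_lit 1) (nat_lit 5) (nat_lit 3) (nat_lit 4) (nat_lit 1) (nat_lit 4) (nat_lit 363) (nat_lit 292) (nat_lit 245)))) (XT.nd (nat_lit 156) (nat_lit 0) (nat_lit 0) (XT.nd (nat_lit 78) (nat_lit 0) (nat_lit 0) (XT.lf (nat_lit 0) (nat_lit 2257946032658) (nat_lit 152) (nat_lit 1922559872258) (nat_lit 0) (nat_lit 2254488812207) (nat_lit 1) (nat_lit 5) (nat_lit 3) (nat_lit 4) (nat_lit 1) (nat_lit 4) (nat_lit 364) (nat_lit 292) (nat_lit 244)) (XT.lf (nat_lit 0) (nat_lit 2605698515278) (nat_lit 152) (nat_lit 2191537511862) (nat_lit 0) (nat_lit 2602240743823) (nat_lit 1) (nat_lit 5) (nat_lit 3) (nat_lit 4) (nat_lit 1) (nat_lit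 4) (nat_lit 365) (nat_lit 292) (nat_lit 243))) (XT.nd (nat_lit 78) (nat_lit 0) (nat_lit 0) (XT.lf (nat_lit 0) (nat_lit 3005611025802) (nat_lit 152) (nat_lit 2500867559651) (nat_lit 0) (nat_lit 3002152775214) (nat_lit 1) (nat_lit 5) (nat_lit 3) (nat_lit 4) (nat_lit 1) (nat_lit 4) (nat_lit 366) (nat_lit 292) (nat_lit 242)) (XT.lf (nat_lit 0) (nat_lit 3465507939438) (nat_lit 152) (nat_lit 2856602125255) (nat_lit 0) (nat_lit 3462049272212) (nat_lit 1) (nat_lit 5) (nat_lit 3) (nat_lit 4) (nat_lit 1) (nat_lit 4) (nat_lit 367) (nat_lit 292) (nat_lit 241))))))))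
noncomputable def xc15 : XT := (XT.nd (nat_lit 44538) (nat_lit 0) (nat_lit 0) (XT.nd (nat_lit 43368) (nat_lit 0) (nat_lit 152) (XT.nd (nat_lit 42822) (nat_lit 0) (nat_lit 836) (XT.nd (nat_lit 234) (nat_lit 0) (nat_lit 0) (XT.nd (nat_lit 78) (nat_lit 0) (nat_lit 0) (XT.lf (nat_lit 0) (nat_lit 3994387239277) (nat_lit 152) (nat_lit 3265701232782) (nat_lit 0) (nat_lit 3990928209757) (nat_lit 1) (nat_lit 5) (nat_lit 3) (nat_lit 4) (nat_lit 1) (nat_lit 4) (nat_lit 368) (nat_lit 292) (nat_lit 240)) (XT.nd (nat_lit 78) (nat_lit 0) (nat_lit 0) (XT.lf (nat_lit 0) (nat_lit 4602596563794) (nat_lit 152) (nat_lit 3736168995208) (nat_lit 0) (nat_lit 4599137219236) (nat_lit 1) (nat_lit 5) (nat_lit 3) (nat_lit 4) (nat_lit 1) (nat_lit 4) (nat_lit 369) (nat_lit 292) (nat_lit 239)) (XT.lf (nat_lit 0) (nat_lit 5302035660645) (nat_lit 152) (nat_lit 4277210216579) (nat_lit 0) (nat_lit 5298576042140) (nat_lit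 1) (nat_lit 5) (nat_lit 3) (nat_lit 4) (nat_lit 1) (nat_lit 4) (nat_lit 370) (nat_lit 292) (nat_lit 238)))) (XT.nd (nat_lit 42432) (nat_lit 0) (nat_lit 1672) (XT.nd (nat_lit 78) (nat_lit 0) (nat_lit 0) (XT.lf (nat_lit 0) (nat_lit 6106389207809) (nat_lit 152) (nat_lit 4899410486008) (nat_lit 0) (nat_lit 6102929351091) (nat_lit 1) (nat_lit 5) (nat_lit 3) (nat_lit 4) (nat_lit 1) (nat_lit 4) (nat_lit 371) (nat_lit 292) (nat_lit 237)) (XT.lf (nat_lit 0) (nat_lit 7031394557297) (nat_lit 152) (nat_lit 5614943287029) (nat_lit 0) (nat_lit 7027934493436) (nat_lit 1) (nat_lit 5) (nat_lit 3) (nat_lit 4) (nat_lit 1) (nat_lit 4) (nat_lit 372) (nat_lit 292) (nat_lit 236))) (XT.nd (nat_lit 78) (nat_lit 228) (nat_lit 0) (XT.lf (nat_lit 0) (nat_lit 1490302527) (nat_lit 152) (nat_lit 2855431699) (nat_lit 0) (nat_lit 1490302527) (nat_lit 26) (nat_lit 5) (nat_lit 28) (nat_lit 4) (nat_lit 26) (nat_lit 4) (nat_lit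 314) (nat_lit 293) (nat_lit 293)) (XT.lf (nat_lit 0) (nat_lit 67650125) (nat_lit 228) (nat_lit 820321655) (nat_lit 76) (nat_lit 11702904655) (nat_lit 23) (nat_lit 5) (nat_lit 26) (nat_lit 5) (nat_lit 24) (nat_lit 4) (nat_lit 315) (nat_lit 293) (nat_lit 292))))) (XT.nd (nat_lit 234) (nat_lit 456) (nat_lit 0) (XT.nd (nat_lit 78) (nat_lit 228) (nat_lit 0) (XT.lf (nat_lit 0) (nat_lit 3927394998) (nat_lit 76) (nat_lit 5683619340) (nat_lit 76) (nat_lit 4019993801) (nat_lit 21) (nat_lit 4) (nat_lit 22) (nat_lit 5) (nat_lit 22) (nat_lit 4) (nat_lit 316) (nat_lit 293) (nat_lit 291)) (XT.nd (nat_lit 78) (nat_lit 76) (nat_lit 0) (XT.lf (nat_lit 0) (nat_lit 5294796668) (nat_lit 152) (nat_lit 6404256744) (nat_lit 0) (nat_lit 3131391925) (nat_lit 19) (nat_lit 5) (nat_lit 21) (nat_lit 4) (nat_lit 19) (nat_lit 4) (nat_lit 317) (nat_lit 293) (nat_lit 290)) (XT.lf (nat_lit 0) (nat_lit 12435926799) (nat_lit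 76) (nat_lit 3239210522) (nat_lit 76) (nat_lit 534057322) (nat_lit 18) (nat_lit 4) (nat_lit 19) (nat_lit 5) (nat_lit 19) (nat_lit 4) (nat_lit 318) (nat_lit 293) (nat_lit 289)))) (XT.nd (nat_lit 156) (nat_lit 152) (nat_lit 0) (XT.nd (nat_lit 78) (nat_lit 152) (nat_lit 0) (XT.lf (nat_lit 0) (nat_lit 9265908677) (nat_lit 152) (nat_lit 2190078772) (nat_lit 0) (nat_lit 6324946813) (nat_lit 16) (nat_lit 5) (nat_lit 18) (nat_lit 4) (nat_lit 16) (nat_lit 4) (nat_lit 319) (nat_lit 293) (nat_lit 288)) (XT.lf (nat_lit 0) (nat_lit 765055237) (nat_lit 152) (nat_lit 1728942956) (nat_lit 76) (nat_lit 17100210277) (nat_lit 14) (nat_lit 5) (nat_lit 16) (nat_lit 5) (nat_lit 15) (nat_lit 4) (nat_lit 320) (nat_lit 293) (nat_lit 287))) (XT.nd (nat_lit 78) (nat_lit 76) (nat_lit 0) (XT.lf (nat_lit 0) (nat_lit 10966950276) (nat_lit 152) (nat_lit 3105010646) (nat_lit 0) (nat_lit 7587246158) (nat_lit 13) (nat_lit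 5) (nat_lit 15) (nat_lit 4) (nat_lit 13) (nat_lit 4) (nat_lit 321) (nat_lit 293) (nat_lit 286)) (XT.lf (nat_lit 0) (nat_lit 17509301531) (nat_lit 76) (nat_lit 5089052261) (nat_lit 76) (nat_lit 1443790498) (nat_lit 12) (nat_lit 4) (nat_lit 13) (nat_lit 5) (nat_lit 13) (nat_lit 4) (nat_lit 322) (nat_lit 293) (nat_lit 285)))))) (XT.nd (nat_lit 546) (nat_lit 228) (nat_lit 0) (XT.nd (nat_lit 234) (nat_lit 228) (nat_lit 0) (XT.nd (nat_lit 78) (nat_lit 76) (nat_lit 0) (XT.lf (nat_lit 0) (nat_lit 8687276005) (nat_lit 152) (nat_lit 12983031817) (nat_lit 0) (nat_lit 5098219102) (nat_lit 10) (nat_lit 5) (nat_lit 12) (nat_lit 4) (nat_lit 10) (nat_lit 4) (nat_lit 323) (nat_lit 293) (nat_lit 284)) (XT.nd (nat_lit 78) (nat_lit 0) (nat_lit 0) (XT.lf (nat_lit 0) (nat_lit 6699585366) (nat_lit 76) (nat_lit 13490666881) (nat_lit 76) (nat_lit 9715684299) (nat_lit 9) (nat_lit 4) (nat_lit 10) (nat_lit 5) (nat_lit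 10) (nat_lit 4) (nat_lit 324) (nat_lit 293) (nat_lit 283)) (XT.lf (nat_lit 0) (nat_lit 29106160782) (nat_lit 76) (nat_lit 4177659716) (nat_lit 76) (nat_lit 241002632) (nat_lit 9) (nat_lit 4) (nat_lit 10) (nat_lit 5) (nat_lit 10) (nat_lit 4) (nat_lit 325) (nat_lit 293) (nat_lit 282)))) (XT.nd (nat_lit 156) (nat_lit 76) (nat_lit 0) (XT.nd (nat_lit 78) (nat_lit 0) (nat_lit 0) (XT.lf (nat_lit 0) (nat_lit 10233467632) (nat_lit 152) (nat_lit 20965468186) (nat_lit 0) (nat_lit 6458242069) (nat_lit 7) (nat_lit 5) (nat_lit 9) (nat_lit 4) (nat_lit 7) (nat_lit 4) (nat_lit 326) (nat_lit 293) (nat_lit 281)) (XT.lf (nat_lit 0) (nat_lit 22085003853) (nat_lit 152) (nat_lit 2141737378) (nat_lit 0) (nat_lit 18196584630) (nat_lit 7) (nat_lit 5) (nat_lit 9) (nat_lit 4) (nat_lit 7) (nat_lit 4) (nat_lit 327) (nat_lit 293) (nat_lit 280))) (XT.nd (nat_lit 78) (nat_lit 0) (nat_lit 0) (XT.lf (nat_lit 0) (nat_lit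 19751598685) (nat_lit 76) (nat_lit 16065724309) (nat_lit 76) (nat_lit 12078875818) (nat_lit 6) (nat_lit 4) (nat_lit 7) (nat_lit 5) (nat_lit 7) (nat_lit 4) (nat_lit 328) (nat_lit 293) (nat_lit 279)) (XT.lf (nat_lit 0) (nat_lit 44379430338) (nat_lit 76) (nat_lit 6952623630) (nat_lit 76) (nat_lit 2880184471) (nat_lit 6) (nat_lit 4) (nat_lit 7) (nat_lit 5) (nat_lit 7) (nat_lit 4) (nat_lit 329) (nat_lit 293) (nat_lit 278))))) (XT.nd (nat_lit 312) (nat_lit 0) (nat_lit 0) (XT.nd (nat_lit 156) (nat_lit 76) (nat_lit 0) (XT.nd (nat_lit 78) (nat_lit 0) (nat_lit 0) (XT.lf (nat_lit 0) (nat_lit 7363391196) (nat_lit 152) (nat_lit 50569799024) (nat_lit 0) (nat_lit 3523700615) (nat_lit 4) (nat_lit 5) (nat_lit 6) (nat_lit 4) (nat_lit 4) (nat_lit 4) (nat_lit 330) (nat_lit 293) (nat_lit 277)) (XT.lf (nat_lit 0) (nat_lit 19180132785) (nat_lit 152) (nat_lit 35305061267) (nat_lit 0) (nat_lit 15280517351) (nat_lit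 4) (nat_lit 5) (nat_lit 6) (nat_lit 4) (nat_lit 4) (nat_lit 4) (nat_lit 331) (nat_lit 293) (nat_lit 276))) (XT.nd (nat_lit 78) (nat_lit 76) (nat_lit 0) (XT.lf (nat_lit 0) (nat_lit 32522707526) (nat_lit 152) (nat_lit 18246923122) (nat_lit 0) (nat_lit 28570983524) (nat_lit 4) (nat_lit 5) (nat_lit 6) (nat_lit 4) (nat_lit 4) (nat_lit 4) (nat_lit 332) (nat_lit 293) (nat_lit 275)) (XT.lf (nat_lit 0) (nat_lit 987774049) (nat_lit 76) (nat_lit 46688147735) (nat_lit 76) (nat_lit 42691111935) (nat_lit 3) (nat_lit 4) (nat_lit 4) (nat_lit 5) (nat_lit 4) (nat_lit 4) (nat_lit 333) (nat_lit 293) (nat_lit 274)))) (XT.nd (nat_lit 156) (nat_lit 0) (nat_lit 0) (XT.nd (nat_lit 78) (nat_lit 0) (nat_lit 0) (XT.lf (nat_lit 0) (nat_lit 23817610477) (nat_lit 76) (nat_lit 41619722359) (nat_lit 76) (nat_lit 37583284995) (nat_lit 3) (nat_lit 4) (nat_lit 4) (nat_lit 5) (nat_lit 4) (nat_lit 4) (nat_lit 334) (nat_lit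 293) (nat_lit 273)) (XT.lf (nat_lit 0) (nat_lit 49728406238) (nat_lit 76) (nat_lit 35964092891) (nat_lit 76) (nat_lit 31893393298) (nat_lit 3) (nat_lit 4) (nat_lit 4) (nat_lit 5) (nat_lit 4) (nat_lit 4) (nat_lit 335) (nat_lit 293) (nat_lit 272))) (XT.nd (nat_lit 78) (nat_lit 0) (nat_lit 0) (XT.lf (nat_lit 0) (nat_lit 79227111684) (nat_lit 76) (nat_lit 29610605711) (nat_lit 76) (nat_lit 25510112875) (nat_lit 3) (nat_lit 4) (nat_lit 4) (nat_lit 5) (nat_lit 4) (nat_lit 4) (nat_lit 336) (nat_lit 293) (nat_lit 271)) (XT.lf (nat_lit 0) (nat_lit 112890875400) (nat_lit 76) (nat_lit 22434953461) (nat_lit 76) (nat_lit 18308553457) (nat_lit 3) (nat_lit 4) (nat_lit 4) (nat_lit 5) (nat_lit 4) (nat_lit 4) (nat_lit 337) (nat_lit 293) (nat_lit 270))))))) (XT.nd (nat_lit 1092) (nat_lit 0) (nat_lit 0) (XT.nd (nat_lit 546) (nat_lit 0) (nat_lit 0) (XT.nd (nat_lit 234) (nat_lit 0) (nat_lit 0) (XT.nd (nat_lit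 78) (nat_lit 152) (nat_lit 0) (XT.lf (nat_lit 0) (nat_lit 151378336241) (nat_lit 76) (nat_lit 14296742945) (nat_lit 76) (nat_lit 10147814968) (nat_lit 3) (nat_lit 4) (nat_lit 4) (nat_lit 5) (nat_lit 4) (nat_lit 4) (nat_lit 338) (nat_lit 293) (nat_lit 269)) (XT.nd (nat_lit 78) (nat_lit 152) (nat_lit 0) (XT.lf (nat_lit 0) (nat_lit 195442509745) (nat_lit 76) (nat_lit 5036748304) (nat_lit 76) (nat_lit 868230786) (nat_lit 3) (nat_lit 4) (nat_lit 4) (nat_lit 5) (nat_lit 4) (nat_lit 4) (nat_lit 339) (nat_lit 293) (nat_lit 268)) (XT.lf (nat_lit 0) (nat_lit 9754631318) (nat_lit 152) (nat_lit 215012827830) (nat_lit 0) (nat_lit 5879120299) (nat_lit 1) (nat_lit 5) (nat_lit 3) (nat_lit 4) (nat_lit 1) (nat_lit 4) (nat_lit 340) (nat_lit 293) (nat_lit 267)))) (XT.nd (nat_lit 156) (nat_lit 0) (nat_lit 0) (XT.nd (nat_lit 78) (nat_lit 0) (nat_lit 0) (XT.lf (nat_lit 0) (nat_lit 22155237981) (nat_lit 152) (nat_lit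 223898628487) (nat_lit 0) (nat_lit 18266011677) (nat_lit 1) (nat_lit 5) (nat_lit 3) (nat_lit 4) (nat_lit 1) (nat_lit 4) (nat_lit 341) (nat_lit 293) (nat_lit 266)) (XT.lf (nat_lit 0) (nat_lit 36345132188) (nat_lit 152) (nat_lit 234260729879) (nat_lit 0) (nat_lit 32443979550) (nat_lit 1) (nat_lit 5) (nat_lit 3) (nat_lit 4) (nat_lit 1) (nat_lit 4) (nat_lit 342) (nat_lit 293) (nat_lit 265))) (XT.nd (nat_lit 78) (nat_lit 0) (nat_lit 0) (XT.lf (nat_lit 0) (nat_lit 52601942305) (nat_lit 152) (nat_lit 246301868773) (nat_lit 0) (nat_lit 48690418941) (nat_lit 1) (nat_lit 5) (nat_lit 3) (nat_lit 4) (nat_lit 1) (nat_lit 4) (nat_lit 343) (nat_lit 293) (nat_lit 264)) (XT.lf (nat_lit 0) (nat_lit 71243736354) (nat_lit 152) (nat_lit 260257632667) (nat_lit 0) (nat_lit 67323194968) (nat_lit 1) (nat_lit 5) (nat_lit 3) (nat_lit 4) (nat_lit 1) (nat_lit 4) (nat_lit 344) (nat_lit 293) (nat_lit 263))))) (XT.nd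 (nat_lit 234) (nat_lit 0) (nat_lit 0) (XT.nd (nat_lit 78) (nat_lit 0) (nat_lit 0) (XT.lf (nat_lit 0) (nat_lit 92635245090) (nat_lit 152) (nat_lit 276401069117) (nat_lit 0) (nat_lit 88706861946) (nat_lit 1) (nat_lit 5) (nat_lit 3) (nat_lit 4) (nat_lit 1) (nat_lit 4) (nat_lit 345) (nat_lit 293) (nat_lit 262)) (XT.nd (nat_lit 78) (nat_lit 0) (nat_lit 0) (XT.lf (nat_lit 0) (nat_lit 117194998031) (nat_lit 152) (nat_lit 295048027967) (nat_lit 0) (nat_lit 113259795966) (nat_lit 1) (nat_lit 5) (nat_lit 3) (nat_lit 4) (nat_lit 1) (nat_lit 4) (nat_lit 346) (nat_lit 293) (nat_lit 261)) (XT.lf (nat_lit 0) (nat_lit 145403512082) (nat_lit 152) (nat_lit 316563341019) (nat_lit 0) (nat_lit 141462380522) (nat_lit 1) (nat_lit 5) (nat_lit 3) (nat_lit 4) (nat_lit 1) (nat_lit 4) (nat_lit 347) (nat_lit 293) (nat_lit 260)))) (XT.nd (nat_lit 156) (nat_lit 0) (nat_lit 0) (XT.nd (nat_lit 78) (nat_lit 0) (nat_lit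 0) (XT.lf (nat_lit 0) (nat_lit 177812692954) (nat_lit 152) (nat_lit 341367960051) (nat_lit 0) (nat_lit 173866405310) (nat_lit 1) (nat_lit 5) (nat_lit 3) (nat_lit 4) (nat_lit 1) (nat_lit 4) (nat_lit 348) (nat_lit 293) (nat_lit 259)) (XT.lf (nat_lit 0) (nat_lit 215056633315) (nat_lit 152) (nat_lit 369947192827) (nat_lit 0) (nat_lit 211105862120) (nat_lit 1) (nat_lit 5) (nat_lit 3) (nat_lit 4) (nat_lit 1) (nat_lit 4) (nat_lit 349) (nat_lit 293) (nat_lit 258))) (XT.nd (nat_lit 78) (nat_lit 0) (nat_lit 0) (XT.lf (nat_lit 0) (nat_lit 257864018955) (nat_lit 152) (nat_lit 402860198249) (nat_lit 0) (nat_lit 253909349020) (nat_lit 1) (nat_lit 5) (nat_lit 3) (nat_lit 4) (nat_lit 1) (nat_lit 4) (nat_lit 350) (nat_lit 293) (nat_lit 257)) (XT.lf (nat_lit 0) (nat_lit 307072385681) (nat_lit 152) (nat_lit 440750926422) (nat_lit 0) (nat_lit 303114325537) (nat_lit 1) (nat_lit 5) (nat_lit 3) (nat_lit 4) (nat_lit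 1) (nat_lit 4) (nat_lit 351) (nat_lit 293) (nat_lit 256)))))) (XT.nd (nat_lit 546) (nat_lit 0) (nat_lit 0) (XT.nd (nat_lit 234) (nat_lit 0) (nat_lit 0) (XT.nd (nat_lit 78) (nat_lit 0) (nat_lit 0) (XT.lf (nat_lit 0) (nat_lit 363644505883) (nat_lit 152) (nat_lit 484360717681) (nat_lit 0) (nat_lit 359683497732) (nat_lit 1) (nat_lit 5) (nat_lit 3) (nat_lit 4) (nat_lit 1) (nat_lit 4) (nat_lit 352) (nat_lit 293) (nat_lit 255)) (XT.nd (nat_lit 78) (nat_lit 0) (nat_lit 0) (XT.lf (nat_lit 0) (nat_lit 428687225394) (nat_lit 152) (nat_lit 534542807072) (nat_lit 0) (nat_lit 424723653758) (nat_lit 1) (nat_lit 5) (nat_lit 3) (nat_lit 4) (nat_lit 1) (nat_lit 4) (nat_lit 353) (nat_lit 293) (nat_lit 254)) (XT.lf (nat_lit 0) (nat_lit 503473119159) (nat_lit 152) (nat_lit 592279018083) (nat_lit 0) (nat_lit 499507318406) (nat_lit 1) (nat_lit 5) (nat_lit 3) (nat_lit 4) (nat_lit 1) (nat_lit 4) (nat_lit 354) (nat_lit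 293) (nat_lit 253)))) (XT.nd (nat_lit 156) (nat_lit 0) (nat_lit 0) (XT.nd (nat_lit 78) (nat_lit 0) (nat_lit 0) (XT.lf (nat_lit 0) (nat_lit 589465389448) (nat_lit 152) (nat_lit 658698972234) (nat_lit 0) (nat_lit 585497650332) (nat_lit 1) (nat_lit 5) (nat_lit 3) (nat_lit 4) (nat_lit 1) (nat_lit 4) (nat_lit 355) (nat_lit 293) (nat_lit 252)) (XT.lf (nat_lit 0) (nat_lit 688346493722) (nat_lit 152) (nat_lit 735102190367) (nat_lit 0) (nat_lit 684377069074) (nat_lit 1) (nat_lit 5) (nat_lit 3) (nat_lit 4) (nat_lit 1) (nat_lit 4) (nat_lit 356) (nat_lit 293) (nat_lit 251))) (XT.nd (nat_lit 78) (nat_lit 0) (nat_lit 0) (XT.lf (nat_lit 0) (nat_lit 802051062284) (nat_lit 152) (nat_lit 822983518054) (nat_lit 0) (nat_lit 798080171955) (nat_lit 1) (nat_lit 5) (nat_lit 3) (nat_lit 4) (nat_lit 1) (nat_lit 4) (nat_lit 357) (nat_lit 293) (nat_lit 250)) (XT.lf (nat_lit 0) (nat_lit 932803749735) (nat_lit 152)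 (nat_lit 924062372576) (nat_lit 0) (nat_lit 928831584901) (nat_lit 1) (nat_lit 5) (nat_lit 3) (nat_lit 4) (nat_lit 1) (nat_lit 4) (nat_lit 358) (nat_lit 293) (nat_lit 249))))) (XT.nd (nat_lit 312) (nat_lit 0) (nat_lit 0) (XT.nd (nat_lit 156) (nat_lit 0) (nat_lit 0) (XT.nd (nat_lit 78) (nat_lit 0) (nat_lit 0) (XT.lf (nat_lit 0) (nat_lit 1083162760830) (nat_lit 152) (nat_lit 1040316383695) (nat_lit 0) (nat_lit 1079189487731) (nat_lit 1) (nat_lit 5) (nat_lit 3) (nat_lit 4) (nat_lit 1) (nat_lit 4) (nat_lit 359) (nat_lit 293) (nat_lit 248)) (XT.lf (nat_lit 0) (nat_lit 1256069902308) (nat_lit 152) (nat_lit 1174020086412) (nat_lit 0) (nat_lit 1252095665500) (nat_lit 1) (nat_lit 5) (nat_lit 3) (nat_lit 4) (nat_lit 1) (nat_lit 4) (nat_lit 360) (nat_lit 293) (nat_lit 247))) (XT.nd (nat_lit 78) (nat_lit 0) (nat_lit 0) (XT.lf (nat_lit 0) (nat_lit 1454908139980) (nat_lit 152) (nat_lit 1327789422736)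 (nat_lit 0) (nat_lit 1450933065164) (nat_lit 1) (nat_lit 5) (nat_lit 3) (nat_lit 4) (nat_lit 1) (nat_lit 4) (nat_lit 361) (nat_lit 293) (nat_lit 246)) (XT.lf (nat_lit 0) (nat_lit 1683567787192) (nat_lit 152) (nat_lit 1504632923160) (nat_lit 0) (nat_lit 1679591983673) (nat_lit 1) (nat_lit 5) (nat_lit 3) (nat_lit 4) (nat_lit 1) (nat_lit 4) (nat_lit 362) (nat_lit 293) (nat_lit 245)))) (XT.nd (nat_lit 156) (nat_lit 0) (nat_lit 0) (XT.nd (nat_lit 78) (nat_lit 0) (nat_lit 0) (XT.lf (nat_lit 0) (nat_lit 1946522619650) (nat_lit 152) (nat_lit 1708010569215) (nat_lit 0) (nat_lit 1942546182477) (nat_lit 1) (nat_lit 5) (nat_lit 3) (nat_lit 4) (nat_lit 1) (nat_lit 4) (nat_lit 363) (nat_lit 293) (nat_lit 244)) (XT.lf (nat_lit 0) (nat_lit 2248917405815) (nat_lit 152) (nat_lit 1941901488758) (nat_lit 0) (nat_lit 2244940417639) (nat_lit 1) (nat_lit 5) (nat_lit 3) (nat_lit 4) (nat_lit 1) (nat_lit 4) (nat_lit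 364) (nat_lit 293) (nat_lit 243))) (XT.nd (nat_lit 78) (nat_lit 0) (nat_lit 0) (XT.lf (nat_lit 0) (nat_lit 2596668565417) (nat_lit 152) (nat_lit 2210881808476) (nat_lit 0) (nat_lit 2592691098107) (nat_lit 1) (nat_lit 5) (nat_lit 3) (nat_lit 4) (nat_lit 1) (nat_lit 4) (nat_lit 365) (nat_lit 293) (nat_lit 242)) (XT.lf (nat_lit 0) (nat_lit 2996579925491) (nat_lit 152) (nat_lit 2520214186798) (nat_lit 0) (nat_lit 2992602041544) (nat_lit 1) (nat_lit 5) (nat_lit 3) (nat_lit 4) (nat_lit 1) (nat_lit 4) (nat_lit 366) (nat_lit 293) (nat_lit 241))))))))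
noncomputable def xc16 : XT := (XT.nd (nat_lit 44304) (nat_lit 0) (nat_lit 0) (XT.nd (nat_lit 43212) (nat_lit 0) (nat_lit 228) (XT.nd (nat_lit 42666) (nat_lit 0) (nat_lit 1140) (XT.nd (nat_lit 234) (nat_lit 0) (nat_lit 0) (XT.nd (nat_lit 78) (nat_lit 0) (nat_lit 0) (XT.lf (nat_lit 0) (nat_lit 3456475838735) (nat_lit 152) (nat_lit 2875950778952) (nat_lit 0) (nat_lit 3452497592494) (nat_lit 1) (nat_lit 5) (nat_lit 3) (nat_lit 4) (nat_lit 1) (nat_lit 4) (nat_lit 367) (nat_lit 293) (nat_lit 240)) (XT.nd (nat_lit 78) (nat_lit 0) (nat_lit 0) (XT.lf (nat_lit 0) (nat_lit 3985354268669) (nat_lit 152) (nat_lit 3285051648698) (nat_lit 0) (nat_lit 3981375707389) (nat_lit 1) (nat_lit 5) (nat_lit 3) (nat_lit 4) (nat_lit 1) (nat_lit 4) (nat_lit 368) (nat_lit 293) (nat_lit 239)) (XT.lf (nat_lit 0) (nat_lit 4593562836747) (nat_lit 152) (nat_lit 3755520943487) (nat_lit 0) (nat_lit 4589584001521) (nat_lit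 1) (nat_lit 5) (nat_lit 3) (nat_lit 4) (nat_lit 1) (nat_lit 4) (nat_lit 369) (nat_lit 293) (nat_lit 238)))) (XT.nd (nat_lit 156) (nat_lit 0) (nat_lit 0) (XT.nd (nat_lit 78) (nat_lit 0) (nat_lit 0) (XT.lf (nat_lit 0) (nat_lit 5293001275823) (nat_lit 152) (nat_lit 4296563497348) (nat_lit 0) (nat_lit 5289022202383) (nat_lit 1) (nat_lit 5) (nat_lit 3) (nat_lit 4) (nat_lit 1) (nat_lit 4) (nat_lit 370) (nat_lit 293) (nat_lit 237)) (XT.lf (nat_lit 0) (nat_lit 6097354251011) (nat_lit 152) (nat_lit 4918764925464) (nat_lit 0) (nat_lit 6093374970428) (nat_lit 1) (nat_lit 5) (nat_lit 3) (nat_lit 4) (nat_lit 1) (nat_lit 4) (nat_lit 371) (nat_lit 293) (nat_lit 236))) (XT.nd (nat_lit 42198) (nat_lit 0) (nat_lit 2356) (XT.lf (nat_lit 0) (nat_lit 7022359103127) (nat_lit 152) (nat_lit 5634298734039) (nat_lit 0) (nat_lit 7018379642421) (nat_lit 1) (nat_lit 5) (nat_lit 3) (nat_lit 4) (nat_lit 1) (nat_lit 4)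 (nat_lit 372) (nat_lit 293) (nat_lit 235)) (XT.lf (nat_lit 0) (nat_lit 2802758518) (nat_lit 152) (nat_lit 1137384098) (nat_lit 152) (nat_lit 1137384098) (nat_lit 32) (nat_lit 4) (nat_lit 34) (nat_lit 5) (nat_lit 34) (nat_lit 4) (nat_lit 312) (nat_lit 294) (nat_lit 294))))) (XT.nd (nat_lit 234) (nat_lit 532) (nat_lit 0) (XT.nd (nat_lit 78) (nat_lit 380) (nat_lit 0) (XT.lf (nat_lit 0) (nat_lit 169353822) (nat_lit 152) (nat_lit 5951728804) (nat_lit 152) (nat_lit 4758124680) (nat_lit 28) (nat_lit 4) (nat_lit 30) (nat_lit 5) (nat_lit 30) (nat_lit 4) (nat_lit 313) (nat_lit 294) (nat_lit 293)) (XT.nd (nat_lit 78) (nat_lit 228) (nat_lit 0) (XT.lf (nat_lit 0) (nat_lit 3628676218) (nat_lit 152) (nat_lit 6517726764) (nat_lit 0) (nat_lit 1562453298) (nat_lit 26) (nat_lit 5) (nat_lit 28) (nat_lit 4) (nat_lit 26) (nat_lit 4) (nat_lit 314) (nat_lit 294) (nat_lit 292)) (XT.lf (nat_lit 0) (nat_lit 201183478)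 (nat_lit 228) (nat_lit 2483442951) (nat_lit 76) (nat_lit 9977802505) (nat_lit 23) (nat_lit 5) (nat_lit 26) (nat_lit 5) (nat_lit 24) (nat_lit 4) (nat_lit 315) (nat_lit 294) (nat_lit 291)))) (XT.nd (nat_lit 156) (nat_lit 228) (nat_lit 0) (XT.nd (nat_lit 78) (nat_lit 152) (nat_lit 0) (XT.lf (nat_lit 0) (nat_lit 1293889064) (nat_lit 76) (nat_lit 7906093224) (nat_lit 76) (nat_lit 4546292950) (nat_lit 21) (nat_lit 4) (nat_lit 22) (nat_lit 5) (nat_lit 22) (nat_lit 4) (nat_lit 316) (nat_lit 294) (nat_lit 290)) (XT.lf (nat_lit 0) (nat_lit 4276240698) (nat_lit 152) (nat_lit 10088525297) (nat_lit 0) (nat_lit 623566062) (nat_lit 19) (nat_lit 5) (nat_lit 21) (nat_lit 4) (nat_lit 19) (nat_lit 4) (nat_lit 317) (nat_lit 294) (nat_lit 289))) (XT.nd (nat_lit 78) (nat_lit 152) (nat_lit 0) (XT.lf (nat_lit 0) (nat_lit 7882273604) (nat_lit 76) (nat_lit 6322412119) (nat_lit 76) (nat_lit 2198651868) (nat_lit 18)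 (nat_lit 4) (nat_lit 19) (nat_lit 5) (nat_lit 19) (nat_lit 4) (nat_lit 318) (nat_lit 294) (nat_lit 288)) (XT.lf (nat_lit 0) (nat_lit 7144552245) (nat_lit 152) (nat_lit 7930054651) (nat_lit 0) (nat_lit 2946959731) (nat_lit 16) (nat_lit 5) (nat_lit 18) (nat_lit 4) (nat_lit 16) (nat_lit 4) (nat_lit 319) (nat_lit 294) (nat_lit 287)))))) (XT.nd (nat_lit 546) (nat_lit 228) (nat_lit 0) (XT.nd (nat_lit 234) (nat_lit 380) (nat_lit 0) (XT.nd (nat_lit 78) (nat_lit 228) (nat_lit 0) (XT.lf (nat_lit 0) (nat_lit 11243736741) (nat_lit 76) (nat_lit 6578376163) (nat_lit 76) (nat_lit 2050961053) (nat_lit 15) (nat_lit 4) (nat_lit 16) (nat_lit 5) (nat_lit 16) (nat_lit 4) (nat_lit 320) (nat_lit 294) (nat_lit 286)) (XT.nd (nat_lit 78) (nat_lit 76) (nat_lit 0) (XT.lf (nat_lit 0) (nat_lit 7677235386) (nat_lit 152) (nat_lit 11091319153) (nat_lit 0) (nat_lit 3219626711) (nat_lit 13) (nat_lit 5) (nat_lit 15) (nat_lit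 4) (nat_lit 13) (nat_lit 4) (nat_lit 321) (nat_lit 294) (nat_lit 285)) (XT.lf (nat_lit 0) (nat_lit 8569891633) (nat_lit 76) (nat_lit 10263897230) (nat_lit 76) (nat_lit 5575368864) (nat_lit 12) (nat_lit 4) (nat_lit 13) (nat_lit 5) (nat_lit 13) (nat_lit 4) (nat_lit 322) (nat_lit 294) (nat_lit 284)))) (XT.nd (nat_lit 156) (nat_lit 228) (nat_lit 0) (XT.nd (nat_lit 78) (nat_lit 0) (nat_lit 0) (XT.lf (nat_lit 0) (nat_lit 3731995114) (nat_lit 76) (nat_lit 412871814) (nat_lit 152) (nat_lit 23048064589) (nat_lit 10) (nat_lit 5) (nat_lit 11) (nat_lit 5) (nat_lit 12) (nat_lit 4) (nat_lit 323) (nat_lit 294) (nat_lit 283)) (XT.lf (nat_lit 0) (nat_lit 15249607411) (nat_lit 152) (nat_lit 4551851219) (nat_lit 0) (nat_lit 10560777261) (nat_lit 10) (nat_lit 5) (nat_lit 12) (nat_lit 4) (nat_lit 10) (nat_lit 4) (nat_lit 324) (nat_lit 294) (nat_lit 282))) (XT.nd (nat_lit 78) (nat_lit 152) (nat_lit 0) (XT.lf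 (nat_lit 0) (nat_lit 17204658750) (nat_lit 76) (nat_lit 10815862001) (nat_lit 76) (nat_lit 5986445327) (nat_lit 9) (nat_lit 4) (nat_lit 10) (nat_lit 5) (nat_lit 10) (nat_lit 4) (nat_lit 325) (nat_lit 294) (nat_lit 281)) (XT.lf (nat_lit 0) (nat_lit 3592075637) (nat_lit 76) (nat_lit 515492373) (nat_lit 152) (nat_lit 34096261575) (nat_lit 7) (nat_lit 5) (nat_lit 8) (nat_lit 5) (nat_lit 9) (nat_lit 4) (nat_lit 326) (nat_lit 294) (nat_lit 280))))) (XT.nd (nat_lit 234) (nat_lit 152) (nat_lit 0) (XT.nd (nat_lit 78) (nat_lit 76) (nat_lit 0) (XT.lf (nat_lit 0) (nat_lit 15773695494) (nat_lit 152) (nat_lit 16120746153) (nat_lit 0) (nat_lit 11090390462) (nat_lit 7) (nat_lit 5) (nat_lit 9) (nat_lit 4) (nat_lit 7) (nat_lit 4) (nat_lit 327) (nat_lit 294) (nat_lit 279)) (XT.nd (nat_lit 78) (nat_lit 0) (nat_lit 0) (XT.lf (nat_lit 0) (nat_lit 4720572207) (nat_lit 76) (nat_lit 24273501418) (nat_lit 76) (nat_lit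 19504605717) (nat_lit 6) (nat_lit 4) (nat_lit 7) (nat_lit 5) (nat_lit 7) (nat_lit 4) (nat_lit 328) (nat_lit 294) (nat_lit 278)) (XT.lf (nat_lit 0) (nat_lit 29073701360) (nat_lit 76) (nat_lit 15297675365) (nat_lit 76) (nat_lit 10454352996) (nat_lit 6) (nat_lit 4) (nat_lit 7) (nat_lit 5) (nat_lit 7) (nat_lit 4) (nat_lit 329) (nat_lit 294) (nat_lit 277)))) (XT.nd (nat_lit 156) (nat_lit 0) (nat_lit 0) (XT.nd (nat_lit 78) (nat_lit 152) (nat_lit 0) (XT.lf (nat_lit 0) (nat_lit 56566225647) (nat_lit 76) (nat_lit 5232119270) (nat_lit 76) (nat_lit 324078060) (nat_lit 6) (nat_lit 4) (nat_lit 7) (nat_lit 5) (nat_lit 7) (nat_lit 4) (nat_lit 330) (nat_lit 294) (nat_lit 276)) (XT.lf (nat_lit 0) (nat_lit 11123991823) (nat_lit 152) (nat_lit 52811276835) (nat_lit 0) (nat_lit 6527400653) (nat_lit 4) (nat_lit 5) (nat_lit 6) (nat_lit 4) (nat_lit 4) (nat_lit 4) (nat_lit 331) (nat_lit 294) (nat_lit 275))) (XT.nd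 (nat_lit 78) (nat_lit 0) (nat_lit 0) (XT.lf (nat_lit 0) (nat_lit 24366797875) (nat_lit 152) (nat_lit 35953870854) (nat_lit 0) (nat_lit 19724894906) (nat_lit 4) (nat_lit 5) (nat_lit 6) (nat_lit 4) (nat_lit 4) (nat_lit 4) (nat_lit 332) (nat_lit 294) (nat_lit 274)) (XT.lf (nat_lit 0) (nat_lit 39409500761) (nat_lit 152) (nat_lit 16943135848) (nat_lit 0) (nat_lit 34728196229) (nat_lit 4) (nat_lit 5) (nat_lit 6) (nat_lit 4) (nat_lit 4) (nat_lit 4) (nat_lit 333) (nat_lit 294) (nat_lit 273))))))) (XT.nd (nat_lit 1092) (nat_lit 0) (nat_lit 0) (XT.nd (nat_lit 546) (nat_lit 152) (nat_lit 0) (XT.nd (nat_lit 234) (nat_lit 0) (nat_lit 0) (XT.nd (nat_lit 78) (nat_lit 0) (nat_lit 0) (XT.lf (nat_lit 0) (nat_lit 4834730126) (nat_lit 76) (nat_lit 51827959485) (nat_lit 76) (nat_lit 47112392722) (nat_lit 3) (nat_lit 4) (nat_lit 4) (nat_lit 5) (nat_lit 4) (nat_lit 4) (nat_lit 334) (nat_lit 294) (nat_lit 272))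 (XT.nd (nat_lit 78) (nat_lit 0) (nat_lit 0) (XT.lf (nat_lit 0) (nat_lit 30606591152) (nat_lit 76) (nat_lit 46242323835) (nat_lit 76) (nat_lit 41496963829) (nat_lit 3) (nat_lit 4) (nat_lit 4) (nat_lit 5) (nat_lit 4) (nat_lit 4) (nat_lit 335) (nat_lit 294) (nat_lit 271)) (XT.lf (nat_lit 0) (nat_lit 59984483786) (nat_lit 76) (nat_lit 39949700844) (nat_lit 76) (nat_lit 35178433671) (nat_lit 3) (nat_lit 4) (nat_lit 4) (nat_lit 5) (nat_lit 4) (nat_lit 4) (nat_lit 336) (nat_lit 294) (nat_lit 270)))) (XT.nd (nat_lit 156) (nat_lit 0) (nat_lit 0) (XT.nd (nat_lit 78) (nat_lit 0) (nat_lit 0) (XT.lf (nat_lit 0) (nat_lit 93543192882) (nat_lit 76) (nat_lit 32826973976) (nat_lit 76) (nat_lit 28033178830) (nat_lit 3) (nat_lit 4) (nat_lit 4) (nat_lit 5) (nat_lit 4) (nat_lit 4) (nat_lit 337) (nat_lit 294) (nat_lit 269)) (XT.lf (nat_lit 0) (nat_lit 131939301879) (nat_lit 76) (nat_lit 24734785530) (nat_lit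 76) (nat_lit 19921400844) (nat_lit 3) (nat_lit 4) (nat_lit 4) (nat_lit 5) (nat_lit 4) (nat_lit 4) (nat_lit 338) (nat_lit 294) (nat_lit 268))) (XT.nd (nat_lit 78) (nat_lit 0) (nat_lit 0) (XT.lf (nat_lit 0) (nat_lit 175924038998) (nat_lit 76) (nat_lit 15514810082) (nat_lit 76) (nat_lit 10684391013) (nat_lit 3) (nat_lit 4) (nat_lit 4) (nat_lit 5) (nat_lit 4) (nat_lit 4) (nat_lit 339) (nat_lit 294) (nat_lit 267)) (XT.lf (nat_lit 0) (nat_lit 226357975182) (nat_lit 76) (nat_lit 4986656807) (nat_lit 76) (nat_lit 141425230) (nat_lit 3) (nat_lit 4) (nat_lit 4) (nat_lit 5) (nat_lit 4) (nat_lit 4) (nat_lit 340) (nat_lit 294) (nat_lit 266))))) (XT.nd (nat_lit 234) (nat_lit 0) (nat_lit 0) (XT.nd (nat_lit 78) (nat_lit 0) (nat_lit 0) (XT.lf (nat_lit 0) (nat_lit 11980198103) (nat_lit 152) (nat_lit 245720370969) (nat_lit 0) (nat_lit 7481946234) (nat_lit 1) (nat_lit 5) (nat_lit 3) (nat_lit 4) (nat_lit 1)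 (nat_lit 4) (nat_lit 341) (nat_lit 294) (nat_lit 265)) (XT.nd (nat_lit 78) (nat_lit 0) (nat_lit 0) (XT.lf (nat_lit 0) (nat_lit 26141455928) (nat_lit 152) (nat_lit 256140482730) (nat_lit 0) (nat_lit 21632833334) (nat_lit 1) (nat_lit 5) (nat_lit 3) (nat_lit 4) (nat_lit 1) (nat_lit 4) (nat_lit 342) (nat_lit 294) (nat_lit 264)) (XT.lf (nat_lit 0) (nat_lit 42373364842) (nat_lit 152) (nat_lit 268232065422) (nat_lit 0) (nat_lit 37855724226) (nat_lit 1) (nat_lit 5) (nat_lit 3) (nat_lit 4) (nat_lit 1) (nat_lit 4) (nat_lit 343) (nat_lit 294) (nat_lit 263)))) (XT.nd (nat_lit 156) (nat_lit 0) (nat_lit 0) (XT.nd (nat_lit 78) (nat_lit 0) (nat_lit 0) (XT.lf (nat_lit 0) (nat_lit 60993505672) (nat_lit 152) (nat_lit 282231693489) (nat_lit 0) (nat_lit 56468023298) (nat_lit 1) (nat_lit 5) (nat_lit 3) (nat_lit 4) (nat_lit 1) (nat_lit 4) (nat_lit 344) (nat_lit 294) (nat_lit 262)) (XT.lf (nat_lit 0) (nat_lit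 82366185522) (nat_lit 152) (nat_lit 298413272698) (nat_lit 0) (nat_lit 77833884227) (nat_lit 1) (nat_lit 5) (nat_lit 3) (nat_lit 4) (nat_lit 1) (nat_lit 4) (nat_lit 345) (nat_lit 294) (nat_lit 261))) (XT.nd (nat_lit 78) (nat_lit 0) (nat_lit 0) (XT.lf (nat_lit 0) (nat_lit 106909565519) (nat_lit 152) (nat_lit 317093399164) (nat_lit 0) (nat_lit 102371334728) (nat_lit 1) (nat_lit 5) (nat_lit 3) (nat_lit 4) (nat_lit 1) (nat_lit 4) (nat_lit 346) (nat_lit 294) (nat_lit 260)) (XT.lf (nat_lit 0) (nat_lit 135103842227) (nat_lit 152) (nat_lit 338637553622) (nat_lit 0) (nat_lit 130560455353) (nat_lit 1) (nat_lit 5) (nat_lit 3) (nat_lit 4) (nat_lit 1) (nat_lit 4) (nat_lit 347) (nat_lit 294) (nat_lit 259)))))) (XT.nd (nat_lit 546) (nat_lit 0) (nat_lit 0) (XT.nd (nat_lit 234) (nat_lit 0) (nat_lit 0) (XT.nd (nat_lit 78) (nat_lit 0) (nat_lit 0) (XT.lf (nat_lit 0) (nat_lit 167500642801) (nat_lit 152) (nat_lit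 363467252137) (nat_lit 0) (nat_lit 162952772375) (nat_lit 1) (nat_lit 5) (nat_lit 3) (nat_lit 4) (nat_lit 1) (nat_lit 4) (nat_lit 348) (nat_lit 294) (nat_lit 258)) (XT.nd (nat_lit 78) (nat_lit 0) (nat_lit 0) (XT.lf (nat_lit 0) (nat_lit 204733817685) (nat_lit 152) (nat_lit 392068293159) (nat_lit 0) (nat_lit 200182048520) (nat_lit 1) (nat_lit 5) (nat_lit 3) (nat_lit 4) (nat_lit 1) (nat_lit 4) (nat_lit 349) (nat_lit 294) (nat_lit 257)) (XT.lf (nat_lit 0) (nat_lit 247531842041) (nat_lit 152) (nat_lit 425000262273) (nat_lit 0) (nat_lit 242976682667) (nat_lit 1) (nat_lit 5) (nat_lit 3) (nat_lit 4) (nat_lit 1) (nat_lit 4) (nat_lit 350) (nat_lit 294) (nat_lit 256)))) (XT.nd (nat_lit 156) (nat_lit 0) (nat_lit 0) (XT.nd (nat_lit 78) (nat_lit 0) (nat_lit 0) (XT.lf (nat_lit 0) (nat_lit 296732068519) (nat_lit 152) (nat_lit 462907480613) (nat_lit 0) (nat_lit 292173961138) (nat_lit 1) (nat_lit 5) (nat_lit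 3) (nat_lit 4) (nat_lit 1) (nat_lit 4) (nat_lit 351) (nat_lit 294) (nat_lit 255)) (XT.lf (nat_lit 0) (nat_lit 353297110246) (nat_lit 152) (nat_lit 506531611148) (nat_lit 0) (nat_lit 348736439380) (nat_lit 1) (nat_lit 5) (nat_lit 3) (nat_lit 4) (nat_lit 1) (nat_lit 4) (nat_lit 352) (nat_lit 294) (nat_lit 254))) (XT.nd (nat_lit 78) (nat_lit 0) (nat_lit 0) (XT.lf (nat_lit 0) (nat_lit 418333674560) (nat_lit 152) (nat_lit 556726169475) (nat_lit 0) (nat_lit 413770774577) (nat_lit 1) (nat_lit 5) (nat_lit 3) (nat_lit 4) (nat_lit 1) (nat_lit 4) (nat_lit 353) (nat_lit 294) (nat_lit 253)) (XT.lf (nat_lit 0) (nat_lit 493114215980) (nat_lit 152) (nat_lit 614473223039) (nat_lit 0) (nat_lit 488549377635) (nat_lit 1) (nat_lit 5) (nat_lit 3) (nat_lit 4) (nat_lit 1) (nat_lit 4) (nat_lit 354) (nat_lit 294) (nat_lit 252))))) (XT.nd (nat_lit 312) (nat_lit 0) (nat_lit 0) (XT.nd (nat_lit 156) (nat_lit 0) (nat_lit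 0) (XT.nd (nat_lit 78) (nat_lit 0) (nat_lit 0) (XT.lf (nat_lit 0) (nat_lit 579101832057) (nat_lit 152) (nat_lit 680902605496) (nat_lit 0) (nat_lit 574535308178) (nat_lit 1) (nat_lit 5) (nat_lit 3) (nat_lit 4) (nat_lit 1) (nat_lit 4) (nat_lit 355) (nat_lit 294) (nat_lit 251)) (XT.lf (nat_lit 0) (nat_lit 677978889190) (nat_lit 152) (nat_lit 757314022157) (nat_lit 0) (nat_lit 673410899631) (nat_lit 1) (nat_lit 5) (nat_lit 3) (nat_lit 4) (nat_lit 1) (nat_lit 4) (nat_lit 356) (nat_lit 294) (nat_lit 250))) (XT.nd (nat_lit 78) (nat_lit 0) (nat_lit 0) (XT.lf (nat_lit 0) (nat_lit 791679938498) (nat_lit 152) (nat_lit 845202478998) (nat_lit 0) (nat_lit 787110674434) (nat_lit 1) (nat_lit 5) (nat_lit 3) (nat_lit 4) (nat_lit 1) (nat_lit 4) (nat_lit 357) (nat_lit 294) (nat_lit 249)) (XT.lf (nat_lit 0) (nat_lit 922429565729) (nat_lit 152) (nat_lit 946287532785) (nat_lit 0) (nat_lit 917859193400) (nat_lit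 1) (nat_lit 5) (nat_lit 3) (nat_lit 4) (nat_lit 1) (nat_lit 4) (nat_lit 358) (nat_lit 294) (nat_lit 248)))) (XT.nd (nat_lit 156) (nat_lit 0) (nat_lit 0) (XT.nd (nat_lit 78) (nat_lit 0) (nat_lit 0) (XT.lf (nat_lit 0) (nat_lit 1072785915763) (nat_lit 152) (nat_lit 1062546934569) (nat_lit 0) (nat_lit 1068214579724) (nat_lit 1) (nat_lit 5) (nat_lit 3) (nat_lit 4) (nat_lit 1) (nat_lit 4) (nat_lit 359) (nat_lit 294) (nat_lit 247)) (XT.lf (nat_lit 0) (nat_lit 1245690743274) (nat_lit 152) (nat_lit 1196255324820) (nat_lit 0) (nat_lit 1241118569228) (nat_lit 1) (nat_lit 5) (nat_lit 3) (nat_lit 4) (nat_lit 1) (nat_lit 4) (nat_lit 360) (nat_lit 294) (nat_lit 246))) (XT.nd (nat_lit 78) (nat_lit 0) (nat_lit 0) (XT.lf (nat_lit 0) (nat_lit 1444526968802) (nat_lit 152) (nat_lit 1350028737261) (nat_lit 0) (nat_lit 1439954066053) (nat_lit 1) (nat_lit 5) (nat_lit 3) (nat_lit 4) (nat_lit 1) (nat_lit 4) (nat_lit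 361) (nat_lit 294) (nat_lit 245)) (XT.lf (nat_lit 0) (nat_lit 1673184866322) (nat_lit 152) (nat_lit 1526875782136) (nat_lit 0) (nat_lit 1668611329920) (nat_lit 1) (nat_lit 5) (nat_lit 3) (nat_lit 4) (nat_lit 1) (nat_lit 4) (nat_lit 362) (nat_lit 294) (nat_lit 244))))))))
noncomputable def xc17 : XT := (XT.nd (nat_lit 44226) (nat_lit 0) (nat_lit 0) (XT.nd (nat_lit 43056) (nat_lit 0) (nat_lit 456) (XT.nd (nat_lit 546) (nat_lit 0) (nat_lit 0) (XT.nd (nat_lit 234) (nat_lit 0) (nat_lit 0) (XT.nd (nat_lit 78) (nat_lit 0) (nat_lit 0) (XT.lf (nat_lit 0) (nat_lit 1936138177310) (nat_lit 152) (nat_lit 1730256510321) (nat_lit 0) (nat_lit 1931564089904) (nat_lit 1) (nat_lit 5) (nat_lit 3) (nat_lit 4) (nat_lit 1) (nat_lit 4) (nat_lit 363) (nat_lit 294) (nat_lit 243)) (XT.nd (nat_lit 78) (nat_lit 0) (nat_lit 0) (XT.lf (nat_lit 0) (nat_lit 2238531640458) (nat_lit 152) (nat_lit 1964150109977) (nat_lit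 0) (nat_lit 2233957073918) (nat_lit 1) (nat_lit 5) (nat_lit 3) (nat_lit 4) (nat_lit 1) (nat_lit 4) (nat_lit 364) (nat_lit 294) (nat_lit 242)) (XT.lf (nat_lit 0) (nat_lit 2586281649609) (nat_lit 152) (nat_lit 2233132760228) (nat_lit 0) (nat_lit 2581706666431) (nat_lit 1) (nat_lit 5) (nat_lit 3) (nat_lit 4) (nat_lit 1) (nat_lit 4) (nat_lit 365) (nat_lit 294) (nat_lit 241)))) (XT.nd (nat_lit 156) (nat_lit 0) (nat_lit 0) (XT.nd (nat_lit 78) (nat_lit 0) (nat_lit 0) (XT.lf (nat_lit 0) (nat_lit 2986192009292) (nat_lit 152) (nat_lit 2542467165101) (nat_lit 0) (nat_lit 2981616663821) (nat_lit 1) (nat_lit 5) (nat_lit 3) (nat_lit 4) (nat_lit 1) (nat_lit 4) (nat_lit 366) (nat_lit 294) (nat_lit 240)) (XT.lf (nat_lit 0) (nat_lit 3446087052631) (nat_lit 152) (nat_lit 2898205519473) (nat_lit 0) (nat_lit 3441511392121) (nat_lit 1) (nat_lit 5) (nat_lit 3) (nat_lit 4) (nat_lit 1) (nat_lit 4) (nat_lit 367)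 (nat_lit 294) (nat_lit 239))) (XT.nd (nat_lit 78) (nat_lit 0) (nat_lit 0) (XT.lf (nat_lit 0) (nat_lit 3974964726124) (nat_lit 152) (nat_lit 3307307921582) (nat_lit 0) (nat_lit 3970388791668) (nat_lit 1) (nat_lit 5) (nat_lit 3) (nat_lit 4) (nat_lit 1) (nat_lit 4) (nat_lit 368) (nat_lit 294) (nat_lit 238)) (XT.lf (nat_lit 0) (nat_lit 4583172636429) (nat_lit 152) (nat_lit 3777778548861) (nat_lit 0) (nat_lit 4578596463759) (nat_lit 1) (nat_lit 5) (nat_lit 3) (nat_lit 4) (nat_lit 1) (nat_lit 4) (nat_lit 369) (nat_lit 294) (nat_lit 237))))) (XT.nd (nat_lit 42198) (nat_lit 0) (nat_lit 2204) (XT.nd (nat_lit 78) (nat_lit 0) (nat_lit 0) (XT.lf (nat_lit 0) (nat_lit 5282610503528) (nat_lit 152) (nat_lit 4318822261408) (nat_lit 0) (nat_lit 5278034123715) (nat_lit 1) (nat_lit 5) (nat_lit 3) (nat_lit 4) (nat_lit 1) (nat_lit 4) (nat_lit 370) (nat_lit 294) (nat_lit 236)) (XT.nd (nat_lit 78) (nat_lit 0)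 (nat_lit 0) (XT.lf (nat_lit 0) (nat_lit 6086962981344) (nat_lit 152) (nat_lit 4941024697079) (nat_lit 0) (nat_lit 6082386421407) (nat_lit 1) (nat_lit 5) (nat_lit 3) (nat_lit 4) (nat_lit 1) (nat_lit 4) (nat_lit 371) (nat_lit 294) (nat_lit 235)) (XT.lf (nat_lit 0) (nat_lit 7011967400964) (nat_lit 152) (nat_lit 5656559381787) (nat_lit 0) (nat_lit 7007390684397) (nat_lit 1) (nat_lit 5) (nat_lit 3) (nat_lit 4) (nat_lit 1) (nat_lit 4) (nat_lit 372) (nat_lit 294) (nat_lit 234)))) (XT.nd (nat_lit 156) (nat_lit 304) (nat_lit 0) (XT.nd (nat_lit 78) (nat_lit 380) (nat_lit 0) (XT.lf (nat_lit 0) (nat_lit 1255036255) (nat_lit 228) (nat_lit 1967801696) (nat_lit 0) (nat_lit 1255036255) (nat_lit 39) (nat_lit 5) (nat_lit 42) (nat_lit 4) (nat_lit 39) (nat_lit 4) (nat_lit 310) (nat_lit 295) (nat_lit 295)) (XT.lf (nat_lit 0) (nat_lit 331253157) (nat_lit 152) (nat_lit 597740104) (nat_lit 228) (nat_lit 8603095762)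 (nat_lit 34) (nat_lit 5) (nat_lit 36) (nat_lit 5) (nat_lit 37) (nat_lit 4) (nat_lit 311) (nat_lit 295) (nat_lit 294))) (XT.nd (nat_lit 78) (nat_lit 152) (nat_lit 0) (XT.lf (nat_lit 0) (nat_lit 4912918677) (nat_lit 152) (nat_lit 4024017082) (nat_lit 152) (nat_lit 1252468306) (nat_lit 32) (nat_lit 4) (nat_lit 34) (nat_lit 5) (nat_lit 34) (nat_lit 4) (nat_lit 312) (nat_lit 295) (nat_lit 293)) (XT.lf (nat_lit 0) (nat_lit 6625100700) (nat_lit 152) (nat_lit 1303156918) (nat_lit 0) (nat_lit 3020935205) (nat_lit 30) (nat_lit 5) (nat_lit 32) (nat_lit 4) (nat_lit 30) (nat_lit 4) (nat_lit 313) (nat_lit 295) (nat_lit 292)))))) (XT.nd (nat_lit 546) (nat_lit 608) (nat_lit 0) (XT.nd (nat_lit 234) (nat_lit 532) (nat_lit 0) (XT.nd (nat_lit 78) (nat_lit 304) (nat_lit 0) (XT.lf (nat_lit 0) (nat_lit 2847952397) (nat_lit 76) (nat_lit 687938993) (nat_lit 152) (nat_lit 8282709270) (nat_lit 26) (nat_lit 5) (nat_lit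 27) (nat_lit 5) (nat_lit 28) (nat_lit 4) (nat_lit 314) (nat_lit 295) (nat_lit 291)) (XT.nd (nat_lit 78) (nat_lit 152) (nat_lit 0) (XT.lf (nat_lit 0) (nat_lit 6977583223) (nat_lit 152) (nat_lit 5364927972) (nat_lit 152) (nat_lit 465376322) (nat_lit 24) (nat_lit 4) (nat_lit 26) (nat_lit 5) (nat_lit 26) (nat_lit 4) (nat_lit 315) (nat_lit 295) (nat_lit 290)) (XT.lf (nat_lit 0) (nat_lit 8030868194) (nat_lit 152) (nat_lit 2994799681) (nat_lit 0) (nat_lit 2909157963) (nat_lit 22) (nat_lit 5) (nat_lit 24) (nat_lit 4) (nat_lit 22) (nat_lit 4) (nat_lit 316) (nat_lit 295) (nat_lit 289)))) (XT.nd (nat_lit 156) (nat_lit 228) (nat_lit 0) (XT.nd (nat_lit 78) (nat_lit 152) (nat_lit 0) (XT.lf (nat_lit 0) (nat_lit 2454114388) (nat_lit 152) (nat_lit 525924767) (nat_lit 76) (nat_lit 12242150429) (nat_lit 20) (nat_lit 5) (nat_lit 22) (nat_lit 5) (nat_lit 21) (nat_lit 4) (nat_lit 317) (nat_lit 295) (nat_lit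 288)) (XT.lf (nat_lit 0) (nat_lit 1382909980) (nat_lit 76) (nat_lit 10460287306) (nat_lit 76) (nat_lit 4837237739) (nat_lit 18) (nat_lit 4) (nat_lit 19) (nat_lit 5) (nat_lit 19) (nat_lit 4) (nat_lit 318) (nat_lit 295) (nat_lit 287))) (XT.nd (nat_lit 78) (nat_lit 76) (nat_lit 0) (XT.lf (nat_lit 0) (nat_lit 2552512164) (nat_lit 76) (nat_lit 1549300400) (nat_lit 152) (nat_lit 14244893084) (nat_lit 16) (nat_lit 5) (nat_lit 17) (nat_lit 5) (nat_lit 18) (nat_lit 4) (nat_lit 319) (nat_lit 295) (nat_lit 286)) (XT.lf (nat_lit 0) (nat_lit 2482783955) (nat_lit 76) (nat_lit 11789601954) (nat_lit 76) (nat_lit 5966449723) (nat_lit 15) (nat_lit 4) (nat_lit 16) (nat_lit 5) (nat_lit 16) (nat_lit 4) (nat_lit 320) (nat_lit 295) (nat_lit 285))))) (XT.nd (nat_lit 312) (nat_lit 228) (nat_lit 0) (XT.nd (nat_lit 156) (nat_lit 228) (nat_lit 0) (XT.nd (nat_lit 78) (nat_lit 0) (nat_lit 0) (XT.lf (nat_lit 0) (nat_lit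 985473654) (nat_lit 76) (nat_lit 2407804784) (nat_lit 152) (nat_lit 19013396108) (nat_lit 13) (nat_lit 5) (nat_lit 14) (nat_lit 5) (nat_lit 15) (nat_lit 4) (nat_lit 321) (nat_lit 295) (nat_lit 284)) (XT.lf (nat_lit 0) (nat_lit 14059855429) (nat_lit 152) (nat_lit 2570709905) (nat_lit 0) (nat_lit 8236328383) (nat_lit 13) (nat_lit 5) (nat_lit 15) (nat_lit 4) (nat_lit 13) (nat_lit 4) (nat_lit 322) (nat_lit 295) (nat_lit 283))) (XT.nd (nat_lit 78) (nat_lit 152) (nat_lit 0) (XT.lf (nat_lit 0) (nat_lit 19177631626) (nat_lit 76) (nat_lit 7254151910) (nat_lit 76) (nat_lit 1256016401) (nat_lit 12) (nat_lit 4) (nat_lit 13) (nat_lit 5) (nat_lit 13) (nat_lit 4) (nat_lit 323) (nat_lit 295) (nat_lit 282)) (XT.lf (nat_lit 0) (nat_lit 9328430133) (nat_lit 152) (nat_lit 17943757529) (nat_lit 0) (nat_lit 3634014434) (nat_lit 10) (nat_lit 5) (nat_lit 12) (nat_lit 4) (nat_lit 10) (nat_lit 4) (nat_lit 324) (nat_lit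 295) (nat_lit 281)))) (XT.nd (nat_lit 156) (nat_lit 152) (nat_lit 0) (XT.nd (nat_lit 78) (nat_lit 0) (nat_lit 0) (XT.lf (nat_lit 0) (nat_lit 2750712275) (nat_lit 76) (nat_lit 18829231967) (nat_lit 76) (nat_lit 13012567117) (nat_lit 9) (nat_lit 4) (nat_lit 10) (nat_lit 5) (nat_lit 10) (nat_lit 4) (nat_lit 325) (nat_lit 295) (nat_lit 280)) (XT.lf (nat_lit 0) (nat_lit 26968824919) (nat_lit 76) (nat_lit 8885572181) (nat_lit 76) (nat_lit 2962603720) (nat_lit 9) (nat_lit 4) (nat_lit 10) (nat_lit 5) (nat_lit 10) (nat_lit 4) (nat_lit 326) (nat_lit 295) (nat_lit 279))) (XT.nd (nat_lit 78) (nat_lit 0) (nat_lit 0) (XT.lf (nat_lit 0) (nat_lit 8192235287) (nat_lit 152) (nat_lit 32841831743) (nat_lit 0) (nat_lit 2622414563) (nat_lit 7) (nat_lit 5) (nat_lit 9) (nat_lit 4) (nat_lit 7) (nat_lit 4) (nat_lit 327) (nat_lit 295) (nat_lit 278)) (XT.lf (nat_lit 0) (nat_lit 21168262270) (nat_lit 152) (nat_lit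 12497616291) (nat_lit 0) (nat_lit 15524014878) (nat_lit 7) (nat_lit 5) (nat_lit 9) (nat_lit 4) (nat_lit 7) (nat_lit 4) (nat_lit 328) (nat_lit 295) (nat_lit 277))))))) (XT.nd (nat_lit 1092) (nat_lit 0) (nat_lit 0) (XT.nd (nat_lit 546) (nat_lit 152) (nat_lit 0) (XT.nd (nat_lit 234) (nat_lit 152) (nat_lit 0) (XT.nd (nat_lit 78) (nat_lit 76) (nat_lit 0) (XT.lf (nat_lit 0) (nat_lit 10958538796) (nat_lit 76) (nat_lit 25151128726) (nat_lit 76) (nat_lit 19442162492) (nat_lit 6) (nat_lit 4) (nat_lit 7) (nat_lit 5) (nat_lit 7) (nat_lit 4) (nat_lit 329) (nat_lit 295) (nat_lit 276)) (XT.nd (nat_lit 78) (nat_lit 76) (nat_lit 0) (XT.lf (nat_lit 0) (nat_lit 38243348527) (nat_lit 76) (nat_lit 15189371971) (nat_lit 76) (nat_lit 9424128483) (nat_lit 6) (nat_lit 4) (nat_lit 7) (nat_lit 5) (nat_lit 7) (nat_lit 4) (nat_lit 330) (nat_lit 295) (nat_lit 275)) (XT.lf (nat_lit 0) (nat_lit 1792385072) (nat_lit 152)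 (nat_lit 2086019279) (nat_lit 76) (nat_lit 67391151754) (nat_lit 5) (nat_lit 5) (nat_lit 7) (nat_lit 5) (nat_lit 6) (nat_lit 4) (nat_lit 331) (nat_lit 295) (nat_lit 274)))) (XT.nd (nat_lit 156) (nat_lit 76) (nat_lit 0) (XT.nd (nat_lit 78) (nat_lit 0) (nat_lit 0) (XT.lf (nat_lit 0) (nat_lit 14800977704) (nat_lit 152) (nat_lit 56692142618) (nat_lit 0) (nat_lit 9378075927) (nat_lit 4) (nat_lit 5) (nat_lit 6) (nat_lit 4) (nat_lit 4) (nat_lit 4) (nat_lit 332) (nat_lit 295) (nat_lit 273)) (XT.lf (nat_lit 0) (nat_lit 29768241127) (nat_lit 152) (nat_lit 37833189967) (nat_lit 0) (nat_lit 24311077121) (nat_lit 4) (nat_lit 5) (nat_lit 6) (nat_lit 4) (nat_lit 4) (nat_lit 4) (nat_lit 333) (nat_lit 295) (nat_lit 272))) (XT.nd (nat_lit 78) (nat_lit 76) (nat_lit 0) (XT.lf (nat_lit 0) (nat_lit 46839555068) (nat_lit 152) (nat_lit 16429161430) (nat_lit 0) (nat_lit 41352597819) (nat_lit 4) (nat_lit 5) (nat_lit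 6) (nat_lit 4) (nat_lit 4) (nat_lit 4) (nat_lit 334) (nat_lit 295) (nat_lit 271)) (XT.lf (nat_lit 0) (nat_lit 8356756257) (nat_lit 76) (nat_lit 58193147426) (nat_lit 76) (nat_lit 52680283009) (nat_lit 3) (nat_lit 4) (nat_lit 4) (nat_lit 5) (nat_lit 4) (nat_lit 4) (nat_lit 335) (nat_lit 295) (nat_lit 270))))) (XT.nd (nat_lit 234) (nat_lit 152) (nat_lit 0) (XT.nd (nat_lit 78) (nat_lit 0) (nat_lit 0) (XT.lf (nat_lit 0) (nat_lit 37629594270) (nat_lit 76) (nat_lit 51953449817) (nat_lit 76) (nat_lit 46418057428) (nat_lit 3) (nat_lit 4) (nat_lit 4) (nat_lit 5) (nat_lit 4) (nat_lit 4) (nat_lit 336) (nat_lit 295) (nat_lit 269)) (XT.nd (nat_lit 78) (nat_lit 0) (nat_lit 0) (XT.lf (nat_lit 0) (nat_lit 71096951523) (nat_lit 76) (nat_lit 44876745020) (nat_lit 76) (nat_lit 39321763090) (nat_lit 3) (nat_lit 4) (nat_lit 4) (nat_lit 5) (nat_lit 4) (nat_lit 4) (nat_lit 337) (nat_lit 295) (nat_lit 268)) (XT.lf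 (nat_lit 0) (nat_lit 109413624136) (nat_lit 76) (nat_lit 36824575768) (nat_lit 76) (nat_lit 31252559454) (nat_lit 3) (nat_lit 4) (nat_lit 4) (nat_lit 5) (nat_lit 4) (nat_lit 4) (nat_lit 338) (nat_lit 295) (nat_lit 267)))) (XT.nd (nat_lit 156) (nat_lit 152) (nat_lit 0) (XT.nd (nat_lit 78) (nat_lit 0) (nat_lit 0) (XT.lf (nat_lit 0) (nat_lit 153329286137) (nat_lit 76) (nat_lit 27639399617) (nat_lit 76) (nat_lit 22052570796) (nat_lit 3) (nat_lit 4) (nat_lit 4) (nat_lit 5) (nat_lit 4) (nat_lit 4) (nat_lit 339) (nat_lit 295) (nat_lit 266)) (XT.lf (nat_lit 0) (nat_lit 203703157000) (nat_lit 76) (nat_lit 17141506601) (nat_lit 76) (nat_lit 11541797339) (nat_lit 3) (nat_lit 4) (nat_lit 4) (nat_lit 5) (nat_lit 4) (nat_lit 4) (nat_lit 340) (nat_lit 295) (nat_lit 265))) (XT.nd (nat_lit 78) (nat_lit 76) (nat_lit 0) (XT.lf (nat_lit 0) (nat_lit 461124487) (nat_lit 152) (nat_lit 4651770711) (nat_lit 76)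 (nat_lit 261047080013) (nat_lit 2) (nat_lit 5) (nat_lit 4) (nat_lit 5) (nat_lit 3) (nat_lit 4) (nat_lit 341) (nat_lit 295) (nat_lit 264)) (XT.lf (nat_lit 0) (nat_lit 14353690644) (nat_lit 152) (nat_lit 281410652674) (nat_lit 0) (nat_lit 9149385913) (nat_lit 1) (nat_lit 5) (nat_lit 3) (nat_lit 4) (nat_lit 1) (nat_lit 4) (nat_lit 342) (nat_lit 295) (nat_lit 263)))))) (XT.nd (nat_lit 546) (nat_lit 0) (nat_lit 0) (XT.nd (nat_lit 234) (nat_lit 0) (nat_lit 0) (XT.nd (nat_lit 78) (nat_lit 0) (nat_lit 0) (XT.lf (nat_lit 0) (nat_lit 30563946339) (nat_lit 152) (nat_lit 293546099539) (nat_lit 0) (nat_lit 25351799850) (nat_lit 1) (nat_lit 5) (nat_lit 3) (nat_lit 4) (nat_lit 1) (nat_lit 4) (nat_lit 343) (nat_lit 295) (nat_lit 262)) (XT.nd (nat_lit 78) (nat_lit 0) (nat_lit 0) (XT.lf (nat_lit 0) (nat_lit 49165258283) (nat_lit 152) (nat_lit 307583870365) (nat_lit 0) (nat_lit 43946292874) (nat_lit 1) (nat_lit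 5) (nat_lit 3) (nat_lit 4) (nat_lit 1) (nat_lit 4) (nat_lit 344) (nat_lit 295) (nat_lit 261)) (XT.lf (nat_lit 0) (nat_lit 70521565189) (nat_lit 152) (nat_lit 323798617191) (nat_lit 0) (nat_lit 65296670283) (nat_lit 1) (nat_lit 5) (nat_lit 3) (nat_lit 4) (nat_lit 1) (nat_lit 4) (nat_lit 345) (nat_lit 295) (nat_lit 260)))) (XT.nd (nat_lit 156) (nat_lit 0) (nat_lit 0) (XT.nd (nat_lit 78) (nat_lit 0) (nat_lit 0) (XT.lf (nat_lit 0) (nat_lit 95050707842) (nat_lit 152) (nat_lit 342507585062) (nat_lit 0) (nat_lit 89820656853) (nat_lit 1) (nat_lit 5) (nat_lit 3) (nat_lit 4) (nat_lit 1) (nat_lit 4) (nat_lit 346) (nat_lit 295) (nat_lit 259)) (XT.lf (nat_lit 0) (nat_lit 123232604252) (nat_lit 152) (nat_lit 364076819003) (nat_lit 0) (nat_lit 117998069712) (nat_lit 1) (nat_lit 5) (nat_lit 3) (nat_lit 4) (nat_lit 1) (nat_lit 4) (nat_lit 347) (nat_lit 295) (nat_lit 258))) (XT.nd (nat_lit 78) (nat_lit 0)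 (nat_lit 0) (XT.lf (nat_lit 0) (nat_lit 155618639349) (nat_lit 152) (nat_lit 388928325765) (nat_lit 0) (nat_lit 150380206069) (nat_lit 1) (nat_lit 5) (nat_lit 3) (nat_lit 4) (nat_lit 1) (nat_lit 4) (nat_lit 348) (nat_lit 295) (nat_lit 257)) (XT.lf (nat_lit 0) (nat_lit 192842452949) (nat_lit 152) (nat_lit 417548330479) (nat_lit 0) (nat_lit 187600629461) (nat_lit 1) (nat_lit 5) (nat_lit 3) (nat_lit 4) (nat_lit 1) (nat_lit 4) (nat_lit 349) (nat_lit 295) (nat_lit 256))))) (XT.nd (nat_lit 312) (nat_lit 0) (nat_lit 0) (XT.nd (nat_lit 156) (nat_lit 0) (nat_lit 0) (XT.nd (nat_lit 78) (nat_lit 0) (nat_lit 0) (XT.lf (nat_lit 0) (nat_lit 235632337058) (nat_lit 152) (nat_lit 450496789761) (nat_lit 0) (nat_lit 230387565562) (nat_lit 1) (nat_lit 5) (nat_lit 3) (nat_lit 4) (nat_lit 1) (nat_lit 4) (nat_lit 350) (nat_lit 295) (nat_lit 255)) (XT.lf (nat_lit 0) (nat_lit 284825485060) (nat_lit 152) (nat_lit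 488418347377) (nat_lit 0) (nat_lit 279578150080) (nat_lit 1) (nat_lit 5) (nat_lit 3) (nat_lit 4) (nat_lit 1) (nat_lit 4) (nat_lit 351) (nat_lit 295) (nat_lit 254))) (XT.nd (nat_lit 78) (nat_lit 0) (nat_lit 0) (XT.lf (nat_lit 0) (nat_lit 341384371591) (nat_lit 152) (nat_lit 532054946847) (nat_lit 0) (nat_lit 336134807493) (nat_lit 1) (nat_lit 5) (nat_lit 3) (nat_lit 4) (nat_lit 1) (nat_lit 4) (nat_lit 352) (nat_lit 295) (nat_lit 253)) (XT.lf (nat_lit 0) (nat_lit 406415583561) (nat_lit 152) (nat_lit 582260347727) (nat_lit 0) (nat_lit 401164081100) (nat_lit 1) (nat_lit 5) (nat_lit 3) (nat_lit 4) (nat_lit 1) (nat_lit 4) (nat_lit 353) (nat_lit 295) (nat_lit 252)))) (XT.nd (nat_lit 156) (nat_lit 0) (nat_lit 0) (XT.nd (nat_lit 78) (nat_lit 0) (nat_lit 0) (XT.lf (nat_lit 0) (nat_lit 481191470768) (nat_lit 152) (nat_lit 640016829597) (nat_lit 0) (nat_lit 475938282775) (nat_lit 1) (nat_lit 5) (nat_lit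 3) (nat_lit 4) (nat_lit 1) (nat_lit 4) (nat_lit 354) (nat_lit 295) (nat_lit 251)) (XT.lf (nat_lit 0) (nat_lit 567175039703) (nat_lit 152) (nat_lit 706454410582) (nat_lit 0) (nat_lit 561920386029) (nat_lit 1) (nat_lit 5) (nat_lit 3) (nat_lit 4) (nat_lit 1) (nat_lit 4) (nat_lit 355) (nat_lit 295) (nat_lit 250))) (XT.nd (nat_lit 78) (nat_lit 0) (nat_lit 0) (XT.lf (nat_lit 0) (nat_lit 666048577583) (nat_lit 152) (nat_lit 782872956397) (nat_lit 0) (nat_lit 660792649404) (nat_lit 1) (nat_lit 5) (nat_lit 3) (nat_lit 4) (nat_lit 1) (nat_lit 4) (nat_lit 356) (nat_lit 295) (nat_lit 249)) (XT.lf (nat_lit 0) (nat_lit 779746566671) (nat_lit 152) (nat_lit 870767612503) (nat_lit 0) (nat_lit 774489530226) (nat_lit 1) (nat_lit 5) (nat_lit 3) (nat_lit 4) (nat_lit 1) (nat_lit 4) (nat_lit 357) (nat_lit 295) (nat_lit 248))))))))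
noncomputable def xc18 : XT := (XT.nd (nat_lit 43992) (nat_lit 0) (nat_lit 0) (XT.nd (nat_lit 1092) (nat_lit 0) (nat_lit 0) (XT.nd (nat_lit 546) (nat_lit 0) (nat_lit 0) (XT.nd (nat_lit 234) (nat_lit 0) (nat_lit 0) (XT.nd (nat_lit 78) (nat_lit 0) (nat_lit 0) (XT.lf (nat_lit 0) (nat_lit 910493532840) (nat_lit 152) (nat_lit 971858056954) (nat_lit 0) (nat_lit 905235532687) (nat_lit 1) (nat_lit 5) (nat_lit 3) (nat_lit 4) (nat_lit 1) (nat_lit 4) (nat_lit 358) (nat_lit 295) (nat_lit 247)) (XT.nd (nat_lit 78) (nat_lit 0) (nat_lit 0) (XT.lf (nat_lit 0) (nat_lit 1060847568908) (nat_lit 152) (nat_lit 1088122146273) (nat_lit 0) (nat_lit 1055588730747) (nat_lit 1) (nat_lit 5) (nat_lit 3) (nat_lit 4) (nat_lit 1) (nat_lit 4) (nat_lit 359) (nat_lit 295) (nat_lit 246)) (XT.lf (nat_lit 0) (nat_lit 1233750384275) (nat_lit 152) (nat_lit 1221834612642) (nat_lit 0) (nat_lit 1228490817411) (nat_lit 1) (nat_lit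 5) (nat_lit 3) (nat_lit 4) (nat_lit 1) (nat_lit 4) (nat_lit 360) (nat_lit 295) (nat_lit 245)))) (XT.nd (nat_lit 156) (nat_lit 0) (nat_lit 0) (XT.nd (nat_lit 78) (nat_lit 0) (nat_lit 0) (XT.lf (nat_lit 0) (nat_lit 1432584860111) (nat_lit 152) (nat_lit 1375611569533) (nat_lit 0) (nat_lit 1427324659594) (nat_lit 1) (nat_lit 5) (nat_lit 3) (nat_lit 4) (nat_lit 1) (nat_lit 4) (nat_lit 361) (nat_lit 295) (nat_lit 244)) (XT.lf (nat_lit 0) (nat_lit 1661241236161) (nat_lit 152) (nat_lit 1552461696537) (nat_lit 0) (nat_lit 1655980484640) (nat_lit 1) (nat_lit 5) (nat_lit 3) (nat_lit 4) (nat_lit 1) (nat_lit 4) (nat_lit 362) (nat_lit 295) (nat_lit 243))) (XT.nd (nat_lit 78) (nat_lit 0) (nat_lit 0) (XT.lf (nat_lit 0) (nat_lit 1924193224131) (nat_lit 152) (nat_lit 1755845104836) (nat_lit 0) (nat_lit 1918931993477) (nat_lit 1) (nat_lit 5) (nat_lit 3) (nat_lit 4) (nat_lit 1) (nat_lit 4) (nat_lit 363) (nat_lit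 295) (nat_lit 242)) (XT.lf (nat_lit 0) (nat_lit 2226585536829) (nat_lit 152) (nat_lit 1989741035025) (nat_lit 0) (nat_lit 2221323889536) (nat_lit 1) (nat_lit 5) (nat_lit 3) (nat_lit 4) (nat_lit 1) (nat_lit 4) (nat_lit 364) (nat_lit 295) (nat_lit 241))))) (XT.nd (nat_lit 234) (nat_lit 0) (nat_lit 0) (XT.nd (nat_lit 78) (nat_lit 0) (nat_lit 0) (XT.lf (nat_lit 0) (nat_lit 2574334545589) (nat_lit 152) (nat_lit 2258725711827) (nat_lit 0) (nat_lit 2569072536003) (nat_lit 1) (nat_lit 5) (nat_lit 3) (nat_lit 4) (nat_lit 1) (nat_lit 4) (nat_lit 365) (nat_lit 295) (nat_lit 240)) (XT.nd (nat_lit 78) (nat_lit 0) (nat_lit 0) (XT.lf (nat_lit 0) (nat_lit 2974244035366) (nat_lit 152) (nat_lit 2568061878917) (nat_lit 0) (nat_lit 2968981710742) (nat_lit 1) (nat_lit 5) (nat_lit 3) (nat_lit 4) (nat_lit 1) (nat_lit 4) (nat_lit 366) (nat_lit 295) (nat_lit 239)) (XT.lf (nat_lit 0) (nat_lit 3434138322265) (nat_lit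 152) (nat_lit 2923801765653) (nat_lit 0) (nat_lit 3428875723694) (nat_lit 1) (nat_lit 5) (nat_lit 3) (nat_lit 4) (nat_lit 1) (nat_lit 4) (nat_lit 367) (nat_lit 295) (nat_lit 238)))) (XT.nd (nat_lit 156) (nat_lit 0) (nat_lit 0) (XT.nd (nat_lit 78) (nat_lit 0) (nat_lit 0) (XT.lf (nat_lit 0) (nat_lit 3963015337985) (nat_lit 152) (nat_lit 3332905500252) (nat_lit 0) (nat_lit 3957752501200) (nat_lit 1) (nat_lit 5) (nat_lit 3) (nat_lit 4) (nat_lit 1) (nat_lit 4) (nat_lit 368) (nat_lit 295) (nat_lit 237)) (XT.lf (nat_lit 0) (nat_lit 4571222676312) (nat_lit 152) (nat_lit 3803377286218) (nat_lit 0) (nat_lit 4565959632385) (nat_lit 1) (nat_lit 5) (nat_lit 3) (nat_lit 4) (nat_lit 1) (nat_lit 4) (nat_lit 369) (nat_lit 295) (nat_lit 236))) (XT.nd (nat_lit 78) (nat_lit 0) (nat_lit 0) (XT.lf (nat_lit 0) (nat_lit 5270660046040) (nat_lit 152) (nat_lit 4344422006319) (nat_lit 0) (nat_lit 5265396821989) (nat_lit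 1) (nat_lit 5) (nat_lit 3) (nat_lit 4) (nat_lit 1) (nat_lit 4) (nat_lit 370) (nat_lit 295) (nat_lit 235)) (XT.lf (nat_lit 0) (nat_lit 6075012091359) (nat_lit 152) (nat_lit 4966625318123) (nat_lit 0) (nat_lit 6069748710678) (nat_lit 1) (nat_lit 5) (nat_lit 3) (nat_lit 4) (nat_lit 1) (nat_lit 4) (nat_lit 371) (nat_lit 295) (nat_lit 234)))))) (XT.nd (nat_lit 42354) (nat_lit 0) (nat_lit 1140) (XT.nd (nat_lit 42042) (nat_lit 0) (nat_lit 2204) (XT.nd (nat_lit 41886) (nat_lit 0) (nat_lit 3116) (XT.lf (nat_lit 0) (nat_lit 7000016134895) (nat_lit 152) (nat_lit 5682160764687) (nat_lit 0) (nat_lit 6994752618014) (nat_lit 1) (nat_lit 5) (nat_lit 3) (nat_lit 4) (nat_lit 1) (nat_lit 4) (nat_lit 372) (nat_lit 295) (nat_lit 233)) (XT.nd (nat_lit 78) (nat_lit 456) (nat_lit 0) (XT.lf (nat_lit 0) (nat_lit 2503064624) (nat_lit 228) (nat_lit 754075909) (nat_lit 228) (nat_lit 754075909) (nat_lit 48) (nat_lit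 4) (nat_lit 51) (nat_lit 5) (nat_lit 51) (nat_lit 4) (nat_lit 308) (nat_lit 296) (nat_lit 296)) (XT.lf (nat_lit 0) (nat_lit 479103072) (nat_lit 228) (nat_lit 4988340202) (nat_lit 228) (nat_lit 2999832591) (nat_lit 42) (nat_lit 4) (nat_lit 45) (nat_lit 5) (nat_lit 45) (nat_lit 4) (nat_lit 309) (nat_lit 296) (nat_lit 295)))) (XT.nd (nat_lit 156) (nat_lit 456) (nat_lit 0) (XT.nd (nat_lit 78) (nat_lit 228) (nat_lit 0) (XT.lf (nat_lit 0) (nat_lit 3932132841) (nat_lit 228) (nat_lit 4567633769) (nat_lit 0) (nat_lit 489869262) (nat_lit 39) (nat_lit 5) (nat_lit 42) (nat_lit 4) (nat_lit 39) (nat_lit 4) (nat_lit 310) (nat_lit 296) (nat_lit 294)) (XT.lf (nat_lit 0) (nat_lit 1834826769) (nat_lit 228) (nat_lit 1018043748) (nat_lit 76) (nat_lit 6743753074) (nat_lit 36) (nat_lit 5) (nat_lit 39) (nat_lit 5) (nat_lit 37) (nat_lit 4) (nat_lit 311) (nat_lit 296) (nat_lit 293))) (XT.nd (nat_lit 78) (nat_lit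 152) (nat_lit 0) (XT.lf (nat_lit 0) (nat_lit 2821572760) (nat_lit 152) (nat_lit 6534439396) (nat_lit 152) (nat_lit 937115890) (nat_lit 32) (nat_lit 4) (nat_lit 34) (nat_lit 5) (nat_lit 34) (nat_lit 4) (nat_lit 312) (nat_lit 296) (nat_lit 292)) (XT.lf (nat_lit 0) (nat_lit 6457619564) (nat_lit 152) (nat_lit 4259879112) (nat_lit 0) (nat_lit 372376415) (nat_lit 30) (nat_lit 5) (nat_lit 32) (nat_lit 4) (nat_lit 30) (nat_lit 4) (nat_lit 313) (nat_lit 296) (nat_lit 291))))) (XT.nd (nat_lit 234) (nat_lit 456) (nat_lit 0) (XT.nd (nat_lit 78) (nat_lit 380) (nat_lit 0) (XT.lf (nat_lit 0) (nat_lit 2772356249) (nat_lit 228) (nat_lit 1103556236) (nat_lit 76) (nat_lit 8121787652) (nat_lit 27) (nat_lit 5) (nat_lit 30) (nat_lit 5) (nat_lit 28) (nat_lit 4) (nat_lit 314) (nat_lit 296) (nat_lit 290)) (XT.nd (nat_lit 78) (nat_lit 152) (nat_lit 0) (XT.lf (nat_lit 0) (nat_lit 2088950271) (nat_lit 152) (nat_lit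 8966557005) (nat_lit 152) (nat_lit 1973497498) (nat_lit 24) (nat_lit 4) (nat_lit 26) (nat_lit 5) (nat_lit 26) (nat_lit 4) (nat_lit 315) (nat_lit 296) (nat_lit 289)) (XT.lf (nat_lit 0) (nat_lit 5152082907) (nat_lit 76) (nat_lit 951098186) (nat_lit 152) (nat_lit 8095377234) (nat_lit 22) (nat_lit 5) (nat_lit 23) (nat_lit 5) (nat_lit 24) (nat_lit 4) (nat_lit 316) (nat_lit 296) (nat_lit 288)))) (XT.nd (nat_lit 156) (nat_lit 228) (nat_lit 0) (XT.nd (nat_lit 78) (nat_lit 152) (nat_lit 0) (XT.lf (nat_lit 0) (nat_lit 7918443726) (nat_lit 76) (nat_lit 7517276512) (nat_lit 76) (nat_lit 91038111) (nat_lit 21) (nat_lit 4) (nat_lit 22) (nat_lit 5) (nat_lit 22) (nat_lit 4) (nat_lit 317) (nat_lit 296) (nat_lit 287)) (XT.lf (nat_lit 0) (nat_lit 8717372429) (nat_lit 152) (nat_lit 6829686354) (nat_lit 0) (nat_lit 1485017357) (nat_lit 19) (nat_lit 5) (nat_lit 21) (nat_lit 4) (nat_lit 19) (nat_lit 4) (nat_lit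 318) (nat_lit 296) (nat_lit 286))) (XT.nd (nat_lit 78) (nat_lit 76) (nat_lit 0) (XT.lf (nat_lit 0) (nat_lit 317530637) (nat_lit 152) (nat_lit 6881637784) (nat_lit 76) (nat_lit 11544394493) (nat_lit 17) (nat_lit 5) (nat_lit 19) (nat_lit 5) (nat_lit 18) (nat_lit 4) (nat_lit 319) (nat_lit 296) (nat_lit 285)) (XT.lf (nat_lit 0) (nat_lit 9888530121) (nat_lit 152) (nat_lit 8139474518) (nat_lit 0) (nat_lit 2655709530) (nat_lit 16) (nat_lit 5) (nat_lit 18) (nat_lit 4) (nat_lit 16) (nat_lit 4) (nat_lit 320) (nat_lit 296) (nat_lit 284))))))) (XT.nd (nat_lit 1092) (nat_lit 228) (nat_lit 0) (XT.nd (nat_lit 546) (nat_lit 380) (nat_lit 0) (XT.nd (nat_lit 234) (nat_lit 228) (nat_lit 0) (XT.nd (nat_lit 78) (nat_lit 228) (nat_lit 0) (XT.lf (nat_lit 0) (nat_lit 11991357936) (nat_lit 76) (nat_lit 9175780632) (nat_lit 76) (nat_lit 1726096330) (nat_lit 15) (nat_lit 4) (nat_lit 16) (nat_lit 5) (nat_lit 16) (nat_lit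 4) (nat_lit 321) (nat_lit 296) (nat_lit 283)) (XT.nd (nat_lit 78) (nat_lit 76) (nat_lit 0) (XT.lf (nat_lit 0) (nat_lit 8384402134) (nat_lit 152) (nat_lit 15711867864) (nat_lit 0) (nat_lit 1311937836) (nat_lit 13) (nat_lit 5) (nat_lit 15) (nat_lit 4) (nat_lit 13) (nat_lit 4) (nat_lit 322) (nat_lit 296) (nat_lit 282)) (XT.lf (nat_lit 0) (nat_lit 4994319008) (nat_lit 76) (nat_lit 15250042017) (nat_lit 76) (nat_lit 8025744272) (nat_lit 12) (nat_lit 4) (nat_lit 13) (nat_lit 5) (nat_lit 13) (nat_lit 4) (nat_lit 323) (nat_lit 296) (nat_lit 281)))) (XT.nd (nat_lit 156) (nat_lit 76) (nat_lit 0) (XT.nd (nat_lit 78) (nat_lit 76) (nat_lit 0) (XT.lf (nat_lit 0) (nat_lit 2331240152) (nat_lit 152) (nat_lit 2507347309) (nat_lit 76) (nat_lit 26708261007) (nat_lit 11) (nat_lit 5) (nat_lit 13) (nat_lit 5) (nat_lit 12) (nat_lit 4) (nat_lit 324) (nat_lit 296) (nat_lit 280)) (XT.lf (nat_lit 0) (nat_lit 14185730326)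 (nat_lit 152) (nat_lit 13811199933) (nat_lit 0) (nat_lit 7268012987) (nat_lit 10) (nat_lit 5) (nat_lit 12) (nat_lit 4) (nat_lit 10) (nat_lit 4) (nat_lit 325) (nat_lit 296) (nat_lit 279))) (XT.nd (nat_lit 78) (nat_lit 0) (nat_lit 0) (XT.lf (nat_lit 0) (nat_lit 9409812470) (nat_lit 76) (nat_lit 18564339267) (nat_lit 76) (nat_lit 11554184006) (nat_lit 9) (nat_lit 4) (nat_lit 10) (nat_lit 5) (nat_lit 10) (nat_lit 4) (nat_lit 326) (nat_lit 296) (nat_lit 278)) (XT.lf (nat_lit 0) (nat_lit 36445882008) (nat_lit 76) (nat_lit 7532079750) (nat_lit 76) (nat_lit 441543688) (nat_lit 9) (nat_lit 4) (nat_lit 10) (nat_lit 5) (nat_lit 10) (nat_lit 4) (nat_lit 327) (nat_lit 296) (nat_lit 277))))) (XT.nd (nat_lit 234) (nat_lit 152) (nat_lit 0) (XT.nd (nat_lit 78) (nat_lit 76) (nat_lit 0) (XT.lf (nat_lit 0) (nat_lit 12054559668) (nat_lit 152) (nat_lit 32514852779) (nat_lit 0) (nat_lit 5424529658) (nat_lit 7)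 (nat_lit 5) (nat_lit 9) (nat_lit 4) (nat_lit 7) (nat_lit 4) (nat_lit 328) (nat_lit 296) (nat_lit 276)) (XT.nd (nat_lit 78) (nat_lit 76) (nat_lit 0) (XT.lf (nat_lit 0) (nat_lit 26633492122) (nat_lit 152) (nat_lit 9804212016) (nat_lit 0) (nat_lit 19947184858) (nat_lit 7) (nat_lit 5) (nat_lit 9) (nat_lit 4) (nat_lit 7) (nat_lit 4) (nat_lit 329) (nat_lit 296) (nat_lit 275)) (XT.lf (nat_lit 0) (nat_lit 16783703931) (nat_lit 76) (nat_lit 26834272210) (nat_lit 76) (nat_lit 20099028203) (nat_lit 6) (nat_lit 4) (nat_lit 7) (nat_lit 5) (nat_lit 7) (nat_lit 4) (nat_lit 330) (nat_lit 296) (nat_lit 274)))) (XT.nd (nat_lit 156) (nat_lit 0) (nat_lit 0) (XT.nd (nat_lit 78) (nat_lit 152) (nat_lit 0) (XT.lf (nat_lit 0) (nat_lit 47615837168) (nat_lit 76) (nat_lit 15650798788) (nat_lit 76) (nat_lit 8873001092) (nat_lit 6) (nat_lit 4) (nat_lit 7) (nat_lit 5) (nat_lit 7) (nat_lit 4) (nat_lit 331) (nat_lit 296)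 (nat_lit 273)) (XT.lf (nat_lit 0) (nat_lit 893123699) (nat_lit 76) (nat_lit 2812609282) (nat_lit 152) (nat_lit 78122521248) (nat_lit 4) (nat_lit 5) (nat_lit 5) (nat_lit 5) (nat_lit 6) (nat_lit 4) (nat_lit 332) (nat_lit 296) (nat_lit 272))) (XT.nd (nat_lit 78) (nat_lit 0) (nat_lit 0) (XT.lf (nat_lit 0) (nat_lit 18539753551) (nat_lit 152) (nat_lit 62140519215) (nat_lit 0) (nat_lit 12199959472) (nat_lit 4) (nat_lit 5) (nat_lit 6) (nat_lit 4) (nat_lit 4) (nat_lit 4) (nat_lit 333) (nat_lit 296) (nat_lit 271)) (XT.lf (nat_lit 0) (nat_lit 35554024420) (nat_lit 152) (nat_lit 40851259945) (nat_lit 0) (nat_lit 29188323172) (nat_lit 4) (nat_lit 5) (nat_lit 6) (nat_lit 4) (nat_lit 4) (nat_lit 4) (nat_lit 334) (nat_lit 296) (nat_lit 270)))))) (XT.nd (nat_lit 546) (nat_lit 152) (nat_lit 0) (XT.nd (nat_lit 234) (nat_lit 0) (nat_lit 0) (XT.nd (nat_lit 78) (nat_lit 76) (nat_lit 0) (XT.lf (nat_lit 0) (nat_lit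 55013790175) (nat_lit 152) (nat_lit 16583180412) (nat_lit 0) (nat_lit 48625560955) (nat_lit 4) (nat_lit 5) (nat_lit 6) (nat_lit 4) (nat_lit 4) (nat_lit 4) (nat_lit 335) (nat_lit 296) (nat_lit 269)) (XT.nd (nat_lit 78) (nat_lit 0) (nat_lit 0) (XT.lf (nat_lit 0) (nat_lit 11725064865) (nat_lit 76) (nat_lit 65856708590) (nat_lit 76) (nat_lit 59448889830) (nat_lit 3) (nat_lit 4) (nat_lit 4) (nat_lit 5) (nat_lit 4) (nat_lit 4) (nat_lit 336) (nat_lit 296) (nat_lit 268)) (XT.lf (nat_lit 0) (nat_lit 45112985732) (nat_lit 76) (nat_lit 58820022985) (nat_lit 76) (nat_lit 52395169842) (nat_lit 3) (nat_lit 4) (nat_lit 4) (nat_lit 5) (nat_lit 4) (nat_lit 4) (nat_lit 337) (nat_lit 296) (nat_lit 267)))) (XT.nd (nat_lit 156) (nat_lit 0) (nat_lit 0) (XT.nd (nat_lit 78) (nat_lit 0) (nat_lit 0) (XT.lf (nat_lit 0) (nat_lit 83360583227) (nat_lit 76) (nat_lit 50802653030) (nat_lit 76) (nat_lit 44362987380) (nat_lit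 3) (nat_lit 4) (nat_lit 4) (nat_lit 5) (nat_lit 4) (nat_lit 4) (nat_lit 338) (nat_lit 296) (nat_lit 266)) (XT.lf (nat_lit 0) (nat_lit 127216179908) (nat_lit 76) (nat_lit 41647737139) (nat_lit 76) (nat_lit 35195191047) (nat_lit 3) (nat_lit 4) (nat_lit 4) (nat_lit 5) (nat_lit 4) (nat_lit 4) (nat_lit 339) (nat_lit 296) (nat_lit 265))) (XT.nd (nat_lit 78) (nat_lit 0) (nat_lit 0) (XT.lf (nat_lit 0) (nat_lit 177537820059) (nat_lit 76) (nat_lit 31176157391) (nat_lit 76) (nat_lit 24712410915) (nat_lit 3) (nat_lit 4) (nat_lit 4) (nat_lit 5) (nat_lit 4) (nat_lit 4) (nat_lit 340) (nat_lit 296) (nat_lit 264)) (XT.lf (nat_lit 0) (nat_lit 235310057509) (nat_lit 76) (nat_lit 19183035053) (nat_lit 76) (nat_lit 12709549113) (nat_lit 3) (nat_lit 4) (nat_lit 4) (nat_lit 5) (nat_lit 4) (nat_lit 4) (nat_lit 341) (nat_lit 296) (nat_lit 263))))) (XT.nd (nat_lit 312) (nat_lit 0) (nat_lit 0) (XT.nd (nat_lit 156)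 (nat_lit 0) (nat_lit 0) (XT.nd (nat_lit 78) (nat_lit 76) (nat_lit 0) (XT.lf (nat_lit 0) (nat_lit 995796101) (nat_lit 152) (nat_lit 4410699147) (nat_lit 76) (nat_lit 300640195710) (nat_lit 2) (nat_lit 5) (nat_lit 4) (nat_lit 5) (nat_lit 3) (nat_lit 4) (nat_lit 342) (nat_lit 296) (nat_lit 262)) (XT.lf (nat_lit 0) (nat_lit 16942632955) (nat_lit 152) (nat_lit 322739245706) (nat_lit 0) (nat_lit 10934003814) (nat_lit 1) (nat_lit 5) (nat_lit 3) (nat_lit 4) (nat_lit 1) (nat_lit 4) (nat_lit 343) (nat_lit 296) (nat_lit 261))) (XT.nd (nat_lit 78) (nat_lit 0) (nat_lit 0) (XT.lf (nat_lit 0) (nat_lit 35527571955) (nat_lit 152) (nat_lit 336810184149) (nat_lit 0) (nat_lit 29513013318) (nat_lit 1) (nat_lit 5) (nat_lit 3) (nat_lit 4) (nat_lit 1) (nat_lit 4) (nat_lit 344) (nat_lit 296) (nat_lit 260)) (XT.lf (nat_lit 0) (nat_lit 56869641517) (nat_lit 152) (nat_lit 353053772380) (nat_lit 0) (nat_lit 50849926796)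 (nat_lit 1) (nat_lit 5) (nat_lit 3) (nat_lit 4) (nat_lit 1) (nat_lit 4) (nat_lit 345) (nat_lit 296) (nat_lit 259)))) (XT.nd (nat_lit 156) (nat_lit 0) (nat_lit 0) (XT.nd (nat_lit 78) (nat_lit 0) (nat_lit 0) (XT.lf (nat_lit 0) (nat_lit 81386403872) (nat_lit 152) (nat_lit 371787819735) (nat_lit 0) (nat_lit 75362205601) (nat_lit 1) (nat_lit 5) (nat_lit 3) (nat_lit 4) (nat_lit 1) (nat_lit 4) (nat_lit 346) (nat_lit 296) (nat_lit 258)) (XT.lf (nat_lit 0) (nat_lit 109557534806) (nat_lit 152) (nat_lit 393378861922) (nat_lit 0) (nat_lit 103529437794) (nat_lit 1) (nat_lit 5) (nat_lit 3) (nat_lit 4) (nat_lit 1) (nat_lit 4) (nat_lit 347) (nat_lit 296) (nat_lit 257))) (XT.nd (nat_lit 78) (nat_lit 0) (nat_lit 0) (XT.lf (nat_lit 0) (nat_lit 141934208618) (nat_lit 152) (nat_lit 418249332376) (nat_lit 0) (nat_lit 135902721398) (nat_lit 1) (nat_lit 5) (nat_lit 3) (nat_lit 4) (nat_lit 1) (nat_lit 4) (nat_lit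 348) (nat_lit 296) (nat_lit 256)) (XT.lf (nat_lit 0) (nat_lit 179149881971) (nat_lit 152) (nat_lit 446885827257) (nat_lit 0) (nat_lit 173115446744) (nat_lit 1) (nat_lit 5) (nat_lit 3) (nat_lit 4) (nat_lit 1) (nat_lit 4) (nat_lit 349) (nat_lit 296) (nat_lit 255))))))))
noncomputable def xc19 : XT := (XT.nd (nat_lit 43914) (nat_lit 0) (nat_lit 152) (XT.nd (nat_lit 1092) (nat_lit 0) (nat_lit 0) (XT.nd (nat_lit 546) (nat_lit 0) (nat_lit 0) (XT.nd (nat_lit 234) (nat_lit 0) (nat_lit 0) (XT.nd (nat_lit 78) (nat_lit 0) (nat_lit 0) (XT.lf (nat_lit 0) (nat_lit 221932687605) (nat_lit 152) (nat_lit 479848625815) (nat_lit 0) (nat_lit 215895688892) (nat_lit 1) (nat_lit 5) (nat_lit 3) (nat_lit 4) (nat_lit 1) (nat_lit 4) (nat_lit 350) (nat_lit 296) (nat_lit 254)) (XT.nd (nat_lit 78) (nat_lit 0) (nat_lit 0) (XT.lf (nat_lit 0) (nat_lit 271119680411) (nat_lit 152) (nat_lit 517782652367) (nat_lit 0) (nat_lit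 265080452581) (nat_lit 1) (nat_lit 5) (nat_lit 3) (nat_lit 4) (nat_lit 1) (nat_lit 4) (nat_lit 351) (nat_lit 296) (nat_lit 253)) (XT.lf (nat_lit 0) (nat_lit 327673214597) (nat_lit 152) (nat_lit 561430094390) (nat_lit 0) (nat_lit 321632048405) (nat_lit 1) (nat_lit 5) (nat_lit 3) (nat_lit 4) (nat_lit 1) (nat_lit 4) (nat_lit 352) (nat_lit 296) (nat_lit 252)))) (XT.nd (nat_lit 156) (nat_lit 0) (nat_lit 0) (XT.nd (nat_lit 78) (nat_lit 0) (nat_lit 0) (XT.lf (nat_lit 0) (nat_lit 392699772354) (nat_lit 152) (nat_lit 611644923575) (nat_lit 0) (nat_lit 386656920629) (nat_lit 1) (nat_lit 5) (nat_lit 3) (nat_lit 4) (nat_lit 1) (nat_lit 4) (nat_lit 353) (nat_lit 296) (nat_lit 251)) (XT.lf (nat_lit 0) (nat_lit 467471612420) (nat_lit 152) (nat_lit 669409603973) (nat_lit 0) (nat_lit 461427295014) (nat_lit 1) (nat_lit 5) (nat_lit 3) (nat_lit 4) (nat_lit 1) (nat_lit 4) (nat_lit 354) (nat_lit 296) (nat_lit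 250))) (XT.nd (nat_lit 78) (nat_lit 0) (nat_lit 0) (XT.lf (nat_lit 0) (nat_lit 553451662101) (nat_lit 152) (nat_lit 735854314113) (nat_lit 0) (nat_lit 547406070190) (nat_lit 1) (nat_lit 5) (nat_lit 3) (nat_lit 4) (nat_lit 1) (nat_lit 4) (nat_lit 355) (nat_lit 296) (nat_lit 249)) (XT.lf (nat_lit 0) (nat_lit 652322139760) (nat_lit 152) (nat_lit 812279059192) (nat_lit 0) (nat_lit 646275439584) (nat_lit 1) (nat_lit 5) (nat_lit 3) (nat_lit 4) (nat_lit 1) (nat_lit 4) (nat_lit 356) (nat_lit 296) (nat_lit 248))))) (XT.nd (nat_lit 234) (nat_lit 0) (nat_lit 0) (XT.nd (nat_lit 78) (nat_lit 0) (nat_lit 0) (XT.lf (nat_lit 0) (nat_lit 766017467787) (nat_lit 152) (nat_lit 900179105963) (nat_lit 0) (nat_lit 759969803902) (nat_lit 1) (nat_lit 5) (nat_lit 3) (nat_lit 4) (nat_lit 1) (nat_lit 4) (nat_lit 357) (nat_lit 296) (nat_lit 247)) (XT.nd (nat_lit 78) (nat_lit 0) (nat_lit 0) (XT.lf (nat_lit 0) (nat_lit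 896762119991) (nat_lit 152) (nat_lit 1001274237950) (nat_lit 0) (nat_lit 890713618098) (nat_lit 1) (nat_lit 5) (nat_lit 3) (nat_lit 4) (nat_lit 1) (nat_lit 4) (nat_lit 358) (nat_lit 296) (nat_lit 246)) (XT.lf (nat_lit 0) (nat_lit 1047114143913) (nat_lit 152) (nat_lit 1117542403386) (nat_lit 0) (nat_lit 1041064913319) (nat_lit 1) (nat_lit 5) (nat_lit 3) (nat_lit 4) (nat_lit 1) (nat_lit 4) (nat_lit 359) (nat_lit 296) (nat_lit 245)))) (XT.nd (nat_lit 156) (nat_lit 0) (nat_lit 0) (XT.nd (nat_lit 78) (nat_lit 0) (nat_lit 0) (XT.lf (nat_lit 0) (nat_lit 1220015209589) (nat_lit 152) (nat_lit 1251258414204) (nat_lit 0) (nat_lit 1213965345340) (nat_lit 1) (nat_lit 5) (nat_lit 3) (nat_lit 4) (nat_lit 1) (nat_lit 4) (nat_lit 360) (nat_lit 296) (nat_lit 244)) (XT.lf (nat_lit 0) (nat_lit 1418848163955) (nat_lit 152) (nat_lit 1405038453225) (nat_lit 0) (nat_lit 1412797748702) (nat_lit 1) (nat_lit 5) (nat_lit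 3) (nat_lit 4) (nat_lit 1) (nat_lit 4) (nat_lit 361) (nat_lit 296) (nat_lit 243))) (XT.nd (nat_lit 78) (nat_lit 0) (nat_lit 0) (XT.lf (nat_lit 0) (nat_lit 1647503216988) (nat_lit 152) (nat_lit 1581891260343) (nat_lit 0) (nat_lit 1641452322601) (nat_lit 1) (nat_lit 5) (nat_lit 3) (nat_lit 4) (nat_lit 1) (nat_lit 4) (nat_lit 362) (nat_lit 296) (nat_lit 242)) (XT.lf (nat_lit 0) (nat_lit 1910454054508) (nat_lit 152) (nat_lit 1785276999174) (nat_lit 0) (nat_lit 1904402743483) (nat_lit 1) (nat_lit 5) (nat_lit 3) (nat_lit 4) (nat_lit 1) (nat_lit 4) (nat_lit 363) (nat_lit 296) (nat_lit 241)))))) (XT.nd (nat_lit 546) (nat_lit 0) (nat_lit 0) (XT.nd (nat_lit 234) (nat_lit 0) (nat_lit 0) (XT.nd (nat_lit 78) (nat_lit 0) (nat_lit 0) (XT.lf (nat_lit 0) (nat_lit 2212845366814) (nat_lit 152) (nat_lit 2019174955914) (nat_lit 0) (nat_lit 2206793693495) (nat_lit 1) (nat_lit 5) (nat_lit 3) (nat_lit 4) (nat_lit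 1) (nat_lit 4) (nat_lit 364) (nat_lit 296) (nat_lit 240)) (XT.nd (nat_lit 78) (nat_lit 0) (nat_lit 0) (XT.lf (nat_lit 0) (nat_lit 2560593505668) (nat_lit 152) (nat_lit 2288161394934) (nat_lit 0) (nat_lit 2554541517312) (nat_lit 1) (nat_lit 5) (nat_lit 3) (nat_lit 4) (nat_lit 1) (nat_lit 4) (nat_lit 365) (nat_lit 296) (nat_lit 239)) (XT.lf (nat_lit 0) (nat_lit 2960502239006) (nat_lit 152) (nat_lit 2597499094388) (nat_lit 0) (nat_lit 2954449976703) (nat_lit 1) (nat_lit 5) (nat_lit 3) (nat_lit 4) (nat_lit 1) (nat_lit 4) (nat_lit 366) (nat_lit 296) (nat_lit 238)))) (XT.nd (nat_lit 156) (nat_lit 0) (nat_lit 0) (XT.nd (nat_lit 78) (nat_lit 0) (nat_lit 0) (XT.lf (nat_lit 0) (nat_lit 3420395868131) (nat_lit 152) (nat_lit 2953240313613) (nat_lit 0) (nat_lit 3414343367614) (nat_lit 1) (nat_lit 5) (nat_lit 3) (nat_lit 4) (nat_lit 1) (nat_lit 4) (nat_lit 367) (nat_lit 296) (nat_lit 237)) (XT.lf (nat_lit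 0) (nat_lit 3949272311874) (nat_lit 152) (nat_lit 3362345206899) (nat_lit 0) (nat_lit 3943219604214) (nat_lit 1) (nat_lit 5) (nat_lit 3) (nat_lit 4) (nat_lit 1) (nat_lit 4) (nat_lit 368) (nat_lit 296) (nat_lit 236))) (XT.nd (nat_lit 78) (nat_lit 0) (nat_lit 0) (XT.lf (nat_lit 0) (nat_lit 4557479152830) (nat_lit 152) (nat_lit 3832818000419) (nat_lit 0) (nat_lit 4551426265046) (nat_lit 1) (nat_lit 5) (nat_lit 3) (nat_lit 4) (nat_lit 1) (nat_lit 4) (nat_lit 369) (nat_lit 296) (nat_lit 235)) (XT.lf (nat_lit 0) (nat_lit 5256916090061) (nat_lit 152) (nat_lit 4373863596654) (nat_lit 0) (nat_lit 5250863045648) (nat_lit 1) (nat_lit 5) (nat_lit 3) (nat_lit 4) (nat_lit 1) (nat_lit 4) (nat_lit 370) (nat_lit 296) (nat_lit 234))))) (XT.nd (nat_lit 41964) (nat_lit 0) (nat_lit 2660) (XT.nd (nat_lit 41808) (nat_lit 0) (nat_lit 3800) (XT.nd (nat_lit 78) (nat_lit 0) (nat_lit 0) (XT.lf (nat_lit 0) (nat_lit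 6061267759296) (nat_lit 152) (nat_lit 4996067670314) (nat_lit 0) (nat_lit 6055214578683) (nat_lit 1) (nat_lit 5) (nat_lit 3) (nat_lit 4) (nat_lit 1) (nat_lit 4) (nat_lit 371) (nat_lit 296) (nat_lit 233)) (XT.lf (nat_lit 0) (nat_lit 6986271475802) (nat_lit 152) (nat_lit 5711603779361) (nat_lit 0) (nat_lit 6980218176755) (nat_lit 1) (nat_lit 5) (nat_lit 3) (nat_lit 4) (nat_lit 1) (nat_lit 4) (nat_lit 372) (nat_lit 296) (nat_lit 232))) (XT.nd (nat_lit 78) (nat_lit 684) (nat_lit 0) (XT.lf (nat_lit 0) (nat_lit 1498252496) (nat_lit 532) (nat_lit 662634433) (nat_lit 0) (nat_lit 1498252496) (nat_lit 60) (nat_lit 5) (nat_lit 67) (nat_lit 4) (nat_lit 60) (nat_lit 4) (nat_lit 306) (nat_lit 297) (nat_lit 297)) (XT.lf (nat_lit 0) (nat_lit 1397454946) (nat_lit 228) (nat_lit 556756359) (nat_lit 304) (nat_lit 5698044719) (nat_lit 51) (nat_lit 5) (nat_lit 54) (nat_lit 5) (nat_lit 55) (nat_lit 4) (nat_lit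 307) (nat_lit 297) (nat_lit 296)))) (XT.nd (nat_lit 156) (nat_lit 684) (nat_lit 0) (XT.nd (nat_lit 78) (nat_lit 152) (nat_lit 0) (XT.lf (nat_lit 0) (nat_lit 497788838) (nat_lit 304) (nat_lit 3581913890) (nat_lit 76) (nat_lit 3974576240) (nat_lit 47) (nat_lit 5) (nat_lit 51) (nat_lit 5) (nat_lit 48) (nat_lit 4) (nat_lit 308) (nat_lit 297) (nat_lit 295)) (XT.lf (nat_lit 0) (nat_lit 6933511904) (nat_lit 228) (nat_lit 671162982) (nat_lit 0) (nat_lit 929083484) (nat_lit 45) (nat_lit 5) (nat_lit 48) (nat_lit 4) (nat_lit 45) (nat_lit 4) (nat_lit 309) (nat_lit 297) (nat_lit 294))) (XT.nd (nat_lit 78) (nat_lit 228) (nat_lit 0) (XT.lf (nat_lit 0) (nat_lit 2556593516) (nat_lit 152) (nat_lit 2282165797) (nat_lit 228) (nat_lit 4248811055) (nat_lit 39) (nat_lit 5) (nat_lit 41) (nat_lit 5) (nat_lit 42) (nat_lit 4) (nat_lit 310) (nat_lit 297) (nat_lit 293)) (XT.lf (nat_lit 0) (nat_lit 2159344095) (nat_lit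 228) (nat_lit 3671066030) (nat_lit 76) (nat_lit 3898338529) (nat_lit 36) (nat_lit 5) (nat_lit 39) (nat_lit 5) (nat_lit 37) (nat_lit 4) (nat_lit 311) (nat_lit 297) (nat_lit 292))))))) (XT.nd (nat_lit 1092) (nat_lit 532) (nat_lit 0) (XT.nd (nat_lit 546) (nat_lit 684) (nat_lit 0) (XT.nd (nat_lit 234) (nat_lit 608) (nat_lit 0) (XT.nd (nat_lit 78) (nat_lit 532) (nat_lit 0) (XT.lf (nat_lit 0) (nat_lit 9162775754) (nat_lit 228) (nat_lit 673949372) (nat_lit 0) (nat_lit 630164668) (nat_lit 34) (nat_lit 5) (nat_lit 37) (nat_lit 4) (nat_lit 34) (nat_lit 4) (nat_lit 312) (nat_lit 297) (nat_lit 291)) (XT.nd (nat_lit 78) (nat_lit 228) (nat_lit 0) (XT.lf (nat_lit 0) (nat_lit 2453147908) (nat_lit 76) (nat_lit 3235966614) (nat_lit 152) (nat_lit 5608991895) (nat_lit 30) (nat_lit 5) (nat_lit 31) (nat_lit 5) (nat_lit 32) (nat_lit 4) (nat_lit 313) (nat_lit 297) (nat_lit 290)) (XT.lf (nat_lit 0) (nat_lit 1364522130)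 (nat_lit 228) (nat_lit 6529620908) (nat_lit 76) (nat_lit 4352204591) (nat_lit 27) (nat_lit 5) (nat_lit 30) (nat_lit 5) (nat_lit 28) (nat_lit 4) (nat_lit 314) (nat_lit 297) (nat_lit 289)))) (XT.nd (nat_lit 156) (nat_lit 304) (nat_lit 0) (XT.nd (nat_lit 78) (nat_lit 228) (nat_lit 0) (XT.lf (nat_lit 0) (nat_lit 8970197160) (nat_lit 76) (nat_lit 131464522) (nat_lit 152) (nat_lit 4219793481) (nat_lit 26) (nat_lit 5) (nat_lit 27) (nat_lit 5) (nat_lit 28) (nat_lit 4) (nat_lit 315) (nat_lit 297) (nat_lit 288)) (XT.lf (nat_lit 0) (nat_lit 3485473032) (nat_lit 228) (nat_lit 2451407891) (nat_lit 76) (nat_lit 8597250357) (nat_lit 23) (nat_lit 5) (nat_lit 26) (nat_lit 5) (nat_lit 24) (nat_lit 4) (nat_lit 316) (nat_lit 297) (nat_lit 287))) (XT.nd (nat_lit 78) (nat_lit 228) (nat_lit 0) (XT.lf (nat_lit 0) (nat_lit 12218251540) (nat_lit 152) (nat_lit 841184549) (nat_lit 0) (nat_lit 2850961465) (nat_lit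 22) (nat_lit 5) (nat_lit 24) (nat_lit 4) (nat_lit 22) (nat_lit 4) (nat_lit 317) (nat_lit 297) (nat_lit 286)) (XT.lf (nat_lit 0) (nat_lit 252921527) (nat_lit 76) (nat_lit 4533010085) (nat_lit 152) (nat_lit 12677619026) (nat_lit 19) (nat_lit 5) (nat_lit 20) (nat_lit 5) (nat_lit 21) (nat_lit 4) (nat_lit 318) (nat_lit 297) (nat_lit 285))))) (XT.nd (nat_lit 234) (nat_lit 456) (nat_lit 0) (XT.nd (nat_lit 78) (nat_lit 152) (nat_lit 0) (XT.lf (nat_lit 0) (nat_lit 671632594) (nat_lit 76) (nat_lit 13901272270) (nat_lit 76) (nat_lit 4648764367) (nat_lit 18) (nat_lit 4) (nat_lit 19) (nat_lit 5) (nat_lit 19) (nat_lit 4) (nat_lit 319) (nat_lit 297) (nat_lit 284)) (XT.nd (nat_lit 78) (nat_lit 0) (nat_lit 0) (XT.lf (nat_lit 0) (nat_lit 88048486) (nat_lit 76) (nat_lit 4515205935) (nat_lit 152) (nat_lit 16611680898) (nat_lit 16) (nat_lit 5) (nat_lit 17) (nat_lit 5) (nat_lit 18) (nat_lit 4) (nat_lit 320)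 (nat_lit 297) (nat_lit 283)) (XT.lf (nat_lit 0) (nat_lit 15314566155) (nat_lit 152) (nat_lit 1813327136) (nat_lit 0) (nat_lit 6341988356) (nat_lit 16) (nat_lit 5) (nat_lit 18) (nat_lit 4) (nat_lit 16) (nat_lit 4) (nat_lit 321) (nat_lit 297) (nat_lit 282)))) (XT.nd (nat_lit 156) (nat_lit 228) (nat_lit 0) (XT.nd (nat_lit 78) (nat_lit 76) (nat_lit 0) (XT.lf (nat_lit 0) (nat_lit 1803082435) (nat_lit 152) (nat_lit 5386146454) (nat_lit 76) (nat_lit 18845926519) (nat_lit 14) (nat_lit 5) (nat_lit 16) (nat_lit 5) (nat_lit 15) (nat_lit 4) (nat_lit 322) (nat_lit 297) (nat_lit 281)) (XT.lf (nat_lit 0) (nat_lit 13081552705) (nat_lit 152) (nat_lit 11372300795) (nat_lit 0) (nat_lit 4489747770) (nat_lit 13) (nat_lit 5) (nat_lit 15) (nat_lit 4) (nat_lit 13) (nat_lit 4) (nat_lit 323) (nat_lit 297) (nat_lit 280))) (XT.nd (nat_lit 78) (nat_lit 152) (nat_lit 0) (XT.lf (nat_lit 0) (nat_lit 11873001665) (nat_lit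 76) (nat_lit 14546290060) (nat_lit 76) (nat_lit 5839677226) (nat_lit 12) (nat_lit 4) (nat_lit 13) (nat_lit 5) (nat_lit 13) (nat_lit 4) (nat_lit 324) (nat_lit 297) (nat_lit 279)) (XT.lf (nat_lit 0) (nat_lit 2731137573) (nat_lit 76) (nat_lit 2815777504) (nat_lit 152) (nat_lit 30502206497) (nat_lit 10) (nat_lit 5) (nat_lit 11) (nat_lit 5) (nat_lit 12) (nat_lit 4) (nat_lit 325) (nat_lit 297) (nat_lit 278)))))) (XT.nd (nat_lit 546) (nat_lit 228) (nat_lit 0) (XT.nd (nat_lit 234) (nat_lit 152) (nat_lit 0) (XT.nd (nat_lit 78) (nat_lit 152) (nat_lit 0) (XT.lf (nat_lit 0) (nat_lit 18928361651) (nat_lit 152) (nat_lit 10722863872) (nat_lit 0) (nat_lit 10693864378) (nat_lit 10) (nat_lit 5) (nat_lit 12) (nat_lit 4) (nat_lit 10) (nat_lit 4) (nat_lit 326) (nat_lit 297) (nat_lit 277)) (XT.nd (nat_lit 78) (nat_lit 76) (nat_lit 0) (XT.lf (nat_lit 0) (nat_lit 15544530733) (nat_lit 76) (nat_lit 19013052541)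 (nat_lit 76) (nat_lit 10708658919) (nat_lit 9) (nat_lit 4) (nat_lit 10) (nat_lit 5) (nat_lit 10) (nat_lit 4) (nat_lit 327) (nat_lit 297) (nat_lit 276)) (XT.lf (nat_lit 0) (nat_lit 1647763155) (nat_lit 152) (nat_lit 4937825693) (nat_lit 76) (nat_lit 44327119165) (nat_lit 8) (nat_lit 5) (nat_lit 10) (nat_lit 5) (nat_lit 9) (nat_lit 4) (nat_lit 328) (nat_lit 297) (nat_lit 275)))) (XT.nd (nat_lit 156) (nat_lit 76) (nat_lit 0) (XT.nd (nat_lit 78) (nat_lit 0) (nat_lit 0) (XT.lf (nat_lit 0) (nat_lit 15854039716) (nat_lit 152) (nat_lit 33419866158) (nat_lit 0) (nat_lit 8059572366) (nat_lit 7) (nat_lit 5) (nat_lit 9) (nat_lit 4) (nat_lit 7) (nat_lit 4) (nat_lit 329) (nat_lit 297) (nat_lit 274)) (XT.lf (nat_lit 0) (nat_lit 32360077764) (nat_lit 152) (nat_lit 7820744221) (nat_lit 0) (nat_lit 24523056726) (nat_lit 7) (nat_lit 5) (nat_lit 9) (nat_lit 4) (nat_lit 7) (nat_lit 4) (nat_lit 330) (nat_lit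 297) (nat_lit 273))) (XT.nd (nat_lit 78) (nat_lit 0) (nat_lit 0) (XT.lf (nat_lit 0) (nat_lit 22462986792) (nat_lit 76) (nat_lit 29279431321) (nat_lit 76) (nat_lit 21405407074) (nat_lit 6) (nat_lit 4) (nat_lit 7) (nat_lit 5) (nat_lit 7) (nat_lit 4) (nat_lit 331) (nat_lit 297) (nat_lit 272)) (XT.lf (nat_lit 0) (nat_lit 57507540805) (nat_lit 76) (nat_lit 16624521457) (nat_lit 76) (nat_lit 8718320508) (nat_lit 6) (nat_lit 4) (nat_lit 7) (nat_lit 5) (nat_lit 7) (nat_lit 4) (nat_lit 332) (nat_lit 297) (nat_lit 271))))) (XT.nd (nat_lit 312) (nat_lit 76) (nat_lit 0) (XT.nd (nat_lit 156) (nat_lit 0) (nat_lit 0) (XT.nd (nat_lit 78) (nat_lit 0) (nat_lit 0) (XT.lf (nat_lit 0) (nat_lit 3611870222) (nat_lit 76) (nat_lit 1939115793) (nat_lit 152) (nat_lit 88448221762) (nat_lit 4) (nat_lit 5) (nat_lit 5) (nat_lit 5) (nat_lit 6) (nat_lit 4) (nat_lit 333) (nat_lit 297) (nat_lit 270)) (XT.lf (nat_lit 0) (nat_lit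 22469018431) (nat_lit 152) (nat_lit 69151241865) (nat_lit 0) (nat_lit 15100026856) (nat_lit 4) (nat_lit 5) (nat_lit 6) (nat_lit 4) (nat_lit 4) (nat_lit 4) (nat_lit 334) (nat_lit 297) (nat_lit 269))) (XT.nd (nat_lit 78) (nat_lit 0) (nat_lit 0) (XT.lf (nat_lit 0) (nat_lit 41885651428) (nat_lit 152) (nat_lit 44969944386) (nat_lit 0) (nat_lit 34497070313) (nat_lit 4) (nat_lit 5) (nat_lit 6) (nat_lit 4) (nat_lit 4) (nat_lit 4) (nat_lit 335) (nat_lit 297) (nat_lit 268)) (XT.lf (nat_lit 0) (nat_lit 64134139870) (nat_lit 152) (nat_lit 17323696995) (nat_lit 0) (nat_lit 56728524372) (nat_lit 4) (nat_lit 5) (nat_lit 6) (nat_lit 4) (nat_lit 4) (nat_lit 4) (nat_lit 336) (nat_lit 297) (nat_lit 267)))) (XT.nd (nat_lit 156) (nat_lit 0) (nat_lit 0) (XT.nd (nat_lit 78) (nat_lit 0) (nat_lit 0) (XT.lf (nat_lit 0) (nat_lit 15082913570) (nat_lit 76) (nat_lit 74929611136) (nat_lit 76) (nat_lit 67509183130) (nat_lit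 3) (nat_lit 4) (nat_lit 4) (nat_lit 5) (nat_lit 4) (nat_lit 4) (nat_lit 337) (nat_lit 297) (nat_lit 266)) (XT.lf (nat_lit 0) (nat_lit 53270445745) (nat_lit 76) (nat_lit 66942501440) (nat_lit 76) (nat_lit 59509192993) (nat_lit 3) (nat_lit 4) (nat_lit 4) (nat_lit 5) (nat_lit 4) (nat_lit 4) (nat_lit 338) (nat_lit 297) (nat_lit 265))) (XT.nd (nat_lit 78) (nat_lit 0) (nat_lit 0) (XT.lf (nat_lit 0) (nat_lit 97073811713) (nat_lit 76) (nat_lit 57813898817) (nat_lit 76) (nat_lit 50369389986) (nat_lit 3) (nat_lit 4) (nat_lit 4) (nat_lit 5) (nat_lit 4) (nat_lit 4) (nat_lit 339) (nat_lit 297) (nat_lit 264)) (XT.lf (nat_lit 0) (nat_lit 147350033853) (nat_lit 76) (nat_lit 47365200172) (nat_lit 76) (nat_lit 39910951877) (nat_lit 3) (nat_lit 4) (nat_lit 4) (nat_lit 5) (nat_lit 4) (nat_lit 4) (nat_lit 340) (nat_lit 297) (nat_lit 263))))))))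
noncomputable def xc20 : XT := (XT.nd (nat_lit 2184) (nat_lit 0) (nat_lit 0) (XT.nd (nat_lit 1092) (nat_lit 0) (nat_lit 0) (XT.nd (nat_lit 546) (nat_lit 0) (nat_lit 0) (XT.nd (nat_lit 234) (nat_lit 76) (nat_lit 0) (XT.nd (nat_lit 78) (nat_lit 76) (nat_lit 0) (XT.lf (nat_lit 0) (nat_lit 205082777380) (nat_lit 76) (nat_lit 35391974445) (nat_lit 76) (nat_lit 27929257051) (nat_lit 3) (nat_lit 4) (nat_lit 4) (nat_lit 5) (nat_lit 4) (nat_lit 4) (nat_lit 341) (nat_lit 297) (nat_lit 262)) (XT.nd (nat_lit 78) (nat_lit 76) (nat_lit 0) (XT.lf (nat_lit 0) (nat_lit 271401595971) (nat_lit 76) (nat_lit 21659962872) (nat_lit 76) (nat_lit 14189881044) (nat_lit 3) (nat_lit 4) (nat_lit 4) (nat_lit 5) (nat_lit 4) (nat_lit 4) (nat_lit 342) (nat_lit 297) (nat_lit 261)) (XT.lf (nat_lit 0) (nat_lit 1497152618) (nat_lit 152) (nat_lit 4362408237) (nat_lit 76) (nat_lit 346065944306) (nat_lit 2) (nat_lit 5) (nat_lit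 4) (nat_lit 5) (nat_lit 3) (nat_lit 4) (nat_lit 343) (nat_lit 297) (nat_lit 260)))) (XT.nd (nat_lit 156) (nat_lit 0) (nat_lit 0) (XT.nd (nat_lit 78) (nat_lit 0) (nat_lit 0) (XT.lf (nat_lit 0) (nat_lit 19813622390) (nat_lit 152) (nat_lit 370482454022) (nat_lit 0) (nat_lit 12885794378) (nat_lit 1) (nat_lit 5) (nat_lit 3) (nat_lit 4) (nat_lit 1) (nat_lit 4) (nat_lit 344) (nat_lit 297) (nat_lit 259)) (XT.lf (nat_lit 0) (nat_lit 41143311654) (nat_lit 152) (nat_lit 386751121736) (nat_lit 0) (nat_lit 34211000091) (nat_lit 1) (nat_lit 5) (nat_lit 3) (nat_lit 4) (nat_lit 1) (nat_lit 4) (nat_lit 345) (nat_lit 297) (nat_lit 258))) (XT.nd (nat_lit 78) (nat_lit 0) (nat_lit 0) (XT.lf (nat_lit 0) (nat_lit 65649308532) (nat_lit 152) (nat_lit 405506977337) (nat_lit 0) (nat_lit 58713098229) (nat_lit 1) (nat_lit 5) (nat_lit 3) (nat_lit 4) (nat_lit 1) (nat_lit 4) (nat_lit 346) (nat_lit 297) (nat_lit 257))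 (XT.lf (nat_lit 0) (nat_lit 93811078182) (nat_lit 152) (nat_lit 427116983217) (nat_lit 0) (nat_lit 86871477670) (nat_lit 1) (nat_lit 5) (nat_lit 3) (nat_lit 4) (nat_lit 1) (nat_lit 4) (nat_lit 347) (nat_lit 297) (nat_lit 256))))) (XT.nd (nat_lit 234) (nat_lit 0) (nat_lit 0) (XT.nd (nat_lit 78) (nat_lit 0) (nat_lit 0) (XT.lf (nat_lit 0) (nat_lit 126179611747) (nat_lit 152) (nat_lit 452003943838) (nat_lit 0) (nat_lit 119237063228) (nat_lit 1) (nat_lit 5) (nat_lit 3) (nat_lit 4) (nat_lit 1) (nat_lit 4) (nat_lit 348) (nat_lit 297) (nat_lit 255)) (XT.nd (nat_lit 78) (nat_lit 0) (nat_lit 0) (XT.lf (nat_lit 0) (nat_lit 163388206624) (nat_lit 152) (nat_lit 480654777995) (nat_lit 0) (nat_lit 156443094620) (nat_lit 1) (nat_lit 5) (nat_lit 3) (nat_lit 4) (nat_lit 1) (nat_lit 4) (nat_lit 349) (nat_lit 297) (nat_lit 254)) (XT.lf (nat_lit 0) (nat_lit 206164857061) (nat_lit 152) (nat_lit 513630045488)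 (nat_lit 0) (nat_lit 199217515940) (nat_lit 1) (nat_lit 5) (nat_lit 3) (nat_lit 4) (nat_lit 1) (nat_lit 4) (nat_lit 350) (nat_lit 297) (nat_lit 253)))) (XT.nd (nat_lit 156) (nat_lit 0) (nat_lit 0) (XT.nd (nat_lit 78) (nat_lit 0) (nat_lit 0) (XT.lf (nat_lit 0) (nat_lit 255346497523) (nat_lit 152) (nat_lit 551574914593) (nat_lit 0) (nat_lit 248397218039) (nat_lit 1) (nat_lit 5) (nat_lit 3) (nat_lit 4) (nat_lit 1) (nat_lit 4) (nat_lit 351) (nat_lit 297) (nat_lit 252)) (XT.lf (nat_lit 0) (nat_lit 311895377496) (nat_lit 152) (nat_lit 595231784922) (nat_lit 0) (nat_lit 304944412480) (nat_lit 1) (nat_lit 5) (nat_lit 3) (nat_lit 4) (nat_lit 1) (nat_lit 4) (nat_lit 352) (nat_lit 297) (nat_lit 251))) (XT.nd (nat_lit 78) (nat_lit 0) (nat_lit 0) (XT.lf (nat_lit 0) (nat_lit 376917888112) (nat_lit 152) (nat_lit 645454812636) (nat_lit 0) (nat_lit 369965457414) (nat_lit 1) (nat_lit 5) (nat_lit 3) (nat_lit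 4) (nat_lit 1) (nat_lit 4) (nat_lit 353) (nat_lit 297) (nat_lit 250)) (XT.lf (nat_lit 0) (nat_lit 451686208924) (nat_lit 152) (nat_lit 703226622188) (nat_lit 0) (nat_lit 444732503722) (nat_lit 1) (nat_lit 5) (nat_lit 3) (nat_lit 4) (nat_lit 1) (nat_lit 4) (nat_lit 354) (nat_lit 297) (nat_lit 249)))))) (XT.nd (nat_lit 546) (nat_lit 0) (nat_lit 0) (XT.nd (nat_lit 234) (nat_lit 0) (nat_lit 0) (XT.nd (nat_lit 78) (nat_lit 0) (nat_lit 0) (XT.lf (nat_lit 0) (nat_lit 537663198385) (nat_lit 152) (nat_lit 769677531592) (nat_lit 0) (nat_lit 530708384917) (nat_lit 1) (nat_lit 5) (nat_lit 3) (nat_lit 4) (nat_lit 1) (nat_lit 4) (nat_lit 355) (nat_lit 297) (nat_lit 248)) (XT.nd (nat_lit 78) (nat_lit 0) (nat_lit 0) (XT.lf (nat_lit 0) (nat_lit 636531014983) (nat_lit 152) (nat_lit 846107667337) (nat_lit 0) (nat_lit 629575237807) (nat_lit 1) (nat_lit 5) (nat_lit 3) (nat_lit 4) (nat_lit 1) (nat_lit 4) (nat_lit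 356) (nat_lit 297) (nat_lit 247)) (XT.lf (nat_lit 0) (nat_lit 750224029044) (nat_lit 152) (nat_lit 934012401642) (nat_lit 0) (nat_lit 743267413860) (nat_lit 1) (nat_lit 5) (nat_lit 3) (nat_lit 4) (nat_lit 1) (nat_lit 4) (nat_lit 357) (nat_lit 297) (nat_lit 246)))) (XT.nd (nat_lit 156) (nat_lit 0) (nat_lit 0) (XT.nd (nat_lit 78) (nat_lit 0) (nat_lit 0) (XT.lf (nat_lit 0) (nat_lit 880966669103) (nat_lit 152) (nat_lit 1035111609746) (nat_lit 0) (nat_lit 874009325216) (nat_lit 1) (nat_lit 5) (nat_lit 3) (nat_lit 4) (nat_lit 1) (nat_lit 4) (nat_lit 358) (nat_lit 297) (nat_lit 245)) (XT.lf (nat_lit 0) (nat_lit 1031316943335) (nat_lit 152) (nat_lit 1151383319632) (nat_lit 0) (nat_lit 1024358965794) (nat_lit 1) (nat_lit 5) (nat_lit 3) (nat_lit 4) (nat_lit 1) (nat_lit 4) (nat_lit 359) (nat_lit 297) (nat_lit 244))) (XT.nd (nat_lit 78) (nat_lit 0) (nat_lit 0) (XT.lf (nat_lit 0) (nat_lit 1204216487540)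 (nat_lit 152) (nat_lit 1285102412580) (nat_lit 0) (nat_lit 1197257958996) (nat_lit 1) (nat_lit 5) (nat_lit 3) (nat_lit 4) (nat_lit 1) (nat_lit 4) (nat_lit 360) (nat_lit 297) (nat_lit 243)) (XT.lf (nat_lit 0) (nat_lit 1403048118888) (nat_lit 152) (nat_lit 1438885131714) (nat_lit 0) (nat_lit 1396089111210) (nat_lit 1) (nat_lit 5) (nat_lit 3) (nat_lit 4) (nat_lit 1) (nat_lit 4) (nat_lit 361) (nat_lit 297) (nat_lit 242))))) (XT.nd (nat_lit 234) (nat_lit 0) (nat_lit 0) (XT.nd (nat_lit 78) (nat_lit 0) (nat_lit 0) (XT.lf (nat_lit 0) (nat_lit 1631702021471) (nat_lit 152) (nat_lit 1615740269365) (nat_lit 0) (nat_lit 1624742597155) (nat_lit 1) (nat_lit 5) (nat_lit 3) (nat_lit 4) (nat_lit 1) (nat_lit 4) (nat_lit 362) (nat_lit 297) (nat_lit 241)) (XT.nd (nat_lit 78) (nat_lit 0) (nat_lit 0) (XT.lf (nat_lit 0) (nat_lit 1894651858599) (nat_lit 152) (nat_lit 1819128034747) (nat_lit 0) (nat_lit 1887692071989)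 (nat_lit 1) (nat_lit 5) (nat_lit 3) (nat_lit 4) (nat_lit 1) (nat_lit 4) (nat_lit 363) (nat_lit 297) (nat_lit 240)) (XT.lf (nat_lit 0) (nat_lit 2197042300999) (nat_lit 152) (nat_lit 2053027753705) (nat_lit 0) (nat_lit 2190082199351) (nat_lit 1) (nat_lit 5) (nat_lit 3) (nat_lit 4) (nat_lit 1) (nat_lit 4) (nat_lit 364) (nat_lit 297) (nat_lit 239)))) (XT.nd (nat_lit 156) (nat_lit 0) (nat_lit 0) (XT.nd (nat_lit 78) (nat_lit 0) (nat_lit 0) (XT.lf (nat_lit 0) (nat_lit 2544789683414) (nat_lit 152) (nat_lit 2322015725088) (nat_lit 0) (nat_lit 2537829307820) (nat_lit 1) (nat_lit 5) (nat_lit 3) (nat_lit 4) (nat_lit 1) (nat_lit 4) (nat_lit 365) (nat_lit 297) (nat_lit 238)) (XT.lf (nat_lit 0) (nat_lit 2944697758978) (nat_lit 152) (nat_lit 2631354757032) (nat_lit 0) (nat_lit 2937737145170) (nat_lit 1) (nat_lit 5) (nat_lit 3) (nat_lit 4) (nat_lit 1) (nat_lit 4) (nat_lit 366) (nat_lit 297) (nat_lit 237)))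 (XT.nd (nat_lit 78) (nat_lit 0) (nat_lit 0) (XT.lf (nat_lit 0) (nat_lit 3404590816126) (nat_lit 152) (nat_lit 2987097134944) (nat_lit 0) (nat_lit 3397629995175) (nat_lit 1) (nat_lit 5) (nat_lit 3) (nat_lit 4) (nat_lit 1) (nat_lit 4) (nat_lit 367) (nat_lit 297) (nat_lit 236)) (XT.lf (nat_lit 0) (nat_lit 3933466762498) (nat_lit 152) (nat_lit 3396203035784) (nat_lit 0) (nat_lit 3926505761423) (nat_lit 1) (nat_lit 5) (nat_lit 3) (nat_lit 4) (nat_lit 1) (nat_lit 4) (nat_lit 368) (nat_lit 297) (nat_lit 235))))))) (XT.nd (nat_lit 42588) (nat_lit 0) (nat_lit 608) (XT.nd (nat_lit 42042) (nat_lit 0) (nat_lit 2280) (XT.nd (nat_lit 234) (nat_lit 0) (nat_lit 0) (XT.nd (nat_lit 78) (nat_lit 0) (nat_lit 0) (XT.lf (nat_lit 0) (nat_lit 4541673170957) (nat_lit 152) (nat_lit 3866676705438) (nat_lit 0) (nat_lit 4534712013252) (nat_lit 1) (nat_lit 5) (nat_lit 3) (nat_lit 4) (nat_lit 1) (nat_lit 4) (nat_lit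 369) (nat_lit 297) (nat_lit 234)) (XT.nd (nat_lit 78) (nat_lit 0) (nat_lit 0) (XT.lf (nat_lit 0) (nat_lit 5241109732104) (nat_lit 152) (nat_lit 4407723063528) (nat_lit 0) (nat_lit 5234148438200) (nat_lit 1) (nat_lit 5) (nat_lit 3) (nat_lit 4) (nat_lit 1) (nat_lit 4) (nat_lit 370) (nat_lit 297) (nat_lit 233)) (XT.lf (nat_lit 0) (nat_lit 6045461074309) (nat_lit 152) (nat_lit 5029927799671) (nat_lit 0) (nat_lit 6038499661970) (nat_lit 1) (nat_lit 5) (nat_lit 3) (nat_lit 4) (nat_lit 1) (nat_lit 4) (nat_lit 371) (nat_lit 297) (nat_lit 232)))) (XT.nd (nat_lit 41652) (nat_lit 0) (nat_lit 4484) (XT.nd (nat_lit 41574) (nat_lit 0) (nat_lit 5396) (XT.lf (nat_lit 0) (nat_lit 6970464506441) (nat_lit 152) (nat_lit 5745464484790) (nat_lit 0) (nat_lit 6963502991116) (nat_lit 1) (nat_lit 5) (nat_lit 3) (nat_lit 4) (nat_lit 1) (nat_lit 4) (nat_lit 372) (nat_lit 297) (nat_lit 231)) (XT.lf (nat_lit 0) (nat_lit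 411830704) (nat_lit 380) (nat_lit 2590266541) (nat_lit 0) (nat_lit 411830704) (nat_lit 72) (nat_lit 5) (nat_lit 77) (nat_lit 4) (nat_lit 72) (nat_lit 4) (nat_lit 304) (nat_lit 298) (nat_lit 298))) (XT.nd (nat_lit 78) (nat_lit 532) (nat_lit 0) (XT.lf (nat_lit 0) (nat_lit 3419585698) (nat_lit 380) (nat_lit 3474276317) (nat_lit 380) (nat_lit 161484041) (nat_lit 67) (nat_lit 4) (nat_lit 72) (nat_lit 5) (nat_lit 72) (nat_lit 4) (nat_lit 305) (nat_lit 298) (nat_lit 297)) (XT.lf (nat_lit 0) (nat_lit 5564934241) (nat_lit 456) (nat_lit 88150111) (nat_lit 532) (nat_lit 1698652295) (nat_lit 60) (nat_lit 5) (nat_lit 66) (nat_lit 5) (nat_lit 67) (nat_lit 4) (nat_lit 306) (nat_lit 298) (nat_lit 296))))) (XT.nd (nat_lit 234) (nat_lit 1064) (nat_lit 0) (XT.nd (nat_lit 78) (nat_lit 456) (nat_lit 0) (XT.lf (nat_lit 0) (nat_lit 321778004) (nat_lit 228) (nat_lit 3705086470) (nat_lit 304) (nat_lit 3687819145)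 (nat_lit 51) (nat_lit 5) (nat_lit 54) (nat_lit 5) (nat_lit 55) (nat_lit 4) (nat_lit 307) (nat_lit 298) (nat_lit 295)) (XT.nd (nat_lit 78) (nat_lit 152) (nat_lit 0) (XT.lf (nat_lit 0) (nat_lit 1940711921) (nat_lit 304) (nat_lit 5288287318) (nat_lit 76) (nat_lit 921562934) (nat_lit 47) (nat_lit 5) (nat_lit 51) (nat_lit 5) (nat_lit 48) (nat_lit 4) (nat_lit 308) (nat_lit 298) (nat_lit 294)) (XT.lf (nat_lit 0) (nat_lit 5659973837) (nat_lit 152) (nat_lit 2325039232) (nat_lit 228) (nat_lit 676676048) (nat_lit 45) (nat_lit 5) (nat_lit 47) (nat_lit 5) (nat_lit 48) (nat_lit 4) (nat_lit 309) (nat_lit 298) (nat_lit 293)))) (XT.nd (nat_lit 156) (nat_lit 380) (nat_lit 0) (XT.nd (nat_lit 78) (nat_lit 380) (nat_lit 0) (XT.lf (nat_lit 0) (nat_lit 5235646673) (nat_lit 304) (nat_lit 555158125) (nat_lit 76) (nat_lit 3461626704) (nat_lit 41) (nat_lit 5) (nat_lit 45) (nat_lit 5) (nat_lit 42) (nat_lit 4) (nat_lit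 310) (nat_lit 298) (nat_lit 292)) (XT.lf (nat_lit 0) (nat_lit 1900927846) (nat_lit 228) (nat_lit 7696291272) (nat_lit 76) (nat_lit 334467485) (nat_lit 36) (nat_lit 5) (nat_lit 39) (nat_lit 5) (nat_lit 37) (nat_lit 4) (nat_lit 311) (nat_lit 298) (nat_lit 291))) (XT.nd (nat_lit 78) (nat_lit 228) (nat_lit 0) (XT.lf (nat_lit 0) (nat_lit 5158200405) (nat_lit 152) (nat_lit 3362871108) (nat_lit 228) (nat_lit 2179607430) (nat_lit 34) (nat_lit 5) (nat_lit 36) (nat_lit 5) (nat_lit 37) (nat_lit 4) (nat_lit 312) (nat_lit 298) (nat_lit 290)) (XT.lf (nat_lit 0) (nat_lit 4341151349) (nat_lit 228) (nat_lit 3342289045) (nat_lit 76) (nat_lit 3891592363) (nat_lit 31) (nat_lit 5) (nat_lit 34) (nat_lit 5) (nat_lit 32) (nat_lit 4) (nat_lit 313) (nat_lit 298) (nat_lit 289)))))) (XT.nd (nat_lit 546) (nat_lit 684) (nat_lit 0) (XT.nd (nat_lit 234) (nat_lit 380) (nat_lit 0) (XT.nd (nat_lit 78) (nat_lit 532) (nat_lit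 0) (XT.lf (nat_lit 0) (nat_lit 11494547738) (nat_lit 76) (nat_lit 287826477) (nat_lit 152) (nat_lit 788207023) (nat_lit 30) (nat_lit 5) (nat_lit 31) (nat_lit 5) (nat_lit 32) (nat_lit 4) (nat_lit 314) (nat_lit 298) (nat_lit 288)) (XT.nd (nat_lit 78) (nat_lit 228) (nat_lit 0) (XT.lf (nat_lit 0) (nat_lit 1057360945) (nat_lit 76) (nat_lit 5491806919) (nat_lit 152) (nat_lit 7133279007) (nat_lit 26) (nat_lit 5) (nat_lit 27) (nat_lit 5) (nat_lit 28) (nat_lit 4) (nat_lit 315) (nat_lit 298) (nat_lit 287)) (XT.lf (nat_lit 0) (nat_lit 162004980) (nat_lit 228) (nat_lit 11712685396) (nat_lit 76) (nat_lit 3070581715) (nat_lit 23) (nat_lit 5) (nat_lit 26) (nat_lit 5) (nat_lit 24) (nat_lit 4) (nat_lit 316) (nat_lit 298) (nat_lit 286)))) (XT.nd (nat_lit 156) (nat_lit 152) (nat_lit 0) (XT.nd (nat_lit 78) (nat_lit 152) (nat_lit 0) (XT.lf (nat_lit 0) (nat_lit 5051794589) (nat_lit 76) (nat_lit 3343752809) (nat_lit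 152) (nat_lit 7966004117) (nat_lit 22) (nat_lit 5) (nat_lit 23) (nat_lit 5) (nat_lit 24) (nat_lit 4) (nat_lit 317) (nat_lit 298) (nat_lit 285)) (XT.lf (nat_lit 0) (nat_lit 184180618) (nat_lit 152) (nat_lit 11399411435) (nat_lit 76) (nat_lit 6382730337) (nat_lit 20) (nat_lit 5) (nat_lit 22) (nat_lit 5) (nat_lit 21) (nat_lit 4) (nat_lit 318) (nat_lit 298) (nat_lit 284))) (XT.nd (nat_lit 78) (nat_lit 76) (nat_lit 0) (XT.lf (nat_lit 0) (nat_lit 7444409313) (nat_lit 76) (nat_lit 1920911007) (nat_lit 152) (nat_lit 10407639340) (nat_lit 19) (nat_lit 5) (nat_lit 20) (nat_lit 5) (nat_lit 21) (nat_lit 4) (nat_lit 319) (nat_lit 298) (nat_lit 283)) (XT.lf (nat_lit 0) (nat_lit 7531815638) (nat_lit 76) (nat_lit 12816261660) (nat_lit 76) (nat_lit 1468656723) (nat_lit 18) (nat_lit 4) (nat_lit 19) (nat_lit 5) (nat_lit 19) (nat_lit 4) (nat_lit 320) (nat_lit 298) (nat_lit 282))))) (XT.nd (nat_lit 312) (nat_lit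 304) (nat_lit 0) (XT.nd (nat_lit 156) (nat_lit 152) (nat_lit 0) (XT.nd (nat_lit 78) (nat_lit 76) (nat_lit 0) (XT.lf (nat_lit 0) (nat_lit 6466974486) (nat_lit 76) (nat_lit 2182870683) (nat_lit 152) (nat_lit 15477999521) (nat_lit 16) (nat_lit 5) (nat_lit 17) (nat_lit 5) (nat_lit 18) (nat_lit 4) (nat_lit 321) (nat_lit 298) (nat_lit 281)) (XT.lf (nat_lit 0) (nat_lit 3812035337) (nat_lit 76) (nat_lit 16872685653) (nat_lit 76) (nat_lit 6059072513) (nat_lit 15) (nat_lit 4) (nat_lit 16) (nat_lit 5) (nat_lit 16) (nat_lit 4) (nat_lit 322) (nat_lit 298) (nat_lit 280))) (XT.nd (nat_lit 78) (nat_lit 76) (nat_lit 0) (XT.lf (nat_lit 0) (nat_lit 4862803732) (nat_lit 152) (nat_lit 822973907) (nat_lit 76) (nat_lit 24030920350) (nat_lit 14) (nat_lit 5) (nat_lit 16) (nat_lit 5) (nat_lit 15) (nat_lit 4) (nat_lit 323) (nat_lit 298) (nat_lit 279)) (XT.lf (nat_lit 0) (nat_lit 17644534383) (nat_lit 152) (nat_lit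 8014745349) (nat_lit 0) (nat_lit 7417288770) (nat_lit 13) (nat_lit 5) (nat_lit 15) (nat_lit 4) (nat_lit 13) (nat_lit 4) (nat_lit 324) (nat_lit 298) (nat_lit 278)))) (XT.nd (nat_lit 156) (nat_lit 76) (nat_lit 0) (XT.nd (nat_lit 78) (nat_lit 152) (nat_lit 0) (XT.lf (nat_lit 0) (nat_lit 18288760842) (nat_lit 76) (nat_lit 14466412580) (nat_lit 76) (nat_lit 4152355701) (nat_lit 12) (nat_lit 4) (nat_lit 13) (nat_lit 5) (nat_lit 13) (nat_lit 4) (nat_lit 325) (nat_lit 298) (nat_lit 277)) (XT.lf (nat_lit 0) (nat_lit 7501053438) (nat_lit 76) (nat_lit 1100195779) (nat_lit 152) (nat_lit 32677097634) (nat_lit 10) (nat_lit 5) (nat_lit 11) (nat_lit 5) (nat_lit 12) (nat_lit 4) (nat_lit 326) (nat_lit 298) (nat_lit 276))) (XT.nd (nat_lit 78) (nat_lit 76) (nat_lit 0) (XT.lf (nat_lit 0) (nat_lit 23744759019) (nat_lit 152) (nat_lit 8429579994) (nat_lit 0) (nat_lit 14064030570) (nat_lit 10) (nat_lit 5) (nat_lit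 12) (nat_lit 4) (nat_lit 10) (nat_lit 4) (nat_lit 327) (nat_lit 298) (nat_lit 275)) (XT.lf (nat_lit 0) (nat_lit 21447663192) (nat_lit 76) (nat_lit 20098705988) (nat_lit 76) (nat_lit 10365125857) (nat_lit 9) (nat_lit 4) (nat_lit 10) (nat_lit 5) (nat_lit 10) (nat_lit 4) (nat_lit 328) (nat_lit 298) (nat_lit 274))))))))
noncomputable def xc21 : XT := (XT.nd (nat_lit 2262) (nat_lit 0) (nat_lit 0) (XT.nd (nat_lit 1092) (nat_lit 152) (nat_lit 0) (XT.nd (nat_lit 546) (nat_lit 76) (nat_lit 0) (XT.nd (nat_lit 234) (nat_lit 228) (nat_lit 0) (XT.nd (nat_lit 78) (nat_lit 76) (nat_lit 0) (XT.lf (nat_lit 0) (nat_lit 3505617551) (nat_lit 152) (nat_lit 2487853607) (nat_lit 76) (nat_lit 52427069173) (nat_lit 8) (nat_lit 5) (nat_lit 10) (nat_lit 5) (nat_lit 9) (nat_lit 4) (nat_lit 329) (nat_lit 298) (nat_lit 273)) (XT.nd (nat_lit 78) (nat_lit 0) (nat_lit 0) (XT.lf (nat_lit 0) (nat_lit 19737851607) (nat_lit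 152) (nat_lit 35429281214) (nat_lit 0) (nat_lit 10645720515) (nat_lit 7) (nat_lit 5) (nat_lit 9) (nat_lit 4) (nat_lit 7) (nat_lit 4) (nat_lit 330) (nat_lit 298) (nat_lit 272)) (XT.lf (nat_lit 0) (nat_lit 38523398937) (nat_lit 152) (nat_lit 6382060317) (nat_lit 0) (nat_lit 29399091143) (nat_lit 7) (nat_lit 5) (nat_lit 9) (nat_lit 4) (nat_lit 7) (nat_lit 4) (nat_lit 331) (nat_lit 298) (nat_lit 271)))) (XT.nd (nat_lit 156) (nat_lit 152) (nat_lit 0) (XT.nd (nat_lit 78) (nat_lit 0) (nat_lit 0) (XT.lf (nat_lit 0) (nat_lit 28223154865) (nat_lit 76) (nat_lit 32476652846) (nat_lit 76) (nat_lit 23324365311) (nat_lit 6) (nat_lit 4) (nat_lit 7) (nat_lit 5) (nat_lit 7) (nat_lit 4) (nat_lit 332) (nat_lit 298) (nat_lit 270)) (XT.lf (nat_lit 0) (nat_lit 68212558929) (nat_lit 76) (nat_lit 18079336048) (nat_lit 76) (nat_lit 8902718303) (nat_lit 6) (nat_lit 4) (nat_lit 7) (nat_lit 5) (nat_lit 7) (nat_lit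 4) (nat_lit 333) (nat_lit 298) (nat_lit 269))) (XT.nd (nat_lit 78) (nat_lit 0) (nat_lit 0) (XT.lf (nat_lit 0) (nat_lit 6108114246) (nat_lit 76) (nat_lit 1250486087) (nat_lit 152) (nat_lit 100662390622) (nat_lit 4) (nat_lit 5) (nat_lit 5) (nat_lit 5) (nat_lit 6) (nat_lit 4) (nat_lit 334) (nat_lit 298) (nat_lit 268)) (XT.lf (nat_lit 0) (nat_lit 26707652365) (nat_lit 152) (nat_lit 77776967666) (nat_lit 0) (nat_lit 18174160158) (nat_lit 4) (nat_lit 5) (nat_lit 6) (nat_lit 4) (nat_lit 4) (nat_lit 4) (nat_lit 335) (nat_lit 298) (nat_lit 267))))) (XT.nd (nat_lit 234) (nat_lit 0) (nat_lit 0) (XT.nd (nat_lit 78) (nat_lit 76) (nat_lit 0) (XT.lf (nat_lit 0) (nat_lit 48923526246) (nat_lit 152) (nat_lit 50196339976) (nat_lit 0) (nat_lit 40375221532) (nat_lit 4) (nat_lit 5) (nat_lit 6) (nat_lit 4) (nat_lit 4) (nat_lit 4) (nat_lit 336) (nat_lit 298) (nat_lit 266)) (XT.nd (nat_lit 78) (nat_lit 76) (nat_lit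 0) (XT.lf (nat_lit 0) (nat_lit 74410806159) (nat_lit 152) (nat_lit 18601298442) (nat_lit 0) (nat_lit 65849621004) (nat_lit 4) (nat_lit 5) (nat_lit 6) (nat_lit 4) (nat_lit 4) (nat_lit 4) (nat_lit 337) (nat_lit 298) (nat_lit 265)) (XT.lf (nat_lit 0) (nat_lit 18554491607) (nat_lit 76) (nat_lit 85559900637) (nat_lit 76) (nat_lit 76987515099) (nat_lit 3) (nat_lit 4) (nat_lit 4) (nat_lit 5) (nat_lit 4) (nat_lit 4) (nat_lit 338) (nat_lit 298) (nat_lit 264)))) (XT.nd (nat_lit 156) (nat_lit 0) (nat_lit 0) (XT.nd (nat_lit 78) (nat_lit 0) (nat_lit 0) (XT.lf (nat_lit 0) (nat_lit 62312439565) (nat_lit 76) (nat_lit 76454179118) (nat_lit 76) (nat_lit 67872054115) (nat_lit 3) (nat_lit 4) (nat_lit 4) (nat_lit 5) (nat_lit 4) (nat_lit 4) (nat_lit 339) (nat_lit 298) (nat_lit 263)) (XT.lf (nat_lit 0) (nat_lit 112549167782) (nat_lit 76) (nat_lit 66025377084) (nat_lit 76) (nat_lit 57434782983) (nat_lit 3) (nat_lit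 4) (nat_lit 4) (nat_lit 5) (nat_lit 4) (nat_lit 4) (nat_lit 340) (nat_lit 298) (nat_lit 262))) (XT.nd (nat_lit 78) (nat_lit 0) (nat_lit 0) (XT.lf (nat_lit 0) (nat_lit 170247568767) (nat_lit 76) (nat_lit 54069452759) (nat_lit 76) (nat_lit 45471494223) (nat_lit 3) (nat_lit 4) (nat_lit 4) (nat_lit 5) (nat_lit 4) (nat_lit 4) (nat_lit 341) (nat_lit 298) (nat_lit 261)) (XT.lf (nat_lit 0) (nat_lit 236536524279) (nat_lit 76) (nat_lit 40352485882) (nat_lit 76) (nat_lit 31748123491) (nat_lit 3) (nat_lit 4) (nat_lit 4) (nat_lit 5) (nat_lit 4) (nat_lit 4) (nat_lit 342) (nat_lit 298) (nat_lit 260)))))) (XT.nd (nat_lit 546) (nat_lit 0) (nat_lit 0) (XT.nd (nat_lit 234) (nat_lit 0) (nat_lit 0) (XT.nd (nat_lit 78) (nat_lit 152) (nat_lit 0) (XT.lf (nat_lit 0) (nat_lit 312712992143) (nat_lit 76) (nat_lit 24606101016) (nat_lit 76) (nat_lit 15996170055) (nat_lit 3) (nat_lit 4) (nat_lit 4) (nat_lit 5) (nat_lit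 4) (nat_lit 4) (nat_lit 343) (nat_lit 298) (nat_lit 259)) (XT.nd (nat_lit 78) (nat_lit 76) (nat_lit 0) (XT.lf (nat_lit 0) (nat_lit 1987878328) (nat_lit 152) (nat_lit 4479986272) (nat_lit 76) (nat_lit 398225151067) (nat_lit 2) (nat_lit 5) (nat_lit 4) (nat_lit 5) (nat_lit 3) (nat_lit 4) (nat_lit 344) (nat_lit 298) (nat_lit 258)) (XT.lf (nat_lit 0) (nat_lit 23034886536) (nat_lit 152) (nat_lit 425549961225) (nat_lit 0) (nat_lit 15054345948) (nat_lit 1) (nat_lit 5) (nat_lit 3) (nat_lit 4) (nat_lit 1) (nat_lit 4) (nat_lit 345) (nat_lit 298) (nat_lit 257)))) (XT.nd (nat_lit 156) (nat_lit 0) (nat_lit 0) (XT.nd (nat_lit 78) (nat_lit 0) (nat_lit 0) (XT.lf (nat_lit 0) (nat_lit 47531522130) (nat_lit 152) (nat_lit 444324780519) (nat_lit 0) (nat_lit 39547591333) (nat_lit 1) (nat_lit 5) (nat_lit 3) (nat_lit 4) (nat_lit 1) (nat_lit 4) (nat_lit 346) (nat_lit 298) (nat_lit 256)) (XT.lf (nat_lit 0) (nat_lit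 75685151533) (nat_lit 152) (nat_lit 465951276565) (nat_lit 0) (nat_lit 67698272728) (nat_lit 1) (nat_lit 5) (nat_lit 3) (nat_lit 4) (nat_lit 1) (nat_lit 4) (nat_lit 347) (nat_lit 298) (nat_lit 255))) (XT.nd (nat_lit 78) (nat_lit 0) (nat_lit 0) (XT.lf (nat_lit 0) (nat_lit 108046606622) (nat_lit 152) (nat_lit 490852576462) (nat_lit 0) (nat_lit 100057164333) (nat_lit 1) (nat_lit 5) (nat_lit 3) (nat_lit 4) (nat_lit 1) (nat_lit 4) (nat_lit 348) (nat_lit 298) (nat_lit 254)) (XT.lf (nat_lit 0) (nat_lit 145249046303) (nat_lit 152) (nat_lit 519515879556) (nat_lit 0) (nat_lit 137257374897) (nat_lit 1) (nat_lit 5) (nat_lit 3) (nat_lit 4) (nat_lit 1) (nat_lit 4) (nat_lit 349) (nat_lit 298) (nat_lit 253))))) (XT.nd (nat_lit 312) (nat_lit 0) (nat_lit 0) (XT.nd (nat_lit 156) (nat_lit 0) (nat_lit 0) (XT.nd (nat_lit 78) (nat_lit 0) (nat_lit 0) (XT.lf (nat_lit 0) (nat_lit 188020344396) (nat_lit 152) (nat_lit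 552501989601) (nat_lit 0) (nat_lit 180026734626) (nat_lit 1) (nat_lit 5) (nat_lit 3) (nat_lit 4) (nat_lit 1) (nat_lit 4) (nat_lit 350) (nat_lit 298) (nat_lit 252)) (XT.lf (nat_lit 0) (nat_lit 237197330644) (nat_lit 152) (nat_lit 590456287012) (nat_lit 0) (nat_lit 229202035342) (nat_lit 1) (nat_lit 5) (nat_lit 3) (nat_lit 4) (nat_lit 1) (nat_lit 4) (nat_lit 351) (nat_lit 298) (nat_lit 251))) (XT.nd (nat_lit 78) (nat_lit 0) (nat_lit 0) (XT.lf (nat_lit 0) (nat_lit 293742163476) (nat_lit 152) (nat_lit 634121355869) (nat_lit 0) (nat_lit 285745402494) (nat_lit 1) (nat_lit 5) (nat_lit 3) (nat_lit 4) (nat_lit 1) (nat_lit 4) (nat_lit 352) (nat_lit 298) (nat_lit 250)) (XT.lf (nat_lit 0) (nat_lit 358761154838) (nat_lit 152) (nat_lit 684351512737) (nat_lit 0) (nat_lit 350763119350) (nat_lit 1) (nat_lit 5) (nat_lit 3) (nat_lit 4) (nat_lit 1) (nat_lit 4) (nat_lit 353) (nat_lit 298) (nat_lit 249)))) (XT.nd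 (nat_lit 156) (nat_lit 0) (nat_lit 0) (XT.nd (nat_lit 78) (nat_lit 0) (nat_lit 0) (XT.lf (nat_lit 0) (nat_lit 433526415431) (nat_lit 152) (nat_lit 742129521554) (nat_lit 0) (nat_lit 425527271678) (nat_lit 1) (nat_lit 5) (nat_lit 3) (nat_lit 4) (nat_lit 1) (nat_lit 4) (nat_lit 354) (nat_lit 298) (nat_lit 248)) (XT.lf (nat_lit 0) (nat_lit 519500743830) (nat_lit 152) (nat_lit 808585821623) (nat_lit 0) (nat_lit 511500636368) (nat_lit 1) (nat_lit 5) (nat_lit 3) (nat_lit 4) (nat_lit 1) (nat_lit 4) (nat_lit 355) (nat_lit 298) (nat_lit 247))) (XT.nd (nat_lit 78) (nat_lit 0) (nat_lit 0) (XT.lf (nat_lit 0) (nat_lit 618366246462) (nat_lit 152) (nat_lit 885020644902) (nat_lit 0) (nat_lit 610365300993) (nat_lit 1) (nat_lit 5) (nat_lit 3) (nat_lit 4) (nat_lit 1) (nat_lit 4) (nat_lit 356) (nat_lit 298) (nat_lit 246)) (XT.lf (nat_lit 0) (nat_lit 732057248378) (nat_lit 152) (nat_lit 972929455325) (nat_lit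 0) (nat_lit 724055574206) (nat_lit 1) (nat_lit 5) (nat_lit 3) (nat_lit 4) (nat_lit 1) (nat_lit 4) (nat_lit 357) (nat_lit 298) (nat_lit 245))))))) (XT.nd (nat_lit 1092) (nat_lit 0) (nat_lit 0) (XT.nd (nat_lit 546) (nat_lit 0) (nat_lit 0) (XT.nd (nat_lit 234) (nat_lit 0) (nat_lit 0) (XT.nd (nat_lit 78) (nat_lit 0) (nat_lit 0) (XT.lf (nat_lit 0) (nat_lit 862798138746) (nat_lit 152) (nat_lit 1074032207878) (nat_lit 0) (nat_lit 854795830920) (nat_lit 1) (nat_lit 5) (nat_lit 3) (nat_lit 4) (nat_lit 1) (nat_lit 4) (nat_lit 358) (nat_lit 298) (nat_lit 244)) (XT.nd (nat_lit 78) (nat_lit 0) (nat_lit 0) (XT.lf (nat_lit 0) (nat_lit 1013146891507) (nat_lit 152) (nat_lit 1190306999894) (nat_lit 0) (nat_lit 1005144032678) (nat_lit 1) (nat_lit 5) (nat_lit 3) (nat_lit 4) (nat_lit 1) (nat_lit 4) (nat_lit 359) (nat_lit 298) (nat_lit 243)) (XT.lf (nat_lit 0) (nat_lit 1186045112695) (nat_lit 152) (nat_lit 1324028772956)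 (nat_lit 0) (nat_lit 1178041774732) (nat_lit 1) (nat_lit 5) (nat_lit 3) (nat_lit 4) (nat_lit 1) (nat_lit 4) (nat_lit 360) (nat_lit 298) (nat_lit 242)))) (XT.nd (nat_lit 156) (nat_lit 0) (nat_lit 0) (XT.nd (nat_lit 78) (nat_lit 0) (nat_lit 0) (XT.lf (nat_lit 0) (nat_lit 1384875593593) (nat_lit 152) (nat_lit 1477813822623) (nat_lit 0) (nat_lit 1376871838992) (nat_lit 1) (nat_lit 5) (nat_lit 3) (nat_lit 4) (nat_lit 1) (nat_lit 4) (nat_lit 361) (nat_lit 298) (nat_lit 241)) (XT.lf (nat_lit 0) (nat_lit 1613528495784) (nat_lit 152) (nat_lit 1654670986825) (nat_lit 0) (nat_lit 1605524378889) (nat_lit 1) (nat_lit 5) (nat_lit 3) (nat_lit 4) (nat_lit 1) (nat_lit 4) (nat_lit 362) (nat_lit 298) (nat_lit 240))) (XT.nd (nat_lit 78) (nat_lit 0) (nat_lit 0) (XT.lf (nat_lit 0) (nat_lit 1876477463007) (nat_lit 152) (nat_lit 1858060514425) (nat_lit 0) (nat_lit 1868473031073) (nat_lit 1) (nat_lit 5) (nat_lit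 3) (nat_lit 4) (nat_lit 1) (nat_lit 4) (nat_lit 363) (nat_lit 298) (nat_lit 239)) (XT.lf (nat_lit 0) (nat_lit 2178867148967) (nat_lit 152) (nat_lit 2091961765746) (nat_lit 0) (nat_lit 2170862443088) (nat_lit 1) (nat_lit 5) (nat_lit 3) (nat_lit 4) (nat_lit 1) (nat_lit 4) (nat_lit 364) (nat_lit 298) (nat_lit 238))))) (XT.nd (nat_lit 234) (nat_lit 0) (nat_lit 0) (XT.nd (nat_lit 78) (nat_lit 0) (nat_lit 0) (XT.lf (nat_lit 0) (nat_lit 2526613873609) (nat_lit 152) (nat_lit 2360951069619) (nat_lit 0) (nat_lit 2518608929515) (nat_lit 1) (nat_lit 5) (nat_lit 3) (nat_lit 4) (nat_lit 1) (nat_lit 4) (nat_lit 365) (nat_lit 298) (nat_lit 237)) (XT.nd (nat_lit 78) (nat_lit 0) (nat_lit 0) (XT.lf (nat_lit 0) (nat_lit 2926521377196) (nat_lit 152) (nat_lit 2670291260250) (nat_lit 0) (nat_lit 2918516225959) (nat_lit 1) (nat_lit 5) (nat_lit 3) (nat_lit 4) (nat_lit 1) (nat_lit 4) (nat_lit 366) (nat_lit 298)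 (nat_lit 236)) (XT.lf (nat_lit 0) (nat_lit 3386413936972) (nat_lit 152) (nat_lit 3026034645716) (nat_lit 0) (nat_lit 3378408605612) (nat_lit 1) (nat_lit 5) (nat_lit 3) (nat_lit 4) (nat_lit 1) (nat_lit 4) (nat_lit 367) (nat_lit 298) (nat_lit 235)))) (XT.nd (nat_lit 156) (nat_lit 0) (nat_lit 0) (XT.nd (nat_lit 78) (nat_lit 0) (nat_lit 0) (XT.lf (nat_lit 0) (nat_lit 3915289450847) (nat_lit 152) (nat_lit 3435141422690) (nat_lit 0) (nat_lit 3907283962857) (nat_lit 1) (nat_lit 5) (nat_lit 3) (nat_lit 4) (nat_lit 1) (nat_lit 4) (nat_lit 368) (nat_lit 298) (nat_lit 234)) (XT.lf (nat_lit 0) (nat_lit 4523495483222) (nat_lit 152) (nat_lit 3905615854198) (nat_lit 0) (nat_lit 4515489859032) (nat_lit 1) (nat_lit 5) (nat_lit 3) (nat_lit 4) (nat_lit 1) (nat_lit 4) (nat_lit 369) (nat_lit 298) (nat_lit 233))) (XT.nd (nat_lit 78) (nat_lit 0) (nat_lit 0) (XT.lf (nat_lit 0) (nat_lit 5222931717339) (nat_lit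 152) (nat_lit 4446662874772) (nat_lit 0) (nat_lit 5214925974715) (nat_lit 1) (nat_lit 5) (nat_lit 3) (nat_lit 4) (nat_lit 1) (nat_lit 4) (nat_lit 370) (nat_lit 298) (nat_lit 232)) (XT.lf (nat_lit 0) (nat_lit 6027282775171) (nat_lit 152) (nat_lit 5068868186987) (nat_lit 0) (nat_lit 6019276929560) (nat_lit 1) (nat_lit 5) (nat_lit 3) (nat_lit 4) (nat_lit 1) (nat_lit 4) (nat_lit 371) (nat_lit 298) (nat_lit 231)))))) (XT.nd (nat_lit 41886) (nat_lit 0) (nat_lit 1976) (XT.nd (nat_lit 41574) (nat_lit 0) (nat_lit 4028) (XT.nd (nat_lit 41418) (nat_lit 0) (nat_lit 5776) (XT.lf (nat_lit 0) (nat_lit 6952285960022) (nat_lit 152) (nat_lit 5784405373038) (nat_lit 0) (nat_lit 6944280024857) (nat_lit 1) (nat_lit 5) (nat_lit 3) (nat_lit 4) (nat_lit 1) (nat_lit 4) (nat_lit 372) (nat_lit 298) (nat_lit 230)) (XT.nd (nat_lit 78) (nat_lit 456) (nat_lit 0) (XT.lf (nat_lit 0) (nat_lit 3102410486) (nat_lit 76) (nat_lit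 83365052) (nat_lit 76) (nat_lit 83365052) (nat_lit 83) (nat_lit 4) (nat_lit 84) (nat_lit 5) (nat_lit 84) (nat_lit 4) (nat_lit 302) (nat_lit 299) (nat_lit 299)) (XT.lf (nat_lit 0) (nat_lit 231800562) (nat_lit 228) (nat_lit 5274200157) (nat_lit 228) (nat_lit 1159712150) (nat_lit 77) (nat_lit 4) (nat_lit 80) (nat_lit 5) (nat_lit 80) (nat_lit 4) (nat_lit 303) (nat_lit 299) (nat_lit 298)))) (XT.nd (nat_lit 156) (nat_lit 912) (nat_lit 0) (XT.nd (nat_lit 78) (nat_lit 456) (nat_lit 0) (XT.lf (nat_lit 0) (nat_lit 1184695756) (nat_lit 304) (nat_lit 3083092427) (nat_lit 380) (nat_lit 2590049884) (nat_lit 72) (nat_lit 5) (nat_lit 76) (nat_lit 5) (nat_lit 77) (nat_lit 4) (nat_lit 304) (nat_lit 299) (nat_lit 297)) (XT.lf (nat_lit 0) (nat_lit 2522873632) (nat_lit 380) (nat_lit 79681428) (nat_lit 456) (nat_lit 4516098703) (nat_lit 66) (nat_lit 5) (nat_lit 71) (nat_lit 5) (nat_lit 72) (nat_lit 5) (nat_lit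 305) (nat_lit 299) (nat_lit 296))) (XT.nd (nat_lit 78) (nat_lit 380) (nat_lit 0) (XT.lf (nat_lit 0) (nat_lit 549014626) (nat_lit 532) (nat_lit 3278216626) (nat_lit 76) (nat_lit 3617710707) (nat_lit 59) (nat_lit 5) (nat_lit 66) (nat_lit 5) (nat_lit 60) (nat_lit 5) (nat_lit 306) (nat_lit 299) (nat_lit 295)) (XT.lf (nat_lit 0) (nat_lit 5723355027) (nat_lit 456) (nat_lit 1693897400) (nat_lit 76) (nat_lit 425079093) (nat_lit 54) (nat_lit 5) (nat_lit 60) (nat_lit 5) (nat_lit 55) (nat_lit 4) (nat_lit 307) (nat_lit 299) (nat_lit 294))))) (XT.nd (nat_lit 312) (nat_lit 836) (nat_lit 0) (XT.nd (nat_lit 156) (nat_lit 532) (nat_lit 0) (XT.nd (nat_lit 78) (nat_lit 152) (nat_lit 0) (XT.lf (nat_lit 0) (nat_lit 108592279) (nat_lit 228) (nat_lit 2885086515) (nat_lit 304) (nat_lit 5316838284) (nat_lit 47) (nat_lit 5) (nat_lit 50) (nat_lit 5) (nat_lit 51) (nat_lit 5) (nat_lit 308) (nat_lit 299) (nat_lit 293))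 (XT.lf (nat_lit 0) (nat_lit 2290474478) (nat_lit 152) (nat_lit 6323763587) (nat_lit 228) (nat_lit 241595560) (nat_lit 45) (nat_lit 5) (nat_lit 47) (nat_lit 5) (nat_lit 48) (nat_lit 4) (nat_lit 309) (nat_lit 299) (nat_lit 292))) (XT.nd (nat_lit 78) (nat_lit 228) (nat_lit 0) (XT.lf (nat_lit 0) (nat_lit 4671691404) (nat_lit 228) (nat_lit 538405634) (nat_lit 304) (nat_lit 4270984825) (nat_lit 41) (nat_lit 5) (nat_lit 44) (nat_lit 5) (nat_lit 45) (nat_lit 5) (nat_lit 310) (nat_lit 299) (nat_lit 291)) (XT.lf (nat_lit 0) (nat_lit 1230136791) (nat_lit 228) (nat_lit 2919194296) (nat_lit 76) (nat_lit 6046027693) (nat_lit 38) (nat_lit 5) (nat_lit 41) (nat_lit 5) (nat_lit 39) (nat_lit 5) (nat_lit 311) (nat_lit 299) (nat_lit 290)))) (XT.nd (nat_lit 156) (nat_lit 304) (nat_lit 0) (XT.nd (nat_lit 78) (nat_lit 380) (nat_lit 0) (XT.lf (nat_lit 0) (nat_lit 7328476553) (nat_lit 228) (nat_lit 918654731) (nat_lit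 76) (nat_lit 2759127768) (nat_lit 36) (nat_lit 5) (nat_lit 39) (nat_lit 5) (nat_lit 37) (nat_lit 4) (nat_lit 312) (nat_lit 299) (nat_lit 289)) (XT.lf (nat_lit 0) (nat_lit 1264595882) (nat_lit 152) (nat_lit 1154748117) (nat_lit 228) (nat_lit 9504169262) (nat_lit 31) (nat_lit 5) (nat_lit 33) (nat_lit 5) (nat_lit 34) (nat_lit 5) (nat_lit 313) (nat_lit 299) (nat_lit 288))) (XT.nd (nat_lit 78) (nat_lit 228) (nat_lit 0) (XT.lf (nat_lit 0) (nat_lit 3496079720) (nat_lit 76) (nat_lit 5955365454) (nat_lit 152) (nat_lit 3500460858) (nat_lit 30) (nat_lit 5) (nat_lit 31) (nat_lit 5) (nat_lit 32) (nat_lit 4) (nat_lit 314) (nat_lit 299) (nat_lit 287)) (XT.lf (nat_lit 0) (nat_lit 3407097588) (nat_lit 228) (nat_lit 8327629466) (nat_lit 76) (nat_lit 2379594778) (nat_lit 27) (nat_lit 5) (nat_lit 30) (nat_lit 5) (nat_lit 28) (nat_lit 4) (nat_lit 315) (nat_lit 299) (nat_lit 286))))))))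
noncomputable def xc22 : XT := (XT.nd (nat_lit 2262) (nat_lit 152) (nat_lit 0) (XT.nd (nat_lit 1092) (nat_lit 456) (nat_lit 0) (XT.nd (nat_lit 546) (nat_lit 532) (nat_lit 0) (XT.nd (nat_lit 234) (nat_lit 456) (nat_lit 0) (XT.nd (nat_lit 78) (nat_lit 304) (nat_lit 0) (XT.lf (nat_lit 0) (nat_lit 7992402891) (nat_lit 76) (nat_lit 3448456072) (nat_lit 152) (nat_lit 3979352949) (nat_lit 26) (nat_lit 5) (nat_lit 27) (nat_lit 5) (nat_lit 28) (nat_lit 4) (nat_lit 316) (nat_lit 299) (nat_lit 285)) (XT.nd (nat_lit 78) (nat_lit 76) (nat_lit 0) (XT.lf (nat_lit 0) (nat_lit 3895660189) (nat_lit 228) (nat_lit 6845064345) (nat_lit 76) (nat_lit 6148095073) (nat_lit 23) (nat_lit 5) (nat_lit 26) (nat_lit 5) (nat_lit 24) (nat_lit 4) (nat_lit 317) (nat_lit 299) (nat_lit 284)) (XT.lf (nat_lit 0) (nat_lit 11873354688) (nat_lit 76) (nat_lit 1152884756) (nat_lit 152) (nat_lit 5518536055) (nat_lit 22) (nat_lit 5)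 (nat_lit 23) (nat_lit 5) (nat_lit 24) (nat_lit 4) (nat_lit 318) (nat_lit 299) (nat_lit 283)))) (XT.nd (nat_lit 156) (nat_lit 228) (nat_lit 0) (XT.nd (nat_lit 78) (nat_lit 76) (nat_lit 0) (XT.lf (nat_lit 0) (nat_lit 3420030257) (nat_lit 152) (nat_lit 7200018772) (nat_lit 76) (nat_lit 9783517260) (nat_lit 20) (nat_lit 5) (nat_lit 22) (nat_lit 5) (nat_lit 21) (nat_lit 4) (nat_lit 319) (nat_lit 299) (nat_lit 282)) (XT.lf (nat_lit 0) (nat_lit 13696705550) (nat_lit 152) (nat_lit 8540962918) (nat_lit 0) (nat_lit 266198030) (nat_lit 19) (nat_lit 5) (nat_lit 21) (nat_lit 4) (nat_lit 19) (nat_lit 4) (nat_lit 320) (nat_lit 299) (nat_lit 281))) (XT.nd (nat_lit 78) (nat_lit 76) (nat_lit 0) (XT.lf (nat_lit 0) (nat_lit 1180756537) (nat_lit 152) (nat_lit 11128532645) (nat_lit 76) (nat_lit 12559653826) (nat_lit 17) (nat_lit 5) (nat_lit 19) (nat_lit 5) (nat_lit 18) (nat_lit 4) (nat_lit 321) (nat_lit 299)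 (nat_lit 280)) (XT.lf (nat_lit 0) (nat_lit 12250418563) (nat_lit 76) (nat_lit 234599099) (nat_lit 152) (nat_lit 15058350858) (nat_lit 16) (nat_lit 5) (nat_lit 17) (nat_lit 5) (nat_lit 18) (nat_lit 4) (nat_lit 322) (nat_lit 299) (nat_lit 279))))) (XT.nd (nat_lit 234) (nat_lit 304) (nat_lit 0) (XT.nd (nat_lit 78) (nat_lit 152) (nat_lit 0) (XT.lf (nat_lit 0) (nat_lit 8926125043) (nat_lit 76) (nat_lit 17224829978) (nat_lit 76) (nat_lit 4414771334) (nat_lit 15) (nat_lit 4) (nat_lit 16) (nat_lit 5) (nat_lit 16) (nat_lit 4) (nat_lit 323) (nat_lit 299) (nat_lit 278)) (XT.nd (nat_lit 78) (nat_lit 0) (nat_lit 0) (XT.lf (nat_lit 0) (nat_lit 3278924177) (nat_lit 76) (nat_lit 4501238797) (nat_lit 152) (nat_lit 26218558481) (nat_lit 13) (nat_lit 5) (nat_lit 14) (nat_lit 5) (nat_lit 15) (nat_lit 4) (nat_lit 324) (nat_lit 299) (nat_lit 277)) (XT.lf (nat_lit 0) (nat_lit 22257754255) (nat_lit 152) (nat_lit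 5388298879) (nat_lit 0) (nat_lit 10234289522) (nat_lit 13) (nat_lit 5) (nat_lit 15) (nat_lit 4) (nat_lit 13) (nat_lit 4) (nat_lit 325) (nat_lit 299) (nat_lit 276)))) (XT.nd (nat_lit 156) (nat_lit 76) (nat_lit 0) (XT.nd (nat_lit 78) (nat_lit 152) (nat_lit 0) (XT.lf (nat_lit 0) (nat_lit 24536656388) (nat_lit 76) (nat_lit 14926112849) (nat_lit 76) (nat_lit 2837006327) (nat_lit 12) (nat_lit 4) (nat_lit 13) (nat_lit 5) (nat_lit 13) (nat_lit 4) (nat_lit 326) (nat_lit 299) (nat_lit 275)) (XT.lf (nat_lit 0) (nat_lit 11580262792) (nat_lit 152) (nat_lit 35420664419) (nat_lit 0) (nat_lit 333793961) (nat_lit 10) (nat_lit 5) (nat_lit 12) (nat_lit 4) (nat_lit 10) (nat_lit 4) (nat_lit 327) (nat_lit 299) (nat_lit 274))) (XT.nd (nat_lit 78) (nat_lit 76) (nat_lit 0) (XT.lf (nat_lit 0) (nat_lit 28801477121) (nat_lit 152) (nat_lit 6743761069) (nat_lit 0) (nat_lit 17509050305) (nat_lit 10) (nat_lit 5) (nat_lit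 12) (nat_lit 4) (nat_lit 10) (nat_lit 4) (nat_lit 328) (nat_lit 299) (nat_lit 273)) (XT.lf (nat_lit 0) (nat_lit 27365344125) (nat_lit 76) (nat_lit 21777931973) (nat_lit 76) (nat_lit 10445541693) (nat_lit 9) (nat_lit 4) (nat_lit 10) (nat_lit 5) (nat_lit 10) (nat_lit 4) (nat_lit 329) (nat_lit 299) (nat_lit 272)))))) (XT.nd (nat_lit 546) (nat_lit 76) (nat_lit 0) (XT.nd (nat_lit 234) (nat_lit 228) (nat_lit 0) (XT.nd (nat_lit 78) (nat_lit 76) (nat_lit 0) (XT.lf (nat_lit 0) (nat_lit 5249373169) (nat_lit 152) (nat_lit 448444926) (nat_lit 76) (nat_lit 61388204886) (nat_lit 8) (nat_lit 5) (nat_lit 10) (nat_lit 5) (nat_lit 9) (nat_lit 4) (nat_lit 330) (nat_lit 299) (nat_lit 271)) (XT.nd (nat_lit 78) (nat_lit 0) (nat_lit 0) (XT.lf (nat_lit 0) (nat_lit 23837059354) (nat_lit 152) (nat_lit 38472546842) (nat_lit 0) (nat_lit 13283948948) (nat_lit 7) (nat_lit 5) (nat_lit 9) (nat_lit 4) (nat_lit 7) (nat_lit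 4) (nat_lit 331) (nat_lit 299) (nat_lit 270)) (XT.lf (nat_lit 0) (nat_lit 45291934870) (nat_lit 152) (nat_lit 5364476708) (nat_lit 0) (nat_lit 34714494253) (nat_lit 7) (nat_lit 5) (nat_lit 9) (nat_lit 4) (nat_lit 7) (nat_lit 4) (nat_lit 332) (nat_lit 299) (nat_lit 269)))) (XT.nd (nat_lit 156) (nat_lit 152) (nat_lit 0) (XT.nd (nat_lit 78) (nat_lit 0) (nat_lit 0) (XT.lf (nat_lit 0) (nat_lit 34264355923) (nat_lit 76) (nat_lit 36444791096) (nat_lit 76) (nat_lit 25846193776) (nat_lit 6) (nat_lit 4) (nat_lit 7) (nat_lit 5) (nat_lit 7) (nat_lit 4) (nat_lit 333) (nat_lit 299) (nat_lit 268)) (XT.lf (nat_lit 0) (nat_lit 80016380011) (nat_lit 76) (nat_lit 20005706301) (nat_lit 76) (nat_lit 9388711847) (nat_lit 6) (nat_lit 4) (nat_lit 7) (nat_lit 5) (nat_lit 7) (nat_lit 4) (nat_lit 334) (nat_lit 299) (nat_lit 267))) (XT.nd (nat_lit 78) (nat_lit 0) (nat_lit 0) (XT.lf (nat_lit 0) (nat_lit 8502186575)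 (nat_lit 76) (nat_lit 697418490) (nat_lit 152) (nat_lit 114965481235) (nat_lit 4) (nat_lit 5) (nat_lit 5) (nat_lit 5) (nat_lit 6) (nat_lit 4) (nat_lit 335) (nat_lit 299) (nat_lit 266)) (XT.lf (nat_lit 0) (nat_lit 31370345527) (nat_lit 152) (nat_lit 88122559714) (nat_lit 0) (nat_lit 21512102158) (nat_lit 4) (nat_lit 5) (nat_lit 6) (nat_lit 4) (nat_lit 4) (nat_lit 4) (nat_lit 336) (nat_lit 299) (nat_lit 265))))) (XT.nd (nat_lit 312) (nat_lit 0) (nat_lit 0) (XT.nd (nat_lit 156) (nat_lit 76) (nat_lit 0) (XT.nd (nat_lit 78) (nat_lit 0) (nat_lit 0) (XT.lf (nat_lit 0) (nat_lit 56832964146) (nat_lit 152) (nat_lit 56577136101) (nat_lit 0) (nat_lit 46963520393) (nat_lit 4) (nat_lit 5) (nat_lit 6) (nat_lit 4) (nat_lit 4) (nat_lit 4) (nat_lit 337) (nat_lit 299) (nat_lit 264)) (XT.lf (nat_lit 0) (nat_lit 86068869659) (nat_lit 152) (nat_lit 20392662885) (nat_lit 0) (nat_lit 76189686442) (nat_lit 4) (nat_lit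 5) (nat_lit 6) (nat_lit 4) (nat_lit 4) (nat_lit 4) (nat_lit 338) (nat_lit 299) (nat_lit 263))) (XT.nd (nat_lit 78) (nat_lit 0) (nat_lit 0) (XT.lf (nat_lit 0) (nat_lit 22251949660) (nat_lit 76) (nat_lit 97933279178) (nat_lit 76) (nat_lit 88045626862) (nat_lit 3) (nat_lit 4) (nat_lit 4) (nat_lit 5) (nat_lit 4) (nat_lit 4) (nat_lit 339) (nat_lit 299) (nat_lit 262)) (XT.lf (nat_lit 0) (nat_lit 72454335335) (nat_lit 76) (nat_lit 87521778546) (nat_lit 76) (nat_lit 77626761796) (nat_lit 3) (nat_lit 4) (nat_lit 4) (nat_lit 5) (nat_lit 4) (nat_lit 4) (nat_lit 340) (nat_lit 299) (nat_lit 261)))) (XT.nd (nat_lit 156) (nat_lit 0) (nat_lit 0) (XT.nd (nat_lit 78) (nat_lit 0) (nat_lit 0) (XT.lf (nat_lit 0) (nat_lit 130122873241) (nat_lit 76) (nat_lit 75580898918) (nat_lit 76) (nat_lit 65679478312) (nat_lit 3) (nat_lit 4) (nat_lit 4) (nat_lit 5) (nat_lit 4) (nat_lit 4) (nat_lit 341) (nat_lit 299) (nat_lit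 260)) (XT.lf (nat_lit 0) (nat_lit 196385860858) (nat_lit 76) (nat_lit 61877014386) (nat_lit 76) (nat_lit 51970025210) (nat_lit 3) (nat_lit 4) (nat_lit 4) (nat_lit 5) (nat_lit 4) (nat_lit 4) (nat_lit 342) (nat_lit 299) (nat_lit 259))) (XT.nd (nat_lit 78) (nat_lit 0) (nat_lit 0) (XT.lf (nat_lit 0) (nat_lit 272539747943) (nat_lit 76) (nat_lit 46142005472) (nat_lit 76) (nat_lit 36230174061) (nat_lit 3) (nat_lit 4) (nat_lit 4) (nat_lit 5) (nat_lit 4) (nat_lit 4) (nat_lit 343) (nat_lit 299) (nat_lit 258)) (XT.lf (nat_lit 0) (nat_lit 360074501853) (nat_lit 76) (nat_lit 28068013306) (nat_lit 76) (nat_lit 18151971256) (nat_lit 3) (nat_lit 4) (nat_lit 4) (nat_lit 5) (nat_lit 4) (nat_lit 4) (nat_lit 344) (nat_lit 299) (nat_lit 257))))))) (XT.nd (nat_lit 1092) (nat_lit 0) (nat_lit 0) (XT.nd (nat_lit 546) (nat_lit 0) (nat_lit 0) (XT.nd (nat_lit 234) (nat_lit 0) (nat_lit 0) (XT.nd (nat_lit 78) (nat_lit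 76) (nat_lit 0) (XT.lf (nat_lit 0) (nat_lit 2487309845) (nat_lit 152) (nat_lit 4746098996) (nat_lit 76) (nat_lit 458147441773) (nat_lit 2) (nat_lit 5) (nat_lit 4) (nat_lit 5) (nat_lit 3) (nat_lit 4) (nat_lit 345) (nat_lit 299) (nat_lit 256)) (XT.nd (nat_lit 78) (nat_lit 0) (nat_lit 0) (XT.lf (nat_lit 0) (nat_lit 26678566237) (nat_lit 152) (nat_lit 489000708037) (nat_lit 0) (nat_lit 17490707604) (nat_lit 1) (nat_lit 5) (nat_lit 3) (nat_lit 4) (nat_lit 1) (nat_lit 4) (nat_lit 346) (nat_lit 299) (nat_lit 255)) (XT.lf (nat_lit 0) (nat_lit 54825117163) (nat_lit 152) (nat_lit 510641543360) (nat_lit 0) (nat_lit 45634695046) (nat_lit 1) (nat_lit 5) (nat_lit 3) (nat_lit 4) (nat_lit 1) (nat_lit 4) (nat_lit 347) (nat_lit 299) (nat_lit 254)))) (XT.nd (nat_lit 156) (nat_lit 0) (nat_lit 0) (XT.nd (nat_lit 78) (nat_lit 0) (nat_lit 0) (XT.lf (nat_lit 0) (nat_lit 87180417057) (nat_lit 152) (nat_lit 535555312192)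 (nat_lit 0) (nat_lit 77987765822) (nat_lit 1) (nat_lit 5) (nat_lit 3) (nat_lit 4) (nat_lit 1) (nat_lit 4) (nat_lit 348) (nat_lit 299) (nat_lit 253)) (XT.lf (nat_lit 0) (nat_lit 124377504393) (nat_lit 152) (nat_lit 564229457838) (nat_lit 0) (nat_lit 115182914796) (nat_lit 1) (nat_lit 5) (nat_lit 3) (nat_lit 4) (nat_lit 1) (nat_lit 4) (nat_lit 349) (nat_lit 299) (nat_lit 252))) (XT.nd (nat_lit 78) (nat_lit 0) (nat_lit 0) (XT.lf (nat_lit 0) (nat_lit 167144148273) (nat_lit 152) (nat_lit 597224996190) (nat_lit 0) (nat_lit 157947873142) (nat_lit 1) (nat_lit 5) (nat_lit 3) (nat_lit 4) (nat_lit 1) (nat_lit 4) (nat_lit 350) (nat_lit 299) (nat_lit 251)) (XT.lf (nat_lit 0) (nat_lit 216317087380) (nat_lit 152) (nat_lit 635187492129) (nat_lit 0) (nat_lit 207119346569) (nat_lit 1) (nat_lit 5) (nat_lit 3) (nat_lit 4) (nat_lit 1) (nat_lit 4) (nat_lit 351) (nat_lit 299) (nat_lit 250))))) (XT.nd (nat_lit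 234) (nat_lit 0) (nat_lit 0) (XT.nd (nat_lit 78) (nat_lit 0) (nat_lit 0) (XT.lf (nat_lit 0) (nat_lit 272858400959) (nat_lit 152) (nat_lit 678859690140) (nat_lit 0) (nat_lit 263659385643) (nat_lit 1) (nat_lit 5) (nat_lit 3) (nat_lit 4) (nat_lit 1) (nat_lit 4) (nat_lit 352) (nat_lit 299) (nat_lit 249)) (XT.nd (nat_lit 78) (nat_lit 0) (nat_lit 0) (XT.lf (nat_lit 0) (nat_lit 337874332100) (nat_lit 152) (nat_lit 729096046273) (nat_lit 0) (nat_lit 328674208519) (nat_lit 1) (nat_lit 5) (nat_lit 3) (nat_lit 4) (nat_lit 1) (nat_lit 4) (nat_lit 353) (nat_lit 299) (nat_lit 248)) (XT.lf (nat_lit 0) (nat_lit 412636931631) (nat_lit 152) (nat_lit 786879445755) (nat_lit 0) (nat_lit 403435844341) (nat_lit 1) (nat_lit 5) (nat_lit 3) (nat_lit 4) (nat_lit 1) (nat_lit 4) (nat_lit 354) (nat_lit 299) (nat_lit 247)))) (XT.nd (nat_lit 156) (nat_lit 0) (nat_lit 0) (XT.nd (nat_lit 78) (nat_lit 0) (nat_lit 0) (XT.lf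 (nat_lit 0) (nat_lit 498608946064) (nat_lit 152) (nat_lit 853340433358) (nat_lit 0) (nat_lit 489407020767) (nat_lit 1) (nat_lit 5) (nat_lit 3) (nat_lit 4) (nat_lit 1) (nat_lit 4) (nat_lit 355) (nat_lit 299) (nat_lit 246)) (XT.lf (nat_lit 0) (nat_lit 597472436552) (nat_lit 152) (nat_lit 929779332755) (nat_lit 0) (nat_lit 588269782552) (nat_lit 1) (nat_lit 5) (nat_lit 3) (nat_lit 4) (nat_lit 1) (nat_lit 4) (nat_lit 356) (nat_lit 299) (nat_lit 245))) (XT.nd (nat_lit 78) (nat_lit 0) (nat_lit 0) (XT.lf (nat_lit 0) (nat_lit 711161688777) (nat_lit 152) (nat_lit 1017691687627) (nat_lit 0) (nat_lit 701958401123) (nat_lit 1) (nat_lit 5) (nat_lit 3) (nat_lit 4) (nat_lit 1) (nat_lit 4) (nat_lit 357) (nat_lit 299) (nat_lit 244)) (XT.lf (nat_lit 0) (nat_lit 841901057674) (nat_lit 152) (nat_lit 1118797522311) (nat_lit 0) (nat_lit 832697219016) (nat_lit 1) (nat_lit 5) (nat_lit 3) (nat_lit 4) (nat_lit 1)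 (nat_lit 4) (nat_lit 358) (nat_lit 299) (nat_lit 243)))))) (XT.nd (nat_lit 546) (nat_lit 0) (nat_lit 0) (XT.nd (nat_lit 234) (nat_lit 0) (nat_lit 0) (XT.nd (nat_lit 78) (nat_lit 0) (nat_lit 0) (XT.lf (nat_lit 0) (nat_lit 992248487418) (nat_lit 152) (nat_lit 1235074994440) (nat_lit 0) (nat_lit 983044169627) (nat_lit 1) (nat_lit 5) (nat_lit 3) (nat_lit 4) (nat_lit 1) (nat_lit 4) (nat_lit 359) (nat_lit 299) (nat_lit 242)) (XT.nd (nat_lit 78) (nat_lit 0) (nat_lit 0) (XT.lf (nat_lit 0) (nat_lit 1165145558156) (nat_lit 152) (nat_lit 1368799098035) (nat_lit 0) (nat_lit 1155940823726) (nat_lit 1) (nat_lit 5) (nat_lit 3) (nat_lit 4) (nat_lit 1) (nat_lit 4) (nat_lit 360) (nat_lit 299) (nat_lit 241)) (XT.lf (nat_lit 0) (nat_lit 1363975038662) (nat_lit 152) (nat_lit 1522586174253) (nat_lit 0) (nat_lit 1354769941939) (nat_lit 1) (nat_lit 5) (nat_lit 3) (nat_lit 4) (nat_lit 1) (nat_lit 4) (nat_lit 361)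 (nat_lit 299) (nat_lit 240)))) (XT.nd (nat_lit 156) (nat_lit 0) (nat_lit 0) (XT.nd (nat_lit 78) (nat_lit 0) (nat_lit 0) (XT.lf (nat_lit 0) (nat_lit 1592627070948) (nat_lit 152) (nat_lit 1699445100672) (nat_lit 0) (nat_lit 1583421659186) (nat_lit 1) (nat_lit 5) (nat_lit 3) (nat_lit 4) (nat_lit 1) (nat_lit 4) (nat_lit 362) (nat_lit 299) (nat_lit 239)) (XT.lf (nat_lit 0) (nat_lit 1855575281730) (nat_lit 152) (nat_lit 1902836160635) (nat_lit 0) (nat_lit 1846369596023) (nat_lit 1) (nat_lit 5) (nat_lit 3) (nat_lit 4) (nat_lit 1) (nat_lit 4) (nat_lit 363) (nat_lit 299) (nat_lit 238))) (XT.nd (nat_lit 78) (nat_lit 0) (nat_lit 0) (XT.lf (nat_lit 0) (nat_lit 2157964309917) (nat_lit 152) (nat_lit 2136738744447) (nat_lit 0) (nat_lit 2148758385996) (nat_lit 1) (nat_lit 5) (nat_lit 3) (nat_lit 4) (nat_lit 1) (nat_lit 4) (nat_lit 364) (nat_lit 299) (nat_lit 237)) (XT.lf (nat_lit 0) (nat_lit 2505710462582)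 (nat_lit 152) (nat_lit 2405729207007) (nat_lit 0) (nat_lit 2496504331517) (nat_lit 1) (nat_lit 5) (nat_lit 3) (nat_lit 4) (nat_lit 1) (nat_lit 4) (nat_lit 365) (nat_lit 299) (nat_lit 236))))) (XT.nd (nat_lit 312) (nat_lit 0) (nat_lit 0) (XT.nd (nat_lit 156) (nat_lit 0) (nat_lit 0) (XT.nd (nat_lit 78) (nat_lit 0) (nat_lit 0) (XT.lf (nat_lit 0) (nat_lit 2905617468797) (nat_lit 152) (nat_lit 2715070405191) (nat_lit 0) (nat_lit 2896411157609) (nat_lit 1) (nat_lit 5) (nat_lit 3) (nat_lit 4) (nat_lit 1) (nat_lit 4) (nat_lit 366) (nat_lit 299) (nat_lit 235)) (XT.lf (nat_lit 0) (nat_lit 3365509596077) (nat_lit 152) (nat_lit 3070814666791) (nat_lit 0) (nat_lit 3356303128259) (nat_lit 1) (nat_lit 5) (nat_lit 3) (nat_lit 4) (nat_lit 1) (nat_lit 4) (nat_lit 367) (nat_lit 299) (nat_lit 234))) (XT.nd (nat_lit 78) (nat_lit 0) (nat_lit 0) (XT.lf (nat_lit 0) (nat_lit 3894384733868) (nat_lit 152) (nat_lit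 3479922205620) (nat_lit 0) (nat_lit 3885178129850) (nat_lit 1) (nat_lit 5) (nat_lit 3) (nat_lit 4) (nat_lit 1) (nat_lit 4) (nat_lit 368) (nat_lit 299) (nat_lit 233)) (XT.lf (nat_lit 0) (nat_lit 4502590439213) (nat_lit 152) (nat_lit 3950397299612) (nat_lit 0) (nat_lit 4493383716760) (nat_lit 1) (nat_lit 5) (nat_lit 3) (nat_lit 4) (nat_lit 1) (nat_lit 4) (nat_lit 369) (nat_lit 299) (nat_lit 232)))) (XT.nd (nat_lit 156) (nat_lit 0) (nat_lit 0) (XT.nd (nat_lit 78) (nat_lit 0) (nat_lit 0) (XT.lf (nat_lit 0) (nat_lit 5202026388956) (nat_lit 152) (nat_lit 4491444896258) (nat_lit 0) (nat_lit 5192819563517) (nat_lit 1) (nat_lit 5) (nat_lit 3) (nat_lit 4) (nat_lit 1) (nat_lit 4) (nat_lit 370) (nat_lit 299) (nat_lit 231)) (XT.lf (nat_lit 0) (nat_lit 6006377199506) (nat_lit 152) (nat_lit 5113650709405) (nat_lit 0) (nat_lit 5997170284514) (nat_lit 1) (nat_lit 5) (nat_lit 3) (nat_lit 4) (nat_lit 1) (nat_lit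 4) (nat_lit 371) (nat_lit 299) (nat_lit 230))) (XT.nd (nat_lit 41262) (nat_lit 0) (nat_lit 6384) (XT.lf (nat_lit 0) (nat_lit 6931380169330) (nat_lit 152) (nat_lit 5829188331050) (nat_lit 0) (nat_lit 6922173176465) (nat_lit 1) (nat_lit 5) (nat_lit 3) (nat_lit 4) (nat_lit 1) (nat_lit 4) (nat_lit 372) (nat_lit 299) (nat_lit 229)) (XT.lf (nat_lit 0) (nat_lit 1073741823) (nat_lit 0) (nat_lit 0) (nat_lit 0) (nat_lit 0) (nat_lit 85) (nat_lit 0) (nat_lit 1) (nat_lit 0) (nat_lit 1) (nat_lit 0) (nat_lit 300) (nat_lit 300) (nat_lit 300))))))))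
noncomputable def xc23 : XT := (XT.nd (nat_lit 2262) (nat_lit 684) (nat_lit 0) (XT.nd (nat_lit 1092) (nat_lit 1596) (nat_lit 0) (XT.nd (nat_lit 546) (nat_lit 1748) (nat_lit 0) (XT.nd (nat_lit 234) (nat_lit 1900) (nat_lit 0) (XT.nd (nat_lit 78) (nat_lit 380) (nat_lit 0) (XT.lf (nat_lit 0) (nat_lit 5511709355) (nat_lit 76) (nat_lit 559561877) (nat_lit 0) (nat_lit 401515251) (nat_lit 84) (nat_lit 5) (nat_lit 85) (nat_lit 0) (nat_lit 84) (nat_lit 4) (nat_lit 301) (nat_lit 300) (nat_lit 299)) (XT.nd (nat_lit 78) (nat_lit 228) (nat_lit 0) (XT.lf (nat_lit 0) (nat_lit 4226375553) (nat_lit 152) (nat_lit 762980001) (nat_lit 76) (nat_lit 1577911492) (nat_lit 82) (nat_lit 5) (nat_lit 84) (nat_lit 5) (nat_lit 83) (nat_lit 4) (nat_lit 302) (nat_lit 300) (nat_lit 298)) (XT.lf (nat_lit 0) (nat_lit 2556613268) (nat_lit 228) (nat_lit 613692997) (nat_lit 76) (nat_lit 3557047513) (nat_lit 79) (nat_lit 5) (nat_lit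 82) (nat_lit 5) (nat_lit 80) (nat_lit 5) (nat_lit 303) (nat_lit 300) (nat_lit 297)))) (XT.nd (nat_lit 156) (nat_lit 912) (nat_lit 0) (XT.nd (nat_lit 78) (nat_lit 684) (nat_lit 0) (XT.lf (nat_lit 0) (nat_lit 462913711) (nat_lit 304) (nat_lit 106948717) (nat_lit 76) (nat_lit 6385674096) (nat_lit 75) (nat_lit 5) (nat_lit 79) (nat_lit 5) (nat_lit 76) (nat_lit 5) (nat_lit 304) (nat_lit 300) (nat_lit 296)) (XT.lf (nat_lit 0) (nat_lit 680353239) (nat_lit 380) (nat_lit 4442015915) (nat_lit 456) (nat_lit 2121801475) (nat_lit 66) (nat_lit 5) (nat_lit 71) (nat_lit 5) (nat_lit 72) (nat_lit 5) (nat_lit 305) (nat_lit 300) (nat_lit 295))) (XT.nd (nat_lit 78) (nat_lit 380) (nat_lit 0) (XT.lf (nat_lit 0) (nat_lit 1820090185) (nat_lit 456) (nat_lit 539875233) (nat_lit 532) (nat_lit 5243387260) (nat_lit 59) (nat_lit 5) (nat_lit 65) (nat_lit 5) (nat_lit 66) (nat_lit 5) (nat_lit 306) (nat_lit 300) (nat_lit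 294)) (XT.lf (nat_lit 0) (nat_lit 3225991341) (nat_lit 380) (nat_lit 3935286454) (nat_lit 456) (nat_lit 869667179) (nat_lit 54) (nat_lit 5) (nat_lit 59) (nat_lit 5) (nat_lit 60) (nat_lit 5) (nat_lit 307) (nat_lit 300) (nat_lit 293))))) (XT.nd (nat_lit 234) (nat_lit 988) (nat_lit 0) (XT.nd (nat_lit 78) (nat_lit 456) (nat_lit 0) (XT.lf (nat_lit 0) (nat_lit 3738747302) (nat_lit 304) (nat_lit 3619381361) (nat_lit 76) (nat_lit 1174228070) (nat_lit 50) (nat_lit 5) (nat_lit 54) (nat_lit 5) (nat_lit 51) (nat_lit 5) (nat_lit 308) (nat_lit 300) (nat_lit 292)) (XT.nd (nat_lit 78) (nat_lit 228) (nat_lit 0) (XT.lf (nat_lit 0) (nat_lit 6892940673) (nat_lit 228) (nat_lit 2020620590) (nat_lit 304) (nat_lit 200024035) (nat_lit 47) (nat_lit 5) (nat_lit 50) (nat_lit 5) (nat_lit 51) (nat_lit 5) (nat_lit 309) (nat_lit 300) (nat_lit 291)) (XT.lf (nat_lit 0) (nat_lit 4811709285) (nat_lit 228) (nat_lit 698914243)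 (nat_lit 76) (nat_lit 4263363614) (nat_lit 44) (nat_lit 5) (nat_lit 47) (nat_lit 5) (nat_lit 45) (nat_lit 5) (nat_lit 310) (nat_lit 300) (nat_lit 290)))) (XT.nd (nat_lit 156) (nat_lit 380) (nat_lit 0) (XT.nd (nat_lit 78) (nat_lit 152) (nat_lit 0) (XT.lf (nat_lit 0) (nat_lit 75471959) (nat_lit 228) (nat_lit 9397285134) (nat_lit 76) (nat_lit 1056836880) (nat_lit 38) (nat_lit 5) (nat_lit 41) (nat_lit 5) (nat_lit 39) (nat_lit 5) (nat_lit 311) (nat_lit 300) (nat_lit 289)) (XT.lf (nat_lit 0) (nat_lit 3059038116) (nat_lit 152) (nat_lit 2690017693) (nat_lit 228) (nat_lit 5625561188) (nat_lit 36) (nat_lit 5) (nat_lit 38) (nat_lit 5) (nat_lit 39) (nat_lit 5) (nat_lit 312) (nat_lit 300) (nat_lit 288))) (XT.nd (nat_lit 78) (nat_lit 152) (nat_lit 0) (XT.lf (nat_lit 0) (nat_lit 102589457) (nat_lit 228) (nat_lit 7134309735) (nat_lit 76) (nat_lit 5096147029) (nat_lit 33) (nat_lit 5) (nat_lit 36) (nat_lit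 5) (nat_lit 34) (nat_lit 5) (nat_lit 313) (nat_lit 300) (nat_lit 287)) (XT.lf (nat_lit 0) (nat_lit 6554691010) (nat_lit 228) (nat_lit 5995535720) (nat_lit 76) (nat_lit 857711844) (nat_lit 31) (nat_lit 5) (nat_lit 34) (nat_lit 5) (nat_lit 32) (nat_lit 4) (nat_lit 314) (nat_lit 300) (nat_lit 286)))))) (XT.nd (nat_lit 546) (nat_lit 684) (nat_lit 0) (XT.nd (nat_lit 234) (nat_lit 532) (nat_lit 0) (XT.nd (nat_lit 78) (nat_lit 304) (nat_lit 0) (XT.lf (nat_lit 0) (nat_lit 9723411144) (nat_lit 76) (nat_lit 4591065190) (nat_lit 152) (nat_lit 302585197) (nat_lit 30) (nat_lit 5) (nat_lit 31) (nat_lit 5) (nat_lit 32) (nat_lit 4) (nat_lit 315) (nat_lit 300) (nat_lit 285)) (XT.nd (nat_lit 78) (nat_lit 76) (nat_lit 0) (XT.lf (nat_lit 0) (nat_lit 7175851293) (nat_lit 228) (nat_lit 3978988720) (nat_lit 76) (nat_lit 4814400431) (nat_lit 27) (nat_lit 5) (nat_lit 30) (nat_lit 5) (nat_lit 28) (nat_lit 4) (nat_lit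 316) (nat_lit 300) (nat_lit 284)) (XT.lf (nat_lit 0) (nat_lit 14315223857) (nat_lit 76) (nat_lit 1797768427) (nat_lit 152) (nat_lit 1382367112) (nat_lit 26) (nat_lit 5) (nat_lit 27) (nat_lit 5) (nat_lit 28) (nat_lit 4) (nat_lit 317) (nat_lit 300) (nat_lit 283)))) (XT.nd (nat_lit 156) (nat_lit 228) (nat_lit 0) (XT.nd (nat_lit 78) (nat_lit 76) (nat_lit 0) (XT.lf (nat_lit 0) (nat_lit 7284814103) (nat_lit 228) (nat_lit 2862732230) (nat_lit 76) (nat_lit 9049081433) (nat_lit 23) (nat_lit 5) (nat_lit 26) (nat_lit 5) (nat_lit 24) (nat_lit 4) (nat_lit 318) (nat_lit 300) (nat_lit 282)) (XT.lf (nat_lit 0) (nat_lit 17546484479) (nat_lit 152) (nat_lit 2899191943) (nat_lit 0) (nat_lit 674527725) (nat_lit 22) (nat_lit 5) (nat_lit 24) (nat_lit 4) (nat_lit 22) (nat_lit 4) (nat_lit 319) (nat_lit 300) (nat_lit 281))) (XT.nd (nat_lit 78) (nat_lit 76) (nat_lit 0) (XT.lf (nat_lit 0) (nat_lit 6358911957) (nat_lit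 152) (nat_lit 3811738503) (nat_lit 76) (nat_lit 13098589175) (nat_lit 20) (nat_lit 5) (nat_lit 22) (nat_lit 5) (nat_lit 21) (nat_lit 4) (nat_lit 320) (nat_lit 300) (nat_lit 280)) (XT.lf (nat_lit 0) (nat_lit 18004303881) (nat_lit 152) (nat_lit 5599995952) (nat_lit 0) (nat_lit 2094211046) (nat_lit 19) (nat_lit 5) (nat_lit 21) (nat_lit 4) (nat_lit 19) (nat_lit 4) (nat_lit 321) (nat_lit 300) (nat_lit 279))))) (XT.nd (nat_lit 312) (nat_lit 228) (nat_lit 0) (XT.nd (nat_lit 156) (nat_lit 228) (nat_lit 0) (XT.nd (nat_lit 78) (nat_lit 76) (nat_lit 0) (XT.lf (nat_lit 0) (nat_lit 3463899045) (nat_lit 152) (nat_lit 8821627980) (nat_lit 76) (nat_lit 16144721010) (nat_lit 17) (nat_lit 5) (nat_lit 19) (nat_lit 5) (nat_lit 18) (nat_lit 4) (nat_lit 322) (nat_lit 300) (nat_lit 278)) (XT.lf (nat_lit 0) (nat_lit 16311528693) (nat_lit 152) (nat_lit 13828177113) (nat_lit 0) (nat_lit 1378385494) (nat_lit 16)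 (nat_lit 5) (nat_lit 18) (nat_lit 4) (nat_lit 16) (nat_lit 4) (nat_lit 323) (nat_lit 300) (nat_lit 277))) (XT.nd (nat_lit 78) (nat_lit 152) (nat_lit 0) (XT.lf (nat_lit 0) (nat_lit 13699663389) (nat_lit 76) (nat_lit 18161100015) (nat_lit 76) (nat_lit 3146429714) (nat_lit 15) (nat_lit 4) (nat_lit 16) (nat_lit 5) (nat_lit 16) (nat_lit 4) (nat_lit 324) (nat_lit 300) (nat_lit 276)) (XT.lf (nat_lit 0) (nat_lit 7003413822) (nat_lit 76) (nat_lit 3616286780) (nat_lit 152) (nat_lit 28344690674) (nat_lit 13) (nat_lit 5) (nat_lit 14) (nat_lit 5) (nat_lit 15) (nat_lit 4) (nat_lit 325) (nat_lit 300) (nat_lit 275)))) (XT.nd (nat_lit 156) (nat_lit 152) (nat_lit 0) (XT.nd (nat_lit 78) (nat_lit 76) (nat_lit 0) (XT.lf (nat_lit 0) (nat_lit 27083403945) (nat_lit 152) (nat_lit 3301528003) (nat_lit 0) (nat_lit 13058209840) (nat_lit 13) (nat_lit 5) (nat_lit 15) (nat_lit 4) (nat_lit 13) (nat_lit 4) (nat_lit 326)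 (nat_lit 300) (nat_lit 274)) (XT.lf (nat_lit 0) (nat_lit 30867121894) (nat_lit 76) (nat_lit 15871826285) (nat_lit 76) (nat_lit 1796997557) (nat_lit 12) (nat_lit 4) (nat_lit 13) (nat_lit 5) (nat_lit 13) (nat_lit 4) (nat_lit 327) (nat_lit 300) (nat_lit 273))) (XT.nd (nat_lit 78) (nat_lit 0) (nat_lit 0) (XT.lf (nat_lit 0) (nat_lit 14617305906) (nat_lit 152) (nat_lit 38168324148) (nat_lit 0) (nat_lit 1545093620) (nat_lit 10) (nat_lit 5) (nat_lit 12) (nat_lit 4) (nat_lit 10) (nat_lit 4) (nat_lit 328) (nat_lit 300) (nat_lit 272)) (XT.lf (nat_lit 0) (nat_lit 34252136685) (nat_lit 152) (nat_lit 5524507896) (nat_lit 0) (nat_lit 21145173559) (nat_lit 10) (nat_lit 5) (nat_lit 12) (nat_lit 4) (nat_lit 10) (nat_lit 4) (nat_lit 329) (nat_lit 300) (nat_lit 271))))))) (XT.nd (nat_lit 1092) (nat_lit 152) (nat_lit 0) (XT.nd (nat_lit 546) (nat_lit 76) (nat_lit 0) (XT.nd (nat_lit 234) (nat_lit 228) (nat_lit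 0) (XT.nd (nat_lit 78) (nat_lit 152) (nat_lit 0) (XT.lf (nat_lit 0) (nat_lit 33512135502) (nat_lit 76) (nat_lit 24034731475) (nat_lit 76) (nat_lit 10897550230) (nat_lit 9) (nat_lit 4) (nat_lit 10) (nat_lit 5) (nat_lit 10) (nat_lit 4) (nat_lit 330) (nat_lit 300) (nat_lit 270)) (XT.nd (nat_lit 78) (nat_lit 0) (nat_lit 0) (XT.lf (nat_lit 0) (nat_lit 1377456456) (nat_lit 76) (nat_lit 5613367740) (nat_lit 152) (nat_lit 70081653591) (nat_lit 7) (nat_lit 5) (nat_lit 8) (nat_lit 5) (nat_lit 9) (nat_lit 4) (nat_lit 331) (nat_lit 300) (nat_lit 269)) (XT.lf (nat_lit 0) (nat_lit 28273510512) (nat_lit 152) (nat_lit 42526130907) (nat_lit 0) (nat_lit 16063966889) (nat_lit 7) (nat_lit 5) (nat_lit 9) (nat_lit 4) (nat_lit 7) (nat_lit 4) (nat_lit 332) (nat_lit 300) (nat_lit 268)))) (XT.nd (nat_lit 156) (nat_lit 152) (nat_lit 0) (XT.nd (nat_lit 78) (nat_lit 76) (nat_lit 0) (XT.lf (nat_lit 0) (nat_lit 52834327061)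 (nat_lit 152) (nat_lit 4675845639) (nat_lit 0) (nat_lit 40606386304) (nat_lit 7) (nat_lit 5) (nat_lit 9) (nat_lit 4) (nat_lit 7) (nat_lit 4) (nat_lit 333) (nat_lit 300) (nat_lit 267)) (XT.lf (nat_lit 0) (nat_lit 40770911262) (nat_lit 76) (nat_lit 41228440062) (nat_lit 76) (nat_lit 28984501797) (nat_lit 6) (nat_lit 4) (nat_lit 7) (nat_lit 5) (nat_lit 7) (nat_lit 4) (nat_lit 334) (nat_lit 300) (nat_lit 266))) (XT.nd (nat_lit 78) (nat_lit 152) (nat_lit 0) (XT.lf (nat_lit 0) (nat_lit 93207447404) (nat_lit 76) (nat_lit 22412588595) (nat_lit 76) (nat_lit 10154739454) (nat_lit 6) (nat_lit 4) (nat_lit 7) (nat_lit 5) (nat_lit 7) (nat_lit 4) (nat_lit 335) (nat_lit 300) (nat_lit 265)) (XT.lf (nat_lit 0) (nat_lit 10894985406) (nat_lit 76) (nat_lit 242000632) (nat_lit 152) (nat_lit 131608210430) (nat_lit 4) (nat_lit 5) (nat_lit 5) (nat_lit 5) (nat_lit 6) (nat_lit 4) (nat_lit 336) (nat_lit 300) (nat_lit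 264))))) (XT.nd (nat_lit 234) (nat_lit 76) (nat_lit 0) (XT.nd (nat_lit 78) (nat_lit 0) (nat_lit 0) (XT.lf (nat_lit 0) (nat_lit 36572339933) (nat_lit 152) (nat_lit 100342113347) (nat_lit 0) (nat_lit 25201539769) (nat_lit 4) (nat_lit 5) (nat_lit 6) (nat_lit 4) (nat_lit 4) (nat_lit 4) (nat_lit 337) (nat_lit 300) (nat_lit 263)) (XT.nd (nat_lit 78) (nat_lit 0) (nat_lit 0) (XT.lf (nat_lit 0) (nat_lit 65789597965) (nat_lit 152) (nat_lit 64195158408) (nat_lit 0) (nat_lit 54410328702) (nat_lit 4) (nat_lit 5) (nat_lit 6) (nat_lit 4) (nat_lit 4) (nat_lit 4) (nat_lit 338) (nat_lit 300) (nat_lit 262)) (XT.lf (nat_lit 0) (nat_lit 99354582019) (nat_lit 152) (nat_lit 22696303094) (nat_lit 0) (nat_lit 87967948322) (nat_lit 4) (nat_lit 5) (nat_lit 6) (nat_lit 4) (nat_lit 4) (nat_lit 4) (nat_lit 339) (nat_lit 300) (nat_lit 261)))) (XT.nd (nat_lit 156) (nat_lit 0) (nat_lit 0) (XT.nd (nat_lit 78) (nat_lit 0)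 (nat_lit 0) (XT.lf (nat_lit 0) (nat_lit 26281072401) (nat_lit 76) (nat_lit 112274986326) (nat_lit 76) (nat_lit 100881948773) (nat_lit 3) (nat_lit 4) (nat_lit 4) (nat_lit 5) (nat_lit 4) (nat_lit 4) (nat_lit 340) (nat_lit 300) (nat_lit 260)) (XT.lf (nat_lit 0) (nat_lit 83923642412) (nat_lit 76) (nat_lit 100347189042) (nat_lit 76) (nat_lit 88948582919) (nat_lit 3) (nat_lit 4) (nat_lit 4) (nat_lit 5) (nat_lit 4) (nat_lit 4) (nat_lit 341) (nat_lit 300) (nat_lit 259))) (XT.nd (nat_lit 78) (nat_lit 0) (nat_lit 0) (XT.lf (nat_lit 0) (nat_lit 150164049250) (nat_lit 76) (nat_lit 86654680463) (nat_lit 76) (nat_lit 75251232105) (nat_lit 3) (nat_lit 4) (nat_lit 4) (nat_lit 5) (nat_lit 4) (nat_lit 4) (nat_lit 342) (nat_lit 300) (nat_lit 258)) (XT.lf (nat_lit 0) (nat_lit 226298300876) (nat_lit 76) (nat_lit 70929563681) (nat_lit 76) (nat_lit 59521904685) (nat_lit 3) (nat_lit 4) (nat_lit 4) (nat_lit 5)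 (nat_lit 4) (nat_lit 4) (nat_lit 343) (nat_lit 300) (nat_lit 257)))))) (XT.nd (nat_lit 546) (nat_lit 0) (nat_lit 0) (XT.nd (nat_lit 234) (nat_lit 76) (nat_lit 0) (XT.nd (nat_lit 78) (nat_lit 76) (nat_lit 0) (XT.lf (nat_lit 0) (nat_lit 313815980473) (nat_lit 76) (nat_lit 52864173369) (nat_lit 76) (nat_lit 41452852947) (nat_lit 3) (nat_lit 4) (nat_lit 4) (nat_lit 5) (nat_lit 4) (nat_lit 4) (nat_lit 344) (nat_lit 300) (nat_lit 256)) (XT.nd (nat_lit 78) (nat_lit 76) (nat_lit 0) (XT.lf (nat_lit 0) (nat_lit 414429390469) (nat_lit 76) (nat_lit 32105056237) (nat_lit 76) (nat_lit 20690551967) (nat_lit 3) (nat_lit 4) (nat_lit 4) (nat_lit 5) (nat_lit 4) (nat_lit 4) (nat_lit 345) (nat_lit 300) (nat_lit 255)) (XT.lf (nat_lit 0) (nat_lit 3012580059) (nat_lit 152) (nat_lit 5151106309) (nat_lit 76) (nat_lit 527012104765) (nat_lit 2) (nat_lit 5) (nat_lit 4) (nat_lit 5) (nat_lit 3) (nat_lit 4) (nat_lit 346)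 (nat_lit 300) (nat_lit 254)))) (XT.nd (nat_lit 156) (nat_lit 0) (nat_lit 0) (XT.nd (nat_lit 78) (nat_lit 0) (nat_lit 0) (XT.lf (nat_lit 0) (nat_lit 30822843967) (nat_lit 152) (nat_lit 562062158384) (nat_lit 0) (nat_lit 20249065930) (nat_lit 1) (nat_lit 5) (nat_lit 3) (nat_lit 4) (nat_lit 1) (nat_lit 4) (nat_lit 347) (nat_lit 300) (nat_lit 253)) (XT.lf (nat_lit 0) (nat_lit 63172791515) (nat_lit 152) (nat_lit 586986769769) (nat_lit 0) (nat_lit 52597075116) (nat_lit 1) (nat_lit 5) (nat_lit 3) (nat_lit 4) (nat_lit 1) (nat_lit 4) (nat_lit 348) (nat_lit 300) (nat_lit 252))) (XT.nd (nat_lit 78) (nat_lit 0) (nat_lit 0) (XT.lf (nat_lit 0) (nat_lit 100365224639) (nat_lit 152) (nat_lit 615670343722) (nat_lit 0) (nat_lit 89787822707) (nat_lit 1) (nat_lit 5) (nat_lit 3) (nat_lit 4) (nat_lit 1) (nat_lit 4) (nat_lit 349) (nat_lit 300) (nat_lit 251)) (XT.lf (nat_lit 0) (nat_lit 143127821377) (nat_lit 152)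 (nat_lit 648674080601) (nat_lit 0) (nat_lit 132548953764) (nat_lit 1) (nat_lit 5) (nat_lit 3) (nat_lit 4) (nat_lit 1) (nat_lit 4) (nat_lit 350) (nat_lit 300) (nat_lit 250))))) (XT.nd (nat_lit 312) (nat_lit 0) (nat_lit 0) (XT.nd (nat_lit 156) (nat_lit 0) (nat_lit 0) (XT.nd (nat_lit 78) (nat_lit 0) (nat_lit 0) (XT.lf (nat_lit 0) (nat_lit 192297241231) (nat_lit 152) (nat_lit 686643705695) (nat_lit 0) (nat_lit 181717099113) (nat_lit 1) (nat_lit 5) (nat_lit 3) (nat_lit 4) (nat_lit 1) (nat_lit 4) (nat_lit 351) (nat_lit 300) (nat_lit 249)) (XT.lf (nat_lit 0) (nat_lit 248835494589) (nat_lit 152) (nat_lit 730322102971) (nat_lit 0) (nat_lit 238254244206) (nat_lit 1) (nat_lit 5) (nat_lit 3) (nat_lit 4) (nat_lit 1) (nat_lit 4) (nat_lit 352) (nat_lit 300) (nat_lit 248))) (XT.nd (nat_lit 78) (nat_lit 0) (nat_lit 0) (XT.lf (nat_lit 0) (nat_lit 313848764670) (nat_lit 152) (nat_lit 780563849768) (nat_lit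 0) (nat_lit 303266550577) (nat_lit 1) (nat_lit 5) (nat_lit 3) (nat_lit 4) (nat_lit 1) (nat_lit 4) (nat_lit 353) (nat_lit 300) (nat_lit 247)) (XT.lf (nat_lit 0) (nat_lit 388609050234) (nat_lit 152) (nat_lit 838351936785) (nat_lit 0) (nat_lit 378025998134) (nat_lit 1) (nat_lit 5) (nat_lit 3) (nat_lit 4) (nat_lit 1) (nat_lit 4) (nat_lit 354) (nat_lit 300) (nat_lit 246)))) (XT.nd (nat_lit 156) (nat_lit 0) (nat_lit 0) (XT.nd (nat_lit 78) (nat_lit 0) (nat_lit 0) (XT.lf (nat_lit 0) (nat_lit 474579052523) (nat_lit 152) (nat_lit 904817000506) (nat_lit 0) (nat_lit 463995271721) (nat_lit 1) (nat_lit 5) (nat_lit 3) (nat_lit 4) (nat_lit 1) (nat_lit 4) (nat_lit 355) (nat_lit 300) (nat_lit 245)) (XT.lf (nat_lit 0) (nat_lit 573440793320) (nat_lit 152) (nat_lit 981259444352) (nat_lit 0) (nat_lit 562856378863) (nat_lit 1) (nat_lit 5) (nat_lit 3) (nat_lit 4) (nat_lit 1) (nat_lit 4) (nat_lit 356) (nat_lit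 300) (nat_lit 244))) (XT.nd (nat_lit 78) (nat_lit 0) (nat_lit 0) (XT.lf (nat_lit 0) (nat_lit 687128524074) (nat_lit 152) (nat_lit 1069174881354) (nat_lit 0) (nat_lit 676543558614) (nat_lit 1) (nat_lit 5) (nat_lit 3) (nat_lit 4) (nat_lit 1) (nat_lit 4) (nat_lit 357) (nat_lit 300) (nat_lit 243)) (XT.lf (nat_lit 0) (nat_lit 817866569954) (nat_lit 152) (nat_lit 1170283396151) (nat_lit 0) (nat_lit 807281125360) (nat_lit 1) (nat_lit 5) (nat_lit 3) (nat_lit 4) (nat_lit 1) (nat_lit 4) (nat_lit 358) (nat_lit 300) (nat_lit 242))))))))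
noncomputable def xc24 : XT := (XT.nd (nat_lit 43446) (nat_lit 0) (nat_lit 152) (XT.nd (nat_lit 42354) (nat_lit 0) (nat_lit 2432) (XT.nd (nat_lit 546) (nat_lit 0) (nat_lit 0) (XT.nd (nat_lit 234) (nat_lit 0) (nat_lit 0) (XT.nd (nat_lit 78) (nat_lit 0) (nat_lit 0) (XT.lf (nat_lit 0) (nat_lit 968212849248) (nat_lit 152) (nat_lit 1286563198813) (nat_lit 0) (nat_lit 957626988016) (nat_lit 1) (nat_lit 5) (nat_lit 3) (nat_lit 4) (nat_lit 1) (nat_lit 4) (nat_lit 359) (nat_lit 300) (nat_lit 241)) (XT.nd (nat_lit 78) (nat_lit 0) (nat_lit 0) (XT.lf (nat_lit 0) (nat_lit 1141108919594) (nat_lit 152) (nat_lit 1420289328959) (nat_lit 0) (nat_lit 1130522696068) (nat_lit 1) (nat_lit 5) (nat_lit 3) (nat_lit 4) (nat_lit 1) (nat_lit 4) (nat_lit 360) (nat_lit 300) (nat_lit 240)) (XT.lf (nat_lit 0) (nat_lit 1339937530194) (nat_lit 152) (nat_lit 1574078167395) (nat_lit 0) (nat_lit 1329350991631) (nat_lit 1)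 (nat_lit 5) (nat_lit 3) (nat_lit 4) (nat_lit 1) (nat_lit 4) (nat_lit 361) (nat_lit 300) (nat_lit 239)))) (XT.nd (nat_lit 156) (nat_lit 0) (nat_lit 0) (XT.nd (nat_lit 78) (nat_lit 0) (nat_lit 0) (XT.lf (nat_lit 0) (nat_lit 1568588806040) (nat_lit 152) (nat_lit 1750938626178) (nat_lit 0) (nat_lit 1558001993530) (nat_lit 1) (nat_lit 5) (nat_lit 3) (nat_lit 4) (nat_lit 1) (nat_lit 4) (nat_lit 362) (nat_lit 300) (nat_lit 238)) (XT.lf (nat_lit 0) (nat_lit 1831536359049) (nat_lit 152) (nat_lit 1954331018631) (nat_lit 0) (nat_lit 1820949308325) (nat_lit 1) (nat_lit 5) (nat_lit 3) (nat_lit 4) (nat_lit 1) (nat_lit 4) (nat_lit 363) (nat_lit 300) (nat_lit 237))) (XT.nd (nat_lit 78) (nat_lit 0) (nat_lit 0) (XT.lf (nat_lit 0) (nat_lit 2133924815259) (nat_lit 152) (nat_lit 2188234761129) (nat_lit 0) (nat_lit 2123337557392) (nat_lit 1) (nat_lit 5) (nat_lit 3) (nat_lit 4) (nat_lit 1) (nat_lit 4) (nat_lit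 364) (nat_lit 300) (nat_lit 236)) (XT.lf (nat_lit 0) (nat_lit 2481670470552) (nat_lit 152) (nat_lit 2457226231243) (nat_lit 0) (nat_lit 2471083032561) (nat_lit 1) (nat_lit 5) (nat_lit 3) (nat_lit 4) (nat_lit 1) (nat_lit 4) (nat_lit 365) (nat_lit 300) (nat_lit 235))))) (XT.nd (nat_lit 234) (nat_lit 0) (nat_lit 0) (XT.nd (nat_lit 78) (nat_lit 0) (nat_lit 0) (XT.lf (nat_lit 0) (nat_lit 2881577044271) (nat_lit 152) (nat_lit 2766568305561) (nat_lit 0) (nat_lit 2870989449650) (nat_lit 1) (nat_lit 5) (nat_lit 3) (nat_lit 4) (nat_lit 1) (nat_lit 4) (nat_lit 366) (nat_lit 300) (nat_lit 234)) (XT.nd (nat_lit 78) (nat_lit 0) (nat_lit 0) (XT.lf (nat_lit 0) (nat_lit 3341468795467) (nat_lit 152) (nat_lit 3122313329017) (nat_lit 0) (nat_lit 3330881064646) (nat_lit 1) (nat_lit 5) (nat_lit 3) (nat_lit 4) (nat_lit 1) (nat_lit 4) (nat_lit 367) (nat_lit 300) (nat_lit 233)) (XT.lf (nat_lit 0) (nat_lit 3870343606227)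 (nat_lit 152) (nat_lit 3531421530329) (nat_lit 0) (nat_lit 3859755756973) (nat_lit 1) (nat_lit 5) (nat_lit 3) (nat_lit 4) (nat_lit 1) (nat_lit 4) (nat_lit 368) (nat_lit 300) (nat_lit 232)))) (XT.nd (nat_lit 156) (nat_lit 0) (nat_lit 0) (XT.nd (nat_lit 78) (nat_lit 0) (nat_lit 0) (XT.lf (nat_lit 0) (nat_lit 4478549027199) (nat_lit 152) (nat_lit 4001897200393) (nat_lit 0) (nat_lit 4467961074958) (nat_lit 1) (nat_lit 5) (nat_lit 3) (nat_lit 4) (nat_lit 1) (nat_lit 4) (nat_lit 369) (nat_lit 300) (nat_lit 231)) (XT.lf (nat_lit 0) (nat_lit 5177984729661) (nat_lit 152) (nat_lit 4542945297971) (nat_lit 0) (nat_lit 5167396687866) (nat_lit 1) (nat_lit 5) (nat_lit 3) (nat_lit 4) (nat_lit 1) (nat_lit 4) (nat_lit 370) (nat_lit 300) (nat_lit 230))) (XT.nd (nat_lit 78) (nat_lit 0) (nat_lit 0) (XT.lf (nat_lit 0) (nat_lit 5982335325183) (nat_lit 152) (nat_lit 5165151546711) (nat_lit 0) (nat_lit 5971747205516)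 (nat_lit 1) (nat_lit 5) (nat_lit 3) (nat_lit 4) (nat_lit 1) (nat_lit 4) (nat_lit 371) (nat_lit 300) (nat_lit 229)) (XT.lf (nat_lit 0) (nat_lit 6907338108027) (nat_lit 152) (nat_lit 5880689547133) (nat_lit 0) (nat_lit 6896749920644) (nat_lit 1) (nat_lit 5) (nat_lit 3) (nat_lit 4) (nat_lit 1) (nat_lit 4) (nat_lit 372) (nat_lit 300) (nat_lit 228)))))) (XT.nd (nat_lit 546) (nat_lit 1900) (nat_lit 0) (XT.nd (nat_lit 234) (nat_lit 1520) (nat_lit 0) (XT.nd (nat_lit 78) (nat_lit 228) (nat_lit 0) (XT.lf (nat_lit 0) (nat_lit 1902464751) (nat_lit 228) (nat_lit 682387086) (nat_lit 228) (nat_lit 682387086) (nat_lit 81) (nat_lit 3) (nat_lit 84) (nat_lit 3) (nat_lit 84) (nat_lit 5) (nat_lit 301) (nat_lit 301) (nat_lit 298)) (XT.nd (nat_lit 78) (nat_lit 0) (nat_lit 0) (XT.lf (nat_lit 0) (nat_lit 1724861252) (nat_lit 228) (nat_lit 1976090529) (nat_lit 304) (nat_lit 2960548175) (nat_lit 78) (nat_lit 5) (nat_lit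 81) (nat_lit 3) (nat_lit 82) (nat_lit 5) (nat_lit 302) (nat_lit 301) (nat_lit 297)) (XT.lf (nat_lit 76) (nat_lit 4598087968) (nat_lit 0) (nat_lit 1450322849) (nat_lit 304) (nat_lit 805859833) (nat_lit 79) (nat_lit 5) (nat_lit 78) (nat_lit 5) (nat_lit 82) (nat_lit 5) (nat_lit 303) (nat_lit 301) (nat_lit 296)))) (XT.nd (nat_lit 156) (nat_lit 912) (nat_lit 0) (XT.nd (nat_lit 78) (nat_lit 380) (nat_lit 0) (XT.lf (nat_lit 0) (nat_lit 3244176468) (nat_lit 304) (nat_lit 2274236610) (nat_lit 76) (nat_lit 1591304609) (nat_lit 75) (nat_lit 5) (nat_lit 79) (nat_lit 5) (nat_lit 76) (nat_lit 5) (nat_lit 304) (nat_lit 301) (nat_lit 295)) (XT.lf (nat_lit 0) (nat_lit 26872659) (nat_lit 380) (nat_lit 1989054585) (nat_lit 76) (nat_lit 5418117458) (nat_lit 70) (nat_lit 5) (nat_lit 75) (nat_lit 5) (nat_lit 71) (nat_lit 5) (nat_lit 305) (nat_lit 301) (nat_lit 294))) (XT.nd (nat_lit 78) (nat_lit 532) (nat_lit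 0) (XT.lf (nat_lit 0) (nat_lit 3986255906) (nat_lit 456) (nat_lit 1499023668) (nat_lit 76) (nat_lit 2337524723) (nat_lit 65) (nat_lit 5) (nat_lit 71) (nat_lit 5) (nat_lit 66) (nat_lit 5) (nat_lit 306) (nat_lit 301) (nat_lit 293)) (XT.lf (nat_lit 0) (nat_lit 38303186) (nat_lit 532) (nat_lit 711755542) (nat_lit 76) (nat_lit 7537354358) (nat_lit 58) (nat_lit 5) (nat_lit 65) (nat_lit 5) (nat_lit 59) (nat_lit 5) (nat_lit 307) (nat_lit 301) (nat_lit 292))))) (XT.nd (nat_lit 234) (nat_lit 836) (nat_lit 0) (XT.nd (nat_lit 78) (nat_lit 456) (nat_lit 0) (XT.lf (nat_lit 0) (nat_lit 226547300) (nat_lit 228) (nat_lit 3974649546) (nat_lit 304) (nat_lit 4618368474) (nat_lit 50) (nat_lit 5) (nat_lit 53) (nat_lit 5) (nat_lit 54) (nat_lit 5) (nat_lit 308) (nat_lit 301) (nat_lit 291)) (XT.nd (nat_lit 78) (nat_lit 228) (nat_lit 0) (XT.lf (nat_lit 0) (nat_lit 1503801869) (nat_lit 228) (nat_lit 7447627176) (nat_lit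 304) (nat_lit 483550852) (nat_lit 47) (nat_lit 5) (nat_lit 50) (nat_lit 5) (nat_lit 51) (nat_lit 5) (nat_lit 309) (nat_lit 301) (nat_lit 290)) (XT.lf (nat_lit 0) (nat_lit 2944515712) (nat_lit 152) (nat_lit 1156157874) (nat_lit 228) (nat_lit 6030765734) (nat_lit 44) (nat_lit 5) (nat_lit 46) (nat_lit 5) (nat_lit 47) (nat_lit 5) (nat_lit 310) (nat_lit 301) (nat_lit 289)))) (XT.nd (nat_lit 156) (nat_lit 380) (nat_lit 0) (XT.nd (nat_lit 78) (nat_lit 228) (nat_lit 0) (XT.lf (nat_lit 0) (nat_lit 4601931755) (nat_lit 228) (nat_lit 4880127885) (nat_lit 304) (nat_lit 1438580838) (nat_lit 41) (nat_lit 5) (nat_lit 44) (nat_lit 5) (nat_lit 45) (nat_lit 5) (nat_lit 311) (nat_lit 301) (nat_lit 288)) (XT.lf (nat_lit 0) (nat_lit 3791861065) (nat_lit 228) (nat_lit 5360716095) (nat_lit 76) (nat_lit 2657186339) (nat_lit 38) (nat_lit 5) (nat_lit 41) (nat_lit 5) (nat_lit 39) (nat_lit 5) (nat_lit 312) (nat_lit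 301) (nat_lit 287))) (XT.nd (nat_lit 78) (nat_lit 228) (nat_lit 0) (XT.lf (nat_lit 0) (nat_lit 8503065171) (nat_lit 152) (nat_lit 1450041031) (nat_lit 228) (nat_lit 2857877455) (nat_lit 36) (nat_lit 5) (nat_lit 38) (nat_lit 5) (nat_lit 39) (nat_lit 5) (nat_lit 313) (nat_lit 301) (nat_lit 286)) (XT.lf (nat_lit 0) (nat_lit 3254390318) (nat_lit 228) (nat_lit 3263285197) (nat_lit 76) (nat_lit 7412409389) (nat_lit 33) (nat_lit 5) (nat_lit 36) (nat_lit 5) (nat_lit 34) (nat_lit 5) (nat_lit 314) (nat_lit 301) (nat_lit 285))))))) (XT.nd (nat_lit 1092) (nat_lit 684) (nat_lit 0) (XT.nd (nat_lit 546) (nat_lit 608) (nat_lit 0) (XT.nd (nat_lit 234) (nat_lit 532) (nat_lit 0) (XT.nd (nat_lit 78) (nat_lit 304) (nat_lit 0) (XT.lf (nat_lit 0) (nat_lit 10414554691) (nat_lit 228) (nat_lit 2183877959) (nat_lit 76) (nat_lit 2588820209) (nat_lit 31) (nat_lit 5) (nat_lit 34) (nat_lit 5) (nat_lit 32) (nat_lit 4)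 (nat_lit 315) (nat_lit 301) (nat_lit 284)) (XT.nd (nat_lit 78) (nat_lit 152) (nat_lit 0) (XT.lf (nat_lit 0) (nat_lit 2343693406) (nat_lit 152) (nat_lit 1164877045) (nat_lit 76) (nat_lit 13086375117) (nat_lit 29) (nat_lit 5) (nat_lit 31) (nat_lit 5) (nat_lit 30) (nat_lit 5) (nat_lit 316) (nat_lit 301) (nat_lit 283)) (XT.lf (nat_lit 0) (nat_lit 10715509945) (nat_lit 228) (nat_lit 343107224) (nat_lit 76) (nat_lit 7107726043) (nat_lit 27) (nat_lit 5) (nat_lit 30) (nat_lit 5) (nat_lit 28) (nat_lit 4) (nat_lit 317) (nat_lit 301) (nat_lit 282)))) (XT.nd (nat_lit 156) (nat_lit 152) (nat_lit 0) (XT.nd (nat_lit 78) (nat_lit 76) (nat_lit 0) (XT.lf (nat_lit 0) (nat_lit 397189278) (nat_lit 152) (nat_lit 396394048) (nat_lit 228) (nat_lit 19143853166) (nat_lit 23) (nat_lit 5) (nat_lit 25) (nat_lit 5) (nat_lit 26) (nat_lit 5) (nat_lit 318) (nat_lit 301) (nat_lit 281)) (XT.lf (nat_lit 0) (nat_lit 521540521)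 (nat_lit 76) (nat_lit 9989374212) (nat_lit 152) (nat_lit 11393682180) (nat_lit 22) (nat_lit 5) (nat_lit 23) (nat_lit 5) (nat_lit 24) (nat_lit 4) (nat_lit 319) (nat_lit 301) (nat_lit 280))) (XT.nd (nat_lit 78) (nat_lit 76) (nat_lit 0) (XT.lf (nat_lit 0) (nat_lit 264058025) (nat_lit 76) (nat_lit 21885358468) (nat_lit 76) (nat_lit 1980398279) (nat_lit 21) (nat_lit 4) (nat_lit 22) (nat_lit 5) (nat_lit 22) (nat_lit 4) (nat_lit 320) (nat_lit 301) (nat_lit 279)) (XT.lf (nat_lit 0) (nat_lit 9147060403) (nat_lit 152) (nat_lit 1004835321) (nat_lit 76) (nat_lit 16460386495) (nat_lit 20) (nat_lit 5) (nat_lit 22) (nat_lit 5) (nat_lit 21) (nat_lit 4) (nat_lit 321) (nat_lit 301) (nat_lit 278))))) (XT.nd (nat_lit 234) (nat_lit 304) (nat_lit 0) (XT.nd (nat_lit 78) (nat_lit 228) (nat_lit 0) (XT.lf (nat_lit 0) (nat_lit 22408611088) (nat_lit 152) (nat_lit 3247472543) (nat_lit 0) (nat_lit 3760390576) (nat_lit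 19) (nat_lit 5) (nat_lit 21) (nat_lit 4) (nat_lit 19) (nat_lit 4) (nat_lit 322) (nat_lit 301) (nat_lit 277)) (XT.nd (nat_lit 78) (nat_lit 76) (nat_lit 0) (XT.lf (nat_lit 0) (nat_lit 5575944414) (nat_lit 152) (nat_lit 7138305401) (nat_lit 76) (nat_lit 19852719604) (nat_lit 17) (nat_lit 5) (nat_lit 19) (nat_lit 5) (nat_lit 18) (nat_lit 4) (nat_lit 323) (nat_lit 301) (nat_lit 276)) (XT.lf (nat_lit 0) (nat_lit 20240486210) (nat_lit 152) (nat_lit 13065181065) (nat_lit 0) (nat_lit 2821195132) (nat_lit 16) (nat_lit 5) (nat_lit 18) (nat_lit 4) (nat_lit 16) (nat_lit 4) (nat_lit 324) (nat_lit 301) (nat_lit 275)))) (XT.nd (nat_lit 156) (nat_lit 76) (nat_lit 0) (XT.nd (nat_lit 78) (nat_lit 152) (nat_lit 0) (XT.lf (nat_lit 0) (nat_lit 18351678749) (nat_lit 76) (nat_lit 19639552760) (nat_lit 76) (nat_lit 2158615480) (nat_lit 15) (nat_lit 4) (nat_lit 16) (nat_lit 5) (nat_lit 16) (nat_lit 4) (nat_lit 325)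 (nat_lit 301) (nat_lit 274)) (XT.lf (nat_lit 0) (nat_lit 10498274491) (nat_lit 76) (nat_lit 2979041452) (nat_lit 152) (nat_lit 31230306124) (nat_lit 13) (nat_lit 5) (nat_lit 14) (nat_lit 5) (nat_lit 15) (nat_lit 4) (nat_lit 326) (nat_lit 301) (nat_lit 273))) (XT.nd (nat_lit 78) (nat_lit 76) (nat_lit 0) (XT.lf (nat_lit 0) (nat_lit 32270290001) (nat_lit 152) (nat_lit 1607709410) (nat_lit 0) (nat_lit 15991441799) (nat_lit 13) (nat_lit 5) (nat_lit 15) (nat_lit 4) (nat_lit 13) (nat_lit 4) (nat_lit 327) (nat_lit 301) (nat_lit 272)) (XT.lf (nat_lit 0) (nat_lit 37500945979) (nat_lit 76) (nat_lit 17274752596) (nat_lit 76) (nat_lit 958373489) (nat_lit 12) (nat_lit 4) (nat_lit 13) (nat_lit 5) (nat_lit 13) (nat_lit 4) (nat_lit 328) (nat_lit 301) (nat_lit 271)))))) (XT.nd (nat_lit 546) (nat_lit 228) (nat_lit 0) (XT.nd (nat_lit 234) (nat_lit 228) (nat_lit 0) (XT.nd (nat_lit 78) (nat_lit 76) (nat_lit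 0) (XT.lf (nat_lit 0) (nat_lit 17792891354) (nat_lit 152) (nat_lit 41953731610) (nat_lit 0) (nat_lit 2654914800) (nat_lit 10) (nat_lit 5) (nat_lit 12) (nat_lit 4) (nat_lit 10) (nat_lit 4) (nat_lit 329) (nat_lit 301) (nat_lit 270)) (XT.nd (nat_lit 78) (nat_lit 76) (nat_lit 0) (XT.lf (nat_lit 0) (nat_lit 40244730719) (nat_lit 152) (nat_lit 4666365680) (nat_lit 0) (nat_lit 25080477539) (nat_lit 10) (nat_lit 5) (nat_lit 12) (nat_lit 4) (nat_lit 10) (nat_lit 4) (nat_lit 330) (nat_lit 301) (nat_lit 269)) (XT.lf (nat_lit 0) (nat_lit 40082993451) (nat_lit 76) (nat_lit 26876319047) (nat_lit 76) (nat_lit 11689216627) (nat_lit 9) (nat_lit 4) (nat_lit 10) (nat_lit 5) (nat_lit 10) (nat_lit 4) (nat_lit 331) (nat_lit 301) (nat_lit 268)))) (XT.nd (nat_lit 156) (nat_lit 76) (nat_lit 0) (XT.nd (nat_lit 78) (nat_lit 0) (nat_lit 0) (XT.lf (nat_lit 0) (nat_lit 3036116198) (nat_lit 76) (nat_lit 5734598956) (nat_lit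 152) (nat_lit 79804038369) (nat_lit 7) (nat_lit 5) (nat_lit 8) (nat_lit 5) (nat_lit 9) (nat_lit 4) (nat_lit 332) (nat_lit 301) (nat_lit 267)) (XT.lf (nat_lit 0) (nat_lit 33165495315) (nat_lit 152) (nat_lit 47606526564) (nat_lit 0) (nat_lit 19068968803) (nat_lit 7) (nat_lit 5) (nat_lit 9) (nat_lit 4) (nat_lit 7) (nat_lit 4) (nat_lit 333) (nat_lit 301) (nat_lit 266))) (XT.nd (nat_lit 78) (nat_lit 76) (nat_lit 0) (XT.lf (nat_lit 0) (nat_lit 61325526751) (nat_lit 152) (nat_lit 4248071200) (nat_lit 0) (nat_lit 47215089362) (nat_lit 7) (nat_lit 5) (nat_lit 9) (nat_lit 4) (nat_lit 7) (nat_lit 4) (nat_lit 334) (nat_lit 301) (nat_lit 265)) (XT.lf (nat_lit 0) (nat_lit 47920122205) (nat_lit 76) (nat_lit 46896207244) (nat_lit 76) (nat_lit 32773673441) (nat_lit 6) (nat_lit 4) (nat_lit 7) (nat_lit 5) (nat_lit 7) (nat_lit 4) (nat_lit 335) (nat_lit 301) (nat_lit 264))))) (XT.nd (nat_lit 312) (nat_lit 76)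 (nat_lit 0) (XT.nd (nat_lit 156) (nat_lit 0) (nat_lit 0) (XT.nd (nat_lit 78) (nat_lit 152) (nat_lit 0) (XT.lf (nat_lit 0) (nat_lit 108087324735) (nat_lit 76) (nat_lit 25325347470) (nat_lit 76) (nat_lit 11192295046) (nat_lit 6) (nat_lit 4) (nat_lit 7) (nat_lit 5) (nat_lit 7) (nat_lit 4) (nat_lit 336) (nat_lit 301) (nat_lit 263)) (XT.lf (nat_lit 0) (nat_lit 13232530003) (nat_lit 152) (nat_lit 150752501476) (nat_lit 0) (nat_lit 137901252) (nat_lit 4) (nat_lit 5) (nat_lit 6) (nat_lit 4) (nat_lit 4) (nat_lit 4) (nat_lit 337) (nat_lit 301) (nat_lit 262))) (XT.nd (nat_lit 78) (nat_lit 0) (nat_lit 0) (XT.lf (nat_lit 0) (nat_lit 42433572834) (nat_lit 152) (nat_lit 114638171126) (nat_lit 0) (nat_lit 29331579648) (nat_lit 4) (nat_lit 5) (nat_lit 6) (nat_lit 4) (nat_lit 4) (nat_lit 4) (nat_lit 338) (nat_lit 301) (nat_lit 261)) (XT.lf (nat_lit 0) (nat_lit 75984456712) (nat_lit 152) (nat_lit 73167685018)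 (nat_lit 0) (nat_lit 62876059671) (nat_lit 4) (nat_lit 5) (nat_lit 6) (nat_lit 4) (nat_lit 4) (nat_lit 4) (nat_lit 339) (nat_lit 301) (nat_lit 260)))) (XT.nd (nat_lit 156) (nat_lit 0) (nat_lit 0) (XT.nd (nat_lit 78) (nat_lit 76) (nat_lit 0) (XT.lf (nat_lit 0) (nat_lit 114541611976) (nat_lit 152) (nat_lit 25529664079) (nat_lit 0) (nat_lit 101427646365) (nat_lit 4) (nat_lit 5) (nat_lit 6) (nat_lit 4) (nat_lit 4) (nat_lit 4) (nat_lit 340) (nat_lit 301) (nat_lit 259)) (XT.lf (nat_lit 0) (nat_lit 30745978284) (nat_lit 76) (nat_lit 128852880982) (nat_lit 76) (nat_lit 115734073136) (nat_lit 3) (nat_lit 4) (nat_lit 4) (nat_lit 5) (nat_lit 4) (nat_lit 4) (nat_lit 341) (nat_lit 301) (nat_lit 258))) (XT.nd (nat_lit 78) (nat_lit 0) (nat_lit 0) (XT.lf (nat_lit 0) (nat_lit 96966749663) (nat_lit 76) (nat_lit 115170264535) (nat_lit 76) (nat_lit 102047246050) (nat_lit 3) (nat_lit 4) (nat_lit 4) (nat_lit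 5) (nat_lit 4) (nat_lit 4) (nat_lit 342) (nat_lit 301) (nat_lit 257)) (XT.lf (nat_lit 0) (nat_lit 173083926976) (nat_lit 76) (nat_lit 99453749608) (nat_lit 76) (nat_lit 86327069697) (nat_lit 3) (nat_lit 4) (nat_lit 4) (nat_lit 5) (nat_lit 4) (nat_lit 4) (nat_lit 343) (nat_lit 301) (nat_lit 256))))))))
noncomputable def xc25 : XT := (XT.nd (nat_lit 43602) (nat_lit 0) (nat_lit 684) (XT.nd (nat_lit 1092) (nat_lit 0) (nat_lit 0) (XT.nd (nat_lit 546) (nat_lit 0) (nat_lit 0) (XT.nd (nat_lit 234) (nat_lit 152) (nat_lit 0) (XT.nd (nat_lit 78) (nat_lit 0) (nat_lit 0) (XT.lf (nat_lit 0) (nat_lit 260586759345) (nat_lit 76) (nat_lit 81395839169) (nat_lit 76) (nat_lit 68265975410) (nat_lit 3) (nat_lit 4) (nat_lit 4) (nat_lit 5) (nat_lit 4) (nat_lit 4) (nat_lit 344) (nat_lit 301) (nat_lit 255)) (XT.nd (nat_lit 78) (nat_lit 0) (nat_lit 0) (XT.lf (nat_lit 0) (nat_lit 361187258707) (nat_lit 76) (nat_lit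 60643226274) (nat_lit 76) (nat_lit 47510593952) (nat_lit 3) (nat_lit 4) (nat_lit 4) (nat_lit 5) (nat_lit 4) (nat_lit 4) (nat_lit 345) (nat_lit 301) (nat_lit 254)) (XT.lf (nat_lit 0) (nat_lit 476853695703) (nat_lit 76) (nat_lit 36789881542) (nat_lit 76) (nat_lit 23654841774) (nat_lit 3) (nat_lit 4) (nat_lit 4) (nat_lit 5) (nat_lit 4) (nat_lit 4) (nat_lit 346) (nat_lit 301) (nat_lit 253)))) (XT.nd (nat_lit 156) (nat_lit 0) (nat_lit 0) (XT.nd (nat_lit 78) (nat_lit 76) (nat_lit 0) (XT.lf (nat_lit 0) (nat_lit 3579532276) (nat_lit 152) (nat_lit 5691706065) (nat_lit 76) (nat_lit 606171706285) (nat_lit 2) (nat_lit 5) (nat_lit 4) (nat_lit 5) (nat_lit 3) (nat_lit 4) (nat_lit 347) (nat_lit 301) (nat_lit 252)) (XT.lf (nat_lit 0) (nat_lit 35554015586) (nat_lit 152) (nat_lit 646153216843) (nat_lit 0) (nat_lit 23388317830) (nat_lit 1) (nat_lit 5) (nat_lit 3) (nat_lit 4) (nat_lit 1) (nat_lit 4) (nat_lit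 348) (nat_lit 301) (nat_lit 251))) (XT.nd (nat_lit 78) (nat_lit 0) (nat_lit 0) (XT.lf (nat_lit 0) (nat_lit 72742401568) (nat_lit 152) (nat_lit 674844989323) (nat_lit 0) (nat_lit 60575238132) (nat_lit 1) (nat_lit 5) (nat_lit 3) (nat_lit 4) (nat_lit 1) (nat_lit 4) (nat_lit 349) (nat_lit 301) (nat_lit 250)) (XT.lf (nat_lit 0) (nat_lit 115501479053) (nat_lit 152) (nat_lit 707855855356) (nat_lit 0) (nat_lit 103333041112) (nat_lit 1) (nat_lit 5) (nat_lit 3) (nat_lit 4) (nat_lit 1) (nat_lit 4) (nat_lit 350) (nat_lit 301) (nat_lit 249))))) (XT.nd (nat_lit 234) (nat_lit 0) (nat_lit 0) (XT.nd (nat_lit 78) (nat_lit 0) (nat_lit 0) (XT.lf (nat_lit 0) (nat_lit 164667838686) (nat_lit 152) (nat_lit 745831679714) (nat_lit 0) (nat_lit 152498292480) (nat_lit 1) (nat_lit 5) (nat_lit 3) (nat_lit 4) (nat_lit 1) (nat_lit 4) (nat_lit 351) (nat_lit 301) (nat_lit 248)) (XT.nd (nat_lit 78) (nat_lit 0) (nat_lit 0)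 (XT.lf (nat_lit 0) (nat_lit 221203430983) (nat_lit 152) (nat_lit 789515467656) (nat_lit 0) (nat_lit 209032921068) (nat_lit 1) (nat_lit 5) (nat_lit 3) (nat_lit 4) (nat_lit 1) (nat_lit 4) (nat_lit 352) (nat_lit 301) (nat_lit 247)) (XT.lf (nat_lit 0) (nat_lit 286214387097) (nat_lit 152) (nat_lit 839761901988) (nat_lit 0) (nat_lit 274043039174) (nat_lit 1) (nat_lit 5) (nat_lit 3) (nat_lit 4) (nat_lit 1) (nat_lit 4) (nat_lit 353) (nat_lit 301) (nat_lit 246)))) (XT.nd (nat_lit 156) (nat_lit 0) (nat_lit 0) (XT.nd (nat_lit 78) (nat_lit 0) (nat_lit 0) (XT.lf (nat_lit 0) (nat_lit 360972660517) (nat_lit 152) (nat_lit 897554065121) (nat_lit 0) (nat_lit 348800583892) (nat_lit 1) (nat_lit 5) (nat_lit 3) (nat_lit 4) (nat_lit 1) (nat_lit 4) (nat_lit 354) (nat_lit 301) (nat_lit 245)) (XT.lf (nat_lit 0) (nat_lit 446940913115) (nat_lit 152) (nat_lit 964022673292) (nat_lit 0) (nat_lit 434768202836) (nat_lit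 1) (nat_lit 5) (nat_lit 3) (nat_lit 4) (nat_lit 1) (nat_lit 4) (nat_lit 355) (nat_lit 301) (nat_lit 244))) (XT.nd (nat_lit 78) (nat_lit 0) (nat_lit 0) (XT.lf (nat_lit 0) (nat_lit 545801132441) (nat_lit 152) (nat_lit 1040468199268) (nat_lit 0) (nat_lit 533627871158) (nat_lit 1) (nat_lit 5) (nat_lit 3) (nat_lit 4) (nat_lit 1) (nat_lit 4) (nat_lit 356) (nat_lit 301) (nat_lit 243)) (XT.lf (nat_lit 0) (nat_lit 659487540178) (nat_lit 152) (nat_lit 1128386316384) (nat_lit 0) (nat_lit 647313799761) (nat_lit 1) (nat_lit 5) (nat_lit 3) (nat_lit 4) (nat_lit 1) (nat_lit 4) (nat_lit 357) (nat_lit 301) (nat_lit 242)))))) (XT.nd (nat_lit 546) (nat_lit 0) (nat_lit 0) (XT.nd (nat_lit 234) (nat_lit 0) (nat_lit 0) (XT.nd (nat_lit 78) (nat_lit 0) (nat_lit 0) (XT.lf (nat_lit 0) (nat_lit 790224435607) (nat_lit 152) (nat_lit 1229497161714) (nat_lit 0) (nat_lit 778050278553) (nat_lit 1) (nat_lit 5) (nat_lit 3)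 (nat_lit 4) (nat_lit 1) (nat_lit 4) (nat_lit 358) (nat_lit 301) (nat_lit 241)) (XT.nd (nat_lit 78) (nat_lit 0) (nat_lit 0) (XT.lf (nat_lit 0) (nat_lit 940569714510) (nat_lit 152) (nat_lit 1345778990927) (nat_lit 0) (nat_lit 928395195161) (nat_lit 1) (nat_lit 5) (nat_lit 3) (nat_lit 4) (nat_lit 1) (nat_lit 4) (nat_lit 359) (nat_lit 301) (nat_lit 240)) (XT.lf (nat_lit 0) (nat_lit 1113464914950) (nat_lit 152) (nat_lit 1479506883290) (nat_lit 0) (nat_lit 1101290080563) (nat_lit 1) (nat_lit 5) (nat_lit 3) (nat_lit 4) (nat_lit 1) (nat_lit 4) (nat_lit 360) (nat_lit 301) (nat_lit 239)))) (XT.nd (nat_lit 156) (nat_lit 0) (nat_lit 0) (XT.nd (nat_lit 78) (nat_lit 0) (nat_lit 0) (XT.lf (nat_lit 0) (nat_lit 1312292769111) (nat_lit 152) (nat_lit 1633297254090) (nat_lit 0) (nat_lit 1300117660778) (nat_lit 1) (nat_lit 5) (nat_lit 3) (nat_lit 4) (nat_lit 1) (nat_lit 4) (nat_lit 361) (nat_lit 301) (nat_lit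 238)) (XT.lf (nat_lit 0) (nat_lit 1540943387183) (nat_lit 152) (nat_lit 1810159045362) (nat_lit 0) (nat_lit 1528768040636) (nat_lit 1) (nat_lit 5) (nat_lit 3) (nat_lit 4) (nat_lit 1) (nat_lit 4) (nat_lit 362) (nat_lit 301) (nat_lit 237))) (XT.nd (nat_lit 78) (nat_lit 0) (nat_lit 0) (XT.lf (nat_lit 0) (nat_lit 1803890368216) (nat_lit 152) (nat_lit 2013552596503) (nat_lit 0) (nat_lit 1791714814526) (nat_lit 1) (nat_lit 5) (nat_lit 3) (nat_lit 4) (nat_lit 1) (nat_lit 4) (nat_lit 363) (nat_lit 301) (nat_lit 236)) (XT.lf (nat_lit 0) (nat_lit 2106278327054) (nat_lit 152) (nat_lit 2247457346555) (nat_lit 0) (nat_lit 2094102593240) (nat_lit 1) (nat_lit 5) (nat_lit 3) (nat_lit 4) (nat_lit 1) (nat_lit 4) (nat_lit 364) (nat_lit 301) (nat_lit 235))))) (XT.nd (nat_lit 312) (nat_lit 0) (nat_lit 0) (XT.nd (nat_lit 156) (nat_lit 0) (nat_lit 0) (XT.nd (nat_lit 78) (nat_lit 0) (nat_lit 0) (XT.lf (nat_lit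 0) (nat_lit 2454023549850) (nat_lit 152) (nat_lit 2516449692802) (nat_lit 0) (nat_lit 2441847659407) (nat_lit 1) (nat_lit 5) (nat_lit 3) (nat_lit 4) (nat_lit 1) (nat_lit 4) (nat_lit 365) (nat_lit 301) (nat_lit 234)) (XT.lf (nat_lit 0) (nat_lit 2853929747485) (nat_lit 152) (nat_lit 2825792528976) (nat_lit 0) (nat_lit 2841753720842) (nat_lit 1) (nat_lit 5) (nat_lit 3) (nat_lit 4) (nat_lit 1) (nat_lit 4) (nat_lit 366) (nat_lit 301) (nat_lit 233))) (XT.nd (nat_lit 78) (nat_lit 0) (nat_lit 0) (XT.lf (nat_lit 0) (nat_lit 3313821171650) (nat_lit 152) (nat_lit 3181538214914) (nat_lit 0) (nat_lit 3301645026573) (nat_lit 1) (nat_lit 5) (nat_lit 3) (nat_lit 4) (nat_lit 1) (nat_lit 4) (nat_lit 367) (nat_lit 301) (nat_lit 232)) (XT.lf (nat_lit 0) (nat_lit 3842695698038) (nat_lit 152) (nat_lit 3590646992298) (nat_lit 0) (nat_lit 3830519449974) (nat_lit 1) (nat_lit 5) (nat_lit 3) (nat_lit 4) (nat_lit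 1) (nat_lit 4) (nat_lit 368) (nat_lit 301) (nat_lit 231)))) (XT.nd (nat_lit 156) (nat_lit 0) (nat_lit 0) (XT.nd (nat_lit 78) (nat_lit 0) (nat_lit 0) (XT.lf (nat_lit 0) (nat_lit 4450900871728) (nat_lit 152) (nat_lit 4061123163295) (nat_lit 0) (nat_lit 4438724534110) (nat_lit 1) (nat_lit 5) (nat_lit 3) (nat_lit 4) (nat_lit 1) (nat_lit 4) (nat_lit 369) (nat_lit 301) (nat_lit 230)) (XT.lf (nat_lit 0) (nat_lit 5150336359162) (nat_lit 152) (nat_lit 4602171696466) (nat_lit 0) (nat_lit 5138159943672) (nat_lit 1) (nat_lit 5) (nat_lit 3) (nat_lit 4) (nat_lit 1) (nat_lit 4) (nat_lit 370) (nat_lit 301) (nat_lit 229))) (XT.nd (nat_lit 78) (nat_lit 0) (nat_lit 0) (XT.lf (nat_lit 0) (nat_lit 5954686767705) (nat_lit 152) (nat_lit 5224378323983) (nat_lit 0) (nat_lit 5942510284499) (nat_lit 1) (nat_lit 5) (nat_lit 3) (nat_lit 4) (nat_lit 1) (nat_lit 4) (nat_lit 371) (nat_lit 301) (nat_lit 228)) (XT.lf (nat_lit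 0) (nat_lit 6879689387956) (nat_lit 152) (nat_lit 5939916653776) (nat_lit 0) (nat_lit 6867512845868) (nat_lit 1) (nat_lit 5) (nat_lit 3) (nat_lit 4) (nat_lit 1) (nat_lit 4) (nat_lit 372) (nat_lit 301) (nat_lit 227))))))) (XT.nd (nat_lit 1092) (nat_lit 1748) (nat_lit 0) (XT.nd (nat_lit 546) (nat_lit 1520) (nat_lit 0) (XT.nd (nat_lit 234) (nat_lit 1520) (nat_lit 0) (XT.nd (nat_lit 78) (nat_lit 380) (nat_lit 0) (XT.lf (nat_lit 0) (nat_lit 1396694333) (nat_lit 0) (nat_lit 1396694333) (nat_lit 228) (nat_lit 616804303) (nat_lit 78) (nat_lit 5) (nat_lit 78) (nat_lit 3) (nat_lit 81) (nat_lit 3) (nat_lit 302) (nat_lit 302) (nat_lit 296)) (XT.nd (nat_lit 78) (nat_lit 0) (nat_lit 76) (XT.lf (nat_lit 76) (nat_lit 2242665542) (nat_lit 0) (nat_lit 55725907) (nat_lit 380) (nat_lit 4746013965) (nat_lit 74) (nat_lit 5) (nat_lit 73) (nat_lit 3) (nat_lit 78) (nat_lit 5) (nat_lit 303) (nat_lit 302) (nat_lit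 295)) (XT.lf (nat_lit 76) (nat_lit 1977988866) (nat_lit 0) (nat_lit 3927653166) (nat_lit 380) (nat_lit 1425305545) (nat_lit 75) (nat_lit 5) (nat_lit 74) (nat_lit 5) (nat_lit 79) (nat_lit 5) (nat_lit 304) (nat_lit 302) (nat_lit 294)))) (XT.nd (nat_lit 156) (nat_lit 912) (nat_lit 0) (XT.nd (nat_lit 78) (nat_lit 380) (nat_lit 0) (XT.lf (nat_lit 0) (nat_lit 1903052330) (nat_lit 380) (nat_lit 5643431322) (nat_lit 76) (nat_lit 139815256) (nat_lit 70) (nat_lit 5) (nat_lit 75) (nat_lit 5) (nat_lit 71) (nat_lit 5) (nat_lit 305) (nat_lit 302) (nat_lit 293)) (XT.lf (nat_lit 0) (nat_lit 2335965905) (nat_lit 380) (nat_lit 3137188076) (nat_lit 456) (nat_lit 2633360522) (nat_lit 65) (nat_lit 5) (nat_lit 70) (nat_lit 5) (nat_lit 71) (nat_lit 5) (nat_lit 306) (nat_lit 302) (nat_lit 292))) (XT.nd (nat_lit 78) (nat_lit 380) (nat_lit 0) (XT.lf (nat_lit 0) (nat_lit 778299872) (nat_lit 532) (nat_lit 5668885823)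 (nat_lit 76) (nat_lit 2154115281) (nat_lit 58) (nat_lit 5) (nat_lit 65) (nat_lit 5) (nat_lit 59) (nat_lit 5) (nat_lit 307) (nat_lit 302) (nat_lit 291)) (XT.lf (nat_lit 0) (nat_lit 3750158404) (nat_lit 380) (nat_lit 744428539) (nat_lit 456) (nat_lit 4674814267) (nat_lit 53) (nat_lit 5) (nat_lit 58) (nat_lit 5) (nat_lit 59) (nat_lit 5) (nat_lit 308) (nat_lit 302) (nat_lit 290))))) (XT.nd (nat_lit 234) (nat_lit 836) (nat_lit 0) (XT.nd (nat_lit 78) (nat_lit 456) (nat_lit 0) (XT.lf (nat_lit 0) (nat_lit 4810924820) (nat_lit 228) (nat_lit 4020879766) (nat_lit 304) (nat_lit 986243211) (nat_lit 50) (nat_lit 5) (nat_lit 53) (nat_lit 5) (nat_lit 54) (nat_lit 5) (nat_lit 309) (nat_lit 302) (nat_lit 289)) (XT.nd (nat_lit 78) (nat_lit 152) (nat_lit 0) (XT.lf (nat_lit 0) (nat_lit 3165976363) (nat_lit 304) (nat_lit 4459282424) (nat_lit 76) (nat_lit 2926941399) (nat_lit 46) (nat_lit 5) (nat_lit 50) (nat_lit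 5) (nat_lit 47) (nat_lit 5) (nat_lit 310) (nat_lit 302) (nat_lit 288)) (XT.lf (nat_lit 0) (nat_lit 7640944707) (nat_lit 152) (nat_lit 389541402) (nat_lit 228) (nat_lit 3352398957) (nat_lit 44) (nat_lit 5) (nat_lit 46) (nat_lit 5) (nat_lit 47) (nat_lit 5) (nat_lit 311) (nat_lit 302) (nat_lit 287)))) (XT.nd (nat_lit 156) (nat_lit 380) (nat_lit 0) (XT.nd (nat_lit 78) (nat_lit 152) (nat_lit 0) (XT.lf (nat_lit 0) (nat_lit 1509986271) (nat_lit 304) (nat_lit 2942489342) (nat_lit 76) (nat_lit 7860425735) (nat_lit 40) (nat_lit 5) (nat_lit 44) (nat_lit 5) (nat_lit 41) (nat_lit 5) (nat_lit 312) (nat_lit 302) (nat_lit 286)) (XT.lf (nat_lit 0) (nat_lit 7162204166) (nat_lit 228) (nat_lit 2046742746) (nat_lit 76) (nat_lit 4145990323) (nat_lit 38) (nat_lit 5) (nat_lit 41) (nat_lit 5) (nat_lit 39) (nat_lit 5) (nat_lit 313) (nat_lit 302) (nat_lit 285))) (XT.nd (nat_lit 78) (nat_lit 228) (nat_lit 0) (XT.lf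 (nat_lit 0) (nat_lit 13548030685) (nat_lit 152) (nat_lit 424840709) (nat_lit 228) (nat_lit 555732676) (nat_lit 36) (nat_lit 5) (nat_lit 38) (nat_lit 5) (nat_lit 39) (nat_lit 5) (nat_lit 314) (nat_lit 302) (nat_lit 284)) (XT.lf (nat_lit 0) (nat_lit 6114127273) (nat_lit 228) (nat_lit 16542818) (nat_lit 76) (nat_lit 9697685016) (nat_lit 33) (nat_lit 5) (nat_lit 36) (nat_lit 5) (nat_lit 34) (nat_lit 5) (nat_lit 315) (nat_lit 302) (nat_lit 283)))))) (XT.nd (nat_lit 546) (nat_lit 684) (nat_lit 0) (XT.nd (nat_lit 234) (nat_lit 532) (nat_lit 0) (XT.nd (nat_lit 78) (nat_lit 304) (nat_lit 0) (XT.lf (nat_lit 0) (nat_lit 1106053453) (nat_lit 76) (nat_lit 13072453318) (nat_lit 152) (nat_lit 3109374020) (nat_lit 30) (nat_lit 5) (nat_lit 31) (nat_lit 5) (nat_lit 32) (nat_lit 4) (nat_lit 316) (nat_lit 302) (nat_lit 282)) (XT.nd (nat_lit 78) (nat_lit 76) (nat_lit 0) (XT.lf (nat_lit 0) (nat_lit 2135419509)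 (nat_lit 152) (nat_lit 2633309083) (nat_lit 228) (nat_lit 14148518733) (nat_lit 27) (nat_lit 5) (nat_lit 29) (nat_lit 5) (nat_lit 30) (nat_lit 5) (nat_lit 317) (nat_lit 302) (nat_lit 281)) (XT.lf (nat_lit 0) (nat_lit 2953736384) (nat_lit 76) (nat_lit 11302731780) (nat_lit 152) (nat_lit 6479212875) (nat_lit 26) (nat_lit 5) (nat_lit 27) (nat_lit 5) (nat_lit 28) (nat_lit 4) (nat_lit 318) (nat_lit 302) (nat_lit 280)))) (XT.nd (nat_lit 156) (nat_lit 228) (nat_lit 0) (XT.nd (nat_lit 78) (nat_lit 76) (nat_lit 0) (XT.lf (nat_lit 0) (nat_lit 2745862288) (nat_lit 228) (nat_lit 19166761872) (nat_lit 76) (nat_lit 868025240) (nat_lit 23) (nat_lit 5) (nat_lit 26) (nat_lit 5) (nat_lit 24) (nat_lit 4) (nat_lit 319) (nat_lit 302) (nat_lit 279)) (XT.lf (nat_lit 0) (nat_lit 3614547367) (nat_lit 76) (nat_lit 10149166302) (nat_lit 152) (nat_lit 11291833538) (nat_lit 22) (nat_lit 5) (nat_lit 23) (nat_lit 5)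 (nat_lit 24) (nat_lit 4) (nat_lit 320) (nat_lit 302) (nat_lit 278))) (XT.nd (nat_lit 78) (nat_lit 152) (nat_lit 0) (XT.lf (nat_lit 0) (nat_lit 3157122317) (nat_lit 76) (nat_lit 23868858783) (nat_lit 76) (nat_lit 598411713) (nat_lit 21) (nat_lit 4) (nat_lit 22) (nat_lit 5) (nat_lit 22) (nat_lit 4) (nat_lit 321) (nat_lit 302) (nat_lit 277)) (XT.lf (nat_lit 0) (nat_lit 1472873851) (nat_lit 76) (nat_lit 10468671404) (nat_lit 152) (nat_lit 18548332734) (nat_lit 19) (nat_lit 5) (nat_lit 20) (nat_lit 5) (nat_lit 21) (nat_lit 4) (nat_lit 322) (nat_lit 302) (nat_lit 276))))) (XT.nd (nat_lit 312) (nat_lit 380) (nat_lit 0) (XT.nd (nat_lit 156) (nat_lit 152) (nat_lit 0) (XT.nd (nat_lit 78) (nat_lit 152) (nat_lit 0) (XT.lf (nat_lit 0) (nat_lit 27058115700) (nat_lit 152) (nat_lit 1320587526) (nat_lit 0) (nat_lit 5346791599) (nat_lit 19) (nat_lit 5) (nat_lit 21) (nat_lit 4) (nat_lit 19) (nat_lit 4) (nat_lit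 323) (nat_lit 302) (nat_lit 275)) (XT.lf (nat_lit 0) (nat_lit 7616465007) (nat_lit 152) (nat_lit 5935654783) (nat_lit 76) (nat_lit 23803247917) (nat_lit 17) (nat_lit 5) (nat_lit 19) (nat_lit 5) (nat_lit 18) (nat_lit 4) (nat_lit 324) (nat_lit 302) (nat_lit 274))) (XT.nd (nat_lit 78) (nat_lit 76) (nat_lit 0) (XT.lf (nat_lit 0) (nat_lit 24397336619) (nat_lit 152) (nat_lit 12879610312) (nat_lit 0) (nat_lit 4179007152) (nat_lit 16) (nat_lit 5) (nat_lit 18) (nat_lit 4) (nat_lit 16) (nat_lit 4) (nat_lit 325) (nat_lit 302) (nat_lit 273)) (XT.lf (nat_lit 0) (nat_lit 23068185458) (nat_lit 76) (nat_lit 21643548240) (nat_lit 76) (nat_lit 1378605388) (nat_lit 15) (nat_lit 4) (nat_lit 16) (nat_lit 5) (nat_lit 16) (nat_lit 4) (nat_lit 326) (nat_lit 302) (nat_lit 272)))) (XT.nd (nat_lit 156) (nat_lit 228) (nat_lit 0) (XT.nd (nat_lit 78) (nat_lit 0) (nat_lit 0) (XT.lf (nat_lit 0) (nat_lit 13921294376) (nat_lit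 76) (nat_lit 2533883799) (nat_lit 152) (nat_lit 34881893139) (nat_lit 13) (nat_lit 5) (nat_lit 14) (nat_lit 5) (nat_lit 15) (nat_lit 4) (nat_lit 327) (nat_lit 302) (nat_lit 271)) (XT.lf (nat_lit 0) (nat_lit 37961022888) (nat_lit 152) (nat_lit 193631195) (nat_lit 0) (nat_lit 19127020438) (nat_lit 13) (nat_lit 5) (nat_lit 15) (nat_lit 4) (nat_lit 13) (nat_lit 4) (nat_lit 328) (nat_lit 302) (nat_lit 270))) (XT.nd (nat_lit 78) (nat_lit 152) (nat_lit 0) (XT.lf (nat_lit 0) (nat_lit 44641215135) (nat_lit 76) (nat_lit 19126572192) (nat_lit 76) (nat_lit 264190986) (nat_lit 12) (nat_lit 4) (nat_lit 13) (nat_lit 5) (nat_lit 13) (nat_lit 4) (nat_lit 329) (nat_lit 302) (nat_lit 269)) (XT.lf (nat_lit 0) (nat_lit 21205106389) (nat_lit 152) (nat_lit 46779992743) (nat_lit 0) (nat_lit 3717089365) (nat_lit 10) (nat_lit 5) (nat_lit 12) (nat_lit 4) (nat_lit 10) (nat_lit 4) (nat_lit 330) (nat_lit 302) (nat_lit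 268))))))))
noncomputable def xc26 : XT := (XT.nd (nat_lit 2184) (nat_lit 0) (nat_lit 0) (XT.nd (nat_lit 1092) (nat_lit 152) (nat_lit 0) (XT.nd (nat_lit 546) (nat_lit 228) (nat_lit 0) (XT.nd (nat_lit 234) (nat_lit 76) (nat_lit 0) (XT.nd (nat_lit 78) (nat_lit 228) (nat_lit 0) (XT.lf (nat_lit 0) (nat_lit 46927771920) (nat_lit 152) (nat_lit 4090843481) (nat_lit 0) (nat_lit 29419885991) (nat_lit 10) (nat_lit 5) (nat_lit 12) (nat_lit 4) (nat_lit 10) (nat_lit 4) (nat_lit 331) (nat_lit 302) (nat_lit 267)) (XT.nd (nat_lit 78) (nat_lit 152) (nat_lit 0) (XT.lf (nat_lit 0) (nat_lit 47262956740) (nat_lit 76) (nat_lit 30330358851) (nat_lit 76) (nat_lit 12805195614) (nat_lit 9) (nat_lit 4) (nat_lit 10) (nat_lit 5) (nat_lit 10) (nat_lit 4) (nat_lit 332) (nat_lit 302) (nat_lit 266)) (XT.lf (nat_lit 0) (nat_lit 4589485442) (nat_lit 76) (nat_lit 6049780147) (nat_lit 152) (nat_lit 91177394020) (nat_lit 7)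 (nat_lit 5) (nat_lit 8) (nat_lit 5) (nat_lit 9) (nat_lit 4) (nat_lit 333) (nat_lit 302) (nat_lit 265)))) (XT.nd (nat_lit 156) (nat_lit 76) (nat_lit 0) (XT.nd (nat_lit 78) (nat_lit 0) (nat_lit 0) (XT.lf (nat_lit 0) (nat_lit 38632537553) (nat_lit 152) (nat_lit 53765634866) (nat_lit 0) (nat_lit 22379527265) (nat_lit 7) (nat_lit 5) (nat_lit 9) (nat_lit 4) (nat_lit 7) (nat_lit 4) (nat_lit 334) (nat_lit 302) (nat_lit 264)) (XT.lf (nat_lit 0) (nat_lit 70952371365) (nat_lit 152) (nat_lit 4031481286) (nat_lit 0) (nat_lit 54688842456) (nat_lit 7) (nat_lit 5) (nat_lit 9) (nat_lit 4) (nat_lit 7) (nat_lit 4) (nat_lit 335) (nat_lit 302) (nat_lit 263))) (XT.nd (nat_lit 78) (nat_lit 0) (nat_lit 0) (XT.lf (nat_lit 0) (nat_lit 55889671162) (nat_lit 76) (nat_lit 53540091014) (nat_lit 76) (nat_lit 37267415478) (nat_lit 6) (nat_lit 4) (nat_lit 7) (nat_lit 5) (nat_lit 7) (nat_lit 4) (nat_lit 336) (nat_lit 302)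 (nat_lit 262)) (XT.lf (nat_lit 0) (nat_lit 124980015295) (nat_lit 76) (nat_lit 28784543228) (nat_lit 76) (nat_lit 12503914103) (nat_lit 6) (nat_lit 4) (nat_lit 7) (nat_lit 5) (nat_lit 7) (nat_lit 4) (nat_lit 337) (nat_lit 302) (nat_lit 261))))) (XT.nd (nat_lit 234) (nat_lit 76) (nat_lit 0) (XT.nd (nat_lit 78) (nat_lit 0) (nat_lit 0) (XT.lf (nat_lit 0) (nat_lit 15543828556) (nat_lit 152) (nat_lit 172708629546) (nat_lit 0) (nat_lit 462768103) (nat_lit 4) (nat_lit 5) (nat_lit 6) (nat_lit 4) (nat_lit 4) (nat_lit 4) (nat_lit 338) (nat_lit 302) (nat_lit 260)) (XT.nd (nat_lit 78) (nat_lit 0) (nat_lit 0) (XT.lf (nat_lit 0) (nat_lit 49082451413) (nat_lit 152) (nat_lit 131262812315) (nat_lit 0) (nat_lit 33995822390) (nat_lit 4) (nat_lit 5) (nat_lit 6) (nat_lit 4) (nat_lit 4) (nat_lit 4) (nat_lit 339) (nat_lit 302) (nat_lit 259)) (XT.lf (nat_lit 0) (nat_lit 87628944919) (nat_lit 152) (nat_lit 83646242572)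 (nat_lit 0) (nat_lit 72537473661) (nat_lit 4) (nat_lit 5) (nat_lit 6) (nat_lit 4) (nat_lit 4) (nat_lit 4) (nat_lit 340) (nat_lit 302) (nat_lit 258)))) (XT.nd (nat_lit 156) (nat_lit 0) (nat_lit 0) (XT.nd (nat_lit 78) (nat_lit 76) (nat_lit 0) (XT.lf (nat_lit 0) (nat_lit 131937479598) (nat_lit 152) (nat_lit 28927291778) (nat_lit 0) (nat_lit 116841797702) (nat_lit 4) (nat_lit 5) (nat_lit 6) (nat_lit 4) (nat_lit 4) (nat_lit 4) (nat_lit 341) (nat_lit 302) (nat_lit 257)) (XT.lf (nat_lit 0) (nat_lit 35753145365) (nat_lit 76) (nat_lit 147981680205) (nat_lit 76) (nat_lit 132882336883) (nat_lit 3) (nat_lit 4) (nat_lit 4) (nat_lit 5) (nat_lit 4) (nat_lit 4) (nat_lit 342) (nat_lit 302) (nat_lit 256))) (XT.nd (nat_lit 78) (nat_lit 0) (nat_lit 0) (XT.lf (nat_lit 0) (nat_lit 111855475450) (nat_lit 76) (nat_lit 132272645151) (nat_lit 76) (nat_lit 117170117981) (nat_lit 3) (nat_lit 4) (nat_lit 4) (nat_lit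 5) (nat_lit 4) (nat_lit 4) (nat_lit 343) (nat_lit 302) (nat_lit 255)) (XT.lf (nat_lit 0) (nat_lit 199345397186) (nat_lit 76) (nat_lit 114221238949) (nat_lit 76) (nat_lit 99115943216) (nat_lit 3) (nat_lit 4) (nat_lit 4) (nat_lit 5) (nat_lit 4) (nat_lit 4) (nat_lit 344) (nat_lit 302) (nat_lit 254)))))) (XT.nd (nat_lit 546) (nat_lit 0) (nat_lit 0) (XT.nd (nat_lit 234) (nat_lit 152) (nat_lit 0) (XT.nd (nat_lit 78) (nat_lit 0) (nat_lit 0) (XT.lf (nat_lit 0) (nat_lit 299934669910) (nat_lit 76) (nat_lit 93474281914) (nat_lit 76) (nat_lit 78366578733) (nat_lit 3) (nat_lit 4) (nat_lit 4) (nat_lit 5) (nat_lit 4) (nat_lit 4) (nat_lit 345) (nat_lit 302) (nat_lit 253)) (XT.nd (nat_lit 78) (nat_lit 0) (nat_lit 0) (XT.lf (nat_lit 0) (nat_lit 415591344612) (nat_lit 76) (nat_lit 69625855320) (nat_lit 76) (nat_lit 54516058708) (nat_lit 3) (nat_lit 4) (nat_lit 4) (nat_lit 5) (nat_lit 4) (nat_lit 4) (nat_lit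 346) (nat_lit 302) (nat_lit 252)) (XT.lf (nat_lit 0) (nat_lit 548578269275) (nat_lit 76) (nat_lit 42209359516) (nat_lit 76) (nat_lit 27097742529) (nat_lit 3) (nat_lit 4) (nat_lit 4) (nat_lit 5) (nat_lit 4) (nat_lit 4) (nat_lit 347) (nat_lit 302) (nat_lit 251)))) (XT.nd (nat_lit 156) (nat_lit 0) (nat_lit 0) (XT.nd (nat_lit 78) (nat_lit 76) (nat_lit 0) (XT.lf (nat_lit 0) (nat_lit 4203467946) (nat_lit 152) (nat_lit 6369986595) (nat_lit 76) (nat_lit 697178963781) (nat_lit 2) (nat_lit 5) (nat_lit 4) (nat_lit 5) (nat_lit 3) (nat_lit 4) (nat_lit 348) (nat_lit 302) (nat_lit 250)) (XT.lf (nat_lit 0) (nat_lit 40968588641) (nat_lit 152) (nat_lit 742911159445) (nat_lit 0) (nat_lit 26973610504) (nat_lit 1) (nat_lit 5) (nat_lit 3) (nat_lit 4) (nat_lit 1) (nat_lit 4) (nat_lit 349) (nat_lit 302) (nat_lit 249))) (XT.nd (nat_lit 78) (nat_lit 0) (nat_lit 0) (XT.lf (nat_lit 0) (nat_lit 83724605905) (nat_lit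 152) (nat_lit 775928224744) (nat_lit 0) (nat_lit 69728519503) (nat_lit 1) (nat_lit 5) (nat_lit 3) (nat_lit 4) (nat_lit 1) (nat_lit 4) (nat_lit 350) (nat_lit 302) (nat_lit 248)) (XT.lf (nat_lit 0) (nat_lit 132888304478) (nat_lit 152) (nat_lit 813909439767) (nat_lit 0) (nat_lit 118891254366) (nat_lit 1) (nat_lit 5) (nat_lit 3) (nat_lit 4) (nat_lit 1) (nat_lit 4) (nat_lit 351) (nat_lit 302) (nat_lit 247))))) (XT.nd (nat_lit 234) (nat_lit 0) (nat_lit 0) (XT.nd (nat_lit 78) (nat_lit 0) (nat_lit 0) (XT.lf (nat_lit 0) (nat_lit 189421582808) (nat_lit 152) (nat_lit 857597915243) (nat_lit 0) (nat_lit 175423694689) (nat_lit 1) (nat_lit 5) (nat_lit 3) (nat_lit 4) (nat_lit 1) (nat_lit 4) (nat_lit 352) (nat_lit 302) (nat_lit 246)) (XT.nd (nat_lit 78) (nat_lit 0) (nat_lit 0) (XT.lf (nat_lit 0) (nat_lit 254430526778) (nat_lit 152) (nat_lit 907848425692) (nat_lit 0) (nat_lit 240431909956) (nat_lit 1) (nat_lit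 5) (nat_lit 3) (nat_lit 4) (nat_lit 1) (nat_lit 4) (nat_lit 353) (nat_lit 302) (nat_lit 245)) (XT.lf (nat_lit 0) (nat_lit 329187050507) (nat_lit 152) (nat_lit 965644133275) (nat_lit 0) (nat_lit 315187800032) (nat_lit 1) (nat_lit 5) (nat_lit 3) (nat_lit 4) (nat_lit 1) (nat_lit 4) (nat_lit 354) (nat_lit 302) (nat_lit 244)))) (XT.nd (nat_lit 156) (nat_lit 0) (nat_lit 0) (XT.nd (nat_lit 78) (nat_lit 0) (nat_lit 0) (XT.lf (nat_lit 0) (nat_lit 415153781634) (nat_lit 152) (nat_lit 1032115823576) (nat_lit 0) (nat_lit 401153980155) (nat_lit 1) (nat_lit 5) (nat_lit 3) (nat_lit 4) (nat_lit 1) (nat_lit 4) (nat_lit 355) (nat_lit 302) (nat_lit 243)) (XT.lf (nat_lit 0) (nat_lit 514012677943) (nat_lit 152) (nat_lit 1108564029666) (nat_lit 0) (nat_lit 500012397330) (nat_lit 1) (nat_lit 5) (nat_lit 3) (nat_lit 4) (nat_lit 1) (nat_lit 4) (nat_lit 356) (nat_lit 302) (nat_lit 242))) (XT.nd (nat_lit 78) (nat_lit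 0) (nat_lit 0) (XT.lf (nat_lit 0) (nat_lit 627697935229) (nat_lit 152) (nat_lit 1196484477315) (nat_lit 0) (nat_lit 613697237979) (nat_lit 1) (nat_lit 5) (nat_lit 3) (nat_lit 4) (nat_lit 1) (nat_lit 4) (nat_lit 357) (nat_lit 302) (nat_lit 241)) (XT.lf (nat_lit 0) (nat_lit 758433830267) (nat_lit 152) (nat_lit 1297597349195) (nat_lit 0) (nat_lit 744432770723) (nat_lit 1) (nat_lit 5) (nat_lit 3) (nat_lit 4) (nat_lit 1) (nat_lit 4) (nat_lit 358) (nat_lit 302) (nat_lit 240))))))) (XT.nd (nat_lit 42510) (nat_lit 0) (nat_lit 2204) (XT.nd (nat_lit 546) (nat_lit 0) (nat_lit 0) (XT.nd (nat_lit 234) (nat_lit 0) (nat_lit 0) (XT.nd (nat_lit 78) (nat_lit 0) (nat_lit 0) (XT.lf (nat_lit 0) (nat_lit 908778239264) (nat_lit 152) (nat_lit 1413880940626) (nat_lit 0) (nat_lit 894776864681) (nat_lit 1) (nat_lit 5) (nat_lit 3) (nat_lit 4) (nat_lit 1) (nat_lit 4) (nat_lit 359) (nat_lit 302) (nat_lit 239)) (XT.nd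 (nat_lit 78) (nat_lit 0) (nat_lit 0) (XT.lf (nat_lit 0) (nat_lit 1081672683265) (nat_lit 152) (nat_lit 1547610365353) (nat_lit 0) (nat_lit 1067671034736) (nat_lit 1) (nat_lit 5) (nat_lit 3) (nat_lit 4) (nat_lit 1) (nat_lit 4) (nat_lit 360) (nat_lit 302) (nat_lit 238)) (XT.lf (nat_lit 0) (nat_lit 1280499879652) (nat_lit 152) (nat_lit 1701402068642) (nat_lit 0) (nat_lit 1266497992909) (nat_lit 1) (nat_lit 5) (nat_lit 3) (nat_lit 4) (nat_lit 1) (nat_lit 4) (nat_lit 361) (nat_lit 302) (nat_lit 237)))) (XT.nd (nat_lit 156) (nat_lit 0) (nat_lit 0) (XT.nd (nat_lit 78) (nat_lit 0) (nat_lit 0) (XT.lf (nat_lit 0) (nat_lit 1509149925747) (nat_lit 152) (nat_lit 1878265018602) (nat_lit 0) (nat_lit 1495147831862) (nat_lit 1) (nat_lit 5) (nat_lit 3) (nat_lit 4) (nat_lit 1) (nat_lit 4) (nat_lit 362) (nat_lit 302) (nat_lit 236)) (XT.lf (nat_lit 0) (nat_lit 1772096409408) (nat_lit 152) (nat_lit 2081659577296)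 (nat_lit 0) (nat_lit 1758094135398) (nat_lit 1) (nat_lit 5) (nat_lit 3) (nat_lit 4) (nat_lit 1) (nat_lit 4) (nat_lit 363) (nat_lit 302) (nat_lit 235))) (XT.nd (nat_lit 78) (nat_lit 0) (nat_lit 0) (XT.lf (nat_lit 0) (nat_lit 2074483935750) (nat_lit 152) (nat_lit 2315565203482) (nat_lit 0) (nat_lit 2060481505110) (nat_lit 1) (nat_lit 5) (nat_lit 3) (nat_lit 4) (nat_lit 1) (nat_lit 4) (nat_lit 364) (nat_lit 302) (nat_lit 234)) (XT.lf (nat_lit 0) (nat_lit 2422228782462) (nat_lit 152) (nat_lit 2584558311585) (nat_lit 0) (nat_lit 2408226215623) (nat_lit 1) (nat_lit 5) (nat_lit 3) (nat_lit 4) (nat_lit 1) (nat_lit 4) (nat_lit 365) (nat_lit 302) (nat_lit 233))))) (XT.nd (nat_lit 234) (nat_lit 0) (nat_lit 0) (XT.nd (nat_lit 78) (nat_lit 0) (nat_lit 0) (XT.lf (nat_lit 0) (nat_lit 2822134653066) (nat_lit 152) (nat_lit 2893901810241) (nat_lit 0) (nat_lit 2808131967793) (nat_lit 1) (nat_lit 5) (nat_lit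 3) (nat_lit 4) (nat_lit 1) (nat_lit 4) (nat_lit 366) (nat_lit 302) (nat_lit 232)) (XT.nd (nat_lit 78) (nat_lit 0) (nat_lit 0) (XT.lf (nat_lit 0) (nat_lit 3282025792859) (nat_lit 152) (nat_lit 3249648072252) (nat_lit 0) (nat_lit 3268023004598) (nat_lit 1) (nat_lit 5) (nat_lit 3) (nat_lit 4) (nat_lit 1) (nat_lit 4) (nat_lit 367) (nat_lit 302) (nat_lit 231)) (XT.lf (nat_lit 0) (nat_lit 3810900071964) (nat_lit 152) (nat_lit 3658757350568) (nat_lit 0) (nat_lit 3796897194151) (nat_lit 1) (nat_lit 5) (nat_lit 3) (nat_lit 4) (nat_lit 1) (nat_lit 4) (nat_lit 368) (nat_lit 302) (nat_lit 230)))) (XT.nd (nat_lit 156) (nat_lit 0) (nat_lit 0) (XT.nd (nat_lit 78) (nat_lit 0) (nat_lit 0) (XT.lf (nat_lit 0) (nat_lit 4419105030627) (nat_lit 152) (nat_lit 4129233957158) (nat_lit 0) (nat_lit 4405102074941) (nat_lit 1) (nat_lit 5) (nat_lit 3) (nat_lit 4) (nat_lit 1) (nat_lit 4) (nat_lit 369) (nat_lit 302) (nat_lit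 229)) (XT.lf (nat_lit 0) (nat_lit 5118540331081) (nat_lit 152) (nat_lit 4670282869106) (nat_lit 0) (nat_lit 5104537307680) (nat_lit 1) (nat_lit 5) (nat_lit 3) (nat_lit 4) (nat_lit 1) (nat_lit 4) (nat_lit 370) (nat_lit 302) (nat_lit 228))) (XT.nd (nat_lit 78) (nat_lit 0) (nat_lit 0) (XT.lf (nat_lit 0) (nat_lit 5922890577032) (nat_lit 152) (nat_lit 5292489825994) (nat_lit 0) (nat_lit 5908887494747) (nat_lit 1) (nat_lit 5) (nat_lit 3) (nat_lit 4) (nat_lit 1) (nat_lit 4) (nat_lit 371) (nat_lit 302) (nat_lit 227)) (XT.lf (nat_lit 0) (nat_lit 6847893055900) (nat_lit 152) (nat_lit 6008028442197) (nat_lit 0) (nat_lit 6833889922413) (nat_lit 1) (nat_lit 5) (nat_lit 3) (nat_lit 4) (nat_lit 1) (nat_lit 4) (nat_lit 372) (nat_lit 302) (nat_lit 226)))))) (XT.nd (nat_lit 546) (nat_lit 1748) (nat_lit 0) (XT.nd (nat_lit 234) (nat_lit 1140) (nat_lit 0) (XT.nd (nat_lit 78) (nat_lit 380) (nat_lit 0) (XT.lf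 (nat_lit 0) (nat_lit 2685301183) (nat_lit 380) (nat_lit 481935778) (nat_lit 380) (nat_lit 481935778) (nat_lit 73) (nat_lit 3) (nat_lit 78) (nat_lit 3) (nat_lit 78) (nat_lit 5) (nat_lit 303) (nat_lit 303) (nat_lit 294)) (XT.nd (nat_lit 78) (nat_lit 0) (nat_lit 76) (XT.lf (nat_lit 0) (nat_lit 899457247) (nat_lit 380) (nat_lit 1736464961) (nat_lit 456) (nat_lit 4980551959) (nat_lit 68) (nat_lit 5) (nat_lit 73) (nat_lit 3) (nat_lit 74) (nat_lit 5) (nat_lit 304) (nat_lit 303) (nat_lit 293)) (XT.lf (nat_lit 0) (nat_lit 3765344501) (nat_lit 380) (nat_lit 2285842999) (nat_lit 456) (nat_lit 1949502866) (nat_lit 69) (nat_lit 5) (nat_lit 74) (nat_lit 5) (nat_lit 75) (nat_lit 5) (nat_lit 305) (nat_lit 303) (nat_lit 292)))) (XT.nd (nat_lit 156) (nat_lit 836) (nat_lit 0) (XT.nd (nat_lit 78) (nat_lit 380) (nat_lit 0) (XT.lf (nat_lit 76) (nat_lit 5860088513) (nat_lit 0) (nat_lit 1036898568) (nat_lit 456)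 (nat_lit 1559268189) (nat_lit 70) (nat_lit 5) (nat_lit 69) (nat_lit 5) (nat_lit 75) (nat_lit 5) (nat_lit 306) (nat_lit 303) (nat_lit 291)) (XT.lf (nat_lit 0) (nat_lit 1395273719) (nat_lit 456) (nat_lit 2746237319) (nat_lit 76) (nat_lit 4839954664) (nat_lit 64) (nat_lit 5) (nat_lit 70) (nat_lit 5) (nat_lit 65) (nat_lit 5) (nat_lit 307) (nat_lit 303) (nat_lit 290))) (XT.nd (nat_lit 78) (nat_lit 380) (nat_lit 0) (XT.lf (nat_lit 0) (nat_lit 4686650836) (nat_lit 532) (nat_lit 2709584639) (nat_lit 76) (nat_lit 2187514104) (nat_lit 58) (nat_lit 5) (nat_lit 65) (nat_lit 5) (nat_lit 59) (nat_lit 5) (nat_lit 308) (nat_lit 303) (nat_lit 289)) (XT.lf (nat_lit 0) (nat_lit 7799849674) (nat_lit 380) (nat_lit 749840454) (nat_lit 456) (nat_lit 1720806257) (nat_lit 53) (nat_lit 5) (nat_lit 58) (nat_lit 5) (nat_lit 59) (nat_lit 5) (nat_lit 309) (nat_lit 303) (nat_lit 288))))) (XT.nd (nat_lit 312) (nat_lit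 760) (nat_lit 0) (XT.nd (nat_lit 156) (nat_lit 456) (nat_lit 0) (XT.nd (nat_lit 78) (nat_lit 228) (nat_lit 0) (XT.lf (nat_lit 0) (nat_lit 2029197395) (nat_lit 304) (nat_lit 2123478257) (nat_lit 76) (nat_lit 6888636979) (nat_lit 49) (nat_lit 5) (nat_lit 53) (nat_lit 5) (nat_lit 50) (nat_lit 5) (nat_lit 310) (nat_lit 303) (nat_lit 287)) (XT.lf (nat_lit 0) (nat_lit 6434250735) (nat_lit 304) (nat_lit 1613468936) (nat_lit 76) (nat_lit 3861150541) (nat_lit 46) (nat_lit 5) (nat_lit 50) (nat_lit 5) (nat_lit 47) (nat_lit 5) (nat_lit 311) (nat_lit 303) (nat_lit 286))) (XT.nd (nat_lit 78) (nat_lit 304) (nat_lit 0) (XT.lf (nat_lit 0) (nat_lit 11747778259) (nat_lit 228) (nat_lit 889498265) (nat_lit 76) (nat_lit 249684835) (nat_lit 44) (nat_lit 5) (nat_lit 47) (nat_lit 5) (nat_lit 45) (nat_lit 5) (nat_lit 312) (nat_lit 303) (nat_lit 285)) (XT.lf (nat_lit 0) (nat_lit 4066613550) (nat_lit 304) (nat_lit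 144363233) (nat_lit 76) (nat_lit 9760566224) (nat_lit 40) (nat_lit 5) (nat_lit 44) (nat_lit 5) (nat_lit 41) (nat_lit 5) (nat_lit 313) (nat_lit 303) (nat_lit 284)))) (XT.nd (nat_lit 156) (nat_lit 228) (nat_lit 0) (XT.nd (nat_lit 78) (nat_lit 228) (nat_lit 0) (XT.lf (nat_lit 0) (nat_lit 800132394) (nat_lit 152) (nat_lit 9574030432) (nat_lit 228) (nat_lit 4811367190) (nat_lit 36) (nat_lit 5) (nat_lit 38) (nat_lit 5) (nat_lit 39) (nat_lit 5) (nat_lit 314) (nat_lit 303) (nat_lit 283)) (XT.lf (nat_lit 0) (nat_lit 1414079616) (nat_lit 228) (nat_lit 14620456599) (nat_lit 76) (nat_lit 511573418) (nat_lit 33) (nat_lit 5) (nat_lit 36) (nat_lit 5) (nat_lit 34) (nat_lit 5) (nat_lit 315) (nat_lit 303) (nat_lit 282))) (XT.nd (nat_lit 78) (nat_lit 76) (nat_lit 0) (XT.lf (nat_lit 0) (nat_lit 2953870900) (nat_lit 152) (nat_lit 5941670124) (nat_lit 228) (nat_lit 9156777266) (nat_lit 31) (nat_lit 5) (nat_lit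 33) (nat_lit 5) (nat_lit 34) (nat_lit 5) (nat_lit 316) (nat_lit 303) (nat_lit 281)) (XT.lf (nat_lit 0) (nat_lit 4107320353) (nat_lit 76) (nat_lit 13910892591) (nat_lit 152) (nat_lit 1724818587) (nat_lit 30) (nat_lit 5) (nat_lit 31) (nat_lit 5) (nat_lit 32) (nat_lit 4) (nat_lit 317) (nat_lit 303) (nat_lit 280))))))))
noncomputable def xc27 : XT := (XT.nd (nat_lit 2262) (nat_lit 152) (nat_lit 0) (XT.nd (nat_lit 1092) (nat_lit 532) (nat_lit 0) (XT.nd (nat_lit 546) (nat_lit 608) (nat_lit 0) (XT.nd (nat_lit 234) (nat_lit 380) (nat_lit 0) (XT.nd (nat_lit 78) (nat_lit 304) (nat_lit 0) (XT.lf (nat_lit 0) (nat_lit 5136692381) (nat_lit 152) (nat_lit 1940839125) (nat_lit 228) (nat_lit 14549020720) (nat_lit 27) (nat_lit 5) (nat_lit 29) (nat_lit 5) (nat_lit 30) (nat_lit 5) (nat_lit 318) (nat_lit 303) (nat_lit 279)) (XT.nd (nat_lit 78) (nat_lit 228) (nat_lit 0) (XT.lf (nat_lit 0) (nat_lit 5944310811)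 (nat_lit 76) (nat_lit 11920284233) (nat_lit 152) (nat_lit 5863167611) (nat_lit 26) (nat_lit 5) (nat_lit 27) (nat_lit 5) (nat_lit 28) (nat_lit 4) (nat_lit 319) (nat_lit 303) (nat_lit 278)) (XT.lf (nat_lit 0) (nat_lit 4552225368) (nat_lit 228) (nat_lit 19551372262) (nat_lit 76) (nat_lit 1982028477) (nat_lit 23) (nat_lit 5) (nat_lit 26) (nat_lit 5) (nat_lit 24) (nat_lit 4) (nat_lit 320) (nat_lit 303) (nat_lit 277)))) (XT.nd (nat_lit 156) (nat_lit 152) (nat_lit 0) (XT.nd (nat_lit 78) (nat_lit 152) (nat_lit 0) (XT.lf (nat_lit 0) (nat_lit 6436333078) (nat_lit 76) (nat_lit 10659356717) (nat_lit 152) (nat_lit 11616307269) (nat_lit 22) (nat_lit 5) (nat_lit 23) (nat_lit 5) (nat_lit 24) (nat_lit 4) (nat_lit 321) (nat_lit 303) (nat_lit 276)) (XT.lf (nat_lit 0) (nat_lit 552341440) (nat_lit 152) (nat_lit 25899284087) (nat_lit 76) (nat_lit 5220869604) (nat_lit 20) (nat_lit 5) (nat_lit 22) (nat_lit 5)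 (nat_lit 21) (nat_lit 4) (nat_lit 322) (nat_lit 303) (nat_lit 275))) (XT.nd (nat_lit 78) (nat_lit 76) (nat_lit 0) (XT.lf (nat_lit 0) (nat_lit 3727290180) (nat_lit 76) (nat_lit 11103165873) (nat_lit 152) (nat_lit 20144747159) (nat_lit 19) (nat_lit 5) (nat_lit 20) (nat_lit 5) (nat_lit 21) (nat_lit 4) (nat_lit 323) (nat_lit 303) (nat_lit 274)) (XT.lf (nat_lit 0) (nat_lit 322807769) (nat_lit 76) (nat_lit 31775862884) (nat_lit 76) (nat_lit 6606803863) (nat_lit 18) (nat_lit 4) (nat_lit 19) (nat_lit 5) (nat_lit 19) (nat_lit 4) (nat_lit 324) (nat_lit 303) (nat_lit 273))))) (XT.nd (nat_lit 234) (nat_lit 380) (nat_lit 0) (XT.nd (nat_lit 78) (nat_lit 152) (nat_lit 0) (XT.lf (nat_lit 0) (nat_lit 9669429225) (nat_lit 152) (nat_lit 5106988688) (nat_lit 76) (nat_lit 28109175840) (nat_lit 17) (nat_lit 5) (nat_lit 19) (nat_lit 5) (nat_lit 18) (nat_lit 4) (nat_lit 325) (nat_lit 303) (nat_lit 272)) (XT.nd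 (nat_lit 78) (nat_lit 76) (nat_lit 0) (XT.lf (nat_lit 0) (nat_lit 28904405903) (nat_lit 152) (nat_lit 13189360621) (nat_lit 0) (nat_lit 5512574861) (nat_lit 16) (nat_lit 5) (nat_lit 18) (nat_lit 4) (nat_lit 16) (nat_lit 4) (nat_lit 326) (nat_lit 303) (nat_lit 271)) (XT.lf (nat_lit 0) (nat_lit 28013294107) (nat_lit 76) (nat_lit 24177840450) (nat_lit 76) (nat_lit 750762992) (nat_lit 15) (nat_lit 4) (nat_lit 16) (nat_lit 5) (nat_lit 16) (nat_lit 4) (nat_lit 327) (nat_lit 303) (nat_lit 270)))) (XT.nd (nat_lit 156) (nat_lit 152) (nat_lit 0) (XT.nd (nat_lit 78) (nat_lit 76) (nat_lit 0) (XT.lf (nat_lit 0) (nat_lit 17407052775) (nat_lit 76) (nat_lit 2239475729) (nat_lit 152) (nat_lit 39333111775) (nat_lit 13) (nat_lit 5) (nat_lit 14) (nat_lit 5) (nat_lit 15) (nat_lit 4) (nat_lit 328) (nat_lit 303) (nat_lit 269)) (XT.lf (nat_lit 0) (nat_lit 1083100372) (nat_lit 76) (nat_lit 43240989859) (nat_lit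 76) (nat_lit 21496195536) (nat_lit 12) (nat_lit 4) (nat_lit 13) (nat_lit 5) (nat_lit 13) (nat_lit 4) (nat_lit 329) (nat_lit 303) (nat_lit 268))) (XT.nd (nat_lit 78) (nat_lit 76) (nat_lit 0) (XT.lf (nat_lit 0) (nat_lit 313285230) (nat_lit 152) (nat_lit 21114619461) (nat_lit 76) (nat_lit 52161200285) (nat_lit 11) (nat_lit 5) (nat_lit 13) (nat_lit 5) (nat_lit 12) (nat_lit 4) (nat_lit 330) (nat_lit 303) (nat_lit 267)) (XT.lf (nat_lit 0) (nat_lit 24947899819) (nat_lit 152) (nat_lit 52687881175) (nat_lit 0) (nat_lit 4776684788) (nat_lit 10) (nat_lit 5) (nat_lit 12) (nat_lit 4) (nat_lit 10) (nat_lit 4) (nat_lit 331) (nat_lit 303) (nat_lit 266)))))) (XT.nd (nat_lit 546) (nat_lit 228) (nat_lit 0) (XT.nd (nat_lit 234) (nat_lit 76) (nat_lit 0) (XT.nd (nat_lit 78) (nat_lit 228) (nat_lit 0) (XT.lf (nat_lit 0) (nat_lit 54455657249) (nat_lit 152) (nat_lit 3740026109) (nat_lit 0) (nat_lit 34269418471)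 (nat_lit 10) (nat_lit 5) (nat_lit 12) (nat_lit 4) (nat_lit 10) (nat_lit 4) (nat_lit 332) (nat_lit 303) (nat_lit 265)) (XT.nd (nat_lit 78) (nat_lit 152) (nat_lit 0) (XT.lf (nat_lit 0) (nat_lit 55235208774) (nat_lit 76) (nat_lit 34443309236) (nat_lit 76) (nat_lit 14244006331) (nat_lit 9) (nat_lit 4) (nat_lit 10) (nat_lit 5) (nat_lit 10) (nat_lit 4) (nat_lit 333) (nat_lit 303) (nat_lit 264)) (XT.lf (nat_lit 0) (nat_lit 6108117569) (nat_lit 76) (nat_lit 6545142327) (nat_lit 152) (nat_lit 104402396240) (nat_lit 7) (nat_lit 5) (nat_lit 8) (nat_lit 5) (nat_lit 9) (nat_lit 4) (nat_lit 334) (nat_lit 303) (nat_lit 263)))) (XT.nd (nat_lit 156) (nat_lit 76) (nat_lit 0) (XT.nd (nat_lit 78) (nat_lit 0) (nat_lit 0) (XT.lf (nat_lit 0) (nat_lit 44799605665) (nat_lit 152) (nat_lit 61088044796) (nat_lit 0) (nat_lit 26076882171) (nat_lit 7) (nat_lit 5) (nat_lit 9) (nat_lit 4) (nat_lit 7) (nat_lit 4) (nat_lit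 335) (nat_lit 303) (nat_lit 262)) (XT.lf (nat_lit 0) (nat_lit 81918868355) (nat_lit 152) (nat_lit 3990607566) (nat_lit 0) (nat_lit 63188191273) (nat_lit 7) (nat_lit 5) (nat_lit 9) (nat_lit 4) (nat_lit 7) (nat_lit 4) (nat_lit 336) (nat_lit 303) (nat_lit 261))) (XT.nd (nat_lit 78) (nat_lit 0) (nat_lit 0) (XT.lf (nat_lit 0) (nat_lit 64864071270) (nat_lit 76) (nat_lit 61275794785) (nat_lit 76) (nat_lit 42538201539) (nat_lit 6) (nat_lit 4) (nat_lit 7) (nat_lit 5) (nat_lit 7) (nat_lit 4) (nat_lit 337) (nat_lit 303) (nat_lit 260)) (XT.lf (nat_lit 0) (nat_lit 144240886662) (nat_lit 76) (nat_lit 32845433511) (nat_lit 76) (nat_lit 14101826209) (nat_lit 6) (nat_lit 4) (nat_lit 7) (nat_lit 5) (nat_lit 7) (nat_lit 4) (nat_lit 338) (nat_lit 303) (nat_lit 259))))) (XT.nd (nat_lit 312) (nat_lit 76) (nat_lit 0) (XT.nd (nat_lit 156) (nat_lit 0) (nat_lit 0) (XT.nd (nat_lit 78) (nat_lit 0) (nat_lit 0) (XT.lf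 (nat_lit 0) (nat_lit 18122222539) (nat_lit 152) (nat_lit 198118328779) (nat_lit 0) (nat_lit 762188358) (nat_lit 4) (nat_lit 5) (nat_lit 6) (nat_lit 4) (nat_lit 4) (nat_lit 4) (nat_lit 339) (nat_lit 303) (nat_lit 258)) (XT.lf (nat_lit 0) (nat_lit 56659444951) (nat_lit 152) (nat_lit 150520412250) (nat_lit 0) (nat_lit 39295200131) (nat_lit 4) (nat_lit 5) (nat_lit 6) (nat_lit 4) (nat_lit 4) (nat_lit 4) (nat_lit 340) (nat_lit 303) (nat_lit 257))) (XT.nd (nat_lit 78) (nat_lit 0) (nat_lit 0) (XT.lf (nat_lit 0) (nat_lit 100959917810) (nat_lit 152) (nat_lit 95817681643) (nat_lit 0) (nat_lit 83592011564) (nat_lit 4) (nat_lit 5) (nat_lit 6) (nat_lit 4) (nat_lit 4) (nat_lit 4) (nat_lit 341) (nat_lit 303) (nat_lit 256)) (XT.lf (nat_lit 0) (nat_lit 151890389497) (nat_lit 152) (nat_lit 32939866140) (nat_lit 0) (nat_lit 134519299403) (nat_lit 4) (nat_lit 5) (nat_lit 6) (nat_lit 4) (nat_lit 4) (nat_lit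 4) (nat_lit 342) (nat_lit 303) (nat_lit 255)))) (XT.nd (nat_lit 156) (nat_lit 0) (nat_lit 0) (XT.nd (nat_lit 78) (nat_lit 0) (nat_lit 0) (XT.lf (nat_lit 0) (nat_lit 41414998333) (nat_lit 76) (nat_lit 170028359136) (nat_lit 76) (nat_lit 152654500479) (nat_lit 3) (nat_lit 4) (nat_lit 4) (nat_lit 5) (nat_lit 4) (nat_lit 4) (nat_lit 343) (nat_lit 303) (nat_lit 254)) (XT.lf (nat_lit 0) (nat_lit 128893693431) (nat_lit 76) (nat_lit 151982608793) (nat_lit 76) (nat_lit 134606342689) (nat_lit 3) (nat_lit 4) (nat_lit 4) (nat_lit 5) (nat_lit 4) (nat_lit 4) (nat_lit 344) (nat_lit 303) (nat_lit 253))) (XT.nd (nat_lit 78) (nat_lit 0) (nat_lit 0) (XT.lf (nat_lit 0) (nat_lit 229473203862) (nat_lit 76) (nat_lit 131240569896) (nat_lit 76) (nat_lit 113862210360) (nat_lit 3) (nat_lit 4) (nat_lit 4) (nat_lit 5) (nat_lit 4) (nat_lit 4) (nat_lit 345) (nat_lit 303) (nat_lit 252)) (XT.lf (nat_lit 0) (nat_lit 345121389613)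 (nat_lit 76) (nat_lit 107396419944) (nat_lit 76) (nat_lit 90016240033) (nat_lit 3) (nat_lit 4) (nat_lit 4) (nat_lit 5) (nat_lit 4) (nat_lit 4) (nat_lit 346) (nat_lit 303) (nat_lit 251))))))) (XT.nd (nat_lit 1092) (nat_lit 0) (nat_lit 0) (XT.nd (nat_lit 546) (nat_lit 0) (nat_lit 0) (XT.nd (nat_lit 234) (nat_lit 76) (nat_lit 0) (XT.nd (nat_lit 78) (nat_lit 76) (nat_lit 0) (XT.lf (nat_lit 0) (nat_lit 478100932580) (nat_lit 76) (nat_lit 79983642959) (nat_lit 76) (nat_lit 62601880113) (nat_lit 3) (nat_lit 4) (nat_lit 4) (nat_lit 5) (nat_lit 4) (nat_lit 4) (nat_lit 347) (nat_lit 303) (nat_lit 250)) (XT.nd (nat_lit 78) (nat_lit 76) (nat_lit 0) (XT.lf (nat_lit 0) (nat_lit 631013606427) (nat_lit 76) (nat_lit 48465902002) (nat_lit 76) (nat_lit 31082762690) (nat_lit 3) (nat_lit 4) (nat_lit 4) (nat_lit 5) (nat_lit 4) (nat_lit 4) (nat_lit 348) (nat_lit 303) (nat_lit 249)) (XT.lf (nat_lit 0) (nat_lit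 4899777043) (nat_lit 152) (nat_lit 7192799986) (nat_lit 76) (nat_lit 801817435232) (nat_lit 2) (nat_lit 5) (nat_lit 4) (nat_lit 5) (nat_lit 3) (nat_lit 4) (nat_lit 349) (nat_lit 303) (nat_lit 248)))) (XT.nd (nat_lit 156) (nat_lit 0) (nat_lit 0) (XT.nd (nat_lit 78) (nat_lit 0) (nat_lit 0) (XT.lf (nat_lit 0) (nat_lit 47175480504) (nat_lit 152) (nat_lit 854223039469) (nat_lit 0) (nat_lit 31077909168) (nat_lit 1) (nat_lit 5) (nat_lit 3) (nat_lit 4) (nat_lit 1) (nat_lit 4) (nat_lit 350) (nat_lit 303) (nat_lit 247)) (XT.lf (nat_lit 0) (nat_lit 96336865110) (nat_lit 152) (nat_lit 892208942027) (nat_lit 0) (nat_lit 80238455766) (nat_lit 1) (nat_lit 5) (nat_lit 3) (nat_lit 4) (nat_lit 1) (nat_lit 4) (nat_lit 351) (nat_lit 303) (nat_lit 246))) (XT.nd (nat_lit 78) (nat_lit 0) (nat_lit 0) (XT.lf (nat_lit 0) (nat_lit 152868131296) (nat_lit 152) (nat_lit 935901493620) (nat_lit 0) (nat_lit 136768993250)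 (nat_lit 1) (nat_lit 5) (nat_lit 3) (nat_lit 4) (nat_lit 1) (nat_lit 4) (nat_lit 352) (nat_lit 303) (nat_lit 245)) (XT.lf (nat_lit 0) (nat_lit 217875325575) (nat_lit 152) (nat_lit 986155548519) (nat_lit 0) (nat_lit 201775553874) (nat_lit 1) (nat_lit 5) (nat_lit 3) (nat_lit 4) (nat_lit 1) (nat_lit 4) (nat_lit 353) (nat_lit 303) (nat_lit 244))))) (XT.nd (nat_lit 234) (nat_lit 0) (nat_lit 0) (XT.nd (nat_lit 78) (nat_lit 0) (nat_lit 0) (XT.lf (nat_lit 0) (nat_lit 292630327834) (nat_lit 152) (nat_lit 1043954338232) (nat_lit 0) (nat_lit 276530005129) (nat_lit 1) (nat_lit 5) (nat_lit 3) (nat_lit 4) (nat_lit 1) (nat_lit 4) (nat_lit 354) (nat_lit 303) (nat_lit 243)) (XT.nd (nat_lit 78) (nat_lit 0) (nat_lit 0) (XT.lf (nat_lit 0) (nat_lit 378595735943) (nat_lit 152) (nat_lit 1110428708646) (nat_lit 0) (nat_lit 362494934105) (nat_lit 1) (nat_lit 5) (nat_lit 3) (nat_lit 4) (nat_lit 1) (nat_lit 4) (nat_lit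 355) (nat_lit 303) (nat_lit 242)) (XT.lf (nat_lit 0) (nat_lit 477453481802) (nat_lit 152) (nat_lit 1186879245269) (nat_lit 0) (nat_lit 461352263325) (nat_lit 1) (nat_lit 5) (nat_lit 3) (nat_lit 4) (nat_lit 1) (nat_lit 4) (nat_lit 356) (nat_lit 303) (nat_lit 241)))) (XT.nd (nat_lit 156) (nat_lit 0) (nat_lit 0) (XT.nd (nat_lit 78) (nat_lit 0) (nat_lit 0) (XT.lf (nat_lit 0) (nat_lit 591137738697) (nat_lit 152) (nat_lit 1274801719469) (nat_lit 0) (nat_lit 575036157927) (nat_lit 1) (nat_lit 5) (nat_lit 3) (nat_lit 4) (nat_lit 1) (nat_lit 4) (nat_lit 357) (nat_lit 303) (nat_lit 240)) (XT.lf (nat_lit 0) (nat_lit 721872763829) (nat_lit 152) (nat_lit 1375916353567) (nat_lit 0) (nat_lit 705770868021) (nat_lit 1) (nat_lit 5) (nat_lit 3) (nat_lit 4) (nat_lit 1) (nat_lit 4) (nat_lit 358) (nat_lit 303) (nat_lit 239))) (XT.nd (nat_lit 78) (nat_lit 0) (nat_lit 0) (XT.lf (nat_lit 0) (nat_lit 872216416386)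 (nat_lit 152) (nat_lit 1492201477361) (nat_lit 0) (nat_lit 856114246632) (nat_lit 1) (nat_lit 5) (nat_lit 3) (nat_lit 4) (nat_lit 1) (nat_lit 4) (nat_lit 359) (nat_lit 303) (nat_lit 238)) (XT.lf (nat_lit 0) (nat_lit 1045110202613) (nat_lit 152) (nat_lit 1625932234578) (nat_lit 0) (nat_lit 1029007794645) (nat_lit 1) (nat_lit 5) (nat_lit 3) (nat_lit 4) (nat_lit 1) (nat_lit 4) (nat_lit 360) (nat_lit 303) (nat_lit 237)))))) (XT.nd (nat_lit 546) (nat_lit 0) (nat_lit 0) (XT.nd (nat_lit 234) (nat_lit 0) (nat_lit 0) (XT.nd (nat_lit 78) (nat_lit 0) (nat_lit 0) (XT.lf (nat_lit 0) (nat_lit 1243936827024) (nat_lit 152) (nat_lit 1779725096554) (nat_lit 0) (nat_lit 1227834211912) (nat_lit 1) (nat_lit 5) (nat_lit 3) (nat_lit 4) (nat_lit 1) (nat_lit 4) (nat_lit 361) (nat_lit 303) (nat_lit 236)) (XT.nd (nat_lit 78) (nat_lit 0) (nat_lit 0) (XT.lf (nat_lit 0) (nat_lit 1472586375747) (nat_lit 152) (nat_lit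 1956589054068) (nat_lit 0) (nat_lit 1456483580512) (nat_lit 1) (nat_lit 5) (nat_lit 3) (nat_lit 4) (nat_lit 1) (nat_lit 4) (nat_lit 362) (nat_lit 303) (nat_lit 235)) (XT.lf (nat_lit 0) (nat_lit 1735532426911) (nat_lit 152) (nat_lit 2159984488896) (nat_lit 0) (nat_lit 1719429475046) (nat_lit 1) (nat_lit 5) (nat_lit 3) (nat_lit 4) (nat_lit 1) (nat_lit 4) (nat_lit 363) (nat_lit 303) (nat_lit 234)))) (XT.nd (nat_lit 156) (nat_lit 0) (nat_lit 0) (XT.nd (nat_lit 78) (nat_lit 0) (nat_lit 0) (XT.lf (nat_lit 0) (nat_lit 2037919577169) (nat_lit 152) (nat_lit 2393890876937) (nat_lit 0) (nat_lit 2021816489104) (nat_lit 1) (nat_lit 5) (nat_lit 3) (nat_lit 4) (nat_lit 1) (nat_lit 4) (nat_lit 364) (nat_lit 303) (nat_lit 233)) (XT.lf (nat_lit 0) (nat_lit 2385664096851) (nat_lit 152) (nat_lit 2662884647523) (nat_lit 0) (nat_lit 2369560890352) (nat_lit 1) (nat_lit 5) (nat_lit 3) (nat_lit 4) (nat_lit 1) (nat_lit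 4) (nat_lit 365) (nat_lit 303) (nat_lit 232))) (XT.nd (nat_lit 78) (nat_lit 0) (nat_lit 0) (XT.lf (nat_lit 0) (nat_lit 2785569683082) (nat_lit 152) (nat_lit 2972228722252) (nat_lit 0) (nat_lit 2769466373596) (nat_lit 1) (nat_lit 5) (nat_lit 3) (nat_lit 4) (nat_lit 1) (nat_lit 4) (nat_lit 366) (nat_lit 303) (nat_lit 231)) (XT.lf (nat_lit 0) (nat_lit 3245460575593) (nat_lit 152) (nat_lit 3327975485194) (nat_lit 0) (nat_lit 3229357176553) (nat_lit 1) (nat_lit 5) (nat_lit 3) (nat_lit 4) (nat_lit 1) (nat_lit 4) (nat_lit 367) (nat_lit 303) (nat_lit 230))))) (XT.nd (nat_lit 312) (nat_lit 0) (nat_lit 0) (XT.nd (nat_lit 156) (nat_lit 0) (nat_lit 0) (XT.nd (nat_lit 78) (nat_lit 0) (nat_lit 0) (XT.lf (nat_lit 0) (nat_lit 3774334639671) (nat_lit 152) (nat_lit 3737085199104) (nat_lit 0) (nat_lit 3758231162759) (nat_lit 1) (nat_lit 5) (nat_lit 3) (nat_lit 4) (nat_lit 1) (nat_lit 4) (nat_lit 368) (nat_lit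 303) (nat_lit 229)) (XT.lf (nat_lit 0) (nat_lit 4382539411353) (nat_lit 152) (nat_lit 4207562184471) (nat_lit 0) (nat_lit 4366435866726) (nat_lit 1) (nat_lit 5) (nat_lit 3) (nat_lit 4) (nat_lit 1) (nat_lit 4) (nat_lit 369) (nat_lit 303) (nat_lit 228))) (XT.nd (nat_lit 78) (nat_lit 0) (nat_lit 0) (XT.lf (nat_lit 0) (nat_lit 5081974549216) (nat_lit 152) (nat_lit 4748611425790) (nat_lit 0) (nat_lit 5065870945706) (nat_lit 1) (nat_lit 5) (nat_lit 3) (nat_lit 4) (nat_lit 1) (nat_lit 4) (nat_lit 370) (nat_lit 303) (nat_lit 227)) (XT.lf (nat_lit 0) (nat_lit 5886324653783) (nat_lit 152) (nat_lit 5370818669088) (nat_lit 0) (nat_lit 5870220999070) (nat_lit 1) (nat_lit 5) (nat_lit 3) (nat_lit 4) (nat_lit 1) (nat_lit 4) (nat_lit 371) (nat_lit 303) (nat_lit 226)))) (XT.nd (nat_lit 41652) (nat_lit 0) (nat_lit 5092) (XT.nd (nat_lit 41574) (nat_lit 0) (nat_lit 5092) (XT.lf (nat_lit 0) (nat_lit 6811327009708)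 (nat_lit 152) (nat_lit 6086357534342) (nat_lit 0) (nat_lit 6795223310471) (nat_lit 1) (nat_lit 5) (nat_lit 3) (nat_lit 4) (nat_lit 1) (nat_lit 4) (nat_lit 372) (nat_lit 303) (nat_lit 225)) (XT.lf (nat_lit 0) (nat_lit 798587742) (nat_lit 0) (nat_lit 798587742) (nat_lit 380) (nat_lit 2385863114) (nat_lit 68) (nat_lit 5) (nat_lit 68) (nat_lit 3) (nat_lit 73) (nat_lit 3) (nat_lit 304) (nat_lit 304) (nat_lit 292))) (XT.nd (nat_lit 78) (nat_lit 0) (nat_lit 76) (XT.lf (nat_lit 76) (nat_lit 806568409) (nat_lit 0) (nat_lit 4847845294) (nat_lit 456) (nat_lit 2728618237) (nat_lit 69) (nat_lit 5) (nat_lit 68) (nat_lit 5) (nat_lit 74) (nat_lit 5) (nat_lit 305) (nat_lit 304) (nat_lit 291)) (XT.lf (nat_lit 76) (nat_lit 281895601) (nat_lit 0) (nat_lit 8079568083) (nat_lit 456) (nat_lit 511337598) (nat_lit 70) (nat_lit 5) (nat_lit 69) (nat_lit 5) (nat_lit 75) (nat_lit 5) (nat_lit 306) (nat_lit 304) (nat_lit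 290))))))))
noncomputable def xc28 : XT := (XT.nd (nat_lit 2184) (nat_lit 608) (nat_lit 0) (XT.nd (nat_lit 1092) (nat_lit 1292) (nat_lit 0) (XT.nd (nat_lit 546) (nat_lit 1064) (nat_lit 0) (XT.nd (nat_lit 234) (nat_lit 1368) (nat_lit 0) (XT.nd (nat_lit 78) (nat_lit 380) (nat_lit 0) (XT.lf (nat_lit 0) (nat_lit 1956993258) (nat_lit 456) (nat_lit 93957309) (nat_lit 532) (nat_lit 7379938918) (nat_lit 63) (nat_lit 5) (nat_lit 69) (nat_lit 5) (nat_lit 70) (nat_lit 5) (nat_lit 307) (nat_lit 304) (nat_lit 289)) (XT.nd (nat_lit 78) (nat_lit 456) (nat_lit 0) (XT.lf (nat_lit 0) (nat_lit 4834921871) (nat_lit 456) (nat_lit 271926167) (nat_lit 76) (nat_lit 4959567155) (nat_lit 64) (nat_lit 5) (nat_lit 70) (nat_lit 5) (nat_lit 65) (nat_lit 5) (nat_lit 308) (nat_lit 304) (nat_lit 288)) (XT.lf (nat_lit 0) (nat_lit 8256647314) (nat_lit 532) (nat_lit 235391667) (nat_lit 76) (nat_lit 2296572434) (nat_lit 58)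 (nat_lit 5) (nat_lit 65) (nat_lit 5) (nat_lit 59) (nat_lit 5) (nat_lit 309) (nat_lit 304) (nat_lit 287)))) (XT.nd (nat_lit 156) (nat_lit 456) (nat_lit 0) (XT.nd (nat_lit 78) (nat_lit 456) (nat_lit 0) (XT.lf (nat_lit 0) (nat_lit 745685460) (nat_lit 456) (nat_lit 15900646) (nat_lit 76) (nat_lit 10840552933) (nat_lit 52) (nat_lit 5) (nat_lit 58) (nat_lit 5) (nat_lit 53) (nat_lit 5) (nat_lit 310) (nat_lit 304) (nat_lit 286)) (XT.lf (nat_lit 0) (nat_lit 300786540) (nat_lit 228) (nat_lit 4389091175) (nat_lit 304) (nat_lit 7816788825) (nat_lit 46) (nat_lit 5) (nat_lit 49) (nat_lit 5) (nat_lit 50) (nat_lit 5) (nat_lit 311) (nat_lit 304) (nat_lit 285))) (XT.nd (nat_lit 78) (nat_lit 304) (nat_lit 0) (XT.lf (nat_lit 0) (nat_lit 844372212) (nat_lit 152) (nat_lit 8687518329) (nat_lit 228) (nat_lit 3990676178) (nat_lit 44) (nat_lit 5) (nat_lit 46) (nat_lit 5) (nat_lit 47) (nat_lit 5) (nat_lit 312) (nat_lit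 304) (nat_lit 284)) (XT.lf (nat_lit 0) (nat_lit 755103965) (nat_lit 304) (nat_lit 13049729898) (nat_lit 76) (nat_lit 856084298) (nat_lit 40) (nat_lit 5) (nat_lit 44) (nat_lit 5) (nat_lit 41) (nat_lit 5) (nat_lit 313) (nat_lit 304) (nat_lit 283))))) (XT.nd (nat_lit 234) (nat_lit 532) (nat_lit 0) (XT.nd (nat_lit 78) (nat_lit 380) (nat_lit 0) (XT.lf (nat_lit 0) (nat_lit 2403754874) (nat_lit 152) (nat_lit 4092573614) (nat_lit 228) (nat_lit 9423944172) (nat_lit 38) (nat_lit 5) (nat_lit 40) (nat_lit 5) (nat_lit 41) (nat_lit 5) (nat_lit 314) (nat_lit 304) (nat_lit 282)) (XT.nd (nat_lit 78) (nat_lit 228) (nat_lit 0) (XT.lf (nat_lit 0) (nat_lit 3398663464) (nat_lit 152) (nat_lit 10193035317) (nat_lit 228) (nat_lit 3737509584) (nat_lit 36) (nat_lit 5) (nat_lit 38) (nat_lit 5) (nat_lit 39) (nat_lit 5) (nat_lit 315) (nat_lit 304) (nat_lit 281)) (XT.lf (nat_lit 0) (nat_lit 3185542857) (nat_lit 228)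 (nat_lit 14356889824) (nat_lit 76) (nat_lit 1359848328) (nat_lit 33) (nat_lit 5) (nat_lit 36) (nat_lit 5) (nat_lit 34) (nat_lit 5) (nat_lit 316) (nat_lit 304) (nat_lit 280)))) (XT.nd (nat_lit 156) (nat_lit 304) (nat_lit 0) (XT.nd (nat_lit 78) (nat_lit 76) (nat_lit 0) (XT.lf (nat_lit 0) (nat_lit 5645644861) (nat_lit 152) (nat_lit 5994266097) (nat_lit 228) (nat_lit 9006585047) (nat_lit 31) (nat_lit 5) (nat_lit 33) (nat_lit 5) (nat_lit 34) (nat_lit 5) (nat_lit 317) (nat_lit 304) (nat_lit 279)) (XT.lf (nat_lit 0) (nat_lit 6867357069) (nat_lit 76) (nat_lit 15148809108) (nat_lit 152) (nat_lit 583948532) (nat_lit 30) (nat_lit 5) (nat_lit 31) (nat_lit 5) (nat_lit 32) (nat_lit 4) (nat_lit 318) (nat_lit 304) (nat_lit 278))) (XT.nd (nat_lit 78) (nat_lit 76) (nat_lit 0) (XT.lf (nat_lit 0) (nat_lit 7934387122) (nat_lit 152) (nat_lit 1409684222) (nat_lit 228) (nat_lit 15429463942) (nat_lit 27) (nat_lit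 5) (nat_lit 29) (nat_lit 5) (nat_lit 30) (nat_lit 5) (nat_lit 319) (nat_lit 304) (nat_lit 277)) (XT.lf (nat_lit 0) (nat_lit 8762243988) (nat_lit 76) (nat_lit 12893311885) (nat_lit 152) (nat_lit 5541941659) (nat_lit 26) (nat_lit 5) (nat_lit 27) (nat_lit 5) (nat_lit 28) (nat_lit 4) (nat_lit 320) (nat_lit 304) (nat_lit 276)))))) (XT.nd (nat_lit 546) (nat_lit 532) (nat_lit 0) (XT.nd (nat_lit 234) (nat_lit 304) (nat_lit 0) (XT.nd (nat_lit 78) (nat_lit 228) (nat_lit 0) (XT.lf (nat_lit 0) (nat_lit 6289489220) (nat_lit 228) (nat_lit 20600974971) (nat_lit 76) (nat_lit 3023226474) (nat_lit 23) (nat_lit 5) (nat_lit 26) (nat_lit 5) (nat_lit 24) (nat_lit 4) (nat_lit 321) (nat_lit 304) (nat_lit 275)) (XT.nd (nat_lit 78) (nat_lit 152) (nat_lit 0) (XT.lf (nat_lit 0) (nat_lit 9125490870) (nat_lit 76) (nat_lit 11492903302) (nat_lit 152) (nat_lit 12323364852) (nat_lit 22) (nat_lit 5) (nat_lit 23) (nat_lit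 5) (nat_lit 24) (nat_lit 4) (nat_lit 322) (nat_lit 304) (nat_lit 274)) (XT.lf (nat_lit 0) (nat_lit 1547169735) (nat_lit 152) (nat_lit 28104383583) (nat_lit 76) (nat_lit 6698560389) (nat_lit 20) (nat_lit 5) (nat_lit 22) (nat_lit 5) (nat_lit 21) (nat_lit 4) (nat_lit 323) (nat_lit 304) (nat_lit 273)))) (XT.nd (nat_lit 156) (nat_lit 152) (nat_lit 0) (XT.nd (nat_lit 78) (nat_lit 76) (nat_lit 0) (XT.lf (nat_lit 0) (nat_lit 5823990703) (nat_lit 76) (nat_lit 12061036791) (nat_lit 152) (nat_lit 22269797240) (nat_lit 19) (nat_lit 5) (nat_lit 20) (nat_lit 5) (nat_lit 21) (nat_lit 4) (nat_lit 324) (nat_lit 304) (nat_lit 272)) (XT.lf (nat_lit 0) (nat_lit 1824124355) (nat_lit 76) (nat_lit 35860829000) (nat_lit 76) (nat_lit 6764398797) (nat_lit 18) (nat_lit 4) (nat_lit 19) (nat_lit 5) (nat_lit 19) (nat_lit 4) (nat_lit 325) (nat_lit 304) (nat_lit 271))) (XT.nd (nat_lit 78) (nat_lit 76) (nat_lit 0) (XT.lf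 (nat_lit 0) (nat_lit 11808308233) (nat_lit 152) (nat_lit 4573215205) (nat_lit 76) (nat_lit 32881651070) (nat_lit 17) (nat_lit 5) (nat_lit 19) (nat_lit 5) (nat_lit 18) (nat_lit 4) (nat_lit 326) (nat_lit 304) (nat_lit 270)) (XT.lf (nat_lit 0) (nat_lit 33880874949) (nat_lit 152) (nat_lit 13941155082) (nat_lit 0) (nat_lit 6873840399) (nat_lit 16) (nat_lit 5) (nat_lit 18) (nat_lit 4) (nat_lit 16) (nat_lit 4) (nat_lit 327) (nat_lit 304) (nat_lit 269))))) (XT.nd (nat_lit 234) (nat_lit 228) (nat_lit 0) (XT.nd (nat_lit 78) (nat_lit 228) (nat_lit 0) (XT.lf (nat_lit 0) (nat_lit 33338071459) (nat_lit 76) (nat_lit 27265960732) (nat_lit 76) (nat_lit 232274828) (nat_lit 15) (nat_lit 4) (nat_lit 16) (nat_lit 5) (nat_lit 16) (nat_lit 4) (nat_lit 328) (nat_lit 304) (nat_lit 268)) (XT.nd (nat_lit 78) (nat_lit 76) (nat_lit 0) (XT.lf (nat_lit 0) (nat_lit 21074870043) (nat_lit 76) (nat_lit 2065385262) (nat_lit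 152) (nat_lit 44642480936) (nat_lit 13) (nat_lit 5) (nat_lit 14) (nat_lit 5) (nat_lit 15) (nat_lit 4) (nat_lit 329) (nat_lit 304) (nat_lit 267)) (XT.lf (nat_lit 0) (nat_lit 2241786196) (nat_lit 76) (nat_lit 49240975245) (nat_lit 76) (nat_lit 24169666683) (nat_lit 12) (nat_lit 4) (nat_lit 13) (nat_lit 5) (nat_lit 13) (nat_lit 4) (nat_lit 330) (nat_lit 304) (nat_lit 266)))) (XT.nd (nat_lit 156) (nat_lit 76) (nat_lit 0) (XT.nd (nat_lit 78) (nat_lit 76) (nat_lit 0) (XT.lf (nat_lit 0) (nat_lit 815405861) (nat_lit 152) (nat_lit 23391490017) (nat_lit 76) (nat_lit 60384087408) (nat_lit 11) (nat_lit 5) (nat_lit 13) (nat_lit 5) (nat_lit 12) (nat_lit 4) (nat_lit 331) (nat_lit 304) (nat_lit 265)) (XT.lf (nat_lit 0) (nat_lit 29115058306) (nat_lit 152) (nat_lit 59752416487) (nat_lit 0) (nat_lit 5872795838) (nat_lit 10) (nat_lit 5) (nat_lit 12) (nat_lit 4) (nat_lit 10) (nat_lit 4) (nat_lit 332) (nat_lit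 304) (nat_lit 264))) (XT.nd (nat_lit 78) (nat_lit 76) (nat_lit 0) (XT.lf (nat_lit 0) (nat_lit 62993548023) (nat_lit 152) (nat_lit 3571771882) (nat_lit 0) (nat_lit 39739925443) (nat_lit 10) (nat_lit 5) (nat_lit 12) (nat_lit 4) (nat_lit 10) (nat_lit 4) (nat_lit 333) (nat_lit 304) (nat_lit 263)) (XT.lf (nat_lit 0) (nat_lit 64188020164) (nat_lit 76) (nat_lit 39279670693) (nat_lit 76) (nat_lit 16016169757) (nat_lit 9) (nat_lit 4) (nat_lit 10) (nat_lit 5) (nat_lit 10) (nat_lit 4) (nat_lit 334) (nat_lit 304) (nat_lit 262))))))) (XT.nd (nat_lit 1092) (nat_lit 152) (nat_lit 0) (XT.nd (nat_lit 546) (nat_lit 76) (nat_lit 0) (XT.nd (nat_lit 234) (nat_lit 228) (nat_lit 0) (XT.nd (nat_lit 78) (nat_lit 0) (nat_lit 0) (XT.lf (nat_lit 0) (nat_lit 7652092718) (nat_lit 76) (nat_lit 7215303209) (nat_lit 152) (nat_lit 119721275991) (nat_lit 7) (nat_lit 5) (nat_lit 8) (nat_lit 5) (nat_lit 9) (nat_lit 4) (nat_lit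 335) (nat_lit 304) (nat_lit 261)) (XT.nd (nat_lit 78) (nat_lit 0) (nat_lit 0) (XT.lf (nat_lit 0) (nat_lit 51800973720) (nat_lit 152) (nat_lit 69689863766) (nat_lit 0) (nat_lit 30245825322) (nat_lit 7) (nat_lit 5) (nat_lit 9) (nat_lit 4) (nat_lit 7) (nat_lit 4) (nat_lit 336) (nat_lit 304) (nat_lit 260)) (XT.lf (nat_lit 0) (nat_lit 94451417917) (nat_lit 152) (nat_lit 4101035441) (nat_lit 0) (nat_lit 72890255464) (nat_lit 7) (nat_lit 5) (nat_lit 9) (nat_lit 4) (nat_lit 7) (nat_lit 4) (nat_lit 337) (nat_lit 304) (nat_lit 259)))) (XT.nd (nat_lit 156) (nat_lit 152) (nat_lit 0) (XT.nd (nat_lit 78) (nat_lit 0) (nat_lit 0) (XT.lf (nat_lit 0) (nat_lit 75040524633) (nat_lit 76) (nat_lit 70243867307) (nat_lit 76) (nat_lit 48677475240) (nat_lit 6) (nat_lit 4) (nat_lit 7) (nat_lit 5) (nat_lit 7) (nat_lit 4) (nat_lit 338) (nat_lit 304) (nat_lit 258)) (XT.lf (nat_lit 0) (nat_lit 166265578507) (nat_lit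 76) (nat_lit 37578077498) (nat_lit 76) (nat_lit 16007137941) (nat_lit 6) (nat_lit 4) (nat_lit 7) (nat_lit 5) (nat_lit 7) (nat_lit 4) (nat_lit 339) (nat_lit 304) (nat_lit 257))) (XT.nd (nat_lit 78) (nat_lit 0) (nat_lit 0) (XT.lf (nat_lit 0) (nat_lit 21027187073) (nat_lit 152) (nat_lit 227460580781) (nat_lit 0) (nat_lit 1050433465) (nat_lit 4) (nat_lit 5) (nat_lit 6) (nat_lit 4) (nat_lit 4) (nat_lit 4) (nat_lit 340) (nat_lit 304) (nat_lit 256)) (XT.lf (nat_lit 0) (nat_lit 65320649653) (nat_lit 152) (nat_lit 172771954683) (nat_lit 0) (nat_lit 45340712197) (nat_lit 4) (nat_lit 5) (nat_lit 6) (nat_lit 4) (nat_lit 4) (nat_lit 4) (nat_lit 341) (nat_lit 304) (nat_lit 255))))) (XT.nd (nat_lit 234) (nat_lit 0) (nat_lit 0) (XT.nd (nat_lit 78) (nat_lit 76) (nat_lit 0) (XT.lf (nat_lit 0) (nat_lit 116245025445) (nat_lit 152) (nat_lit 109906403972) (nat_lit 0) (nat_lit 96262319426) (nat_lit 4) (nat_lit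 5) (nat_lit 6) (nat_lit 4) (nat_lit 4) (nat_lit 4) (nat_lit 342) (nat_lit 304) (nat_lit 254)) (XT.nd (nat_lit 78) (nat_lit 76) (nat_lit 0) (XT.lf (nat_lit 0) (nat_lit 174796660934) (nat_lit 152) (nat_lit 37633950482) (nat_lit 0) (nat_lit 154811547468) (nat_lit 4) (nat_lit 5) (nat_lit 6) (nat_lit 4) (nat_lit 4) (nat_lit 4) (nat_lit 343) (nat_lit 304) (nat_lit 253)) (XT.lf (nat_lit 0) (nat_lit 47853245182) (nat_lit 76) (nat_lit 195418758111) (nat_lit 76) (nat_lit 175431551213) (nat_lit 3) (nat_lit 4) (nat_lit 4) (nat_lit 5) (nat_lit 4) (nat_lit 4) (nat_lit 344) (nat_lit 304) (nat_lit 252)))) (XT.nd (nat_lit 156) (nat_lit 0) (nat_lit 0) (XT.nd (nat_lit 78) (nat_lit 0) (nat_lit 0) (XT.lf (nat_lit 0) (nat_lit 148424266662) (nat_lit 76) (nat_lit 174680995855) (nat_lit 76) (nat_lit 154691968582) (nat_lit 3) (nat_lit 4) (nat_lit 4) (nat_lit 5) (nat_lit 4) (nat_lit 4) (nat_lit 345) (nat_lit 304)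 (nat_lit 251)) (XT.lf (nat_lit 0) (nat_lit 264065070717) (nat_lit 76) (nat_lit 150840564722) (nat_lit 76) (nat_lit 130849954513) (nat_lit 3) (nat_lit 4) (nat_lit 4) (nat_lit 5) (nat_lit 4) (nat_lit 4) (nat_lit 346) (nat_lit 304) (nat_lit 250))) (XT.nd (nat_lit 78) (nat_lit 0) (nat_lit 0) (XT.lf (nat_lit 0) (nat_lit 397038194816) (nat_lit 76) (nat_lit 123431021493) (nat_lit 76) (nat_lit 103439034819) (nat_lit 3) (nat_lit 4) (nat_lit 4) (nat_lit 5) (nat_lit 4) (nat_lit 4) (nat_lit 347) (nat_lit 304) (nat_lit 249)) (XT.lf (nat_lit 0) (nat_lit 549945287041) (nat_lit 76) (nat_lit 91916092497) (nat_lit 76) (nat_lit 71922908897) (nat_lit 3) (nat_lit 4) (nat_lit 4) (nat_lit 5) (nat_lit 4) (nat_lit 4) (nat_lit 348) (nat_lit 304) (nat_lit 248)))))) (XT.nd (nat_lit 546) (nat_lit 0) (nat_lit 0) (XT.nd (nat_lit 234) (nat_lit 0) (nat_lit 0) (XT.nd (nat_lit 78) (nat_lit 152) (nat_lit 0) (XT.lf (nat_lit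 0) (nat_lit 725778007891) (nat_lit 76) (nat_lit 55679181297) (nat_lit 76) (nat_lit 35684956891) (nat_lit 3) (nat_lit 4) (nat_lit 4) (nat_lit 5) (nat_lit 4) (nat_lit 4) (nat_lit 349) (nat_lit 304) (nat_lit 247)) (XT.nd (nat_lit 78) (nat_lit 76) (nat_lit 0) (XT.lf (nat_lit 0) (nat_lit 5684489465) (nat_lit 152) (nat_lit 8171391366) (nat_lit 76) (nat_lit 922136649294) (nat_lit 2) (nat_lit 5) (nat_lit 4) (nat_lit 5) (nat_lit 3) (nat_lit 4) (nat_lit 350) (nat_lit 304) (nat_lit 246)) (XT.lf (nat_lit 0) (nat_lit 54298383727) (nat_lit 152) (nat_lit 982262133278) (nat_lit 0) (nat_lit 35783646271) (nat_lit 1) (nat_lit 5) (nat_lit 3) (nat_lit 4) (nat_lit 1) (nat_lit 4) (nat_lit 351) (nat_lit 304) (nat_lit 245)))) (XT.nd (nat_lit 156) (nat_lit 0) (nat_lit 0) (XT.nd (nat_lit 78) (nat_lit 0) (nat_lit 0) (XT.lf (nat_lit 0) (nat_lit 110827900222) (nat_lit 152) (nat_lit 1025958229320) (nat_lit 0) (nat_lit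 92312529112) (nat_lit 1) (nat_lit 5) (nat_lit 3) (nat_lit 4) (nat_lit 1) (nat_lit 4) (nat_lit 352) (nat_lit 304) (nat_lit 244)) (XT.lf (nat_lit 0) (nat_lit 175833573030) (nat_lit 152) (nat_lit 1076215366349) (nat_lit 0) (nat_lit 157317650916) (nat_lit 1) (nat_lit 5) (nat_lit 3) (nat_lit 4) (nat_lit 1) (nat_lit 4) (nat_lit 353) (nat_lit 304) (nat_lit 243))) (XT.nd (nat_lit 78) (nat_lit 0) (nat_lit 0) (XT.lf (nat_lit 0) (nat_lit 250587252272) (nat_lit 152) (nat_lit 1134016836176) (nat_lit 0) (nat_lit 232070851024) (nat_lit 1) (nat_lit 5) (nat_lit 3) (nat_lit 4) (nat_lit 1) (nat_lit 4) (nat_lit 354) (nat_lit 304) (nat_lit 242)) (XT.lf (nat_lit 0) (nat_lit 336551509931) (nat_lit 152) (nat_lit 1200493537124) (nat_lit 0) (nat_lit 318034692045) (nat_lit 1) (nat_lit 5) (nat_lit 3) (nat_lit 4) (nat_lit 1) (nat_lit 4) (nat_lit 355) (nat_lit 304) (nat_lit 241))))) (XT.nd (nat_lit 312) (nat_lit 0)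 (nat_lit 0) (XT.nd (nat_lit 156) (nat_lit 0) (nat_lit 0) (XT.nd (nat_lit 78) (nat_lit 0) (nat_lit 0) (XT.lf (nat_lit 0) (nat_lit 435408255398) (nat_lit 152) (nat_lit 1276946100297) (nat_lit 0) (nat_lit 416891075218) (nat_lit 1) (nat_lit 5) (nat_lit 3) (nat_lit 4) (nat_lit 1) (nat_lit 4) (nat_lit 356) (nat_lit 304) (nat_lit 240)) (XT.lf (nat_lit 0) (nat_lit 549091642387) (nat_lit 152) (nat_lit 1364870336714) (nat_lit 0) (nat_lit 530574147170) (nat_lit 1) (nat_lit 5) (nat_lit 3) (nat_lit 4) (nat_lit 1) (nat_lit 4) (nat_lit 357) (nat_lit 304) (nat_lit 239))) (XT.nd (nat_lit 78) (nat_lit 0) (nat_lit 0) (XT.lf (nat_lit 0) (nat_lit 679825911080) (nat_lit 152) (nat_lit 1465986503176) (nat_lit 0) (nat_lit 661308141916) (nat_lit 1) (nat_lit 5) (nat_lit 3) (nat_lit 4) (nat_lit 1) (nat_lit 4) (nat_lit 358) (nat_lit 304) (nat_lit 238)) (XT.lf (nat_lit 0) (nat_lit 830168905863) (nat_lit 152) (nat_lit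 1582272959460) (nat_lit 0) (nat_lit 811650898485) (nat_lit 1) (nat_lit 5) (nat_lit 3) (nat_lit 4) (nat_lit 1) (nat_lit 4) (nat_lit 359) (nat_lit 304) (nat_lit 237)))) (XT.nd (nat_lit 156) (nat_lit 0) (nat_lit 0) (XT.nd (nat_lit 78) (nat_lit 0) (nat_lit 0) (XT.lf (nat_lit 0) (nat_lit 1003062120113) (nat_lit 152) (nat_lit 1716004875364) (nat_lit 0) (nat_lit 984543905593) (nat_lit 1) (nat_lit 5) (nat_lit 3) (nat_lit 4) (nat_lit 1) (nat_lit 4) (nat_lit 360) (nat_lit 304) (nat_lit 236)) (XT.lf (nat_lit 0) (nat_lit 1201888247152) (nat_lit 152) (nat_lit 1869798744894) (nat_lit 0) (nat_lit 1183369852508) (nat_lit 1) (nat_lit 5) (nat_lit 3) (nat_lit 4) (nat_lit 1) (nat_lit 4) (nat_lit 361) (nat_lit 304) (nat_lit 235))) (XT.nd (nat_lit 78) (nat_lit 0) (nat_lit 0) (XT.lf (nat_lit 0) (nat_lit 1430537363379) (nat_lit 152) (nat_lit 2046663578541) (nat_lit 0) (nat_lit 1412018812105) (nat_lit 1) (nat_lit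 5) (nat_lit 3) (nat_lit 4) (nat_lit 1) (nat_lit 4) (nat_lit 362) (nat_lit 304) (nat_lit 234)) (XT.lf (nat_lit 0) (nat_lit 1693483038459) (nat_lit 152) (nat_lit 2250059775224) (nat_lit 0) (nat_lit 1674964350985) (nat_lit 1) (nat_lit 5) (nat_lit 3) (nat_lit 4) (nat_lit 1) (nat_lit 4) (nat_lit 363) (nat_lit 304) (nat_lit 233))))))))
noncomputable def xc29 : XT := (XT.nd (nat_lit 43914) (nat_lit 0) (nat_lit 0) (XT.nd (nat_lit 42744) (nat_lit 0) (nat_lit 1368) (XT.nd (nat_lit 546) (nat_lit 0) (nat_lit 0) (XT.nd (nat_lit 234) (nat_lit 0) (nat_lit 0) (XT.nd (nat_lit 78) (nat_lit 0) (nat_lit 0) (XT.lf (nat_lit 0) (nat_lit 1995869861687) (nat_lit 152) (nat_lit 2483966825749) (nat_lit 0) (nat_lit 1977351055778) (nat_lit 1) (nat_lit 5) (nat_lit 3) (nat_lit 4) (nat_lit 1) (nat_lit 4) (nat_lit 364) (nat_lit 304) (nat_lit 232)) (XT.nd (nat_lit 78) (nat_lit 0) (nat_lit 0) (XT.lf (nat_lit 0) (nat_lit 2343614096995)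 (nat_lit 152) (nat_lit 2752961172407) (nat_lit 0) (nat_lit 2325095188100) (nat_lit 1) (nat_lit 5) (nat_lit 3) (nat_lit 4) (nat_lit 1) (nat_lit 4) (nat_lit 365) (nat_lit 304) (nat_lit 231)) (XT.lf (nat_lit 0) (nat_lit 2743519435945) (nat_lit 152) (nat_lit 3062305748068) (nat_lit 0) (nat_lit 2725000437496) (nat_lit 1) (nat_lit 5) (nat_lit 3) (nat_lit 4) (nat_lit 1) (nat_lit 4) (nat_lit 366) (nat_lit 304) (nat_lit 230)))) (XT.nd (nat_lit 156) (nat_lit 0) (nat_lit 0) (XT.nd (nat_lit 78) (nat_lit 0) (nat_lit 0) (XT.lf (nat_lit 0) (nat_lit 3203410113428) (nat_lit 152) (nat_lit 3418052946604) (nat_lit 0) (nat_lit 3184891037107) (nat_lit 1) (nat_lit 5) (nat_lit 3) (nat_lit 4) (nat_lit 1) (nat_lit 4) (nat_lit 367) (nat_lit 304) (nat_lit 229)) (XT.lf (nat_lit 0) (nat_lit 3732283990526) (nat_lit 152) (nat_lit 3827163039291) (nat_lit 0) (nat_lit 3713764846490) (nat_lit 1) (nat_lit 5) (nat_lit 3) (nat_lit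 4) (nat_lit 1) (nat_lit 4) (nat_lit 368) (nat_lit 304) (nat_lit 228))) (XT.nd (nat_lit 78) (nat_lit 0) (nat_lit 0) (XT.lf (nat_lit 0) (nat_lit 4340488599617) (nat_lit 152) (nat_lit 4297640354028) (nat_lit 0) (nat_lit 4321969396697) (nat_lit 1) (nat_lit 5) (nat_lit 3) (nat_lit 4) (nat_lit 1) (nat_lit 4) (nat_lit 369) (nat_lit 304) (nat_lit 227)) (XT.lf (nat_lit 0) (nat_lit 5039923596096) (nat_lit 152) (nat_lit 4838689881757) (nat_lit 0) (nat_lit 5021404341974) (nat_lit 1) (nat_lit 5) (nat_lit 3) (nat_lit 4) (nat_lit 1) (nat_lit 4) (nat_lit 370) (nat_lit 304) (nat_lit 226))))) (XT.nd (nat_lit 41886) (nat_lit 0) (nat_lit 3952) (XT.nd (nat_lit 41730) (nat_lit 0) (nat_lit 4636) (XT.lf (nat_lit 0) (nat_lit 5844273577720) (nat_lit 152) (nat_lit 5460897374107) (nat_lit 0) (nat_lit 5825754279074) (nat_lit 1) (nat_lit 5) (nat_lit 3) (nat_lit 4) (nat_lit 1) (nat_lit 4) (nat_lit 371) (nat_lit 304)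 (nat_lit 225)) (XT.nd (nat_lit 78) (nat_lit 456) (nat_lit 0) (XT.lf (nat_lit 0) (nat_lit 1930688073) (nat_lit 0) (nat_lit 1930688073) (nat_lit 380) (nat_lit 554404675) (nat_lit 68) (nat_lit 5) (nat_lit 68) (nat_lit 3) (nat_lit 73) (nat_lit 3) (nat_lit 305) (nat_lit 305) (nat_lit 290)) (XT.lf (nat_lit 0) (nat_lit 646963212) (nat_lit 456) (nat_lit 6242645764) (nat_lit 532) (nat_lit 2462264784) (nat_lit 62) (nat_lit 5) (nat_lit 68) (nat_lit 5) (nat_lit 69) (nat_lit 5) (nat_lit 306) (nat_lit 305) (nat_lit 289)))) (XT.nd (nat_lit 156) (nat_lit 684) (nat_lit 0) (XT.nd (nat_lit 78) (nat_lit 0) (nat_lit 76) (XT.lf (nat_lit 76) (nat_lit 2556119486) (nat_lit 0) (nat_lit 69940958) (nat_lit 532) (nat_lit 7320176012) (nat_lit 63) (nat_lit 5) (nat_lit 62) (nat_lit 5) (nat_lit 69) (nat_lit 5) (nat_lit 307) (nat_lit 305) (nat_lit 288)) (XT.lf (nat_lit 76) (nat_lit 2153560945) (nat_lit 0) (nat_lit 2916601057)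 (nat_lit 532) (nat_lit 5546450633) (nat_lit 64) (nat_lit 5) (nat_lit 63) (nat_lit 5) (nat_lit 70) (nat_lit 5) (nat_lit 308) (nat_lit 305) (nat_lit 287))) (XT.nd (nat_lit 78) (nat_lit 380) (nat_lit 0) (XT.lf (nat_lit 0) (nat_lit 1968157308) (nat_lit 456) (nat_lit 6081951134) (nat_lit 532) (nat_lit 3324168218) (nat_lit 58) (nat_lit 5) (nat_lit 64) (nat_lit 5) (nat_lit 65) (nat_lit 5) (nat_lit 309) (nat_lit 305) (nat_lit 286)) (XT.lf (nat_lit 0) (nat_lit 2007914220) (nat_lit 380) (nat_lit 9703383602) (nat_lit 456) (nat_lit 515786989) (nat_lit 53) (nat_lit 5) (nat_lit 58) (nat_lit 5) (nat_lit 59) (nat_lit 5) (nat_lit 310) (nat_lit 305) (nat_lit 285)))))) (XT.nd (nat_lit 546) (nat_lit 1064) (nat_lit 0) (XT.nd (nat_lit 234) (nat_lit 836) (nat_lit 0) (XT.nd (nat_lit 78) (nat_lit 380) (nat_lit 0) (XT.lf (nat_lit 0) (nat_lit 2191731481) (nat_lit 228) (nat_lit 703862947) (nat_lit 304) (nat_lit 10281787123)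 (nat_lit 49) (nat_lit 5) (nat_lit 52) (nat_lit 5) (nat_lit 53) (nat_lit 5) (nat_lit 311) (nat_lit 305) (nat_lit 284)) (XT.nd (nat_lit 78) (nat_lit 152) (nat_lit 0) (XT.lf (nat_lit 0) (nat_lit 2517078759) (nat_lit 228) (nat_lit 4704729382) (nat_lit 304) (nat_lit 7012813913) (nat_lit 46) (nat_lit 5) (nat_lit 49) (nat_lit 5) (nat_lit 50) (nat_lit 5) (nat_lit 312) (nat_lit 305) (nat_lit 283)) (XT.lf (nat_lit 0) (nat_lit 3086391572) (nat_lit 152) (nat_lit 9523279984) (nat_lit 228) (nat_lit 2807902492) (nat_lit 44) (nat_lit 5) (nat_lit 46) (nat_lit 5) (nat_lit 47) (nat_lit 5) (nat_lit 313) (nat_lit 305) (nat_lit 282)))) (XT.nd (nat_lit 156) (nat_lit 380) (nat_lit 0) (XT.nd (nat_lit 78) (nat_lit 152) (nat_lit 0) (XT.lf (nat_lit 0) (nat_lit 2400467424) (nat_lit 304) (nat_lit 12877165870) (nat_lit 76) (nat_lit 1458616531) (nat_lit 40) (nat_lit 5) (nat_lit 44) (nat_lit 5) (nat_lit 41) (nat_lit 5)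 (nat_lit 314) (nat_lit 305) (nat_lit 281)) (XT.lf (nat_lit 0) (nat_lit 4714045737) (nat_lit 152) (nat_lit 4135882033) (nat_lit 228) (nat_lit 9346977065) (nat_lit 38) (nat_lit 5) (nat_lit 40) (nat_lit 5) (nat_lit 41) (nat_lit 5) (nat_lit 315) (nat_lit 305) (nat_lit 280))) (XT.nd (nat_lit 78) (nat_lit 228) (nat_lit 0) (XT.lf (nat_lit 0) (nat_lit 5782573540) (nat_lit 152) (nat_lit 11104145865) (nat_lit 228) (nat_lit 2940432669) (nat_lit 36) (nat_lit 5) (nat_lit 38) (nat_lit 5) (nat_lit 39) (nat_lit 5) (nat_lit 316) (nat_lit 305) (nat_lit 279)) (XT.lf (nat_lit 0) (nat_lit 4842467895) (nat_lit 228) (nat_lit 14652854099) (nat_lit 76) (nat_lit 2147219828) (nat_lit 33) (nat_lit 5) (nat_lit 36) (nat_lit 5) (nat_lit 34) (nat_lit 5) (nat_lit 317) (nat_lit 305) (nat_lit 278))))) (XT.nd (nat_lit 312) (nat_lit 532) (nat_lit 0) (XT.nd (nat_lit 156) (nat_lit 228) (nat_lit 0) (XT.nd (nat_lit 78) (nat_lit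 152) (nat_lit 0) (XT.lf (nat_lit 0) (nat_lit 8192826808) (nat_lit 152) (nat_lit 6259262687) (nat_lit 228) (nat_lit 9205430037) (nat_lit 31) (nat_lit 5) (nat_lit 33) (nat_lit 5) (nat_lit 34) (nat_lit 5) (nat_lit 318) (nat_lit 305) (nat_lit 277)) (XT.lf (nat_lit 0) (nat_lit 367405529) (nat_lit 152) (nat_lit 16401927160) (nat_lit 76) (nat_lit 9141135225) (nat_lit 29) (nat_lit 5) (nat_lit 31) (nat_lit 5) (nat_lit 30) (nat_lit 5) (nat_lit 319) (nat_lit 305) (nat_lit 276))) (XT.nd (nat_lit 78) (nat_lit 76) (nat_lit 0) (XT.lf (nat_lit 0) (nat_lit 10657392740) (nat_lit 152) (nat_lit 999374456) (nat_lit 228) (nat_lit 16759452618) (nat_lit 27) (nat_lit 5) (nat_lit 29) (nat_lit 5) (nat_lit 30) (nat_lit 5) (nat_lit 320) (nat_lit 305) (nat_lit 275)) (XT.lf (nat_lit 0) (nat_lit 11533129966) (nat_lit 76) (nat_lit 14211040250) (nat_lit 152) (nat_lit 5465330380) (nat_lit 26) (nat_lit 5) (nat_lit 27) (nat_lit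 5) (nat_lit 28) (nat_lit 4) (nat_lit 321) (nat_lit 305) (nat_lit 274)))) (XT.nd (nat_lit 156) (nat_lit 228) (nat_lit 0) (XT.nd (nat_lit 78) (nat_lit 76) (nat_lit 0) (XT.lf (nat_lit 0) (nat_lit 8030213205) (nat_lit 228) (nat_lit 22267224709) (nat_lit 76) (nat_lit 4039200975) (nat_lit 23) (nat_lit 5) (nat_lit 26) (nat_lit 5) (nat_lit 24) (nat_lit 4) (nat_lit 322) (nat_lit 305) (nat_lit 273)) (XT.lf (nat_lit 0) (nat_lit 11797685261) (nat_lit 76) (nat_lit 12638119006) (nat_lit 152) (nat_lit 13388967118) (nat_lit 22) (nat_lit 5) (nat_lit 23) (nat_lit 5) (nat_lit 24) (nat_lit 4) (nat_lit 323) (nat_lit 305) (nat_lit 272))) (XT.nd (nat_lit 78) (nat_lit 76) (nat_lit 0) (XT.lf (nat_lit 0) (nat_lit 2468830889) (nat_lit 152) (nat_lit 31049876194) (nat_lit 76) (nat_lit 8228531855) (nat_lit 20) (nat_lit 5) (nat_lit 22) (nat_lit 5) (nat_lit 21) (nat_lit 4) (nat_lit 324) (nat_lit 305) (nat_lit 271)) (XT.lf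 (nat_lit 0) (nat_lit 7860241101) (nat_lit 76) (nat_lit 13335142054) (nat_lit 152) (nat_lit 24932261539) (nat_lit 19) (nat_lit 5) (nat_lit 20) (nat_lit 5) (nat_lit 21) (nat_lit 4) (nat_lit 325) (nat_lit 305) (nat_lit 270))))))) (XT.nd (nat_lit 1092) (nat_lit 380) (nat_lit 0) (XT.nd (nat_lit 546) (nat_lit 380) (nat_lit 0) (XT.nd (nat_lit 234) (nat_lit 380) (nat_lit 0) (XT.nd (nat_lit 78) (nat_lit 152) (nat_lit 0) (XT.lf (nat_lit 0) (nat_lit 3196340680) (nat_lit 76) (nat_lit 40724706986) (nat_lit 76) (nat_lit 7148869094) (nat_lit 18) (nat_lit 4) (nat_lit 19) (nat_lit 5) (nat_lit 19) (nat_lit 4) (nat_lit 326) (nat_lit 305) (nat_lit 269)) (XT.nd (nat_lit 78) (nat_lit 76) (nat_lit 0) (XT.lf (nat_lit 0) (nat_lit 14100132635) (nat_lit 152) (nat_lit 4276345473) (nat_lit 76) (nat_lit 38234389358) (nat_lit 17) (nat_lit 5) (nat_lit 19) (nat_lit 5) (nat_lit 18) (nat_lit 4) (nat_lit 327) (nat_lit 305)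 (nat_lit 268)) (XT.lf (nat_lit 0) (nat_lit 39447549223) (nat_lit 152) (nat_lit 15104835239) (nat_lit 0) (nat_lit 8308983990) (nat_lit 16) (nat_lit 5) (nat_lit 18) (nat_lit 4) (nat_lit 16) (nat_lit 4) (nat_lit 328) (nat_lit 305) (nat_lit 267)))) (XT.nd (nat_lit 156) (nat_lit 152) (nat_lit 0) (XT.nd (nat_lit 78) (nat_lit 76) (nat_lit 0) (XT.lf (nat_lit 0) (nat_lit 199578728) (nat_lit 152) (nat_lit 30743593731) (nat_lit 76) (nat_lit 38982732047) (nat_lit 14) (nat_lit 5) (nat_lit 16) (nat_lit 5) (nat_lit 15) (nat_lit 4) (nat_lit 329) (nat_lit 305) (nat_lit 266)) (XT.lf (nat_lit 0) (nat_lit 25035162442) (nat_lit 76) (nat_lit 1989550839) (nat_lit 152) (nat_lit 50892276436) (nat_lit 13) (nat_lit 5) (nat_lit 14) (nat_lit 5) (nat_lit 15) (nat_lit 4) (nat_lit 330) (nat_lit 305) (nat_lit 265))) (XT.nd (nat_lit 78) (nat_lit 76) (nat_lit 0) (XT.lf (nat_lit 0) (nat_lit 3331340150) (nat_lit 76) (nat_lit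 56259512388) (nat_lit 76) (nat_lit 27378513145) (nat_lit 12) (nat_lit 4) (nat_lit 13) (nat_lit 5) (nat_lit 13) (nat_lit 4) (nat_lit 331) (nat_lit 305) (nat_lit 264)) (XT.lf (nat_lit 0) (nat_lit 1281858778) (nat_lit 152) (nat_lit 26227001902) (nat_lit 76) (nat_lit 69743180353) (nat_lit 11) (nat_lit 5) (nat_lit 13) (nat_lit 5) (nat_lit 12) (nat_lit 4) (nat_lit 332) (nat_lit 305) (nat_lit 263))))) (XT.nd (nat_lit 234) (nat_lit 228) (nat_lit 0) (XT.nd (nat_lit 78) (nat_lit 76) (nat_lit 0) (XT.lf (nat_lit 0) (nat_lit 33803658083) (nat_lit 152) (nat_lit 68081141444) (nat_lit 0) (nat_lit 7040753649) (nat_lit 10) (nat_lit 5) (nat_lit 12) (nat_lit 4) (nat_lit 10) (nat_lit 4) (nat_lit 333) (nat_lit 305) (nat_lit 262)) (XT.nd (nat_lit 78) (nat_lit 76) (nat_lit 0) (XT.lf (nat_lit 0) (nat_lit 72722007210) (nat_lit 152) (nat_lit 3556113737) (nat_lit 0) (nat_lit 45950512900) (nat_lit 10) (nat_lit 5) (nat_lit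 12) (nat_lit 4) (nat_lit 10) (nat_lit 4) (nat_lit 334) (nat_lit 305) (nat_lit 261)) (XT.lf (nat_lit 0) (nat_lit 74320971827) (nat_lit 76) (nat_lit 44921991862) (nat_lit 76) (nat_lit 18143028095) (nat_lit 9) (nat_lit 4) (nat_lit 10) (nat_lit 5) (nat_lit 10) (nat_lit 4) (nat_lit 335) (nat_lit 305) (nat_lit 260)))) (XT.nd (nat_lit 156) (nat_lit 76) (nat_lit 0) (XT.nd (nat_lit 78) (nat_lit 0) (nat_lit 0) (XT.lf (nat_lit 0) (nat_lit 9274581494) (nat_lit 76) (nat_lit 8061976410) (nat_lit 152) (nat_lit 137421259688) (nat_lit 7) (nat_lit 5) (nat_lit 8) (nat_lit 5) (nat_lit 9) (nat_lit 4) (nat_lit 336) (nat_lit 305) (nat_lit 259)) (XT.lf (nat_lit 0) (nat_lit 59783919177) (nat_lit 152) (nat_lit 79718853539) (nat_lit 0) (nat_lit 34977338686) (nat_lit 7) (nat_lit 5) (nat_lit 9) (nat_lit 4) (nat_lit 7) (nat_lit 4) (nat_lit 337) (nat_lit 305) (nat_lit 258))) (XT.nd (nat_lit 78) (nat_lit 76) (nat_lit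 0) (XT.lf (nat_lit 0) (nat_lit 108804173561) (nat_lit 152) (nat_lit 4347069199) (nat_lit 0) (nat_lit 83993045580) (nat_lit 7) (nat_lit 5) (nat_lit 9) (nat_lit 4) (nat_lit 7) (nat_lit 4) (nat_lit 338) (nat_lit 305) (nat_lit 257)) (XT.lf (nat_lit 0) (nat_lit 86634480584) (nat_lit 76) (nat_lit 80611603020) (nat_lit 76) (nat_lit 55796520700) (nat_lit 6) (nat_lit 4) (nat_lit 7) (nat_lit 5) (nat_lit 7) (nat_lit 4) (nat_lit 339) (nat_lit 305) (nat_lit 256)))))) (XT.nd (nat_lit 546) (nat_lit 152) (nat_lit 0) (XT.nd (nat_lit 234) (nat_lit 76) (nat_lit 0) (XT.nd (nat_lit 78) (nat_lit 152) (nat_lit 0) (XT.lf (nat_lit 0) (nat_lit 191499221593) (nat_lit 76) (nat_lit 43067967920) (nat_lit 76) (nat_lit 18249447044) (nat_lit 6) (nat_lit 4) (nat_lit 7) (nat_lit 5) (nat_lit 7) (nat_lit 4) (nat_lit 340) (nat_lit 305) (nat_lit 255)) (XT.nd (nat_lit 78) (nat_lit 0) (nat_lit 0) (XT.lf (nat_lit 0) (nat_lit 24322385098)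 (nat_lit 152) (nat_lit 261295737981) (nat_lit 0) (nat_lit 1339504613) (nat_lit 4) (nat_lit 5) (nat_lit 6) (nat_lit 4) (nat_lit 4) (nat_lit 4) (nat_lit 341) (nat_lit 305) (nat_lit 254)) (XT.lf (nat_lit 0) (nat_lit 75241460113) (nat_lit 152) (nat_lit 198440852306) (nat_lit 0) (nat_lit 52256172181) (nat_lit 4) (nat_lit 5) (nat_lit 6) (nat_lit 4) (nat_lit 4) (nat_lit 4) (nat_lit 342) (nat_lit 305) (nat_lit 253)))) (XT.nd (nat_lit 156) (nat_lit 76) (nat_lit 0) (XT.nd (nat_lit 78) (nat_lit 0) (nat_lit 0) (XT.lf (nat_lit 0) (nat_lit 133788486230) (nat_lit 152) (nat_lit 126177672759) (nat_lit 0) (nat_lit 110801104865) (nat_lit 4) (nat_lit 5) (nat_lit 6) (nat_lit 4) (nat_lit 4) (nat_lit 4) (nat_lit 343) (nat_lit 305) (nat_lit 252)) (XT.lf (nat_lit 0) (nat_lit 201108948742) (nat_lit 152) (nat_lit 43092354525) (nat_lit 0) (nat_lit 178119747002) (nat_lit 4) (nat_lit 5) (nat_lit 6) (nat_lit 4) (nat_lit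 4) (nat_lit 4) (nat_lit 344) (nat_lit 305) (nat_lit 251))) (XT.nd (nat_lit 78) (nat_lit 0) (nat_lit 0) (XT.lf (nat_lit 0) (nat_lit 55202118235) (nat_lit 76) (nat_lit 224645481169) (nat_lit 76) (nat_lit 201654696494) (nat_lit 3) (nat_lit 4) (nat_lit 4) (nat_lit 5) (nat_lit 4) (nat_lit 4) (nat_lit 345) (nat_lit 305) (nat_lit 250)) (XT.lf (nat_lit 0) (nat_lit 170836503423) (nat_lit 76) (nat_lit 200808283791) (nat_lit 76) (nat_lit 177816122651) (nat_lit 3) (nat_lit 4) (nat_lit 4) (nat_lit 5) (nat_lit 4) (nat_lit 4) (nat_lit 346) (nat_lit 305) (nat_lit 249))))) (XT.nd (nat_lit 312) (nat_lit 152) (nat_lit 0) (XT.nd (nat_lit 156) (nat_lit 0) (nat_lit 0) (XT.nd (nat_lit 78) (nat_lit 0) (nat_lit 0) (XT.lf (nat_lit 0) (nat_lit 303804045899) (nat_lit 76) (nat_lit 173401552524) (nat_lit 76) (nat_lit 150408194457) (nat_lit 3) (nat_lit 4) (nat_lit 4) (nat_lit 5) (nat_lit 4) (nat_lit 4) (nat_lit 347)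 (nat_lit 305) (nat_lit 248)) (XT.lf (nat_lit 0) (nat_lit 456706284539) (nat_lit 76) (nat_lit 141889068712) (nat_lit 76) (nat_lit 118894669839) (nat_lit 3) (nat_lit 4) (nat_lit 4) (nat_lit 5) (nat_lit 4) (nat_lit 4) (nat_lit 348) (nat_lit 305) (nat_lit 247))) (XT.nd (nat_lit 78) (nat_lit 0) (nat_lit 0) (XT.lf (nat_lit 0) (nat_lit 632534784880) (nat_lit 76) (nat_lit 105654283758) (nat_lit 76) (nat_lit 82658979838) (nat_lit 3) (nat_lit 4) (nat_lit 4) (nat_lit 5) (nat_lit 4) (nat_lit 4) (nat_lit 349) (nat_lit 305) (nat_lit 246)) (XT.lf (nat_lit 0) (nat_lit 834729669756) (nat_lit 76) (nat_lit 63988256219) (nat_lit 76) (nat_lit 40992165300) (nat_lit 3) (nat_lit 4) (nat_lit 4) (nat_lit 5) (nat_lit 4) (nat_lit 4) (nat_lit 350) (nat_lit 305) (nat_lit 245)))) (XT.nd (nat_lit 156) (nat_lit 0) (nat_lit 0) (XT.nd (nat_lit 78) (nat_lit 76) (nat_lit 0) (XT.lf (nat_lit 0) (nat_lit 6574777905) (nat_lit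 152) (nat_lit 9321237222) (nat_lit 76) (nat_lit 1060492382059) (nat_lit 2) (nat_lit 5) (nat_lit 4) (nat_lit 5) (nat_lit 3) (nat_lit 4) (nat_lit 351) (nat_lit 305) (nat_lit 244)) (XT.lf (nat_lit 0) (nat_lit 62478363326) (nat_lit 152) (nat_lit 1129530101956) (nat_lit 0) (nat_lit 41184501891) (nat_lit 1) (nat_lit 5) (nat_lit 3) (nat_lit 4) (nat_lit 1) (nat_lit 4) (nat_lit 352) (nat_lit 305) (nat_lit 243))) (XT.nd (nat_lit 78) (nat_lit 0) (nat_lit 0) (XT.lf (nat_lit 0) (nat_lit 127482713116) (nat_lit 152) (nat_lit 1179789919098) (nat_lit 0) (nat_lit 106188372548) (nat_lit 1) (nat_lit 5) (nat_lit 3) (nat_lit 4) (nat_lit 1) (nat_lit 4) (nat_lit 353) (nat_lit 305) (nat_lit 242)) (XT.lf (nat_lit 0) (nat_lit 202235241907) (nat_lit 152) (nat_lit 1237593719458) (nat_lit 0) (nat_lit 180940484701) (nat_lit 1) (nat_lit 5) (nat_lit 3) (nat_lit 4) (nat_lit 1) (nat_lit 4) (nat_lit 354) (nat_lit 305) (nat_lit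 241))))))))
noncomputable def xc30 : XT := (XT.nd (nat_lit 43992) (nat_lit 0) (nat_lit 152) (XT.nd (nat_lit 1092) (nat_lit 0) (nat_lit 0) (XT.nd (nat_lit 546) (nat_lit 0) (nat_lit 0) (XT.nd (nat_lit 234) (nat_lit 0) (nat_lit 0) (XT.nd (nat_lit 78) (nat_lit 0) (nat_lit 0) (XT.lf (nat_lit 0) (nat_lit 288198499175) (nat_lit 152) (nat_lit 1304072446956) (nat_lit 0) (nat_lit 266903379675) (nat_lit 1) (nat_lit 5) (nat_lit 3) (nat_lit 4) (nat_lit 1) (nat_lit 4) (nat_lit 355) (nat_lit 305) (nat_lit 240)) (XT.nd (nat_lit 78) (nat_lit 0) (nat_lit 0) (XT.lf (nat_lit 0) (nat_lit 387054374736) (nat_lit 152) (nat_lit 1380526772347) (nat_lit 0) (nat_lit 365758940198) (nat_lit 1) (nat_lit 5) (nat_lit 3) (nat_lit 4) (nat_lit 1) (nat_lit 4) (nat_lit 356) (nat_lit 305) (nat_lit 239)) (XT.lf (nat_lit 0) (nat_lit 500737005286) (nat_lit 152) (nat_lit 1468452541128) (nat_lit 0) (nat_lit 479441296801) (nat_lit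 1) (nat_lit 5) (nat_lit 3) (nat_lit 4) (nat_lit 1) (nat_lit 4) (nat_lit 357) (nat_lit 305) (nat_lit 238)))) (XT.nd (nat_lit 156) (nat_lit 0) (nat_lit 0) (XT.nd (nat_lit 78) (nat_lit 0) (nat_lit 0) (XT.lf (nat_lit 0) (nat_lit 631470616205) (nat_lit 152) (nat_lit 1569570040080) (nat_lit 0) (nat_lit 610174669506) (nat_lit 1) (nat_lit 5) (nat_lit 3) (nat_lit 4) (nat_lit 1) (nat_lit 4) (nat_lit 358) (nat_lit 305) (nat_lit 237)) (XT.lf (nat_lit 0) (nat_lit 781813039011) (nat_lit 152) (nat_lit 1685857655051) (nat_lit 0) (nat_lit 760516885170) (nat_lit 1) (nat_lit 5) (nat_lit 3) (nat_lit 4) (nat_lit 1) (nat_lit 4) (nat_lit 359) (nat_lit 305) (nat_lit 236))) (XT.nd (nat_lit 78) (nat_lit 0) (nat_lit 0) (XT.lf (nat_lit 0) (nat_lit 954705755890) (nat_lit 152) (nat_lit 1819590578508) (nat_lit 0) (nat_lit 933409421925) (nat_lit 1) (nat_lit 5) (nat_lit 3) (nat_lit 4) (nat_lit 1) (nat_lit 4) (nat_lit 360)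 (nat_lit 305) (nat_lit 235)) (XT.lf (nat_lit 0) (nat_lit 1153531450432) (nat_lit 152) (nat_lit 1973385324172) (nat_lit 0) (nat_lit 1132234959837) (nat_lit 1) (nat_lit 5) (nat_lit 3) (nat_lit 4) (nat_lit 1) (nat_lit 4) (nat_lit 361) (nat_lit 305) (nat_lit 234))))) (XT.nd (nat_lit 234) (nat_lit 0) (nat_lit 0) (XT.nd (nat_lit 78) (nat_lit 0) (nat_lit 0) (XT.lf (nat_lit 0) (nat_lit 1382180190575) (nat_lit 152) (nat_lit 2150250919675) (nat_lit 0) (nat_lit 1360883563780) (nat_lit 1) (nat_lit 5) (nat_lit 3) (nat_lit 4) (nat_lit 1) (nat_lit 4) (nat_lit 362) (nat_lit 305) (nat_lit 233)) (XT.nd (nat_lit 78) (nat_lit 0) (nat_lit 0) (XT.lf (nat_lit 0) (nat_lit 1645125538625) (nat_lit 152) (nat_lit 2353647778841) (nat_lit 0) (nat_lit 1623828793396) (nat_lit 1) (nat_lit 5) (nat_lit 3) (nat_lit 4) (nat_lit 1) (nat_lit 4) (nat_lit 363) (nat_lit 305) (nat_lit 232)) (XT.lf (nat_lit 0) (nat_lit 1947512077479)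 (nat_lit 152) (nat_lit 2587555405438) (nat_lit 0) (nat_lit 1926215229263) (nat_lit 1) (nat_lit 5) (nat_lit 3) (nat_lit 4) (nat_lit 1) (nat_lit 4) (nat_lit 364) (nat_lit 305) (nat_lit 231)))) (XT.nd (nat_lit 156) (nat_lit 0) (nat_lit 0) (XT.nd (nat_lit 78) (nat_lit 0) (nat_lit 0) (XT.lf (nat_lit 0) (nat_lit 2295256065506) (nat_lit 152) (nat_lit 2856550253028) (nat_lit 0) (nat_lit 2273959127737) (nat_lit 1) (nat_lit 5) (nat_lit 3) (nat_lit 4) (nat_lit 1) (nat_lit 4) (nat_lit 365) (nat_lit 305) (nat_lit 230)) (XT.lf (nat_lit 0) (nat_lit 2695161189428) (nat_lit 152) (nat_lit 3165895264282) (nat_lit 0) (nat_lit 2673864173786) (nat_lit 1) (nat_lit 5) (nat_lit 3) (nat_lit 4) (nat_lit 1) (nat_lit 4) (nat_lit 366) (nat_lit 305) (nat_lit 229))) (XT.nd (nat_lit 78) (nat_lit 0) (nat_lit 0) (XT.lf (nat_lit 0) (nat_lit 3155051679931) (nat_lit 152) (nat_lit 3521642841595) (nat_lit 0) (nat_lit 3133754596574)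 (nat_lit 1) (nat_lit 5) (nat_lit 3) (nat_lit 4) (nat_lit 1) (nat_lit 4) (nat_lit 367) (nat_lit 305) (nat_lit 228)) (XT.lf (nat_lit 0) (nat_lit 3683925394437) (nat_lit 152) (nat_lit 3930753263653) (nat_lit 0) (nat_lit 3662628252197) (nat_lit 1) (nat_lit 5) (nat_lit 3) (nat_lit 4) (nat_lit 1) (nat_lit 4) (nat_lit 368) (nat_lit 305) (nat_lit 227)))))) (XT.nd (nat_lit 42276) (nat_lit 0) (nat_lit 2660) (XT.nd (nat_lit 41964) (nat_lit 0) (nat_lit 4560) (XT.nd (nat_lit 78) (nat_lit 0) (nat_lit 0) (XT.lf (nat_lit 0) (nat_lit 4292129862144) (nat_lit 152) (nat_lit 4401230864800) (nat_lit 0) (nat_lit 4270832668702) (nat_lit 1) (nat_lit 5) (nat_lit 3) (nat_lit 4) (nat_lit 1) (nat_lit 4) (nat_lit 369) (nat_lit 305) (nat_lit 226)) (XT.nd (nat_lit 78) (nat_lit 0) (nat_lit 0) (XT.lf (nat_lit 0) (nat_lit 4991564735680) (nat_lit 152) (nat_lit 4942280641581) (nat_lit 0) (nat_lit 4970267497714) (nat_lit 1)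 (nat_lit 5) (nat_lit 3) (nat_lit 4) (nat_lit 1) (nat_lit 4) (nat_lit 370) (nat_lit 305) (nat_lit 225)) (XT.lf (nat_lit 0) (nat_lit 5795914610398) (nat_lit 152) (nat_lit 5564488350498) (nat_lit 0) (nat_lit 5774617333715) (nat_lit 1) (nat_lit 5) (nat_lit 3) (nat_lit 4) (nat_lit 1) (nat_lit 4) (nat_lit 371) (nat_lit 305) (nat_lit 224)))) (XT.nd (nat_lit 156) (nat_lit 0) (nat_lit 76) (XT.nd (nat_lit 78) (nat_lit 0) (nat_lit 76) (XT.lf (nat_lit 0) (nat_lit 966969705) (nat_lit 532) (nat_lit 1992336350) (nat_lit 532) (nat_lit 1992336350) (nat_lit 61) (nat_lit 3) (nat_lit 68) (nat_lit 3) (nat_lit 68) (nat_lit 5) (nat_lit 306) (nat_lit 306) (nat_lit 288)) (XT.lf (nat_lit 0) (nat_lit 3487223701) (nat_lit 456) (nat_lit 5368214301) (nat_lit 532) (nat_lit 1676418850) (nat_lit 62) (nat_lit 5) (nat_lit 68) (nat_lit 5) (nat_lit 69) (nat_lit 5) (nat_lit 307) (nat_lit 306) (nat_lit 287))) (XT.nd (nat_lit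 78) (nat_lit 0) (nat_lit 76) (XT.lf (nat_lit 76) (nat_lit 4597088138) (nat_lit 0) (nat_lit 848150731) (nat_lit 532) (nat_lit 5796006556) (nat_lit 63) (nat_lit 5) (nat_lit 62) (nat_lit 5) (nat_lit 69) (nat_lit 5) (nat_lit 308) (nat_lit 306) (nat_lit 286)) (XT.lf (nat_lit 76) (nat_lit 4191000849) (nat_lit 0) (nat_lit 3773791482) (nat_lit 532) (nat_lit 4071057675) (nat_lit 64) (nat_lit 5) (nat_lit 63) (nat_lit 5) (nat_lit 70) (nat_lit 5) (nat_lit 309) (nat_lit 306) (nat_lit 285))))) (XT.nd (nat_lit 312) (nat_lit 760) (nat_lit 0) (XT.nd (nat_lit 156) (nat_lit 456) (nat_lit 0) (XT.nd (nat_lit 78) (nat_lit 456) (nat_lit 0) (XT.lf (nat_lit 0) (nat_lit 4000499562) (nat_lit 456) (nat_lit 7145870046) (nat_lit 532) (nat_lit 1780752400) (nat_lit 58) (nat_lit 5) (nat_lit 64) (nat_lit 5) (nat_lit 65) (nat_lit 5) (nat_lit 310) (nat_lit 306) (nat_lit 284)) (XT.lf (nat_lit 0) (nat_lit 1162903896) (nat_lit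 456) (nat_lit 9911365188) (nat_lit 76) (nat_lit 2848140161) (nat_lit 52) (nat_lit 5) (nat_lit 58) (nat_lit 5) (nat_lit 53) (nat_lit 5) (nat_lit 311) (nat_lit 306) (nat_lit 283))) (XT.nd (nat_lit 78) (nat_lit 228) (nat_lit 0) (XT.lf (nat_lit 0) (nat_lit 4192309819) (nat_lit 228) (nat_lit 679037066) (nat_lit 304) (nat_lit 10157790952) (nat_lit 49) (nat_lit 5) (nat_lit 52) (nat_lit 5) (nat_lit 53) (nat_lit 5) (nat_lit 312) (nat_lit 306) (nat_lit 282)) (XT.lf (nat_lit 0) (nat_lit 4536360223) (nat_lit 228) (nat_lit 5151289096) (nat_lit 304) (nat_lit 6570223156) (nat_lit 46) (nat_lit 5) (nat_lit 49) (nat_lit 5) (nat_lit 50) (nat_lit 5) (nat_lit 313) (nat_lit 306) (nat_lit 281)))) (XT.nd (nat_lit 156) (nat_lit 304) (nat_lit 0) (XT.nd (nat_lit 78) (nat_lit 304) (nat_lit 0) (XT.lf (nat_lit 0) (nat_lit 5148869044) (nat_lit 152) (nat_lit 10598376069) (nat_lit 228) (nat_lit 1882112355) (nat_lit 44)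 (nat_lit 5) (nat_lit 46) (nat_lit 5) (nat_lit 47) (nat_lit 5) (nat_lit 314) (nat_lit 306) (nat_lit 280)) (XT.lf (nat_lit 0) (nat_lit 3919023635) (nat_lit 304) (nat_lit 13198136960) (nat_lit 76) (nat_lit 2035911535) (nat_lit 40) (nat_lit 5) (nat_lit 44) (nat_lit 5) (nat_lit 41) (nat_lit 5) (nat_lit 315) (nat_lit 306) (nat_lit 279))) (XT.nd (nat_lit 78) (nat_lit 152) (nat_lit 0) (XT.lf (nat_lit 0) (nat_lit 6895426799) (nat_lit 152) (nat_lit 4324825682) (nat_lit 228) (nat_lit 9621947079) (nat_lit 38) (nat_lit 5) (nat_lit 40) (nat_lit 5) (nat_lit 41) (nat_lit 5) (nat_lit 316) (nat_lit 306) (nat_lit 278)) (XT.lf (nat_lit 0) (nat_lit 8067056401) (nat_lit 152) (nat_lit 12302588351) (nat_lit 228) (nat_lit 2354878776) (nat_lit 36) (nat_lit 5) (nat_lit 38) (nat_lit 5) (nat_lit 39) (nat_lit 5) (nat_lit 317) (nat_lit 306) (nat_lit 277))))))) (XT.nd (nat_lit 1092) (nat_lit 760) (nat_lit 0) (XT.nd (nat_lit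 546) (nat_lit 684) (nat_lit 0) (XT.nd (nat_lit 234) (nat_lit 532) (nat_lit 0) (XT.nd (nat_lit 78) (nat_lit 304) (nat_lit 0) (XT.lf (nat_lit 0) (nat_lit 6460402246) (nat_lit 228) (nat_lit 15446193027) (nat_lit 76) (nat_lit 2910432670) (nat_lit 33) (nat_lit 5) (nat_lit 36) (nat_lit 5) (nat_lit 34) (nat_lit 5) (nat_lit 318) (nat_lit 306) (nat_lit 276)) (XT.nd (nat_lit 78) (nat_lit 152) (nat_lit 0) (XT.lf (nat_lit 0) (nat_lit 10707448537) (nat_lit 152) (nat_lit 6718648632) (nat_lit 228) (nat_lit 9715059086) (nat_lit 31) (nat_lit 5) (nat_lit 33) (nat_lit 5) (nat_lit 34) (nat_lit 5) (nat_lit 319) (nat_lit 306) (nat_lit 275)) (XT.lf (nat_lit 0) (nat_lit 1182707777) (nat_lit 152) (nat_lit 17595982924) (nat_lit 76) (nat_lit 10957132999) (nat_lit 29) (nat_lit 5) (nat_lit 31) (nat_lit 5) (nat_lit 30) (nat_lit 5) (nat_lit 320) (nat_lit 306) (nat_lit 274)))) (XT.nd (nat_lit 156) (nat_lit 304) (nat_lit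 0) (XT.nd (nat_lit 78) (nat_lit 76) (nat_lit 0) (XT.lf (nat_lit 0) (nat_lit 13415054619) (nat_lit 152) (nat_lit 679138925) (nat_lit 228) (nat_lit 18528999308) (nat_lit 27) (nat_lit 5) (nat_lit 29) (nat_lit 5) (nat_lit 30) (nat_lit 5) (nat_lit 321) (nat_lit 306) (nat_lit 273)) (XT.lf (nat_lit 0) (nat_lit 14364460051) (nat_lit 76) (nat_lit 15876708826) (nat_lit 152) (nat_lit 5598625190) (nat_lit 26) (nat_lit 5) (nat_lit 27) (nat_lit 5) (nat_lit 28) (nat_lit 4) (nat_lit 322) (nat_lit 306) (nat_lit 272))) (XT.nd (nat_lit 78) (nat_lit 76) (nat_lit 0) (XT.lf (nat_lit 0) (nat_lit 9837618987) (nat_lit 228) (nat_lit 24530638088) (nat_lit 76) (nat_lit 5070404774) (nat_lit 23) (nat_lit 5) (nat_lit 26) (nat_lit 5) (nat_lit 24) (nat_lit 4) (nat_lit 323) (nat_lit 306) (nat_lit 271)) (XT.lf (nat_lit 0) (nat_lit 14552873597) (nat_lit 76) (nat_lit 14096241552) (nat_lit 152) (nat_lit 14805325447) (nat_lit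 22) (nat_lit 5) (nat_lit 23) (nat_lit 5) (nat_lit 24) (nat_lit 4) (nat_lit 324) (nat_lit 306) (nat_lit 270))))) (XT.nd (nat_lit 234) (nat_lit 380) (nat_lit 0) (XT.nd (nat_lit 78) (nat_lit 152) (nat_lit 0) (XT.lf (nat_lit 0) (nat_lit 3360581377) (nat_lit 152) (nat_lit 34746930457) (nat_lit 76) (nat_lit 9859928764) (nat_lit 20) (nat_lit 5) (nat_lit 22) (nat_lit 5) (nat_lit 21) (nat_lit 4) (nat_lit 325) (nat_lit 306) (nat_lit 269)) (XT.nd (nat_lit 78) (nat_lit 76) (nat_lit 0) (XT.lf (nat_lit 0) (nat_lit 9918409056) (nat_lit 76) (nat_lit 14930838500) (nat_lit 152) (nat_lit 28159431365) (nat_lit 19) (nat_lit 5) (nat_lit 20) (nat_lit 5) (nat_lit 21) (nat_lit 4) (nat_lit 326) (nat_lit 306) (nat_lit 268)) (XT.lf (nat_lit 0) (nat_lit 4506489455) (nat_lit 76) (nat_lit 46443812759) (nat_lit 76) (nat_lit 7744685641) (nat_lit 18) (nat_lit 4) (nat_lit 19) (nat_lit 5) (nat_lit 19) (nat_lit 4) (nat_lit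 327) (nat_lit 306) (nat_lit 267)))) (XT.nd (nat_lit 156) (nat_lit 228) (nat_lit 0) (XT.nd (nat_lit 78) (nat_lit 76) (nat_lit 0) (XT.lf (nat_lit 0) (nat_lit 16608784414) (nat_lit 152) (nat_lit 4174619969) (nat_lit 76) (nat_lit 44287499087) (nat_lit 17) (nat_lit 5) (nat_lit 19) (nat_lit 5) (nat_lit 18) (nat_lit 4) (nat_lit 328) (nat_lit 306) (nat_lit 266)) (XT.lf (nat_lit 0) (nat_lit 45731065752) (nat_lit 152) (nat_lit 16669242487) (nat_lit 0) (nat_lit 9860864692) (nat_lit 16) (nat_lit 5) (nat_lit 18) (nat_lit 4) (nat_lit 16) (nat_lit 4) (nat_lit 329) (nat_lit 306) (nat_lit 265))) (XT.nd (nat_lit 78) (nat_lit 76) (nat_lit 0) (XT.lf (nat_lit 0) (nat_lit 572300078) (nat_lit 152) (nat_lit 34695054895) (nat_lit 76) (nat_lit 45119939936) (nat_lit 14) (nat_lit 5) (nat_lit 16) (nat_lit 5) (nat_lit 15) (nat_lit 4) (nat_lit 330) (nat_lit 306) (nat_lit 264)) (XT.lf (nat_lit 0) (nat_lit 29394642397)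 (nat_lit 76) (nat_lit 1996382548) (nat_lit 152) (nat_lit 58188441804) (nat_lit 13) (nat_lit 5) (nat_lit 14) (nat_lit 5) (nat_lit 15) (nat_lit 4) (nat_lit 331) (nat_lit 306) (nat_lit 263)))))) (XT.nd (nat_lit 546) (nat_lit 304) (nat_lit 0) (XT.nd (nat_lit 234) (nat_lit 228) (nat_lit 0) (XT.nd (nat_lit 78) (nat_lit 152) (nat_lit 0) (XT.lf (nat_lit 0) (nat_lit 4400633630) (nat_lit 76) (nat_lit 64420473920) (nat_lit 76) (nat_lit 31170277988) (nat_lit 12) (nat_lit 4) (nat_lit 13) (nat_lit 5) (nat_lit 13) (nat_lit 4) (nat_lit 332) (nat_lit 306) (nat_lit 262)) (XT.nd (nat_lit 78) (nat_lit 76) (nat_lit 0) (XT.lf (nat_lit 0) (nat_lit 1734358419) (nat_lit 152) (nat_lit 29652007487) (nat_lit 76) (nat_lit 80432619473) (nat_lit 11) (nat_lit 5) (nat_lit 13) (nat_lit 5) (nat_lit 12) (nat_lit 4) (nat_lit 333) (nat_lit 306) (nat_lit 261)) (XT.lf (nat_lit 0) (nat_lit 39117186782) (nat_lit 152) (nat_lit 77813813593)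 (nat_lit 0) (nat_lit 8313908992) (nat_lit 10) (nat_lit 5) (nat_lit 12) (nat_lit 4) (nat_lit 10) (nat_lit 4) (nat_lit 334) (nat_lit 306) (nat_lit 260)))) (XT.nd (nat_lit 156) (nat_lit 152) (nat_lit 0) (XT.nd (nat_lit 78) (nat_lit 76) (nat_lit 0) (XT.lf (nat_lit 0) (nat_lit 83841595235) (nat_lit 152) (nat_lit 3672575087) (nat_lit 0) (nat_lit 53031822266) (nat_lit 10) (nat_lit 5) (nat_lit 12) (nat_lit 4) (nat_lit 10) (nat_lit 4) (nat_lit 335) (nat_lit 306) (nat_lit 259)) (XT.lf (nat_lit 0) (nat_lit 85850780087) (nat_lit 76) (nat_lit 51471534924) (nat_lit 76) (nat_lit 20656113972) (nat_lit 9) (nat_lit 4) (nat_lit 10) (nat_lit 5) (nat_lit 10) (nat_lit 4) (nat_lit 336) (nat_lit 306) (nat_lit 258))) (XT.nd (nat_lit 78) (nat_lit 0) (nat_lit 0) (XT.lf (nat_lit 0) (nat_lit 11024691113) (nat_lit 76) (nat_lit 9093108576) (nat_lit 152) (nat_lit 157839206524) (nat_lit 7) (nat_lit 5) (nat_lit 8) (nat_lit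 5) (nat_lit 9) (nat_lit 4) (nat_lit 337) (nat_lit 306) (nat_lit 257)) (XT.lf (nat_lit 0) (nat_lit 68912413971) (nat_lit 152) (nat_lit 91355706302) (nat_lit 0) (nat_lit 40371114963) (nat_lit 7) (nat_lit 5) (nat_lit 9) (nat_lit 4) (nat_lit 7) (nat_lit 4) (nat_lit 338) (nat_lit 306) (nat_lit 256))))) (XT.nd (nat_lit 312) (nat_lit 76) (nat_lit 0) (XT.nd (nat_lit 156) (nat_lit 152) (nat_lit 0) (XT.nd (nat_lit 78) (nat_lit 76) (nat_lit 0) (XT.lf (nat_lit 0) (nat_lit 125264718654) (nat_lit 152) (nat_lit 4720020650) (nat_lit 0) (nat_lit 96719981090) (nat_lit 7) (nat_lit 5) (nat_lit 9) (nat_lit 4) (nat_lit 7) (nat_lit 4) (nat_lit 339) (nat_lit 306) (nat_lit 255)) (XT.lf (nat_lit 0) (nat_lit 99885136420) (nat_lit 76) (nat_lit 92575672863) (nat_lit 76) (nat_lit 64027945250) (nat_lit 6) (nat_lit 4) (nat_lit 7) (nat_lit 5) (nat_lit 7) (nat_lit 4) (nat_lit 340) (nat_lit 306) (nat_lit 254))) (XT.nd (nat_lit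 78) (nat_lit 152) (nat_lit 0) (XT.lf (nat_lit 0) (nat_lit 220446264613) (nat_lit 76) (nat_lit 49417145186) (nat_lit 76) (nat_lit 20866817531) (nat_lit 6) (nat_lit 4) (nat_lit 7) (nat_lit 5) (nat_lit 7) (nat_lit 4) (nat_lit 341) (nat_lit 306) (nat_lit 253)) (XT.lf (nat_lit 0) (nat_lit 28077449831) (nat_lit 152) (nat_lit 300275406869) (nat_lit 0) (nat_lit 1639867830) (nat_lit 4) (nat_lit 5) (nat_lit 6) (nat_lit 4) (nat_lit 4) (nat_lit 4) (nat_lit 342) (nat_lit 306) (nat_lit 252)))) (XT.nd (nat_lit 156) (nat_lit 76) (nat_lit 0) (XT.nd (nat_lit 78) (nat_lit 0) (nat_lit 0) (XT.lf (nat_lit 0) (nat_lit 86620467797) (nat_lit 152) (nat_lit 228020291622) (nat_lit 0) (nat_lit 60181065421) (nat_lit 4) (nat_lit 5) (nat_lit 6) (nat_lit 4) (nat_lit 4) (nat_lit 4) (nat_lit 343) (nat_lit 306) (nat_lit 251)) (XT.lf (nat_lit 0) (nat_lit 153937444962) (nat_lit 152) (nat_lit 144941985822) (nat_lit 0) (nat_lit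 127496459651) (nat_lit 4) (nat_lit 5) (nat_lit 6) (nat_lit 4) (nat_lit 4) (nat_lit 4) (nat_lit 344) (nat_lit 306) (nat_lit 250))) (XT.nd (nat_lit 78) (nat_lit 76) (nat_lit 0) (XT.lf (nat_lit 0) (nat_lit 231345452616) (nat_lit 152) (nat_lit 49415044354) (nat_lit 0) (nat_lit 204903090840) (nat_lit 4) (nat_lit 5) (nat_lit 6) (nat_lit 4) (nat_lit 4) (nat_lit 4) (nat_lit 345) (nat_lit 306) (nat_lit 249)) (XT.lf (nat_lit 0) (nat_lit 63611650545) (nat_lit 76) (nat_lit 258277206438) (nat_lit 76) (nat_lit 231833647735) (nat_lit 3) (nat_lit 4) (nat_lit 4) (nat_lit 5) (nat_lit 4) (nat_lit 4) (nat_lit 346) (nat_lit 306) (nat_lit 248))))))))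
noncomputable def xc31 : XT := (XT.nd (nat_lit 44070) (nat_lit 0) (nat_lit 456) (XT.nd (nat_lit 1092) (nat_lit 0) (nat_lit 0) (XT.nd (nat_lit 546) (nat_lit 0) (nat_lit 0) (XT.nd (nat_lit 234) (nat_lit 152) (nat_lit 0) (XT.nd (nat_lit 78) (nat_lit 0) (nat_lit 0) (XT.lf (nat_lit 0) (nat_lit 196574339436) (nat_lit 76) (nat_lit 230872920355) (nat_lit 76) (nat_lit 204428320846) (nat_lit 3) (nat_lit 4) (nat_lit 4) (nat_lit 5) (nat_lit 4) (nat_lit 4) (nat_lit 347) (nat_lit 306) (nat_lit 247)) (XT.nd (nat_lit 78) (nat_lit 0) (nat_lit 0) (XT.lf (nat_lit 0) (nat_lit 349472357567) (nat_lit 76) (nat_lit 199362562789) (nat_lit 76) (nat_lit 172917058232) (nat_lit 3) (nat_lit 4) (nat_lit 4) (nat_lit 5) (nat_lit 4) (nat_lit 4) (nat_lit 348) (nat_lit 306) (nat_lit 246)) (XT.lf (nat_lit 0) (nat_lit 525297187900) (nat_lit 76) (nat_lit 163129626746) (nat_lit 76) (nat_lit 136683335190) (nat_lit 3) (nat_lit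 4) (nat_lit 4) (nat_lit 5) (nat_lit 4) (nat_lit 4) (nat_lit 349) (nat_lit 306) (nat_lit 245)))) (XT.nd (nat_lit 156) (nat_lit 152) (nat_lit 0) (XT.nd (nat_lit 78) (nat_lit 0) (nat_lit 0) (XT.lf (nat_lit 0) (nat_lit 727488881465) (nat_lit 76) (nat_lit 121465206955) (nat_lit 76) (nat_lit 95018231053) (nat_lit 3) (nat_lit 4) (nat_lit 4) (nat_lit 5) (nat_lit 4) (nat_lit 4) (nat_lit 350) (nat_lit 306) (nat_lit 244)) (XT.lf (nat_lit 0) (nat_lit 960003362700) (nat_lit 76) (nat_lit 73554129984) (nat_lit 76) (nat_lit 47106558998) (nat_lit 3) (nat_lit 4) (nat_lit 4) (nat_lit 5) (nat_lit 4) (nat_lit 4) (nat_lit 351) (nat_lit 306) (nat_lit 243))) (XT.nd (nat_lit 78) (nat_lit 76) (nat_lit 0) (XT.lf (nat_lit 0) (nat_lit 7589436950) (nat_lit 152) (nat_lit 10662059592) (nat_lit 76) (nat_lit 1219592882370) (nat_lit 2) (nat_lit 5) (nat_lit 4) (nat_lit 5) (nat_lit 3) (nat_lit 4) (nat_lit 352) (nat_lit 306)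 (nat_lit 242)) (XT.lf (nat_lit 0) (nat_lit 71876750747) (nat_lit 152) (nat_lit 1298905665405) (nat_lit 0) (nat_lit 47387363322) (nat_lit 1) (nat_lit 5) (nat_lit 3) (nat_lit 4) (nat_lit 1) (nat_lit 4) (nat_lit 353) (nat_lit 306) (nat_lit 241))))) (XT.nd (nat_lit 234) (nat_lit 0) (nat_lit 0) (XT.nd (nat_lit 78) (nat_lit 0) (nat_lit 0) (XT.lf (nat_lit 0) (nat_lit 146628279146) (nat_lit 152) (nat_lit 1356711492316) (nat_lit 0) (nat_lit 122138529427) (nat_lit 1) (nat_lit 5) (nat_lit 3) (nat_lit 4) (nat_lit 1) (nat_lit 4) (nat_lit 354) (nat_lit 306) (nat_lit 240)) (XT.nd (nat_lit 78) (nat_lit 0) (nat_lit 0) (XT.lf (nat_lit 0) (nat_lit 232590666509) (nat_lit 152) (nat_lit 1423191982032) (nat_lit 0) (nat_lit 208100601751) (nat_lit 1) (nat_lit 5) (nat_lit 3) (nat_lit 4) (nat_lit 1) (nat_lit 4) (nat_lit 355) (nat_lit 306) (nat_lit 239)) (XT.lf (nat_lit 0) (nat_lit 331445785630) (nat_lit 152) (nat_lit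 1499647839786) (nat_lit 0) (nat_lit 306955446927) (nat_lit 1) (nat_lit 5) (nat_lit 3) (nat_lit 4) (nat_lit 1) (nat_lit 4) (nat_lit 356) (nat_lit 306) (nat_lit 238)))) (XT.nd (nat_lit 156) (nat_lit 0) (nat_lit 0) (XT.nd (nat_lit 78) (nat_lit 0) (nat_lit 0) (XT.lf (nat_lit 0) (nat_lit 445127758406) (nat_lit 152) (nat_lit 1587574941057) (nat_lit 0) (nat_lit 420637181489) (nat_lit 1) (nat_lit 5) (nat_lit 3) (nat_lit 4) (nat_lit 1) (nat_lit 4) (nat_lit 357) (nat_lit 306) (nat_lit 237)) (XT.lf (nat_lit 0) (nat_lit 575860797348) (nat_lit 152) (nat_lit 1688693598696) (nat_lit 0) (nat_lit 551370013288) (nat_lit 1) (nat_lit 5) (nat_lit 3) (nat_lit 4) (nat_lit 1) (nat_lit 4) (nat_lit 358) (nat_lit 306) (nat_lit 236))) (XT.nd (nat_lit 78) (nat_lit 0) (nat_lit 0) (XT.lf (nat_lit 0) (nat_lit 726202722783) (nat_lit 152) (nat_lit 1804982221221) (nat_lit 0) (nat_lit 701711758599) (nat_lit 1) (nat_lit 5)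 (nat_lit 3) (nat_lit 4) (nat_lit 1) (nat_lit 4) (nat_lit 359) (nat_lit 306) (nat_lit 235)) (XT.lf (nat_lit 0) (nat_lit 899095007165) (nat_lit 152) (nat_lit 1938716020812) (nat_lit 0) (nat_lit 874603886351) (nat_lit 1) (nat_lit 5) (nat_lit 3) (nat_lit 4) (nat_lit 1) (nat_lit 4) (nat_lit 360) (nat_lit 306) (nat_lit 234)))))) (XT.nd (nat_lit 546) (nat_lit 0) (nat_lit 0) (XT.nd (nat_lit 234) (nat_lit 0) (nat_lit 0) (XT.nd (nat_lit 78) (nat_lit 0) (nat_lit 0) (XT.lf (nat_lit 0) (nat_lit 1097920325623) (nat_lit 152) (nat_lit 2092511528331) (nat_lit 0) (nat_lit 1073429068609) (nat_lit 1) (nat_lit 5) (nat_lit 3) (nat_lit 4) (nat_lit 1) (nat_lit 4) (nat_lit 361) (nat_lit 306) (nat_lit 233)) (XT.nd (nat_lit 78) (nat_lit 0) (nat_lit 0) (XT.lf (nat_lit 0) (nat_lit 1326568738736) (nat_lit 152) (nat_lit 2269377786317) (nat_lit 0) (nat_lit 1302077363288) (nat_lit 1) (nat_lit 5) (nat_lit 3) (nat_lit 4)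 (nat_lit 1) (nat_lit 4) (nat_lit 362) (nat_lit 306) (nat_lit 232)) (XT.lf (nat_lit 0) (nat_lit 1589513802412) (nat_lit 152) (nat_lit 2472775221555) (nat_lit 0) (nat_lit 1565022323977) (nat_lit 1) (nat_lit 5) (nat_lit 3) (nat_lit 4) (nat_lit 1) (nat_lit 4) (nat_lit 363) (nat_lit 306) (nat_lit 231)))) (XT.nd (nat_lit 156) (nat_lit 0) (nat_lit 0) (XT.nd (nat_lit 78) (nat_lit 0) (nat_lit 0) (XT.lf (nat_lit 0) (nat_lit 1891900093985) (nat_lit 152) (nat_lit 2706683349084) (nat_lit 0) (nat_lit 1867408525997) (nat_lit 1) (nat_lit 5) (nat_lit 3) (nat_lit 4) (nat_lit 1) (nat_lit 4) (nat_lit 364) (nat_lit 306) (nat_lit 230)) (XT.lf (nat_lit 0) (nat_lit 2239643866984) (nat_lit 152) (nat_lit 2975678632268) (nat_lit 0) (nat_lit 2215152221124) (nat_lit 1) (nat_lit 5) (nat_lit 3) (nat_lit 4) (nat_lit 1) (nat_lit 4) (nat_lit 365) (nat_lit 306) (nat_lit 229))) (XT.nd (nat_lit 78) (nat_lit 0) (nat_lit 0)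 (XT.lf (nat_lit 0) (nat_lit 2639548803926) (nat_lit 152) (nat_lit 3285024022299) (nat_lit 0) (nat_lit 2615057090350) (nat_lit 1) (nat_lit 5) (nat_lit 3) (nat_lit 4) (nat_lit 1) (nat_lit 4) (nat_lit 366) (nat_lit 306) (nat_lit 228)) (XT.lf (nat_lit 0) (nat_lit 3099439131838) (nat_lit 152) (nat_lit 3640771928983) (nat_lit 0) (nat_lit 3074947359379) (nat_lit 1) (nat_lit 5) (nat_lit 3) (nat_lit 4) (nat_lit 1) (nat_lit 4) (nat_lit 367) (nat_lit 306) (nat_lit 227))))) (XT.nd (nat_lit 42120) (nat_lit 0) (nat_lit 4560) (XT.nd (nat_lit 156) (nat_lit 0) (nat_lit 0) (XT.nd (nat_lit 78) (nat_lit 0) (nat_lit 0) (XT.lf (nat_lit 0) (nat_lit 3628312704960) (nat_lit 152) (nat_lit 4049882637451) (nat_lit 0) (nat_lit 3603820881299) (nat_lit 1) (nat_lit 5) (nat_lit 3) (nat_lit 4) (nat_lit 1) (nat_lit 4) (nat_lit 368) (nat_lit 306) (nat_lit 226)) (XT.lf (nat_lit 0) (nat_lit 4236517049724) (nat_lit 152) (nat_lit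 4520360487650) (nat_lit 0) (nat_lit 4212025181539) (nat_lit 1) (nat_lit 5) (nat_lit 3) (nat_lit 4) (nat_lit 1) (nat_lit 4) (nat_lit 369) (nat_lit 306) (nat_lit 225))) (XT.nd (nat_lit 78) (nat_lit 0) (nat_lit 0) (XT.lf (nat_lit 0) (nat_lit 4935951816354) (nat_lit 152) (nat_lit 5061410480998) (nat_lit 0) (nat_lit 4911459909452) (nat_lit 1) (nat_lit 5) (nat_lit 3) (nat_lit 4) (nat_lit 1) (nat_lit 4) (nat_lit 370) (nat_lit 306) (nat_lit 224)) (XT.lf (nat_lit 0) (nat_lit 5740301598109) (nat_lit 152) (nat_lit 5683618378233) (nat_lit 0) (nat_lit 5715809657541) (nat_lit 1) (nat_lit 5) (nat_lit 3) (nat_lit 4) (nat_lit 1) (nat_lit 4) (nat_lit 371) (nat_lit 306) (nat_lit 223)))) (XT.nd (nat_lit 156) (nat_lit 0) (nat_lit 76) (XT.nd (nat_lit 78) (nat_lit 0) (nat_lit 76) (XT.lf (nat_lit 0) (nat_lit 2301158057) (nat_lit 532) (nat_lit 1648323402) (nat_lit 532) (nat_lit 1648323402) (nat_lit 61) (nat_lit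 3) (nat_lit 68) (nat_lit 3) (nat_lit 68) (nat_lit 5) (nat_lit 307) (nat_lit 307) (nat_lit 286)) (XT.lf (nat_lit 0) (nat_lit 6084572668) (nat_lit 456) (nat_lit 4804200073) (nat_lit 532) (nat_lit 1054395362) (nat_lit 62) (nat_lit 5) (nat_lit 68) (nat_lit 5) (nat_lit 69) (nat_lit 5) (nat_lit 308) (nat_lit 307) (nat_lit 285))) (XT.nd (nat_lit 78) (nat_lit 0) (nat_lit 76) (XT.lf (nat_lit 76) (nat_lit 6539997846) (nat_lit 0) (nat_lit 1555878921) (nat_lit 532) (nat_lit 4682650748) (nat_lit 63) (nat_lit 5) (nat_lit 62) (nat_lit 5) (nat_lit 69) (nat_lit 5) (nat_lit 309) (nat_lit 307) (nat_lit 284)) (XT.lf (nat_lit 76) (nat_lit 6115988037) (nat_lit 0) (nat_lit 4657213902) (nat_lit 532) (nat_lit 2937020255) (nat_lit 64) (nat_lit 5) (nat_lit 63) (nat_lit 5) (nat_lit 70) (nat_lit 5) (nat_lit 310) (nat_lit 307) (nat_lit 283))))))) (XT.nd (nat_lit 1092) (nat_lit 1216) (nat_lit 0) (XT.nd (nat_lit 546)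 (nat_lit 1140) (nat_lit 0) (XT.nd (nat_lit 234) (nat_lit 836) (nat_lit 0) (XT.nd (nat_lit 78) (nat_lit 684) (nat_lit 0) (XT.lf (nat_lit 0) (nat_lit 5914085769) (nat_lit 456) (nat_lit 8332401775) (nat_lit 532) (nat_lit 503788852) (nat_lit 58) (nat_lit 5) (nat_lit 64) (nat_lit 5) (nat_lit 65) (nat_lit 5) (nat_lit 311) (nat_lit 307) (nat_lit 282)) (XT.nd (nat_lit 78) (nat_lit 228) (nat_lit 0) (XT.lf (nat_lit 0) (nat_lit 2642736016) (nat_lit 456) (nat_lit 10017037377) (nat_lit 76) (nat_lit 3245228227) (nat_lit 52) (nat_lit 5) (nat_lit 58) (nat_lit 5) (nat_lit 53) (nat_lit 5) (nat_lit 312) (nat_lit 307) (nat_lit 281)) (XT.lf (nat_lit 0) (nat_lit 6085291352) (nat_lit 228) (nat_lit 682287467) (nat_lit 304) (nat_lit 10421524441) (nat_lit 49) (nat_lit 5) (nat_lit 52) (nat_lit 5) (nat_lit 53) (nat_lit 5) (nat_lit 313) (nat_lit 307) (nat_lit 280)))) (XT.nd (nat_lit 156) (nat_lit 456) (nat_lit 0) (XT.nd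 (nat_lit 78) (nat_lit 152) (nat_lit 0) (XT.lf (nat_lit 0) (nat_lit 6458190173) (nat_lit 228) (nat_lit 5728028062) (nat_lit 304) (nat_lit 6425690207) (nat_lit 46) (nat_lit 5) (nat_lit 49) (nat_lit 5) (nat_lit 50) (nat_lit 5) (nat_lit 314) (nat_lit 307) (nat_lit 279)) (XT.lf (nat_lit 0) (nat_lit 7130665364) (nat_lit 152) (nat_lit 11920914398) (nat_lit 228) (nat_lit 1145922206) (nat_lit 44) (nat_lit 5) (nat_lit 46) (nat_lit 5) (nat_lit 47) (nat_lit 5) (nat_lit 315) (nat_lit 307) (nat_lit 278))) (XT.nd (nat_lit 78) (nat_lit 152) (nat_lit 0) (XT.lf (nat_lit 0) (nat_lit 5382859106) (nat_lit 304) (nat_lit 13960009648) (nat_lit 76) (nat_lit 2612377679) (nat_lit 40) (nat_lit 5) (nat_lit 44) (nat_lit 5) (nat_lit 41) (nat_lit 5) (nat_lit 316) (nat_lit 307) (nat_lit 277)) (XT.lf (nat_lit 0) (nat_lit 9044503920) (nat_lit 152) (nat_lit 4647319927) (nat_lit 228) (nat_lit 10213007348) (nat_lit 38) (nat_lit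 5) (nat_lit 40) (nat_lit 5) (nat_lit 41) (nat_lit 5) (nat_lit 317) (nat_lit 307) (nat_lit 276))))) (XT.nd (nat_lit 234) (nat_lit 608) (nat_lit 0) (XT.nd (nat_lit 78) (nat_lit 380) (nat_lit 0) (XT.lf (nat_lit 0) (nat_lit 10348643654) (nat_lit 152) (nat_lit 13794721863) (nat_lit 228) (nat_lit 1931839294) (nat_lit 36) (nat_lit 5) (nat_lit 38) (nat_lit 5) (nat_lit 39) (nat_lit 5) (nat_lit 318) (nat_lit 307) (nat_lit 275)) (XT.nd (nat_lit 78) (nat_lit 152) (nat_lit 0) (XT.lf (nat_lit 0) (nat_lit 8103613181) (nat_lit 228) (nat_lit 16701050763) (nat_lit 76) (nat_lit 3680555127) (nat_lit 33) (nat_lit 5) (nat_lit 36) (nat_lit 5) (nat_lit 34) (nat_lit 5) (nat_lit 319) (nat_lit 307) (nat_lit 274)) (XT.lf (nat_lit 0) (nat_lit 13285737997) (nat_lit 152) (nat_lit 7363872423) (nat_lit 228) (nat_lit 10513576582) (nat_lit 31) (nat_lit 5) (nat_lit 33) (nat_lit 5) (nat_lit 34) (nat_lit 5) (nat_lit 320) (nat_lit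 307) (nat_lit 273)))) (XT.nd (nat_lit 156) (nat_lit 304) (nat_lit 0) (XT.nd (nat_lit 78) (nat_lit 152) (nat_lit 0) (XT.lf (nat_lit 0) (nat_lit 1934927870) (nat_lit 152) (nat_lit 19277926063) (nat_lit 76) (nat_lit 12937056439) (nat_lit 29) (nat_lit 5) (nat_lit 31) (nat_lit 5) (nat_lit 30) (nat_lit 5) (nat_lit 321) (nat_lit 307) (nat_lit 272)) (XT.lf (nat_lit 0) (nat_lit 16303723373) (nat_lit 152) (nat_lit 425515094) (nat_lit 228) (nat_lit 20745497634) (nat_lit 27) (nat_lit 5) (nat_lit 29) (nat_lit 5) (nat_lit 30) (nat_lit 5) (nat_lit 322) (nat_lit 307) (nat_lit 271))) (XT.nd (nat_lit 78) (nat_lit 228) (nat_lit 0) (XT.lf (nat_lit 0) (nat_lit 17351915895) (nat_lit 76) (nat_lit 17905861682) (nat_lit 152) (nat_lit 5919322752) (nat_lit 26) (nat_lit 5) (nat_lit 27) (nat_lit 5) (nat_lit 28) (nat_lit 4) (nat_lit 323) (nat_lit 307) (nat_lit 270)) (XT.lf (nat_lit 0) (nat_lit 11769121042) (nat_lit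 228) (nat_lit 27396116352) (nat_lit 76) (nat_lit 6152571276) (nat_lit 23) (nat_lit 5) (nat_lit 26) (nat_lit 5) (nat_lit 24) (nat_lit 4) (nat_lit 324) (nat_lit 307) (nat_lit 269)))))) (XT.nd (nat_lit 546) (nat_lit 532) (nat_lit 0) (XT.nd (nat_lit 234) (nat_lit 380) (nat_lit 0) (XT.nd (nat_lit 78) (nat_lit 228) (nat_lit 0) (XT.lf (nat_lit 0) (nat_lit 17481011099) (nat_lit 76) (nat_lit 15879792867) (nat_lit 152) (nat_lit 16578497240) (nat_lit 22) (nat_lit 5) (nat_lit 23) (nat_lit 5) (nat_lit 24) (nat_lit 4) (nat_lit 325) (nat_lit 307) (nat_lit 268)) (XT.nd (nat_lit 78) (nat_lit 76) (nat_lit 0) (XT.lf (nat_lit 0) (nat_lit 4258941442) (nat_lit 152) (nat_lit 39232749106) (nat_lit 76) (nat_lit 11639195683) (nat_lit 20) (nat_lit 5) (nat_lit 22) (nat_lit 5) (nat_lit 21) (nat_lit 4) (nat_lit 326) (nat_lit 307) (nat_lit 267)) (XT.lf (nat_lit 0) (nat_lit 12070920351) (nat_lit 76) (nat_lit 16864547555)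 (nat_lit 152) (nat_lit 31995694346) (nat_lit 19) (nat_lit 5) (nat_lit 20) (nat_lit 5) (nat_lit 21) (nat_lit 4) (nat_lit 327) (nat_lit 307) (nat_lit 266)))) (XT.nd (nat_lit 156) (nat_lit 228) (nat_lit 0) (XT.nd (nat_lit 78) (nat_lit 76) (nat_lit 0) (XT.lf (nat_lit 0) (nat_lit 5810589657) (nat_lit 76) (nat_lit 53115790892) (nat_lit 76) (nat_lit 8546075582) (nat_lit 18) (nat_lit 4) (nat_lit 19) (nat_lit 5) (nat_lit 19) (nat_lit 4) (nat_lit 328) (nat_lit 307) (nat_lit 265)) (XT.lf (nat_lit 0) (nat_lit 19397744332) (nat_lit 152) (nat_lit 4238864137) (nat_lit 76) (nat_lit 51171040831) (nat_lit 17) (nat_lit 5) (nat_lit 19) (nat_lit 5) (nat_lit 18) (nat_lit 4) (nat_lit 329) (nat_lit 307) (nat_lit 264))) (XT.nd (nat_lit 78) (nat_lit 152) (nat_lit 0) (XT.lf (nat_lit 0) (nat_lit 52867764667) (nat_lit 152) (nat_lit 18639331667) (nat_lit 0) (nat_lit 11571021318) (nat_lit 16) (nat_lit 5) (nat_lit 18)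 (nat_lit 4) (nat_lit 16) (nat_lit 4) (nat_lit 330) (nat_lit 307) (nat_lit 263)) (XT.lf (nat_lit 0) (nat_lit 917339449) (nat_lit 152) (nat_lit 39400199409) (nat_lit 76) (nat_lit 52107059911) (nat_lit 14) (nat_lit 5) (nat_lit 16) (nat_lit 5) (nat_lit 15) (nat_lit 4) (nat_lit 331) (nat_lit 307) (nat_lit 262))))) (XT.nd (nat_lit 312) (nat_lit 228) (nat_lit 0) (XT.nd (nat_lit 156) (nat_lit 152) (nat_lit 0) (XT.nd (nat_lit 78) (nat_lit 76) (nat_lit 0) (XT.lf (nat_lit 0) (nat_lit 34260704987) (nat_lit 76) (nat_lit 2075347744) (nat_lit 152) (nat_lit 66661376431) (nat_lit 13) (nat_lit 5) (nat_lit 14) (nat_lit 5) (nat_lit 15) (nat_lit 4) (nat_lit 332) (nat_lit 307) (nat_lit 261)) (XT.lf (nat_lit 0) (nat_lit 5491422404) (nat_lit 76) (nat_lit 73873363287) (nat_lit 76) (nat_lit 35607625259) (nat_lit 12) (nat_lit 4) (nat_lit 13) (nat_lit 5) (nat_lit 13) (nat_lit 4) (nat_lit 333) (nat_lit 307) (nat_lit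 260))) (XT.nd (nat_lit 78) (nat_lit 76) (nat_lit 0) (XT.lf (nat_lit 0) (nat_lit 2191276509) (nat_lit 152) (nat_lit 33714897683) (nat_lit 76) (nat_lit 92669884467) (nat_lit 11) (nat_lit 5) (nat_lit 13) (nat_lit 5) (nat_lit 12) (nat_lit 4) (nat_lit 334) (nat_lit 307) (nat_lit 259)) (XT.lf (nat_lit 0) (nat_lit 45168492577) (nat_lit 152) (nat_lit 89123315449) (nat_lit 0) (nat_lit 9725110499) (nat_lit 10) (nat_lit 5) (nat_lit 12) (nat_lit 4) (nat_lit 10) (nat_lit 4) (nat_lit 335) (nat_lit 307) (nat_lit 258)))) (XT.nd (nat_lit 156) (nat_lit 152) (nat_lit 0) (XT.nd (nat_lit 78) (nat_lit 76) (nat_lit 0) (XT.lf (nat_lit 0) (nat_lit 96577597806) (nat_lit 152) (nat_lit 3908182930) (nat_lit 0) (nat_lit 61129304438) (nat_lit 10) (nat_lit 5) (nat_lit 12) (nat_lit 4) (nat_lit 10) (nat_lit 4) (nat_lit 336) (nat_lit 307) (nat_lit 257)) (XT.lf (nat_lit 0) (nat_lit 99016988773) (nat_lit 76) (nat_lit 59049538723)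 (nat_lit 76) (nat_lit 23596974669) (nat_lit 9) (nat_lit 4) (nat_lit 10) (nat_lit 5) (nat_lit 10) (nat_lit 4) (nat_lit 337) (nat_lit 307) (nat_lit 256))) (XT.nd (nat_lit 78) (nat_lit 0) (nat_lit 0) (XT.lf (nat_lit 0) (nat_lit 12949791677) (nat_lit 76) (nat_lit 10322357058) (nat_lit 152) (nat_lit 181367456411) (nat_lit 7) (nat_lit 5) (nat_lit 8) (nat_lit 5) (nat_lit 9) (nat_lit 4) (nat_lit 338) (nat_lit 307) (nat_lit 255)) (XT.lf (nat_lit 0) (nat_lit 79370944814) (nat_lit 152) (nat_lit 104816358831) (nat_lit 0) (nat_lit 46538068011) (nat_lit 7) (nat_lit 5) (nat_lit 9) (nat_lit 4) (nat_lit 7) (nat_lit 4) (nat_lit 339) (nat_lit 307) (nat_lit 254))))))))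
noncomputable def xc32 : XT := (XT.nd (nat_lit 2184) (nat_lit 0) (nat_lit 0) (XT.nd (nat_lit 1092) (nat_lit 76) (nat_lit 0) (XT.nd (nat_lit 546) (nat_lit 152) (nat_lit 0) (XT.nd (nat_lit 234) (nat_lit 152) (nat_lit 0) (XT.nd (nat_lit 78) (nat_lit 76) (nat_lit 0) (XT.lf (nat_lit 0) (nat_lit 144160225363) (nat_lit 152) (nat_lit 5216977298) (nat_lit 0) (nat_lit 111324748518) (nat_lit 7) (nat_lit 5) (nat_lit 9) (nat_lit 4) (nat_lit 7) (nat_lit 4) (nat_lit 340) (nat_lit 307) (nat_lit 253)) (XT.nd (nat_lit 78) (nat_lit 0) (nat_lit 0) (XT.lf (nat_lit 0) (nat_lit 115061089301) (nat_lit 76) (nat_lit 106365486468) (nat_lit 76) (nat_lit 73527748717) (nat_lit 6) (nat_lit 4) (nat_lit 7) (nat_lit 5) (nat_lit 7) (nat_lit 4) (nat_lit 341) (nat_lit 307) (nat_lit 252)) (XT.lf (nat_lit 0) (nat_lit 253681189017) (nat_lit 76) (nat_lit 56745771465) (nat_lit 76) (nat_lit 23906067708) (nat_lit 6) (nat_lit 4) (nat_lit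 7) (nat_lit 5) (nat_lit 7) (nat_lit 4) (nat_lit 342) (nat_lit 307) (nat_lit 251)))) (XT.nd (nat_lit 156) (nat_lit 0) (nat_lit 0) (XT.nd (nat_lit 78) (nat_lit 0) (nat_lit 0) (XT.lf (nat_lit 0) (nat_lit 32369753103) (nat_lit 152) (nat_lit 345154380048) (nat_lit 0) (nat_lit 1961037060) (nat_lit 4) (nat_lit 5) (nat_lit 6) (nat_lit 4) (nat_lit 4) (nat_lit 4) (nat_lit 343) (nat_lit 307) (nat_lit 250)) (XT.lf (nat_lit 0) (nat_lit 99683699530) (nat_lit 152) (nat_lit 262082172017) (nat_lit 0) (nat_lit 69273607022) (nat_lit 4) (nat_lit 5) (nat_lit 6) (nat_lit 4) (nat_lit 4) (nat_lit 4) (nat_lit 344) (nat_lit 307) (nat_lit 249))) (XT.nd (nat_lit 78) (nat_lit 0) (nat_lit 0) (XT.lf (nat_lit 0) (nat_lit 177089071761) (nat_lit 152) (nat_lit 166560532957) (nat_lit 0) (nat_lit 146677782326) (nat_lit 4) (nat_lit 5) (nat_lit 6) (nat_lit 4) (nat_lit 4) (nat_lit 4) (nat_lit 345) (nat_lit 307) (nat_lit 248))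 (XT.lf (nat_lit 0) (nat_lit 266100322730) (nat_lit 152) (nat_lit 56720561235) (nat_lit 0) (nat_lit 235687992490) (nat_lit 4) (nat_lit 5) (nat_lit 6) (nat_lit 4) (nat_lit 4) (nat_lit 4) (nat_lit 346) (nat_lit 307) (nat_lit 247))))) (XT.nd (nat_lit 234) (nat_lit 76) (nat_lit 0) (XT.nd (nat_lit 78) (nat_lit 0) (nat_lit 0) (XT.lf (nat_lit 0) (nat_lit 73251102909) (nat_lit 76) (nat_lit 296969564791) (nat_lit 76) (nat_lit 266556329502) (nat_lit 3) (nat_lit 4) (nat_lit 4) (nat_lit 5) (nat_lit 4) (nat_lit 4) (nat_lit 347) (nat_lit 307) (nat_lit 246)) (XT.nd (nat_lit 78) (nat_lit 0) (nat_lit 0) (XT.lf (nat_lit 0) (nat_lit 226145451032) (nat_lit 76) (nat_lit 265461056135) (nat_lit 76) (nat_lit 235047033848) (nat_lit 3) (nat_lit 4) (nat_lit 4) (nat_lit 5) (nat_lit 4) (nat_lit 4) (nat_lit 348) (nat_lit 307) (nat_lit 245)) (XT.lf (nat_lit 0) (nat_lit 401967090054) (nat_lit 76) (nat_lit 229229727840)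 (nat_lit 76) (nat_lit 198815021206) (nat_lit 3) (nat_lit 4) (nat_lit 4) (nat_lit 5) (nat_lit 4) (nat_lit 4) (nat_lit 349) (nat_lit 307) (nat_lit 244)))) (XT.nd (nat_lit 156) (nat_lit 76) (nat_lit 0) (XT.nd (nat_lit 78) (nat_lit 0) (nat_lit 0) (XT.lf (nat_lit 0) (nat_lit 604156008566) (nat_lit 76) (nat_lit 187566706091) (nat_lit 76) (nat_lit 157151404373) (nat_lit 3) (nat_lit 4) (nat_lit 4) (nat_lit 5) (nat_lit 4) (nat_lit 4) (nat_lit 350) (nat_lit 307) (nat_lit 243)) (XT.lf (nat_lit 0) (nat_lit 836668076711) (nat_lit 76) (nat_lit 139656844809) (nat_lit 76) (nat_lit 109241025627) (nat_lit 3) (nat_lit 4) (nat_lit 4) (nat_lit 5) (nat_lit 4) (nat_lit 4) (nat_lit 351) (nat_lit 307) (nat_lit 242))) (XT.nd (nat_lit 78) (nat_lit 76) (nat_lit 0) (XT.lf (nat_lit 0) (nat_lit 1104052443649) (nat_lit 76) (nat_lit 84562777144) (nat_lit 76) (nat_lit 54146507993) (nat_lit 3) (nat_lit 4) (nat_lit 4) (nat_lit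 5) (nat_lit 4) (nat_lit 4) (nat_lit 352) (nat_lit 307) (nat_lit 241)) (XT.lf (nat_lit 0) (nat_lit 8749359003) (nat_lit 152) (nat_lit 12217993701) (nat_lit 76) (nat_lit 1402551960663) (nat_lit 2) (nat_lit 5) (nat_lit 4) (nat_lit 5) (nat_lit 3) (nat_lit 4) (nat_lit 353) (nat_lit 307) (nat_lit 240)))))) (XT.nd (nat_lit 546) (nat_lit 0) (nat_lit 0) (XT.nd (nat_lit 234) (nat_lit 0) (nat_lit 0) (XT.nd (nat_lit 78) (nat_lit 0) (nat_lit 0) (XT.lf (nat_lit 0) (nat_lit 82678401674) (nat_lit 152) (nat_lit 1493700719871) (nat_lit 0) (nat_lit 54514512165) (nat_lit 1) (nat_lit 5) (nat_lit 3) (nat_lit 4) (nat_lit 1) (nat_lit 4) (nat_lit 354) (nat_lit 307) (nat_lit 239)) (XT.nd (nat_lit 78) (nat_lit 0) (nat_lit 0) (XT.lf (nat_lit 0) (nat_lit 168640032597) (nat_lit 152) (nat_lit 1560182741950) (nat_lit 0) (nat_lit 140475869142) (nat_lit 1) (nat_lit 5) (nat_lit 3) (nat_lit 4) (nat_lit 1) (nat_lit 4) (nat_lit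 355) (nat_lit 307) (nat_lit 238)) (XT.lf (nat_lit 0) (nat_lit 267494493945) (nat_lit 152) (nat_lit 1636639932195) (nat_lit 0) (nat_lit 239330092275) (nat_lit 1) (nat_lit 5) (nat_lit 3) (nat_lit 4) (nat_lit 1) (nat_lit 4) (nat_lit 356) (nat_lit 307) (nat_lit 237)))) (XT.nd (nat_lit 156) (nat_lit 0) (nat_lit 0) (XT.nd (nat_lit 78) (nat_lit 0) (nat_lit 0) (XT.lf (nat_lit 0) (nat_lit 381175894744) (nat_lit 152) (nat_lit 1724568192153) (nat_lit 0) (nat_lit 353011285932) (nat_lit 1) (nat_lit 5) (nat_lit 3) (nat_lit 4) (nat_lit 1) (nat_lit 4) (nat_lit 357) (nat_lit 307) (nat_lit 236)) (XT.lf (nat_lit 0) (nat_lit 511908436315) (nat_lit 152) (nat_lit 1825687857345) (nat_lit 0) (nat_lit 483743647378) (nat_lit 1) (nat_lit 5) (nat_lit 3) (nat_lit 4) (nat_lit 1) (nat_lit 4) (nat_lit 358) (nat_lit 307) (nat_lit 235))) (XT.nd (nat_lit 78) (nat_lit 0) (nat_lit 0) (XT.lf (nat_lit 0) (nat_lit 662249929253)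 (nat_lit 152) (nat_lit 1941977356004) (nat_lit 0) (nat_lit 634084983687) (nat_lit 1) (nat_lit 5) (nat_lit 3) (nat_lit 4) (nat_lit 1) (nat_lit 4) (nat_lit 359) (nat_lit 307) (nat_lit 234)) (XT.lf (nat_lit 0) (nat_lit 835141837550) (nat_lit 152) (nat_lit 2075711917451) (nat_lit 0) (nat_lit 806976755785) (nat_lit 1) (nat_lit 5) (nat_lit 3) (nat_lit 4) (nat_lit 1) (nat_lit 4) (nat_lit 360) (nat_lit 307) (nat_lit 233))))) (XT.nd (nat_lit 234) (nat_lit 0) (nat_lit 0) (XT.nd (nat_lit 78) (nat_lit 0) (nat_lit 0) (XT.lf (nat_lit 0) (nat_lit 1033966828978) (nat_lit 152) (nat_lit 2229508087453) (nat_lit 0) (nat_lit 1005801628779) (nat_lit 1) (nat_lit 5) (nat_lit 3) (nat_lit 4) (nat_lit 1) (nat_lit 4) (nat_lit 361) (nat_lit 307) (nat_lit 232)) (XT.nd (nat_lit 78) (nat_lit 0) (nat_lit 0) (XT.lf (nat_lit 0) (nat_lit 1262614957718) (nat_lit 152) (nat_lit 2406374921510) (nat_lit 0) (nat_lit 1234449654531)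 (nat_lit 1) (nat_lit 5) (nat_lit 3) (nat_lit 4) (nat_lit 1) (nat_lit 4) (nat_lit 362) (nat_lit 307) (nat_lit 231)) (XT.lf (nat_lit 0) (nat_lit 1525559774112) (nat_lit 152) (nat_lit 2609772857681) (nat_lit 0) (nat_lit 1497394381373) (nat_lit 1) (nat_lit 5) (nat_lit 3) (nat_lit 4) (nat_lit 1) (nat_lit 4) (nat_lit 363) (nat_lit 307) (nat_lit 230)))) (XT.nd (nat_lit 156) (nat_lit 0) (nat_lit 0) (XT.nd (nat_lit 78) (nat_lit 0) (nat_lit 0) (XT.lf (nat_lit 0) (nat_lit 1827945850658) (nat_lit 152) (nat_lit 2843681420803) (nat_lit 0) (nat_lit 1799780380045) (nat_lit 1) (nat_lit 5) (nat_lit 3) (nat_lit 4) (nat_lit 1) (nat_lit 4) (nat_lit 364) (nat_lit 307) (nat_lit 229)) (XT.lf (nat_lit 0) (nat_lit 2175689436677) (nat_lit 152) (nat_lit 3112677082764) (nat_lit 0) (nat_lit 2147523898349) (nat_lit 1) (nat_lit 5) (nat_lit 3) (nat_lit 4) (nat_lit 1) (nat_lit 4) (nat_lit 365) (nat_lit 307) (nat_lit 228)))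 (XT.nd (nat_lit 78) (nat_lit 0) (nat_lit 0) (XT.lf (nat_lit 0) (nat_lit 2575594211027) (nat_lit 152) (nat_lit 3422022802166) (nat_lit 0) (nat_lit 2547428613817) (nat_lit 1) (nat_lit 5) (nat_lit 3) (nat_lit 4) (nat_lit 1) (nat_lit 4) (nat_lit 366) (nat_lit 307) (nat_lit 227)) (XT.lf (nat_lit 0) (nat_lit 3035484397555) (nat_lit 152) (nat_lit 3777770995260) (nat_lit 0) (nat_lit 3007318749141) (nat_lit 1) (nat_lit 5) (nat_lit 3) (nat_lit 4) (nat_lit 1) (nat_lit 4) (nat_lit 367) (nat_lit 307) (nat_lit 226))))))) (XT.nd (nat_lit 42978) (nat_lit 0) (nat_lit 988) (XT.nd (nat_lit 42432) (nat_lit 0) (nat_lit 2964) (XT.nd (nat_lit 234) (nat_lit 0) (nat_lit 0) (XT.nd (nat_lit 78) (nat_lit 0) (nat_lit 0) (XT.lf (nat_lit 0) (nat_lit 3564357847734) (nat_lit 152) (nat_lit 4186881952779) (nat_lit 0) (nat_lit 3536192154797) (nat_lit 1) (nat_lit 5) (nat_lit 3) (nat_lit 4) (nat_lit 1) (nat_lit 4) (nat_lit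 368) (nat_lit 307) (nat_lit 225)) (XT.nd (nat_lit 78) (nat_lit 0) (nat_lit 0) (XT.lf (nat_lit 0) (nat_lit 4172562085592) (nat_lit 152) (nat_lit 4657360019545) (nat_lit 0) (nat_lit 4144396353938) (nat_lit 1) (nat_lit 5) (nat_lit 3) (nat_lit 4) (nat_lit 1) (nat_lit 4) (nat_lit 369) (nat_lit 307) (nat_lit 224)) (XT.lf (nat_lit 0) (nat_lit 4871996759259) (nat_lit 152) (nat_lit 5198410201212) (nat_lit 0) (nat_lit 4843830993939) (nat_lit 1) (nat_lit 5) (nat_lit 3) (nat_lit 4) (nat_lit 1) (nat_lit 4) (nat_lit 370) (nat_lit 307) (nat_lit 223)))) (XT.nd (nat_lit 42042) (nat_lit 0) (nat_lit 4636) (XT.nd (nat_lit 41964) (nat_lit 0) (nat_lit 4560) (XT.lf (nat_lit 0) (nat_lit 5676346460178) (nat_lit 152) (nat_lit 5820618262204) (nat_lit 0) (nat_lit 5648180665582) (nat_lit 1) (nat_lit 5) (nat_lit 3) (nat_lit 4) (nat_lit 1) (nat_lit 4) (nat_lit 371) (nat_lit 307) (nat_lit 222)) (XT.lf (nat_lit 0) (nat_lit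 3545494636) (nat_lit 532) (nat_lit 1409474822) (nat_lit 532) (nat_lit 1409474822) (nat_lit 61) (nat_lit 3) (nat_lit 68) (nat_lit 3) (nat_lit 68) (nat_lit 5) (nat_lit 308) (nat_lit 308) (nat_lit 284))) (XT.nd (nat_lit 78) (nat_lit 0) (nat_lit 0) (XT.lf (nat_lit 0) (nat_lit 8565701224) (nat_lit 456) (nat_lit 4489483111) (nat_lit 532) (nat_lit 552073520) (nat_lit 62) (nat_lit 5) (nat_lit 68) (nat_lit 5) (nat_lit 69) (nat_lit 5) (nat_lit 309) (nat_lit 308) (nat_lit 283)) (XT.lf (nat_lit 76) (nat_lit 8468707532) (nat_lit 0) (nat_lit 2228206377) (nat_lit 532) (nat_lit 3885799369) (nat_lit 63) (nat_lit 5) (nat_lit 62) (nat_lit 5) (nat_lit 69) (nat_lit 5) (nat_lit 310) (nat_lit 308) (nat_lit 282))))) (XT.nd (nat_lit 234) (nat_lit 912) (nat_lit 0) (XT.nd (nat_lit 78) (nat_lit 836) (nat_lit 0) (XT.lf (nat_lit 76) (nat_lit 8013603302) (nat_lit 0) (nat_lit 5595760976) (nat_lit 532) (nat_lit 2058332409)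 (nat_lit 64) (nat_lit 5) (nat_lit 63) (nat_lit 5) (nat_lit 70) (nat_lit 5) (nat_lit 311) (nat_lit 308) (nat_lit 281)) (XT.nd (nat_lit 78) (nat_lit 380) (nat_lit 0) (XT.lf (nat_lit 0) (nat_lit 558762950) (nat_lit 532) (nat_lit 9094914317) (nat_lit 76) (nat_lit 7220361345) (nat_lit 57) (nat_lit 5) (nat_lit 64) (nat_lit 5) (nat_lit 58) (nat_lit 5) (nat_lit 312) (nat_lit 308) (nat_lit 280)) (XT.lf (nat_lit 0) (nat_lit 4026213741) (nat_lit 456) (nat_lit 10475333937) (nat_lit 76) (nat_lit 3709227615) (nat_lit 52) (nat_lit 5) (nat_lit 58) (nat_lit 5) (nat_lit 53) (nat_lit 5) (nat_lit 313) (nat_lit 308) (nat_lit 279)))) (XT.nd (nat_lit 156) (nat_lit 456) (nat_lit 0) (XT.nd (nat_lit 78) (nat_lit 228) (nat_lit 0) (XT.lf (nat_lit 0) (nat_lit 7953952774) (nat_lit 228) (nat_lit 710070920) (nat_lit 304) (nat_lit 11032061120) (nat_lit 49) (nat_lit 5) (nat_lit 52) (nat_lit 5) (nat_lit 53) (nat_lit 5) (nat_lit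 314) (nat_lit 308) (nat_lit 278)) (XT.lf (nat_lit 0) (nat_lit 8365577238) (nat_lit 228) (nat_lit 6439062593) (nat_lit 304) (nat_lit 6535051169) (nat_lit 46) (nat_lit 5) (nat_lit 49) (nat_lit 5) (nat_lit 50) (nat_lit 5) (nat_lit 315) (nat_lit 308) (nat_lit 277))) (XT.nd (nat_lit 78) (nat_lit 304) (nat_lit 0) (XT.lf (nat_lit 0) (nat_lit 9114795198) (nat_lit 152) (nat_lit 13506996297) (nat_lit 228) (nat_lit 547672917) (nat_lit 44) (nat_lit 5) (nat_lit 46) (nat_lit 5) (nat_lit 47) (nat_lit 5) (nat_lit 316) (nat_lit 308) (nat_lit 276)) (XT.lf (nat_lit 0) (nat_lit 6852656158) (nat_lit 304) (nat_lit 15133143150) (nat_lit 76) (nat_lit 3209209312) (nat_lit 40) (nat_lit 5) (nat_lit 44) (nat_lit 5) (nat_lit 41) (nat_lit 5) (nat_lit 317) (nat_lit 308) (nat_lit 275)))))) (XT.nd (nat_lit 546) (nat_lit 912) (nat_lit 0) (XT.nd (nat_lit 234) (nat_lit 532) (nat_lit 0) (XT.nd (nat_lit 78) (nat_lit 380) (nat_lit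 0) (XT.lf (nat_lit 0) (nat_lit 11244100567) (nat_lit 152) (nat_lit 5097741464) (nat_lit 228) (nat_lit 11100548777) (nat_lit 38) (nat_lit 5) (nat_lit 40) (nat_lit 5) (nat_lit 41) (nat_lit 5) (nat_lit 318) (nat_lit 308) (nat_lit 274)) (XT.nd (nat_lit 78) (nat_lit 228) (nat_lit 0) (XT.lf (nat_lit 0) (nat_lit 12711169914) (nat_lit 152) (nat_lit 15596818807) (nat_lit 228) (nat_lit 1634642562) (nat_lit 36) (nat_lit 5) (nat_lit 38) (nat_lit 5) (nat_lit 39) (nat_lit 5) (nat_lit 319) (nat_lit 308) (nat_lit 273)) (XT.lf (nat_lit 0) (nat_lit 9828909864) (nat_lit 228) (nat_lit 18403129952) (nat_lit 76) (nat_lit 4484855831) (nat_lit 33) (nat_lit 5) (nat_lit 36) (nat_lit 5) (nat_lit 34) (nat_lit 5) (nat_lit 320) (nat_lit 308) (nat_lit 272)))) (XT.nd (nat_lit 156) (nat_lit 228) (nat_lit 0) (XT.nd (nat_lit 78) (nat_lit 152) (nat_lit 0) (XT.lf (nat_lit 0) (nat_lit 16013700534) (nat_lit 152) (nat_lit 8194295627)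 (nat_lit 228) (nat_lit 11592509957) (nat_lit 31) (nat_lit 5) (nat_lit 33) (nat_lit 5) (nat_lit 34) (nat_lit 5) (nat_lit 321) (nat_lit 308) (nat_lit 271)) (XT.lf (nat_lit 0) (nat_lit 2659808961) (nat_lit 152) (nat_lit 21445641968) (nat_lit 76) (nat_lit 15131946466) (nat_lit 29) (nat_lit 5) (nat_lit 31) (nat_lit 5) (nat_lit 30) (nat_lit 5) (nat_lit 322) (nat_lit 308) (nat_lit 270))) (XT.nd (nat_lit 78) (nat_lit 76) (nat_lit 0) (XT.lf (nat_lit 0) (nat_lit 19411974176) (nat_lit 152) (nat_lit 220537315) (nat_lit 228) (nat_lit 23431725628) (nat_lit 27) (nat_lit 5) (nat_lit 29) (nat_lit 5) (nat_lit 30) (nat_lit 5) (nat_lit 323) (nat_lit 308) (nat_lit 269)) (XT.lf (nat_lit 0) (nat_lit 20584409771) (nat_lit 76) (nat_lit 20325311091) (nat_lit 152) (nat_lit 6414709847) (nat_lit 26) (nat_lit 5) (nat_lit 27) (nat_lit 5) (nat_lit 28) (nat_lit 4) (nat_lit 324) (nat_lit 308) (nat_lit 268))))) (XT.nd (nat_lit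 312) (nat_lit 380) (nat_lit 0) (XT.nd (nat_lit 156) (nat_lit 228) (nat_lit 0) (XT.nd (nat_lit 78) (nat_lit 76) (nat_lit 0) (XT.lf (nat_lit 0) (nat_lit 13879184251) (nat_lit 228) (nat_lit 30889944051) (nat_lit 76) (nat_lit 7318637145) (nat_lit 23) (nat_lit 5) (nat_lit 26) (nat_lit 5) (nat_lit 24) (nat_lit 4) (nat_lit 325) (nat_lit 308) (nat_lit 267)) (XT.lf (nat_lit 0) (nat_lit 20666645911) (nat_lit 76) (nat_lit 18011565261) (nat_lit 152) (nat_lit 18726801487) (nat_lit 22) (nat_lit 5) (nat_lit 23) (nat_lit 5) (nat_lit 24) (nat_lit 4) (nat_lit 326) (nat_lit 308) (nat_lit 266))) (XT.nd (nat_lit 78) (nat_lit 76) (nat_lit 0) (XT.lf (nat_lit 0) (nat_lit 5195909583) (nat_lit 152) (nat_lit 44568534122) (nat_lit 76) (nat_lit 13612128045) (nat_lit 20) (nat_lit 5) (nat_lit 22) (nat_lit 5) (nat_lit 21) (nat_lit 4) (nat_lit 327) (nat_lit 308) (nat_lit 265)) (XT.lf (nat_lit 0) (nat_lit 14384204858) (nat_lit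 76) (nat_lit 19162912697) (nat_lit 152) (nat_lit 36501928102) (nat_lit 19) (nat_lit 5) (nat_lit 20) (nat_lit 5) (nat_lit 21) (nat_lit 4) (nat_lit 328) (nat_lit 308) (nat_lit 264)))) (XT.nd (nat_lit 156) (nat_lit 228) (nat_lit 0) (XT.nd (nat_lit 78) (nat_lit 76) (nat_lit 0) (XT.lf (nat_lit 0) (nat_lit 7157132196) (nat_lit 76) (nat_lit 60860404304) (nat_lit 76) (nat_lit 9555538597) (nat_lit 18) (nat_lit 4) (nat_lit 19) (nat_lit 5) (nat_lit 19) (nat_lit 4) (nat_lit 329) (nat_lit 308) (nat_lit 263)) (XT.lf (nat_lit 0) (nat_lit 22532466289) (nat_lit 152) (nat_lit 4449779710) (nat_lit 76) (nat_lit 59028486658) (nat_lit 17) (nat_lit 5) (nat_lit 19) (nat_lit 5) (nat_lit 18) (nat_lit 4) (nat_lit 330) (nat_lit 308) (nat_lit 262))) (XT.nd (nat_lit 78) (nat_lit 152) (nat_lit 0) (XT.lf (nat_lit 0) (nat_lit 61007410691) (nat_lit 152) (nat_lit 21034250552) (nat_lit 0) (nat_lit 13481364060) (nat_lit 16)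 (nat_lit 5) (nat_lit 18) (nat_lit 4) (nat_lit 16) (nat_lit 4) (nat_lit 331) (nat_lit 308) (nat_lit 261)) (XT.lf (nat_lit 0) (nat_lit 1250928540) (nat_lit 152) (nat_lit 44932827641) (nat_lit 76) (nat_lit 60088811892) (nat_lit 14) (nat_lit 5) (nat_lit 16) (nat_lit 5) (nat_lit 15) (nat_lit 4) (nat_lit 332) (nat_lit 308) (nat_lit 260))))))))
noncomputable def xc33 : XT := (XT.nd (nat_lit 2262) (nat_lit 0) (nat_lit 0) (XT.nd (nat_lit 1092) (nat_lit 228) (nat_lit 0) (XT.nd (nat_lit 546) (nat_lit 228) (nat_lit 0) (XT.nd (nat_lit 234) (nat_lit 304) (nat_lit 0) (XT.nd (nat_lit 78) (nat_lit 152) (nat_lit 0) (XT.lf (nat_lit 0) (nat_lit 39745267242) (nat_lit 76) (nat_lit 2219926135) (nat_lit 152) (nat_lit 76467515491) (nat_lit 13) (nat_lit 5) (nat_lit 14) (nat_lit 5) (nat_lit 15) (nat_lit 4) (nat_lit 333) (nat_lit 308) (nat_lit 259)) (XT.nd (nat_lit 78) (nat_lit 76) (nat_lit 0) (XT.lf (nat_lit 0) (nat_lit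 6640802100) (nat_lit 76) (nat_lit 84795440203) (nat_lit 76) (nat_lit 40768659841) (nat_lit 12) (nat_lit 4) (nat_lit 13) (nat_lit 5) (nat_lit 13) (nat_lit 4) (nat_lit 334) (nat_lit 308) (nat_lit 258)) (XT.lf (nat_lit 0) (nat_lit 2668750086) (nat_lit 152) (nat_lit 38481084375) (nat_lit 76) (nat_lit 106700705189) (nat_lit 11) (nat_lit 5) (nat_lit 13) (nat_lit 5) (nat_lit 12) (nat_lit 4) (nat_lit 335) (nat_lit 308) (nat_lit 257)))) (XT.nd (nat_lit 156) (nat_lit 228) (nat_lit 0) (XT.nd (nat_lit 78) (nat_lit 0) (nat_lit 0) (XT.lf (nat_lit 0) (nat_lit 52082691059) (nat_lit 152) (nat_lit 102217657619) (nat_lit 0) (nat_lit 11307971710) (nat_lit 10) (nat_lit 5) (nat_lit 12) (nat_lit 4) (nat_lit 10) (nat_lit 4) (nat_lit 336) (nat_lit 308) (nat_lit 256)) (XT.lf (nat_lit 0) (nat_lit 111185041473) (nat_lit 152) (nat_lit 4256014589) (nat_lit 0) (nat_lit 70406608484) (nat_lit 10) (nat_lit 5) (nat_lit 12)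 (nat_lit 4) (nat_lit 10) (nat_lit 4) (nat_lit 337) (nat_lit 308) (nat_lit 255))) (XT.nd (nat_lit 78) (nat_lit 152) (nat_lit 0) (XT.lf (nat_lit 0) (nat_lit 114087753854) (nat_lit 76) (nat_lit 67799047838) (nat_lit 76) (nat_lit 27017385597) (nat_lit 9) (nat_lit 4) (nat_lit 10) (nat_lit 5) (nat_lit 10) (nat_lit 4) (nat_lit 338) (nat_lit 308) (nat_lit 254)) (XT.lf (nat_lit 0) (nat_lit 15097475473) (nat_lit 76) (nat_lit 11768844603) (nat_lit 152) (nat_lit 208460944558) (nat_lit 7) (nat_lit 5) (nat_lit 8) (nat_lit 5) (nat_lit 9) (nat_lit 4) (nat_lit 339) (nat_lit 308) (nat_lit 253))))) (XT.nd (nat_lit 234) (nat_lit 152) (nat_lit 0) (XT.nd (nat_lit 78) (nat_lit 76) (nat_lit 0) (XT.lf (nat_lit 0) (nat_lit 91368585588) (nat_lit 152) (nat_lit 120355294004) (nat_lit 0) (nat_lit 53602926268) (nat_lit 7) (nat_lit 5) (nat_lit 9) (nat_lit 4) (nat_lit 7) (nat_lit 4) (nat_lit 340) (nat_lit 308) (nat_lit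 252)) (XT.nd (nat_lit 78) (nat_lit 76) (nat_lit 0) (XT.lf (nat_lit 0) (nat_lit 165864258343) (nat_lit 152) (nat_lit 5839942457) (nat_lit 0) (nat_lit 128096633017) (nat_lit 7) (nat_lit 5) (nat_lit 9) (nat_lit 4) (nat_lit 7) (nat_lit 4) (nat_lit 341) (nat_lit 308) (nat_lit 251)) (XT.lf (nat_lit 0) (nat_lit 132466326359) (nat_lit 76) (nat_lit 122247313352) (nat_lit 76) (nat_lit 84477978457) (nat_lit 6) (nat_lit 4) (nat_lit 7) (nat_lit 5) (nat_lit 7) (nat_lit 4) (nat_lit 342) (nat_lit 308) (nat_lit 250)))) (XT.nd (nat_lit 156) (nat_lit 0) (nat_lit 0) (XT.nd (nat_lit 78) (nat_lit 152) (nat_lit 0) (XT.lf (nat_lit 0) (nat_lit 291860387945) (nat_lit 76) (nat_lit 65194162327) (nat_lit 76) (nat_lit 27423340849) (nat_lit 6) (nat_lit 4) (nat_lit 7) (nat_lit 5) (nat_lit 7) (nat_lit 4) (nat_lit 343) (nat_lit 308) (nat_lit 249)) (XT.lf (nat_lit 0) (nat_lit 37286226123) (nat_lit 152) (nat_lit 396804786317)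 (nat_lit 0) (nat_lit 2312046347) (nat_lit 4) (nat_lit 5) (nat_lit 6) (nat_lit 4) (nat_lit 4) (nat_lit 4) (nat_lit 344) (nat_lit 308) (nat_lit 248))) (XT.nd (nat_lit 78) (nat_lit 0) (nat_lit 0) (XT.lf (nat_lit 0) (nat_lit 114689306682) (nat_lit 152) (nat_lit 301287758047) (nat_lit 0) (nat_lit 79714086099) (nat_lit 4) (nat_lit 5) (nat_lit 6) (nat_lit 4) (nat_lit 4) (nat_lit 4) (nat_lit 345) (nat_lit 308) (nat_lit 247)) (XT.lf (nat_lit 0) (nat_lit 203698564892) (nat_lit 152) (nat_lit 191451795707) (nat_lit 0) (nat_lit 168722439261) (nat_lit 4) (nat_lit 5) (nat_lit 6) (nat_lit 4) (nat_lit 4) (nat_lit 4) (nat_lit 346) (nat_lit 308) (nat_lit 246)))))) (XT.nd (nat_lit 546) (nat_lit 152) (nat_lit 0) (XT.nd (nat_lit 234) (nat_lit 0) (nat_lit 0) (XT.nd (nat_lit 78) (nat_lit 76) (nat_lit 0) (XT.lf (nat_lit 0) (nat_lit 306055486241) (nat_lit 152) (nat_lit 65147934817) (nat_lit 0) (nat_lit 271078573612)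 (nat_lit 4) (nat_lit 5) (nat_lit 6) (nat_lit 4) (nat_lit 4) (nat_lit 4) (nat_lit 347) (nat_lit 308) (nat_lit 245)) (XT.nd (nat_lit 78) (nat_lit 0) (nat_lit 0) (XT.lf (nat_lit 0) (nat_lit 84312647198) (nat_lit 76) (nat_lit 341477780142) (nat_lit 76) (nat_lit 306500183166) (nat_lit 3) (nat_lit 4) (nat_lit 4) (nat_lit 5) (nat_lit 4) (nat_lit 4) (nat_lit 348) (nat_lit 308) (nat_lit 244)) (XT.lf (nat_lit 0) (nat_lit 260131511167) (nat_lit 76) (nat_lit 305247849889) (nat_lit 76) (nat_lit 270269657829) (nat_lit 3) (nat_lit 4) (nat_lit 4) (nat_lit 5) (nat_lit 4) (nat_lit 4) (nat_lit 349) (nat_lit 308) (nat_lit 243)))) (XT.nd (nat_lit 156) (nat_lit 0) (nat_lit 0) (XT.nd (nat_lit 78) (nat_lit 0) (nat_lit 0) (XT.lf (nat_lit 0) (nat_lit 462318016589) (nat_lit 76) (nat_lit 263586043827) (nat_lit 76) (nat_lit 228607334304) (nat_lit 3) (nat_lit 4) (nat_lit 4) (nat_lit 5) (nat_lit 4) (nat_lit 4) (nat_lit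 350) (nat_lit 308) (nat_lit 242)) (XT.lf (nat_lit 0) (nat_lit 694827986395) (nat_lit 76) (nat_lit 215677239666) (nat_lit 76) (nat_lit 180698080173) (nat_lit 3) (nat_lit 4) (nat_lit 4) (nat_lit 5) (nat_lit 4) (nat_lit 4) (nat_lit 351) (nat_lit 308) (nat_lit 241))) (XT.nd (nat_lit 78) (nat_lit 0) (nat_lit 0) (XT.lf (nat_lit 0) (nat_lit 962210528691) (nat_lit 76) (nat_lit 160584091236) (nat_lit 76) (nat_lit 125604540466) (nat_lit 3) (nat_lit 4) (nat_lit 4) (nat_lit 5) (nat_lit 4) (nat_lit 4) (nat_lit 352) (nat_lit 308) (nat_lit 240)) (XT.lf (nat_lit 0) (nat_lit 1269697041043) (nat_lit 76) (nat_lit 97228689112) (nat_lit 76) (nat_lit 62248798100) (nat_lit 3) (nat_lit 4) (nat_lit 4) (nat_lit 5) (nat_lit 4) (nat_lit 4) (nat_lit 353) (nat_lit 308) (nat_lit 239))))) (XT.nd (nat_lit 312) (nat_lit 0) (nat_lit 0) (XT.nd (nat_lit 156) (nat_lit 0) (nat_lit 0) (XT.nd (nat_lit 78) (nat_lit 76) (nat_lit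 0) (XT.lf (nat_lit 0) (nat_lit 10078024865) (nat_lit 152) (nat_lit 14017895153) (nat_lit 76) (nat_lit 1612949987986) (nat_lit 2) (nat_lit 5) (nat_lit 4) (nat_lit 5) (nat_lit 3) (nat_lit 4) (nat_lit 354) (nat_lit 308) (nat_lit 238)) (XT.lf (nat_lit 0) (nat_lit 95095389385) (nat_lit 152) (nat_lit 1717724980710) (nat_lit 0) (nat_lit 62706089251) (nat_lit 1) (nat_lit 5) (nat_lit 3) (nat_lit 4) (nat_lit 1) (nat_lit 4) (nat_lit 355) (nat_lit 308) (nat_lit 237))) (XT.nd (nat_lit 78) (nat_lit 0) (nat_lit 0) (XT.lf (nat_lit 0) (nat_lit 193949278756) (nat_lit 152) (nat_lit 1794183329642) (nat_lit 0) (nat_lit 161559771479) (nat_lit 1) (nat_lit 5) (nat_lit 3) (nat_lit 4) (nat_lit 1) (nat_lit 4) (nat_lit 356) (nat_lit 308) (nat_lit 236)) (XT.lf (nat_lit 0) (nat_lit 307630182184) (nat_lit 152) (nat_lit 1882112597153) (nat_lit 0) (nat_lit 275240494783) (nat_lit 1) (nat_lit 5) (nat_lit 3) (nat_lit 4) (nat_lit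 1) (nat_lit 4) (nat_lit 357) (nat_lit 308) (nat_lit 235)))) (XT.nd (nat_lit 156) (nat_lit 0) (nat_lit 0) (XT.nd (nat_lit 78) (nat_lit 0) (nat_lit 0) (XT.lf (nat_lit 0) (nat_lit 438362291257) (nat_lit 152) (nat_lit 1983233138479) (nat_lit 0) (nat_lit 405972447227) (nat_lit 1) (nat_lit 5) (nat_lit 3) (nat_lit 4) (nat_lit 1) (nat_lit 4) (nat_lit 358) (nat_lit 308) (nat_lit 234)) (XT.lf (nat_lit 0) (nat_lit 588703408111) (nat_lit 152) (nat_lit 2099523398994) (nat_lit 0) (nat_lit 556313427881) (nat_lit 1) (nat_lit 5) (nat_lit 3) (nat_lit 4) (nat_lit 1) (nat_lit 4) (nat_lit 359) (nat_lit 308) (nat_lit 233))) (XT.nd (nat_lit 78) (nat_lit 0) (nat_lit 0) (XT.lf (nat_lit 0) (nat_lit 761594989379) (nat_lit 152) (nat_lit 2233258622923) (nat_lit 0) (nat_lit 729204890715) (nat_lit 1) (nat_lit 5) (nat_lit 3) (nat_lit 4) (nat_lit 1) (nat_lit 4) (nat_lit 360) (nat_lit 308) (nat_lit 232)) (XT.lf (nat_lit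 0) (nat_lit 960419696434) (nat_lit 152) (nat_lit 2387055368998) (nat_lit 0) (nat_lit 928029494783) (nat_lit 1) (nat_lit 5) (nat_lit 3) (nat_lit 4) (nat_lit 1) (nat_lit 4) (nat_lit 361) (nat_lit 308) (nat_lit 231))))))) (XT.nd (nat_lit 43056) (nat_lit 0) (nat_lit 1596) (XT.nd (nat_lit 546) (nat_lit 0) (nat_lit 0) (XT.nd (nat_lit 234) (nat_lit 0) (nat_lit 0) (XT.nd (nat_lit 78) (nat_lit 0) (nat_lit 0) (XT.lf (nat_lit 0) (nat_lit 1189067577891) (nat_lit 152) (nat_lit 2563922703988) (nat_lit 0) (nat_lit 1156677286687) (nat_lit 1) (nat_lit 5) (nat_lit 3) (nat_lit 4) (nat_lit 1) (nat_lit 4) (nat_lit 362) (nat_lit 308) (nat_lit 230)) (XT.nd (nat_lit 78) (nat_lit 0) (nat_lit 0) (XT.lf (nat_lit 0) (nat_lit 1452012179259) (nat_lit 152) (nat_lit 2767321075752) (nat_lit 0) (nat_lit 1419621810182) (nat_lit 1) (nat_lit 5) (nat_lit 3) (nat_lit 4) (nat_lit 1) (nat_lit 4) (nat_lit 363) (nat_lit 308) (nat_lit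 229)) (XT.lf (nat_lit 0) (nat_lit 1754398068824) (nat_lit 152) (nat_lit 3001230017651) (nat_lit 0) (nat_lit 1722007632031) (nat_lit 1) (nat_lit 5) (nat_lit 3) (nat_lit 4) (nat_lit 1) (nat_lit 4) (nat_lit 364) (nat_lit 308) (nat_lit 228)))) (XT.nd (nat_lit 156) (nat_lit 0) (nat_lit 0) (XT.nd (nat_lit 78) (nat_lit 0) (nat_lit 0) (XT.lf (nat_lit 0) (nat_lit 2102141492252) (nat_lit 152) (nat_lit 3270226008982) (nat_lit 0) (nat_lit 2069750996576) (nat_lit 1) (nat_lit 5) (nat_lit 3) (nat_lit 4) (nat_lit 1) (nat_lit 4) (nat_lit 365) (nat_lit 308) (nat_lit 227)) (XT.lf (nat_lit 0) (nat_lit 2502046125218) (nat_lit 152) (nat_lit 3579572014794) (nat_lit 0) (nat_lit 2469655578340) (nat_lit 1) (nat_lit 5) (nat_lit 3) (nat_lit 4) (nat_lit 1) (nat_lit 4) (nat_lit 366) (nat_lit 308) (nat_lit 226))) (XT.nd (nat_lit 78) (nat_lit 0) (nat_lit 0) (XT.lf (nat_lit 0) (nat_lit 2961936188803) (nat_lit 152) (nat_lit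 3935320456940) (nat_lit 0) (nat_lit 2929545597401) (nat_lit 1) (nat_lit 5) (nat_lit 3) (nat_lit 4) (nat_lit 1) (nat_lit 4) (nat_lit 367) (nat_lit 308) (nat_lit 225)) (XT.lf (nat_lit 0) (nat_lit 3490809532076) (nat_lit 152) (nat_lit 4344431631026) (nat_lit 0) (nat_lit 3458418901958) (nat_lit 1) (nat_lit 5) (nat_lit 3) (nat_lit 4) (nat_lit 1) (nat_lit 4) (nat_lit 368) (nat_lit 308) (nat_lit 224))))) (XT.nd (nat_lit 42198) (nat_lit 0) (nat_lit 4560) (XT.nd (nat_lit 78) (nat_lit 0) (nat_lit 0) (XT.lf (nat_lit 0) (nat_lit 4099013676971) (nat_lit 152) (nat_lit 4814909886111) (nat_lit 0) (nat_lit 4066623013186) (nat_lit 1) (nat_lit 5) (nat_lit 3) (nat_lit 4) (nat_lit 1) (nat_lit 4) (nat_lit 369) (nat_lit 308) (nat_lit 223)) (XT.nd (nat_lit 78) (nat_lit 0) (nat_lit 0) (XT.lf (nat_lit 0) (nat_lit 4798448269802) (nat_lit 152) (nat_lit 5355960231534) (nat_lit 0) (nat_lit 4766057576742) (nat_lit 1)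 (nat_lit 5) (nat_lit 3) (nat_lit 4) (nat_lit 1) (nat_lit 4) (nat_lit 370) (nat_lit 308) (nat_lit 222)) (XT.lf (nat_lit 0) (nat_lit 5602797900427) (nat_lit 152) (nat_lit 5978168434921) (nat_lit 0) (nat_lit 5570407181911) (nat_lit 1) (nat_lit 5) (nat_lit 3) (nat_lit 4) (nat_lit 1) (nat_lit 4) (nat_lit 371) (nat_lit 308) (nat_lit 221)))) (XT.nd (nat_lit 156) (nat_lit 0) (nat_lit 76) (XT.nd (nat_lit 78) (nat_lit 0) (nat_lit 76) (XT.lf (nat_lit 0) (nat_lit 4757215142) (nat_lit 532) (nat_lit 1253336809) (nat_lit 532) (nat_lit 1253336809) (nat_lit 61) (nat_lit 3) (nat_lit 68) (nat_lit 3) (nat_lit 68) (nat_lit 5) (nat_lit 309) (nat_lit 309) (nat_lit 282)) (XT.lf (nat_lit 0) (nat_lit 11036524389) (nat_lit 456) (nat_lit 4380034520) (nat_lit 532) (nat_lit 135465912) (nat_lit 62) (nat_lit 5) (nat_lit 68) (nat_lit 5) (nat_lit 69) (nat_lit 5) (nat_lit 310) (nat_lit 309) (nat_lit 281))) (XT.nd (nat_lit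 78) (nat_lit 0) (nat_lit 76) (XT.lf (nat_lit 76) (nat_lit 10455618584) (nat_lit 0) (nat_lit 2894343284) (nat_lit 532) (nat_lit 3335021643) (nat_lit 63) (nat_lit 5) (nat_lit 62) (nat_lit 5) (nat_lit 69) (nat_lit 5) (nat_lit 311) (nat_lit 309) (nat_lit 280)) (XT.lf (nat_lit 76) (nat_lit 9956828718) (nat_lit 0) (nat_lit 6616573130) (nat_lit 532) (nat_lit 1369546629) (nat_lit 64) (nat_lit 5) (nat_lit 63) (nat_lit 5) (nat_lit 70) (nat_lit 5) (nat_lit 312) (nat_lit 309) (nat_lit 279)))))) (XT.nd (nat_lit 546) (nat_lit 1216) (nat_lit 0) (XT.nd (nat_lit 234) (nat_lit 836) (nat_lit 0) (XT.nd (nat_lit 78) (nat_lit 608) (nat_lit 0) (XT.lf (nat_lit 0) (nat_lit 1481245324) (nat_lit 532) (nat_lit 9663105074) (nat_lit 76) (nat_lit 8192821282) (nat_lit 57) (nat_lit 5) (nat_lit 64) (nat_lit 5) (nat_lit 58) (nat_lit 5) (nat_lit 313) (nat_lit 309) (nat_lit 278)) (XT.nd (nat_lit 78) (nat_lit 228) (nat_lit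 0) (XT.lf (nat_lit 0) (nat_lit 5376510508) (nat_lit 456) (nat_lit 11257024162) (nat_lit 76) (nat_lit 4248383141) (nat_lit 52) (nat_lit 5) (nat_lit 58) (nat_lit 5) (nat_lit 53) (nat_lit 5) (nat_lit 314) (nat_lit 309) (nat_lit 277)) (XT.lf (nat_lit 0) (nat_lit 9869819013) (nat_lit 228) (nat_lit 760203739) (nat_lit 304) (nat_lit 11966498275) (nat_lit 49) (nat_lit 5) (nat_lit 52) (nat_lit 5) (nat_lit 53) (nat_lit 5) (nat_lit 315) (nat_lit 309) (nat_lit 276)))) (XT.nd (nat_lit 156) (nat_lit 456) (nat_lit 0) (XT.nd (nat_lit 78) (nat_lit 152) (nat_lit 0) (XT.lf (nat_lit 0) (nat_lit 10330174533) (nat_lit 228) (nat_lit 7292884418) (nat_lit 304) (nat_lit 6869189699) (nat_lit 46) (nat_lit 5) (nat_lit 49) (nat_lit 5) (nat_lit 50) (nat_lit 5) (nat_lit 316) (nat_lit 309) (nat_lit 275)) (XT.lf (nat_lit 0) (nat_lit 11173530567) (nat_lit 152) (nat_lit 15380262937) (nat_lit 228) (nat_lit 47489170) (nat_lit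 44) (nat_lit 5) (nat_lit 46) (nat_lit 5) (nat_lit 47) (nat_lit 5) (nat_lit 317) (nat_lit 309) (nat_lit 274))) (XT.nd (nat_lit 78) (nat_lit 152) (nat_lit 0) (XT.lf (nat_lit 0) (nat_lit 8381400091) (nat_lit 304) (nat_lit 16706806158) (nat_lit 76) (nat_lit 3845581243) (nat_lit 40) (nat_lit 5) (nat_lit 44) (nat_lit 5) (nat_lit 41) (nat_lit 5) (nat_lit 318) (nat_lit 309) (nat_lit 273)) (XT.lf (nat_lit 0) (nat_lit 13568085074) (nat_lit 152) (nat_lit 5675879847) (nat_lit 228) (nat_lit 12278364800) (nat_lit 38) (nat_lit 5) (nat_lit 40) (nat_lit 5) (nat_lit 41) (nat_lit 5) (nat_lit 319) (nat_lit 309) (nat_lit 272))))) (XT.nd (nat_lit 312) (nat_lit 532) (nat_lit 0) (XT.nd (nat_lit 156) (nat_lit 304) (nat_lit 0) (XT.nd (nat_lit 78) (nat_lit 228) (nat_lit 0) (XT.lf (nat_lit 0) (nat_lit 15230495466) (nat_lit 152) (nat_lit 17734367084) (nat_lit 228) (nat_lit 1436003312) (nat_lit 36) (nat_lit 5) (nat_lit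 38) (nat_lit 5) (nat_lit 39) (nat_lit 5) (nat_lit 320) (nat_lit 309) (nat_lit 271)) (XT.lf (nat_lit 0) (nat_lit 11688694137) (nat_lit 228) (nat_lit 20556356779) (nat_lit 76) (nat_lit 5348296821) (nat_lit 33) (nat_lit 5) (nat_lit 36) (nat_lit 5) (nat_lit 34) (nat_lit 5) (nat_lit 321) (nat_lit 309) (nat_lit 270))) (XT.nd (nat_lit 78) (nat_lit 152) (nat_lit 0) (XT.lf (nat_lit 0) (nat_lit 18971598213) (nat_lit 152) (nat_lit 9216137394) (nat_lit 228) (nat_lit 12954748937) (nat_lit 31) (nat_lit 5) (nat_lit 33) (nat_lit 5) (nat_lit 34) (nat_lit 5) (nat_lit 322) (nat_lit 309) (nat_lit 269)) (XT.lf (nat_lit 0) (nat_lit 3387432033) (nat_lit 152) (nat_lit 24115060660) (nat_lit 76) (nat_lit 17594049635) (nat_lit 29) (nat_lit 5) (nat_lit 31) (nat_lit 5) (nat_lit 30) (nat_lit 5) (nat_lit 323) (nat_lit 309) (nat_lit 268)))) (XT.nd (nat_lit 156) (nat_lit 304) (nat_lit 0) (XT.nd (nat_lit 78) (nat_lit 76)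 (nat_lit 0) (XT.lf (nat_lit 0) (nat_lit 22824860885) (nat_lit 152) (nat_lit 50362682) (nat_lit 228) (nat_lit 26624672259) (nat_lit 27) (nat_lit 5) (nat_lit 29) (nat_lit 5) (nat_lit 30) (nat_lit 5) (nat_lit 324) (nat_lit 309) (nat_lit 267)) (XT.lf (nat_lit 0) (nat_lit 24148219812) (nat_lit 76) (nat_lit 23172648516) (nat_lit 152) (nat_lit 7080121377) (nat_lit 26) (nat_lit 5) (nat_lit 27) (nat_lit 5) (nat_lit 28) (nat_lit 4) (nat_lit 325) (nat_lit 309) (nat_lit 266))) (XT.nd (nat_lit 78) (nat_lit 76) (nat_lit 0) (XT.lf (nat_lit 0) (nat_lit 16221700870) (nat_lit 228) (nat_lit 35057961365) (nat_lit 76) (nat_lit 8600311869) (nat_lit 23) (nat_lit 5) (nat_lit 26) (nat_lit 5) (nat_lit 24) (nat_lit 4) (nat_lit 326) (nat_lit 309) (nat_lit 265)) (XT.lf (nat_lit 0) (nat_lit 24192717011) (nat_lit 76) (nat_lit 20524115524) (nat_lit 152) (nat_lit 21279889506) (nat_lit 22) (nat_lit 5) (nat_lit 23) (nat_lit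 5) (nat_lit 24) (nat_lit 4) (nat_lit 327) (nat_lit 309) (nat_lit 264))))))))
noncomputable def xc34 : XT := (XT.nd (nat_lit 2184) (nat_lit 76) (nat_lit 0) (XT.nd (nat_lit 1092) (nat_lit 380) (nat_lit 0) (XT.nd (nat_lit 546) (nat_lit 456) (nat_lit 0) (XT.nd (nat_lit 234) (nat_lit 380) (nat_lit 0) (XT.nd (nat_lit 78) (nat_lit 152) (nat_lit 0) (XT.lf (nat_lit 0) (nat_lit 6200722807) (nat_lit 152) (nat_lit 50838595073) (nat_lit 76) (nat_lit 15825631947) (nat_lit 20) (nat_lit 5) (nat_lit 22) (nat_lit 5) (nat_lit 21) (nat_lit 4) (nat_lit 328) (nat_lit 309) (nat_lit 263)) (XT.nd (nat_lit 78) (nat_lit 76) (nat_lit 0) (XT.lf (nat_lit 0) (nat_lit 16921908520) (nat_lit 76) (nat_lit 21862440724) (nat_lit 152) (nat_lit 41755576186) (nat_lit 19) (nat_lit 5) (nat_lit 20) (nat_lit 5) (nat_lit 21) (nat_lit 4) (nat_lit 329) (nat_lit 309) (nat_lit 262)) (XT.lf (nat_lit 0) (nat_lit 8589835554) (nat_lit 76)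 (nat_lit 69821029999) (nat_lit 76) (nat_lit 10782859314) (nat_lit 18) (nat_lit 4) (nat_lit 19) (nat_lit 5) (nat_lit 19) (nat_lit 4) (nat_lit 330) (nat_lit 309) (nat_lit 261)))) (XT.nd (nat_lit 156) (nat_lit 228) (nat_lit 0) (XT.nd (nat_lit 78) (nat_lit 76) (nat_lit 0) (XT.lf (nat_lit 0) (nat_lit 26082514158) (nat_lit 152) (nat_lit 4795950600) (nat_lit 76) (nat_lit 68020218789) (nat_lit 17) (nat_lit 5) (nat_lit 19) (nat_lit 5) (nat_lit 18) (nat_lit 4) (nat_lit 331) (nat_lit 309) (nat_lit 260)) (XT.lf (nat_lit 0) (nat_lit 70316920271) (nat_lit 152) (nat_lit 23886188994) (nat_lit 0) (nat_lit 15635659061) (nat_lit 16) (nat_lit 5) (nat_lit 18) (nat_lit 4) (nat_lit 16) (nat_lit 4) (nat_lit 332) (nat_lit 309) (nat_lit 259))) (XT.nd (nat_lit 78) (nat_lit 76) (nat_lit 0) (XT.lf (nat_lit 0) (nat_lit 1586763038) (nat_lit 152) (nat_lit 51387381897) (nat_lit 76) (nat_lit 69227421384) (nat_lit 14) (nat_lit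 5) (nat_lit 16) (nat_lit 5) (nat_lit 15) (nat_lit 4) (nat_lit 333) (nat_lit 309) (nat_lit 258)) (XT.lf (nat_lit 0) (nat_lit 45968272078) (nat_lit 76) (nat_lit 2426847932) (nat_lit 152) (nat_lit 87791656119) (nat_lit 13) (nat_lit 5) (nat_lit 14) (nat_lit 5) (nat_lit 15) (nat_lit 4) (nat_lit 334) (nat_lit 309) (nat_lit 257))))) (XT.nd (nat_lit 234) (nat_lit 228) (nat_lit 0) (XT.nd (nat_lit 78) (nat_lit 152) (nat_lit 0) (XT.lf (nat_lit 0) (nat_lit 7883172953) (nat_lit 76) (nat_lit 97394584153) (nat_lit 76) (nat_lit 46747770381) (nat_lit 12) (nat_lit 4) (nat_lit 13) (nat_lit 5) (nat_lit 13) (nat_lit 4) (nat_lit 335) (nat_lit 309) (nat_lit 256)) (XT.nd (nat_lit 78) (nat_lit 76) (nat_lit 0) (XT.lf (nat_lit 0) (nat_lit 3181563241) (nat_lit 152) (nat_lit 44033172960) (nat_lit 76) (nat_lit 122804365260) (nat_lit 11) (nat_lit 5) (nat_lit 13) (nat_lit 5) (nat_lit 12) (nat_lit 4) (nat_lit 336) (nat_lit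 309) (nat_lit 255)) (XT.lf (nat_lit 0) (nat_lit 60000141671) (nat_lit 152) (nat_lit 117343005583) (nat_lit 0) (nat_lit 13098000841) (nat_lit 10) (nat_lit 5) (nat_lit 12) (nat_lit 4) (nat_lit 10) (nat_lit 4) (nat_lit 337) (nat_lit 309) (nat_lit 254)))) (XT.nd (nat_lit 156) (nat_lit 152) (nat_lit 0) (XT.nd (nat_lit 78) (nat_lit 76) (nat_lit 0) (XT.lf (nat_lit 0) (nat_lit 127954142870) (nat_lit 152) (nat_lit 4714155317) (nat_lit 0) (nat_lit 81049193995) (nat_lit 10) (nat_lit 5) (nat_lit 12) (nat_lit 4) (nat_lit 10) (nat_lit 4) (nat_lit 338) (nat_lit 309) (nat_lit 253)) (XT.lf (nat_lit 0) (nat_lit 131365920157) (nat_lit 76) (nat_lit 77887300709) (nat_lit 76) (nat_lit 30979910054) (nat_lit 9) (nat_lit 4) (nat_lit 10) (nat_lit 5) (nat_lit 10) (nat_lit 4) (nat_lit 339) (nat_lit 309) (nat_lit 252))) (XT.nd (nat_lit 78) (nat_lit 0) (nat_lit 0) (XT.lf (nat_lit 0) (nat_lit 17517268851) (nat_lit 76)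 (nat_lit 13457145952) (nat_lit 152) (nat_lit 239645677686) (nat_lit 7) (nat_lit 5) (nat_lit 8) (nat_lit 5) (nat_lit 9) (nat_lit 4) (nat_lit 340) (nat_lit 309) (nat_lit 251)) (XT.lf (nat_lit 0) (nat_lit 105143437928) (nat_lit 152) (nat_lit 138269821639) (nat_lit 0) (nat_lit 61706993228) (nat_lit 7) (nat_lit 5) (nat_lit 9) (nat_lit 4) (nat_lit 7) (nat_lit 4) (nat_lit 341) (nat_lit 309) (nat_lit 250)))))) (XT.nd (nat_lit 546) (nat_lit 152) (nat_lit 0) (XT.nd (nat_lit 234) (nat_lit 152) (nat_lit 0) (XT.nd (nat_lit 78) (nat_lit 76) (nat_lit 0) (XT.lf (nat_lit 0) (nat_lit 190804387965) (nat_lit 152) (nat_lit 6595267334) (nat_lit 0) (nat_lit 147366456682) (nat_lit 7) (nat_lit 5) (nat_lit 9) (nat_lit 4) (nat_lit 7) (nat_lit 4) (nat_lit 342) (nat_lit 309) (nat_lit 249)) (XT.nd (nat_lit 78) (nat_lit 0) (nat_lit 0) (XT.lf (nat_lit 0) (nat_lit 152446727987) (nat_lit 76) (nat_lit 140529214827) (nat_lit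 76) (nat_lit 97089990864) (nat_lit 6) (nat_lit 4) (nat_lit 7) (nat_lit 5) (nat_lit 7) (nat_lit 4) (nat_lit 343) (nat_lit 309) (nat_lit 248)) (XT.lf (nat_lit 0) (nat_lit 335735491941) (nat_lit 76) (nat_lit 74925290565) (nat_lit 76) (nat_lit 31484942532) (nat_lit 6) (nat_lit 4) (nat_lit 7) (nat_lit 5) (nat_lit 7) (nat_lit 4) (nat_lit 344) (nat_lit 309) (nat_lit 247)))) (XT.nd (nat_lit 156) (nat_lit 0) (nat_lit 0) (XT.nd (nat_lit 78) (nat_lit 0) (nat_lit 0) (XT.lf (nat_lit 0) (nat_lit 42925292409) (nat_lit 152) (nat_lit 456232687071) (nat_lit 0) (nat_lit 2701842885) (nat_lit 4) (nat_lit 5) (nat_lit 6) (nat_lit 4) (nat_lit 4) (nat_lit 4) (nat_lit 345) (nat_lit 309) (nat_lit 246)) (XT.lf (nat_lit 0) (nat_lit 131932817785) (nat_lit 152) (nat_lit 346400211151) (nat_lit 0) (nat_lit 91708581263) (nat_lit 4) (nat_lit 5) (nat_lit 6) (nat_lit 4) (nat_lit 4) (nat_lit 4) (nat_lit 346) (nat_lit 309) (nat_lit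 245))) (XT.nd (nat_lit 78) (nat_lit 0) (nat_lit 0) (XT.lf (nat_lit 0) (nat_lit 234288232323) (nat_lit 152) (nat_lit 220099381930) (nat_lit 0) (nat_lit 194063311454) (nat_lit 4) (nat_lit 5) (nat_lit 6) (nat_lit 4) (nat_lit 4) (nat_lit 4) (nat_lit 347) (nat_lit 309) (nat_lit 244)) (XT.lf (nat_lit 0) (nat_lit 351994141958) (nat_lit 152) (nat_lit 74859096228) (nat_lit 0) (nat_lit 311768626005) (nat_lit 4) (nat_lit 5) (nat_lit 6) (nat_lit 4) (nat_lit 4) (nat_lit 4) (nat_lit 348) (nat_lit 309) (nat_lit 243))))) (XT.nd (nat_lit 234) (nat_lit 76) (nat_lit 0) (XT.nd (nat_lit 78) (nat_lit 0) (nat_lit 0) (XT.lf (nat_lit 0) (nat_lit 97015407304) (nat_lit 76) (nat_lit 392671303974) (nat_lit 76) (nat_lit 352445270557) (nat_lit 3) (nat_lit 4) (nat_lit 4) (nat_lit 5) (nat_lit 4) (nat_lit 4) (nat_lit 349) (nat_lit 309) (nat_lit 242)) (XT.nd (nat_lit 78) (nat_lit 0) (nat_lit 0) (XT.lf (nat_lit 0) (nat_lit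 299199814387) (nat_lit 76) (nat_lit 351010555034) (nat_lit 76) (nat_lit 310784071648) (nat_lit 3) (nat_lit 4) (nat_lit 4) (nat_lit 5) (nat_lit 4) (nat_lit 4) (nat_lit 350) (nat_lit 309) (nat_lit 241)) (XT.lf (nat_lit 0) (nat_lit 531707959551) (nat_lit 76) (nat_lit 303102670107) (nat_lit 76) (nat_lit 262875795444) (nat_lit 3) (nat_lit 4) (nat_lit 4) (nat_lit 5) (nat_lit 4) (nat_lit 4) (nat_lit 351) (nat_lit 309) (nat_lit 240)))) (XT.nd (nat_lit 156) (nat_lit 76) (nat_lit 0) (XT.nd (nat_lit 78) (nat_lit 0) (nat_lit 0) (XT.lf (nat_lit 0) (nat_lit 799088915201) (nat_lit 76) (nat_lit 248010321012) (nat_lit 76) (nat_lit 207783106108) (nat_lit 3) (nat_lit 4) (nat_lit 4) (nat_lit 5) (nat_lit 4) (nat_lit 4) (nat_lit 352) (nat_lit 309) (nat_lit 239)) (XT.lf (nat_lit 0) (nat_lit 1106574047862) (nat_lit 76) (nat_lit 184655613962) (nat_lit 76) (nat_lit 144428103196) (nat_lit 3) (nat_lit 4) (nat_lit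 4) (nat_lit 5) (nat_lit 4) (nat_lit 4) (nat_lit 353) (nat_lit 309) (nat_lit 238))) (XT.nd (nat_lit 78) (nat_lit 76) (nat_lit 0) (XT.lf (nat_lit 0) (nat_lit 1460179370997) (nat_lit 76) (nat_lit 111799000340) (nat_lit 76) (nat_lit 71571232302) (nat_lit 3) (nat_lit 4) (nat_lit 4) (nat_lit 5) (nat_lit 4) (nat_lit 4) (nat_lit 354) (nat_lit 309) (nat_lit 237)) (XT.lf (nat_lit 0) (nat_lit 11602025012) (nat_lit 152) (nat_lit 16095779726) (nat_lit 76) (nat_lit 1854904004689) (nat_lit 2) (nat_lit 5) (nat_lit 4) (nat_lit 5) (nat_lit 3) (nat_lit 4) (nat_lit 355) (nat_lit 309) (nat_lit 236))))))) (XT.nd (nat_lit 1092) (nat_lit 0) (nat_lit 0) (XT.nd (nat_lit 546) (nat_lit 0) (nat_lit 0) (XT.nd (nat_lit 234) (nat_lit 0) (nat_lit 0) (XT.nd (nat_lit 78) (nat_lit 0) (nat_lit 0) (XT.lf (nat_lit 0) (nat_lit 109371211940) (nat_lit 152) (nat_lit 1975360402946) (nat_lit 0) (nat_lit 72122891305) (nat_lit 1) (nat_lit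 5) (nat_lit 3) (nat_lit 4) (nat_lit 1) (nat_lit 4) (nat_lit 356) (nat_lit 309) (nat_lit 235)) (XT.nd (nat_lit 78) (nat_lit 0) (nat_lit 0) (XT.lf (nat_lit 0) (nat_lit 223051682871) (nat_lit 152) (nat_lit 2063290546591) (nat_lit 0) (nat_lit 185803205607) (nat_lit 1) (nat_lit 5) (nat_lit 3) (nat_lit 4) (nat_lit 1) (nat_lit 4) (nat_lit 357) (nat_lit 309) (nat_lit 234)) (XT.lf (nat_lit 0) (nat_lit 353783415861) (nat_lit 152) (nat_lit 2164411849773) (nat_lit 0) (nat_lit 316534802397) (nat_lit 1) (nat_lit 5) (nat_lit 3) (nat_lit 4) (nat_lit 1) (nat_lit 4) (nat_lit 358) (nat_lit 309) (nat_lit 233)))) (XT.nd (nat_lit 156) (nat_lit 0) (nat_lit 0) (XT.nd (nat_lit 78) (nat_lit 0) (nat_lit 0) (XT.lf (nat_lit 0) (nat_lit 504124205685) (nat_lit 152) (nat_lit 2280702772770) (nat_lit 0) (nat_lit 466875473786) (nat_lit 1) (nat_lit 5) (nat_lit 3) (nat_lit 4) (nat_lit 1) (nat_lit 4) (nat_lit 359) (nat_lit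 309) (nat_lit 232)) (XT.lf (nat_lit 0) (nat_lit 677015502579) (nat_lit 152) (nat_lit 2414438572772) (nat_lit 0) (nat_lit 639766667694) (nat_lit 1) (nat_lit 5) (nat_lit 3) (nat_lit 4) (nat_lit 1) (nat_lit 4) (nat_lit 360) (nat_lit 309) (nat_lit 231))) (XT.nd (nat_lit 78) (nat_lit 0) (nat_lit 0) (XT.lf (nat_lit 0) (nat_lit 875839962352) (nat_lit 152) (nat_lit 2568235819779) (nat_lit 0) (nat_lit 838591037914) (nat_lit 1) (nat_lit 5) (nat_lit 3) (nat_lit 4) (nat_lit 1) (nat_lit 4) (nat_lit 361) (nat_lit 309) (nat_lit 230)) (XT.lf (nat_lit 0) (nat_lit 1104487628782) (nat_lit 152) (nat_lit 2745103590362) (nat_lit 0) (nat_lit 1067238626471) (nat_lit 1) (nat_lit 5) (nat_lit 3) (nat_lit 4) (nat_lit 1) (nat_lit 4) (nat_lit 362) (nat_lit 309) (nat_lit 229))))) (XT.nd (nat_lit 234) (nat_lit 0) (nat_lit 0) (XT.nd (nat_lit 78) (nat_lit 0) (nat_lit 0) (XT.lf (nat_lit 0) (nat_lit 1367432043170) (nat_lit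 152) (nat_lit 2948502340903) (nat_lit 0) (nat_lit 1330182973143) (nat_lit 1) (nat_lit 5) (nat_lit 3) (nat_lit 4) (nat_lit 1) (nat_lit 4) (nat_lit 363) (nat_lit 309) (nat_lit 228)) (XT.nd (nat_lit 78) (nat_lit 0) (nat_lit 0) (XT.lf (nat_lit 0) (nat_lit 1669817770143) (nat_lit 152) (nat_lit 3182411612173) (nat_lit 0) (nat_lit 1632568641234) (nat_lit 1) (nat_lit 5) (nat_lit 3) (nat_lit 4) (nat_lit 1) (nat_lit 4) (nat_lit 364) (nat_lit 309) (nat_lit 227)) (XT.lf (nat_lit 0) (nat_lit 2017561052187) (nat_lit 152) (nat_lit 3451407889914) (nat_lit 0) (nat_lit 1980311872075) (nat_lit 1) (nat_lit 5) (nat_lit 3) (nat_lit 4) (nat_lit 1) (nat_lit 4) (nat_lit 365) (nat_lit 309) (nat_lit 226)))) (XT.nd (nat_lit 156) (nat_lit 0) (nat_lit 0) (XT.nd (nat_lit 78) (nat_lit 0) (nat_lit 0) (XT.lf (nat_lit 0) (nat_lit 2417465562210) (nat_lit 152) (nat_lit 3760754144778) (nat_lit 0) (nat_lit 2380216337575) (nat_lit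 1) (nat_lit 5) (nat_lit 3) (nat_lit 4) (nat_lit 1) (nat_lit 4) (nat_lit 366) (nat_lit 309) (nat_lit 225)) (XT.lf (nat_lit 0) (nat_lit 2877355518889) (nat_lit 152) (nat_lit 4116502803491) (nat_lit 0) (nat_lit 2840106255536) (nat_lit 1) (nat_lit 5) (nat_lit 3) (nat_lit 4) (nat_lit 1) (nat_lit 4) (nat_lit 367) (nat_lit 309) (nat_lit 224))) (XT.nd (nat_lit 78) (nat_lit 0) (nat_lit 0) (XT.lf (nat_lit 0) (nat_lit 3406228769199) (nat_lit 152) (nat_lit 4525614165896) (nat_lit 0) (nat_lit 3368979472181) (nat_lit 1) (nat_lit 5) (nat_lit 3) (nat_lit 4) (nat_lit 1) (nat_lit 4) (nat_lit 368) (nat_lit 309) (nat_lit 223)) (XT.lf (nat_lit 0) (nat_lit 4014432833258) (nat_lit 152) (nat_lit 4996092584737) (nat_lit 0) (nat_lit 3977183506964) (nat_lit 1) (nat_lit 5) (nat_lit 3) (nat_lit 4) (nat_lit 1) (nat_lit 4) (nat_lit 369) (nat_lit 309) (nat_lit 222)))))) (XT.nd (nat_lit 42588) (nat_lit 0) (nat_lit 2432)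 (XT.nd (nat_lit 42276) (nat_lit 0) (nat_lit 4256) (XT.nd (nat_lit 78) (nat_lit 0) (nat_lit 0) (XT.lf (nat_lit 0) (nat_lit 4713867355796) (nat_lit 152) (nat_lit 5537143072555) (nat_lit 0) (nat_lit 4676618004045) (nat_lit 1) (nat_lit 5) (nat_lit 3) (nat_lit 4) (nat_lit 1) (nat_lit 4) (nat_lit 370) (nat_lit 309) (nat_lit 221)) (XT.nd (nat_lit 42120) (nat_lit 0) (nat_lit 4560) (XT.lf (nat_lit 0) (nat_lit 5518216925297) (nat_lit 152) (nat_lit 6159351399766) (nat_lit 0) (nat_lit 5480967551410) (nat_lit 1) (nat_lit 5) (nat_lit 3) (nat_lit 4) (nat_lit 1) (nat_lit 4) (nat_lit 371) (nat_lit 309) (nat_lit 220)) (XT.lf (nat_lit 0) (nat_lit 5984896703) (nat_lit 532) (nat_lit 1163409742) (nat_lit 532) (nat_lit 1163409742) (nat_lit 61) (nat_lit 3) (nat_lit 68) (nat_lit 3) (nat_lit 68) (nat_lit 5) (nat_lit 310) (nat_lit 310) (nat_lit 280)))) (XT.nd (nat_lit 156) (nat_lit 304) (nat_lit 0) (XT.nd (nat_lit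 78) (nat_lit 0) (nat_lit 76) (XT.lf (nat_lit 76) (nat_lit 13360853113) (nat_lit 0) (nat_lit 233528479) (nat_lit 532) (nat_lit 4217164591) (nat_lit 62) (nat_lit 5) (nat_lit 61) (nat_lit 3) (nat_lit 68) (nat_lit 5) (nat_lit 311) (nat_lit 310) (nat_lit 279)) (XT.lf (nat_lit 76) (nat_lit 12565817646) (nat_lit 0) (nat_lit 3579463358) (nat_lit 532) (nat_lit 2978074413) (nat_lit 63) (nat_lit 5) (nat_lit 62) (nat_lit 5) (nat_lit 69) (nat_lit 5) (nat_lit 312) (nat_lit 310) (nat_lit 278))) (XT.nd (nat_lit 78) (nat_lit 456) (nat_lit 0) (XT.lf (nat_lit 76) (nat_lit 12010795311) (nat_lit 0) (nat_lit 7746259861) (nat_lit 532) (nat_lit 820698366) (nat_lit 64) (nat_lit 5) (nat_lit 63) (nat_lit 5) (nat_lit 70) (nat_lit 5) (nat_lit 313) (nat_lit 310) (nat_lit 277)) (XT.lf (nat_lit 0) (nat_lit 2337585567) (nat_lit 532) (nat_lit 10510645399) (nat_lit 76) (nat_lit 9338119321) (nat_lit 57) (nat_lit 5) (nat_lit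 64) (nat_lit 5) (nat_lit 58) (nat_lit 5) (nat_lit 314) (nat_lit 310) (nat_lit 276))))) (XT.nd (nat_lit 312) (nat_lit 760) (nat_lit 0) (XT.nd (nat_lit 156) (nat_lit 456) (nat_lit 0) (XT.nd (nat_lit 78) (nat_lit 228) (nat_lit 0) (XT.lf (nat_lit 0) (nat_lit 6747346030) (nat_lit 456) (nat_lit 12348519287) (nat_lit 76) (nat_lit 4872613303) (nat_lit 52) (nat_lit 5) (nat_lit 58) (nat_lit 5) (nat_lit 53) (nat_lit 5) (nat_lit 315) (nat_lit 310) (nat_lit 275)) (XT.lf (nat_lit 0) (nat_lit 11896812337) (nat_lit 228) (nat_lit 831604568) (nat_lit 304) (nat_lit 13216768281) (nat_lit 49) (nat_lit 5) (nat_lit 52) (nat_lit 5) (nat_lit 53) (nat_lit 5) (nat_lit 316) (nat_lit 310) (nat_lit 274))) (XT.nd (nat_lit 78) (nat_lit 228) (nat_lit 0) (XT.lf (nat_lit 0) (nat_lit 12416381779) (nat_lit 228) (nat_lit 8302100587) (nat_lit 304) (nat_lit 7411009254) (nat_lit 46) (nat_lit 5) (nat_lit 49) (nat_lit 5) (nat_lit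 50) (nat_lit 5) (nat_lit 317) (nat_lit 310) (nat_lit 273)) (XT.lf (nat_lit 0) (nat_lit 366421054) (nat_lit 228) (nat_lit 17195336972) (nat_lit 76) (nat_lit 12996006009) (nat_lit 43) (nat_lit 5) (nat_lit 46) (nat_lit 5) (nat_lit 44) (nat_lit 5) (nat_lit 318) (nat_lit 310) (nat_lit 272)))) (XT.nd (nat_lit 156) (nat_lit 380) (nat_lit 0) (XT.nd (nat_lit 78) (nat_lit 152) (nat_lit 0) (XT.lf (nat_lit 0) (nat_lit 10017321265) (nat_lit 304) (nat_lit 18686317846) (nat_lit 76) (nat_lit 4539613541) (nat_lit 40) (nat_lit 5) (nat_lit 44) (nat_lit 5) (nat_lit 41) (nat_lit 5) (nat_lit 319) (nat_lit 310) (nat_lit 271)) (XT.lf (nat_lit 0) (nat_lit 16085240686) (nat_lit 152) (nat_lit 6386223762) (nat_lit 228) (nat_lit 13751676198) (nat_lit 38) (nat_lit 5) (nat_lit 40) (nat_lit 5) (nat_lit 41) (nat_lit 5) (nat_lit 320) (nat_lit 310) (nat_lit 270))) (XT.nd (nat_lit 78) (nat_lit 228) (nat_lit 0) (XT.lf (nat_lit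 0) (nat_lit 17978321253) (nat_lit 152) (nat_lit 20241800374) (nat_lit 228) (nat_lit 1315800305) (nat_lit 36) (nat_lit 5) (nat_lit 38) (nat_lit 5) (nat_lit 39) (nat_lit 5) (nat_lit 321) (nat_lit 310) (nat_lit 269)) (XT.lf (nat_lit 0) (nat_lit 13733452165) (nat_lit 228) (nat_lit 23180647599) (nat_lit 76) (nat_lit 6294747480) (nat_lit 33) (nat_lit 5) (nat_lit 36) (nat_lit 5) (nat_lit 34) (nat_lit 5) (nat_lit 322) (nat_lit 310) (nat_lit 268))))))))
noncomputable def xc35 : XT := (XT.nd (nat_lit 2262) (nat_lit 152) (nat_lit 0) (XT.nd (nat_lit 1092) (nat_lit 684) (nat_lit 0) (XT.nd (nat_lit 546) (nat_lit 608) (nat_lit 0) (XT.nd (nat_lit 234) (nat_lit 532) (nat_lit 0) (XT.nd (nat_lit 78) (nat_lit 304) (nat_lit 0) (XT.lf (nat_lit 0) (nat_lit 22237634806) (nat_lit 152) (nat_lit 10441807472) (nat_lit 228) (nat_lit 14613169206) (nat_lit 31) (nat_lit 5) (nat_lit 33) (nat_lit 5) (nat_lit 34) (nat_lit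 5) (nat_lit 323) (nat_lit 310) (nat_lit 267)) (XT.nd (nat_lit 78) (nat_lit 152) (nat_lit 0) (XT.lf (nat_lit 0) (nat_lit 4144054762) (nat_lit 152) (nat_lit 27318385843) (nat_lit 76) (nat_lit 20378571976) (nat_lit 29) (nat_lit 5) (nat_lit 31) (nat_lit 5) (nat_lit 30) (nat_lit 5) (nat_lit 324) (nat_lit 310) (nat_lit 266)) (XT.lf (nat_lit 0) (nat_lit 26534016763) (nat_lit 228) (nat_lit 30281567105) (nat_lit 76) (nat_lit 90982114) (nat_lit 27) (nat_lit 5) (nat_lit 30) (nat_lit 5) (nat_lit 28) (nat_lit 4) (nat_lit 325) (nat_lit 310) (nat_lit 265)))) (XT.nd (nat_lit 156) (nat_lit 228) (nat_lit 0) (XT.nd (nat_lit 78) (nat_lit 228) (nat_lit 0) (XT.lf (nat_lit 0) (nat_lit 28130489515) (nat_lit 76) (nat_lit 26496213665) (nat_lit 152) (nat_lit 7917719965) (nat_lit 26) (nat_lit 5) (nat_lit 27) (nat_lit 5) (nat_lit 28) (nat_lit 4) (nat_lit 326) (nat_lit 310) (nat_lit 264)) (XT.lf (nat_lit 0) (nat_lit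 18852036515) (nat_lit 228) (nat_lit 39964690130) (nat_lit 76) (nat_lit 10029397706) (nat_lit 23) (nat_lit 5) (nat_lit 26) (nat_lit 5) (nat_lit 24) (nat_lit 4) (nat_lit 327) (nat_lit 310) (nat_lit 263))) (XT.nd (nat_lit 78) (nat_lit 152) (nat_lit 0) (XT.lf (nat_lit 0) (nat_lit 28143797881) (nat_lit 76) (nat_lit 23459682172) (nat_lit 152) (nat_lit 24278351417) (nat_lit 22) (nat_lit 5) (nat_lit 23) (nat_lit 5) (nat_lit 24) (nat_lit 4) (nat_lit 328) (nat_lit 310) (nat_lit 262)) (XT.lf (nat_lit 0) (nat_lit 7301286265) (nat_lit 152) (nat_lit 58150418990) (nat_lit 76) (nat_lit 18329295034) (nat_lit 20) (nat_lit 5) (nat_lit 22) (nat_lit 5) (nat_lit 21) (nat_lit 4) (nat_lit 329) (nat_lit 310) (nat_lit 261))))) (XT.nd (nat_lit 234) (nat_lit 380) (nat_lit 0) (XT.nd (nat_lit 78) (nat_lit 152) (nat_lit 0) (XT.lf (nat_lit 0) (nat_lit 19747584540) (nat_lit 76) (nat_lit 25009550592) (nat_lit 152) (nat_lit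 47851320077) (nat_lit 19) (nat_lit 5) (nat_lit 20) (nat_lit 5) (nat_lit 21) (nat_lit 4) (nat_lit 330) (nat_lit 310) (nat_lit 260)) (XT.nd (nat_lit 78) (nat_lit 76) (nat_lit 0) (XT.lf (nat_lit 0) (nat_lit 10149867429) (nat_lit 76) (nat_lit 80166823478) (nat_lit 76) (nat_lit 12244514999) (nat_lit 18) (nat_lit 4) (nat_lit 19) (nat_lit 5) (nat_lit 19) (nat_lit 4) (nat_lit 331) (nat_lit 310) (nat_lit 259)) (XT.lf (nat_lit 0) (nat_lit 30123570243) (nat_lit 152) (nat_lit 5272397204) (nat_lit 76) (nat_lit 78327190459) (nat_lit 17) (nat_lit 5) (nat_lit 19) (nat_lit 5) (nat_lit 18) (nat_lit 4) (nat_lit 332) (nat_lit 310) (nat_lit 258)))) (XT.nd (nat_lit 156) (nat_lit 152) (nat_lit 0) (XT.nd (nat_lit 78) (nat_lit 152) (nat_lit 0) (XT.lf (nat_lit 0) (nat_lit 80984229939) (nat_lit 152) (nat_lit 27239855232) (nat_lit 0) (nat_lit 18080887234) (nat_lit 16) (nat_lit 5) (nat_lit 18) (nat_lit 4) (nat_lit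 16) (nat_lit 4) (nat_lit 333) (nat_lit 310) (nat_lit 257)) (XT.lf (nat_lit 0) (nat_lit 1936834368) (nat_lit 152) (nat_lit 58879708547) (nat_lit 76) (nat_lit 79706270098) (nat_lit 14) (nat_lit 5) (nat_lit 16) (nat_lit 5) (nat_lit 15) (nat_lit 4) (nat_lit 334) (nat_lit 310) (nat_lit 256))) (XT.nd (nat_lit 78) (nat_lit 76) (nat_lit 0) (XT.lf (nat_lit 0) (nat_lit 53061028769) (nat_lit 76) (nat_lit 2695550265) (nat_lit 152) (nat_lit 100850017621) (nat_lit 13) (nat_lit 5) (nat_lit 14) (nat_lit 5) (nat_lit 15) (nat_lit 4) (nat_lit 335) (nat_lit 310) (nat_lit 255)) (XT.lf (nat_lit 0) (nat_lit 9251849681) (nat_lit 76) (nat_lit 111912904417) (nat_lit 76) (nat_lit 53656957914) (nat_lit 12) (nat_lit 4) (nat_lit 13) (nat_lit 5) (nat_lit 13) (nat_lit 4) (nat_lit 336) (nat_lit 310) (nat_lit 254)))))) (XT.nd (nat_lit 546) (nat_lit 304) (nat_lit 0) (XT.nd (nat_lit 234) (nat_lit 228) (nat_lit 0) (XT.nd (nat_lit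 78) (nat_lit 76) (nat_lit 0) (XT.lf (nat_lit 0) (nat_lit 3743864376) (nat_lit 152) (nat_lit 50471741288) (nat_lit 76) (nat_lit 141299541253) (nat_lit 11) (nat_lit 5) (nat_lit 13) (nat_lit 5) (nat_lit 12) (nat_lit 4) (nat_lit 337) (nat_lit 310) (nat_lit 253)) (XT.nd (nat_lit 78) (nat_lit 0) (nat_lit 0) (XT.lf (nat_lit 0) (nat_lit 69079593510) (nat_lit 152) (nat_lit 134787707325) (nat_lit 0) (nat_lit 15133652478) (nat_lit 10) (nat_lit 5) (nat_lit 12) (nat_lit 4) (nat_lit 10) (nat_lit 4) (nat_lit 338) (nat_lit 310) (nat_lit 252)) (XT.lf (nat_lit 0) (nat_lit 147216334378) (nat_lit 152) (nat_lit 5284975054) (nat_lit 0) (nat_lit 93268270061) (nat_lit 10) (nat_lit 5) (nat_lit 12) (nat_lit 4) (nat_lit 10) (nat_lit 4) (nat_lit 339) (nat_lit 310) (nat_lit 251)))) (XT.nd (nat_lit 156) (nat_lit 0) (nat_lit 0) (XT.nd (nat_lit 78) (nat_lit 152) (nat_lit 0) (XT.lf (nat_lit 0) (nat_lit 151195574324) (nat_lit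 76) (nat_lit 89508691237) (nat_lit 76) (nat_lit 35558780584) (nat_lit 9) (nat_lit 4) (nat_lit 10) (nat_lit 5) (nat_lit 10) (nat_lit 4) (nat_lit 340) (nat_lit 310) (nat_lit 250)) (XT.lf (nat_lit 0) (nat_lit 20262191546) (nat_lit 76) (nat_lit 15417475621) (nat_lit 152) (nat_lit 275528704344) (nat_lit 7) (nat_lit 5) (nat_lit 8) (nat_lit 5) (nat_lit 9) (nat_lit 4) (nat_lit 341) (nat_lit 310) (nat_lit 249))) (XT.nd (nat_lit 78) (nat_lit 0) (nat_lit 0) (XT.lf (nat_lit 0) (nat_lit 120967554374) (nat_lit 152) (nat_lit 158905367501) (nat_lit 0) (nat_lit 71011154136) (nat_lit 7) (nat_lit 5) (nat_lit 9) (nat_lit 4) (nat_lit 7) (nat_lit 4) (nat_lit 342) (nat_lit 310) (nat_lit 248)) (XT.lf (nat_lit 0) (nat_lit 219470785948) (nat_lit 152) (nat_lit 7493316230) (nat_lit 0) (nat_lit 169513261640) (nat_lit 7) (nat_lit 5) (nat_lit 9) (nat_lit 4) (nat_lit 7) (nat_lit 4) (nat_lit 343) (nat_lit 310) (nat_lit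 247))))) (XT.nd (nat_lit 312) (nat_lit 76) (nat_lit 0) (XT.nd (nat_lit 156) (nat_lit 152) (nat_lit 0) (XT.nd (nat_lit 78) (nat_lit 0) (nat_lit 0) (XT.lf (nat_lit 0) (nat_lit 175397255276) (nat_lit 76) (nat_lit 161566861302) (nat_lit 76) (nat_lit 111608359542) (nat_lit 6) (nat_lit 4) (nat_lit 7) (nat_lit 5) (nat_lit 7) (nat_lit 4) (nat_lit 344) (nat_lit 310) (nat_lit 246)) (XT.lf (nat_lit 0) (nat_lit 386168440158) (nat_lit 76) (nat_lit 86127792194) (nat_lit 76) (nat_lit 36168440475) (nat_lit 6) (nat_lit 4) (nat_lit 7) (nat_lit 5) (nat_lit 7) (nat_lit 4) (nat_lit 345) (nat_lit 310) (nat_lit 245))) (XT.nd (nat_lit 78) (nat_lit 0) (nat_lit 0) (XT.lf (nat_lit 0) (nat_lit 49398968967) (nat_lit 152) (nat_lit 524597406999) (nat_lit 0) (nat_lit 3139625621) (nat_lit 4) (nat_lit 5) (nat_lit 6) (nat_lit 4) (nat_lit 4) (nat_lit 4) (nat_lit 346) (nat_lit 310) (nat_lit 244)) (XT.lf (nat_lit 0) (nat_lit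 151753073233) (nat_lit 152) (nat_lit 398299214012) (nat_lit 0) (nat_lit 105493134804) (nat_lit 4) (nat_lit 5) (nat_lit 6) (nat_lit 4) (nat_lit 4) (nat_lit 4) (nat_lit 347) (nat_lit 310) (nat_lit 243)))) (XT.nd (nat_lit 156) (nat_lit 76) (nat_lit 0) (XT.nd (nat_lit 78) (nat_lit 0) (nat_lit 0) (XT.lf (nat_lit 0) (nat_lit 269457843502) (nat_lit 152) (nat_lit 253061220688) (nat_lit 0) (nat_lit 223197387608) (nat_lit 4) (nat_lit 5) (nat_lit 6) (nat_lit 4) (nat_lit 4) (nat_lit 4) (nat_lit 348) (nat_lit 310) (nat_lit 242)) (XT.lf (nat_lit 0) (nat_lit 404816199191) (nat_lit 152) (nat_lit 86041814114) (nat_lit 0) (nat_lit 358555293328) (nat_lit 4) (nat_lit 5) (nat_lit 6) (nat_lit 4) (nat_lit 4) (nat_lit 4) (nat_lit 349) (nat_lit 310) (nat_lit 241))) (XT.nd (nat_lit 78) (nat_lit 0) (nat_lit 0) (XT.lf (nat_lit 0) (nat_lit 111609958874) (nat_lit 76) (nat_lit 451550719276) (nat_lit 76) (nat_lit 405289422136)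 (nat_lit 3) (nat_lit 4) (nat_lit 4) (nat_lit 5) (nat_lit 4) (nat_lit 4) (nat_lit 350) (nat_lit 310) (nat_lit 240)) (XT.lf (nat_lit 0) (nat_lit 344116517392) (nat_lit 76) (nat_lit 403643633685) (nat_lit 76) (nat_lit 357381996304) (nat_lit 3) (nat_lit 4) (nat_lit 4) (nat_lit 5) (nat_lit 4) (nat_lit 4) (nat_lit 351) (nat_lit 310) (nat_lit 239))))))) (XT.nd (nat_lit 1092) (nat_lit 0) (nat_lit 0) (XT.nd (nat_lit 546) (nat_lit 0) (nat_lit 0) (XT.nd (nat_lit 234) (nat_lit 152) (nat_lit 0) (XT.nd (nat_lit 78) (nat_lit 0) (nat_lit 0) (XT.lf (nat_lit 0) (nat_lit 611496093350) (nat_lit 76) (nat_lit 348551979664) (nat_lit 76) (nat_lit 302290046421) (nat_lit 3) (nat_lit 4) (nat_lit 4) (nat_lit 5) (nat_lit 4) (nat_lit 4) (nat_lit 352) (nat_lit 310) (nat_lit 238)) (XT.nd (nat_lit 78) (nat_lit 0) (nat_lit 0) (XT.lf (nat_lit 0) (nat_lit 918980026279) (nat_lit 76) (nat_lit 285197877026) (nat_lit 76) (nat_lit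 238935686511) (nat_lit 3) (nat_lit 4) (nat_lit 4) (nat_lit 5) (nat_lit 4) (nat_lit 4) (nat_lit 353) (nat_lit 310) (nat_lit 237)) (XT.lf (nat_lit 0) (nat_lit 1272584306169) (nat_lit 76) (nat_lit 212341788979) (nat_lit 76) (nat_lit 166079374751) (nat_lit 3) (nat_lit 4) (nat_lit 4) (nat_lit 5) (nat_lit 4) (nat_lit 4) (nat_lit 354) (nat_lit 310) (nat_lit 236)))) (XT.nd (nat_lit 156) (nat_lit 76) (nat_lit 0) (XT.nd (nat_lit 78) (nat_lit 76) (nat_lit 0) (XT.lf (nat_lit 0) (nat_lit 1679227277628) (nat_lit 76) (nat_lit 128558270324) (nat_lit 76) (nat_lit 82295661561) (nat_lit 3) (nat_lit 4) (nat_lit 4) (nat_lit 5) (nat_lit 4) (nat_lit 4) (nat_lit 355) (nat_lit 310) (nat_lit 235)) (XT.lf (nat_lit 0) (nat_lit 13351626621) (nat_lit 152) (nat_lit 18491394548) (nat_lit 76) (nat_lit 2133148315037) (nat_lit 2) (nat_lit 5) (nat_lit 4) (nat_lit 5) (nat_lit 3) (nat_lit 4) (nat_lit 356) (nat_lit 310) (nat_lit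 234))) (XT.nd (nat_lit 78) (nat_lit 0) (nat_lit 0) (XT.lf (nat_lit 0) (nat_lit 125785600081) (nat_lit 152) (nat_lit 2271646826434) (nat_lit 0) (nat_lit 82949558397) (nat_lit 1) (nat_lit 5) (nat_lit 3) (nat_lit 4) (nat_lit 1) (nat_lit 4) (nat_lit 357) (nat_lit 310) (nat_lit 233)) (XT.lf (nat_lit 0) (nat_lit 256517006041) (nat_lit 152) (nat_lit 2372768792099) (nat_lit 0) (nat_lit 213680845923) (nat_lit 1) (nat_lit 5) (nat_lit 3) (nat_lit 4) (nat_lit 1) (nat_lit 4) (nat_lit 358) (nat_lit 310) (nat_lit 232))))) (XT.nd (nat_lit 234) (nat_lit 0) (nat_lit 0) (XT.nd (nat_lit 78) (nat_lit 0) (nat_lit 0) (XT.lf (nat_lit 0) (nat_lit 406857511491) (nat_lit 152) (nat_lit 2489060291168) (nat_lit 0) (nat_lit 364021248387) (nat_lit 1) (nat_lit 5) (nat_lit 3) (nat_lit 4) (nat_lit 1) (nat_lit 4) (nat_lit 359) (nat_lit 310) (nat_lit 231)) (XT.nd (nat_lit 78) (nat_lit 0) (nat_lit 0) (XT.lf (nat_lit 0) (nat_lit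 579748561104) (nat_lit 152) (nat_lit 2622796592102) (nat_lit 0) (nat_lit 536912208446) (nat_lit 1) (nat_lit 5) (nat_lit 3) (nat_lit 4) (nat_lit 1) (nat_lit 4) (nat_lit 360) (nat_lit 310) (nat_lit 230)) (XT.lf (nat_lit 0) (nat_lit 778572805850) (nat_lit 152) (nat_lit 2776594274702) (nat_lit 0) (nat_lit 735736375319) (nat_lit 1) (nat_lit 5) (nat_lit 3) (nat_lit 4) (nat_lit 1) (nat_lit 4) (nat_lit 361) (nat_lit 310) (nat_lit 229)))) (XT.nd (nat_lit 156) (nat_lit 0) (nat_lit 0) (XT.nd (nat_lit 78) (nat_lit 0) (nat_lit 0) (XT.lf (nat_lit 0) (nat_lit 1007220285299) (nat_lit 152) (nat_lit 2953462424063) (nat_lit 0) (nat_lit 964383787054) (nat_lit 1) (nat_lit 5) (nat_lit 3) (nat_lit 4) (nat_lit 1) (nat_lit 4) (nat_lit 362) (nat_lit 310) (nat_lit 228)) (XT.lf (nat_lit 0) (nat_lit 1270164537095) (nat_lit 152) (nat_lit 3156861503975) (nat_lit 0) (nat_lit 1227327979966) (nat_lit 1) (nat_lit 5) (nat_lit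 3) (nat_lit 4) (nat_lit 1) (nat_lit 4) (nat_lit 363) (nat_lit 310) (nat_lit 227))) (XT.nd (nat_lit 78) (nat_lit 0) (nat_lit 0) (XT.lf (nat_lit 0) (nat_lit 1572550122684) (nat_lit 152) (nat_lit 3390771061654) (nat_lit 0) (nat_lit 1529713514353) (nat_lit 1) (nat_lit 5) (nat_lit 3) (nat_lit 4) (nat_lit 1) (nat_lit 4) (nat_lit 364) (nat_lit 310) (nat_lit 226)) (XT.lf (nat_lit 0) (nat_lit 1920293281786) (nat_lit 152) (nat_lit 3659767588448) (nat_lit 0) (nat_lit 1877456628930) (nat_lit 1) (nat_lit 5) (nat_lit 3) (nat_lit 4) (nat_lit 1) (nat_lit 4) (nat_lit 365) (nat_lit 310) (nat_lit 225)))))) (XT.nd (nat_lit 42666) (nat_lit 0) (nat_lit 3192) (XT.nd (nat_lit 234) (nat_lit 0) (nat_lit 0) (XT.nd (nat_lit 78) (nat_lit 0) (nat_lit 0) (XT.lf (nat_lit 0) (nat_lit 2320197684903) (nat_lit 152) (nat_lit 3969114059879) (nat_lit 0) (nat_lit 2277360993331) (nat_lit 1) (nat_lit 5) (nat_lit 3) (nat_lit 4)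 (nat_lit 1) (nat_lit 4) (nat_lit 366) (nat_lit 310) (nat_lit 224)) (XT.nd (nat_lit 78) (nat_lit 0) (nat_lit 0) (XT.lf (nat_lit 0) (nat_lit 2780087548619) (nat_lit 152) (nat_lit 4324862906910) (nat_lit 0) (nat_lit 2737250823380) (nat_lit 1) (nat_lit 5) (nat_lit 3) (nat_lit 4) (nat_lit 1) (nat_lit 4) (nat_lit 367) (nat_lit 310) (nat_lit 223)) (XT.lf (nat_lit 0) (nat_lit 3308960718093) (nat_lit 152) (nat_lit 4733974433071) (nat_lit 0) (nat_lit 3266123963579) (nat_lit 1) (nat_lit 5) (nat_lit 3) (nat_lit 4) (nat_lit 1) (nat_lit 4) (nat_lit 368) (nat_lit 310) (nat_lit 222)))) (XT.nd (nat_lit 156) (nat_lit 0) (nat_lit 0) (XT.nd (nat_lit 78) (nat_lit 0) (nat_lit 0) (XT.lf (nat_lit 0) (nat_lit 3917164711858) (nat_lit 152) (nat_lit 5204452994308) (nat_lit 0) (nat_lit 3874327931888) (nat_lit 1) (nat_lit 5) (nat_lit 3) (nat_lit 4) (nat_lit 1) (nat_lit 4) (nat_lit 369) (nat_lit 310) (nat_lit 221)) (XT.lf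 (nat_lit 0) (nat_lit 4616599173272) (nat_lit 152) (nat_lit 5745503605949) (nat_lit 0) (nat_lit 4573762371166) (nat_lit 1) (nat_lit 5) (nat_lit 3) (nat_lit 4) (nat_lit 1) (nat_lit 4) (nat_lit 370) (nat_lit 310) (nat_lit 220))) (XT.nd (nat_lit 42198) (nat_lit 0) (nat_lit 4560) (XT.lf (nat_lit 0) (nat_lit 5420948689622) (nat_lit 152) (nat_lit 6367712040832) (nat_lit 0) (nat_lit 5378111868267) (nat_lit 1) (nat_lit 5) (nat_lit 3) (nat_lit 4) (nat_lit 1) (nat_lit 4) (nat_lit 371) (nat_lit 310) (nat_lit 219)) (XT.lf (nat_lit 0) (nat_lit 7271364131) (nat_lit 532) (nat_lit 1127768017) (nat_lit 532) (nat_lit 1127768017) (nat_lit 61) (nat_lit 3) (nat_lit 68) (nat_lit 3) (nat_lit 68) (nat_lit 5) (nat_lit 311) (nat_lit 311) (nat_lit 278))))) (XT.nd (nat_lit 312) (nat_lit 1064) (nat_lit 0) (XT.nd (nat_lit 156) (nat_lit 304) (nat_lit 0) (XT.nd (nat_lit 78) (nat_lit 0) (nat_lit 76) (XT.lf (nat_lit 76)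 (nat_lit 15749710611) (nat_lit 0) (nat_lit 569138230) (nat_lit 532) (nat_lit 4108778701) (nat_lit 62) (nat_lit 5) (nat_lit 61) (nat_lit 3) (nat_lit 68) (nat_lit 5) (nat_lit 312) (nat_lit 311) (nat_lit 277)) (XT.lf (nat_lit 76) (nat_lit 14860411482) (nat_lit 0) (nat_lit 4306151166) (nat_lit 532) (nat_lit 2776618862) (nat_lit 63) (nat_lit 5) (nat_lit 62) (nat_lit 5) (nat_lit 69) (nat_lit 5) (nat_lit 313) (nat_lit 311) (nat_lit 276))) (XT.nd (nat_lit 78) (nat_lit 456) (nat_lit 0) (XT.lf (nat_lit 76) (nat_lit 14236189492) (nat_lit 0) (nat_lit 9011942327) (nat_lit 532) (nat_lit 373458881) (nat_lit 64) (nat_lit 5) (nat_lit 63) (nat_lit 5) (nat_lit 70) (nat_lit 5) (nat_lit 314) (nat_lit 311) (nat_lit 275)) (XT.lf (nat_lit 0) (nat_lit 3167734514) (nat_lit 532) (nat_lit 11632100102) (nat_lit 76) (nat_lit 10675604589) (nat_lit 57) (nat_lit 5) (nat_lit 64) (nat_lit 5) (nat_lit 58) (nat_lit 5) (nat_lit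 315) (nat_lit 311) (nat_lit 274)))) (XT.nd (nat_lit 156) (nat_lit 456) (nat_lit 0) (XT.nd (nat_lit 78) (nat_lit 228) (nat_lit 0) (XT.lf (nat_lit 0) (nat_lit 8186184378) (nat_lit 456) (nat_lit 13749335177) (nat_lit 76) (nat_lit 5593654781) (nat_lit 52) (nat_lit 5) (nat_lit 58) (nat_lit 5) (nat_lit 53) (nat_lit 5) (nat_lit 316) (nat_lit 311) (nat_lit 273)) (XT.lf (nat_lit 0) (nat_lit 14094582181) (nat_lit 228) (nat_lit 924111052) (nat_lit 304) (nat_lit 14787408486) (nat_lit 49) (nat_lit 5) (nat_lit 52) (nat_lit 5) (nat_lit 53) (nat_lit 5) (nat_lit 317) (nat_lit 311) (nat_lit 272))) (XT.nd (nat_lit 78) (nat_lit 228) (nat_lit 0) (XT.lf (nat_lit 0) (nat_lit 14684647035) (nat_lit 228) (nat_lit 9483357834) (nat_lit 304) (nat_lit 8153239924) (nat_lit 46) (nat_lit 5) (nat_lit 49) (nat_lit 5) (nat_lit 50) (nat_lit 5) (nat_lit 318) (nat_lit 311) (nat_lit 271)) (XT.lf (nat_lit 0) (nat_lit 737680363)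 (nat_lit 228) (nat_lit 19362339204) (nat_lit 76) (nat_lit 15015839231) (nat_lit 43) (nat_lit 5) (nat_lit 46) (nat_lit 5) (nat_lit 44) (nat_lit 5) (nat_lit 319) (nat_lit 311) (nat_lit 270))))))))
noncomputable def xc36 : XT := (XT.nd (nat_lit 2184) (nat_lit 228) (nat_lit 0) (XT.nd (nat_lit 1092) (nat_lit 988) (nat_lit 0) (XT.nd (nat_lit 546) (nat_lit 760) (nat_lit 0) (XT.nd (nat_lit 234) (nat_lit 684) (nat_lit 0) (XT.nd (nat_lit 78) (nat_lit 304) (nat_lit 0) (XT.lf (nat_lit 0) (nat_lit 11806279501) (nat_lit 304) (nat_lit 21091148899) (nat_lit 76) (nat_lit 5309171913) (nat_lit 40) (nat_lit 5) (nat_lit 44) (nat_lit 5) (nat_lit 41) (nat_lit 5) (nat_lit 320) (nat_lit 311) (nat_lit 269)) (XT.nd (nat_lit 78) (nat_lit 152) (nat_lit 0) (XT.lf (nat_lit 0) (nat_lit 18862444825) (nat_lit 152) (nat_lit 7237512288) (nat_lit 228) (nat_lit 15535831543) (nat_lit 38) (nat_lit 5) (nat_lit 40) (nat_lit 5)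 (nat_lit 41) (nat_lit 5) (nat_lit 321) (nat_lit 311) (nat_lit 268)) (XT.lf (nat_lit 0) (nat_lit 21025354104) (nat_lit 152) (nat_lit 23162590829) (nat_lit 228) (nat_lit 1259405886) (nat_lit 36) (nat_lit 5) (nat_lit 38) (nat_lit 5) (nat_lit 39) (nat_lit 5) (nat_lit 322) (nat_lit 311) (nat_lit 267)))) (XT.nd (nat_lit 156) (nat_lit 304) (nat_lit 0) (XT.nd (nat_lit 78) (nat_lit 152) (nat_lit 0) (XT.lf (nat_lit 0) (nat_lit 16013851016) (nat_lit 228) (nat_lit 26310551774) (nat_lit 76) (nat_lit 7348000159) (nat_lit 33) (nat_lit 5) (nat_lit 36) (nat_lit 5) (nat_lit 34) (nat_lit 5) (nat_lit 323) (nat_lit 311) (nat_lit 266)) (XT.lf (nat_lit 0) (nat_lit 25891084837) (nat_lit 152) (nat_lit 11889552671) (nat_lit 228) (nat_lit 16589800866) (nat_lit 31) (nat_lit 5) (nat_lit 33) (nat_lit 5) (nat_lit 34) (nat_lit 5) (nat_lit 324) (nat_lit 311) (nat_lit 265))) (XT.nd (nat_lit 78) (nat_lit 152) (nat_lit 0)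 (XT.lf (nat_lit 0) (nat_lit 4953570668) (nat_lit 152) (nat_lit 31103150211) (nat_lit 76) (nat_lit 23545312325) (nat_lit 29) (nat_lit 5) (nat_lit 31) (nat_lit 5) (nat_lit 30) (nat_lit 5) (nat_lit 325) (nat_lit 311) (nat_lit 264)) (XT.lf (nat_lit 0) (nat_lit 30687202504) (nat_lit 228) (nat_lit 34526388054) (nat_lit 76) (nat_lit 215027882) (nat_lit 27) (nat_lit 5) (nat_lit 30) (nat_lit 5) (nat_lit 28) (nat_lit 4) (nat_lit 326) (nat_lit 311) (nat_lit 263))))) (XT.nd (nat_lit 234) (nat_lit 380) (nat_lit 0) (XT.nd (nat_lit 78) (nat_lit 304) (nat_lit 0) (XT.lf (nat_lit 0) (nat_lit 32622302436) (nat_lit 76) (nat_lit 30355460742) (nat_lit 152) (nat_lit 8935684485) (nat_lit 26) (nat_lit 5) (nat_lit 27) (nat_lit 5) (nat_lit 28) (nat_lit 4) (nat_lit 327) (nat_lit 311) (nat_lit 262)) (XT.nd (nat_lit 78) (nat_lit 76) (nat_lit 0) (XT.lf (nat_lit 0) (nat_lit 21828863176) (nat_lit 228) (nat_lit 45693257211)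 (nat_lit 76) (nat_lit 11638940864) (nat_lit 23) (nat_lit 5) (nat_lit 26) (nat_lit 5) (nat_lit 24) (nat_lit 4) (nat_lit 328) (nat_lit 311) (nat_lit 261)) (XT.lf (nat_lit 0) (nat_lit 32608976878) (nat_lit 76) (nat_lit 26870467631) (nat_lit 152) (nat_lit 27773774061) (nat_lit 22) (nat_lit 5) (nat_lit 23) (nat_lit 5) (nat_lit 24) (nat_lit 4) (nat_lit 329) (nat_lit 311) (nat_lit 260)))) (XT.nd (nat_lit 156) (nat_lit 152) (nat_lit 0) (XT.nd (nat_lit 78) (nat_lit 76) (nat_lit 0) (XT.lf (nat_lit 0) (nat_lit 8525367702) (nat_lit 152) (nat_lit 66635578931) (nat_lit 76) (nat_lit 21176850570) (nat_lit 20) (nat_lit 5) (nat_lit 22) (nat_lit 5) (nat_lit 21) (nat_lit 4) (nat_lit 330) (nat_lit 311) (nat_lit 259)) (XT.lf (nat_lit 0) (nat_lit 22927030154) (nat_lit 76) (nat_lit 28660978463) (nat_lit 152) (nat_lit 54902294052) (nat_lit 19) (nat_lit 5) (nat_lit 20) (nat_lit 5) (nat_lit 21) (nat_lit 4) (nat_lit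 331) (nat_lit 311) (nat_lit 258))) (XT.nd (nat_lit 78) (nat_lit 76) (nat_lit 0) (XT.lf (nat_lit 0) (nat_lit 11877683304) (nat_lit 76) (nat_lit 92095543770) (nat_lit 76) (nat_lit 13963405321) (nat_lit 18) (nat_lit 4) (nat_lit 19) (nat_lit 5) (nat_lit 19) (nat_lit 4) (nat_lit 332) (nat_lit 311) (nat_lit 257)) (XT.lf (nat_lit 0) (nat_lit 34739405561) (nat_lit 152) (nat_lit 5879554716) (nat_lit 76) (nat_lit 90154861733) (nat_lit 17) (nat_lit 5) (nat_lit 19) (nat_lit 5) (nat_lit 18) (nat_lit 4) (nat_lit 333) (nat_lit 311) (nat_lit 256)))))) (XT.nd (nat_lit 546) (nat_lit 456) (nat_lit 0) (XT.nd (nat_lit 234) (nat_lit 228) (nat_lit 0) (XT.nd (nat_lit 78) (nat_lit 228) (nat_lit 0) (XT.lf (nat_lit 0) (nat_lit 93222428987) (nat_lit 152) (nat_lit 31152478424) (nat_lit 0) (nat_lit 20868543430) (nat_lit 16) (nat_lit 5) (nat_lit 18) (nat_lit 4) (nat_lit 16) (nat_lit 4) (nat_lit 334) (nat_lit 311) (nat_lit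 255)) (XT.nd (nat_lit 78) (nat_lit 76) (nat_lit 0) (XT.lf (nat_lit 0) (nat_lit 2312090619) (nat_lit 152) (nat_lit 67548503669) (nat_lit 76) (nat_lit 91733844267) (nat_lit 14) (nat_lit 5) (nat_lit 16) (nat_lit 5) (nat_lit 15) (nat_lit 4) (nat_lit 335) (nat_lit 311) (nat_lit 254)) (XT.lf (nat_lit 0) (nat_lit 61169533465) (nat_lit 76) (nat_lit 3027803518) (nat_lit 152) (nat_lit 115894051897) (nat_lit 13) (nat_lit 5) (nat_lit 14) (nat_lit 5) (nat_lit 15) (nat_lit 4) (nat_lit 336) (nat_lit 311) (nat_lit 253)))) (XT.nd (nat_lit 156) (nat_lit 76) (nat_lit 0) (XT.nd (nat_lit 78) (nat_lit 76) (nat_lit 0) (XT.lf (nat_lit 0) (nat_lit 10780421677) (nat_lit 76) (nat_lit 128631131303) (nat_lit 76) (nat_lit 61627635420) (nat_lit 12) (nat_lit 4) (nat_lit 13) (nat_lit 5) (nat_lit 13) (nat_lit 4) (nat_lit 337) (nat_lit 311) (nat_lit 252)) (XT.lf (nat_lit 0) (nat_lit 4369766641) (nat_lit 152) (nat_lit 57916674417)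 (nat_lit 76) (nat_lit 162550821178) (nat_lit 11) (nat_lit 5) (nat_lit 13) (nat_lit 5) (nat_lit 12) (nat_lit 4) (nat_lit 338) (nat_lit 311) (nat_lit 251))) (XT.nd (nat_lit 78) (nat_lit 0) (nat_lit 0) (XT.lf (nat_lit 0) (nat_lit 79501593473) (nat_lit 152) (nat_lit 154887338588) (nat_lit 0) (nat_lit 17457349886) (nat_lit 10) (nat_lit 5) (nat_lit 12) (nat_lit 4) (nat_lit 10) (nat_lit 4) (nat_lit 339) (nat_lit 311) (nat_lit 250)) (XT.lf (nat_lit 0) (nat_lit 169351011436) (nat_lit 152) (nat_lit 5974656237) (nat_lit 0) (nat_lit 107305162340) (nat_lit 10) (nat_lit 5) (nat_lit 12) (nat_lit 4) (nat_lit 10) (nat_lit 4) (nat_lit 340) (nat_lit 311) (nat_lit 249))))) (XT.nd (nat_lit 234) (nat_lit 228) (nat_lit 0) (XT.nd (nat_lit 78) (nat_lit 152) (nat_lit 0) (XT.lf (nat_lit 0) (nat_lit 173969251603) (nat_lit 76) (nat_lit 102888337396) (nat_lit 76) (nat_lit 40841092205) (nat_lit 9) (nat_lit 4) (nat_lit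 10) (nat_lit 5) (nat_lit 10) (nat_lit 4) (nat_lit 341) (nat_lit 311) (nat_lit 248)) (XT.nd (nat_lit 78) (nat_lit 0) (nat_lit 0) (XT.lf (nat_lit 0) (nat_lit 23390240405) (nat_lit 76) (nat_lit 17686057475) (nat_lit 152) (nat_lit 316809749130) (nat_lit 7) (nat_lit 5) (nat_lit 8) (nat_lit 5) (nat_lit 9) (nat_lit 4) (nat_lit 342) (nat_lit 311) (nat_lit 247)) (XT.lf (nat_lit 0) (nat_lit 139152461259) (nat_lit 152) (nat_lit 182661832449) (nat_lit 0) (nat_lit 81699206783) (nat_lit 7) (nat_lit 5) (nat_lit 9) (nat_lit 4) (nat_lit 7) (nat_lit 4) (nat_lit 343) (nat_lit 311) (nat_lit 246)))) (XT.nd (nat_lit 156) (nat_lit 152) (nat_lit 0) (XT.nd (nat_lit 78) (nat_lit 76) (nat_lit 0) (XT.lf (nat_lit 0) (nat_lit 252425989692) (nat_lit 152) (nat_lit 8548322206) (nat_lit 0) (nat_lit 194971885257) (nat_lit 7) (nat_lit 5) (nat_lit 9) (nat_lit 4) (nat_lit 7) (nat_lit 4) (nat_lit 344) (nat_lit 311) (nat_lit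 245)) (XT.lf (nat_lit 0) (nat_lit 201769995243) (nat_lit 76) (nat_lit 185770332275) (nat_lit 76) (nat_lit 128315488746) (nat_lit 6) (nat_lit 4) (nat_lit 7) (nat_lit 5) (nat_lit 7) (nat_lit 4) (nat_lit 345) (nat_lit 311) (nat_lit 244))) (XT.nd (nat_lit 78) (nat_lit 152) (nat_lit 0) (XT.lf (nat_lit 0) (nat_lit 444148620682) (nat_lit 76) (nat_lit 99019519090) (nat_lit 76) (nat_lit 41564032870) (nat_lit 6) (nat_lit 4) (nat_lit 7) (nat_lit 5) (nat_lit 7) (nat_lit 4) (nat_lit 346) (nat_lit 311) (nat_lit 243)) (XT.lf (nat_lit 0) (nat_lit 56835190642) (nat_lit 152) (nat_lit 603233949517) (nat_lit 0) (nat_lit 3635148900) (nat_lit 4) (nat_lit 5) (nat_lit 6) (nat_lit 4) (nat_lit 4) (nat_lit 4) (nat_lit 347) (nat_lit 311) (nat_lit 242))))))) (XT.nd (nat_lit 1092) (nat_lit 0) (nat_lit 0) (XT.nd (nat_lit 546) (nat_lit 152) (nat_lit 0) (XT.nd (nat_lit 234) (nat_lit 76) (nat_lit 0) (XT.nd (nat_lit 78)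 (nat_lit 0) (nat_lit 0) (XT.lf (nat_lit 0) (nat_lit 174538970158) (nat_lit 152) (nat_lit 457997949564) (nat_lit 0) (nat_lit 121338478447) (nat_lit 4) (nat_lit 5) (nat_lit 6) (nat_lit 4) (nat_lit 4) (nat_lit 4) (nat_lit 348) (nat_lit 311) (nat_lit 241)) (XT.nd (nat_lit 78) (nat_lit 0) (nat_lit 0) (XT.lf (nat_lit 0) (nat_lit 309896464322) (nat_lit 152) (nat_lit 290980276357) (nat_lit 0) (nat_lit 256695581334) (nat_lit 4) (nat_lit 5) (nat_lit 6) (nat_lit 4) (nat_lit 4) (nat_lit 4) (nat_lit 349) (nat_lit 311) (nat_lit 240)) (XT.lf (nat_lit 0) (nat_lit 465555971935) (nat_lit 152) (nat_lit 98913192810) (nat_lit 0) (nat_lit 412354748705) (nat_lit 4) (nat_lit 5) (nat_lit 6) (nat_lit 4) (nat_lit 4) (nat_lit 4) (nat_lit 350) (nat_lit 311) (nat_lit 239)))) (XT.nd (nat_lit 156) (nat_lit 0) (nat_lit 0) (XT.nd (nat_lit 78) (nat_lit 0) (nat_lit 0) (XT.lf (nat_lit 0) (nat_lit 128383392572) (nat_lit 76)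 (nat_lit 519267236208) (nat_lit 76) (nat_lit 466065717117) (nat_lit 3) (nat_lit 4) (nat_lit 4) (nat_lit 5) (nat_lit 4) (nat_lit 4) (nat_lit 351) (nat_lit 311) (nat_lit 238)) (XT.lf (nat_lit 0) (nat_lit 395761768798) (nat_lit 76) (nat_lit 464176186599) (nat_lit 76) (nat_lit 410974410237) (nat_lit 3) (nat_lit 4) (nat_lit 4) (nat_lit 5) (nat_lit 4) (nat_lit 4) (nat_lit 352) (nat_lit 311) (nat_lit 237))) (XT.nd (nat_lit 78) (nat_lit 0) (nat_lit 0) (XT.lf (nat_lit 0) (nat_lit 703244658481) (nat_lit 76) (nat_lit 400822609536) (nat_lit 76) (nat_lit 347620609460) (nat_lit 3) (nat_lit 4) (nat_lit 4) (nat_lit 5) (nat_lit 4) (nat_lit 4) (nat_lit 353) (nat_lit 311) (nat_lit 236)) (XT.lf (nat_lit 0) (nat_lit 1056848031201) (nat_lit 76) (nat_lit 327966978512) (nat_lit 76) (nat_lit 274764783902) (nat_lit 3) (nat_lit 4) (nat_lit 4) (nat_lit 5) (nat_lit 4) (nat_lit 4) (nat_lit 354) (nat_lit 311) (nat_lit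 235))))) (XT.nd (nat_lit 234) (nat_lit 76) (nat_lit 0) (XT.nd (nat_lit 78) (nat_lit 76) (nat_lit 0) (XT.lf (nat_lit 0) (nat_lit 1463490213817) (nat_lit 76) (nat_lit 244183857268) (nat_lit 76) (nat_lit 190981493497) (nat_lit 3) (nat_lit 4) (nat_lit 4) (nat_lit 5) (nat_lit 4) (nat_lit 4) (nat_lit 355) (nat_lit 311) (nat_lit 234)) (XT.nd (nat_lit 78) (nat_lit 76) (nat_lit 0) (XT.lf (nat_lit 0) (nat_lit 1931127249030) (nat_lit 76) (nat_lit 147834010822) (nat_lit 76) (nat_lit 94631499955) (nat_lit 3) (nat_lit 4) (nat_lit 4) (nat_lit 5) (nat_lit 4) (nat_lit 4) (nat_lit 356) (nat_lit 311) (nat_lit 233)) (XT.lf (nat_lit 0) (nat_lit 15361401131) (nat_lit 152) (nat_lit 21250924422) (nat_lit 76) (nat_lit 2453127148036) (nat_lit 2) (nat_lit 5) (nat_lit 4) (nat_lit 5) (nat_lit 3) (nat_lit 4) (nat_lit 357) (nat_lit 311) (nat_lit 232)))) (XT.nd (nat_lit 156) (nat_lit 0) (nat_lit 0) (XT.nd (nat_lit 78)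 (nat_lit 0) (nat_lit 0) (XT.lf (nat_lit 0) (nat_lit 144660023344) (nat_lit 152) (nat_lit 2612380514329) (nat_lit 0) (nat_lit 95398217787) (nat_lit 1) (nat_lit 5) (nat_lit 3) (nat_lit 4) (nat_lit 1) (nat_lit 4) (nat_lit 358) (nat_lit 311) (nat_lit 231)) (XT.lf (nat_lit 0) (nat_lit 295000281513) (nat_lit 152) (nat_lit 2728672514331) (nat_lit 0) (nat_lit 245738386403) (nat_lit 1) (nat_lit 5) (nat_lit 3) (nat_lit 4) (nat_lit 1) (nat_lit 4) (nat_lit 359) (nat_lit 311) (nat_lit 230))) (XT.nd (nat_lit 78) (nat_lit 0) (nat_lit 0) (XT.lf (nat_lit 0) (nat_lit 467891116098) (nat_lit 152) (nat_lit 2862409250858) (nat_lit 0) (nat_lit 418629143116) (nat_lit 1) (nat_lit 5) (nat_lit 3) (nat_lit 4) (nat_lit 1) (nat_lit 4) (nat_lit 360) (nat_lit 311) (nat_lit 229)) (XT.lf (nat_lit 0) (nat_lit 666715173864) (nat_lit 152) (nat_lit 3016207312235) (nat_lit 0) (nat_lit 617453133166) (nat_lit 1) (nat_lit 5) (nat_lit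 3) (nat_lit 4) (nat_lit 1) (nat_lit 4) (nat_lit 361) (nat_lit 311) (nat_lit 228)))))) (XT.nd (nat_lit 546) (nat_lit 0) (nat_lit 0) (XT.nd (nat_lit 234) (nat_lit 0) (nat_lit 0) (XT.nd (nat_lit 78) (nat_lit 0) (nat_lit 0) (XT.lf (nat_lit 0) (nat_lit 895362490722) (nat_lit 152) (nat_lit 3193075790966) (nat_lit 0) (nat_lit 846100391141) (nat_lit 1) (nat_lit 5) (nat_lit 3) (nat_lit 4) (nat_lit 1) (nat_lit 4) (nat_lit 362) (nat_lit 311) (nat_lit 227)) (XT.nd (nat_lit 78) (nat_lit 0) (nat_lit 0) (XT.lf (nat_lit 0) (nat_lit 1158306601134) (nat_lit 152) (nat_lit 3396475157288) (nat_lit 0) (nat_lit 1109044450350) (nat_lit 1) (nat_lit 5) (nat_lit 3) (nat_lit 4) (nat_lit 1) (nat_lit 4) (nat_lit 363) (nat_lit 311) (nat_lit 226)) (XT.lf (nat_lit 0) (nat_lit 1460692063780) (nat_lit 152) (nat_lit 3630384964020) (nat_lit 0) (nat_lit 1411429868473) (nat_lit 1) (nat_lit 5) (nat_lit 3) (nat_lit 4) (nat_lit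 1) (nat_lit 4) (nat_lit 364) (nat_lit 311) (nat_lit 225)))) (XT.nd (nat_lit 156) (nat_lit 0) (nat_lit 0) (XT.nd (nat_lit 78) (nat_lit 0) (nat_lit 0) (XT.lf (nat_lit 0) (nat_lit 1808435115975) (nat_lit 152) (nat_lit 3899381707380) (nat_lit 0) (nat_lit 1759172881951) (nat_lit 1) (nat_lit 5) (nat_lit 3) (nat_lit 4) (nat_lit 1) (nat_lit 4) (nat_lit 365) (nat_lit 311) (nat_lit 224)) (XT.lf (nat_lit 0) (nat_lit 2208339426130) (nat_lit 152) (nat_lit 4208728367130) (nat_lit 0) (nat_lit 2159077158440) (nat_lit 1) (nat_lit 5) (nat_lit 3) (nat_lit 4) (nat_lit 1) (nat_lit 4) (nat_lit 366) (nat_lit 311) (nat_lit 223))) (XT.nd (nat_lit 78) (nat_lit 0) (nat_lit 0) (XT.lf (nat_lit 0) (nat_lit 2668229209009) (nat_lit 152) (nat_lit 4564477377917) (nat_lit 0) (nat_lit 2618966912044) (nat_lit 1) (nat_lit 5) (nat_lit 3) (nat_lit 4) (nat_lit 1) (nat_lit 4) (nat_lit 367) (nat_lit 311) (nat_lit 222)) (XT.lf (nat_lit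 0) (nat_lit 3197102308190) (nat_lit 152) (nat_lit 4973589046474) (nat_lit 0) (nat_lit 3147839985768) (nat_lit 1) (nat_lit 5) (nat_lit 3) (nat_lit 4) (nat_lit 1) (nat_lit 4) (nat_lit 368) (nat_lit 311) (nat_lit 221))))) (XT.nd (nat_lit 42510) (nat_lit 0) (nat_lit 4180) (XT.nd (nat_lit 156) (nat_lit 0) (nat_lit 0) (XT.nd (nat_lit 78) (nat_lit 0) (nat_lit 0) (XT.lf (nat_lit 0) (nat_lit 3805306240832) (nat_lit 152) (nat_lit 5444067731534) (nat_lit 0) (nat_lit 3756043896273) (nat_lit 1) (nat_lit 5) (nat_lit 3) (nat_lit 4) (nat_lit 1) (nat_lit 4) (nat_lit 369) (nat_lit 311) (nat_lit 220)) (XT.lf (nat_lit 0) (nat_lit 4504740649094) (nat_lit 152) (nat_lit 5985118450847) (nat_lit 0) (nat_lit 4455478285287) (nat_lit 1) (nat_lit 5) (nat_lit 3) (nat_lit 4) (nat_lit 1) (nat_lit 4) (nat_lit 370) (nat_lit 311) (nat_lit 219))) (XT.nd (nat_lit 42276) (nat_lit 0) (nat_lit 4560) (XT.lf (nat_lit 0) (nat_lit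 5309090119225) (nat_lit 152) (nat_lit 6607326979357) (nat_lit 0) (nat_lit 5259827738680) (nat_lit 1) (nat_lit 5) (nat_lit 3) (nat_lit 4) (nat_lit 1) (nat_lit 4) (nat_lit 371) (nat_lit 311) (nat_lit 218)) (XT.lf (nat_lit 0) (nat_lit 8656006688) (nat_lit 532) (nat_lit 1138027219) (nat_lit 532) (nat_lit 1138027219) (nat_lit 61) (nat_lit 3) (nat_lit 68) (nat_lit 3) (nat_lit 68) (nat_lit 5) (nat_lit 312) (nat_lit 312) (nat_lit 276)))) (XT.nd (nat_lit 156) (nat_lit 380) (nat_lit 0) (XT.nd (nat_lit 78) (nat_lit 0) (nat_lit 76) (XT.lf (nat_lit 76) (nat_lit 18403078002) (nat_lit 0) (nat_lit 881790990) (nat_lit 532) (nat_lit 4164822857) (nat_lit 62) (nat_lit 5) (nat_lit 61) (nat_lit 3) (nat_lit 68) (nat_lit 5) (nat_lit 313) (nat_lit 312) (nat_lit 275)) (XT.lf (nat_lit 76) (nat_lit 17399281288) (nat_lit 0) (nat_lit 5095565942) (nat_lit 532) (nat_lit 2703004537) (nat_lit 63) (nat_lit 5) (nat_lit 62)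 (nat_lit 5) (nat_lit 69) (nat_lit 5) (nat_lit 314) (nat_lit 312) (nat_lit 274))) (XT.nd (nat_lit 78) (nat_lit 0) (nat_lit 76) (XT.lf (nat_lit 0) (nat_lit 1695205) (nat_lit 532) (nat_lit 10440437101) (nat_lit 608) (nat_lit 16690311056) (nat_lit 56) (nat_lit 5) (nat_lit 63) (nat_lit 5) (nat_lit 64) (nat_lit 5) (nat_lit 315) (nat_lit 312) (nat_lit 273)) (XT.lf (nat_lit 0) (nat_lit 4005473981) (nat_lit 532) (nat_lit 13032762295) (nat_lit 76) (nat_lit 12229132324) (nat_lit 57) (nat_lit 5) (nat_lit 64) (nat_lit 5) (nat_lit 58) (nat_lit 5) (nat_lit 316) (nat_lit 312) (nat_lit 272))))))))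
noncomputable def xc37 : XT := (XT.nd (nat_lit 2262) (nat_lit 456) (nat_lit 0) (XT.nd (nat_lit 1092) (nat_lit 1140) (nat_lit 0) (XT.nd (nat_lit 546) (nat_lit 1064) (nat_lit 0) (XT.nd (nat_lit 234) (nat_lit 760) (nat_lit 0) (XT.nd (nat_lit 78) (nat_lit 456) (nat_lit 0) (XT.lf (nat_lit 0) (nat_lit 9736786093) (nat_lit 456) (nat_lit 15470365318) (nat_lit 76) (nat_lit 6425254591) (nat_lit 52) (nat_lit 5) (nat_lit 58) (nat_lit 5) (nat_lit 53) (nat_lit 5) (nat_lit 317) (nat_lit 312) (nat_lit 271)) (XT.nd (nat_lit 78) (nat_lit 228) (nat_lit 0) (XT.lf (nat_lit 0) (nat_lit 16521244361) (nat_lit 228) (nat_lit 1038354022) (nat_lit 304) (nat_lit 16694083059) (nat_lit 49) (nat_lit 5) (nat_lit 52) (nat_lit 5) (nat_lit 53) (nat_lit 5) (nat_lit 318) (nat_lit 312) (nat_lit 270)) (XT.lf (nat_lit 0) (nat_lit 17194193232) (nat_lit 228) (nat_lit 10857424579) (nat_lit 304) (nat_lit 9096890776) (nat_lit 46) (nat_lit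 5) (nat_lit 49) (nat_lit 5) (nat_lit 50) (nat_lit 5) (nat_lit 319) (nat_lit 312) (nat_lit 269)))) (XT.nd (nat_lit 156) (nat_lit 304) (nat_lit 0) (XT.nd (nat_lit 78) (nat_lit 228) (nat_lit 0) (XT.lf (nat_lit 0) (nat_lit 1087497749) (nat_lit 228) (nat_lit 21954933327) (nat_lit 76) (nat_lit 17321472069) (nat_lit 43) (nat_lit 5) (nat_lit 46) (nat_lit 5) (nat_lit 44) (nat_lit 5) (nat_lit 320) (nat_lit 312) (nat_lit 268)) (XT.lf (nat_lit 0) (nat_lit 13793750761) (nat_lit 304) (nat_lit 23953787869) (nat_lit 76) (nat_lit 6172554386) (nat_lit 40) (nat_lit 5) (nat_lit 44) (nat_lit 5) (nat_lit 41) (nat_lit 5) (nat_lit 321) (nat_lit 312) (nat_lit 267))) (XT.nd (nat_lit 78) (nat_lit 152) (nat_lit 0) (XT.lf (nat_lit 0) (nat_lit 21967363938) (nat_lit 152) (nat_lit 8242500162) (nat_lit 228) (nat_lit 17655547610) (nat_lit 38) (nat_lit 5) (nat_lit 40) (nat_lit 5) (nat_lit 41) (nat_lit 5) (nat_lit 322) (nat_lit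 312) (nat_lit 266)) (XT.lf (nat_lit 0) (nat_lit 24444022750) (nat_lit 152) (nat_lit 26549660284) (nat_lit 228) (nat_lit 1256434376) (nat_lit 36) (nat_lit 5) (nat_lit 38) (nat_lit 5) (nat_lit 39) (nat_lit 5) (nat_lit 323) (nat_lit 312) (nat_lit 265))))) (XT.nd (nat_lit 234) (nat_lit 532) (nat_lit 0) (XT.nd (nat_lit 78) (nat_lit 304) (nat_lit 0) (XT.lf (nat_lit 0) (nat_lit 18582568386) (nat_lit 228) (nat_lit 29994606778) (nat_lit 76) (nat_lit 8532650510) (nat_lit 33) (nat_lit 5) (nat_lit 36) (nat_lit 5) (nat_lit 34) (nat_lit 5) (nat_lit 324) (nat_lit 312) (nat_lit 264)) (XT.nd (nat_lit 78) (nat_lit 152) (nat_lit 0) (XT.lf (nat_lit 0) (nat_lit 30015053657) (nat_lit 152) (nat_lit 13583362947) (nat_lit 228) (nat_lit 18915440205) (nat_lit 31) (nat_lit 5) (nat_lit 33) (nat_lit 5) (nat_lit 34) (nat_lit 5) (nat_lit 325) (nat_lit 312) (nat_lit 263)) (XT.lf (nat_lit 0) (nat_lit 5838691480) (nat_lit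 152) (nat_lit 35531954684) (nat_lit 76) (nat_lit 27160250612) (nat_lit 29) (nat_lit 5) (nat_lit 31) (nat_lit 5) (nat_lit 30) (nat_lit 5) (nat_lit 326) (nat_lit 312) (nat_lit 262)))) (XT.nd (nat_lit 156) (nat_lit 304) (nat_lit 0) (XT.nd (nat_lit 78) (nat_lit 76) (nat_lit 0) (XT.lf (nat_lit 0) (nat_lit 35421158665) (nat_lit 228) (nat_lit 39480458461) (nat_lit 76) (nat_lit 330759154) (nat_lit 27) (nat_lit 5) (nat_lit 30) (nat_lit 5) (nat_lit 28) (nat_lit 4) (nat_lit 327) (nat_lit 312) (nat_lit 261)) (XT.lf (nat_lit 0) (nat_lit 37721499971) (nat_lit 76) (nat_lit 34821683464) (nat_lit 152) (nat_lit 10147724512) (nat_lit 26) (nat_lit 5) (nat_lit 27) (nat_lit 5) (nat_lit 28) (nat_lit 4) (nat_lit 328) (nat_lit 312) (nat_lit 260))) (XT.nd (nat_lit 78) (nat_lit 76) (nat_lit 0) (XT.lf (nat_lit 0) (nat_lit 25215874077) (nat_lit 228) (nat_lit 52346008410) (nat_lit 76) (nat_lit 13464278025) (nat_lit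 23) (nat_lit 5) (nat_lit 26) (nat_lit 5) (nat_lit 24) (nat_lit 4) (nat_lit 329) (nat_lit 312) (nat_lit 259)) (XT.lf (nat_lit 0) (nat_lit 37684527050) (nat_lit 76) (nat_lit 30819248084) (nat_lit 152) (nat_lit 31829193616) (nat_lit 22) (nat_lit 5) (nat_lit 23) (nat_lit 5) (nat_lit 24) (nat_lit 4) (nat_lit 330) (nat_lit 312) (nat_lit 258)))))) (XT.nd (nat_lit 546) (nat_lit 456) (nat_lit 0) (XT.nd (nat_lit 234) (nat_lit 380) (nat_lit 0) (XT.nd (nat_lit 78) (nat_lit 152) (nat_lit 0) (XT.lf (nat_lit 0) (nat_lit 9901631078) (nat_lit 152) (nat_lit 76451405067) (nat_lit 76) (nat_lit 24427602187) (nat_lit 20) (nat_lit 5) (nat_lit 22) (nat_lit 5) (nat_lit 21) (nat_lit 4) (nat_lit 331) (nat_lit 312) (nat_lit 257)) (XT.nd (nat_lit 78) (nat_lit 76) (nat_lit 0) (XT.lf (nat_lit 0) (nat_lit 26530400695) (nat_lit 76) (nat_lit 32884507298) (nat_lit 152) (nat_lit 63041816583) (nat_lit 19) (nat_lit 5) (nat_lit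 20) (nat_lit 5) (nat_lit 21) (nat_lit 4) (nat_lit 332) (nat_lit 312) (nat_lit 256)) (XT.lf (nat_lit 0) (nat_lit 13814599134) (nat_lit 76) (nat_lit 105837056259) (nat_lit 76) (nat_lit 15968852279) (nat_lit 18) (nat_lit 4) (nat_lit 19) (nat_lit 5) (nat_lit 19) (nat_lit 4) (nat_lit 333) (nat_lit 312) (nat_lit 255)))) (XT.nd (nat_lit 156) (nat_lit 228) (nat_lit 0) (XT.nd (nat_lit 78) (nat_lit 76) (nat_lit 0) (XT.lf (nat_lit 0) (nat_lit 40023889009) (nat_lit 152) (nat_lit 6622582768) (nat_lit 76) (nat_lit 103737518369) (nat_lit 17) (nat_lit 5) (nat_lit 19) (nat_lit 5) (nat_lit 18) (nat_lit 4) (nat_lit 334) (nat_lit 312) (nat_lit 254)) (XT.lf (nat_lit 0) (nat_lit 107274273152) (nat_lit 152) (nat_lit 35694268832) (nat_lit 0) (nat_lit 24055931266) (nat_lit 16) (nat_lit 5) (nat_lit 18) (nat_lit 4) (nat_lit 16) (nat_lit 4) (nat_lit 335) (nat_lit 312) (nat_lit 253))) (XT.nd (nat_lit 78) (nat_lit 76)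 (nat_lit 0) (XT.lf (nat_lit 0) (nat_lit 2722973093) (nat_lit 152) (nat_lit 77557405941) (nat_lit 76) (nat_lit 105548086241) (nat_lit 14) (nat_lit 5) (nat_lit 16) (nat_lit 5) (nat_lit 15) (nat_lit 4) (nat_lit 336) (nat_lit 312) (nat_lit 252)) (XT.lf (nat_lit 0) (nat_lit 70457893830) (nat_lit 76) (nat_lit 3427471750) (nat_lit 152) (nat_lit 133215045604) (nat_lit 13) (nat_lit 5) (nat_lit 14) (nat_lit 5) (nat_lit 15) (nat_lit 4) (nat_lit 337) (nat_lit 312) (nat_lit 251))))) (XT.nd (nat_lit 312) (nat_lit 228) (nat_lit 0) (XT.nd (nat_lit 156) (nat_lit 76) (nat_lit 0) (XT.nd (nat_lit 78) (nat_lit 76) (nat_lit 0) (XT.lf (nat_lit 0) (nat_lit 12503945831) (nat_lit 76) (nat_lit 147873847291) (nat_lit 76) (nat_lit 70812902714) (nat_lit 12) (nat_lit 4) (nat_lit 13) (nat_lit 5) (nat_lit 13) (nat_lit 4) (nat_lit 338) (nat_lit 312) (nat_lit 250)) (XT.lf (nat_lit 0) (nat_lit 5073868769) (nat_lit 152) (nat_lit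 66509031485) (nat_lit 76) (nat_lit 186976052095) (nat_lit 11) (nat_lit 5) (nat_lit 13) (nat_lit 5) (nat_lit 12) (nat_lit 4) (nat_lit 339) (nat_lit 312) (nat_lit 249))) (XT.nd (nat_lit 78) (nat_lit 0) (nat_lit 0) (XT.lf (nat_lit 0) (nat_lit 91472247191) (nat_lit 152) (nat_lit 178030817572) (nat_lit 0) (nat_lit 20116519126) (nat_lit 10) (nat_lit 5) (nat_lit 12) (nat_lit 4) (nat_lit 10) (nat_lit 4) (nat_lit 340) (nat_lit 312) (nat_lit 248)) (XT.lf (nat_lit 0) (nat_lit 194793154192) (nat_lit 152) (nat_lit 6792922669) (nat_lit 0) (nat_lit 123436212132) (nat_lit 10) (nat_lit 5) (nat_lit 12) (nat_lit 4) (nat_lit 10) (nat_lit 4) (nat_lit 341) (nat_lit 312) (nat_lit 247)))) (XT.nd (nat_lit 156) (nat_lit 0) (nat_lit 0) (XT.nd (nat_lit 78) (nat_lit 152) (nat_lit 0) (XT.lf (nat_lit 0) (nat_lit 200135974791) (nat_lit 76) (nat_lit 118286308212) (nat_lit 76) (nat_lit 46928310504) (nat_lit 9) (nat_lit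 4) (nat_lit 10) (nat_lit 5) (nat_lit 10) (nat_lit 4) (nat_lit 342) (nat_lit 312) (nat_lit 246)) (XT.lf (nat_lit 0) (nat_lit 26965861628) (nat_lit 76) (nat_lit 20305665915) (nat_lit 152) (nat_lit 364294719352) (nat_lit 7) (nat_lit 5) (nat_lit 8) (nat_lit 5) (nat_lit 9) (nat_lit 4) (nat_lit 343) (nat_lit 312) (nat_lit 245))) (XT.nd (nat_lit 78) (nat_lit 0) (nat_lit 0) (XT.lf (nat_lit 0) (nat_lit 160055405102) (nat_lit 152) (nat_lit 210001114743) (nat_lit 0) (nat_lit 93981595949) (nat_lit 7) (nat_lit 5) (nat_lit 9) (nat_lit 4) (nat_lit 7) (nat_lit 4) (nat_lit 344) (nat_lit 312) (nat_lit 244)) (XT.lf (nat_lit 0) (nat_lit 290316040019) (nat_lit 152) (nat_lit 9778403083) (nat_lit 0) (nat_lit 224241588175) (nat_lit 7) (nat_lit 5) (nat_lit 9) (nat_lit 4) (nat_lit 7) (nat_lit 4) (nat_lit 345) (nat_lit 312) (nat_lit 243))))))) (XT.nd (nat_lit 1092) (nat_lit 0) (nat_lit 0) (XT.nd (nat_lit 546) (nat_lit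 152) (nat_lit 0) (XT.nd (nat_lit 234) (nat_lit 76) (nat_lit 0) (XT.nd (nat_lit 78) (nat_lit 152) (nat_lit 0) (XT.lf (nat_lit 0) (nat_lit 232083246268) (nat_lit 76) (nat_lit 213612019566) (nat_lit 76) (nat_lit 147537008861) (nat_lit 6) (nat_lit 4) (nat_lit 7) (nat_lit 5) (nat_lit 7) (nat_lit 4) (nat_lit 346) (nat_lit 312) (nat_lit 242)) (XT.nd (nat_lit 78) (nat_lit 152) (nat_lit 0) (XT.lf (nat_lit 0) (nat_lit 510812437036) (nat_lit 76) (nat_lit 113851696910) (nat_lit 76) (nat_lit 47776200239) (nat_lit 6) (nat_lit 4) (nat_lit 7) (nat_lit 5) (nat_lit 7) (nat_lit 4) (nat_lit 347) (nat_lit 312) (nat_lit 241)) (XT.lf (nat_lit 0) (nat_lit 65380413534) (nat_lit 152) (nat_lit 693678914511) (nat_lit 0) (nat_lit 4199006820) (nat_lit 4) (nat_lit 5) (nat_lit 6) (nat_lit 4) (nat_lit 4) (nat_lit 4) (nat_lit 348) (nat_lit 312) (nat_lit 240)))) (XT.nd (nat_lit 156) (nat_lit 76) (nat_lit 0) (XT.nd (nat_lit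 78) (nat_lit 0) (nat_lit 0) (XT.lf (nat_lit 0) (nat_lit 200737158547) (nat_lit 152) (nat_lit 526662748578) (nat_lit 0) (nat_lit 139555411591) (nat_lit 4) (nat_lit 5) (nat_lit 6) (nat_lit 4) (nat_lit 4) (nat_lit 4) (nat_lit 349) (nat_lit 312) (nat_lit 239)) (XT.lf (nat_lit 0) (nat_lit 356396014723) (nat_lit 152) (nat_lit 334596975705) (nat_lit 0) (nat_lit 295213971906) (nat_lit 4) (nat_lit 5) (nat_lit 6) (nat_lit 4) (nat_lit 4) (nat_lit 4) (nat_lit 350) (nat_lit 312) (nat_lit 238))) (XT.nd (nat_lit 78) (nat_lit 76) (nat_lit 0) (XT.lf (nat_lit 0) (nat_lit 535402481423) (nat_lit 152) (nat_lit 113723787292) (nat_lit 0) (nat_lit 474220181335) (nat_lit 4) (nat_lit 5) (nat_lit 6) (nat_lit 4) (nat_lit 4) (nat_lit 4) (nat_lit 351) (nat_lit 312) (nat_lit 237)) (XT.lf (nat_lit 0) (nat_lit 147665052585) (nat_lit 76) (nat_lit 597145154562) (nat_lit 76) (nat_lit 535962630760) (nat_lit 3) (nat_lit 4)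 (nat_lit 4) (nat_lit 5) (nat_lit 4) (nat_lit 4) (nat_lit 352) (nat_lit 312) (nat_lit 236))))) (XT.nd (nat_lit 234) (nat_lit 152) (nat_lit 0) (XT.nd (nat_lit 78) (nat_lit 0) (nat_lit 0) (XT.lf (nat_lit 0) (nat_lit 455147035099) (nat_lit 76) (nat_lit 533792034522) (nat_lit 76) (nat_lit 472609316186) (nat_lit 3) (nat_lit 4) (nat_lit 4) (nat_lit 5) (nat_lit 4) (nat_lit 4) (nat_lit 353) (nat_lit 312) (nat_lit 235)) (XT.nd (nat_lit 78) (nat_lit 0) (nat_lit 0) (XT.lf (nat_lit 0) (nat_lit 808749618976) (nat_lit 76) (nat_lit 460936800909) (nat_lit 76) (nat_lit 399753913412) (nat_lit 3) (nat_lit 4) (nat_lit 4) (nat_lit 5) (nat_lit 4) (nat_lit 4) (nat_lit 354) (nat_lit 312) (nat_lit 234)) (XT.lf (nat_lit 0) (nat_lit 1215391115640) (nat_lit 76) (nat_lit 377154025239) (nat_lit 76) (nat_lit 315970990647) (nat_lit 3) (nat_lit 4) (nat_lit 4) (nat_lit 5) (nat_lit 4) (nat_lit 4) (nat_lit 355) (nat_lit 312)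 (nat_lit 233)))) (XT.nd (nat_lit 156) (nat_lit 152) (nat_lit 0) (XT.nd (nat_lit 78) (nat_lit 0) (nat_lit 0) (XT.lf (nat_lit 0) (nat_lit 1683027554375) (nat_lit 76) (nat_lit 280804479292) (nat_lit 76) (nat_lit 219621316791) (nat_lit 3) (nat_lit 4) (nat_lit 4) (nat_lit 5) (nat_lit 4) (nat_lit 4) (nat_lit 356) (nat_lit 312) (nat_lit 232)) (XT.lf (nat_lit 0) (nat_lit 2220808343764) (nat_lit 76) (nat_lit 170003063257) (nat_lit 76) (nat_lit 108819789531) (nat_lit 3) (nat_lit 4) (nat_lit 4) (nat_lit 5) (nat_lit 4) (nat_lit 4) (nat_lit 357) (nat_lit 312) (nat_lit 231))) (XT.nd (nat_lit 78) (nat_lit 76) (nat_lit 0) (XT.lf (nat_lit 0) (nat_lit 17670927381) (nat_lit 152) (nat_lit 24427841490) (nat_lit 76) (nat_lit 2821101200009) (nat_lit 2) (nat_lit 5) (nat_lit 4) (nat_lit 5) (nat_lit 3) (nat_lit 4) (nat_lit 358) (nat_lit 312) (nat_lit 230)) (XT.lf (nat_lit 0) (nat_lit 166364004729) (nat_lit 152)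 (nat_lit 3004227507493) (nat_lit 0) (nat_lit 109712657927) (nat_lit 1) (nat_lit 5) (nat_lit 3) (nat_lit 4) (nat_lit 1) (nat_lit 4) (nat_lit 359) (nat_lit 312) (nat_lit 229)))))) (XT.nd (nat_lit 546) (nat_lit 0) (nat_lit 0) (XT.nd (nat_lit 234) (nat_lit 0) (nat_lit 0) (XT.nd (nat_lit 78) (nat_lit 0) (nat_lit 0) (XT.lf (nat_lit 0) (nat_lit 339254652334) (nat_lit 152) (nat_lit 3137964622797) (nat_lit 0) (nat_lit 282603237816) (nat_lit 1) (nat_lit 5) (nat_lit 3) (nat_lit 4) (nat_lit 1) (nat_lit 4) (nat_lit 360) (nat_lit 312) (nat_lit 228)) (XT.nd (nat_lit 78) (nat_lit 0) (nat_lit 0) (XT.lf (nat_lit 0) (nat_lit 538078547508) (nat_lit 152) (nat_lit 3291763013545) (nat_lit 0) (nat_lit 481427074107) (nat_lit 1) (nat_lit 5) (nat_lit 3) (nat_lit 4) (nat_lit 1) (nat_lit 4) (nat_lit 361) (nat_lit 312) (nat_lit 227)) (XT.lf (nat_lit 0) (nat_lit 766725722983) (nat_lit 152) (nat_lit 3468631778686) (nat_lit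 0) (nat_lit 710074198379) (nat_lit 1) (nat_lit 5) (nat_lit 3) (nat_lit 4) (nat_lit 1) (nat_lit 4) (nat_lit 362) (nat_lit 312) (nat_lit 226)))) (XT.nd (nat_lit 156) (nat_lit 0) (nat_lit 0) (XT.nd (nat_lit 78) (nat_lit 0) (nat_lit 0) (XT.lf (nat_lit 0) (nat_lit 1029669710452) (nat_lit 152) (nat_lit 3672031394060) (nat_lit 0) (nat_lit 973018141324) (nat_lit 1) (nat_lit 5) (nat_lit 3) (nat_lit 4) (nat_lit 1) (nat_lit 4) (nat_lit 363) (nat_lit 312) (nat_lit 225)) (XT.lf (nat_lit 0) (nat_lit 1332055066192) (nat_lit 152) (nat_lit 3905941417358) (nat_lit 0) (nat_lit 1275403458348) (nat_lit 1) (nat_lit 5) (nat_lit 3) (nat_lit 4) (nat_lit 1) (nat_lit 4) (nat_lit 364) (nat_lit 312) (nat_lit 224))) (XT.nd (nat_lit 78) (nat_lit 0) (nat_lit 0) (XT.lf (nat_lit 0) (nat_lit 1679798025424) (nat_lit 152) (nat_lit 4174938349037) (nat_lit 0) (nat_lit 1623146383914) (nat_lit 1) (nat_lit 5) (nat_lit 3) (nat_lit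 4) (nat_lit 1) (nat_lit 4) (nat_lit 365) (nat_lit 312) (nat_lit 223)) (XT.lf (nat_lit 0) (nat_lit 2079702254742) (nat_lit 152) (nat_lit 4484285172543) (nat_lit 0) (nat_lit 2023050583957) (nat_lit 1) (nat_lit 5) (nat_lit 3) (nat_lit 4) (nat_lit 1) (nat_lit 4) (nat_lit 366) (nat_lit 312) (nat_lit 222))))) (XT.nd (nat_lit 312) (nat_lit 0) (nat_lit 0) (XT.nd (nat_lit 156) (nat_lit 0) (nat_lit 0) (XT.nd (nat_lit 78) (nat_lit 0) (nat_lit 0) (XT.lf (nat_lit 0) (nat_lit 2539591967328) (nat_lit 152) (nat_lit 4840034325726) (nat_lit 0) (nat_lit 2482940271086) (nat_lit 1) (nat_lit 5) (nat_lit 3) (nat_lit 4) (nat_lit 1) (nat_lit 4) (nat_lit 367) (nat_lit 312) (nat_lit 221)) (XT.lf (nat_lit 0) (nat_lit 3068465005386) (nat_lit 152) (nat_lit 5249146118106) (nat_lit 0) (nat_lit 3011813287007) (nat_lit 1) (nat_lit 5) (nat_lit 3) (nat_lit 4) (nat_lit 1) (nat_lit 4) (nat_lit 368) (nat_lit 312) (nat_lit 220)))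 (XT.nd (nat_lit 78) (nat_lit 0) (nat_lit 0) (XT.lf (nat_lit 0) (nat_lit 3676668884876) (nat_lit 152) (nat_lit 5719624910838) (nat_lit 0) (nat_lit 3620017147248) (nat_lit 1) (nat_lit 5) (nat_lit 3) (nat_lit 4) (nat_lit 1) (nat_lit 4) (nat_lit 369) (nat_lit 312) (nat_lit 219)) (XT.lf (nat_lit 0) (nat_lit 4376103246919) (nat_lit 152) (nat_lit 6260675723779) (nat_lit 0) (nat_lit 4319451492554) (nat_lit 1) (nat_lit 5) (nat_lit 3) (nat_lit 4) (nat_lit 1) (nat_lit 4) (nat_lit 370) (nat_lit 312) (nat_lit 218)))) (XT.nd (nat_lit 42432) (nat_lit 0) (nat_lit 4560) (XT.nd (nat_lit 42354) (nat_lit 0) (nat_lit 4560) (XT.lf (nat_lit 0) (nat_lit 5180452676860) (nat_lit 152) (nat_lit 6882884333705) (nat_lit 0) (nat_lit 5123800907940) (nat_lit 1) (nat_lit 5) (nat_lit 3) (nat_lit 4) (nat_lit 1) (nat_lit 4) (nat_lit 371) (nat_lit 312) (nat_lit 217)) (XT.lf (nat_lit 0) (nat_lit 10176667001) (nat_lit 532) (nat_lit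 1188575536) (nat_lit 532) (nat_lit 1188575536) (nat_lit 61) (nat_lit 3) (nat_lit 68) (nat_lit 3) (nat_lit 68) (nat_lit 5) (nat_lit 313) (nat_lit 313) (nat_lit 274))) (XT.nd (nat_lit 78) (nat_lit 0) (nat_lit 76) (XT.lf (nat_lit 76) (nat_lit 21383510061) (nat_lit 0) (nat_lit 1185917503) (nat_lit 532) (nat_lit 4365899669) (nat_lit 62) (nat_lit 5) (nat_lit 61) (nat_lit 3) (nat_lit 68) (nat_lit 5) (nat_lit 314) (nat_lit 313) (nat_lit 273)) (XT.lf (nat_lit 76) (nat_lit 20243432901) (nat_lit 0) (nat_lit 5968401477) (nat_lit 532) (nat_lit 2737863796) (nat_lit 63) (nat_lit 5) (nat_lit 62) (nat_lit 5) (nat_lit 69) (nat_lit 5) (nat_lit 315) (nat_lit 313) (nat_lit 272))))))))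
noncomputable def xc38 : XT := (XT.nd (nat_lit 2262) (nat_lit 456) (nat_lit 0) (XT.nd (nat_lit 1092) (nat_lit 1444) (nat_lit 0) (XT.nd (nat_lit 546) (nat_lit 1064) (nat_lit 0) (XT.nd (nat_lit 234) (nat_lit 912) (nat_lit 0) (XT.nd (nat_lit 78) (nat_lit 304) (nat_lit 0) (XT.lf (nat_lit 0) (nat_lit 311733005) (nat_lit 532) (nat_lit 11747564792) (nat_lit 608) (nat_lit 19117898830) (nat_lit 56) (nat_lit 5) (nat_lit 63) (nat_lit 5) (nat_lit 64) (nat_lit 5) (nat_lit 316) (nat_lit 313) (nat_lit 271)) (XT.nd (nat_lit 78) (nat_lit 380) (nat_lit 0) (XT.lf (nat_lit 0) (nat_lit 4880457113) (nat_lit 532) (nat_lit 14727447662) (nat_lit 76) (nat_lit 14027348711) (nat_lit 57) (nat_lit 5) (nat_lit 64) (nat_lit 5) (nat_lit 58) (nat_lit 5) (nat_lit 317) (nat_lit 313) (nat_lit 270)) (XT.lf (nat_lit 0) (nat_lit 11441291953) (nat_lit 456) (nat_lit 17532795251) (nat_lit 76) (nat_lit 7383410715) (nat_lit 52) (nat_lit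 5) (nat_lit 58) (nat_lit 5) (nat_lit 53) (nat_lit 5) (nat_lit 318) (nat_lit 313) (nat_lit 269)))) (XT.nd (nat_lit 156) (nat_lit 456) (nat_lit 0) (XT.nd (nat_lit 78) (nat_lit 228) (nat_lit 0) (XT.lf (nat_lit 0) (nat_lit 19235706896) (nat_lit 228) (nat_lit 1175677117) (nat_lit 304) (nat_lit 18962704629) (nat_lit 49) (nat_lit 5) (nat_lit 52) (nat_lit 5) (nat_lit 53) (nat_lit 5) (nat_lit 319) (nat_lit 313) (nat_lit 268)) (XT.lf (nat_lit 0) (nat_lit 20005344252) (nat_lit 228) (nat_lit 12449412987) (nat_lit 304) (nat_lit 10250206898) (nat_lit 46) (nat_lit 5) (nat_lit 49) (nat_lit 5) (nat_lit 50) (nat_lit 5) (nat_lit 320) (nat_lit 313) (nat_lit 267))) (XT.nd (nat_lit 78) (nat_lit 228) (nat_lit 0) (XT.lf (nat_lit 0) (nat_lit 1431465762) (nat_lit 228) (nat_lit 25012440427) (nat_lit 76) (nat_lit 19959962787) (nat_lit 43) (nat_lit 5) (nat_lit 46) (nat_lit 5) (nat_lit 44) (nat_lit 5) (nat_lit 321)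 (nat_lit 313) (nat_lit 266)) (XT.lf (nat_lit 0) (nat_lit 16026540661) (nat_lit 304) (nat_lit 27319231577) (nat_lit 76) (nat_lit 7149104224) (nat_lit 40) (nat_lit 5) (nat_lit 44) (nat_lit 5) (nat_lit 41) (nat_lit 5) (nat_lit 322) (nat_lit 313) (nat_lit 265))))) (XT.nd (nat_lit 234) (nat_lit 532) (nat_lit 0) (XT.nd (nat_lit 78) (nat_lit 380) (nat_lit 0) (XT.lf (nat_lit 0) (nat_lit 25470825723) (nat_lit 152) (nat_lit 9417900540) (nat_lit 228) (nat_lit 20144591536) (nat_lit 38) (nat_lit 5) (nat_lit 40) (nat_lit 5) (nat_lit 41) (nat_lit 5) (nat_lit 323) (nat_lit 313) (nat_lit 264)) (XT.nd (nat_lit 78) (nat_lit 228) (nat_lit 0) (XT.lf (nat_lit 0) (nat_lit 28310902555) (nat_lit 152) (nat_lit 30466083490) (nat_lit 228) (nat_lit 1299808876) (nat_lit 36) (nat_lit 5) (nat_lit 38) (nat_lit 5) (nat_lit 39) (nat_lit 5) (nat_lit 324) (nat_lit 313) (nat_lit 263)) (XT.lf (nat_lit 0) (nat_lit 21495957211)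 (nat_lit 228) (nat_lit 34295289090) (nat_lit 76) (nat_lit 9874892378) (nat_lit 33) (nat_lit 5) (nat_lit 36) (nat_lit 5) (nat_lit 34) (nat_lit 5) (nat_lit 325) (nat_lit 313) (nat_lit 262)))) (XT.nd (nat_lit 156) (nat_lit 228) (nat_lit 0) (XT.nd (nat_lit 78) (nat_lit 152) (nat_lit 0) (XT.lf (nat_lit 0) (nat_lit 34699017637) (nat_lit 152) (nat_lit 15553099809) (nat_lit 228) (nat_lit 21629632764) (nat_lit 31) (nat_lit 5) (nat_lit 33) (nat_lit 5) (nat_lit 34) (nat_lit 5) (nat_lit 326) (nat_lit 313) (nat_lit 261)) (XT.lf (nat_lit 0) (nat_lit 6821932035) (nat_lit 152) (nat_lit 40682792832) (nat_lit 76) (nat_lit 31297155077) (nat_lit 29) (nat_lit 5) (nat_lit 31) (nat_lit 5) (nat_lit 30) (nat_lit 5) (nat_lit 327) (nat_lit 313) (nat_lit 260))) (XT.nd (nat_lit 78) (nat_lit 76) (nat_lit 0) (XT.lf (nat_lit 0) (nat_lit 40833293362) (nat_lit 228) (nat_lit 45232479743) (nat_lit 76) (nat_lit 443493700)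 (nat_lit 27) (nat_lit 5) (nat_lit 30) (nat_lit 5) (nat_lit 28) (nat_lit 4) (nat_lit 328) (nat_lit 313) (nat_lit 259)) (XT.lf (nat_lit 0) (nat_lit 43535378780) (nat_lit 76) (nat_lit 39979078602) (nat_lit 152) (nat_lit 11572860394) (nat_lit 26) (nat_lit 5) (nat_lit 27) (nat_lit 5) (nat_lit 28) (nat_lit 4) (nat_lit 329) (nat_lit 313) (nat_lit 258)))))) (XT.nd (nat_lit 546) (nat_lit 684) (nat_lit 0) (XT.nd (nat_lit 234) (nat_lit 304) (nat_lit 0) (XT.nd (nat_lit 78) (nat_lit 228) (nat_lit 0) (XT.lf (nat_lit 0) (nat_lit 29083458534) (nat_lit 228) (nat_lit 60045745299) (nat_lit 76) (nat_lit 15544030150) (nat_lit 23) (nat_lit 5) (nat_lit 26) (nat_lit 5) (nat_lit 24) (nat_lit 4) (nat_lit 330) (nat_lit 313) (nat_lit 257)) (XT.nd (nat_lit 78) (nat_lit 152) (nat_lit 0) (XT.lf (nat_lit 0) (nat_lit 43476490524) (nat_lit 76) (nat_lit 35380290540) (nat_lit 152) (nat_lit 36519907968) (nat_lit 22) (nat_lit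 5) (nat_lit 23) (nat_lit 5) (nat_lit 24) (nat_lit 4) (nat_lit 331) (nat_lit 313) (nat_lit 256)) (XT.lf (nat_lit 0) (nat_lit 11460568156) (nat_lit 152) (nat_lit 87783379944) (nat_lit 76) (nat_lit 28147866546) (nat_lit 20) (nat_lit 5) (nat_lit 22) (nat_lit 5) (nat_lit 21) (nat_lit 4) (nat_lit 332) (nat_lit 313) (nat_lit 255)))) (XT.nd (nat_lit 156) (nat_lit 152) (nat_lit 0) (XT.nd (nat_lit 78) (nat_lit 76) (nat_lit 0) (XT.lf (nat_lit 0) (nat_lit 30634207315) (nat_lit 76) (nat_lit 37760005370) (nat_lit 152) (nat_lit 72425634191) (nat_lit 19) (nat_lit 5) (nat_lit 20) (nat_lit 5) (nat_lit 21) (nat_lit 4) (nat_lit 333) (nat_lit 313) (nat_lit 254)) (XT.lf (nat_lit 0) (nat_lit 16004190391) (nat_lit 76) (nat_lit 121657553014) (nat_lit 76) (nat_lit 18296835063) (nat_lit 18) (nat_lit 4) (nat_lit 19) (nat_lit 5) (nat_lit 19) (nat_lit 4) (nat_lit 334) (nat_lit 313) (nat_lit 253))) (XT.nd (nat_lit 78)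 (nat_lit 76) (nat_lit 0) (XT.lf (nat_lit 0) (nat_lit 46083103826) (nat_lit 152) (nat_lit 7510937929) (nat_lit 76) (nat_lit 119343081759) (nat_lit 17) (nat_lit 5) (nat_lit 19) (nat_lit 5) (nat_lit 18) (nat_lit 4) (nat_lit 335) (nat_lit 313) (nat_lit 252)) (XT.lf (nat_lit 0) (nat_lit 123417194704) (nat_lit 152) (nat_lit 40949292819) (nat_lit 0) (nat_lit 27707501540) (nat_lit 16) (nat_lit 5) (nat_lit 18) (nat_lit 4) (nat_lit 16) (nat_lit 4) (nat_lit 336) (nat_lit 313) (nat_lit 251))))) (XT.nd (nat_lit 312) (nat_lit 304) (nat_lit 0) (XT.nd (nat_lit 156) (nat_lit 152) (nat_lit 0) (XT.nd (nat_lit 78) (nat_lit 76) (nat_lit 0) (XT.lf (nat_lit 0) (nat_lit 3179864336) (nat_lit 152) (nat_lit 89097728909) (nat_lit 76) (nat_lit 121421255951) (nat_lit 14) (nat_lit 5) (nat_lit 16) (nat_lit 5) (nat_lit 15) (nat_lit 4) (nat_lit 337) (nat_lit 313) (nat_lit 250)) (XT.lf (nat_lit 0) (nat_lit 81111969470) (nat_lit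 76) (nat_lit 3900380946) (nat_lit 152) (nat_lit 153149579135) (nat_lit 13) (nat_lit 5) (nat_lit 14) (nat_lit 5) (nat_lit 15) (nat_lit 4) (nat_lit 338) (nat_lit 313) (nat_lit 249))) (XT.nd (nat_lit 78) (nat_lit 76) (nat_lit 0) (XT.lf (nat_lit 0) (nat_lit 14460037444) (nat_lit 76) (nat_lit 170015639918) (nat_lit 76) (nat_lit 81390317880) (nat_lit 12) (nat_lit 4) (nat_lit 13) (nat_lit 5) (nat_lit 13) (nat_lit 4) (nat_lit 339) (nat_lit 313) (nat_lit 248)) (XT.lf (nat_lit 0) (nat_lit 5871725745) (nat_lit 152) (nat_lit 76413443603) (nat_lit 76) (nat_lit 215054677482) (nat_lit 11) (nat_lit 5) (nat_lit 13) (nat_lit 5) (nat_lit 12) (nat_lit 4) (nat_lit 340) (nat_lit 313) (nat_lit 247)))) (XT.nd (nat_lit 156) (nat_lit 228) (nat_lit 0) (XT.nd (nat_lit 78) (nat_lit 0) (nat_lit 0) (XT.lf (nat_lit 0) (nat_lit 105227424305) (nat_lit 152) (nat_lit 204667673248) (nat_lit 0) (nat_lit 23164671292) (nat_lit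 10) (nat_lit 5) (nat_lit 12) (nat_lit 4) (nat_lit 10) (nat_lit 4) (nat_lit 341) (nat_lit 313) (nat_lit 246)) (XT.lf (nat_lit 0) (nat_lit 224041988221) (nat_lit 152) (nat_lit 7752933278) (nat_lit 0) (nat_lit 141978317253) (nat_lit 10) (nat_lit 5) (nat_lit 12) (nat_lit 4) (nat_lit 10) (nat_lit 4) (nat_lit 342) (nat_lit 313) (nat_lit 245))) (XT.nd (nat_lit 78) (nat_lit 152) (nat_lit 0) (XT.lf (nat_lit 0) (nat_lit 230210310856) (nat_lit 76) (nat_lit 136002577852) (nat_lit 76) (nat_lit 53938108662) (nat_lit 9) (nat_lit 4) (nat_lit 10) (nat_lit 5) (nat_lit 10) (nat_lit 4) (nat_lit 343) (nat_lit 313) (nat_lit 244)) (XT.lf (nat_lit 0) (nat_lit 31061466892) (nat_lit 76) (nat_lit 23326336082) (nat_lit 152) (nat_lit 418911333948) (nat_lit 7) (nat_lit 5) (nat_lit 8) (nat_lit 5) (nat_lit 9) (nat_lit 4) (nat_lit 344) (nat_lit 313) (nat_lit 243))))))) (XT.nd (nat_lit 1092) (nat_lit 152) (nat_lit 0) (XT.nd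 (nat_lit 546) (nat_lit 76) (nat_lit 0) (XT.nd (nat_lit 234) (nat_lit 152) (nat_lit 0) (XT.nd (nat_lit 78) (nat_lit 76) (nat_lit 0) (XT.lf (nat_lit 0) (nat_lit 184086456626) (nat_lit 152) (nat_lit 241455918951) (nat_lit 0) (nat_lit 108099635454) (nat_lit 7) (nat_lit 5) (nat_lit 9) (nat_lit 4) (nat_lit 7) (nat_lit 4) (nat_lit 345) (nat_lit 313) (nat_lit 242)) (XT.nd (nat_lit 78) (nat_lit 76) (nat_lit 0) (XT.lf (nat_lit 0) (nat_lit 333883220595) (nat_lit 152) (nat_lit 11205717455) (nat_lit 0) (nat_lit 257895913456) (nat_lit 7) (nat_lit 5) (nat_lit 9) (nat_lit 4) (nat_lit 7) (nat_lit 4) (nat_lit 346) (nat_lit 313) (nat_lit 241)) (XT.lf (nat_lit 0) (nat_lit 266931840384) (nat_lit 76) (nat_lit 245635778985) (nat_lit 76) (nat_lit 169648049267) (nat_lit 6) (nat_lit 4) (nat_lit 7) (nat_lit 5) (nat_lit 7) (nat_lit 4) (nat_lit 347) (nat_lit 313) (nat_lit 240)))) (XT.nd (nat_lit 156) (nat_lit 0) (nat_lit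 0) (XT.nd (nat_lit 78) (nat_lit 152) (nat_lit 0) (XT.lf (nat_lit 0) (nat_lit 587465700135) (nat_lit 76) (nat_lit 130913761433) (nat_lit 76) (nat_lit 54925664254) (nat_lit 6) (nat_lit 4) (nat_lit 7) (nat_lit 5) (nat_lit 7) (nat_lit 4) (nat_lit 348) (nat_lit 313) (nat_lit 239)) (XT.lf (nat_lit 0) (nat_lit 75202556316) (nat_lit 152) (nat_lit 797700409582) (nat_lit 0) (nat_lit 4842911215) (nat_lit 4) (nat_lit 5) (nat_lit 6) (nat_lit 4) (nat_lit 4) (nat_lit 4) (nat_lit 349) (nat_lit 313) (nat_lit 238))) (XT.nd (nat_lit 78) (nat_lit 0) (nat_lit 0) (XT.lf (nat_lit 0) (nat_lit 230860846026) (nat_lit 152) (nat_lit 605635776426) (nat_lit 0) (nat_lit 160500943654) (nat_lit 4) (nat_lit 5) (nat_lit 6) (nat_lit 4) (nat_lit 4) (nat_lit 4) (nat_lit 350) (nat_lit 313) (nat_lit 237)) (XT.lf (nat_lit 0) (nat_lit 409866820147) (nat_lit 152) (nat_lit 384763579070) (nat_lit 0) (nat_lit 339506694060) (nat_lit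 4) (nat_lit 5) (nat_lit 6) (nat_lit 4) (nat_lit 4) (nat_lit 4) (nat_lit 351) (nat_lit 313) (nat_lit 236))))) (XT.nd (nat_lit 234) (nat_lit 0) (nat_lit 0) (XT.nd (nat_lit 78) (nat_lit 76) (nat_lit 0) (XT.lf (nat_lit 0) (nat_lit 615722769476) (nat_lit 152) (nat_lit 130762404959) (nat_lit 0) (nat_lit 545362448855) (nat_lit 4) (nat_lit 5) (nat_lit 6) (nat_lit 4) (nat_lit 4) (nat_lit 4) (nat_lit 352) (nat_lit 313) (nat_lit 235)) (XT.nd (nat_lit 78) (nat_lit 0) (nat_lit 0) (XT.lf (nat_lit 0) (nat_lit 169833072196) (nat_lit 76) (nat_lit 686707727688) (nat_lit 76) (nat_lit 616347237908) (nat_lit 3) (nat_lit 4) (nat_lit 4) (nat_lit 5) (nat_lit 4) (nat_lit 4) (nat_lit 353) (nat_lit 313) (nat_lit 234)) (XT.lf (nat_lit 0) (nat_lit 523434970122) (nat_lit 76) (nat_lit 613852839650) (nat_lit 76) (nat_lit 543492202773) (nat_lit 3) (nat_lit 4) (nat_lit 4) (nat_lit 5) (nat_lit 4) (nat_lit 4) (nat_lit 354)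 (nat_lit 313) (nat_lit 233)))) (XT.nd (nat_lit 156) (nat_lit 0) (nat_lit 0) (XT.nd (nat_lit 78) (nat_lit 0) (nat_lit 0) (XT.lf (nat_lit 0) (nat_lit 930075870308) (nat_lit 76) (nat_lit 530070364479) (nat_lit 76) (nat_lit 459709599693) (nat_lit 3) (nat_lit 4) (nat_lit 4) (nat_lit 5) (nat_lit 4) (nat_lit 4) (nat_lit 355) (nat_lit 313) (nat_lit 232)) (XT.lf (nat_lit 0) (nat_lit 1397711790365) (nat_lit 76) (nat_lit 433721079837) (nat_lit 76) (nat_lit 363360203825) (nat_lit 3) (nat_lit 4) (nat_lit 4) (nat_lit 5) (nat_lit 4) (nat_lit 4) (nat_lit 356) (nat_lit 313) (nat_lit 231))) (XT.nd (nat_lit 78) (nat_lit 0) (nat_lit 0) (XT.lf (nat_lit 0) (nat_lit 1935492128731) (nat_lit 76) (nat_lit 322919891023) (nat_lit 76) (nat_lit 252558918294) (nat_lit 3) (nat_lit 4) (nat_lit 4) (nat_lit 5) (nat_lit 4) (nat_lit 4) (nat_lit 357) (nat_lit 313) (nat_lit 230)) (XT.lf (nat_lit 0) (nat_lit 2553938674632) (nat_lit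 76) (nat_lit 195498948691) (nat_lit 76) (nat_lit 125137891860) (nat_lit 3) (nat_lit 4) (nat_lit 4) (nat_lit 5) (nat_lit 4) (nat_lit 4) (nat_lit 358) (nat_lit 313) (nat_lit 229)))))) (XT.nd (nat_lit 546) (nat_lit 0) (nat_lit 0) (XT.nd (nat_lit 234) (nat_lit 0) (nat_lit 0) (XT.nd (nat_lit 78) (nat_lit 76) (nat_lit 0) (XT.lf (nat_lit 0) (nat_lit 20325586209) (nat_lit 152) (nat_lit 28083910648) (nat_lit 76) (nat_lit 3244270145430) (nat_lit 2) (nat_lit 5) (nat_lit 4) (nat_lit 5) (nat_lit 3) (nat_lit 4) (nat_lit 359) (nat_lit 313) (nat_lit 228)) (XT.nd (nat_lit 78) (nat_lit 0) (nat_lit 0) (XT.lf (nat_lit 0) (nat_lit 191322369434) (nat_lit 152) (nat_lit 3454854008675) (nat_lit 0) (nat_lit 126173116140) (nat_lit 1) (nat_lit 5) (nat_lit 3) (nat_lit 4) (nat_lit 1) (nat_lit 4) (nat_lit 360) (nat_lit 313) (nat_lit 227)) (XT.lf (nat_lit 0) (nat_lit 390146123224) (nat_lit 152) (nat_lit 3608652685833)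 (nat_lit 0) (nat_lit 324996818727) (nat_lit 1) (nat_lit 5) (nat_lit 3) (nat_lit 4) (nat_lit 1) (nat_lit 4) (nat_lit 361) (nat_lit 313) (nat_lit 226)))) (XT.nd (nat_lit 156) (nat_lit 0) (nat_lit 0) (XT.nd (nat_lit 78) (nat_lit 0) (nat_lit 0) (XT.lf (nat_lit 0) (nat_lit 618793175756) (nat_lit 152) (nat_lit 3785521700026) (nat_lit 0) (nat_lit 553643826735) (nat_lit 1) (nat_lit 5) (nat_lit 3) (nat_lit 4) (nat_lit 1) (nat_lit 4) (nat_lit 362) (nat_lit 313) (nat_lit 225)) (XT.lf (nat_lit 0) (nat_lit 881737056318) (nat_lit 152) (nat_lit 3988921531966) (nat_lit 0) (nat_lit 816587668581) (nat_lit 1) (nat_lit 5) (nat_lit 3) (nat_lit 4) (nat_lit 1) (nat_lit 4) (nat_lit 363) (nat_lit 313) (nat_lit 224))) (XT.nd (nat_lit 78) (nat_lit 0) (nat_lit 0) (XT.lf (nat_lit 0) (nat_lit 1184122319096) (nat_lit 152) (nat_lit 4222831743584) (nat_lit 0) (nat_lit 1118972897693) (nat_lit 1) (nat_lit 5) (nat_lit 3)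 (nat_lit 4) (nat_lit 1) (nat_lit 4) (nat_lit 364) (nat_lit 313) (nat_lit 223)) (XT.lf (nat_lit 0) (nat_lit 1531865197491) (nat_lit 152) (nat_lit 4491828839019) (nat_lit 0) (nat_lit 1466715746813) (nat_lit 1) (nat_lit 5) (nat_lit 3) (nat_lit 4) (nat_lit 1) (nat_lit 4) (nat_lit 365) (nat_lit 313) (nat_lit 222))))) (XT.nd (nat_lit 312) (nat_lit 0) (nat_lit 0) (XT.nd (nat_lit 156) (nat_lit 0) (nat_lit 0) (XT.nd (nat_lit 78) (nat_lit 0) (nat_lit 0) (XT.lf (nat_lit 0) (nat_lit 1931769356517) (nat_lit 152) (nat_lit 4801175804920) (nat_lit 0) (nat_lit 1866619880382) (nat_lit 1) (nat_lit 5) (nat_lit 3) (nat_lit 4) (nat_lit 1) (nat_lit 4) (nat_lit 366) (nat_lit 313) (nat_lit 221)) (XT.lf (nat_lit 0) (nat_lit 2391659007979) (nat_lit 152) (nat_lit 5156925081927) (nat_lit 0) (nat_lit 2326509509707) (nat_lit 1) (nat_lit 5) (nat_lit 3) (nat_lit 4) (nat_lit 1) (nat_lit 4) (nat_lit 367) (nat_lit 313) (nat_lit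 220))) (XT.nd (nat_lit 78) (nat_lit 0) (nat_lit 0) (XT.lf (nat_lit 0) (nat_lit 2920531992884) (nat_lit 152) (nat_lit 5566036981979) (nat_lit 0) (nat_lit 2855382475364) (nat_lit 1) (nat_lit 5) (nat_lit 3) (nat_lit 4) (nat_lit 1) (nat_lit 4) (nat_lit 368) (nat_lit 313) (nat_lit 219)) (XT.lf (nat_lit 0) (nat_lit 3528735826156) (nat_lit 152) (nat_lit 6036515868338) (nat_lit 0) (nat_lit 3463586291897) (nat_lit 1) (nat_lit 5) (nat_lit 3) (nat_lit 4) (nat_lit 1) (nat_lit 4) (nat_lit 369) (nat_lit 313) (nat_lit 218)))) (XT.nd (nat_lit 42510) (nat_lit 0) (nat_lit 4560) (XT.nd (nat_lit 78) (nat_lit 0) (nat_lit 0) (XT.lf (nat_lit 0) (nat_lit 4228170148009) (nat_lit 152) (nat_lit 6577566762695) (nat_lit 0) (nat_lit 4163020599196) (nat_lit 1) (nat_lit 5) (nat_lit 3) (nat_lit 4) (nat_lit 1) (nat_lit 4) (nat_lit 370) (nat_lit 313) (nat_lit 217)) (XT.lf (nat_lit 0) (nat_lit 5032519543002) (nat_lit 152)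 (nat_lit 7199775443417) (nat_lit 0) (nat_lit 4967369981532) (nat_lit 1) (nat_lit 5) (nat_lit 3) (nat_lit 4) (nat_lit 1) (nat_lit 4) (nat_lit 371) (nat_lit 313) (nat_lit 216))) (XT.nd (nat_lit 78) (nat_lit 0) (nat_lit 0) (XT.lf (nat_lit 0) (nat_lit 11871227021) (nat_lit 532) (nat_lit 1276006844) (nat_lit 532) (nat_lit 1276006844) (nat_lit 61) (nat_lit 3) (nat_lit 68) (nat_lit 3) (nat_lit 68) (nat_lit 5) (nat_lit 314) (nat_lit 314) (nat_lit 272)) (XT.lf (nat_lit 76) (nat_lit 24757365763) (nat_lit 0) (nat_lit 1493754364) (nat_lit 532) (nat_lit 4700446914) (nat_lit 62) (nat_lit 5) (nat_lit 61) (nat_lit 3) (nat_lit 68) (nat_lit 5) (nat_lit 315) (nat_lit 314) (nat_lit 271))))))))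
noncomputable def xc39 : XT := (XT.nd (nat_lit 2262) (nat_lit 608) (nat_lit 0) (XT.nd (nat_lit 1092) (nat_lit 1368) (nat_lit 0) (XT.nd (nat_lit 546) (nat_lit 1216) (nat_lit 0) (XT.nd (nat_lit 234) (nat_lit 988) (nat_lit 0) (XT.nd (nat_lit 78) (nat_lit 456) (nat_lit 0) (XT.lf (nat_lit 76) (nat_lit 23457081614) (nat_lit 0) (nat_lit 6945703773) (nat_lit 532) (nat_lit 2868323009) (nat_lit 63) (nat_lit 5) (nat_lit 62) (nat_lit 5) (nat_lit 69) (nat_lit 5) (nat_lit 316) (nat_lit 314) (nat_lit 270)) (XT.nd (nat_lit 78) (nat_lit 0) (nat_lit 76) (XT.lf (nat_lit 0) (nat_lit 592733802) (nat_lit 532) (nat_lit 13313905277) (nat_lit 608) (nat_lit 21928147826) (nat_lit 56) (nat_lit 5) (nat_lit 63) (nat_lit 5) (nat_lit 64) (nat_lit 5) (nat_lit 317) (nat_lit 314) (nat_lit 269)) (XT.lf (nat_lit 0) (nat_lit 5819831566) (nat_lit 532) (nat_lit 16739794319) (nat_lit 76) (nat_lit 16104113807) (nat_lit 57) (nat_lit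 5) (nat_lit 64) (nat_lit 5) (nat_lit 58) (nat_lit 5) (nat_lit 318) (nat_lit 314) (nat_lit 268)))) (XT.nd (nat_lit 156) (nat_lit 456) (nat_lit 0) (XT.nd (nat_lit 78) (nat_lit 228) (nat_lit 0) (XT.lf (nat_lit 0) (nat_lit 13341975687) (nat_lit 456) (nat_lit 19967535056) (nat_lit 76) (nat_lit 8486663672) (nat_lit 52) (nat_lit 5) (nat_lit 58) (nat_lit 5) (nat_lit 53) (nat_lit 5) (nat_lit 319) (nat_lit 314) (nat_lit 267)) (XT.lf (nat_lit 0) (nat_lit 22299721442) (nat_lit 228) (nat_lit 1338092949) (nat_lit 304) (nat_lit 21629045379) (nat_lit 49) (nat_lit 5) (nat_lit 52) (nat_lit 5) (nat_lit 53) (nat_lit 5) (nat_lit 320) (nat_lit 314) (nat_lit 266))) (XT.nd (nat_lit 78) (nat_lit 228) (nat_lit 0) (XT.lf (nat_lit 0) (nat_lit 23181587882) (nat_lit 228) (nat_lit 14289130963) (nat_lit 304) (nat_lit 11628027162) (nat_lit 46) (nat_lit 5) (nat_lit 49) (nat_lit 5) (nat_lit 50) (nat_lit 5) (nat_lit 321)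 (nat_lit 314) (nat_lit 265)) (XT.lf (nat_lit 0) (nat_lit 1782929181) (nat_lit 228) (nat_lit 28586058553) (nat_lit 76) (nat_lit 22984407041) (nat_lit 43) (nat_lit 5) (nat_lit 46) (nat_lit 5) (nat_lit 44) (nat_lit 5) (nat_lit 322) (nat_lit 314) (nat_lit 264))))) (XT.nd (nat_lit 234) (nat_lit 684) (nat_lit 0) (XT.nd (nat_lit 78) (nat_lit 304) (nat_lit 0) (XT.lf (nat_lit 0) (nat_lit 18554323110) (nat_lit 304) (nat_lit 31244999511) (nat_lit 76) (nat_lit 8259781147) (nat_lit 40) (nat_lit 5) (nat_lit 44) (nat_lit 5) (nat_lit 41) (nat_lit 5) (nat_lit 323) (nat_lit 314) (nat_lit 263)) (XT.nd (nat_lit 78) (nat_lit 152) (nat_lit 0) (XT.lf (nat_lit 0) (nat_lit 29448997555) (nat_lit 152) (nat_lit 10784480029) (nat_lit 228) (nat_lit 23045835490) (nat_lit 38) (nat_lit 5) (nat_lit 40) (nat_lit 5) (nat_lit 41) (nat_lit 5) (nat_lit 324) (nat_lit 314) (nat_lit 262)) (XT.lf (nat_lit 0) (nat_lit 32708975665)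 (nat_lit 152) (nat_lit 34986070995) (nat_lit 228) (nat_lit 1385070827) (nat_lit 36) (nat_lit 5) (nat_lit 38) (nat_lit 5) (nat_lit 39) (nat_lit 5) (nat_lit 325) (nat_lit 314) (nat_lit 261)))) (XT.nd (nat_lit 156) (nat_lit 304) (nat_lit 0) (XT.nd (nat_lit 78) (nat_lit 152) (nat_lit 0) (XT.lf (nat_lit 0) (nat_lit 24815627592) (nat_lit 228) (nat_lit 39289481353) (nat_lit 76) (nat_lit 11403267477) (nat_lit 33) (nat_lit 5) (nat_lit 36) (nat_lit 5) (nat_lit 34) (nat_lit 5) (nat_lit 326) (nat_lit 314) (nat_lit 260)) (XT.lf (nat_lit 0) (nat_lit 40041266073) (nat_lit 152) (nat_lit 17834822753) (nat_lit 228) (nat_lit 24780978646) (nat_lit 31) (nat_lit 5) (nat_lit 33) (nat_lit 5) (nat_lit 34) (nat_lit 5) (nat_lit 327) (nat_lit 314) (nat_lit 259))) (XT.nd (nat_lit 78) (nat_lit 152) (nat_lit 0) (XT.lf (nat_lit 0) (nat_lit 7926459521) (nat_lit 152) (nat_lit 46649896025) (nat_lit 76) (nat_lit 36039264726)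 (nat_lit 29) (nat_lit 5) (nat_lit 31) (nat_lit 5) (nat_lit 30) (nat_lit 5) (nat_lit 328) (nat_lit 314) (nat_lit 258)) (XT.lf (nat_lit 0) (nat_lit 47033116021) (nat_lit 228) (nat_lit 51888771374) (nat_lit 76) (nat_lit 557746052) (nat_lit 27) (nat_lit 5) (nat_lit 30) (nat_lit 5) (nat_lit 28) (nat_lit 4) (nat_lit 329) (nat_lit 314) (nat_lit 257)))))) (XT.nd (nat_lit 546) (nat_lit 608) (nat_lit 0) (XT.nd (nat_lit 234) (nat_lit 380) (nat_lit 0) (XT.nd (nat_lit 78) (nat_lit 304) (nat_lit 0) (XT.lf (nat_lit 0) (nat_lit 50183382243) (nat_lit 76) (nat_lit 45926142749) (nat_lit 152) (nat_lit 13235426282) (nat_lit 26) (nat_lit 5) (nat_lit 27) (nat_lit 5) (nat_lit 28) (nat_lit 4) (nat_lit 330) (nat_lit 314) (nat_lit 256)) (XT.nd (nat_lit 78) (nat_lit 76) (nat_lit 0) (XT.lf (nat_lit 0) (nat_lit 33510403284) (nat_lit 228) (nat_lit 68937548967) (nat_lit 76) (nat_lit 17921086786) (nat_lit 23) (nat_lit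 5) (nat_lit 26) (nat_lit 5) (nat_lit 24) (nat_lit 4) (nat_lit 331) (nat_lit 314) (nat_lit 255)) (XT.lf (nat_lit 0) (nat_lit 50103283132) (nat_lit 76) (nat_lit 40640570599) (nat_lit 152) (nat_lit 41934631636) (nat_lit 22) (nat_lit 5) (nat_lit 23) (nat_lit 5) (nat_lit 24) (nat_lit 4) (nat_lit 332) (nat_lit 314) (nat_lit 254)))) (XT.nd (nat_lit 156) (nat_lit 152) (nat_lit 0) (XT.nd (nat_lit 78) (nat_lit 76) (nat_lit 0) (XT.lf (nat_lit 0) (nat_lit 13235375433) (nat_lit 152) (nat_lit 100848251108) (nat_lit 76) (nat_lit 32412484359) (nat_lit 20) (nat_lit 5) (nat_lit 22) (nat_lit 5) (nat_lit 21) (nat_lit 4) (nat_lit 333) (nat_lit 314) (nat_lit 253)) (XT.lf (nat_lit 0) (nat_lit 35323286629) (nat_lit 76) (nat_lit 43380771376) (nat_lit 152) (nat_lit 83234693022) (nat_lit 19) (nat_lit 5) (nat_lit 20) (nat_lit 5) (nat_lit 21) (nat_lit 4) (nat_lit 334) (nat_lit 314) (nat_lit 252))) (XT.nd (nat_lit 78)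 (nat_lit 76) (nat_lit 0) (XT.lf (nat_lit 0) (nat_lit 18493591266) (nat_lit 76) (nat_lit 139864551422) (nat_lit 76) (nat_lit 20990437783) (nat_lit 18) (nat_lit 4) (nat_lit 19) (nat_lit 5) (nat_lit 19) (nat_lit 4) (nat_lit 335) (nat_lit 314) (nat_lit 251)) (XT.lf (nat_lit 0) (nat_lit 53037634781) (nat_lit 152) (nat_lit 8558159145) (nat_lit 76) (nat_lit 137278521818) (nat_lit 17) (nat_lit 5) (nat_lit 19) (nat_lit 5) (nat_lit 18) (nat_lit 4) (nat_lit 336) (nat_lit 314) (nat_lit 250))))) (XT.nd (nat_lit 312) (nat_lit 228) (nat_lit 0) (XT.nd (nat_lit 156) (nat_lit 152) (nat_lit 0) (XT.nd (nat_lit 78) (nat_lit 152) (nat_lit 0) (XT.lf (nat_lit 0) (nat_lit 141968927467) (nat_lit 152) (nat_lit 47016740552) (nat_lit 0) (nat_lit 31896277496) (nat_lit 16) (nat_lit 5) (nat_lit 18) (nat_lit 4) (nat_lit 16) (nat_lit 4) (nat_lit 337) (nat_lit 314) (nat_lit 249)) (XT.lf (nat_lit 0) (nat_lit 3693475578) (nat_lit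 152) (nat_lit 102391849173) (nat_lit 76) (nat_lit 139665413549) (nat_lit 14) (nat_lit 5) (nat_lit 16) (nat_lit 5) (nat_lit 15) (nat_lit 4) (nat_lit 338) (nat_lit 314) (nat_lit 248))) (XT.nd (nat_lit 78) (nat_lit 76) (nat_lit 0) (XT.lf (nat_lit 0) (nat_lit 93343333181) (nat_lit 76) (nat_lit 4454276223) (nat_lit 152) (nat_lit 176085930327) (nat_lit 13) (nat_lit 5) (nat_lit 14) (nat_lit 5) (nat_lit 15) (nat_lit 4) (nat_lit 339) (nat_lit 314) (nat_lit 247)) (XT.lf (nat_lit 0) (nat_lit 16689912427) (nat_lit 76) (nat_lit 195488281206) (nat_lit 76) (nat_lit 93565201863) (nat_lit 12) (nat_lit 4) (nat_lit 13) (nat_lit 5) (nat_lit 13) (nat_lit 4) (nat_lit 340) (nat_lit 314) (nat_lit 246)))) (XT.nd (nat_lit 156) (nat_lit 76) (nat_lit 0) (XT.nd (nat_lit 78) (nat_lit 76) (nat_lit 0) (XT.lf (nat_lit 0) (nat_lit 6780293045) (nat_lit 152) (nat_lit 87821061199) (nat_lit 76) (nat_lit 247337240218) (nat_lit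 11) (nat_lit 5) (nat_lit 13) (nat_lit 5) (nat_lit 12) (nat_lit 4) (nat_lit 341) (nat_lit 314) (nat_lit 245)) (XT.lf (nat_lit 0) (nat_lit 121037503951) (nat_lit 152) (nat_lit 235316582678) (nat_lit 0) (nat_lit 26662566161) (nat_lit 10) (nat_lit 5) (nat_lit 12) (nat_lit 4) (nat_lit 10) (nat_lit 4) (nat_lit 342) (nat_lit 314) (nat_lit 244))) (XT.nd (nat_lit 78) (nat_lit 76) (nat_lit 0) (XT.lf (nat_lit 0) (nat_lit 257670865585) (nat_lit 152) (nat_lit 8871315394) (nat_lit 0) (nat_lit 163295233689) (nat_lit 10) (nat_lit 5) (nat_lit 12) (nat_lit 4) (nat_lit 10) (nat_lit 4) (nat_lit 343) (nat_lit 314) (nat_lit 243)) (XT.lf (nat_lit 0) (nat_lit 264782643759) (nat_lit 76) (nat_lit 156382793193) (nat_lit 76) (nat_lit 62006557727) (nat_lit 9) (nat_lit 4) (nat_lit 10) (nat_lit 5) (nat_lit 10) (nat_lit 4) (nat_lit 344) (nat_lit 314) (nat_lit 242))))))) (XT.nd (nat_lit 1092) (nat_lit 152) (nat_lit 0)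 (XT.nd (nat_lit 546) (nat_lit 76) (nat_lit 0) (XT.nd (nat_lit 234) (nat_lit 228) (nat_lit 0) (XT.nd (nat_lit 78) (nat_lit 0) (nat_lit 0) (XT.lf (nat_lit 0) (nat_lit 35759043085) (nat_lit 76) (nat_lit 26806247008) (nat_lit 152) (nat_lit 481727169536) (nat_lit 7) (nat_lit 5) (nat_lit 8) (nat_lit 5) (nat_lit 9) (nat_lit 4) (nat_lit 345) (nat_lit 314) (nat_lit 241)) (XT.nd (nat_lit 78) (nat_lit 0) (nat_lit 0) (XT.lf (nat_lit 0) (nat_lit 211716620401) (nat_lit 152) (nat_lit 277640005846) (nat_lit 0) (nat_lit 124330308645) (nat_lit 7) (nat_lit 5) (nat_lit 9) (nat_lit 4) (nat_lit 7) (nat_lit 4) (nat_lit 346) (nat_lit 314) (nat_lit 240)) (XT.lf (nat_lit 0) (nat_lit 383980656102) (nat_lit 152) (nat_lit 12856748162) (nat_lit 0) (nat_lit 296593976886) (nat_lit 7) (nat_lit 5) (nat_lit 9) (nat_lit 4) (nat_lit 7) (nat_lit 4) (nat_lit 347) (nat_lit 314) (nat_lit 239)))) (XT.nd (nat_lit 156) (nat_lit 152)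 (nat_lit 0) (XT.nd (nat_lit 78) (nat_lit 0) (nat_lit 0) (XT.lf (nat_lit 0) (nat_lit 306998918653) (nat_lit 76) (nat_lit 282467502343) (nat_lit 76) (nat_lit 195080503596) (nat_lit 6) (nat_lit 4) (nat_lit 7) (nat_lit 5) (nat_lit 7) (nat_lit 4) (nat_lit 348) (nat_lit 314) (nat_lit 238)) (XT.lf (nat_lit 0) (nat_lit 675609296210) (nat_lit 76) (nat_lit 150538961743) (nat_lit 76) (nat_lit 63151685144) (nat_lit 6) (nat_lit 4) (nat_lit 7) (nat_lit 5) (nat_lit 7) (nat_lit 4) (nat_lit 349) (nat_lit 314) (nat_lit 237))) (XT.nd (nat_lit 78) (nat_lit 0) (nat_lit 0) (XT.lf (nat_lit 0) (nat_lit 86494342980) (nat_lit 152) (nat_lit 917332528029) (nat_lit 0) (nat_lit 5579974266) (nat_lit 4) (nat_lit 5) (nat_lit 6) (nat_lit 4) (nat_lit 4) (nat_lit 4) (nat_lit 350) (nat_lit 314) (nat_lit 236)) (XT.lf (nat_lit 0) (nat_lit 265499888770) (nat_lit 152) (nat_lit 696461192463) (nat_lit 0) (nat_lit 184585325522) (nat_lit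 4) (nat_lit 5) (nat_lit 6) (nat_lit 4) (nat_lit 4) (nat_lit 4) (nat_lit 351) (nat_lit 314) (nat_lit 235))))) (XT.nd (nat_lit 234) (nat_lit 0) (nat_lit 0) (XT.nd (nat_lit 78) (nat_lit 76) (nat_lit 0) (XT.lf (nat_lit 0) (nat_lit 471355465638) (nat_lit 152) (nat_lit 442460767734) (nat_lit 0) (nat_lit 390440733230) (nat_lit 4) (nat_lit 5) (nat_lit 6) (nat_lit 4) (nat_lit 4) (nat_lit 4) (nat_lit 352) (nat_lit 314) (nat_lit 234)) (XT.nd (nat_lit 78) (nat_lit 76) (nat_lit 0) (XT.lf (nat_lit 0) (nat_lit 708088682697) (nat_lit 152) (nat_lit 150361680314) (nat_lit 0) (nat_lit 627173803193) (nat_lit 4) (nat_lit 5) (nat_lit 6) (nat_lit 4) (nat_lit 4) (nat_lit 4) (nat_lit 353) (nat_lit 314) (nat_lit 233)) (XT.lf (nat_lit 0) (nat_lit 195321841511) (nat_lit 76) (nat_lit 789706930276) (nat_lit 76) (nat_lit 708791922863) (nat_lit 3) (nat_lit 4) (nat_lit 4) (nat_lit 5) (nat_lit 4) (nat_lit 4) (nat_lit 354)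 (nat_lit 314) (nat_lit 232)))) (XT.nd (nat_lit 156) (nat_lit 0) (nat_lit 0) (XT.nd (nat_lit 78) (nat_lit 0) (nat_lit 0) (XT.lf (nat_lit 0) (nat_lit 601962223019) (nat_lit 76) (nat_lit 705924716409) (nat_lit 76) (nat_lit 625009597771) (nat_lit 3) (nat_lit 4) (nat_lit 4) (nat_lit 5) (nat_lit 4) (nat_lit 4) (nat_lit 355) (nat_lit 314) (nat_lit 231)) (XT.lf (nat_lit 0) (nat_lit 1069597692053) (nat_lit 76) (nat_lit 609575658988) (nat_lit 76) (nat_lit 528660443632) (nat_lit 3) (nat_lit 4) (nat_lit 4) (nat_lit 5) (nat_lit 4) (nat_lit 4) (nat_lit 356) (nat_lit 314) (nat_lit 230))) (XT.nd (nat_lit 78) (nat_lit 0) (nat_lit 0) (XT.lf (nat_lit 0) (nat_lit 1607377638224) (nat_lit 76) (nat_lit 498774667757) (nat_lit 76) (nat_lit 417859368299) (nat_lit 3) (nat_lit 4) (nat_lit 4) (nat_lit 5) (nat_lit 4) (nat_lit 4) (nat_lit 357) (nat_lit 314) (nat_lit 229)) (XT.lf (nat_lit 0) (nat_lit 2225823843087) (nat_lit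 76) (nat_lit 371353897237) (nat_lit 76) (nat_lit 290438524646) (nat_lit 3) (nat_lit 4) (nat_lit 4) (nat_lit 5) (nat_lit 4) (nat_lit 4) (nat_lit 358) (nat_lit 314) (nat_lit 228)))))) (XT.nd (nat_lit 546) (nat_lit 0) (nat_lit 0) (XT.nd (nat_lit 234) (nat_lit 0) (nat_lit 0) (XT.nd (nat_lit 78) (nat_lit 152) (nat_lit 0) (XT.lf (nat_lit 0) (nat_lit 2937036341085) (nat_lit 76) (nat_lit 224820332352) (nat_lit 76) (nat_lit 143904896167) (nat_lit 3) (nat_lit 4) (nat_lit 4) (nat_lit 5) (nat_lit 4) (nat_lit 4) (nat_lit 359) (nat_lit 314) (nat_lit 227)) (XT.nd (nat_lit 78) (nat_lit 76) (nat_lit 0) (XT.lf (nat_lit 0) (nat_lit 23377463626) (nat_lit 152) (nat_lit 32290367139) (nat_lit 76) (nat_lit 3730913514443) (nat_lit 2) (nat_lit 5) (nat_lit 4) (nat_lit 5) (nat_lit 3) (nat_lit 4) (nat_lit 360) (nat_lit 314) (nat_lit 226)) (XT.lf (nat_lit 0) (nat_lit 220023570970) (nat_lit 152) (nat_lit 3973076344425)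 (nat_lit 0) (nat_lit 145101775073) (nat_lit 1) (nat_lit 5) (nat_lit 3) (nat_lit 4) (nat_lit 1) (nat_lit 4) (nat_lit 361) (nat_lit 314) (nat_lit 225)))) (XT.nd (nat_lit 156) (nat_lit 0) (nat_lit 0) (XT.nd (nat_lit 78) (nat_lit 0) (nat_lit 0) (XT.lf (nat_lit 0) (nat_lit 448670516595) (nat_lit 152) (nat_lit 4149945575185) (nat_lit 0) (nat_lit 373748681982) (nat_lit 1) (nat_lit 5) (nat_lit 3) (nat_lit 4) (nat_lit 1) (nat_lit 4) (nat_lit 362) (nat_lit 314) (nat_lit 224)) (XT.lf (nat_lit 0) (nat_lit 711614304195) (nat_lit 152) (nat_lit 4353345595445) (nat_lit 0) (nat_lit 636692435915) (nat_lit 1) (nat_lit 5) (nat_lit 3) (nat_lit 4) (nat_lit 1) (nat_lit 4) (nat_lit 363) (nat_lit 314) (nat_lit 223))) (XT.nd (nat_lit 78) (nat_lit 0) (nat_lit 0) (XT.lf (nat_lit 0) (nat_lit 1013999486137) (nat_lit 152) (nat_lit 4587255970818) (nat_lit 0) (nat_lit 939077588581) (nat_lit 1) (nat_lit 5) (nat_lit 3) (nat_lit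 4) (nat_lit 1) (nat_lit 4) (nat_lit 364) (nat_lit 314) (nat_lit 222)) (XT.lf (nat_lit 0) (nat_lit 1361742294239) (nat_lit 152) (nat_lit 4856253208649) (nat_lit 0) (nat_lit 1286820371227) (nat_lit 1) (nat_lit 5) (nat_lit 3) (nat_lit 4) (nat_lit 1) (nat_lit 4) (nat_lit 365) (nat_lit 314) (nat_lit 221))))) (XT.nd (nat_lit 312) (nat_lit 0) (nat_lit 0) (XT.nd (nat_lit 156) (nat_lit 0) (nat_lit 0) (XT.nd (nat_lit 78) (nat_lit 0) (nat_lit 0) (XT.lf (nat_lit 0) (nat_lit 1761646392140) (nat_lit 152) (nat_lit 5165600298373) (nat_lit 0) (nat_lit 1686724446992) (nat_lit 1) (nat_lit 5) (nat_lit 3) (nat_lit 4) (nat_lit 1) (nat_lit 4) (nat_lit 366) (nat_lit 314) (nat_lit 220)) (XT.lf (nat_lit 0) (nat_lit 2221535990451) (nat_lit 152) (nat_lit 5521349683052) (nat_lit 0) (nat_lit 2146614026054) (nat_lit 1) (nat_lit 5) (nat_lit 3) (nat_lit 4) (nat_lit 1) (nat_lit 4) (nat_lit 367) (nat_lit 314) (nat_lit 219)))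 (XT.nd (nat_lit 78) (nat_lit 0) (nat_lit 0) (XT.lf (nat_lit 0) (nat_lit 2750408929138) (nat_lit 152) (nat_lit 5930461676731) (nat_lit 0) (nat_lit 2675486948002) (nat_lit 1) (nat_lit 5) (nat_lit 3) (nat_lit 4) (nat_lit 1) (nat_lit 4) (nat_lit 368) (nat_lit 314) (nat_lit 218)) (XT.lf (nat_lit 0) (nat_lit 3358612722219) (nat_lit 152) (nat_lit 6400940644506) (nat_lit 0) (nat_lit 3283690726529) (nat_lit 1) (nat_lit 5) (nat_lit 3) (nat_lit 4) (nat_lit 1) (nat_lit 4) (nat_lit 369) (nat_lit 314) (nat_lit 217)))) (XT.nd (nat_lit 42588) (nat_lit 0) (nat_lit 4560) (XT.nd (nat_lit 78) (nat_lit 0) (nat_lit 0) (XT.lf (nat_lit 0) (nat_lit 4058047009125) (nat_lit 152) (nat_lit 6941991609659) (nat_lit 0) (nat_lit 3983125000778) (nat_lit 1) (nat_lit 5) (nat_lit 3) (nat_lit 4) (nat_lit 1) (nat_lit 4) (nat_lit 370) (nat_lit 314) (nat_lit 216)) (XT.lf (nat_lit 0) (nat_lit 4862396373728) (nat_lit 152) (nat_lit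 7564200351943) (nat_lit 0) (nat_lit 4787474354376) (nat_lit 1) (nat_lit 5) (nat_lit 3) (nat_lit 4) (nat_lit 1) (nat_lit 4) (nat_lit 371) (nat_lit 314) (nat_lit 215))) (XT.nd (nat_lit 78) (nat_lit 0) (nat_lit 0) (XT.lf (nat_lit 0) (nat_lit 13778988556) (nat_lit 532) (nat_lit 1398708422) (nat_lit 532) (nat_lit 1398708422) (nat_lit 61) (nat_lit 3) (nat_lit 68) (nat_lit 3) (nat_lit 68) (nat_lit 5) (nat_lit 315) (nat_lit 315) (nat_lit 270)) (XT.lf (nat_lit 76) (nat_lit 28596739394) (nat_lit 0) (nat_lit 1816077811) (nat_lit 532) (nat_lit 5163292623) (nat_lit 62) (nat_lit 5) (nat_lit 61) (nat_lit 3) (nat_lit 68) (nat_lit 5) (nat_lit 316) (nat_lit 315) (nat_lit 269))))))))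
noncomputable def xc40 : XT := (XT.nd (nat_lit 2184) (nat_lit 684) (nat_lit 0) (XT.nd (nat_lit 1092) (nat_lit 1292) (nat_lit 0) (XT.nd (nat_lit 546) (nat_lit 1216) (nat_lit 0) (XT.nd (nat_lit 234) (nat_lit 988) (nat_lit 0) (XT.nd (nat_lit 78) (nat_lit 456) (nat_lit 0) (XT.lf (nat_lit 76) (nat_lit 27109582439) (nat_lit 0) (nat_lit 8049594934) (nat_lit 532) (nat_lit 3086684612) (nat_lit 63) (nat_lit 5) (nat_lit 62) (nat_lit 5) (nat_lit 69) (nat_lit 5) (nat_lit 317) (nat_lit 315) (nat_lit 268)) (XT.nd (nat_lit 78) (nat_lit 0) (nat_lit 76) (XT.lf (nat_lit 0) (nat_lit 858763605) (nat_lit 532) (nat_lit 15162942498) (nat_lit 608) (nat_lit 25173940261) (nat_lit 56) (nat_lit 5) (nat_lit 63) (nat_lit 5) (nat_lit 64) (nat_lit 5) (nat_lit 318) (nat_lit 315) (nat_lit 267)) (XT.lf (nat_lit 0) (nat_lit 6849559334) (nat_lit 532) (nat_lit 19101976705) (nat_lit 76) (nat_lit 18499060020) (nat_lit 57) (nat_lit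 5) (nat_lit 64) (nat_lit 5) (nat_lit 58) (nat_lit 5) (nat_lit 319) (nat_lit 315) (nat_lit 266)))) (XT.nd (nat_lit 156) (nat_lit 456) (nat_lit 0) (XT.nd (nat_lit 78) (nat_lit 228) (nat_lit 0) (XT.lf (nat_lit 0) (nat_lit 15482772940) (nat_lit 456) (nat_lit 22815081584) (nat_lit 76) (nat_lit 9756443071) (nat_lit 52) (nat_lit 5) (nat_lit 58) (nat_lit 5) (nat_lit 53) (nat_lit 5) (nat_lit 320) (nat_lit 315) (nat_lit 265)) (XT.lf (nat_lit 0) (nat_lit 25779771161) (nat_lit 228) (nat_lit 1528269474) (nat_lit 304) (nat_lit 24738759506) (nat_lit 49) (nat_lit 5) (nat_lit 52) (nat_lit 5) (nat_lit 53) (nat_lit 5) (nat_lit 321) (nat_lit 315) (nat_lit 264))) (XT.nd (nat_lit 78) (nat_lit 228) (nat_lit 0) (XT.lf (nat_lit 0) (nat_lit 26791485416) (nat_lit 228) (nat_lit 16411559986) (nat_lit 304) (nat_lit 13251466949) (nat_lit 46) (nat_lit 5) (nat_lit 49) (nat_lit 5) (nat_lit 50) (nat_lit 5) (nat_lit 322)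 (nat_lit 315) (nat_lit 263)) (XT.lf (nat_lit 0) (nat_lit 2153766331) (nat_lit 228) (nat_lit 32739186286) (nat_lit 76) (nat_lit 26455092548) (nat_lit 43) (nat_lit 5) (nat_lit 46) (nat_lit 5) (nat_lit 44) (nat_lit 5) (nat_lit 323) (nat_lit 315) (nat_lit 262))))) (XT.nd (nat_lit 234) (nat_lit 684) (nat_lit 0) (XT.nd (nat_lit 78) (nat_lit 304) (nat_lit 0) (XT.lf (nat_lit 0) (nat_lit 21431083183) (nat_lit 304) (nat_lit 35801604407) (nat_lit 76) (nat_lit 9527717159) (nat_lit 40) (nat_lit 5) (nat_lit 44) (nat_lit 5) (nat_lit 41) (nat_lit 5) (nat_lit 324) (nat_lit 315) (nat_lit 261)) (XT.nd (nat_lit 78) (nat_lit 152) (nat_lit 0) (XT.lf (nat_lit 0) (nat_lit 33985476090) (nat_lit 152) (nat_lit 12367289581) (nat_lit 228) (nat_lit 26411637260) (nat_lit 38) (nat_lit 5) (nat_lit 40) (nat_lit 5) (nat_lit 41) (nat_lit 5) (nat_lit 325) (nat_lit 315) (nat_lit 260)) (XT.lf (nat_lit 0) (nat_lit 37729830693)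 (nat_lit 152) (nat_lit 40196231158) (nat_lit 228) (nat_lit 1509875397) (nat_lit 36) (nat_lit 5) (nat_lit 38) (nat_lit 5) (nat_lit 39) (nat_lit 5) (nat_lit 326) (nat_lit 315) (nat_lit 259)))) (XT.nd (nat_lit 156) (nat_lit 304) (nat_lit 0) (XT.nd (nat_lit 78) (nat_lit 152) (nat_lit 0) (XT.lf (nat_lit 0) (nat_lit 28610014679) (nat_lit 228) (nat_lit 45069405560) (nat_lit 76) (nat_lit 13149403150) (nat_lit 33) (nat_lit 5) (nat_lit 36) (nat_lit 5) (nat_lit 34) (nat_lit 5) (nat_lit 327) (nat_lit 315) (nat_lit 258)) (XT.lf (nat_lit 0) (nat_lit 46151346940) (nat_lit 152) (nat_lit 20471299832) (nat_lit 228) (nat_lit 28427729198) (nat_lit 31) (nat_lit 5) (nat_lit 33) (nat_lit 5) (nat_lit 34) (nat_lit 5) (nat_lit 328) (nat_lit 315) (nat_lit 257))) (XT.nd (nat_lit 78) (nat_lit 152) (nat_lit 0) (XT.lf (nat_lit 0) (nat_lit 9176855807) (nat_lit 152) (nat_lit 53545062296) (nat_lit 76) (nat_lit 41481098773)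 (nat_lit 29) (nat_lit 5) (nat_lit 31) (nat_lit 5) (nat_lit 30) (nat_lit 5) (nat_lit 329) (nat_lit 315) (nat_lit 256)) (XT.lf (nat_lit 0) (nat_lit 54144664638) (nat_lit 228) (nat_lit 59574861878) (nat_lit 76) (nat_lit 677497409) (nat_lit 27) (nat_lit 5) (nat_lit 30) (nat_lit 5) (nat_lit 28) (nat_lit 4) (nat_lit 330) (nat_lit 315) (nat_lit 255)))))) (XT.nd (nat_lit 546) (nat_lit 532) (nat_lit 0) (XT.nd (nat_lit 234) (nat_lit 380) (nat_lit 0) (XT.nd (nat_lit 78) (nat_lit 304) (nat_lit 0) (XT.lf (nat_lit 0) (nat_lit 57799885153) (nat_lit 76) (nat_lit 52777409989) (nat_lit 152) (nat_lit 15165267127) (nat_lit 26) (nat_lit 5) (nat_lit 27) (nat_lit 5) (nat_lit 28) (nat_lit 4) (nat_lit 331) (nat_lit 315) (nat_lit 254)) (XT.nd (nat_lit 78) (nat_lit 76) (nat_lit 0) (XT.lf (nat_lit 0) (nat_lit 38585679066) (nat_lit 228) (nat_lit 79191180839) (nat_lit 76) (nat_lit 20643618133) (nat_lit 23) (nat_lit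 5) (nat_lit 26) (nat_lit 5) (nat_lit 24) (nat_lit 4) (nat_lit 332) (nat_lit 315) (nat_lit 253)) (XT.lf (nat_lit 0) (nat_lit 57698411919) (nat_lit 76) (nat_lit 46701296248) (nat_lit 152) (nat_lit 48176990823) (nat_lit 22) (nat_lit 5) (nat_lit 23) (nat_lit 5) (nat_lit 24) (nat_lit 4) (nat_lit 333) (nat_lit 315) (nat_lit 252)))) (XT.nd (nat_lit 156) (nat_lit 152) (nat_lit 0) (XT.nd (nat_lit 78) (nat_lit 76) (nat_lit 0) (XT.lf (nat_lit 0) (nat_lit 15262815626) (nat_lit 152) (nat_lit 115897881343) (nat_lit 76) (nat_lit 37306446110) (nat_lit 20) (nat_lit 5) (nat_lit 22) (nat_lit 5) (nat_lit 21) (nat_lit 4) (nat_lit 334) (nat_lit 315) (nat_lit 251)) (XT.lf (nat_lit 0) (nat_lit 40692817972) (nat_lit 76) (nat_lit 49855195363) (nat_lit 152) (nat_lit 95678470663) (nat_lit 19) (nat_lit 5) (nat_lit 20) (nat_lit 5) (nat_lit 21) (nat_lit 4) (nat_lit 335) (nat_lit 315) (nat_lit 250))) (XT.nd (nat_lit 78)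 (nat_lit 76) (nat_lit 0) (XT.lf (nat_lit 0) (nat_lit 21334754580) (nat_lit 76) (nat_lit 160812752439) (nat_lit 76) (nat_lit 24100498695) (nat_lit 18) (nat_lit 4) (nat_lit 19) (nat_lit 5) (nat_lit 19) (nat_lit 4) (nat_lit 336) (nat_lit 315) (nat_lit 249)) (XT.lf (nat_lit 0) (nat_lit 61025087469) (nat_lit 152) (nat_lit 9781830484) (nat_lit 76) (nat_lit 157895992185) (nat_lit 17) (nat_lit 5) (nat_lit 19) (nat_lit 5) (nat_lit 18) (nat_lit 4) (nat_lit 337) (nat_lit 315) (nat_lit 248))))) (XT.nd (nat_lit 234) (nat_lit 228) (nat_lit 0) (XT.nd (nat_lit 78) (nat_lit 228) (nat_lit 0) (XT.lf (nat_lit 0) (nat_lit 163293872302) (nat_lit 152) (nat_lit 54012581547) (nat_lit 0) (nat_lit 36705407759) (nat_lit 16) (nat_lit 5) (nat_lit 18) (nat_lit 4) (nat_lit 16) (nat_lit 4) (nat_lit 338) (nat_lit 315) (nat_lit 247)) (XT.nd (nat_lit 78) (nat_lit 76) (nat_lit 0) (XT.lf (nat_lit 0) (nat_lit 4275195660) (nat_lit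 152) (nat_lit 117697288876) (nat_lit 76) (nat_lit 160638642750) (nat_lit 14) (nat_lit 5) (nat_lit 16) (nat_lit 5) (nat_lit 15) (nat_lit 4) (nat_lit 339) (nat_lit 315) (nat_lit 246)) (XT.lf (nat_lit 0) (nat_lit 107393656063) (nat_lit 76) (nat_lit 5098854810) (nat_lit 152) (nat_lit 202471533919) (nat_lit 13) (nat_lit 5) (nat_lit 14) (nat_lit 5) (nat_lit 15) (nat_lit 4) (nat_lit 340) (nat_lit 315) (nat_lit 245)))) (XT.nd (nat_lit 156) (nat_lit 76) (nat_lit 0) (XT.nd (nat_lit 78) (nat_lit 76) (nat_lit 0) (XT.lf (nat_lit 0) (nat_lit 19239425277) (nat_lit 76) (nat_lit 224789062365) (nat_lit 76) (nat_lit 107574527550) (nat_lit 12) (nat_lit 4) (nat_lit 13) (nat_lit 5) (nat_lit 13) (nat_lit 4) (nat_lit 341) (nat_lit 315) (nat_lit 244)) (XT.lf (nat_lit 0) (nat_lit 7818364176) (nat_lit 152) (nat_lit 100953086961) (nat_lit 76) (nat_lit 284456246753) (nat_lit 11) (nat_lit 5) (nat_lit 13) (nat_lit 5)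 (nat_lit 12) (nat_lit 4) (nat_lit 342) (nat_lit 315) (nat_lit 243))) (XT.nd (nat_lit 78) (nat_lit 0) (nat_lit 0) (XT.lf (nat_lit 0) (nat_lit 139212763570) (nat_lit 152) (nat_lit 270575324100) (nat_lit 0) (nat_lit 30679489213) (nat_lit 10) (nat_lit 5) (nat_lit 12) (nat_lit 4) (nat_lit 10) (nat_lit 4) (nat_lit 343) (nat_lit 315) (nat_lit 242)) (XT.lf (nat_lit 0) (nat_lit 296338568490) (nat_lit 152) (nat_lit 10168320548) (nat_lit 0) (nat_lit 187804769289) (nat_lit 10) (nat_lit 5) (nat_lit 12) (nat_lit 4) (nat_lit 10) (nat_lit 4) (nat_lit 344) (nat_lit 315) (nat_lit 241))))))) (XT.nd (nat_lit 1092) (nat_lit 152) (nat_lit 0) (XT.nd (nat_lit 546) (nat_lit 76) (nat_lit 0) (XT.nd (nat_lit 234) (nat_lit 228) (nat_lit 0) (XT.nd (nat_lit 78) (nat_lit 152) (nat_lit 0) (XT.lf (nat_lit 0) (nat_lit 304530880605) (nat_lit 76) (nat_lit 179824959744) (nat_lit 76) (nat_lit 71290704158) (nat_lit 9) (nat_lit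 4) (nat_lit 10) (nat_lit 5) (nat_lit 10) (nat_lit 4) (nat_lit 345) (nat_lit 315) (nat_lit 240)) (XT.nd (nat_lit 78) (nat_lit 0) (nat_lit 0) (XT.lf (nat_lit 0) (nat_lit 41151902315) (nat_lit 76) (nat_lit 30812787472) (nat_lit 152) (nat_lit 553970468404) (nat_lit 7) (nat_lit 5) (nat_lit 8) (nat_lit 5) (nat_lit 9) (nat_lit 4) (nat_lit 346) (nat_lit 315) (nat_lit 239)) (XT.lf (nat_lit 0) (nat_lit 243487115563) (nat_lit 152) (nat_lit 319260070278) (nat_lit 0) (nat_lit 142991747473) (nat_lit 7) (nat_lit 5) (nat_lit 9) (nat_lit 4) (nat_lit 7) (nat_lit 4) (nat_lit 347) (nat_lit 315) (nat_lit 238)))) (XT.nd (nat_lit 156) (nat_lit 152) (nat_lit 0) (XT.nd (nat_lit 78) (nat_lit 76) (nat_lit 0) (XT.lf (nat_lit 0) (nat_lit 441589060693) (nat_lit 152) (nat_lit 14762706956) (nat_lit 0) (nat_lit 341093414751) (nat_lit 7) (nat_lit 5) (nat_lit 9) (nat_lit 4) (nat_lit 7) (nat_lit 4) (nat_lit 348) (nat_lit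 315) (nat_lit 237)) (XT.lf (nat_lit 0) (nat_lit 353069400846) (nat_lit 76) (nat_lit 324827311255) (nat_lit 76) (nat_lit 224331423701) (nat_lit 6) (nat_lit 4) (nat_lit 7) (nat_lit 5) (nat_lit 7) (nat_lit 4) (nat_lit 349) (nat_lit 315) (nat_lit 236))) (XT.nd (nat_lit 78) (nat_lit 152) (nat_lit 0) (XT.lf (nat_lit 0) (nat_lit 776968642289) (nat_lit 76) (nat_lit 173110835189) (nat_lit 76) (nat_lit 72614737538) (nat_lit 6) (nat_lit 4) (nat_lit 7) (nat_lit 5) (nat_lit 7) (nat_lit 4) (nat_lit 350) (nat_lit 315) (nat_lit 235)) (XT.lf (nat_lit 0) (nat_lit 99477116896) (nat_lit 152) (nat_lit 1054915059036) (nat_lit 0) (nat_lit 6425005467) (nat_lit 4) (nat_lit 5) (nat_lit 6) (nat_lit 4) (nat_lit 4) (nat_lit 4) (nat_lit 351) (nat_lit 315) (nat_lit 234))))) (XT.nd (nat_lit 234) (nat_lit 76) (nat_lit 0) (XT.nd (nat_lit 78) (nat_lit 0) (nat_lit 0) (XT.lf (nat_lit 0) (nat_lit 305332369885) (nat_lit 152)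 (nat_lit 800915285944) (nat_lit 0) (nat_lit 212280111360) (nat_lit 4) (nat_lit 5) (nat_lit 6) (nat_lit 4) (nat_lit 4) (nat_lit 4) (nat_lit 352) (nat_lit 315) (nat_lit 233)) (XT.nd (nat_lit 78) (nat_lit 0) (nat_lit 0) (XT.lf (nat_lit 0) (nat_lit 542065305310) (nat_lit 152) (nat_lit 508816765165) (nat_lit 0) (nat_lit 449012918875) (nat_lit 4) (nat_lit 5) (nat_lit 6) (nat_lit 4) (nat_lit 4) (nat_lit 4) (nat_lit 353) (nat_lit 315) (nat_lit 232)) (XT.lf (nat_lit 0) (nat_lit 814307654515) (nat_lit 152) (nat_lit 172904525640) (nat_lit 0) (nat_lit 721255156855) (nat_lit 4) (nat_lit 5) (nat_lit 6) (nat_lit 4) (nat_lit 4) (nat_lit 4) (nat_lit 354) (nat_lit 315) (nat_lit 231)))) (XT.nd (nat_lit 156) (nat_lit 0) (nat_lit 0) (XT.nd (nat_lit 78) (nat_lit 0) (nat_lit 0) (XT.lf (nat_lit 0) (nat_lit 224630558937) (nat_lit 76) (nat_lit 908157709654) (nat_lit 76) (nat_lit 815105115277) (nat_lit 3) (nat_lit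 4) (nat_lit 4) (nat_lit 5) (nat_lit 4) (nat_lit 4) (nat_lit 355) (nat_lit 315) (nat_lit 230)) (XT.lf (nat_lit 0) (nat_lit 692265635776) (nat_lit 76) (nat_lit 811808849816) (nat_lit 76) (nat_lit 718756171336) (nat_lit 3) (nat_lit 4) (nat_lit 4) (nat_lit 5) (nat_lit 4) (nat_lit 4) (nat_lit 356) (nat_lit 315) (nat_lit 229))) (XT.nd (nat_lit 78) (nat_lit 0) (nat_lit 0) (XT.lf (nat_lit 0) (nat_lit 1230045240908) (nat_lit 76) (nat_lit 701008030397) (nat_lit 76) (nat_lit 607955278785) (nat_lit 3) (nat_lit 4) (nat_lit 4) (nat_lit 5) (nat_lit 4) (nat_lit 4) (nat_lit 357) (nat_lit 315) (nat_lit 228)) (XT.lf (nat_lit 0) (nat_lit 1848491149215) (nat_lit 76) (nat_lit 573587409278) (nat_lit 76) (nat_lit 480534594072) (nat_lit 3) (nat_lit 4) (nat_lit 4) (nat_lit 5) (nat_lit 4) (nat_lit 4) (nat_lit 358) (nat_lit 315) (nat_lit 227)))))) (XT.nd (nat_lit 546) (nat_lit 0) (nat_lit 0) (XT.nd (nat_lit 234) (nat_lit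 76) (nat_lit 0) (XT.nd (nat_lit 78) (nat_lit 76) (nat_lit 0) (XT.lf (nat_lit 0) (nat_lit 2559703389339) (nat_lit 76) (nat_lit 427053974307) (nat_lit 76) (nat_lit 334001103803) (nat_lit 3) (nat_lit 4) (nat_lit 4) (nat_lit 5) (nat_lit 4) (nat_lit 4) (nat_lit 359) (nat_lit 315) (nat_lit 226)) (XT.nd (nat_lit 78) (nat_lit 76) (nat_lit 0) (XT.lf (nat_lit 0) (nat_lit 3377596983369) (nat_lit 76) (nat_lit 258540766974) (nat_lit 76) (nat_lit 165487848384) (nat_lit 3) (nat_lit 4) (nat_lit 4) (nat_lit 5) (nat_lit 4) (nat_lit 4) (nat_lit 360) (nat_lit 315) (nat_lit 225)) (XT.lf (nat_lit 0) (nat_lit 26886381459) (nat_lit 152) (nat_lit 37129286969) (nat_lit 76) (nat_lit 4290552694500) (nat_lit 2) (nat_lit 5) (nat_lit 4) (nat_lit 5) (nat_lit 3) (nat_lit 4) (nat_lit 361) (nat_lit 315) (nat_lit 224)))) (XT.nd (nat_lit 156) (nat_lit 0) (nat_lit 0) (XT.nd (nat_lit 78) (nat_lit 0) (nat_lit 0) (XT.lf (nat_lit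 0) (nat_lit 253029258692) (nat_lit 152) (nat_lit 4569033436504) (nat_lit 0) (nat_lit 166869076503) (nat_lit 1) (nat_lit 5) (nat_lit 3) (nat_lit 4) (nat_lit 1) (nat_lit 4) (nat_lit 362) (nat_lit 315) (nat_lit 223)) (XT.lf (nat_lit 0) (nat_lit 515972965456) (nat_lit 152) (nat_lit 4772433620519) (nat_lit 0) (nat_lit 429812753992) (nat_lit 1) (nat_lit 5) (nat_lit 3) (nat_lit 4) (nat_lit 1) (nat_lit 4) (nat_lit 363) (nat_lit 315) (nat_lit 222))) (XT.nd (nat_lit 78) (nat_lit 0) (nat_lit 0) (XT.lf (nat_lit 0) (nat_lit 818358077104) (nat_lit 152) (nat_lit 5006344138289) (nat_lit 0) (nat_lit 732197840183) (nat_lit 1) (nat_lit 5) (nat_lit 3) (nat_lit 4) (nat_lit 1) (nat_lit 4) (nat_lit 364) (nat_lit 315) (nat_lit 221)) (XT.lf (nat_lit 0) (nat_lit 1166100824082) (nat_lit 152) (nat_lit 5275341499942) (nat_lit 0) (nat_lit 1079940565025) (nat_lit 1) (nat_lit 5) (nat_lit 3) (nat_lit 4) (nat_lit 1) (nat_lit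 4) (nat_lit 365) (nat_lit 315) (nat_lit 220))))) (XT.nd (nat_lit 312) (nat_lit 0) (nat_lit 0) (XT.nd (nat_lit 156) (nat_lit 0) (nat_lit 0) (XT.nd (nat_lit 78) (nat_lit 0) (nat_lit 0) (XT.lf (nat_lit 0) (nat_lit 1566004868832) (nat_lit 152) (nat_lit 5584688697339) (nat_lit 0) (nat_lit 1479844590526) (nat_lit 1) (nat_lit 5) (nat_lit 3) (nat_lit 4) (nat_lit 1) (nat_lit 4) (nat_lit 366) (nat_lit 315) (nat_lit 219)) (XT.lf (nat_lit 0) (nat_lit 2025894420924) (nat_lit 152) (nat_lit 5940438175645) (nat_lit 0) (nat_lit 1939734125880) (nat_lit 1) (nat_lit 5) (nat_lit 3) (nat_lit 4) (nat_lit 1) (nat_lit 4) (nat_lit 367) (nat_lit 315) (nat_lit 218))) (XT.nd (nat_lit 78) (nat_lit 0) (nat_lit 0) (XT.lf (nat_lit 0) (nat_lit 2554767319421) (nat_lit 152) (nat_lit 6349550250740) (nat_lit 0) (nat_lit 2468607009822) (nat_lit 1) (nat_lit 5) (nat_lit 3) (nat_lit 4) (nat_lit 1) (nat_lit 4) (nat_lit 368) (nat_lit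 315) (nat_lit 217)) (XT.lf (nat_lit 0) (nat_lit 3162971077554) (nat_lit 152) (nat_lit 6820029289312) (nat_lit 0) (nat_lit 3076810755299) (nat_lit 1) (nat_lit 5) (nat_lit 3) (nat_lit 4) (nat_lit 1) (nat_lit 4) (nat_lit 369) (nat_lit 315) (nat_lit 216)))) (XT.nd (nat_lit 42666) (nat_lit 0) (nat_lit 4560) (XT.nd (nat_lit 78) (nat_lit 0) (nat_lit 0) (XT.lf (nat_lit 0) (nat_lit 3862405334070) (nat_lit 152) (nat_lit 7361080316026) (nat_lit 0) (nat_lit 3776245000809) (nat_lit 1) (nat_lit 5) (nat_lit 3) (nat_lit 4) (nat_lit 1) (nat_lit 4) (nat_lit 370) (nat_lit 315) (nat_lit 215)) (XT.lf (nat_lit 0) (nat_lit 4666754672248) (nat_lit 152) (nat_lit 7983289111842) (nat_lit 0) (nat_lit 4580594329417) (nat_lit 1) (nat_lit 5) (nat_lit 3) (nat_lit 4) (nat_lit 1) (nat_lit 4) (nat_lit 371) (nat_lit 315) (nat_lit 214))) (XT.nd (nat_lit 78) (nat_lit 0) (nat_lit 0) (XT.lf (nat_lit 0) (nat_lit 15941925673) (nat_lit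 532) (nat_lit 1556568031) (nat_lit 532) (nat_lit 1556568031) (nat_lit 61) (nat_lit 3) (nat_lit 68) (nat_lit 3) (nat_lit 68) (nat_lit 5) (nat_lit 316) (nat_lit 316) (nat_lit 268)) (XT.lf (nat_lit 76) (nat_lit 32981349560) (nat_lit 0) (nat_lit 2162788379) (nat_lit 532) (nat_lit 5754632394) (nat_lit 62) (nat_lit 5) (nat_lit 61) (nat_lit 3) (nat_lit 68) (nat_lit 5) (nat_lit 317) (nat_lit 316) (nat_lit 267))))))))
noncomputable def xc41 : XT := (XT.nd (nat_lit 2262) (nat_lit 608) (nat_lit 0) (XT.nd (nat_lit 1092) (nat_lit 1368) (nat_lit 0) (XT.nd (nat_lit 546) (nat_lit 1216) (nat_lit 0) (XT.nd (nat_lit 234) (nat_lit 988) (nat_lit 0) (XT.nd (nat_lit 78) (nat_lit 456) (nat_lit 0) (XT.lf (nat_lit 76) (nat_lit 31277296617) (nat_lit 0) (nat_lit 9303941997) (nat_lit 532) (nat_lit 3389470406) (nat_lit 63) (nat_lit 5) (nat_lit 62) (nat_lit 5) (nat_lit 69) (nat_lit 5) (nat_lit 318) (nat_lit 316) (nat_lit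 266)) (XT.nd (nat_lit 78) (nat_lit 0) (nat_lit 76) (XT.lf (nat_lit 0) (nat_lit 1121506110) (nat_lit 532) (nat_lit 17325437884) (nat_lit 608) (nat_lit 28917192179) (nat_lit 56) (nat_lit 5) (nat_lit 63) (nat_lit 5) (nat_lit 64) (nat_lit 5) (nat_lit 319) (nat_lit 316) (nat_lit 265)) (XT.lf (nat_lit 0) (nat_lit 7995521047) (nat_lit 532) (nat_lit 21854769042) (nat_lit 76) (nat_lit 21258288883) (nat_lit 57) (nat_lit 5) (nat_lit 64) (nat_lit 5) (nat_lit 58) (nat_lit 5) (nat_lit 320) (nat_lit 316) (nat_lit 264)))) (XT.nd (nat_lit 156) (nat_lit 456) (nat_lit 0) (XT.nd (nat_lit 78) (nat_lit 228) (nat_lit 0) (XT.lf (nat_lit 0) (nat_lit 17910671603) (nat_lit 456) (nat_lit 26125749320) (nat_lit 76) (nat_lit 11217474634) (nat_lit 52) (nat_lit 5) (nat_lit 58) (nat_lit 5) (nat_lit 53) (nat_lit 5) (nat_lit 321) (nat_lit 316) (nat_lit 263)) (XT.lf (nat_lit 0) (nat_lit 29748885419) (nat_lit 228) (nat_lit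 1749542094) (nat_lit 304) (nat_lit 28347764222) (nat_lit 49) (nat_lit 5) (nat_lit 52) (nat_lit 5) (nat_lit 53) (nat_lit 5) (nat_lit 322) (nat_lit 316) (nat_lit 262))) (XT.nd (nat_lit 78) (nat_lit 228) (nat_lit 0) (XT.lf (nat_lit 0) (nat_lit 30910517757) (nat_lit 228) (nat_lit 18857459865) (nat_lit 304) (nat_lit 15147871839) (nat_lit 46) (nat_lit 5) (nat_lit 49) (nat_lit 5) (nat_lit 50) (nat_lit 5) (nat_lit 323) (nat_lit 316) (nat_lit 261)) (XT.lf (nat_lit 0) (nat_lit 2555014852) (nat_lit 228) (nat_lit 37548150391) (nat_lit 76) (nat_lit 30440766223) (nat_lit 43) (nat_lit 5) (nat_lit 46) (nat_lit 5) (nat_lit 44) (nat_lit 5) (nat_lit 324) (nat_lit 316) (nat_lit 260))))) (XT.nd (nat_lit 234) (nat_lit 684) (nat_lit 0) (XT.nd (nat_lit 78) (nat_lit 304) (nat_lit 0) (XT.lf (nat_lit 0) (nat_lit 24716529484) (nat_lit 304) (nat_lit 41073436727) (nat_lit 76) (nat_lit 10978779337) (nat_lit 40) (nat_lit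 5) (nat_lit 44) (nat_lit 5) (nat_lit 41) (nat_lit 5) (nat_lit 325) (nat_lit 316) (nat_lit 259)) (XT.nd (nat_lit 78) (nat_lit 152) (nat_lit 0) (XT.lf (nat_lit 0) (nat_lit 39173376069) (nat_lit 152) (nat_lit 14196021996) (nat_lit 228) (nat_lit 30304518157) (nat_lit 38) (nat_lit 5) (nat_lit 40) (nat_lit 5) (nat_lit 41) (nat_lit 5) (nat_lit 326) (nat_lit 316) (nat_lit 258)) (XT.lf (nat_lit 0) (nat_lit 43475890308) (nat_lit 152) (nat_lit 46197121040) (nat_lit 228) (nat_lit 1673630012) (nat_lit 36) (nat_lit 5) (nat_lit 38) (nat_lit 5) (nat_lit 39) (nat_lit 5) (nat_lit 327) (nat_lit 316) (nat_lit 257)))) (XT.nd (nat_lit 156) (nat_lit 304) (nat_lit 0) (XT.nd (nat_lit 78) (nat_lit 152) (nat_lit 0) (XT.lf (nat_lit 0) (nat_lit 32955991700) (nat_lit 228) (nat_lit 51743995603) (nat_lit 76) (nat_lit 15148766781) (nat_lit 33) (nat_lit 5) (nat_lit 36) (nat_lit 5) (nat_lit 34) (nat_lit 5) (nat_lit 328)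 (nat_lit 316) (nat_lit 256)) (XT.lf (nat_lit 0) (nat_lit 53152605469) (nat_lit 152) (nat_lit 23512697012) (nat_lit 228) (nat_lit 32638658904) (nat_lit 31) (nat_lit 5) (nat_lit 33) (nat_lit 5) (nat_lit 34) (nat_lit 5) (nat_lit 329) (nat_lit 316) (nat_lit 255))) (XT.nd (nat_lit 78) (nat_lit 152) (nat_lit 0) (XT.lf (nat_lit 0) (nat_lit 10599832086) (nat_lit 152) (nat_lit 61499454432) (nat_lit 76) (nat_lit 47730442672) (nat_lit 29) (nat_lit 5) (nat_lit 31) (nat_lit 5) (nat_lit 30) (nat_lit 5) (nat_lit 330) (nat_lit 316) (nat_lit 254)) (XT.lf (nat_lit 0) (nat_lit 62309147861) (nat_lit 228) (nat_lit 68437574938) (nat_lit 76) (nat_lit 806410830) (nat_lit 27) (nat_lit 5) (nat_lit 30) (nat_lit 5) (nat_lit 28) (nat_lit 4) (nat_lit 331) (nat_lit 316) (nat_lit 253)))))) (XT.nd (nat_lit 546) (nat_lit 608) (nat_lit 0) (XT.nd (nat_lit 234) (nat_lit 380) (nat_lit 0) (XT.nd (nat_lit 78) (nat_lit 304) (nat_lit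 0) (XT.lf (nat_lit 0) (nat_lit 66537161366) (nat_lit 76) (nat_lit 60665549524) (nat_lit 152) (nat_lit 17398111564) (nat_lit 26) (nat_lit 5) (nat_lit 27) (nat_lit 5) (nat_lit 28) (nat_lit 4) (nat_lit 332) (nat_lit 316) (nat_lit 252)) (XT.nd (nat_lit 78) (nat_lit 76) (nat_lit 0) (XT.lf (nat_lit 0) (nat_lit 44410366683) (nat_lit 228) (nat_lit 91004073107) (nat_lit 76) (nat_lit 23766148247) (nat_lit 23) (nat_lit 5) (nat_lit 26) (nat_lit 5) (nat_lit 24) (nat_lit 4) (nat_lit 333) (nat_lit 316) (nat_lit 251)) (XT.lf (nat_lit 0) (nat_lit 66413390204) (nat_lit 76) (nat_lit 53679753491) (nat_lit 152) (nat_lit 55367368891) (nat_lit 22) (nat_lit 5) (nat_lit 23) (nat_lit 5) (nat_lit 24) (nat_lit 4) (nat_lit 334) (nat_lit 316) (nat_lit 250)))) (XT.nd (nat_lit 156) (nat_lit 152) (nat_lit 0) (XT.nd (nat_lit 78) (nat_lit 76) (nat_lit 0) (XT.lf (nat_lit 0) (nat_lit 17584097235) (nat_lit 152) (nat_lit 133223881177)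 (nat_lit 76) (nat_lit 42926676995) (nat_lit 20) (nat_lit 5) (nat_lit 22) (nat_lit 5) (nat_lit 21) (nat_lit 4) (nat_lit 335) (nat_lit 316) (nat_lit 249)) (XT.lf (nat_lit 0) (nat_lit 46850455865) (nat_lit 76) (nat_lit 57308755030) (nat_lit 152) (nat_lit 109998917019) (nat_lit 19) (nat_lit 5) (nat_lit 20) (nat_lit 5) (nat_lit 21) (nat_lit 4) (nat_lit 336) (nat_lit 316) (nat_lit 248))) (XT.nd (nat_lit 78) (nat_lit 76) (nat_lit 0) (XT.lf (nat_lit 0) (nat_lit 24585723626) (nat_lit 76) (nat_lit 184910860620) (nat_lit 76) (nat_lit 27686458372) (nat_lit 18) (nat_lit 4) (nat_lit 19) (nat_lit 5) (nat_lit 19) (nat_lit 4) (nat_lit 337) (nat_lit 316) (nat_lit 247)) (XT.lf (nat_lit 0) (nat_lit 70202901607) (nat_lit 152) (nat_lit 11203696715) (nat_lit 76) (nat_lit 181599817928) (nat_lit 17) (nat_lit 5) (nat_lit 19) (nat_lit 5) (nat_lit 18) (nat_lit 4) (nat_lit 338) (nat_lit 316) (nat_lit 246))))) (XT.nd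 (nat_lit 312) (nat_lit 228) (nat_lit 0) (XT.nd (nat_lit 156) (nat_lit 152) (nat_lit 0) (XT.nd (nat_lit 78) (nat_lit 152) (nat_lit 0) (XT.lf (nat_lit 0) (nat_lit 187810339321) (nat_lit 152) (nat_lit 62071618051) (nat_lit 0) (nat_lit 42229887081) (nat_lit 16) (nat_lit 5) (nat_lit 18) (nat_lit 4) (nat_lit 16) (nat_lit 4) (nat_lit 339) (nat_lit 316) (nat_lit 245)) (XT.lf (nat_lit 0) (nat_lit 4937419241) (nat_lit 152) (nat_lit 135311551264) (nat_lit 76) (nat_lit 184752145906) (nat_lit 14) (nat_lit 5) (nat_lit 16) (nat_lit 5) (nat_lit 15) (nat_lit 4) (nat_lit 340) (nat_lit 316) (nat_lit 244))) (XT.nd (nat_lit 78) (nat_lit 76) (nat_lit 0) (XT.lf (nat_lit 0) (nat_lit 123539621603) (nat_lit 76) (nat_lit 5845866134) (nat_lit 152) (nat_lit 232821631903) (nat_lit 13) (nat_lit 5) (nat_lit 14) (nat_lit 5) (nat_lit 15) (nat_lit 4) (nat_lit 341) (nat_lit 316) (nat_lit 243)) (XT.lf (nat_lit 0) (nat_lit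 22160141327) (nat_lit 76) (nat_lit 258490437961) (nat_lit 76) (nat_lit 123691459354) (nat_lit 12) (nat_lit 4) (nat_lit 13) (nat_lit 5) (nat_lit 13) (nat_lit 4) (nat_lit 342) (nat_lit 316) (nat_lit 242)))) (XT.nd (nat_lit 156) (nat_lit 76) (nat_lit 0) (XT.nd (nat_lit 78) (nat_lit 76) (nat_lit 0) (XT.lf (nat_lit 0) (nat_lit 9007018368) (nat_lit 152) (nat_lit 116064947232) (nat_lit 76) (nat_lit 327138612312) (nat_lit 11) (nat_lit 5) (nat_lit 13) (nat_lit 5) (nat_lit 12) (nat_lit 4) (nat_lit 343) (nat_lit 316) (nat_lit 241)) (XT.lf (nat_lit 0) (nat_lit 160109524250) (nat_lit 152) (nat_lit 311132325189) (nat_lit 0) (nat_lit 35294673940) (nat_lit 10) (nat_lit 5) (nat_lit 12) (nat_lit 4) (nat_lit 10) (nat_lit 4) (nat_lit 344) (nat_lit 316) (nat_lit 240))) (XT.nd (nat_lit 78) (nat_lit 76) (nat_lit 0) (XT.lf (nat_lit 0) (nat_lit 340802263454) (nat_lit 152) (nat_lit 11668092520) (nat_lit 0) (nat_lit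 215987016287) (nat_lit 10) (nat_lit 5) (nat_lit 12) (nat_lit 4) (nat_lit 10) (nat_lit 4) (nat_lit 345) (nat_lit 316) (nat_lit 239)) (XT.lf (nat_lit 0) (nat_lit 350233832380) (nat_lit 76) (nat_lit 206787170679) (nat_lit 76) (nat_lit 81971578418) (nat_lit 9) (nat_lit 4) (nat_lit 10) (nat_lit 5) (nat_lit 10) (nat_lit 4) (nat_lit 346) (nat_lit 316) (nat_lit 238))))))) (XT.nd (nat_lit 1092) (nat_lit 152) (nat_lit 0) (XT.nd (nat_lit 546) (nat_lit 76) (nat_lit 0) (XT.nd (nat_lit 234) (nat_lit 228) (nat_lit 0) (XT.nd (nat_lit 78) (nat_lit 0) (nat_lit 0) (XT.lf (nat_lit 0) (nat_lit 47346617921) (nat_lit 76) (nat_lit 35423819705) (nat_lit 152) (nat_lit 637054109317) (nat_lit 7) (nat_lit 5) (nat_lit 8) (nat_lit 5) (nat_lit 9) (nat_lit 4) (nat_lit 347) (nat_lit 316) (nat_lit 237)) (XT.nd (nat_lit 78) (nat_lit 0) (nat_lit 0) (XT.lf (nat_lit 0) (nat_lit 280020014355) (nat_lit 152) (nat_lit 367129469141)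 (nat_lit 0) (nat_lit 164449502057) (nat_lit 7) (nat_lit 5) (nat_lit 9) (nat_lit 4) (nat_lit 7) (nat_lit 4) (nat_lit 348) (nat_lit 316) (nat_lit 236)) (XT.lf (nat_lit 0) (nat_lit 507835968891) (nat_lit 152) (nat_lit 16960059366) (nat_lit 0) (nat_lit 392265246496) (nat_lit 7) (nat_lit 5) (nat_lit 9) (nat_lit 4) (nat_lit 7) (nat_lit 4) (nat_lit 349) (nat_lit 316) (nat_lit 235)))) (XT.nd (nat_lit 156) (nat_lit 152) (nat_lit 0) (XT.nd (nat_lit 78) (nat_lit 0) (nat_lit 0) (XT.lf (nat_lit 0) (nat_lit 406045421101) (nat_lit 76) (nat_lit 373543607234) (nat_lit 76) (nat_lit 257972702146) (nat_lit 6) (nat_lit 4) (nat_lit 7) (nat_lit 5) (nat_lit 7) (nat_lit 4) (nat_lit 350) (nat_lit 316) (nat_lit 234)) (XT.lf (nat_lit 0) (nat_lit 893527512657) (nat_lit 76) (nat_lit 199070677241) (nat_lit 76) (nat_lit 83499613290) (nat_lit 6) (nat_lit 4) (nat_lit 7) (nat_lit 5) (nat_lit 7) (nat_lit 4) (nat_lit 351)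 (nat_lit 316) (nat_lit 233))) (XT.nd (nat_lit 78) (nat_lit 0) (nat_lit 0) (XT.lf (nat_lit 0) (nat_lit 114405204256) (nat_lit 152) (nat_lit 1213139200162) (nat_lit 0) (nat_lit 7394831947) (nat_lit 4) (nat_lit 5) (nat_lit 6) (nat_lit 4) (nat_lit 4) (nat_lit 4) (nat_lit 352) (nat_lit 316) (nat_lit 232)) (XT.lf (nat_lit 0) (nat_lit 351137894781) (nat_lit 152) (nat_lit 921041172114) (nat_lit 0) (nat_lit 244127411247) (nat_lit 4) (nat_lit 5) (nat_lit 6) (nat_lit 4) (nat_lit 4) (nat_lit 4) (nat_lit 353) (nat_lit 316) (nat_lit 231))))) (XT.nd (nat_lit 234) (nat_lit 0) (nat_lit 0) (XT.nd (nat_lit 78) (nat_lit 76) (nat_lit 0) (XT.lf (nat_lit 0) (nat_lit 623380031031) (nat_lit 152) (nat_lit 585129361051) (nat_lit 0) (nat_lit 516369450779) (nat_lit 4) (nat_lit 5) (nat_lit 6) (nat_lit 4) (nat_lit 4) (nat_lit 4) (nat_lit 354) (nat_lit 316) (nat_lit 230)) (XT.nd (nat_lit 78) (nat_lit 76) (nat_lit 0) (XT.lf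 (nat_lit 0) (nat_lit 936458089583) (nat_lit 152) (nat_lit 198831579366) (nat_lit 0) (nat_lit 829447425229) (nat_lit 4) (nat_lit 5) (nat_lit 6) (nat_lit 4) (nat_lit 4) (nat_lit 4) (nat_lit 355) (nat_lit 316) (nat_lit 229)) (XT.lf (nat_lit 0) (nat_lit 258333037824) (nat_lit 76) (nat_lit 1044377388663) (nat_lit 76) (nat_lit 937366651176) (nat_lit 3) (nat_lit 4) (nat_lit 4) (nat_lit 5) (nat_lit 4) (nat_lit 4) (nat_lit 356) (nat_lit 316) (nat_lit 228)))) (XT.nd (nat_lit 156) (nat_lit 0) (nat_lit 0) (XT.nd (nat_lit 78) (nat_lit 0) (nat_lit 0) (XT.lf (nat_lit 0) (nat_lit 796112346400) (nat_lit 76) (nat_lit 933576718646) (nat_lit 76) (nat_lit 826565917565) (nat_lit 3) (nat_lit 4) (nat_lit 4) (nat_lit 5) (nat_lit 4) (nat_lit 4) (nat_lit 357) (nat_lit 316) (nat_lit 227)) (XT.lf (nat_lit 0) (nat_lit 1414557996833) (nat_lit 76) (nat_lit 806156227441) (nat_lit 76) (nat_lit 699145371062) (nat_lit 3)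 (nat_lit 4) (nat_lit 4) (nat_lit 5) (nat_lit 4) (nat_lit 4) (nat_lit 358) (nat_lit 316) (nat_lit 226))) (XT.nd (nat_lit 78) (nat_lit 0) (nat_lit 0) (XT.lf (nat_lit 0) (nat_lit 2125770012719) (nat_lit 76) (nat_lit 659622905439) (nat_lit 76) (nat_lit 552612000974) (nat_lit 3) (nat_lit 4) (nat_lit 4) (nat_lit 5) (nat_lit 4) (nat_lit 4) (nat_lit 359) (nat_lit 316) (nat_lit 225)) (XT.lf (nat_lit 0) (nat_lit 2943663411759) (nat_lit 76) (nat_lit 491109796340) (nat_lit 76) (nat_lit 384098850061) (nat_lit 3) (nat_lit 4) (nat_lit 4) (nat_lit 5) (nat_lit 4) (nat_lit 4) (nat_lit 360) (nat_lit 316) (nat_lit 224)))))) (XT.nd (nat_lit 546) (nat_lit 0) (nat_lit 0) (XT.nd (nat_lit 234) (nat_lit 0) (nat_lit 0) (XT.nd (nat_lit 78) (nat_lit 152) (nat_lit 0) (XT.lf (nat_lit 0) (nat_lit 3884240456108) (nat_lit 76) (nat_lit 297319904530) (nat_lit 76) (nat_lit 190308921892) (nat_lit 3) (nat_lit 4) (nat_lit 4)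 (nat_lit 5) (nat_lit 4) (nat_lit 4) (nat_lit 361) (nat_lit 316) (nat_lit 223)) (XT.nd (nat_lit 78) (nat_lit 76) (nat_lit 0) (XT.lf (nat_lit 0) (nat_lit 30921076514) (nat_lit 152) (nat_lit 42695175106) (nat_lit 76) (nat_lit 4934137226570) (nat_lit 2) (nat_lit 5) (nat_lit 4) (nat_lit 5) (nat_lit 3) (nat_lit 4) (nat_lit 362) (nat_lit 316) (nat_lit 222)) (XT.lf (nat_lit 0) (nat_lit 290985274775) (nat_lit 152) (nat_lit 5254385155507) (nat_lit 0) (nat_lit 191900976860) (nat_lit 1) (nat_lit 5) (nat_lit 3) (nat_lit 4) (nat_lit 1) (nat_lit 4) (nat_lit 363) (nat_lit 316) (nat_lit 221)))) (XT.nd (nat_lit 156) (nat_lit 0) (nat_lit 0) (XT.nd (nat_lit 78) (nat_lit 0) (nat_lit 0) (XT.lf (nat_lit 0) (nat_lit 593370325299) (nat_lit 152) (nat_lit 5488295797099) (nat_lit 0) (nat_lit 494286005247) (nat_lit 1) (nat_lit 5) (nat_lit 3) (nat_lit 4) (nat_lit 1) (nat_lit 4) (nat_lit 364) (nat_lit 316) (nat_lit 220))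 (XT.lf (nat_lit 0) (nat_lit 941113019126) (nat_lit 152) (nat_lit 5757293266425) (nat_lit 0) (nat_lit 842028679826) (nat_lit 1) (nat_lit 5) (nat_lit 3) (nat_lit 4) (nat_lit 1) (nat_lit 4) (nat_lit 365) (nat_lit 316) (nat_lit 219))) (XT.nd (nat_lit 78) (nat_lit 0) (nat_lit 0) (XT.lf (nat_lit 0) (nat_lit 1341017017657) (nat_lit 152) (nat_lit 6066640557450) (nat_lit 0) (nat_lit 1241932661618) (nat_lit 1) (nat_lit 5) (nat_lit 3) (nat_lit 4) (nat_lit 1) (nat_lit 4) (nat_lit 366) (nat_lit 316) (nat_lit 218)) (XT.lf (nat_lit 0) (nat_lit 1800906529559) (nat_lit 152) (nat_lit 6422390117171) (nat_lit 0) (nat_lit 1701822158965) (nat_lit 1) (nat_lit 5) (nat_lit 3) (nat_lit 4) (nat_lit 1) (nat_lit 4) (nat_lit 367) (nat_lit 316) (nat_lit 217))))) (XT.nd (nat_lit 42978) (nat_lit 0) (nat_lit 4180) (XT.nd (nat_lit 156) (nat_lit 0) (nat_lit 0) (XT.nd (nat_lit 78) (nat_lit 0) (nat_lit 0) (XT.lf (nat_lit 0)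 (nat_lit 2329779393108) (nat_lit 152) (nat_lit 6831502263062) (nat_lit 0) (nat_lit 2230695009857) (nat_lit 1) (nat_lit 5) (nat_lit 3) (nat_lit 4) (nat_lit 1) (nat_lit 4) (nat_lit 368) (nat_lit 316) (nat_lit 216)) (XT.lf (nat_lit 0) (nat_lit 2937983120851) (nat_lit 152) (nat_lit 7301981363195) (nat_lit 0) (nat_lit 2838898726596) (nat_lit 1) (nat_lit 5) (nat_lit 3) (nat_lit 4) (nat_lit 1) (nat_lit 4) (nat_lit 369) (nat_lit 316) (nat_lit 215))) (XT.nd (nat_lit 42744) (nat_lit 0) (nat_lit 4560) (XT.lf (nat_lit 0) (nat_lit 3637417350942) (nat_lit 152) (nat_lit 7843032443442) (nat_lit 0) (nat_lit 3538332947116) (nat_lit 1) (nat_lit 5) (nat_lit 3) (nat_lit 4) (nat_lit 1) (nat_lit 4) (nat_lit 370) (nat_lit 316) (nat_lit 214)) (XT.lf (nat_lit 0) (nat_lit 18405871487) (nat_lit 532) (nat_lit 1750774103) (nat_lit 532) (nat_lit 1750774103) (nat_lit 61) (nat_lit 3) (nat_lit 68) (nat_lit 3) (nat_lit 68)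 (nat_lit 5) (nat_lit 317) (nat_lit 317) (nat_lit 266)))) (XT.nd (nat_lit 156) (nat_lit 380) (nat_lit 0) (XT.nd (nat_lit 78) (nat_lit 0) (nat_lit 76) (XT.lf (nat_lit 76) (nat_lit 38000460694) (nat_lit 0) (nat_lit 2543387277) (nat_lit 532) (nat_lit 6479336423) (nat_lit 62) (nat_lit 5) (nat_lit 61) (nat_lit 3) (nat_lit 68) (nat_lit 5) (nat_lit 318) (nat_lit 317) (nat_lit 265)) (XT.lf (nat_lit 76) (nat_lit 36045470930) (nat_lit 0) (nat_lit 10735002349) (nat_lit 532) (nat_lit 3776743974) (nat_lit 63) (nat_lit 5) (nat_lit 62) (nat_lit 5) (nat_lit 69) (nat_lit 5) (nat_lit 319) (nat_lit 317) (nat_lit 264))) (XT.nd (nat_lit 78) (nat_lit 0) (nat_lit 76) (XT.lf (nat_lit 0) (nat_lit 1391000809) (nat_lit 532) (nat_lit 19839606317) (nat_lit 608) (nat_lit 33229939912) (nat_lit 56) (nat_lit 5) (nat_lit 63) (nat_lit 5) (nat_lit 64) (nat_lit 5) (nat_lit 320) (nat_lit 317) (nat_lit 263)) (XT.lf (nat_lit 0)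 (nat_lit 9284473259) (nat_lit 532) (nat_lit 25047915085) (nat_lit 76) (nat_lit 24435213585) (nat_lit 57) (nat_lit 5) (nat_lit 64) (nat_lit 5) (nat_lit 58) (nat_lit 5) (nat_lit 321) (nat_lit 317) (nat_lit 262))))))))
noncomputable def xc42 : XT := (XT.nd (nat_lit 2184) (nat_lit 456) (nat_lit 0) (XT.nd (nat_lit 1092) (nat_lit 1140) (nat_lit 0) (XT.nd (nat_lit 546) (nat_lit 1064) (nat_lit 0) (XT.nd (nat_lit 234) (nat_lit 760) (nat_lit 0) (XT.nd (nat_lit 78) (nat_lit 456) (nat_lit 0) (XT.lf (nat_lit 0) (nat_lit 20677032436) (nat_lit 456) (nat_lit 29960230241) (nat_lit 76) (nat_lit 12898254697) (nat_lit 52) (nat_lit 5) (nat_lit 58) (nat_lit 5) (nat_lit 53) (nat_lit 5) (nat_lit 322) (nat_lit 317) (nat_lit 261)) (XT.nd (nat_lit 78) (nat_lit 228) (nat_lit 0) (XT.lf (nat_lit 0) (nat_lit 34288457237) (nat_lit 228) (nat_lit 2005948605) (nat_lit 304) (nat_lit 32522946466) (nat_lit 49) (nat_lit 5) (nat_lit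 52) (nat_lit 5) (nat_lit 53) (nat_lit 5) (nat_lit 323) (nat_lit 317) (nat_lit 260)) (XT.lf (nat_lit 0) (nat_lit 35622943836) (nat_lit 228) (nat_lit 21674105977) (nat_lit 304) (nat_lit 17351005242) (nat_lit 46) (nat_lit 5) (nat_lit 49) (nat_lit 5) (nat_lit 50) (nat_lit 5) (nat_lit 324) (nat_lit 317) (nat_lit 259)))) (XT.nd (nat_lit 156) (nat_lit 304) (nat_lit 0) (XT.nd (nat_lit 78) (nat_lit 228) (nat_lit 0) (XT.lf (nat_lit 0) (nat_lit 2997385092) (nat_lit 228) (nat_lit 43103311447) (nat_lit 76) (nat_lit 35020045461) (nat_lit 43) (nat_lit 5) (nat_lit 46) (nat_lit 5) (nat_lit 44) (nat_lit 5) (nat_lit 325) (nat_lit 317) (nat_lit 258)) (XT.lf (nat_lit 0) (nat_lit 28477531647) (nat_lit 304) (nat_lit 47160041392) (nat_lit 76) (nat_lit 12642159265) (nat_lit 40) (nat_lit 5) (nat_lit 44) (nat_lit 5) (nat_lit 41) (nat_lit 5) (nat_lit 326) (nat_lit 317) (nat_lit 257))) (XT.nd (nat_lit 78) (nat_lit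 152) (nat_lit 0) (XT.lf (nat_lit 0) (nat_lit 45117494815) (nat_lit 152) (nat_lit 16305492575) (nat_lit 228) (nat_lit 34798124281) (nat_lit 38) (nat_lit 5) (nat_lit 40) (nat_lit 5) (nat_lit 41) (nat_lit 5) (nat_lit 327) (nat_lit 317) (nat_lit 256)) (XT.lf (nat_lit 0) (nat_lit 50062744563) (nat_lit 152) (nat_lit 53105105233) (nat_lit 228) (nat_lit 1877244121) (nat_lit 36) (nat_lit 5) (nat_lit 38) (nat_lit 5) (nat_lit 39) (nat_lit 5) (nat_lit 328) (nat_lit 317) (nat_lit 255))))) (XT.nd (nat_lit 234) (nat_lit 532) (nat_lit 0) (XT.nd (nat_lit 78) (nat_lit 304) (nat_lit 0) (XT.lf (nat_lit 0) (nat_lit 37940581245) (nat_lit 228) (nat_lit 59440702096) (nat_lit 76) (nat_lit 17441462258) (nat_lit 33) (nat_lit 5) (nat_lit 36) (nat_lit 5) (nat_lit 34) (nat_lit 5) (nat_lit 329) (nat_lit 317) (nat_lit 254)) (XT.nd (nat_lit 78) (nat_lit 152) (nat_lit 0) (XT.lf (nat_lit 0) (nat_lit 61184896281) (nat_lit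 152) (nat_lit 27017448222) (nat_lit 228) (nat_lit 37494208458) (nat_lit 31) (nat_lit 5) (nat_lit 33) (nat_lit 5) (nat_lit 34) (nat_lit 5) (nat_lit 330) (nat_lit 317) (nat_lit 253)) (XT.lf (nat_lit 0) (nat_lit 12224928190) (nat_lit 152) (nat_lit 70665871872) (nat_lit 76) (nat_lit 54910560365) (nat_lit 29) (nat_lit 5) (nat_lit 31) (nat_lit 5) (nat_lit 30) (nat_lit 5) (nat_lit 331) (nat_lit 317) (nat_lit 252)))) (XT.nd (nat_lit 156) (nat_lit 304) (nat_lit 0) (XT.nd (nat_lit 78) (nat_lit 76) (nat_lit 0) (XT.lf (nat_lit 0) (nat_lit 71687870532) (nat_lit 228) (nat_lit 78647622354) (nat_lit 76) (nat_lit 948006714) (nat_lit 27) (nat_lit 5) (nat_lit 30) (nat_lit 5) (nat_lit 28) (nat_lit 4) (nat_lit 332) (nat_lit 317) (nat_lit 251)) (XT.lf (nat_lit 0) (nat_lit 76568619078) (nat_lit 76) (nat_lit 69743853057) (nat_lit 152) (nat_lit 19976111375) (nat_lit 26) (nat_lit 5) (nat_lit 27) (nat_lit 5) (nat_lit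 28) (nat_lit 4) (nat_lit 333) (nat_lit 317) (nat_lit 250))) (XT.nd (nat_lit 78) (nat_lit 76) (nat_lit 0) (XT.lf (nat_lit 0) (nat_lit 51099774810) (nat_lit 228) (nat_lit 104604941270) (nat_lit 76) (nat_lit 27350720687) (nat_lit 23) (nat_lit 5) (nat_lit 26) (nat_lit 5) (nat_lit 24) (nat_lit 4) (nat_lit 334) (nat_lit 317) (nat_lit 249)) (XT.lf (nat_lit 0) (nat_lit 76420931057) (nat_lit 76) (nat_lit 61711499353) (nat_lit 152) (nat_lit 63645124089) (nat_lit 22) (nat_lit 5) (nat_lit 23) (nat_lit 5) (nat_lit 24) (nat_lit 4) (nat_lit 335) (nat_lit 317) (nat_lit 248)))))) (XT.nd (nat_lit 546) (nat_lit 456) (nat_lit 0) (XT.nd (nat_lit 234) (nat_lit 380) (nat_lit 0) (XT.nd (nat_lit 78) (nat_lit 152) (nat_lit 0) (XT.lf (nat_lit 0) (nat_lit 20245802002) (nat_lit 152) (nat_lit 153163091052) (nat_lit 76) (nat_lit 49384025589) (nat_lit 20) (nat_lit 5) (nat_lit 22) (nat_lit 5) (nat_lit 21) (nat_lit 4) (nat_lit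 336) (nat_lit 317) (nat_lit 247)) (XT.nd (nat_lit 78) (nat_lit 76) (nat_lit 0) (XT.lf (nat_lit 0) (nat_lit 53918640652) (nat_lit 76) (nat_lit 65886376688) (nat_lit 152) (nat_lit 126475068944) (nat_lit 19) (nat_lit 5) (nat_lit 20) (nat_lit 5) (nat_lit 21) (nat_lit 4) (nat_lit 337) (nat_lit 317) (nat_lit 246)) (XT.lf (nat_lit 0) (nat_lit 28311960892) (nat_lit 76) (nat_lit 212629489950) (nat_lit 76) (nat_lit 31817411909) (nat_lit 18) (nat_lit 4) (nat_lit 19) (nat_lit 5) (nat_lit 19) (nat_lit 4) (nat_lit 338) (nat_lit 317) (nat_lit 245)))) (XT.nd (nat_lit 156) (nat_lit 228) (nat_lit 0) (XT.nd (nat_lit 78) (nat_lit 76) (nat_lit 0) (XT.lf (nat_lit 0) (nat_lit 80751522873) (nat_lit 152) (nat_lit 12849915992) (nat_lit 76) (nat_lit 208854480156) (nat_lit 17) (nat_lit 5) (nat_lit 19) (nat_lit 5) (nat_lit 18) (nat_lit 4) (nat_lit 339) (nat_lit 317) (nat_lit 244)) (XT.lf (nat_lit 0) (nat_lit 215998817383)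 (nat_lit 152) (nat_lit 71349959453) (nat_lit 0) (nat_lit 48578485953) (nat_lit 16) (nat_lit 5) (nat_lit 18) (nat_lit 4) (nat_lit 16) (nat_lit 4) (nat_lit 340) (nat_lit 317) (nat_lit 243))) (XT.nd (nat_lit 78) (nat_lit 76) (nat_lit 0) (XT.lf (nat_lit 0) (nat_lit 5693868974) (nat_lit 152) (nat_lit 155577787966) (nat_lit 76) (nat_lit 212478356634) (nat_lit 14) (nat_lit 5) (nat_lit 16) (nat_lit 5) (nat_lit 15) (nat_lit 4) (nat_lit 341) (nat_lit 317) (nat_lit 242)) (XT.lf (nat_lit 0) (nat_lit 142098479497) (nat_lit 76) (nat_lit 6709273920) (nat_lit 152) (nat_lit 267729275854) (nat_lit 13) (nat_lit 5) (nat_lit 14) (nat_lit 5) (nat_lit 15) (nat_lit 4) (nat_lit 342) (nat_lit 317) (nat_lit 241))))) (XT.nd (nat_lit 234) (nat_lit 228) (nat_lit 0) (XT.nd (nat_lit 78) (nat_lit 152) (nat_lit 0) (XT.lf (nat_lit 0) (nat_lit 25510478033) (nat_lit 76) (nat_lit 297251161494) (nat_lit 76) (nat_lit 142230624511)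 (nat_lit 12) (nat_lit 4) (nat_lit 13) (nat_lit 5) (nat_lit 13) (nat_lit 4) (nat_lit 343) (nat_lit 317) (nat_lit 240)) (XT.nd (nat_lit 78) (nat_lit 76) (nat_lit 0) (XT.lf (nat_lit 0) (nat_lit 10370093478) (nat_lit 152) (nat_lit 133451171152) (nat_lit 76) (nat_lit 376219936140) (nat_lit 11) (nat_lit 5) (nat_lit 13) (nat_lit 5) (nat_lit 12) (nat_lit 4) (nat_lit 344) (nat_lit 317) (nat_lit 239)) (XT.lf (nat_lit 0) (nat_lit 184137178706) (nat_lit 152) (nat_lit 357780020828) (nat_lit 0) (nat_lit 40598902513) (nat_lit 10) (nat_lit 5) (nat_lit 12) (nat_lit 4) (nat_lit 10) (nat_lit 4) (nat_lit 345) (nat_lit 317) (nat_lit 238)))) (XT.nd (nat_lit 156) (nat_lit 152) (nat_lit 0) (XT.nd (nat_lit 78) (nat_lit 76) (nat_lit 0) (XT.lf (nat_lit 0) (nat_lit 391932364554) (nat_lit 152) (nat_lit 13399042798) (nat_lit 0) (nat_lit 248393788279) (nat_lit 10) (nat_lit 5) (nat_lit 12) (nat_lit 4) (nat_lit 10) (nat_lit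 4) (nat_lit 346) (nat_lit 317) (nat_lit 237)) (XT.lf (nat_lit 0) (nat_lit 402786540269) (nat_lit 76) (nat_lit 237796525656) (nat_lit 76) (nat_lit 94257688441) (nat_lit 9) (nat_lit 4) (nat_lit 10) (nat_lit 5) (nat_lit 10) (nat_lit 4) (nat_lit 347) (nat_lit 317) (nat_lit 236))) (XT.nd (nat_lit 78) (nat_lit 0) (nat_lit 0) (XT.lf (nat_lit 0) (nat_lit 54465193035) (nat_lit 76) (nat_lit 40729161365) (nat_lit 152) (nat_lit 732603205414) (nat_lit 7) (nat_lit 5) (nat_lit 8) (nat_lit 5) (nat_lit 9) (nat_lit 4) (nat_lit 348) (nat_lit 317) (nat_lit 235)) (XT.lf (nat_lit 0) (nat_lit 322030450503) (nat_lit 152) (nat_lit 422184060266) (nat_lit 0) (nat_lit 189123726959) (nat_lit 7) (nat_lit 5) (nat_lit 9) (nat_lit 4) (nat_lit 7) (nat_lit 4) (nat_lit 349) (nat_lit 317) (nat_lit 234))))))) (XT.nd (nat_lit 1092) (nat_lit 76) (nat_lit 0) (XT.nd (nat_lit 546) (nat_lit 152) (nat_lit 0) (XT.nd (nat_lit 234) (nat_lit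 152) (nat_lit 0) (XT.nd (nat_lit 78) (nat_lit 76) (nat_lit 0) (XT.lf (nat_lit 0) (nat_lit 584017828568) (nat_lit 152) (nat_lit 19491173274) (nat_lit 0) (nat_lit 451110946160) (nat_lit 7) (nat_lit 5) (nat_lit 9) (nat_lit 4) (nat_lit 7) (nat_lit 4) (nat_lit 350) (nat_lit 317) (nat_lit 233)) (XT.nd (nat_lit 78) (nat_lit 0) (nat_lit 0) (XT.lf (nat_lit 0) (nat_lit 466964037766) (nat_lit 76) (nat_lit 429569249861) (nat_lit 76) (nat_lit 296662229312) (nat_lit 6) (nat_lit 4) (nat_lit 7) (nat_lit 5) (nat_lit 7) (nat_lit 4) (nat_lit 351) (nat_lit 317) (nat_lit 232)) (XT.lf (nat_lit 0) (nat_lit 1027566903468) (nat_lit 76) (nat_lit 228926149734) (nat_lit 76) (nat_lit 96019009061) (nat_lit 6) (nat_lit 4) (nat_lit 7) (nat_lit 5) (nat_lit 7) (nat_lit 4) (nat_lit 352) (nat_lit 317) (nat_lit 231)))) (XT.nd (nat_lit 156) (nat_lit 0) (nat_lit 0) (XT.nd (nat_lit 78) (nat_lit 0) (nat_lit 0) (XT.lf (nat_lit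 0) (nat_lit 131570914819) (nat_lit 152) (nat_lit 1395100161299) (nat_lit 0) (nat_lit 8508650812) (nat_lit 4) (nat_lit 5) (nat_lit 6) (nat_lit 4) (nat_lit 4) (nat_lit 4) (nat_lit 353) (nat_lit 317) (nat_lit 230)) (XT.lf (nat_lit 0) (nat_lit 403812865890) (nat_lit 152) (nat_lit 1059188722811) (nat_lit 0) (nat_lit 280750517780) (nat_lit 4) (nat_lit 5) (nat_lit 6) (nat_lit 4) (nat_lit 4) (nat_lit 4) (nat_lit 354) (nat_lit 317) (nat_lit 229))) (XT.nd (nat_lit 78) (nat_lit 0) (nat_lit 0) (XT.lf (nat_lit 0) (nat_lit 716890763417) (nat_lit 152) (nat_lit 672891265105) (nat_lit 0) (nat_lit 593828342175) (nat_lit 4) (nat_lit 5) (nat_lit 6) (nat_lit 4) (nat_lit 4) (nat_lit 4) (nat_lit 355) (nat_lit 317) (nat_lit 228)) (XT.lf (nat_lit 0) (nat_lit 1076930044526) (nat_lit 152) (nat_lit 228649794441) (nat_lit 0) (nat_lit 953867559691) (nat_lit 4) (nat_lit 5) (nat_lit 6) (nat_lit 4) (nat_lit 4) (nat_lit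 4) (nat_lit 356) (nat_lit 317) (nat_lit 227))))) (XT.nd (nat_lit 234) (nat_lit 76) (nat_lit 0) (XT.nd (nat_lit 78) (nat_lit 0) (nat_lit 0) (XT.lf (nat_lit 0) (nat_lit 297088963287) (nat_lit 76) (nat_lit 1201030989447) (nat_lit 76) (nat_lit 1077968449313) (nat_lit 3) (nat_lit 4) (nat_lit 4) (nat_lit 5) (nat_lit 4) (nat_lit 4) (nat_lit 357) (nat_lit 317) (nat_lit 226)) (XT.nd (nat_lit 78) (nat_lit 0) (nat_lit 0) (XT.lf (nat_lit 0) (nat_lit 915534389482) (nat_lit 76) (nat_lit 1073610611212) (nat_lit 76) (nat_lit 950548022991) (nat_lit 3) (nat_lit 4) (nat_lit 4) (nat_lit 5) (nat_lit 4) (nat_lit 4) (nat_lit 358) (nat_lit 317) (nat_lit 225)) (XT.lf (nat_lit 0) (nat_lit 1626746210377) (nat_lit 76) (nat_lit 927077387444) (nat_lit 76) (nat_lit 804014757410) (nat_lit 3) (nat_lit 4) (nat_lit 4) (nat_lit 5) (nat_lit 4) (nat_lit 4) (nat_lit 359) (nat_lit 317) (nat_lit 224)))) (XT.nd (nat_lit 156) (nat_lit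 76) (nat_lit 0) (XT.nd (nat_lit 78) (nat_lit 0) (nat_lit 0) (XT.lf (nat_lit 0) (nat_lit 2444639439860) (nat_lit 76) (nat_lit 758564363765) (nat_lit 76) (nat_lit 635501697371) (nat_lit 3) (nat_lit 4) (nat_lit 4) (nat_lit 5) (nat_lit 4) (nat_lit 4) (nat_lit 360) (nat_lit 317) (nat_lit 223)) (XT.lf (nat_lit 0) (nat_lit 3385216336769) (nat_lit 76) (nat_lit 564774546234) (nat_lit 76) (nat_lit 441711848223) (nat_lit 3) (nat_lit 4) (nat_lit 4) (nat_lit 5) (nat_lit 4) (nat_lit 4) (nat_lit 361) (nat_lit 317) (nat_lit 222))) (XT.nd (nat_lit 78) (nat_lit 76) (nat_lit 0) (XT.lf (nat_lit 0) (nat_lit 4466879492565) (nat_lit 76) (nat_lit 341916394943) (nat_lit 76) (nat_lit 218853669439) (nat_lit 3) (nat_lit 4) (nat_lit 4) (nat_lit 5) (nat_lit 4) (nat_lit 4) (nat_lit 362) (nat_lit 317) (nat_lit 221)) (XT.lf (nat_lit 0) (nat_lit 35560552044) (nat_lit 152) (nat_lit 49096801157) (nat_lit 76) (nat_lit 5674259041478)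 (nat_lit 2) (nat_lit 5) (nat_lit 4) (nat_lit 5) (nat_lit 3) (nat_lit 4) (nat_lit 363) (nat_lit 317) (nat_lit 220)))))) (XT.nd (nat_lit 43290) (nat_lit 0) (nat_lit 3420) (XT.nd (nat_lit 234) (nat_lit 0) (nat_lit 0) (XT.nd (nat_lit 78) (nat_lit 0) (nat_lit 0) (XT.lf (nat_lit 0) (nat_lit 334634296448) (nat_lit 152) (nat_lit 6042540436226) (nat_lit 0) (nat_lit 220687287003) (nat_lit 1) (nat_lit 5) (nat_lit 3) (nat_lit 4) (nat_lit 1) (nat_lit 4) (nat_lit 364) (nat_lit 317) (nat_lit 219)) (XT.nd (nat_lit 78) (nat_lit 0) (nat_lit 0) (XT.lf (nat_lit 0) (nat_lit 682376944056) (nat_lit 152) (nat_lit 6311537999180) (nat_lit 0) (nat_lit 568429917874) (nat_lit 1) (nat_lit 5) (nat_lit 3) (nat_lit 4) (nat_lit 1) (nat_lit 4) (nat_lit 365) (nat_lit 317) (nat_lit 218)) (XT.lf (nat_lit 0) (nat_lit 1082280902397) (nat_lit 152) (nat_lit 6620885371620) (nat_lit 0) (nat_lit 968333861659) (nat_lit 1) (nat_lit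 5) (nat_lit 3) (nat_lit 4) (nat_lit 1) (nat_lit 4) (nat_lit 366) (nat_lit 317) (nat_lit 217)))) (XT.nd (nat_lit 156) (nat_lit 0) (nat_lit 0) (XT.nd (nat_lit 78) (nat_lit 0) (nat_lit 0) (XT.lf (nat_lit 0) (nat_lit 1542170379351) (nat_lit 152) (nat_lit 6976635002138) (nat_lit 0) (nat_lit 1428223325957) (nat_lit 1) (nat_lit 5) (nat_lit 3) (nat_lit 4) (nat_lit 1) (nat_lit 4) (nat_lit 367) (nat_lit 317) (nat_lit 216)) (XT.lf (nat_lit 0) (nat_lit 2071043212510) (nat_lit 152) (nat_lit 7385747209591) (nat_lit 0) (nat_lit 1957096148110) (nat_lit 1) (nat_lit 5) (nat_lit 3) (nat_lit 4) (nat_lit 1) (nat_lit 4) (nat_lit 368) (nat_lit 317) (nat_lit 215))) (XT.nd (nat_lit 78) (nat_lit 0) (nat_lit 0) (XT.lf (nat_lit 0) (nat_lit 2679246913828) (nat_lit 152) (nat_lit 7856226363256) (nat_lit 0) (nat_lit 2565299839858) (nat_lit 1) (nat_lit 5) (nat_lit 3) (nat_lit 4) (nat_lit 1) (nat_lit 4) (nat_lit 369) (nat_lit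 317) (nat_lit 214)) (XT.lf (nat_lit 0) (nat_lit 3378681120940) (nat_lit 152) (nat_lit 8397277490052) (nat_lit 0) (nat_lit 3264734038648) (nat_lit 1) (nat_lit 5) (nat_lit 3) (nat_lit 4) (nat_lit 1) (nat_lit 4) (nat_lit 370) (nat_lit 317) (nat_lit 213))))) (XT.nd (nat_lit 312) (nat_lit 760) (nat_lit 0) (XT.nd (nat_lit 156) (nat_lit 380) (nat_lit 0) (XT.nd (nat_lit 78) (nat_lit 0) (nat_lit 0) (XT.lf (nat_lit 0) (nat_lit 21221691312) (nat_lit 532) (nat_lit 1983689551) (nat_lit 532) (nat_lit 1983689551) (nat_lit 61) (nat_lit 3) (nat_lit 68) (nat_lit 3) (nat_lit 68) (nat_lit 5) (nat_lit 318) (nat_lit 318) (nat_lit 264)) (XT.lf (nat_lit 76) (nat_lit 43754903107) (nat_lit 0) (nat_lit 2967376005) (nat_lit 532) (nat_lit 7346517922) (nat_lit 62) (nat_lit 5) (nat_lit 61) (nat_lit 3) (nat_lit 68) (nat_lit 5) (nat_lit 319) (nat_lit 318) (nat_lit 263))) (XT.nd (nat_lit 78) (nat_lit 456) (nat_lit 0) (XT.lf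 (nat_lit 76) (nat_lit 41510196915) (nat_lit 0) (nat_lit 12372072402) (nat_lit 532) (nat_lit 4251651038) (nat_lit 63) (nat_lit 5) (nat_lit 62) (nat_lit 5) (nat_lit 69) (nat_lit 5) (nat_lit 320) (nat_lit 318) (nat_lit 262)) (XT.lf (nat_lit 0) (nat_lit 1676224679) (nat_lit 532) (nat_lit 22751541782) (nat_lit 608) (nat_lit 38195655024) (nat_lit 56) (nat_lit 5) (nat_lit 63) (nat_lit 5) (nat_lit 64) (nat_lit 5) (nat_lit 321) (nat_lit 318) (nat_lit 261)))) (XT.nd (nat_lit 156) (nat_lit 456) (nat_lit 0) (XT.nd (nat_lit 78) (nat_lit 380) (nat_lit 0) (XT.lf (nat_lit 0) (nat_lit 10744912910) (nat_lit 532) (nat_lit 28740777724) (nat_lit 76) (nat_lit 28091559040) (nat_lit 57) (nat_lit 5) (nat_lit 64) (nat_lit 5) (nat_lit 58) (nat_lit 5) (nat_lit 322) (nat_lit 318) (nat_lit 260)) (XT.lf (nat_lit 0) (nat_lit 23838897391) (nat_lit 456) (nat_lit 34390460258) (nat_lit 76) (nat_lit 14831600742) (nat_lit 52)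 (nat_lit 5) (nat_lit 58) (nat_lit 5) (nat_lit 53) (nat_lit 5) (nat_lit 323) (nat_lit 318) (nat_lit 259))) (XT.nd (nat_lit 78) (nat_lit 228) (nat_lit 0) (XT.lf (nat_lit 0) (nat_lit 39490129606) (nat_lit 228) (nat_lit 2302285280) (nat_lit 304) (nat_lit 37343178690) (nat_lit 49) (nat_lit 5) (nat_lit 52) (nat_lit 5) (nat_lit 53) (nat_lit 5) (nat_lit 324) (nat_lit 318) (nat_lit 258)) (XT.lf (nat_lit 0) (nat_lit 41023737710) (nat_lit 228) (nat_lit 24916168665) (nat_lit 304) (nat_lit 19901446294) (nat_lit 46) (nat_lit 5) (nat_lit 49) (nat_lit 5) (nat_lit 50) (nat_lit 5) (nat_lit 325) (nat_lit 318) (nat_lit 257))))))))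
noncomputable def xc43 : XT := (XT.nd (nat_lit 2262) (nat_lit 228) (nat_lit 0) (XT.nd (nat_lit 1092) (nat_lit 1064) (nat_lit 0) (XT.nd (nat_lit 546) (nat_lit 836) (nat_lit 0) (XT.nd (nat_lit 234) (nat_lit 684) (nat_lit 0) (XT.nd (nat_lit 78) (nat_lit 380) (nat_lit 0) (XT.lf (nat_lit 0) (nat_lit 3491694567) (nat_lit 228) (nat_lit 49510538597) (nat_lit 76) (nat_lit 40283006385) (nat_lit 43) (nat_lit 5) (nat_lit 46) (nat_lit 5) (nat_lit 44) (nat_lit 5) (nat_lit 326) (nat_lit 318) (nat_lit 256)) (XT.nd (nat_lit 78) (nat_lit 152) (nat_lit 0) (XT.lf (nat_lit 0) (nat_lit 32789632275) (nat_lit 304) (nat_lit 54177782313) (nat_lit 76) (nat_lit 14551007184) (nat_lit 40) (nat_lit 5) (nat_lit 44) (nat_lit 5) (nat_lit 41) (nat_lit 5) (nat_lit 327) (nat_lit 318) (nat_lit 255)) (XT.lf (nat_lit 0) (nat_lit 51936621750) (nat_lit 152) (nat_lit 18736244462) (nat_lit 228) (nat_lit 39978469312) (nat_lit 38)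 (nat_lit 5) (nat_lit 40) (nat_lit 5) (nat_lit 41) (nat_lit 5) (nat_lit 328) (nat_lit 318) (nat_lit 254)))) (XT.nd (nat_lit 156) (nat_lit 304) (nat_lit 0) (XT.nd (nat_lit 78) (nat_lit 228) (nat_lit 0) (XT.lf (nat_lit 0) (nat_lit 57621661509) (nat_lit 152) (nat_lit 61054550441) (nat_lit 228) (nat_lit 2122966549) (nat_lit 36) (nat_lit 5) (nat_lit 38) (nat_lit 5) (nat_lit 39) (nat_lit 5) (nat_lit 329) (nat_lit 318) (nat_lit 253)) (XT.lf (nat_lit 0) (nat_lit 43662814587) (nat_lit 228) (nat_lit 68307739095) (nat_lit 76) (nat_lit 20073092152) (nat_lit 33) (nat_lit 5) (nat_lit 36) (nat_lit 5) (nat_lit 34) (nat_lit 5) (nat_lit 330) (nat_lit 318) (nat_lit 252))) (XT.nd (nat_lit 78) (nat_lit 152) (nat_lit 0) (XT.lf (nat_lit 0) (nat_lit 70407545651) (nat_lit 152) (nat_lit 31053314346) (nat_lit 228) (nat_lit 43087905488) (nat_lit 31) (nat_lit 5) (nat_lit 33) (nat_lit 5) (nat_lit 34) (nat_lit 5) (nat_lit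 331) (nat_lit 318) (nat_lit 251)) (XT.lf (nat_lit 0) (nat_lit 14085224161) (nat_lit 152) (nat_lit 81221517700) (nat_lit 76) (nat_lit 63162684150) (nat_lit 29) (nat_lit 5) (nat_lit 31) (nat_lit 5) (nat_lit 30) (nat_lit 5) (nat_lit 332) (nat_lit 318) (nat_lit 250))))) (XT.nd (nat_lit 234) (nat_lit 380) (nat_lit 0) (XT.nd (nat_lit 78) (nat_lit 304) (nat_lit 0) (XT.lf (nat_lit 0) (nat_lit 82465512733) (nat_lit 228) (nat_lit 90402732569) (nat_lit 76) (nat_lit 1105810186) (nat_lit 27) (nat_lit 5) (nat_lit 30) (nat_lit 5) (nat_lit 28) (nat_lit 4) (nat_lit 333) (nat_lit 318) (nat_lit 249)) (XT.nd (nat_lit 78) (nat_lit 228) (nat_lit 0) (XT.lf (nat_lit 0) (nat_lit 88092387183) (nat_lit 76) (nat_lit 80189152078) (nat_lit 152) (nat_lit 22948545530) (nat_lit 26) (nat_lit 5) (nat_lit 27) (nat_lit 5) (nat_lit 28) (nat_lit 4) (nat_lit 334) (nat_lit 318) (nat_lit 248)) (XT.lf (nat_lit 0) (nat_lit 58785801996)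 (nat_lit 228) (nat_lit 120258069755) (nat_lit 76) (nat_lit 31468187167) (nat_lit 23) (nat_lit 5) (nat_lit 26) (nat_lit 5) (nat_lit 24) (nat_lit 4) (nat_lit 335) (nat_lit 318) (nat_lit 247)))) (XT.nd (nat_lit 156) (nat_lit 152) (nat_lit 0) (XT.nd (nat_lit 78) (nat_lit 152) (nat_lit 0) (XT.lf (nat_lit 0) (nat_lit 87918499693) (nat_lit 76) (nat_lit 70952937178) (nat_lit 152) (nat_lit 73171212070) (nat_lit 22) (nat_lit 5) (nat_lit 23) (nat_lit 5) (nat_lit 24) (nat_lit 4) (nat_lit 336) (nat_lit 318) (nat_lit 246)) (XT.lf (nat_lit 0) (nat_lit 23300887941) (nat_lit 152) (nat_lit 176104002876) (nat_lit 76) (nat_lit 56805502430) (nat_lit 20) (nat_lit 5) (nat_lit 22) (nat_lit 5) (nat_lit 21) (nat_lit 4) (nat_lit 337) (nat_lit 318) (nat_lit 245))) (XT.nd (nat_lit 78) (nat_lit 76) (nat_lit 0) (XT.lf (nat_lit 0) (nat_lit 62037148588) (nat_lit 76) (nat_lit 75755199659) (nat_lit 152) (nat_lit 145428419547)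 (nat_lit 19) (nat_lit 5) (nat_lit 20) (nat_lit 5) (nat_lit 21) (nat_lit 4) (nat_lit 338) (nat_lit 318) (nat_lit 244)) (XT.lf (nat_lit 0) (nat_lit 32587774853) (nat_lit 76) (nat_lit 244510303037) (nat_lit 76) (nat_lit 36573377027) (nat_lit 18) (nat_lit 4) (nat_lit 19) (nat_lit 5) (nat_lit 19) (nat_lit 4) (nat_lit 339) (nat_lit 318) (nat_lit 243)))))) (XT.nd (nat_lit 546) (nat_lit 456) (nat_lit 0) (XT.nd (nat_lit 234) (nat_lit 304) (nat_lit 0) (XT.nd (nat_lit 78) (nat_lit 228) (nat_lit 0) (XT.lf (nat_lit 0) (nat_lit 92878002552) (nat_lit 152) (nat_lit 14751441024) (nat_lit 76) (nat_lit 240193759581) (nat_lit 17) (nat_lit 5) (nat_lit 19) (nat_lit 5) (nat_lit 18) (nat_lit 4) (nat_lit 340) (nat_lit 318) (nat_lit 242)) (XT.nd (nat_lit 78) (nat_lit 152) (nat_lit 0) (XT.lf (nat_lit 0) (nat_lit 248411439357) (nat_lit 152) (nat_lit 82027953328) (nat_lit 0) (nat_lit 55875932426) (nat_lit 16) (nat_lit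 5) (nat_lit 18) (nat_lit 4) (nat_lit 16) (nat_lit 4) (nat_lit 341) (nat_lit 318) (nat_lit 241)) (XT.lf (nat_lit 0) (nat_lit 6559924253) (nat_lit 152) (nat_lit 178891396813) (nat_lit 76) (nat_lit 244360234018) (nat_lit 14) (nat_lit 5) (nat_lit 16) (nat_lit 5) (nat_lit 15) (nat_lit 4) (nat_lit 342) (nat_lit 318) (nat_lit 240)))) (XT.nd (nat_lit 156) (nat_lit 152) (nat_lit 0) (XT.nd (nat_lit 78) (nat_lit 76) (nat_lit 0) (XT.lf (nat_lit 0) (nat_lit 163434358911) (nat_lit 76) (nat_lit 7705478139) (nat_lit 152) (nat_lit 307876870760) (nat_lit 13) (nat_lit 5) (nat_lit 14) (nat_lit 5) (nat_lit 15) (nat_lit 4) (nat_lit 343) (nat_lit 318) (nat_lit 239)) (XT.lf (nat_lit 0) (nat_lit 29356948042) (nat_lit 76) (nat_lit 341829125198) (nat_lit 76) (nat_lit 163554213465) (nat_lit 12) (nat_lit 4) (nat_lit 13) (nat_lit 5) (nat_lit 13) (nat_lit 4) (nat_lit 344) (nat_lit 318) (nat_lit 238))) (XT.nd (nat_lit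 78) (nat_lit 76) (nat_lit 0) (XT.lf (nat_lit 0) (nat_lit 11934698128) (nat_lit 152) (nat_lit 153451063714) (nat_lit 76) (nat_lit 432660890253) (nat_lit 11) (nat_lit 5) (nat_lit 13) (nat_lit 5) (nat_lit 12) (nat_lit 4) (nat_lit 345) (nat_lit 318) (nat_lit 237)) (XT.lf (nat_lit 0) (nat_lit 211766243844) (nat_lit 152) (nat_lit 411430272996) (nat_lit 0) (nat_lit 46696320107) (nat_lit 10) (nat_lit 5) (nat_lit 12) (nat_lit 4) (nat_lit 10) (nat_lit 4) (nat_lit 346) (nat_lit 318) (nat_lit 236))))) (XT.nd (nat_lit 312) (nat_lit 228) (nat_lit 0) (XT.nd (nat_lit 156) (nat_lit 152) (nat_lit 0) (XT.nd (nat_lit 78) (nat_lit 76) (nat_lit 0) (XT.lf (nat_lit 0) (nat_lit 450729600395) (nat_lit 152) (nat_lit 15394333170) (nat_lit 0) (nat_lit 285659449753) (nat_lit 10) (nat_lit 5) (nat_lit 12) (nat_lit 4) (nat_lit 10) (nat_lit 4) (nat_lit 347) (nat_lit 318) (nat_lit 235)) (XT.lf (nat_lit 0) (nat_lit 463217854415)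 (nat_lit 76) (nat_lit 273459410459) (nat_lit 76) (nat_lit 108389062509) (nat_lit 9) (nat_lit 4) (nat_lit 10) (nat_lit 5) (nat_lit 10) (nat_lit 4) (nat_lit 348) (nat_lit 318) (nat_lit 234))) (XT.nd (nat_lit 78) (nat_lit 0) (nat_lit 0) (XT.lf (nat_lit 0) (nat_lit 62647510687) (nat_lit 76) (nat_lit 46832311528) (nat_lit 152) (nat_lit 842486865583) (nat_lit 7) (nat_lit 5) (nat_lit 8) (nat_lit 5) (nat_lit 9) (nat_lit 4) (nat_lit 349) (nat_lit 318) (nat_lit 233)) (XT.lf (nat_lit 0) (nat_lit 370340639247) (nat_lit 152) (nat_lit 485500456265) (nat_lit 0) (nat_lit 217497427473) (nat_lit 7) (nat_lit 5) (nat_lit 9) (nat_lit 4) (nat_lit 7) (nat_lit 4) (nat_lit 350) (nat_lit 318) (nat_lit 232)))) (XT.nd (nat_lit 156) (nat_lit 152) (nat_lit 0) (XT.nd (nat_lit 78) (nat_lit 76) (nat_lit 0) (XT.lf (nat_lit 0) (nat_lit 671625390825) (nat_lit 152) (nat_lit 22405098795) (nat_lit 0) (nat_lit 518782058928) (nat_lit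 7) (nat_lit 5) (nat_lit 9) (nat_lit 4) (nat_lit 7) (nat_lit 4) (nat_lit 351) (nat_lit 318) (nat_lit 231)) (XT.lf (nat_lit 0) (nat_lit 537017568573) (nat_lit 76) (nat_lit 494000177259) (nat_lit 76) (nat_lit 341156740907) (nat_lit 6) (nat_lit 4) (nat_lit 7) (nat_lit 5) (nat_lit 7) (nat_lit 4) (nat_lit 352) (nat_lit 318) (nat_lit 230))) (XT.nd (nat_lit 78) (nat_lit 152) (nat_lit 0) (XT.lf (nat_lit 0) (nat_lit 1181709699981) (nat_lit 76) (nat_lit 263261193862) (nat_lit 76) (nat_lit 110417666680) (nat_lit 6) (nat_lit 4) (nat_lit 7) (nat_lit 5) (nat_lit 7) (nat_lit 4) (nat_lit 353) (nat_lit 318) (nat_lit 229)) (XT.lf (nat_lit 0) (nat_lit 151310279773) (nat_lit 152) (nat_lit 1604357685389) (nat_lit 0) (nat_lit 9788422212) (nat_lit 4) (nat_lit 5) (nat_lit 6) (nat_lit 4) (nat_lit 4) (nat_lit 4) (nat_lit 354) (nat_lit 318) (nat_lit 228))))))) (XT.nd (nat_lit 1092) (nat_lit 0) (nat_lit 0) (XT.nd (nat_lit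 546) (nat_lit 152) (nat_lit 0) (XT.nd (nat_lit 234) (nat_lit 76) (nat_lit 0) (XT.nd (nat_lit 78) (nat_lit 0) (nat_lit 0) (XT.lf (nat_lit 0) (nat_lit 464388037279) (nat_lit 152) (nat_lit 1218060509403) (nat_lit 0) (nat_lit 322866116124) (nat_lit 4) (nat_lit 5) (nat_lit 6) (nat_lit 4) (nat_lit 4) (nat_lit 4) (nat_lit 355) (nat_lit 318) (nat_lit 227)) (XT.nd (nat_lit 78) (nat_lit 0) (nat_lit 0) (XT.lf (nat_lit 0) (nat_lit 824427196630) (nat_lit 152) (nat_lit 773819283714) (nat_lit 0) (nat_lit 682905220177) (nat_lit 4) (nat_lit 5) (nat_lit 6) (nat_lit 4) (nat_lit 4) (nat_lit 4) (nat_lit 356) (nat_lit 318) (nat_lit 226)) (XT.lf (nat_lit 0) (nat_lit 1238472002249) (nat_lit 152) (nat_lit 262942332167) (nat_lit 0) (nat_lit 1096949977710) (nat_lit 4) (nat_lit 5) (nat_lit 6) (nat_lit 4) (nat_lit 4) (nat_lit 4) (nat_lit 357) (nat_lit 318) (nat_lit 225)))) (XT.nd (nat_lit 156) (nat_lit 0) (nat_lit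 0) (XT.nd (nat_lit 78) (nat_lit 0) (nat_lit 0) (XT.lf (nat_lit 0) (nat_lit 341656821798) (nat_lit 76) (nat_lit 1381183363751) (nat_lit 76) (nat_lit 1239661297398) (nat_lit 3) (nat_lit 4) (nat_lit 4) (nat_lit 5) (nat_lit 4) (nat_lit 4) (nat_lit 358) (nat_lit 318) (nat_lit 224)) (XT.lf (nat_lit 0) (nat_lit 1052868473137) (nat_lit 76) (nat_lit 1234650225403) (nat_lit 76) (nat_lit 1093128122691) (nat_lit 3) (nat_lit 4) (nat_lit 4) (nat_lit 5) (nat_lit 4) (nat_lit 4) (nat_lit 359) (nat_lit 318) (nat_lit 223))) (XT.nd (nat_lit 78) (nat_lit 0) (nat_lit 0) (XT.lf (nat_lit 0) (nat_lit 1870761555180) (nat_lit 76) (nat_lit 1066137276004) (nat_lit 76) (nat_lit 924615141674) (nat_lit 3) (nat_lit 4) (nat_lit 4) (nat_lit 5) (nat_lit 4) (nat_lit 4) (nat_lit 360) (nat_lit 318) (nat_lit 222)) (XT.lf (nat_lit 0) (nat_lit 2811338323880) (nat_lit 76) (nat_lit 872347523063) (nat_lit 76) (nat_lit 730825361240)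 (nat_lit 3) (nat_lit 4) (nat_lit 4) (nat_lit 5) (nat_lit 4) (nat_lit 4) (nat_lit 361) (nat_lit 318) (nat_lit 221))))) (XT.nd (nat_lit 234) (nat_lit 76) (nat_lit 0) (XT.nd (nat_lit 78) (nat_lit 76) (nat_lit 0) (XT.lf (nat_lit 0) (nat_lit 3893001368189) (nat_lit 76) (nat_lit 649489427937) (nat_lit 76) (nat_lit 507967242207) (nat_lit 3) (nat_lit 4) (nat_lit 4) (nat_lit 5) (nat_lit 4) (nat_lit 4) (nat_lit 362) (nat_lit 318) (nat_lit 220)) (XT.nd (nat_lit 78) (nat_lit 76) (nat_lit 0) (XT.lf (nat_lit 0) (nat_lit 5136913660715) (nat_lit 76) (nat_lit 393202723548) (nat_lit 76) (nat_lit 251680517029) (nat_lit 3) (nat_lit 4) (nat_lit 4) (nat_lit 5) (nat_lit 4) (nat_lit 4) (nat_lit 363) (nat_lit 318) (nat_lit 219)) (XT.lf (nat_lit 0) (nat_lit 40895628465) (nat_lit 152) (nat_lit 56459317388) (nat_lit 76) (nat_lit 6525398828454) (nat_lit 2) (nat_lit 5) (nat_lit 4) (nat_lit 5) (nat_lit 3) (nat_lit 4)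 (nat_lit 364) (nat_lit 318) (nat_lit 218)))) (XT.nd (nat_lit 156) (nat_lit 0) (nat_lit 0) (XT.nd (nat_lit 78) (nat_lit 0) (nat_lit 0) (XT.lf (nat_lit 0) (nat_lit 384830371317) (nat_lit 152) (nat_lit 6948919616891) (nat_lit 0) (nat_lit 253791259914) (nat_lit 1) (nat_lit 5) (nat_lit 3) (nat_lit 4) (nat_lit 1) (nat_lit 4) (nat_lit 365) (nat_lit 318) (nat_lit 217)) (XT.lf (nat_lit 0) (nat_lit 784734294710) (nat_lit 152) (nat_lit 7258267060127) (nat_lit 0) (nat_lit 653695170650) (nat_lit 1) (nat_lit 5) (nat_lit 3) (nat_lit 4) (nat_lit 1) (nat_lit 4) (nat_lit 366) (nat_lit 318) (nat_lit 216))) (XT.nd (nat_lit 78) (nat_lit 0) (nat_lit 0) (XT.lf (nat_lit 0) (nat_lit 1244623741274) (nat_lit 152) (nat_lit 7614016752207) (nat_lit 0) (nat_lit 1113584606209) (nat_lit 1) (nat_lit 5) (nat_lit 3) (nat_lit 4) (nat_lit 1) (nat_lit 4) (nat_lit 367) (nat_lit 318) (nat_lit 215)) (XT.lf (nat_lit 0) (nat_lit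 1773496548008) (nat_lit 152) (nat_lit 8023129013192) (nat_lit 0) (nat_lit 1642457403373) (nat_lit 1) (nat_lit 5) (nat_lit 3) (nat_lit 4) (nat_lit 1) (nat_lit 4) (nat_lit 368) (nat_lit 318) (nat_lit 214)))))) (XT.nd (nat_lit 43368) (nat_lit 0) (nat_lit 2432) (XT.nd (nat_lit 43056) (nat_lit 0) (nat_lit 4180) (XT.nd (nat_lit 78) (nat_lit 0) (nat_lit 0) (XT.lf (nat_lit 0) (nat_lit 2381700226347) (nat_lit 152) (nat_lit 8493608213407) (nat_lit 0) (nat_lit 2250661073390) (nat_lit 1) (nat_lit 5) (nat_lit 3) (nat_lit 4) (nat_lit 1) (nat_lit 4) (nat_lit 369) (nat_lit 318) (nat_lit 213)) (XT.nd (nat_lit 42900) (nat_lit 0) (nat_lit 4560) (XT.lf (nat_lit 0) (nat_lit 3081134413477) (nat_lit 152) (nat_lit 9034659380681) (nat_lit 0) (nat_lit 2950095253283) (nat_lit 1) (nat_lit 5) (nat_lit 3) (nat_lit 4) (nat_lit 1) (nat_lit 4) (nat_lit 370) (nat_lit 318) (nat_lit 212)) (XT.lf (nat_lit 0) (nat_lit 24446486863)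 (nat_lit 532) (nat_lit 2258785011) (nat_lit 532) (nat_lit 2258785011) (nat_lit 61) (nat_lit 3) (nat_lit 68) (nat_lit 3) (nat_lit 68) (nat_lit 5) (nat_lit 319) (nat_lit 319) (nat_lit 262)))) (XT.nd (nat_lit 156) (nat_lit 380) (nat_lit 0) (XT.nd (nat_lit 78) (nat_lit 0) (nat_lit 76) (XT.lf (nat_lit 76) (nat_lit 50359252606) (nat_lit 0) (nat_lit 3444603869) (nat_lit 532) (nat_lit 8369313029) (nat_lit 62) (nat_lit 5) (nat_lit 61) (nat_lit 3) (nat_lit 68) (nat_lit 5) (nat_lit 320) (nat_lit 319) (nat_lit 261)) (XT.lf (nat_lit 76) (nat_lit 47780511213) (nat_lit 0) (nat_lit 14248162808) (nat_lit 532) (nat_lit 4820132508) (nat_lit 63) (nat_lit 5) (nat_lit 62) (nat_lit 5) (nat_lit 69) (nat_lit 5) (nat_lit 321) (nat_lit 319) (nat_lit 260))) (XT.nd (nat_lit 78) (nat_lit 0) (nat_lit 76) (XT.lf (nat_lit 0) (nat_lit 1985559135) (nat_lit 532) (nat_lit 26115875709) (nat_lit 608) (nat_lit 43910806019) (nat_lit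 56) (nat_lit 5) (nat_lit 63) (nat_lit 5) (nat_lit 64) (nat_lit 5) (nat_lit 322) (nat_lit 319) (nat_lit 259)) (XT.lf (nat_lit 0) (nat_lit 12407892691) (nat_lit 532) (nat_lit 33003255727) (nat_lit 76) (nat_lit 32298535556) (nat_lit 57) (nat_lit 5) (nat_lit 64) (nat_lit 5) (nat_lit 58) (nat_lit 5) (nat_lit 323) (nat_lit 319) (nat_lit 258))))) (XT.nd (nat_lit 312) (nat_lit 760) (nat_lit 0) (XT.nd (nat_lit 156) (nat_lit 456) (nat_lit 0) (XT.nd (nat_lit 78) (nat_lit 228) (nat_lit 0) (XT.lf (nat_lit 0) (nat_lit 27460335091) (nat_lit 456) (nat_lit 39500783914) (nat_lit 76) (nat_lit 17055288180) (nat_lit 52) (nat_lit 5) (nat_lit 58) (nat_lit 5) (nat_lit 53) (nat_lit 5) (nat_lit 324) (nat_lit 319) (nat_lit 257)) (XT.lf (nat_lit 0) (nat_lit 45457810699) (nat_lit 228) (nat_lit 2644183371) (nat_lit 304) (nat_lit 42900640562) (nat_lit 49) (nat_lit 5) (nat_lit 52) (nat_lit 5) (nat_lit 53) (nat_lit 5)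 (nat_lit 325) (nat_lit 319) (nat_lit 256))) (XT.nd (nat_lit 78) (nat_lit 228) (nat_lit 0) (XT.lf (nat_lit 0) (nat_lit 47220664943) (nat_lit 228) (nat_lit 28646748438) (nat_lit 304) (nat_lit 22847185178) (nat_lit 46) (nat_lit 5) (nat_lit 49) (nat_lit 5) (nat_lit 50) (nat_lit 5) (nat_lit 326) (nat_lit 319) (nat_lit 255)) (XT.lf (nat_lit 0) (nat_lit 4049249667) (nat_lit 228) (nat_lit 56893059223) (nat_lit 76) (nat_lit 46332984077) (nat_lit 43) (nat_lit 5) (nat_lit 46) (nat_lit 5) (nat_lit 44) (nat_lit 5) (nat_lit 327) (nat_lit 319) (nat_lit 254)))) (XT.nd (nat_lit 156) (nat_lit 380) (nat_lit 0) (XT.nd (nat_lit 78) (nat_lit 152) (nat_lit 0) (XT.lf (nat_lit 0) (nat_lit 37738678917) (nat_lit 304) (nat_lit 62261905019) (nat_lit 76) (nat_lit 16743128226) (nat_lit 40) (nat_lit 5) (nat_lit 44) (nat_lit 5) (nat_lit 41) (nat_lit 5) (nat_lit 328) (nat_lit 319) (nat_lit 253)) (XT.lf (nat_lit 0) (nat_lit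 59766058462) (nat_lit 152) (nat_lit 21535284534) (nat_lit 228) (nat_lit 45945467603) (nat_lit 38) (nat_lit 5) (nat_lit 40) (nat_lit 5) (nat_lit 41) (nat_lit 5) (nat_lit 329) (nat_lit 319) (nat_lit 252))) (XT.nd (nat_lit 78) (nat_lit 228) (nat_lit 0) (XT.lf (nat_lit 0) (nat_lit 66302343825) (nat_lit 152) (nat_lit 70200392307) (nat_lit 228) (nat_lit 2414293050) (nat_lit 36) (nat_lit 5) (nat_lit 38) (nat_lit 5) (nat_lit 39) (nat_lit 5) (nat_lit 330) (nat_lit 319) (nat_lit 251)) (XT.lf (nat_lit 0) (nat_lit 50235787742) (nat_lit 228) (nat_lit 78516797263) (nat_lit 76) (nat_lit 23095708569) (nat_lit 33) (nat_lit 5) (nat_lit 36) (nat_lit 5) (nat_lit 34) (nat_lit 5) (nat_lit 331) (nat_lit 319) (nat_lit 250))))))))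
noncomputable def xc44 : XT := (XT.nd (nat_lit 2184) (nat_lit 152) (nat_lit 0) (XT.nd (nat_lit 1092) (nat_lit 684) (nat_lit 0) (XT.nd (nat_lit 546) (nat_lit 608) (nat_lit 0) (XT.nd (nat_lit 234) (nat_lit 532) (nat_lit 0) (XT.nd (nat_lit 78) (nat_lit 304) (nat_lit 0) (XT.lf (nat_lit 0) (nat_lit 81002639636) (nat_lit 152) (nat_lit 35698645253) (nat_lit 228) (nat_lit 49528078654) (nat_lit 31) (nat_lit 5) (nat_lit 33) (nat_lit 5) (nat_lit 34) (nat_lit 5) (nat_lit 332) (nat_lit 319) (nat_lit 249)) (XT.nd (nat_lit 78) (nat_lit 152) (nat_lit 0) (XT.lf (nat_lit 0) (nat_lit 16218088497) (nat_lit 152) (nat_lit 93371297376) (nat_lit 76) (nat_lit 72648837040) (nat_lit 29) (nat_lit 5) (nat_lit 31) (nat_lit 5) (nat_lit 30) (nat_lit 5) (nat_lit 333) (nat_lit 319) (nat_lit 248)) (XT.lf (nat_lit 0) (nat_lit 94853836142) (nat_lit 228) (nat_lit 103931359363) (nat_lit 76) (nat_lit 1283479419) (nat_lit 27)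 (nat_lit 5) (nat_lit 30) (nat_lit 5) (nat_lit 28) (nat_lit 4) (nat_lit 334) (nat_lit 319) (nat_lit 247)))) (XT.nd (nat_lit 156) (nat_lit 228) (nat_lit 0) (XT.nd (nat_lit 78) (nat_lit 228) (nat_lit 0) (XT.lf (nat_lit 0) (nat_lit 101335338071) (nat_lit 76) (nat_lit 92205215674) (nat_lit 152) (nat_lit 26372693106) (nat_lit 26) (nat_lit 5) (nat_lit 27) (nat_lit 5) (nat_lit 28) (nat_lit 4) (nat_lit 335) (nat_lit 319) (nat_lit 246)) (XT.lf (nat_lit 0) (nat_lit 67619597409) (nat_lit 228) (nat_lit 138268339609) (nat_lit 76) (nat_lit 36199650309) (nat_lit 23) (nat_lit 5) (nat_lit 26) (nat_lit 5) (nat_lit 24) (nat_lit 4) (nat_lit 336) (nat_lit 319) (nat_lit 245))) (XT.nd (nat_lit 78) (nat_lit 152) (nat_lit 0) (XT.lf (nat_lit 0) (nat_lit 101132307901) (nat_lit 76) (nat_lit 81584318528) (nat_lit 152) (nat_lit 84131256352) (nat_lit 22) (nat_lit 5) (nat_lit 23) (nat_lit 5) (nat_lit 24) (nat_lit 4) (nat_lit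 337) (nat_lit 319) (nat_lit 244)) (XT.lf (nat_lit 0) (nat_lit 26809794772) (nat_lit 152) (nat_lit 202494233301) (nat_lit 76) (nat_lit 65336817777) (nat_lit 20) (nat_lit 5) (nat_lit 22) (nat_lit 5) (nat_lit 21) (nat_lit 4) (nat_lit 338) (nat_lit 319) (nat_lit 243))))) (XT.nd (nat_lit 234) (nat_lit 380) (nat_lit 0) (XT.nd (nat_lit 78) (nat_lit 152) (nat_lit 0) (XT.lf (nat_lit 0) (nat_lit 71365943439) (nat_lit 76) (nat_lit 87107792626) (nat_lit 152) (nat_lit 167229140144) (nat_lit 19) (nat_lit 5) (nat_lit 20) (nat_lit 5) (nat_lit 21) (nat_lit 4) (nat_lit 339) (nat_lit 319) (nat_lit 242)) (XT.nd (nat_lit 78) (nat_lit 76) (nat_lit 0) (XT.lf (nat_lit 0) (nat_lit 37497884240) (nat_lit 76) (nat_lit 281176557070) (nat_lit 76) (nat_lit 42046796309) (nat_lit 18) (nat_lit 4) (nat_lit 19) (nat_lit 5) (nat_lit 19) (nat_lit 4) (nat_lit 340) (nat_lit 319) (nat_lit 241)) (XT.lf (nat_lit 0) (nat_lit 106820100854)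 (nat_lit 152) (nat_lit 16944525899) (nat_lit 76) (nat_lit 276231222309) (nat_lit 17) (nat_lit 5) (nat_lit 19) (nat_lit 5) (nat_lit 18) (nat_lit 4) (nat_lit 341) (nat_lit 319) (nat_lit 240)))) (XT.nd (nat_lit 156) (nat_lit 152) (nat_lit 0) (XT.nd (nat_lit 78) (nat_lit 152) (nat_lit 0) (XT.lf (nat_lit 0) (nat_lit 285682833422) (nat_lit 152) (nat_lit 94313620775) (nat_lit 0) (nat_lit 64265393049) (nat_lit 16) (nat_lit 5) (nat_lit 18) (nat_lit 4) (nat_lit 16) (nat_lit 4) (nat_lit 342) (nat_lit 319) (nat_lit 239)) (XT.lf (nat_lit 0) (nat_lit 7552967660) (nat_lit 152) (nat_lit 205707670156) (nat_lit 76) (nat_lit 281021924234) (nat_lit 14) (nat_lit 5) (nat_lit 16) (nat_lit 5) (nat_lit 15) (nat_lit 4) (nat_lit 343) (nat_lit 319) (nat_lit 238))) (XT.nd (nat_lit 78) (nat_lit 76) (nat_lit 0) (XT.lf (nat_lit 0) (nat_lit 187965473042) (nat_lit 76) (nat_lit 8853597124) (nat_lit 152) (nat_lit 354049481547)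 (nat_lit 13) (nat_lit 5) (nat_lit 14) (nat_lit 5) (nat_lit 15) (nat_lit 4) (nat_lit 344) (nat_lit 319) (nat_lit 237)) (XT.lf (nat_lit 0) (nat_lit 33775536225) (nat_lit 76) (nat_lit 393096151430) (nat_lit 76) (nat_lit 188079024334) (nat_lit 12) (nat_lit 4) (nat_lit 13) (nat_lit 5) (nat_lit 13) (nat_lit 4) (nat_lit 345) (nat_lit 319) (nat_lit 236)))))) (XT.nd (nat_lit 546) (nat_lit 304) (nat_lit 0) (XT.nd (nat_lit 234) (nat_lit 228) (nat_lit 0) (XT.nd (nat_lit 78) (nat_lit 76) (nat_lit 0) (XT.lf (nat_lit 0) (nat_lit 13731776668) (nat_lit 152) (nat_lit 176455276684) (nat_lit 76) (nat_lit 497566045485) (nat_lit 11) (nat_lit 5) (nat_lit 13) (nat_lit 5) (nat_lit 12) (nat_lit 4) (nat_lit 346) (nat_lit 319) (nat_lit 235)) (XT.nd (nat_lit 78) (nat_lit 0) (nat_lit 0) (XT.lf (nat_lit 0) (nat_lit 243537598819) (nat_lit 152) (nat_lit 473132147816) (nat_lit 0) (nat_lit 53706501368) (nat_lit 10) (nat_lit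 5) (nat_lit 12) (nat_lit 4) (nat_lit 10) (nat_lit 4) (nat_lit 347) (nat_lit 319) (nat_lit 234)) (XT.lf (nat_lit 0) (nat_lit 518344621670) (nat_lit 152) (nat_lit 17692469120) (nat_lit 0) (nat_lit 328513352647) (nat_lit 10) (nat_lit 5) (nat_lit 12) (nat_lit 4) (nat_lit 10) (nat_lit 4) (nat_lit 348) (nat_lit 319) (nat_lit 233)))) (XT.nd (nat_lit 156) (nat_lit 0) (nat_lit 0) (XT.nd (nat_lit 78) (nat_lit 152) (nat_lit 0) (XT.lf (nat_lit 0) (nat_lit 532710614320) (nat_lit 76) (nat_lit 314473335982) (nat_lit 76) (nat_lit 124641917766) (nat_lit 9) (nat_lit 4) (nat_lit 10) (nat_lit 5) (nat_lit 10) (nat_lit 4) (nat_lit 349) (nat_lit 319) (nat_lit 232)) (XT.lf (nat_lit 0) (nat_lit 72054118346) (nat_lit 76) (nat_lit 53852451987) (nat_lit 152) (nat_lit 968854738034) (nat_lit 7) (nat_lit 5) (nat_lit 8) (nat_lit 5) (nat_lit 9) (nat_lit 4) (nat_lit 350) (nat_lit 319) (nat_lit 231))) (XT.nd (nat_lit 78)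 (nat_lit 0) (nat_lit 0) (XT.lf (nat_lit 0) (nat_lit 425895985544) (nat_lit 152) (nat_lit 558317046035) (nat_lit 0) (nat_lit 250125929284) (nat_lit 7) (nat_lit 5) (nat_lit 9) (nat_lit 4) (nat_lit 7) (nat_lit 4) (nat_lit 351) (nat_lit 319) (nat_lit 230)) (XT.lf (nat_lit 0) (nat_lit 772372895458) (nat_lit 152) (nat_lit 25758490858) (nat_lit 0) (nat_lit 596602748367) (nat_lit 7) (nat_lit 5) (nat_lit 9) (nat_lit 4) (nat_lit 7) (nat_lit 4) (nat_lit 352) (nat_lit 319) (nat_lit 229))))) (XT.nd (nat_lit 234) (nat_lit 76) (nat_lit 0) (XT.nd (nat_lit 78) (nat_lit 152) (nat_lit 0) (XT.lf (nat_lit 0) (nat_lit 617576952548) (nat_lit 76) (nat_lit 568096831386) (nat_lit 76) (nat_lit 392326605312) (nat_lit 6) (nat_lit 4) (nat_lit 7) (nat_lit 5) (nat_lit 7) (nat_lit 4) (nat_lit 353) (nat_lit 319) (nat_lit 228)) (XT.nd (nat_lit 78) (nat_lit 152) (nat_lit 0) (XT.lf (nat_lit 0) (nat_lit 1358972023404) (nat_lit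 76) (nat_lit 302747440366) (nat_lit 76) (nat_lit 126977145611) (nat_lit 6) (nat_lit 4) (nat_lit 7) (nat_lit 5) (nat_lit 7) (nat_lit 4) (nat_lit 354) (nat_lit 319) (nat_lit 227)) (XT.lf (nat_lit 0) (nat_lit 174009640440) (nat_lit 152) (nat_lit 1845005667041) (nat_lit 0) (nat_lit 11259312220) (nat_lit 4) (nat_lit 5) (nat_lit 6) (nat_lit 4) (nat_lit 4) (nat_lit 4) (nat_lit 355) (nat_lit 319) (nat_lit 226)))) (XT.nd (nat_lit 156) (nat_lit 76) (nat_lit 0) (XT.nd (nat_lit 78) (nat_lit 0) (nat_lit 0) (XT.lf (nat_lit 0) (nat_lit 534048693914) (nat_lit 152) (nat_lit 1400764654373) (nat_lit 0) (nat_lit 371298317608) (nat_lit 4) (nat_lit 5) (nat_lit 6) (nat_lit 4) (nat_lit 4) (nat_lit 4) (nat_lit 356) (nat_lit 319) (nat_lit 225)) (XT.lf (nat_lit 0) (nat_lit 948093407467) (nat_lit 152) (nat_lit 889887888062) (nat_lit 0) (nat_lit 785342989347) (nat_lit 4) (nat_lit 5) (nat_lit 6) (nat_lit 4) (nat_lit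 4) (nat_lit 4) (nat_lit 357) (nat_lit 319) (nat_lit 224))) (XT.nd (nat_lit 78) (nat_lit 76) (nat_lit 0) (XT.lf (nat_lit 0) (nat_lit 1424244655928) (nat_lit 152) (nat_lit 302379953115) (nat_lit 0) (nat_lit 1261494201449) (nat_lit 4) (nat_lit 5) (nat_lit 6) (nat_lit 4) (nat_lit 4) (nat_lit 4) (nat_lit 358) (nat_lit 319) (nat_lit 223)) (XT.lf (nat_lit 0) (nat_lit 392908758315) (nat_lit 76) (nat_lit 1588359148757) (nat_lit 76) (nat_lit 1425608662660) (nat_lit 3) (nat_lit 4) (nat_lit 4) (nat_lit 5) (nat_lit 4) (nat_lit 4) (nat_lit 359) (nat_lit 319) (nat_lit 222))))))) (XT.nd (nat_lit 43992) (nat_lit 0) (nat_lit 1672) (XT.nd (nat_lit 546) (nat_lit 0) (nat_lit 0) (XT.nd (nat_lit 234) (nat_lit 152) (nat_lit 0) (XT.nd (nat_lit 78) (nat_lit 0) (nat_lit 0) (XT.lf (nat_lit 0) (nat_lit 1210801712148) (nat_lit 76) (nat_lit 1419846263947) (nat_lit 76) (nat_lit 1257095750357) (nat_lit 3) (nat_lit 4) (nat_lit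 4) (nat_lit 5) (nat_lit 4) (nat_lit 4) (nat_lit 360) (nat_lit 319) (nat_lit 221)) (XT.nd (nat_lit 78) (nat_lit 0) (nat_lit 0) (XT.lf (nat_lit 0) (nat_lit 2151378369362) (nat_lit 76) (nat_lit 1226056567172) (nat_lit 76) (nat_lit 1063306029675) (nat_lit 3) (nat_lit 4) (nat_lit 4) (nat_lit 5) (nat_lit 4) (nat_lit 4) (nat_lit 361) (nat_lit 319) (nat_lit 220)) (XT.lf (nat_lit 0) (nat_lit 3233041316727) (nat_lit 76) (nat_lit 1003198520886) (nat_lit 76) (nat_lit 840447962600) (nat_lit 3) (nat_lit 4) (nat_lit 4) (nat_lit 5) (nat_lit 4) (nat_lit 4) (nat_lit 362) (nat_lit 319) (nat_lit 219)))) (XT.nd (nat_lit 156) (nat_lit 152) (nat_lit 0) (XT.nd (nat_lit 78) (nat_lit 0) (nat_lit 0) (XT.lf (nat_lit 0) (nat_lit 4476953524953) (nat_lit 76) (nat_lit 746911858966) (nat_lit 76) (nat_lit 584161282603) (nat_lit 3) (nat_lit 4) (nat_lit 4) (nat_lit 5) (nat_lit 4) (nat_lit 4) (nat_lit 363) (nat_lit 319) (nat_lit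 218)) (XT.lf (nat_lit 0) (nat_lit 5907452406809) (nat_lit 76) (nat_lit 452182277157) (nat_lit 76) (nat_lit 289431685074) (nat_lit 3) (nat_lit 4) (nat_lit 4) (nat_lit 5) (nat_lit 4) (nat_lit 4) (nat_lit 364) (nat_lit 319) (nat_lit 217))) (XT.nd (nat_lit 78) (nat_lit 76) (nat_lit 0) (XT.lf (nat_lit 0) (nat_lit 47030724049) (nat_lit 152) (nat_lit 64926699728) (nat_lit 76) (nat_lit 7504209356506) (nat_lit 2) (nat_lit 5) (nat_lit 4) (nat_lit 5) (nat_lit 3) (nat_lit 4) (nat_lit 365) (nat_lit 319) (nat_lit 216)) (XT.lf (nat_lit 0) (nat_lit 442555630533) (nat_lit 152) (nat_lit 7991256134269) (nat_lit 0) (nat_lit 291860614202) (nat_lit 1) (nat_lit 5) (nat_lit 3) (nat_lit 4) (nat_lit 1) (nat_lit 4) (nat_lit 366) (nat_lit 319) (nat_lit 215))))) (XT.nd (nat_lit 234) (nat_lit 0) (nat_lit 0) (XT.nd (nat_lit 78) (nat_lit 0) (nat_lit 0) (XT.lf (nat_lit 0) (nat_lit 902445050671) (nat_lit 152) (nat_lit 8347005879880)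 (nat_lit 0) (nat_lit 751750024770) (nat_lit 1) (nat_lit 5) (nat_lit 3) (nat_lit 4) (nat_lit 1) (nat_lit 4) (nat_lit 367) (nat_lit 319) (nat_lit 214)) (XT.nd (nat_lit 78) (nat_lit 0) (nat_lit 0) (XT.lf (nat_lit 0) (nat_lit 1431317834426) (nat_lit 152) (nat_lit 8756118187415) (nat_lit 0) (nat_lit 1280622800203) (nat_lit 1) (nat_lit 5) (nat_lit 3) (nat_lit 4) (nat_lit 1) (nat_lit 4) (nat_lit 368) (nat_lit 319) (nat_lit 213)) (XT.lf (nat_lit 0) (nat_lit 2039521492784) (nat_lit 152) (nat_lit 9226597428108) (nat_lit 0) (nat_lit 1888826451324) (nat_lit 1) (nat_lit 5) (nat_lit 3) (nat_lit 4) (nat_lit 1) (nat_lit 4) (nat_lit 369) (nat_lit 319) (nat_lit 212)))) (XT.nd (nat_lit 43056) (nat_lit 0) (nat_lit 4560) (XT.nd (nat_lit 42978) (nat_lit 0) (nat_lit 4560) (XT.lf (nat_lit 0) (nat_lit 2738955662538) (nat_lit 152) (nat_lit 9767648630580) (nat_lit 0) (nat_lit 2588260614786) (nat_lit 1) (nat_lit 5)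 (nat_lit 3) (nat_lit 4) (nat_lit 1) (nat_lit 4) (nat_lit 370) (nat_lit 319) (nat_lit 211)) (XT.lf (nat_lit 0) (nat_lit 28144871502) (nat_lit 532) (nat_lit 2580621310) (nat_lit 532) (nat_lit 2580621310) (nat_lit 61) (nat_lit 3) (nat_lit 68) (nat_lit 3) (nat_lit 68) (nat_lit 5) (nat_lit 320) (nat_lit 320) (nat_lit 260))) (XT.nd (nat_lit 78) (nat_lit 0) (nat_lit 76) (XT.lf (nat_lit 76) (nat_lit 57944228612) (nat_lit 0) (nat_lit 3985582891) (nat_lit 532) (nat_lit 9564836575) (nat_lit 62) (nat_lit 5) (nat_lit 61) (nat_lit 3) (nat_lit 68) (nat_lit 5) (nat_lit 321) (nat_lit 320) (nat_lit 259)) (XT.lf (nat_lit 76) (nat_lit 54980695465) (nat_lit 0) (nat_lit 16400721480) (nat_lit 532) (nat_lit 5490777196) (nat_lit 63) (nat_lit 5) (nat_lit 62) (nat_lit 5) (nat_lit 69) (nat_lit 5) (nat_lit 322) (nat_lit 320) (nat_lit 258)))))) (XT.nd (nat_lit 546) (nat_lit 1292) (nat_lit 0) (XT.nd (nat_lit 234) (nat_lit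 912) (nat_lit 0) (XT.nd (nat_lit 78) (nat_lit 304) (nat_lit 0) (XT.lf (nat_lit 0) (nat_lit 2327174295) (nat_lit 532) (nat_lit 29996661723) (nat_lit 608) (nat_lit 50486691755) (nat_lit 56) (nat_lit 5) (nat_lit 63) (nat_lit 5) (nat_lit 64) (nat_lit 5) (nat_lit 323) (nat_lit 320) (nat_lit 257)) (XT.nd (nat_lit 78) (nat_lit 380) (nat_lit 0) (XT.lf (nat_lit 0) (nat_lit 14307823547) (nat_lit 532) (nat_lit 37916966274) (nat_lit 76) (nat_lit 37138206369) (nat_lit 57) (nat_lit 5) (nat_lit 64) (nat_lit 5) (nat_lit 58) (nat_lit 5) (nat_lit 324) (nat_lit 320) (nat_lit 256)) (XT.lf (nat_lit 0) (nat_lit 31613867844) (nat_lit 456) (nat_lit 45389421060) (nat_lit 76) (nat_lit 19612785434) (nat_lit 52) (nat_lit 5) (nat_lit 58) (nat_lit 5) (nat_lit 53) (nat_lit 5) (nat_lit 325) (nat_lit 320) (nat_lit 255)))) (XT.nd (nat_lit 156) (nat_lit 456) (nat_lit 0) (XT.nd (nat_lit 78) (nat_lit 228) (nat_lit 0) (XT.lf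 (nat_lit 0) (nat_lit 52309874857) (nat_lit 228) (nat_lit 3038206188) (nat_lit 304) (nat_lit 49302455035) (nat_lit 49) (nat_lit 5) (nat_lit 52) (nat_lit 5) (nat_lit 53) (nat_lit 5) (nat_lit 326) (nat_lit 320) (nat_lit 254)) (XT.lf (nat_lit 0) (nat_lit 54336556048) (nat_lit 228) (nat_lit 32938584502) (nat_lit 304) (nat_lit 26244411870) (nat_lit 46) (nat_lit 5) (nat_lit 49) (nat_lit 5) (nat_lit 50) (nat_lit 5) (nat_lit 327) (nat_lit 320) (nat_lit 253))) (XT.nd (nat_lit 78) (nat_lit 228) (nat_lit 0) (XT.lf (nat_lit 0) (nat_lit 4682195465) (nat_lit 228) (nat_lit 65393702292) (nat_lit 76) (nat_lit 53288622981) (nat_lit 43) (nat_lit 5) (nat_lit 46) (nat_lit 5) (nat_lit 44) (nat_lit 5) (nat_lit 328) (nat_lit 320) (nat_lit 252)) (XT.lf (nat_lit 0) (nat_lit 43422620112) (nat_lit 304) (nat_lit 71569020910) (nat_lit 76) (nat_lit 19261758114) (nat_lit 40) (nat_lit 5) (nat_lit 44) (nat_lit 5) (nat_lit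 41) (nat_lit 5) (nat_lit 329) (nat_lit 320) (nat_lit 251))))) (XT.nd (nat_lit 312) (nat_lit 608) (nat_lit 0) (XT.nd (nat_lit 156) (nat_lit 380) (nat_lit 0) (XT.nd (nat_lit 78) (nat_lit 152) (nat_lit 0) (XT.lf (nat_lit 0) (nat_lit 68760414074) (nat_lit 152) (nat_lit 24756959749) (nat_lit 228) (nat_lit 52814775754) (nat_lit 38) (nat_lit 5) (nat_lit 40) (nat_lit 5) (nat_lit 41) (nat_lit 5) (nat_lit 330) (nat_lit 320) (nat_lit 250)) (XT.lf (nat_lit 0) (nat_lit 76276000192) (nat_lit 152) (nat_lit 80721119810) (nat_lit 228) (nat_lit 2755931540) (nat_lit 36) (nat_lit 5) (nat_lit 38) (nat_lit 5) (nat_lit 39) (nat_lit 5) (nat_lit 331) (nat_lit 320) (nat_lit 249))) (XT.nd (nat_lit 78) (nat_lit 152) (nat_lit 0) (XT.lf (nat_lit 0) (nat_lit 57788963819) (nat_lit 228) (nat_lit 90266261884) (nat_lit 76) (nat_lit 26568875889) (nat_lit 33) (nat_lit 5) (nat_lit 36) (nat_lit 5) (nat_lit 34) (nat_lit 5) (nat_lit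 332) (nat_lit 320) (nat_lit 248)) (XT.lf (nat_lit 0) (nat_lit 93178715837) (nat_lit 152) (nat_lit 41043864539) (nat_lit 228) (nat_lit 56939889577) (nat_lit 31) (nat_lit 5) (nat_lit 33) (nat_lit 5) (nat_lit 34) (nat_lit 5) (nat_lit 333) (nat_lit 320) (nat_lit 247)))) (XT.nd (nat_lit 156) (nat_lit 304) (nat_lit 0) (XT.nd (nat_lit 78) (nat_lit 152) (nat_lit 0) (XT.lf (nat_lit 0) (nat_lit 18665985676) (nat_lit 152) (nat_lit 107351700505) (nat_lit 76) (nat_lit 83555047487) (nat_lit 29) (nat_lit 5) (nat_lit 31) (nat_lit 5) (nat_lit 30) (nat_lit 5) (nat_lit 334) (nat_lit 320) (nat_lit 246)) (XT.lf (nat_lit 0) (nat_lit 109095897574) (nat_lit 228) (nat_lit 119497030685) (nat_lit 76) (nat_lit 1484922092) (nat_lit 27) (nat_lit 5) (nat_lit 30) (nat_lit 5) (nat_lit 28) (nat_lit 4) (nat_lit 335) (nat_lit 320) (nat_lit 245))) (XT.nd (nat_lit 78) (nat_lit 228) (nat_lit 0) (XT.lf (nat_lit 0) (nat_lit 116557637126)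 (nat_lit 76) (nat_lit 106026690490) (nat_lit 152) (nat_lit 30314884971) (nat_lit 26) (nat_lit 5) (nat_lit 27) (nat_lit 5) (nat_lit 28) (nat_lit 4) (nat_lit 336) (nat_lit 320) (nat_lit 244)) (XT.lf (nat_lit 0) (nat_lit 77774578695) (nat_lit 228) (nat_lit 158987085364) (nat_lit 76) (nat_lit 41638093181) (nat_lit 23) (nat_lit 5) (nat_lit 26) (nat_lit 5) (nat_lit 24) (nat_lit 4) (nat_lit 337) (nat_lit 320) (nat_lit 243))))))))
noncomputable def xc45 : XT := (XT.nd (nat_lit 2262) (nat_lit 76) (nat_lit 0) (XT.nd (nat_lit 1092) (nat_lit 380) (nat_lit 0) (XT.nd (nat_lit 546) (nat_lit 532) (nat_lit 0) (XT.nd (nat_lit 234) (nat_lit 380) (nat_lit 0) (XT.nd (nat_lit 78) (nat_lit 228) (nat_lit 0) (XT.lf (nat_lit 0) (nat_lit 116321838965) (nat_lit 76) (nat_lit 93813225871) (nat_lit 152) (nat_lit 96739120586) (nat_lit 22) (nat_lit 5) (nat_lit 23) (nat_lit 5) (nat_lit 24) (nat_lit 4) (nat_lit 338) (nat_lit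 320) (nat_lit 242)) (XT.nd (nat_lit 78) (nat_lit 76) (nat_lit 0) (XT.lf (nat_lit 0) (nat_lit 30841678838) (nat_lit 152) (nat_lit 232849184926) (nat_lit 76) (nat_lit 75145272378) (nat_lit 20) (nat_lit 5) (nat_lit 22) (nat_lit 5) (nat_lit 21) (nat_lit 4) (nat_lit 339) (nat_lit 320) (nat_lit 241)) (XT.lf (nat_lit 0) (nat_lit 82088394548) (nat_lit 76) (nat_lit 100165880627) (nat_lit 152) (nat_lit 192303271215) (nat_lit 19) (nat_lit 5) (nat_lit 20) (nat_lit 5) (nat_lit 21) (nat_lit 4) (nat_lit 340) (nat_lit 320) (nat_lit 240)))) (XT.nd (nat_lit 156) (nat_lit 228) (nat_lit 0) (XT.nd (nat_lit 78) (nat_lit 76) (nat_lit 0) (XT.lf (nat_lit 0) (nat_lit 43139159056) (nat_lit 76) (nat_lit 323345258837) (nat_lit 76) (nat_lit 48344297968) (nat_lit 18) (nat_lit 4) (nat_lit 19) (nat_lit 5) (nat_lit 19) (nat_lit 4) (nat_lit 341) (nat_lit 320) (nat_lit 239)) (XT.lf (nat_lit 0) (nat_lit 122850978302) (nat_lit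 152) (nat_lit 19471360716) (nat_lit 76) (nat_lit 317672256349) (nat_lit 17) (nat_lit 5) (nat_lit 19) (nat_lit 5) (nat_lit 18) (nat_lit 4) (nat_lit 342) (nat_lit 320) (nat_lit 238))) (XT.nd (nat_lit 78) (nat_lit 152) (nat_lit 0) (XT.lf (nat_lit 0) (nat_lit 328542576515) (nat_lit 152) (nat_lit 108446655912) (nat_lit 0) (nat_lit 73911304661) (nat_lit 16) (nat_lit 5) (nat_lit 18) (nat_lit 4) (nat_lit 16) (nat_lit 4) (nat_lit 343) (nat_lit 320) (nat_lit 237)) (XT.lf (nat_lit 0) (nat_lit 8692759515) (nat_lit 152) (nat_lit 236550636422) (nat_lit 76) (nat_lit 323181001236) (nat_lit 14) (nat_lit 5) (nat_lit 16) (nat_lit 5) (nat_lit 15) (nat_lit 4) (nat_lit 344) (nat_lit 320) (nat_lit 236))))) (XT.nd (nat_lit 234) (nat_lit 304) (nat_lit 0) (XT.nd (nat_lit 78) (nat_lit 152) (nat_lit 0) (XT.lf (nat_lit 0) (nat_lit 216172362273) (nat_lit 76) (nat_lit 10175812317) (nat_lit 152) (nat_lit 407150159107)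 (nat_lit 13) (nat_lit 5) (nat_lit 14) (nat_lit 5) (nat_lit 15) (nat_lit 4) (nat_lit 345) (nat_lit 320) (nat_lit 235)) (XT.nd (nat_lit 78) (nat_lit 76) (nat_lit 0) (XT.lf (nat_lit 0) (nat_lit 38853243579) (nat_lit 76) (nat_lit 452055022124) (nat_lit 76) (nat_lit 216284585998) (nat_lit 12) (nat_lit 4) (nat_lit 13) (nat_lit 5) (nat_lit 13) (nat_lit 4) (nat_lit 346) (nat_lit 320) (nat_lit 234)) (XT.lf (nat_lit 0) (nat_lit 15796740764) (nat_lit 152) (nat_lit 202913400634) (nat_lit 76) (nat_lit 572205505575) (nat_lit 11) (nat_lit 5) (nat_lit 13) (nat_lit 5) (nat_lit 12) (nat_lit 4) (nat_lit 347) (nat_lit 320) (nat_lit 233)))) (XT.nd (nat_lit 156) (nat_lit 228) (nat_lit 0) (XT.nd (nat_lit 78) (nat_lit 0) (nat_lit 0) (XT.lf (nat_lit 0) (nat_lit 280073091873) (nat_lit 152) (nat_lit 544092392575) (nat_lit 0) (nat_lit 61766811731) (nat_lit 10) (nat_lit 5) (nat_lit 12) (nat_lit 4) (nat_lit 10) (nat_lit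 4) (nat_lit 348) (nat_lit 320) (nat_lit 232)) (XT.lf (nat_lit 0) (nat_lit 596100535121) (nat_lit 152) (nat_lit 20338011302) (nat_lit 0) (nat_lit 377794125246) (nat_lit 10) (nat_lit 5) (nat_lit 12) (nat_lit 4) (nat_lit 10) (nat_lit 4) (nat_lit 349) (nat_lit 320) (nat_lit 231))) (XT.nd (nat_lit 78) (nat_lit 152) (nat_lit 0) (XT.lf (nat_lit 0) (nat_lit 612624829715) (nat_lit 76) (nat_lit 361640566212) (nat_lit 76) (nat_lit 143334043525) (nat_lit 9) (nat_lit 4) (nat_lit 10) (nat_lit 5) (nat_lit 10) (nat_lit 4) (nat_lit 350) (nat_lit 320) (nat_lit 230)) (XT.lf (nat_lit 0) (nat_lit 82869405139) (nat_lit 76) (nat_lit 61926761170) (nat_lit 152) (nat_lit 1114179049014) (nat_lit 7) (nat_lit 5) (nat_lit 8) (nat_lit 5) (nat_lit 9) (nat_lit 4) (nat_lit 351) (nat_lit 320) (nat_lit 229)))))) (XT.nd (nat_lit 546) (nat_lit 152) (nat_lit 0) (XT.nd (nat_lit 234) (nat_lit 152) (nat_lit 0) (XT.nd (nat_lit 78)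 (nat_lit 76) (nat_lit 0) (XT.lf (nat_lit 0) (nat_lit 489783597297) (nat_lit 152) (nat_lit 642058191848) (nat_lit 0) (nat_lit 287647758328) (nat_lit 7) (nat_lit 5) (nat_lit 9) (nat_lit 4) (nat_lit 7) (nat_lit 4) (nat_lit 352) (nat_lit 320) (nat_lit 228)) (XT.nd (nat_lit 78) (nat_lit 76) (nat_lit 0) (XT.lf (nat_lit 0) (nat_lit 888231624490) (nat_lit 152) (nat_lit 29616689624) (nat_lit 0) (nat_lit 686095716841) (nat_lit 7) (nat_lit 5) (nat_lit 9) (nat_lit 4) (nat_lit 7) (nat_lit 4) (nat_lit 353) (nat_lit 320) (nat_lit 227)) (XT.lf (nat_lit 0) (nat_lit 710218598409) (nat_lit 76) (nat_lit 653308806028) (nat_lit 76) (nat_lit 451172838656) (nat_lit 6) (nat_lit 4) (nat_lit 7) (nat_lit 5) (nat_lit 7) (nat_lit 4) (nat_lit 354) (nat_lit 320) (nat_lit 226)))) (XT.nd (nat_lit 156) (nat_lit 0) (nat_lit 0) (XT.nd (nat_lit 78) (nat_lit 152) (nat_lit 0) (XT.lf (nat_lit 0) (nat_lit 1562822264287) (nat_lit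 76) (nat_lit 348157338972) (nat_lit 76) (nat_lit 146021319668) (nat_lit 6) (nat_lit 4) (nat_lit 7) (nat_lit 5) (nat_lit 7) (nat_lit 4) (nat_lit 355) (nat_lit 320) (nat_lit 225)) (XT.lf (nat_lit 0) (nat_lit 200113217848) (nat_lit 152) (nat_lit 2121752228888) (nat_lit 0) (nat_lit 12950195197) (nat_lit 4) (nat_lit 5) (nat_lit 6) (nat_lit 4) (nat_lit 4) (nat_lit 4) (nat_lit 356) (nat_lit 320) (nat_lit 224))) (XT.nd (nat_lit 78) (nat_lit 0) (nat_lit 0) (XT.lf (nat_lit 0) (nat_lit 614157851343) (nat_lit 152) (nat_lit 1610875623652) (nat_lit 0) (nat_lit 426994792332) (nat_lit 4) (nat_lit 5) (nat_lit 6) (nat_lit 4) (nat_lit 4) (nat_lit 4) (nat_lit 357) (nat_lit 320) (nat_lit 223)) (XT.lf (nat_lit 0) (nat_lit 1090309030188) (nat_lit 152) (nat_lit 1023367828770) (nat_lit 0) (nat_lit 903145939560) (nat_lit 4) (nat_lit 5) (nat_lit 6) (nat_lit 4) (nat_lit 4) (nat_lit 4) (nat_lit 358) (nat_lit 320) (nat_lit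 222))))) (XT.nd (nat_lit 312) (nat_lit 76) (nat_lit 0) (XT.nd (nat_lit 156) (nat_lit 0) (nat_lit 0) (XT.nd (nat_lit 78) (nat_lit 76) (nat_lit 0) (XT.lf (nat_lit 0) (nat_lit 1637882755710) (nat_lit 152) (nat_lit 347734126515) (nat_lit 0) (nat_lit 1450719637588) (nat_lit 4) (nat_lit 5) (nat_lit 6) (nat_lit 4) (nat_lit 4) (nat_lit 4) (nat_lit 359) (nat_lit 320) (nat_lit 221)) (XT.lf (nat_lit 0) (nat_lit 451847652967) (nat_lit 76) (nat_lit 1826611720838) (nat_lit 76) (nat_lit 1639448578810) (nat_lit 3) (nat_lit 4) (nat_lit 4) (nat_lit 5) (nat_lit 4) (nat_lit 4) (nat_lit 360) (nat_lit 320) (nat_lit 220))) (XT.nd (nat_lit 78) (nat_lit 0) (nat_lit 0) (XT.lf (nat_lit 0) (nat_lit 1392424213236) (nat_lit 76) (nat_lit 1632822072903) (nat_lit 76) (nat_lit 1445658910085) (nat_lit 3) (nat_lit 4) (nat_lit 4) (nat_lit 5) (nat_lit 4) (nat_lit 4) (nat_lit 361) (nat_lit 320) (nat_lit 219)) (XT.lf (nat_lit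 0) (nat_lit 2474087076301) (nat_lit 76) (nat_lit 1409964069086) (nat_lit 76) (nat_lit 1222800888191) (nat_lit 3) (nat_lit 4) (nat_lit 4) (nat_lit 5) (nat_lit 4) (nat_lit 4) (nat_lit 362) (nat_lit 320) (nat_lit 218)))) (XT.nd (nat_lit 156) (nat_lit 76) (nat_lit 0) (XT.nd (nat_lit 78) (nat_lit 0) (nat_lit 0) (XT.lf (nat_lit 0) (nat_lit 3717999211223) (nat_lit 76) (nat_lit 1153677444096) (nat_lit 76) (nat_lit 966514247481) (nat_lit 3) (nat_lit 4) (nat_lit 4) (nat_lit 5) (nat_lit 4) (nat_lit 4) (nat_lit 363) (nat_lit 320) (nat_lit 217)) (XT.lf (nat_lit 0) (nat_lit 5148498029336) (nat_lit 76) (nat_lit 858947894399) (nat_lit 76) (nat_lit 671784684116) (nat_lit 3) (nat_lit 4) (nat_lit 4) (nat_lit 5) (nat_lit 4) (nat_lit 4) (nat_lit 364) (nat_lit 320) (nat_lit 216))) (XT.nd (nat_lit 78) (nat_lit 76) (nat_lit 0) (XT.lf (nat_lit 0) (nat_lit 6793571550996) (nat_lit 76) (nat_lit 520008972285) (nat_lit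 76) (nat_lit 332845750116) (nat_lit 3) (nat_lit 4) (nat_lit 4) (nat_lit 5) (nat_lit 4) (nat_lit 4) (nat_lit 365) (nat_lit 320) (nat_lit 215)) (XT.lf (nat_lit 0) (nat_lit 54085900758) (nat_lit 152) (nat_lit 74664558927) (nat_lit 76) (nat_lit 8629841292144) (nat_lit 2) (nat_lit 5) (nat_lit 4) (nat_lit 5) (nat_lit 3) (nat_lit 4) (nat_lit 366) (nat_lit 320) (nat_lit 214))))))) (XT.nd (nat_lit 44070) (nat_lit 0) (nat_lit 988) (XT.nd (nat_lit 43524) (nat_lit 0) (nat_lit 2964) (XT.nd (nat_lit 234) (nat_lit 0) (nat_lit 0) (XT.nd (nat_lit 78) (nat_lit 0) (nat_lit 0) (XT.lf (nat_lit 0) (nat_lit 508939507073) (nat_lit 152) (nat_lit 9189943476787) (nat_lit 0) (nat_lit 335640209395) (nat_lit 1) (nat_lit 5) (nat_lit 3) (nat_lit 4) (nat_lit 1) (nat_lit 4) (nat_lit 367) (nat_lit 320) (nat_lit 213)) (XT.nd (nat_lit 78) (nat_lit 0) (nat_lit 0) (XT.lf (nat_lit 0) (nat_lit 1037812270846) (nat_lit 152) (nat_lit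 9599055824799) (nat_lit 0) (nat_lit 864512965932) (nat_lit 1) (nat_lit 5) (nat_lit 3) (nat_lit 4) (nat_lit 1) (nat_lit 4) (nat_lit 368) (nat_lit 320) (nat_lit 212)) (XT.lf (nat_lit 0) (nat_lit 1646015911829) (nat_lit 152) (nat_lit 10069535100690) (nat_lit 0) (nat_lit 1472716600621) (nat_lit 1) (nat_lit 5) (nat_lit 3) (nat_lit 4) (nat_lit 1) (nat_lit 4) (nat_lit 369) (nat_lit 320) (nat_lit 211)))) (XT.nd (nat_lit 43134) (nat_lit 0) (nat_lit 4560) (XT.nd (nat_lit 43056) (nat_lit 0) (nat_lit 4560) (XT.lf (nat_lit 0) (nat_lit 2345450066474) (nat_lit 152) (nat_lit 10610586333769) (nat_lit 0) (nat_lit 2172150749795) (nat_lit 1) (nat_lit 5) (nat_lit 3) (nat_lit 4) (nat_lit 1) (nat_lit 4) (nat_lit 370) (nat_lit 320) (nat_lit 210)) (XT.lf (nat_lit 0) (nat_lit 32390353918) (nat_lit 532) (nat_lit 2954874088) (nat_lit 532) (nat_lit 2954874088) (nat_lit 61) (nat_lit 3) (nat_lit 68) (nat_lit 3) (nat_lit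 68) (nat_lit 5) (nat_lit 321) (nat_lit 321) (nat_lit 258))) (XT.nd (nat_lit 78) (nat_lit 0) (nat_lit 76) (XT.lf (nat_lit 76) (nat_lit 66659369986) (nat_lit 0) (nat_lit 4601785876) (nat_lit 532) (nat_lit 10954289164) (nat_lit 62) (nat_lit 5) (nat_lit 61) (nat_lit 3) (nat_lit 68) (nat_lit 5) (nat_lit 322) (nat_lit 321) (nat_lit 257)) (XT.lf (nat_lit 76) (nat_lit 63252833864) (nat_lit 0) (nat_lit 18872424598) (nat_lit 532) (nat_lit 6274790608) (nat_lit 63) (nat_lit 5) (nat_lit 62) (nat_lit 5) (nat_lit 69) (nat_lit 5) (nat_lit 323) (nat_lit 321) (nat_lit 256))))) (XT.nd (nat_lit 234) (nat_lit 912) (nat_lit 0) (XT.nd (nat_lit 78) (nat_lit 304) (nat_lit 0) (XT.lf (nat_lit 0) (nat_lit 2709355383) (nat_lit 532) (nat_lit 34468489645) (nat_lit 608) (nat_lit 58051578190) (nat_lit 56) (nat_lit 5) (nat_lit 63) (nat_lit 5) (nat_lit 64) (nat_lit 5) (nat_lit 324) (nat_lit 321) (nat_lit 255)) (XT.nd (nat_lit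 78) (nat_lit 380) (nat_lit 0) (XT.lf (nat_lit 0) (nat_lit 16483295342) (nat_lit 532) (nat_lit 43576701905) (nat_lit 76) (nat_lit 42705073793) (nat_lit 57) (nat_lit 5) (nat_lit 64) (nat_lit 5) (nat_lit 58) (nat_lit 5) (nat_lit 325) (nat_lit 321) (nat_lit 254)) (XT.lf (nat_lit 0) (nat_lit 36382021736) (nat_lit 456) (nat_lit 52170249765) (nat_lit 76) (nat_lit 22554101380) (nat_lit 52) (nat_lit 5) (nat_lit 58) (nat_lit 5) (nat_lit 53) (nat_lit 5) (nat_lit 326) (nat_lit 321) (nat_lit 253)))) (XT.nd (nat_lit 156) (nat_lit 456) (nat_lit 0) (XT.nd (nat_lit 78) (nat_lit 228) (nat_lit 0) (XT.lf (nat_lit 0) (nat_lit 60181605654) (nat_lit 228) (nat_lit 3491967598) (nat_lit 304) (nat_lit 56672657611) (nat_lit 49) (nat_lit 5) (nat_lit 52) (nat_lit 5) (nat_lit 53) (nat_lit 5) (nat_lit 327) (nat_lit 321) (nat_lit 252)) (XT.lf (nat_lit 0) (nat_lit 62511834436) (nat_lit 228) (nat_lit 37875458226) (nat_lit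 304) (nat_lit 30158501941) (nat_lit 46) (nat_lit 5) (nat_lit 49) (nat_lit 5) (nat_lit 50) (nat_lit 5) (nat_lit 328) (nat_lit 321) (nat_lit 251))) (XT.nd (nat_lit 78) (nat_lit 228) (nat_lit 0) (XT.lf (nat_lit 0) (nat_lit 5403850568) (nat_lit 228) (nat_lit 75177566094) (nat_lit 76) (nat_lit 61286219862) (nat_lit 43) (nat_lit 5) (nat_lit 46) (nat_lit 5) (nat_lit 44) (nat_lit 5) (nat_lit 329) (nat_lit 321) (nat_lit 250)) (XT.lf (nat_lit 0) (nat_lit 49953509808) (nat_lit 304) (nat_lit 82280049010) (nat_lit 76) (nat_lit 22156436315) (nat_lit 40) (nat_lit 5) (nat_lit 44) (nat_lit 5) (nat_lit 41) (nat_lit 5) (nat_lit 330) (nat_lit 321) (nat_lit 249)))))) (XT.nd (nat_lit 546) (nat_lit 912) (nat_lit 0) (XT.nd (nat_lit 234) (nat_lit 532) (nat_lit 0) (XT.nd (nat_lit 78) (nat_lit 380) (nat_lit 0) (XT.lf (nat_lit 0) (nat_lit 79096742228) (nat_lit 152) (nat_lit 28463987670) (nat_lit 228) (nat_lit 60719969818)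 (nat_lit 38) (nat_lit 5) (nat_lit 40) (nat_lit 5) (nat_lit 41) (nat_lit 5) (nat_lit 331) (nat_lit 321) (nat_lit 248)) (XT.nd (nat_lit 78) (nat_lit 228) (nat_lit 0) (XT.lf (nat_lit 0) (nat_lit 87738802712) (nat_lit 152) (nat_lit 92822231945) (nat_lit 228) (nat_lit 3153816191) (nat_lit 36) (nat_lit 5) (nat_lit 38) (nat_lit 5) (nat_lit 39) (nat_lit 5) (nat_lit 332) (nat_lit 321) (nat_lit 247)) (XT.lf (nat_lit 0) (nat_lit 66470773734) (nat_lit 228) (nat_lit 103784987579) (nat_lit 76) (nat_lit 30560869681) (nat_lit 33) (nat_lit 5) (nat_lit 36) (nat_lit 5) (nat_lit 34) (nat_lit 5) (nat_lit 333) (nat_lit 321) (nat_lit 246)))) (XT.nd (nat_lit 156) (nat_lit 228) (nat_lit 0) (XT.nd (nat_lit 78) (nat_lit 152) (nat_lit 0) (XT.lf (nat_lit 0) (nat_lit 107174941175) (nat_lit 152) (nat_lit 47193202254) (nat_lit 228) (nat_lit 65467715452) (nat_lit 31) (nat_lit 5) (nat_lit 33) (nat_lit 5) (nat_lit 34) (nat_lit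 5) (nat_lit 334) (nat_lit 321) (nat_lit 245)) (XT.lf (nat_lit 0) (nat_lit 21477364739) (nat_lit 152) (nat_lit 123435331590) (nat_lit 76) (nat_lit 96095022864) (nat_lit 29) (nat_lit 5) (nat_lit 31) (nat_lit 5) (nat_lit 30) (nat_lit 5) (nat_lit 335) (nat_lit 321) (nat_lit 244))) (XT.nd (nat_lit 78) (nat_lit 76) (nat_lit 0) (XT.lf (nat_lit 0) (nat_lit 125470857643) (nat_lit 228) (nat_lit 137403413202) (nat_lit 76) (nat_lit 1714405782) (nat_lit 27) (nat_lit 5) (nat_lit 30) (nat_lit 5) (nat_lit 28) (nat_lit 4) (nat_lit 336) (nat_lit 321) (nat_lit 243)) (XT.lf (nat_lit 0) (nat_lit 134057916604) (nat_lit 76) (nat_lit 121923656230) (nat_lit 152) (nat_lit 34851749398) (nat_lit 26) (nat_lit 5) (nat_lit 27) (nat_lit 5) (nat_lit 28) (nat_lit 4) (nat_lit 337) (nat_lit 321) (nat_lit 242))))) (XT.nd (nat_lit 312) (nat_lit 380) (nat_lit 0) (XT.nd (nat_lit 156) (nat_lit 228) (nat_lit 0) (XT.nd (nat_lit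 78) (nat_lit 76) (nat_lit 0) (XT.lf (nat_lit 0) (nat_lit 89449870736) (nat_lit 228) (nat_lit 182818887158) (nat_lit 76) (nat_lit 47890230844) (nat_lit 23) (nat_lit 5) (nat_lit 26) (nat_lit 5) (nat_lit 24) (nat_lit 4) (nat_lit 338) (nat_lit 321) (nat_lit 241)) (XT.lf (nat_lit 0) (nat_lit 133784999407) (nat_lit 76) (nat_lit 107878600725) (nat_lit 152) (nat_lit 111241047866) (nat_lit 22) (nat_lit 5) (nat_lit 23) (nat_lit 5) (nat_lit 24) (nat_lit 4) (nat_lit 339) (nat_lit 321) (nat_lit 240))) (XT.nd (nat_lit 78) (nat_lit 76) (nat_lit 0) (XT.lf (nat_lit 0) (nat_lit 35475805787) (nat_lit 152) (nat_lit 267762057281) (nat_lit 76) (nat_lit 86423060916) (nat_lit 20) (nat_lit 5) (nat_lit 22) (nat_lit 5) (nat_lit 21) (nat_lit 4) (nat_lit 340) (nat_lit 321) (nat_lit 239)) (XT.lf (nat_lit 0) (nat_lit 94414931306) (nat_lit 76) (nat_lit 115184652405) (nat_lit 152) (nat_lit 221141019024) (nat_lit 19) (nat_lit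 5) (nat_lit 20) (nat_lit 5) (nat_lit 21) (nat_lit 4) (nat_lit 341) (nat_lit 321) (nat_lit 238)))) (XT.nd (nat_lit 156) (nat_lit 228) (nat_lit 0) (XT.nd (nat_lit 78) (nat_lit 76) (nat_lit 0) (XT.lf (nat_lit 0) (nat_lit 49622578987) (nat_lit 76) (nat_lit 371841163508) (nat_lit 76) (nat_lit 55588745850) (nat_lit 18) (nat_lit 4) (nat_lit 19) (nat_lit 5) (nat_lit 19) (nat_lit 4) (nat_lit 342) (nat_lit 321) (nat_lit 237)) (XT.lf (nat_lit 0) (nat_lit 141284570091) (nat_lit 152) (nat_lit 22380840576) (nat_lit 76) (nat_lit 365327896837) (nat_lit 17) (nat_lit 5) (nat_lit 19) (nat_lit 5) (nat_lit 18) (nat_lit 4) (nat_lit 343) (nat_lit 321) (nat_lit 236))) (XT.nd (nat_lit 78) (nat_lit 152) (nat_lit 0) (XT.lf (nat_lit 0) (nat_lit 377829496512) (nat_lit 152) (nat_lit 124703062255) (nat_lit 0) (nat_lit 85002614843) (nat_lit 16) (nat_lit 5) (nat_lit 18) (nat_lit 4) (nat_lit 16) (nat_lit 4) (nat_lit 344)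 (nat_lit 321) (nat_lit 235)) (XT.lf (nat_lit 0) (nat_lit 10001850536) (nat_lit 152) (nat_lit 272023262693) (nat_lit 76) (nat_lit 371662528257) (nat_lit 14) (nat_lit 5) (nat_lit 16) (nat_lit 5) (nat_lit 15) (nat_lit 4) (nat_lit 345) (nat_lit 321) (nat_lit 234))))))))
noncomputable def xc46 : XT := (XT.nd (nat_lit 45318) (nat_lit 0) (nat_lit 456) (XT.nd (nat_lit 1092) (nat_lit 228) (nat_lit 0) (XT.nd (nat_lit 546) (nat_lit 228) (nat_lit 0) (XT.nd (nat_lit 234) (nat_lit 304) (nat_lit 0) (XT.nd (nat_lit 78) (nat_lit 152) (nat_lit 0) (XT.lf (nat_lit 0) (nat_lit 248607341964) (nat_lit 76) (nat_lit 11697780100) (nat_lit 152) (nat_lit 468217583033) (nat_lit 13) (nat_lit 5) (nat_lit 14) (nat_lit 5) (nat_lit 15) (nat_lit 4) (nat_lit 346) (nat_lit 321) (nat_lit 233)) (XT.nd (nat_lit 78) (nat_lit 76) (nat_lit 0) (XT.lf (nat_lit 0) (nat_lit 44689832702) (nat_lit 76) (nat_lit 519859077317) (nat_lit 76)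 (nat_lit 248722516252) (nat_lit 12) (nat_lit 4) (nat_lit 13) (nat_lit 5) (nat_lit 13) (nat_lit 4) (nat_lit 347) (nat_lit 321) (nat_lit 232)) (XT.lf (nat_lit 0) (nat_lit 18170182008) (nat_lit 152) (nat_lit 233342722600) (nat_lit 76) (nat_lit 658039774334) (nat_lit 11) (nat_lit 5) (nat_lit 13) (nat_lit 5) (nat_lit 12) (nat_lit 4) (nat_lit 348) (nat_lit 321) (nat_lit 231)))) (XT.nd (nat_lit 156) (nat_lit 228) (nat_lit 0) (XT.nd (nat_lit 78) (nat_lit 0) (nat_lit 0) (XT.lf (nat_lit 0) (nat_lit 322087725394) (nat_lit 152) (nat_lit 625699009561) (nat_lit 0) (nat_lit 71035111492) (nat_lit 10) (nat_lit 5) (nat_lit 12) (nat_lit 4) (nat_lit 10) (nat_lit 4) (nat_lit 349) (nat_lit 321) (nat_lit 230)) (XT.lf (nat_lit 0) (nat_lit 685518806468) (nat_lit 152) (nat_lit 23382415693) (nat_lit 0) (nat_lit 434466094469) (nat_lit 10) (nat_lit 5) (nat_lit 12) (nat_lit 4) (nat_lit 10) (nat_lit 4) (nat_lit 350)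 (nat_lit 321) (nat_lit 229))) (XT.nd (nat_lit 78) (nat_lit 152) (nat_lit 0) (XT.lf (nat_lit 0) (nat_lit 704524318441) (nat_lit 76) (nat_lit 415883800356) (nat_lit 76) (nat_lit 164831003056) (nat_lit 9) (nat_lit 4) (nat_lit 10) (nat_lit 5) (nat_lit 10) (nat_lit 4) (nat_lit 351) (nat_lit 321) (nat_lit 228)) (XT.lf (nat_lit 0) (nat_lit 95305236734) (nat_lit 76) (nat_lit 71213084520) (nat_lit 152) (nat_lit 1281302957614) (nat_lit 7) (nat_lit 5) (nat_lit 8) (nat_lit 5) (nat_lit 9) (nat_lit 4) (nat_lit 352) (nat_lit 321) (nat_lit 227))))) (XT.nd (nat_lit 234) (nat_lit 152) (nat_lit 0) (XT.nd (nat_lit 78) (nat_lit 76) (nat_lit 0) (XT.lf (nat_lit 0) (nat_lit 563253567077) (nat_lit 152) (nat_lit 738362072919) (nat_lit 0) (nat_lit 330797144877) (nat_lit 7) (nat_lit 5) (nat_lit 9) (nat_lit 4) (nat_lit 7) (nat_lit 4) (nat_lit 353) (nat_lit 321) (nat_lit 226)) (XT.nd (nat_lit 78) (nat_lit 76) (nat_lit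 0) (XT.lf (nat_lit 0) (nat_lit 1021468481369) (nat_lit 152) (nat_lit 34054977670) (nat_lit 0) (nat_lit 789012007236) (nat_lit 7) (nat_lit 5) (nat_lit 9) (nat_lit 4) (nat_lit 7) (nat_lit 4) (nat_lit 354) (nat_lit 321) (nat_lit 225)) (XT.lf (nat_lit 0) (nat_lit 816755246756) (nat_lit 76) (nat_lit 751303198716) (nat_lit 76) (nat_lit 518846679425) (nat_lit 6) (nat_lit 4) (nat_lit 7) (nat_lit 5) (nat_lit 7) (nat_lit 4) (nat_lit 355) (nat_lit 321) (nat_lit 224)))) (XT.nd (nat_lit 156) (nat_lit 0) (nat_lit 0) (XT.nd (nat_lit 78) (nat_lit 152) (nat_lit 0) (XT.lf (nat_lit 0) (nat_lit 1797248959221) (nat_lit 76) (nat_lit 400379263109) (nat_lit 76) (nat_lit 167922704548) (nat_lit 6) (nat_lit 4) (nat_lit 7) (nat_lit 5) (nat_lit 7) (nat_lit 4) (nat_lit 356) (nat_lit 321) (nat_lit 223)) (XT.lf (nat_lit 0) (nat_lit 230131812126) (nat_lit 152) (nat_lit 2440011820720) (nat_lit 0) (nat_lit 14894226287) (nat_lit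 4) (nat_lit 5) (nat_lit 6) (nat_lit 4) (nat_lit 4) (nat_lit 4) (nat_lit 357) (nat_lit 321) (nat_lit 222))) (XT.nd (nat_lit 78) (nat_lit 0) (nat_lit 0) (XT.lf (nat_lit 0) (nat_lit 706282930437) (nat_lit 152) (nat_lit 1852504147633) (nat_lit 0) (nat_lit 491045317104) (nat_lit 4) (nat_lit 5) (nat_lit 6) (nat_lit 4) (nat_lit 4) (nat_lit 4) (nat_lit 358) (nat_lit 321) (nat_lit 221)) (XT.lf (nat_lit 0) (nat_lit 1253856603319) (nat_lit 152) (nat_lit 1176870551288) (nat_lit 0) (nat_lit 1038618966078) (nat_lit 4) (nat_lit 5) (nat_lit 6) (nat_lit 4) (nat_lit 4) (nat_lit 4) (nat_lit 359) (nat_lit 321) (nat_lit 220)))))) (XT.nd (nat_lit 546) (nat_lit 152) (nat_lit 0) (XT.nd (nat_lit 234) (nat_lit 0) (nat_lit 0) (XT.nd (nat_lit 78) (nat_lit 76) (nat_lit 0) (XT.lf (nat_lit 0) (nat_lit 1883566228720) (nat_lit 152) (nat_lit 399892113495) (nat_lit 0) (nat_lit 1668328570691) (nat_lit 4) (nat_lit 5) (nat_lit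 6) (nat_lit 4) (nat_lit 4) (nat_lit 4) (nat_lit 360) (nat_lit 321) (nat_lit 219)) (XT.nd (nat_lit 78) (nat_lit 0) (nat_lit 0) (XT.lf (nat_lit 0) (nat_lit 519626752447) (nat_lit 76) (nat_lit 2100602495802) (nat_lit 76) (nat_lit 1885364819696) (nat_lit 3) (nat_lit 4) (nat_lit 4) (nat_lit 5) (nat_lit 4) (nat_lit 4) (nat_lit 361) (nat_lit 321) (nat_lit 218)) (XT.lf (nat_lit 0) (nat_lit 1601289542208) (nat_lit 76) (nat_lit 1877744528915) (nat_lit 76) (nat_lit 1662506837089) (nat_lit 3) (nat_lit 4) (nat_lit 4) (nat_lit 5) (nat_lit 4) (nat_lit 4) (nat_lit 362) (nat_lit 321) (nat_lit 217)))) (XT.nd (nat_lit 156) (nat_lit 0) (nat_lit 0) (XT.nd (nat_lit 78) (nat_lit 0) (nat_lit 0) (XT.lf (nat_lit 0) (nat_lit 2845201613387) (nat_lit 76) (nat_lit 1621457936037) (nat_lit 76) (nat_lit 1406220230543) (nat_lit 3) (nat_lit 4) (nat_lit 4) (nat_lit 5) (nat_lit 4) (nat_lit 4) (nat_lit 363) (nat_lit 321) (nat_lit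 216)) (XT.lf (nat_lit 0) (nat_lit 4275700376072) (nat_lit 76) (nat_lit 1326728414265) (nat_lit 76) (nat_lit 1111490696884) (nat_lit 3) (nat_lit 4) (nat_lit 4) (nat_lit 5) (nat_lit 4) (nat_lit 4) (nat_lit 364) (nat_lit 321) (nat_lit 215))) (XT.nd (nat_lit 78) (nat_lit 0) (nat_lit 0) (XT.lf (nat_lit 0) (nat_lit 5920773849533) (nat_lit 76) (nat_lit 987789516433) (nat_lit 76) (nat_lit 772551788717) (nat_lit 3) (nat_lit 4) (nat_lit 4) (nat_lit 5) (nat_lit 4) (nat_lit 4) (nat_lit 365) (nat_lit 321) (nat_lit 214)) (XT.lf (nat_lit 0) (nat_lit 7812608253903) (nat_lit 76) (nat_lit 598009829323) (nat_lit 76) (nat_lit 382772092619) (nat_lit 3) (nat_lit 4) (nat_lit 4) (nat_lit 5) (nat_lit 4) (nat_lit 4) (nat_lit 366) (nat_lit 321) (nat_lit 213))))) (XT.nd (nat_lit 43368) (nat_lit 0) (nat_lit 4180) (XT.nd (nat_lit 156) (nat_lit 0) (nat_lit 0) (XT.nd (nat_lit 78) (nat_lit 76) (nat_lit 0) (XT.lf (nat_lit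 0) (nat_lit 62199215438) (nat_lit 152) (nat_lit 85863376406) (nat_lit 76) (nat_lit 9924317888356) (nat_lit 2) (nat_lit 5) (nat_lit 4) (nat_lit 5) (nat_lit 3) (nat_lit 4) (nat_lit 367) (nat_lit 321) (nat_lit 212)) (XT.lf (nat_lit 0) (nat_lit 585280835372) (nat_lit 152) (nat_lit 10568434183467) (nat_lit 0) (nat_lit 385986621192) (nat_lit 1) (nat_lit 5) (nat_lit 3) (nat_lit 4) (nat_lit 1) (nat_lit 4) (nat_lit 368) (nat_lit 321) (nat_lit 211))) (XT.nd (nat_lit 78) (nat_lit 0) (nat_lit 0) (XT.lf (nat_lit 0) (nat_lit 1193484461246) (nat_lit 152) (nat_lit 11038913489965) (nat_lit 0) (nat_lit 994190241593) (nat_lit 1) (nat_lit 5) (nat_lit 3) (nat_lit 4) (nat_lit 1) (nat_lit 4) (nat_lit 369) (nat_lit 321) (nat_lit 210)) (XT.lf (nat_lit 0) (nat_lit 1892918602753) (nat_lit 152) (nat_lit 11579964749659) (nat_lit 0) (nat_lit 1693624378342) (nat_lit 1) (nat_lit 5) (nat_lit 3) (nat_lit 4) (nat_lit 1)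 (nat_lit 4) (nat_lit 370) (nat_lit 321) (nat_lit 209)))) (XT.nd (nat_lit 156) (nat_lit 380) (nat_lit 0) (XT.nd (nat_lit 78) (nat_lit 0) (nat_lit 0) (XT.lf (nat_lit 0) (nat_lit 37266866695) (nat_lit 532) (nat_lit 3388396001) (nat_lit 532) (nat_lit 3388396001) (nat_lit 61) (nat_lit 3) (nat_lit 68) (nat_lit 3) (nat_lit 68) (nat_lit 5) (nat_lit 322) (nat_lit 322) (nat_lit 256)) (XT.lf (nat_lit 76) (nat_lit 76676050214) (nat_lit 0) (nat_lit 5305940752) (nat_lit 532) (nat_lit 12563199723) (nat_lit 62) (nat_lit 5) (nat_lit 61) (nat_lit 3) (nat_lit 68) (nat_lit 5) (nat_lit 323) (nat_lit 322) (nat_lit 255))) (XT.nd (nat_lit 78) (nat_lit 456) (nat_lit 0) (XT.lf (nat_lit 76) (nat_lit 72759688304) (nat_lit 0) (nat_lit 21712055695) (nat_lit 532) (nat_lit 7186063516) (nat_lit 63) (nat_lit 5) (nat_lit 62) (nat_lit 5) (nat_lit 69) (nat_lit 5) (nat_lit 324) (nat_lit 322) (nat_lit 254)) (XT.lf (nat_lit 0)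 (nat_lit 3140790785) (nat_lit 532) (nat_lit 39617839586) (nat_lit 608) (nat_lit 66753177052) (nat_lit 56) (nat_lit 5) (nat_lit 63) (nat_lit 5) (nat_lit 64) (nat_lit 5) (nat_lit 325) (nat_lit 322) (nat_lit 253))))))) (XT.nd (nat_lit 1092) (nat_lit 1216) (nat_lit 0) (XT.nd (nat_lit 546) (nat_lit 1140) (nat_lit 0) (XT.nd (nat_lit 234) (nat_lit 836) (nat_lit 0) (XT.nd (nat_lit 78) (nat_lit 608) (nat_lit 0) (XT.lf (nat_lit 0) (nat_lit 18977943339) (nat_lit 532) (nat_lit 50092179357) (nat_lit 76) (nat_lit 49107913478) (nat_lit 57) (nat_lit 5) (nat_lit 64) (nat_lit 5) (nat_lit 58) (nat_lit 5) (nat_lit 326) (nat_lit 322) (nat_lit 252)) (XT.nd (nat_lit 78) (nat_lit 228) (nat_lit 0) (XT.lf (nat_lit 0) (nat_lit 41859040472) (nat_lit 456) (nat_lit 59974929420) (nat_lit 76) (nat_lit 25936761488) (nat_lit 52) (nat_lit 5) (nat_lit 58) (nat_lit 5) (nat_lit 53) (nat_lit 5) (nat_lit 327) (nat_lit 322) (nat_lit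 251)) (XT.lf (nat_lit 0) (nat_lit 69227938802) (nat_lit 228) (nat_lit 4014273499) (nat_lit 304) (nat_lit 65154527384) (nat_lit 49) (nat_lit 5) (nat_lit 52) (nat_lit 5) (nat_lit 53) (nat_lit 5) (nat_lit 328) (nat_lit 322) (nat_lit 250)))) (XT.nd (nat_lit 156) (nat_lit 380) (nat_lit 0) (XT.nd (nat_lit 78) (nat_lit 228) (nat_lit 0) (XT.lf (nat_lit 0) (nat_lit 71907358170) (nat_lit 228) (nat_lit 43553817450) (nat_lit 304) (nat_lit 34665209778) (nat_lit 46) (nat_lit 5) (nat_lit 49) (nat_lit 5) (nat_lit 50) (nat_lit 5) (nat_lit 329) (nat_lit 322) (nat_lit 249)) (XT.lf (nat_lit 0) (nat_lit 6229041222) (nat_lit 228) (nat_lit 86435152583) (nat_lit 76) (nat_lit 70482406856) (nat_lit 43) (nat_lit 5) (nat_lit 46) (nat_lit 5) (nat_lit 44) (nat_lit 5) (nat_lit 330) (nat_lit 322) (nat_lit 248))) (XT.nd (nat_lit 78) (nat_lit 152) (nat_lit 0) (XT.lf (nat_lit 0) (nat_lit 57459766282) (nat_lit 304) (nat_lit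 94603663139) (nat_lit 76) (nat_lit 25483995889) (nat_lit 40) (nat_lit 5) (nat_lit 44) (nat_lit 5) (nat_lit 41) (nat_lit 5) (nat_lit 331) (nat_lit 322) (nat_lit 247)) (XT.lf (nat_lit 0) (nat_lit 90978089890) (nat_lit 152) (nat_lit 32728658757) (nat_lit 228) (nat_lit 69815093988) (nat_lit 38) (nat_lit 5) (nat_lit 40) (nat_lit 5) (nat_lit 41) (nat_lit 5) (nat_lit 332) (nat_lit 322) (nat_lit 246))))) (XT.nd (nat_lit 234) (nat_lit 608) (nat_lit 0) (XT.nd (nat_lit 78) (nat_lit 380) (nat_lit 0) (XT.lf (nat_lit 0) (nat_lit 100915806477) (nat_lit 152) (nat_lit 106740231512) (nat_lit 228) (nat_lit 3615164552) (nat_lit 36) (nat_lit 5) (nat_lit 38) (nat_lit 5) (nat_lit 39) (nat_lit 5) (nat_lit 333) (nat_lit 322) (nat_lit 245)) (XT.nd (nat_lit 78) (nat_lit 152) (nat_lit 0) (XT.lf (nat_lit 0) (nat_lit 76451571527) (nat_lit 228) (nat_lit 119336695197) (nat_lit 76) (nat_lit 35150037871) (nat_lit 33) (nat_lit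 5) (nat_lit 36) (nat_lit 5) (nat_lit 34) (nat_lit 5) (nat_lit 334) (nat_lit 322) (nat_lit 244)) (XT.lf (nat_lit 0) (nat_lit 123265865121) (nat_lit 152) (nat_lit 54266706624) (nat_lit 228) (nat_lit 75277923764) (nat_lit 31) (nat_lit 5) (nat_lit 33) (nat_lit 5) (nat_lit 34) (nat_lit 5) (nat_lit 335) (nat_lit 322) (nat_lit 243)))) (XT.nd (nat_lit 156) (nat_lit 304) (nat_lit 0) (XT.nd (nat_lit 78) (nat_lit 152) (nat_lit 0) (XT.lf (nat_lit 0) (nat_lit 24707650896) (nat_lit 152) (nat_lit 141936170844) (nat_lit 76) (nat_lit 110514356259) (nat_lit 29) (nat_lit 5) (nat_lit 31) (nat_lit 5) (nat_lit 30) (nat_lit 5) (nat_lit 336) (nat_lit 322) (nat_lit 242)) (XT.lf (nat_lit 0) (nat_lit 144299482837) (nat_lit 228) (nat_lit 158000184475) (nat_lit 76) (nat_lit 1976667123) (nat_lit 27) (nat_lit 5) (nat_lit 30) (nat_lit 5) (nat_lit 28) (nat_lit 4) (nat_lit 337) (nat_lit 322) (nat_lit 241))) (XT.nd (nat_lit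 78) (nat_lit 228) (nat_lit 0) (XT.lf (nat_lit 0) (nat_lit 154179181720) (nat_lit 76) (nat_lit 140206883050) (nat_lit 152) (nat_lit 40071671869) (nat_lit 26) (nat_lit 5) (nat_lit 27) (nat_lit 5) (nat_lit 28) (nat_lit 4) (nat_lit 338) (nat_lit 322) (nat_lit 240)) (XT.lf (nat_lit 0) (nat_lit 102874236213) (nat_lit 228) (nat_lit 210229424572) (nat_lit 76) (nat_lit 55078622701) (nat_lit 23) (nat_lit 5) (nat_lit 26) (nat_lit 5) (nat_lit 24) (nat_lit 4) (nat_lit 339) (nat_lit 322) (nat_lit 239)))))) (XT.nd (nat_lit 546) (nat_lit 532) (nat_lit 0) (XT.nd (nat_lit 234) (nat_lit 380) (nat_lit 0) (XT.nd (nat_lit 78) (nat_lit 228) (nat_lit 0) (XT.lf (nat_lit 0) (nat_lit 153864004212) (nat_lit 76) (nat_lit 124055393461) (nat_lit 152) (nat_lit 127920444511) (nat_lit 22) (nat_lit 5) (nat_lit 23) (nat_lit 5) (nat_lit 24) (nat_lit 4) (nat_lit 340) (nat_lit 322) (nat_lit 238)) (XT.nd (nat_lit 78) (nat_lit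 76) (nat_lit 0) (XT.lf (nat_lit 0) (nat_lit 40803131379) (nat_lit 152) (nat_lit 307915397719) (nat_lit 76) (nat_lit 99391055163) (nat_lit 20) (nat_lit 5) (nat_lit 22) (nat_lit 5) (nat_lit 21) (nat_lit 4) (nat_lit 341) (nat_lit 322) (nat_lit 237)) (XT.lf (nat_lit 0) (nat_lit 108587210756) (nat_lit 76) (nat_lit 132457729989) (nat_lit 152) (nat_lit 254306317152) (nat_lit 19) (nat_lit 5) (nat_lit 20) (nat_lit 5) (nat_lit 21) (nat_lit 4) (nat_lit 342) (nat_lit 322) (nat_lit 236)))) (XT.nd (nat_lit 156) (nat_lit 228) (nat_lit 0) (XT.nd (nat_lit 78) (nat_lit 76) (nat_lit 0) (XT.lf (nat_lit 0) (nat_lit 57075452468) (nat_lit 76) (nat_lit 427612888768) (nat_lit 76) (nat_lit 63921615902) (nat_lit 18) (nat_lit 4) (nat_lit 19) (nat_lit 5) (nat_lit 19) (nat_lit 4) (nat_lit 343) (nat_lit 322) (nat_lit 235)) (XT.lf (nat_lit 0) (nat_lit 162481750912) (nat_lit 152) (nat_lit 25729479519) (nat_lit 76) (nat_lit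 420130712392) (nat_lit 17) (nat_lit 5) (nat_lit 19) (nat_lit 5) (nat_lit 18) (nat_lit 4) (nat_lit 344) (nat_lit 322) (nat_lit 234))) (XT.nd (nat_lit 78) (nat_lit 152) (nat_lit 0) (XT.lf (nat_lit 0) (nat_lit 434508105124) (nat_lit 152) (nat_lit 143400512486) (nat_lit 0) (nat_lit 97756496282) (nat_lit 16) (nat_lit 5) (nat_lit 18) (nat_lit 4) (nat_lit 16) (nat_lit 4) (nat_lit 345) (nat_lit 322) (nat_lit 233)) (XT.lf (nat_lit 0) (nat_lit 11506042743) (nat_lit 152) (nat_lit 312819213955) (nat_lit 76) (nat_lit 427415217013) (nat_lit 14) (nat_lit 5) (nat_lit 16) (nat_lit 5) (nat_lit 15) (nat_lit 4) (nat_lit 346) (nat_lit 322) (nat_lit 232))))) (XT.nd (nat_lit 312) (nat_lit 228) (nat_lit 0) (XT.nd (nat_lit 156) (nat_lit 152) (nat_lit 0) (XT.nd (nat_lit 78) (nat_lit 76) (nat_lit 0) (XT.lf (nat_lit 0) (nat_lit 285905343335) (nat_lit 76) (nat_lit 13449117009) (nat_lit 152) (nat_lit 538446364200) (nat_lit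 13) (nat_lit 5) (nat_lit 14) (nat_lit 5) (nat_lit 15) (nat_lit 4) (nat_lit 347) (nat_lit 322) (nat_lit 231)) (XT.lf (nat_lit 0) (nat_lit 51399812398) (nat_lit 76) (nat_lit 597834764529) (nat_lit 76) (nat_lit 286027296227) (nat_lit 12) (nat_lit 4) (nat_lit 13) (nat_lit 5) (nat_lit 13) (nat_lit 4) (nat_lit 348) (nat_lit 322) (nat_lit 230))) (XT.nd (nat_lit 78) (nat_lit 76) (nat_lit 0) (XT.lf (nat_lit 0) (nat_lit 20898681051) (nat_lit 152) (nat_lit 268338317659) (nat_lit 76) (nat_lit 756748343829) (nat_lit 11) (nat_lit 5) (nat_lit 13) (nat_lit 5) (nat_lit 12) (nat_lit 4) (nat_lit 349) (nat_lit 322) (nat_lit 229)) (XT.lf (nat_lit 0) (nat_lit 370403659053) (nat_lit 152) (nat_lit 719548385078) (nat_lit 0) (nat_lit 81692856856) (nat_lit 10) (nat_lit 5) (nat_lit 12) (nat_lit 4) (nat_lit 10) (nat_lit 4) (nat_lit 350) (nat_lit 322) (nat_lit 228)))) (XT.nd (nat_lit 156) (nat_lit 152) (nat_lit 0) (XT.nd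 (nat_lit 78) (nat_lit 76) (nat_lit 0) (XT.lf (nat_lit 0) (nat_lit 788349040352) (nat_lit 152) (nat_lit 26885016379) (nat_lit 0) (nat_lit 499638163979) (nat_lit 10) (nat_lit 5) (nat_lit 12) (nat_lit 4) (nat_lit 10) (nat_lit 4) (nat_lit 351) (nat_lit 322) (nat_lit 227)) (XT.lf (nat_lit 0) (nat_lit 810207324823) (nat_lit 76) (nat_lit 478264214804) (nat_lit 76) (nat_lit 189553273931) (nat_lit 9) (nat_lit 4) (nat_lit 10) (nat_lit 5) (nat_lit 10) (nat_lit 4) (nat_lit 352) (nat_lit 322) (nat_lit 226))) (XT.nd (nat_lit 78) (nat_lit 0) (nat_lit 0) (XT.lf (nat_lit 0) (nat_lit 109605121166) (nat_lit 76) (nat_lit 81893012548) (nat_lit 152) (nat_lit 1473496171576) (nat_lit 7) (nat_lit 5) (nat_lit 8) (nat_lit 5) (nat_lit 9) (nat_lit 4) (nat_lit 353) (nat_lit 322) (nat_lit 225)) (XT.lf (nat_lit 0) (nat_lit 647743439708) (nat_lit 152) (nat_lit 849112718294) (nat_lit 0) (nat_lit 380418397364) (nat_lit 7)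 (nat_lit 5) (nat_lit 9) (nat_lit 4) (nat_lit 7) (nat_lit 4) (nat_lit 354) (nat_lit 322) (nat_lit 224))))))))
noncomputable def xc47 : XT := (XT.nd (nat_lit 45396) (nat_lit 0) (nat_lit 152) (XT.nd (nat_lit 1092) (nat_lit 76) (nat_lit 0) (XT.nd (nat_lit 546) (nat_lit 152) (nat_lit 0) (XT.nd (nat_lit 234) (nat_lit 152) (nat_lit 0) (XT.nd (nat_lit 78) (nat_lit 76) (nat_lit 0) (XT.lf (nat_lit 0) (nat_lit 1174690351461) (nat_lit 152) (nat_lit 39160036875) (nat_lit 0) (nat_lit 907365269848) (nat_lit 7) (nat_lit 5) (nat_lit 9) (nat_lit 4) (nat_lit 7) (nat_lit 4) (nat_lit 355) (nat_lit 322) (nat_lit 223)) (XT.nd (nat_lit 78) (nat_lit 0) (nat_lit 0) (XT.lf (nat_lit 0) (nat_lit 939271451414) (nat_lit 76) (nat_lit 863997220515) (nat_lit 76) (nat_lit 596672104756) (nat_lit 6) (nat_lit 4) (nat_lit 7) (nat_lit 5) (nat_lit 7) (nat_lit 4) (nat_lit 356) (nat_lit 322) (nat_lit 222)) (XT.lf (nat_lit 0) (nat_lit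 2066838840187) (nat_lit 76) (nat_lit 460434884742) (nat_lit 76) (nat_lit 193109739289) (nat_lit 6) (nat_lit 4) (nat_lit 7) (nat_lit 5) (nat_lit 7) (nat_lit 4) (nat_lit 357) (nat_lit 322) (nat_lit 221)))) (XT.nd (nat_lit 156) (nat_lit 0) (nat_lit 0) (XT.nd (nat_lit 78) (nat_lit 0) (nat_lit 0) (XT.lf (nat_lit 0) (nat_lit 264652802547) (nat_lit 152) (nat_lit 2806011142030) (nat_lit 0) (nat_lit 17129495814) (nat_lit 4) (nat_lit 5) (nat_lit 6) (nat_lit 4) (nat_lit 4) (nat_lit 4) (nat_lit 358) (nat_lit 322) (nat_lit 220)) (XT.lf (nat_lit 0) (nat_lit 812226429656) (nat_lit 152) (nat_lit 2130377637780) (nat_lit 0) (nat_lit 564703102134) (nat_lit 4) (nat_lit 5) (nat_lit 6) (nat_lit 4) (nat_lit 4) (nat_lit 4) (nat_lit 359) (nat_lit 322) (nat_lit 219))) (XT.nd (nat_lit 78) (nat_lit 0) (nat_lit 0) (XT.lf (nat_lit 0) (nat_lit 1441936015255) (nat_lit 152) (nat_lit 1353399280070) (nat_lit 0) (nat_lit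 1194412669655) (nat_lit 4) (nat_lit 5) (nat_lit 6) (nat_lit 4) (nat_lit 4) (nat_lit 4) (nat_lit 360) (nat_lit 322) (nat_lit 218)) (XT.lf (nat_lit 0) (nat_lit 2166101964279) (nat_lit 152) (nat_lit 459874318423) (nat_lit 0) (nat_lit 1918578602960) (nat_lit 4) (nat_lit 5) (nat_lit 6) (nat_lit 4) (nat_lit 4) (nat_lit 4) (nat_lit 361) (nat_lit 322) (nat_lit 217))))) (XT.nd (nat_lit 234) (nat_lit 76) (nat_lit 0) (XT.nd (nat_lit 78) (nat_lit 0) (nat_lit 0) (XT.lf (nat_lit 0) (nat_lit 597572240954) (nat_lit 76) (nat_lit 2415692126760) (nat_lit 76) (nat_lit 2168168751773) (nat_lit 3) (nat_lit 4) (nat_lit 4) (nat_lit 5) (nat_lit 4) (nat_lit 4) (nat_lit 362) (nat_lit 322) (nat_lit 216)) (XT.nd (nat_lit 78) (nat_lit 0) (nat_lit 0) (XT.lf (nat_lit 0) (nat_lit 1841484256705) (nat_lit 76) (nat_lit 2159405561807) (nat_lit 76) (nat_lit 1911882174933) (nat_lit 3) (nat_lit 4) (nat_lit 4) (nat_lit 5) (nat_lit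 4) (nat_lit 4) (nat_lit 363) (nat_lit 322) (nat_lit 215)) (XT.lf (nat_lit 0) (nat_lit 3271982971192) (nat_lit 76) (nat_lit 1864676064317) (nat_lit 76) (nat_lit 1617152667107) (nat_lit 3) (nat_lit 4) (nat_lit 4) (nat_lit 5) (nat_lit 4) (nat_lit 4) (nat_lit 364) (nat_lit 322) (nat_lit 214)))) (XT.nd (nat_lit 156) (nat_lit 76) (nat_lit 0) (XT.nd (nat_lit 78) (nat_lit 0) (nat_lit 0) (XT.lf (nat_lit 0) (nat_lit 4917056402741) (nat_lit 76) (nat_lit 1525737187599) (nat_lit 76) (nat_lit 1278213781402) (nat_lit 3) (nat_lit 4) (nat_lit 4) (nat_lit 5) (nat_lit 4) (nat_lit 4) (nat_lit 365) (nat_lit 322) (nat_lit 213)) (XT.lf (nat_lit 0) (nat_lit 6808890770665) (nat_lit 76) (nat_lit 1135957518850) (nat_lit 76) (nat_lit 888434104837) (nat_lit 3) (nat_lit 4) (nat_lit 4) (nat_lit 5) (nat_lit 4) (nat_lit 4) (nat_lit 366) (nat_lit 322) (nat_lit 212))) (XT.nd (nat_lit 78) (nat_lit 76) (nat_lit 0) (XT.lf (nat_lit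 0) (nat_lit 8984500225643) (nat_lit 76) (nat_lit 687710934114) (nat_lit 76) (nat_lit 440187513306) (nat_lit 3) (nat_lit 4) (nat_lit 4) (nat_lit 5) (nat_lit 4) (nat_lit 4) (nat_lit 367) (nat_lit 322) (nat_lit 211)) (XT.lf (nat_lit 0) (nat_lit 71529422568) (nat_lit 152) (nat_lit 98742227774) (nat_lit 76) (nat_lit 11412965875875) (nat_lit 2) (nat_lit 5) (nat_lit 4) (nat_lit 5) (nat_lit 3) (nat_lit 4) (nat_lit 368) (nat_lit 322) (nat_lit 210)))))) (XT.nd (nat_lit 43680) (nat_lit 0) (nat_lit 2432) (XT.nd (nat_lit 43368) (nat_lit 0) (nat_lit 4180) (XT.nd (nat_lit 78) (nat_lit 0) (nat_lit 0) (XT.lf (nat_lit 0) (nat_lit 673073264829) (nat_lit 152) (nat_lit 12153698694853) (nat_lit 0) (nat_lit 443884901998) (nat_lit 1) (nat_lit 5) (nat_lit 3) (nat_lit 4) (nat_lit 1) (nat_lit 4) (nat_lit 369) (nat_lit 322) (nat_lit 209)) (XT.nd (nat_lit 43212) (nat_lit 0) (nat_lit 4560) (XT.lf (nat_lit 0) (nat_lit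 1372507394911) (nat_lit 152) (nat_lit 12694749977691) (nat_lit 0) (nat_lit 1143319027944) (nat_lit 1) (nat_lit 5) (nat_lit 3) (nat_lit 4) (nat_lit 1) (nat_lit 4) (nat_lit 370) (nat_lit 322) (nat_lit 208)) (XT.lf (nat_lit 0) (nat_lit 42870476806) (nat_lit 532) (nat_lit 3889313850) (nat_lit 532) (nat_lit 3889313850) (nat_lit 61) (nat_lit 3) (nat_lit 68) (nat_lit 3) (nat_lit 68) (nat_lit 5) (nat_lit 323) (nat_lit 323) (nat_lit 254)))) (XT.nd (nat_lit 156) (nat_lit 380) (nat_lit 0) (XT.nd (nat_lit 78) (nat_lit 0) (nat_lit 76) (XT.lf (nat_lit 76) (nat_lit 88190897997) (nat_lit 0) (nat_lit 6112332428) (nat_lit 532) (nat_lit 14421794755) (nat_lit 62) (nat_lit 5) (nat_lit 61) (nat_lit 3) (nat_lit 68) (nat_lit 5) (nat_lit 324) (nat_lit 323) (nat_lit 253)) (XT.lf (nat_lit 76) (nat_lit 83687954865) (nat_lit 0) (nat_lit 24975493469) (nat_lit 532) (nat_lit 8241329804) (nat_lit 63) (nat_lit 5) (nat_lit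 62) (nat_lit 5) (nat_lit 69) (nat_lit 5) (nat_lit 325) (nat_lit 323) (nat_lit 252))) (XT.nd (nat_lit 78) (nat_lit 0) (nat_lit 76) (XT.lf (nat_lit 0) (nat_lit 3630837262) (nat_lit 532) (nat_lit 45544694348) (nat_lit 608) (nat_lit 76761512500) (nat_lit 56) (nat_lit 5) (nat_lit 63) (nat_lit 5) (nat_lit 64) (nat_lit 5) (nat_lit 326) (nat_lit 323) (nat_lit 251)) (XT.lf (nat_lit 0) (nat_lit 21841386217) (nat_lit 532) (nat_lit 57590106198) (nat_lit 76) (nat_lit 56471891513) (nat_lit 57) (nat_lit 5) (nat_lit 64) (nat_lit 5) (nat_lit 58) (nat_lit 5) (nat_lit 327) (nat_lit 323) (nat_lit 250))))) (XT.nd (nat_lit 312) (nat_lit 760) (nat_lit 0) (XT.nd (nat_lit 156) (nat_lit 456) (nat_lit 0) (XT.nd (nat_lit 78) (nat_lit 228) (nat_lit 0) (XT.lf (nat_lit 0) (nat_lit 48152804274) (nat_lit 456) (nat_lit 68955397331) (nat_lit 76) (nat_lit 29826931590) (nat_lit 52) (nat_lit 5) (nat_lit 58) (nat_lit 5) (nat_lit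 53) (nat_lit 5) (nat_lit 328) (nat_lit 323) (nat_lit 249)) (XT.lf (nat_lit 0) (nat_lit 79626566145) (nat_lit 228) (nat_lit 4615288445) (nat_lit 304) (nat_lit 74913317932) (nat_lit 49) (nat_lit 5) (nat_lit 52) (nat_lit 5) (nat_lit 53) (nat_lit 5) (nat_lit 329) (nat_lit 323) (nat_lit 248))) (XT.nd (nat_lit 78) (nat_lit 228) (nat_lit 0) (XT.lf (nat_lit 0) (nat_lit 82707638507) (nat_lit 228) (nat_lit 50084652253) (nat_lit 304) (nat_lit 39852085797) (nat_lit 46) (nat_lit 5) (nat_lit 49) (nat_lit 5) (nat_lit 50) (nat_lit 5) (nat_lit 330) (nat_lit 323) (nat_lit 247)) (XT.lf (nat_lit 0) (nat_lit 7174446984) (nat_lit 228) (nat_lit 99386022125) (nat_lit 76) (nat_lit 81057228388) (nat_lit 43) (nat_lit 5) (nat_lit 46) (nat_lit 5) (nat_lit 44) (nat_lit 5) (nat_lit 331) (nat_lit 323) (nat_lit 246)))) (XT.nd (nat_lit 156) (nat_lit 380) (nat_lit 0) (XT.nd (nat_lit 78) (nat_lit 152) (nat_lit 0) (XT.lf (nat_lit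 0) (nat_lit 66088735007) (nat_lit 304) (nat_lit 108780304691) (nat_lit 76) (nat_lit 29309691021) (nat_lit 40) (nat_lit 5) (nat_lit 44) (nat_lit 5) (nat_lit 41) (nat_lit 5) (nat_lit 332) (nat_lit 323) (nat_lit 245)) (XT.lf (nat_lit 0) (nat_lit 104637534057) (nat_lit 152) (nat_lit 37634232003) (nat_lit 228) (nat_lit 80277625532) (nat_lit 38) (nat_lit 5) (nat_lit 40) (nat_lit 5) (nat_lit 41) (nat_lit 5) (nat_lit 333) (nat_lit 323) (nat_lit 244))) (XT.nd (nat_lit 78) (nat_lit 228) (nat_lit 0) (XT.lf (nat_lit 0) (nat_lit 116065414392) (nat_lit 152) (nat_lit 122747232041) (nat_lit 228) (nat_lit 4148574155) (nat_lit 36) (nat_lit 5) (nat_lit 38) (nat_lit 5) (nat_lit 39) (nat_lit 5) (nat_lit 334) (nat_lit 323) (nat_lit 243)) (XT.lf (nat_lit 0) (nat_lit 87927006110) (nat_lit 228) (nat_lit 137225070539) (nat_lit 76) (nat_lit 40426352806) (nat_lit 33) (nat_lit 5) (nat_lit 36) (nat_lit 5) (nat_lit 34)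 (nat_lit 5) (nat_lit 335) (nat_lit 323) (nat_lit 242))))))) (XT.nd (nat_lit 1092) (nat_lit 684) (nat_lit 0) (XT.nd (nat_lit 546) (nat_lit 608) (nat_lit 0) (XT.nd (nat_lit 234) (nat_lit 532) (nat_lit 0) (XT.nd (nat_lit 78) (nat_lit 304) (nat_lit 0) (XT.lf (nat_lit 0) (nat_lit 141766847173) (nat_lit 152) (nat_lit 62402572000) (nat_lit 228) (nat_lit 86562089450) (nat_lit 31) (nat_lit 5) (nat_lit 33) (nat_lit 5) (nat_lit 34) (nat_lit 5) (nat_lit 336) (nat_lit 323) (nat_lit 241)) (XT.nd (nat_lit 78) (nat_lit 152) (nat_lit 0) (XT.lf (nat_lit 0) (nat_lit 28420362951) (nat_lit 152) (nat_lit 163215662267) (nat_lit 76) (nat_lit 127095350881) (nat_lit 29) (nat_lit 5) (nat_lit 31) (nat_lit 5) (nat_lit 30) (nat_lit 5) (nat_lit 337) (nat_lit 323) (nat_lit 240)) (XT.lf (nat_lit 0) (nat_lit 165950451801) (nat_lit 228) (nat_lit 181689822197) (nat_lit 76) (nat_lit 2277023883) (nat_lit 27) (nat_lit 5) (nat_lit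 30) (nat_lit 5) (nat_lit 28) (nat_lit 4) (nat_lit 338) (nat_lit 323) (nat_lit 239)))) (XT.nd (nat_lit 156) (nat_lit 228) (nat_lit 0) (XT.nd (nat_lit 78) (nat_lit 228) (nat_lit 0) (XT.lf (nat_lit 0) (nat_lit 177315569469) (nat_lit 76) (nat_lit 161233891604) (nat_lit 152) (nat_lit 46076494530) (nat_lit 26) (nat_lit 5) (nat_lit 27) (nat_lit 5) (nat_lit 28) (nat_lit 4) (nat_lit 339) (nat_lit 323) (nat_lit 238)) (XT.lf (nat_lit 0) (nat_lit 118310577593) (nat_lit 228) (nat_lit 241754540972) (nat_lit 76) (nat_lit 63344088869) (nat_lit 23) (nat_lit 5) (nat_lit 26) (nat_lit 5) (nat_lit 24) (nat_lit 4) (nat_lit 340) (nat_lit 323) (nat_lit 237))) (XT.nd (nat_lit 78) (nat_lit 152) (nat_lit 0) (XT.lf (nat_lit 0) (nat_lit 176952115161) (nat_lit 76) (nat_lit 142659923749) (nat_lit 152) (nat_lit 147103399252) (nat_lit 22) (nat_lit 5) (nat_lit 23) (nat_lit 5) (nat_lit 24) (nat_lit 4) (nat_lit 341) (nat_lit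 323) (nat_lit 236)) (XT.lf (nat_lit 0) (nat_lit 46928103713) (nat_lit 152) (nat_lit 354094413877) (nat_lit 76) (nat_lit 114303142631) (nat_lit 20) (nat_lit 5) (nat_lit 22) (nat_lit 5) (nat_lit 21) (nat_lit 4) (nat_lit 342) (nat_lit 323) (nat_lit 235))))) (XT.nd (nat_lit 234) (nat_lit 380) (nat_lit 0) (XT.nd (nat_lit 78) (nat_lit 152) (nat_lit 0) (XT.lf (nat_lit 0) (nat_lit 124882883866) (nat_lit 76) (nat_lit 152322895894) (nat_lit 152) (nat_lit 292447837712) (nat_lit 19) (nat_lit 5) (nat_lit 20) (nat_lit 5) (nat_lit 21) (nat_lit 4) (nat_lit 343) (nat_lit 323) (nat_lit 234)) (XT.nd (nat_lit 78) (nat_lit 76) (nat_lit 0) (XT.lf (nat_lit 0) (nat_lit 65643943596) (nat_lit 76) (nat_lit 491751457800) (nat_lit 76) (nat_lit 73505743485) (nat_lit 18) (nat_lit 4) (nat_lit 19) (nat_lit 5) (nat_lit 19) (nat_lit 4) (nat_lit 344) (nat_lit 323) (nat_lit 233)) (XT.lf (nat_lit 0) (nat_lit 186857412647) (nat_lit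 152) (nat_lit 29582483947) (nat_lit 76) (nat_lit 483153064831) (nat_lit 17) (nat_lit 5) (nat_lit 19) (nat_lit 5) (nat_lit 18) (nat_lit 4) (nat_lit 345) (nat_lit 323) (nat_lit 232)))) (XT.nd (nat_lit 156) (nat_lit 152) (nat_lit 0) (XT.nd (nat_lit 78) (nat_lit 152) (nat_lit 0) (XT.lf (nat_lit 0) (nat_lit 499687484701) (nat_lit 152) (nat_lit 164904533323) (nat_lit 0) (nat_lit 112422609070) (nat_lit 16) (nat_lit 5) (nat_lit 18) (nat_lit 4) (nat_lit 16) (nat_lit 4) (nat_lit 346) (nat_lit 323) (nat_lit 231)) (XT.lf (nat_lit 0) (nat_lit 13234909174) (nat_lit 152) (nat_lit 359736396130) (nat_lit 76) (nat_lit 491530002035) (nat_lit 14) (nat_lit 5) (nat_lit 16) (nat_lit 5) (nat_lit 15) (nat_lit 4) (nat_lit 347) (nat_lit 323) (nat_lit 230))) (XT.nd (nat_lit 78) (nat_lit 76) (nat_lit 0) (XT.lf (nat_lit 0) (nat_lit 328796362284) (nat_lit 76) (nat_lit 15463966523) (nat_lit 152) (nat_lit 619210402923)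 (nat_lit 13) (nat_lit 5) (nat_lit 14) (nat_lit 5) (nat_lit 15) (nat_lit 4) (nat_lit 348) (nat_lit 323) (nat_lit 229)) (XT.lf (nat_lit 0) (nat_lit 59114702814) (nat_lit 76) (nat_lit 687507578917) (nat_lit 76) (nat_lit 328928670462) (nat_lit 12) (nat_lit 4) (nat_lit 13) (nat_lit 5) (nat_lit 13) (nat_lit 4) (nat_lit 349) (nat_lit 323) (nat_lit 228)))))) (XT.nd (nat_lit 546) (nat_lit 304) (nat_lit 0) (XT.nd (nat_lit 234) (nat_lit 228) (nat_lit 0) (XT.nd (nat_lit 78) (nat_lit 76) (nat_lit 0) (XT.lf (nat_lit 0) (nat_lit 24035730273) (nat_lit 152) (nat_lit 308584669595) (nat_lit 76) (nat_lit 870262563907) (nat_lit 11) (nat_lit 5) (nat_lit 13) (nat_lit 5) (nat_lit 12) (nat_lit 4) (nat_lit 350) (nat_lit 323) (nat_lit 227)) (XT.nd (nat_lit 78) (nat_lit 0) (nat_lit 0) (XT.lf (nat_lit 0) (nat_lit 425966306097) (nat_lit 152) (nat_lit 827476502259) (nat_lit 0) (nat_lit 93948659593) (nat_lit 10) (nat_lit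 5) (nat_lit 12) (nat_lit 4) (nat_lit 10) (nat_lit 4) (nat_lit 351) (nat_lit 323) (nat_lit 226)) (XT.lf (nat_lit 0) (nat_lit 906603220914) (nat_lit 152) (nat_lit 30914168332) (nat_lit 0) (nat_lit 574585518322) (nat_lit 10) (nat_lit 5) (nat_lit 12) (nat_lit 4) (nat_lit 10) (nat_lit 4) (nat_lit 352) (nat_lit 323) (nat_lit 225)))) (XT.nd (nat_lit 156) (nat_lit 0) (nat_lit 0) (XT.nd (nat_lit 78) (nat_lit 152) (nat_lit 0) (XT.lf (nat_lit 0) (nat_lit 931741719287) (nat_lit 76) (nat_lit 550002217078) (nat_lit 76) (nat_lit 217984465715) (nat_lit 9) (nat_lit 4) (nat_lit 10) (nat_lit 5) (nat_lit 10) (nat_lit 4) (nat_lit 353) (nat_lit 323) (nat_lit 224)) (XT.lf (nat_lit 0) (nat_lit 126048988715) (nat_lit 76) (nat_lit 94175425942) (nat_lit 152) (nat_lit 1694518911353) (nat_lit 7) (nat_lit 5) (nat_lit 8) (nat_lit 5) (nat_lit 9) (nat_lit 4) (nat_lit 354) (nat_lit 323) (nat_lit 223))) (XT.nd (nat_lit 78)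 (nat_lit 0) (nat_lit 0) (XT.lf (nat_lit 0) (nat_lit 744906345131) (nat_lit 152) (nat_lit 976476854346) (nat_lit 0) (nat_lit 437482427861) (nat_lit 7) (nat_lit 5) (nat_lit 9) (nat_lit 4) (nat_lit 7) (nat_lit 4) (nat_lit 355) (nat_lit 323) (nat_lit 222)) (XT.lf (nat_lit 0) (nat_lit 1350895112412) (nat_lit 152) (nat_lit 45031632239) (nat_lit 0) (nat_lit 1043471165450) (nat_lit 7) (nat_lit 5) (nat_lit 9) (nat_lit 4) (nat_lit 7) (nat_lit 4) (nat_lit 356) (nat_lit 323) (nat_lit 221))))) (XT.nd (nat_lit 312) (nat_lit 76) (nat_lit 0) (XT.nd (nat_lit 156) (nat_lit 152) (nat_lit 0) (XT.nd (nat_lit 78) (nat_lit 0) (nat_lit 0) (XT.lf (nat_lit 0) (nat_lit 1080164375284) (nat_lit 76) (nat_lit 993595701129) (nat_lit 76) (nat_lit 686171728346) (nat_lit 6) (nat_lit 4) (nat_lit 7) (nat_lit 5) (nat_lit 7) (nat_lit 4) (nat_lit 357) (nat_lit 323) (nat_lit 220)) (XT.lf (nat_lit 0) (nat_lit 2376866584614) (nat_lit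 76) (nat_lit 529499158789) (nat_lit 76) (nat_lit 222075163554) (nat_lit 6) (nat_lit 4) (nat_lit 7) (nat_lit 5) (nat_lit 7) (nat_lit 4) (nat_lit 358) (nat_lit 323) (nat_lit 219))) (XT.nd (nat_lit 78) (nat_lit 0) (nat_lit 0) (XT.lf (nat_lit 0) (nat_lit 304351644368) (nat_lit 152) (nat_lit 3226910959424) (nat_lit 0) (nat_lit 19699778851) (nat_lit 4) (nat_lit 5) (nat_lit 6) (nat_lit 4) (nat_lit 4) (nat_lit 4) (nat_lit 359) (nat_lit 323) (nat_lit 218)) (XT.lf (nat_lit 0) (nat_lit 934061195355) (nat_lit 152) (nat_lit 2449932671350) (nat_lit 0) (nat_lit 649409314119) (nat_lit 4) (nat_lit 5) (nat_lit 6) (nat_lit 4) (nat_lit 4) (nat_lit 4) (nat_lit 360) (nat_lit 323) (nat_lit 217)))) (XT.nd (nat_lit 156) (nat_lit 76) (nat_lit 0) (XT.nd (nat_lit 78) (nat_lit 0) (nat_lit 0) (XT.lf (nat_lit 0) (nat_lit 1658227114283) (nat_lit 152) (nat_lit 1556407770257) (nat_lit 0) (nat_lit 1373575219378) (nat_lit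 4) (nat_lit 5) (nat_lit 6) (nat_lit 4) (nat_lit 4) (nat_lit 4) (nat_lit 361) (nat_lit 323) (nat_lit 216)) (XT.lf (nat_lit 0) (nat_lit 2491017864781) (nat_lit 152) (nat_lit 528854247209) (nat_lit 0) (nat_lit 2206365957990) (nat_lit 4) (nat_lit 5) (nat_lit 6) (nat_lit 4) (nat_lit 4) (nat_lit 4) (nat_lit 362) (nat_lit 323) (nat_lit 215))) (XT.nd (nat_lit 78) (nat_lit 0) (nat_lit 0) (XT.lf (nat_lit 0) (nat_lit 687209192894) (nat_lit 76) (nat_lit 2778045383649) (nat_lit 76) (nat_lit 2493393466522) (nat_lit 3) (nat_lit 4) (nat_lit 4) (nat_lit 5) (nat_lit 4) (nat_lit 4) (nat_lit 363) (nat_lit 323) (nat_lit 214)) (XT.lf (nat_lit 0) (nat_lit 2117707865469) (nat_lit 76) (nat_lit 2483315907273) (nat_lit 76) (nat_lit 2198663981159) (nat_lit 3) (nat_lit 4) (nat_lit 4) (nat_lit 5) (nat_lit 4) (nat_lit 4) (nat_lit 364) (nat_lit 323) (nat_lit 213))))))))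
noncomputable def xc48 : XT := (XT.nd (nat_lit 45474) (nat_lit 0) (nat_lit 76) (XT.nd (nat_lit 44382) (nat_lit 0) (nat_lit 1140) (XT.nd (nat_lit 43836) (nat_lit 0) (nat_lit 3116) (XT.nd (nat_lit 234) (nat_lit 76) (nat_lit 0) (XT.nd (nat_lit 78) (nat_lit 0) (nat_lit 0) (XT.lf (nat_lit 0) (nat_lit 3762781260573) (nat_lit 76) (nat_lit 2144377048916) (nat_lit 76) (nat_lit 1859725114987) (nat_lit 3) (nat_lit 4) (nat_lit 4) (nat_lit 5) (nat_lit 4) (nat_lit 4) (nat_lit 365) (nat_lit 323) (nat_lit 212)) (XT.nd (nat_lit 78) (nat_lit 0) (nat_lit 0) (XT.lf (nat_lit 0) (nat_lit 5654615596806) (nat_lit 76) (nat_lit 1754597396132) (nat_lit 76) (nat_lit 1469945455407) (nat_lit 3) (nat_lit 4) (nat_lit 4) (nat_lit 5) (nat_lit 4) (nat_lit 4) (nat_lit 366) (nat_lit 323) (nat_lit 211)) (XT.lf (nat_lit 0) (nat_lit 7830225024226) (nat_lit 76) (nat_lit 1306350825280) (nat_lit 76) (nat_lit 1021698878645) (nat_lit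 3) (nat_lit 4) (nat_lit 4) (nat_lit 5) (nat_lit 4) (nat_lit 4) (nat_lit 367) (nat_lit 323) (nat_lit 210)))) (XT.nd (nat_lit 43446) (nat_lit 0) (nat_lit 4484) (XT.nd (nat_lit 78) (nat_lit 76) (nat_lit 0) (XT.lf (nat_lit 0) (nat_lit 10332175814237) (nat_lit 76) (nat_lit 790867294755) (nat_lit 76) (nat_lit 506215342982) (nat_lit 3) (nat_lit 4) (nat_lit 4) (nat_lit 5) (nat_lit 4) (nat_lit 4) (nat_lit 368) (nat_lit 323) (nat_lit 209)) (XT.lf (nat_lit 0) (nat_lit 82259081560) (nat_lit 152) (nat_lit 113553066597) (nat_lit 76) (nat_lit 13124910987324) (nat_lit 2) (nat_lit 5) (nat_lit 4) (nat_lit 5) (nat_lit 3) (nat_lit 4) (nat_lit 369) (nat_lit 323) (nat_lit 208))) (XT.nd (nat_lit 78) (nat_lit 0) (nat_lit 0) (XT.lf (nat_lit 0) (nat_lit 49311316838) (nat_lit 532) (nat_lit 4467159660) (nat_lit 532) (nat_lit 4467159660) (nat_lit 61) (nat_lit 3) (nat_lit 68) (nat_lit 3) (nat_lit 68) (nat_lit 5) (nat_lit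 324) (nat_lit 324) (nat_lit 252)) (XT.lf (nat_lit 76) (nat_lit 101429695457) (nat_lit 0) (nat_lit 7037122227) (nat_lit 532) (nat_lit 16565491245) (nat_lit 62) (nat_lit 5) (nat_lit 61) (nat_lit 3) (nat_lit 68) (nat_lit 5) (nat_lit 325) (nat_lit 324) (nat_lit 251))))) (XT.nd (nat_lit 234) (nat_lit 988) (nat_lit 0) (XT.nd (nat_lit 78) (nat_lit 456) (nat_lit 0) (XT.lf (nat_lit 76) (nat_lit 96251971018) (nat_lit 0) (nat_lit 28726830283) (nat_lit 532) (nat_lit 9460407733) (nat_lit 63) (nat_lit 5) (nat_lit 62) (nat_lit 5) (nat_lit 69) (nat_lit 5) (nat_lit 326) (nat_lit 324) (nat_lit 250)) (XT.nd (nat_lit 78) (nat_lit 0) (nat_lit 76) (XT.lf (nat_lit 0) (nat_lit 4189775033) (nat_lit 532) (nat_lit 52364435418) (nat_lit 608) (nat_lit 88272230030) (nat_lit 56) (nat_lit 5) (nat_lit 63) (nat_lit 5) (nat_lit 64) (nat_lit 5) (nat_lit 327) (nat_lit 324) (nat_lit 249)) (XT.lf (nat_lit 0) (nat_lit 25130260597)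 (nat_lit 532) (nat_lit 66216599396) (nat_lit 76) (nat_lit 64941004929) (nat_lit 57) (nat_lit 5) (nat_lit 64) (nat_lit 5) (nat_lit 58) (nat_lit 5) (nat_lit 328) (nat_lit 324) (nat_lit 248)))) (XT.nd (nat_lit 156) (nat_lit 456) (nat_lit 0) (XT.nd (nat_lit 78) (nat_lit 228) (nat_lit 0) (XT.lf (nat_lit 0) (nat_lit 55386997302) (nat_lit 456) (nat_lit 79286781410) (nat_lit 76) (nat_lit 34300711124) (nat_lit 52) (nat_lit 5) (nat_lit 58) (nat_lit 5) (nat_lit 53) (nat_lit 5) (nat_lit 329) (nat_lit 324) (nat_lit 247)) (XT.lf (nat_lit 0) (nat_lit 91581467152) (nat_lit 228) (nat_lit 5306730234) (nat_lit 304) (nat_lit 86139435805) (nat_lit 49) (nat_lit 5) (nat_lit 52) (nat_lit 5) (nat_lit 53) (nat_lit 5) (nat_lit 330) (nat_lit 324) (nat_lit 246))) (XT.nd (nat_lit 78) (nat_lit 228) (nat_lit 0) (XT.lf (nat_lit 0) (nat_lit 95124503838) (nat_lit 228) (nat_lit 57595657981) (nat_lit 304) (nat_lit 45820140294)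 (nat_lit 46) (nat_lit 5) (nat_lit 49) (nat_lit 5) (nat_lit 50) (nat_lit 5) (nat_lit 331) (nat_lit 324) (nat_lit 245)) (XT.lf (nat_lit 0) (nat_lit 8258969101) (nat_lit 228) (nat_lit 114283034445) (nat_lit 76) (nat_lit 93217673139) (nat_lit 43) (nat_lit 5) (nat_lit 46) (nat_lit 5) (nat_lit 44) (nat_lit 5) (nat_lit 332) (nat_lit 324) (nat_lit 244)))))) (XT.nd (nat_lit 546) (nat_lit 760) (nat_lit 0) (XT.nd (nat_lit 234) (nat_lit 684) (nat_lit 0) (XT.nd (nat_lit 78) (nat_lit 304) (nat_lit 0) (XT.lf (nat_lit 0) (nat_lit 76009609555) (nat_lit 304) (nat_lit 125086834011) (nat_lit 76) (nat_lit 33708485504) (nat_lit 40) (nat_lit 5) (nat_lit 44) (nat_lit 5) (nat_lit 41) (nat_lit 5) (nat_lit 333) (nat_lit 324) (nat_lit 243)) (XT.nd (nat_lit 78) (nat_lit 152) (nat_lit 0) (XT.lf (nat_lit 0) (nat_lit 120342790390) (nat_lit 152) (nat_lit 43276549739) (nat_lit 228) (nat_lit 92311910152) (nat_lit 38) (nat_lit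 5) (nat_lit 40) (nat_lit 5) (nat_lit 41) (nat_lit 5) (nat_lit 334) (nat_lit 324) (nat_lit 242)) (XT.lf (nat_lit 0) (nat_lit 133484479438) (nat_lit 152) (nat_lit 141156266415) (nat_lit 228) (nat_lit 4764157005) (nat_lit 36) (nat_lit 5) (nat_lit 38) (nat_lit 5) (nat_lit 39) (nat_lit 5) (nat_lit 335) (nat_lit 324) (nat_lit 241)))) (XT.nd (nat_lit 156) (nat_lit 304) (nat_lit 0) (XT.nd (nat_lit 78) (nat_lit 152) (nat_lit 0) (XT.lf (nat_lit 0) (nat_lit 101121878465) (nat_lit 228) (nat_lit 157799659901) (nat_lit 76) (nat_lit 46493186070) (nat_lit 33) (nat_lit 5) (nat_lit 36) (nat_lit 5) (nat_lit 34) (nat_lit 5) (nat_lit 336) (nat_lit 324) (nat_lit 240)) (XT.lf (nat_lit 0) (nat_lit 163040269170) (nat_lit 152) (nat_lit 71759826898) (nat_lit 228) (nat_lit 99540714490) (nat_lit 31) (nat_lit 5) (nat_lit 33) (nat_lit 5) (nat_lit 34) (nat_lit 5) (nat_lit 337) (nat_lit 324) (nat_lit 239))) (XT.nd (nat_lit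 78) (nat_lit 152) (nat_lit 0) (XT.lf (nat_lit 0) (nat_lit 32688381039) (nat_lit 152) (nat_lit 187689743779) (nat_lit 76) (nat_lit 146162558000) (nat_lit 29) (nat_lit 5) (nat_lit 31) (nat_lit 5) (nat_lit 30) (nat_lit 5) (nat_lit 338) (nat_lit 324) (nat_lit 238)) (XT.lf (nat_lit 0) (nat_lit 190847591623) (nat_lit 228) (nat_lit 208935439233) (nat_lit 76) (nat_lit 2621493677) (nat_lit 27) (nat_lit 5) (nat_lit 30) (nat_lit 5) (nat_lit 28) (nat_lit 4) (nat_lit 339) (nat_lit 324) (nat_lit 237))))) (XT.nd (nat_lit 234) (nat_lit 380) (nat_lit 0) (XT.nd (nat_lit 78) (nat_lit 304) (nat_lit 0) (XT.lf (nat_lit 0) (nat_lit 203920096188) (nat_lit 76) (nat_lit 185415932694) (nat_lit 152) (nat_lit 52983486199) (nat_lit 26) (nat_lit 5) (nat_lit 27) (nat_lit 5) (nat_lit 28) (nat_lit 4) (nat_lit 340) (nat_lit 324) (nat_lit 236)) (XT.nd (nat_lit 78) (nat_lit 76) (nat_lit 0) (XT.lf (nat_lit 0) (nat_lit 136061100676)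 (nat_lit 228) (nat_lit 278010692034) (nat_lit 76) (nat_lit 72848479337) (nat_lit 23) (nat_lit 5) (nat_lit 26) (nat_lit 5) (nat_lit 24) (nat_lit 4) (nat_lit 341) (nat_lit 324) (nat_lit 235)) (XT.lf (nat_lit 0) (nat_lit 203501367457) (nat_lit 76) (nat_lit 164056055047) (nat_lit 152) (nat_lit 169165043782) (nat_lit 22) (nat_lit 5) (nat_lit 23) (nat_lit 5) (nat_lit 24) (nat_lit 4) (nat_lit 342) (nat_lit 324) (nat_lit 234)))) (XT.nd (nat_lit 156) (nat_lit 152) (nat_lit 0) (XT.nd (nat_lit 78) (nat_lit 76) (nat_lit 0) (XT.lf (nat_lit 0) (nat_lit 53970723903) (nat_lit 152) (nat_lit 407202304881) (nat_lit 76) (nat_lit 131451206989) (nat_lit 20) (nat_lit 5) (nat_lit 22) (nat_lit 5) (nat_lit 21) (nat_lit 4) (nat_lit 343) (nat_lit 324) (nat_lit 233)) (XT.lf (nat_lit 0) (nat_lit 143621056709) (nat_lit 76) (nat_lit 175168688620) (nat_lit 152) (nat_lit 336311665911) (nat_lit 19) (nat_lit 5) (nat_lit 20)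 (nat_lit 5) (nat_lit 21) (nat_lit 4) (nat_lit 344) (nat_lit 324) (nat_lit 232))) (XT.nd (nat_lit 78) (nat_lit 76) (nat_lit 0) (XT.lf (nat_lit 0) (nat_lit 75495959149) (nat_lit 76) (nat_lit 565511632587) (nat_lit 76) (nat_lit 84528493626) (nat_lit 18) (nat_lit 4) (nat_lit 19) (nat_lit 5) (nat_lit 19) (nat_lit 4) (nat_lit 345) (nat_lit 324) (nat_lit 231)) (XT.lf (nat_lit 0) (nat_lit 214888594751) (nat_lit 152) (nat_lit 34015003987) (nat_lit 76) (nat_lit 555628100608) (nat_lit 17) (nat_lit 5) (nat_lit 19) (nat_lit 5) (nat_lit 18) (nat_lit 4) (nat_lit 346) (nat_lit 324) (nat_lit 230))))))) (XT.nd (nat_lit 1092) (nat_lit 76) (nat_lit 0) (XT.nd (nat_lit 546) (nat_lit 456) (nat_lit 0) (XT.nd (nat_lit 234) (nat_lit 228) (nat_lit 0) (XT.nd (nat_lit 78) (nat_lit 228) (nat_lit 0) (XT.lf (nat_lit 0) (nat_lit 574642999699) (nat_lit 152) (nat_lit 189635634088) (nat_lit 0) (nat_lit 129287995399) (nat_lit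 16) (nat_lit 5) (nat_lit 18) (nat_lit 4) (nat_lit 16) (nat_lit 4) (nat_lit 347) (nat_lit 324) (nat_lit 229)) (XT.nd (nat_lit 78) (nat_lit 76) (nat_lit 0) (XT.lf (nat_lit 0) (nat_lit 15222383751) (nat_lit 152) (nat_lit 413692545593) (nat_lit 76) (nat_lit 565261394568) (nat_lit 14) (nat_lit 5) (nat_lit 16) (nat_lit 5) (nat_lit 15) (nat_lit 4) (nat_lit 348) (nat_lit 324) (nat_lit 228)) (XT.lf (nat_lit 0) (nat_lit 378119761767) (nat_lit 76) (nat_lit 17781657503) (nat_lit 152) (nat_lit 712089758516) (nat_lit 13) (nat_lit 5) (nat_lit 14) (nat_lit 5) (nat_lit 15) (nat_lit 4) (nat_lit 349) (nat_lit 324) (nat_lit 227)))) (XT.nd (nat_lit 156) (nat_lit 76) (nat_lit 0) (XT.nd (nat_lit 78) (nat_lit 76) (nat_lit 0) (XT.lf (nat_lit 0) (nat_lit 67985627372) (nat_lit 76) (nat_lit 790631900789) (nat_lit 76) (nat_lit 378265914170) (nat_lit 12) (nat_lit 4) (nat_lit 13) (nat_lit 5) (nat_lit 13) (nat_lit 4)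 (nat_lit 350) (nat_lit 324) (nat_lit 226)) (XT.lf (nat_lit 0) (nat_lit 27642788917) (nat_lit 152) (nat_lit 354869046243) (nat_lit 76) (nat_lit 1000803436964) (nat_lit 11) (nat_lit 5) (nat_lit 13) (nat_lit 5) (nat_lit 12) (nat_lit 4) (nat_lit 351) (nat_lit 324) (nat_lit 225))) (XT.nd (nat_lit 78) (nat_lit 0) (nat_lit 0) (XT.lf (nat_lit 0) (nat_lit 489862838542) (nat_lit 152) (nat_lit 951594846725) (nat_lit 0) (nat_lit 108042375702) (nat_lit 10) (nat_lit 5) (nat_lit 12) (nat_lit 4) (nat_lit 10) (nat_lit 4) (nat_lit 352) (nat_lit 324) (nat_lit 224)) (XT.lf (nat_lit 0) (nat_lit 1042595083642) (nat_lit 152) (nat_lit 35548571083) (nat_lit 0) (nat_lit 660774578393) (nat_lit 10) (nat_lit 5) (nat_lit 12) (nat_lit 4) (nat_lit 10) (nat_lit 4) (nat_lit 353) (nat_lit 324) (nat_lit 223))))) (XT.nd (nat_lit 234) (nat_lit 228) (nat_lit 0) (XT.nd (nat_lit 78) (nat_lit 152) (nat_lit 0) (XT.lf (nat_lit 0)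 (nat_lit 1071505469232) (nat_lit 76) (nat_lit 632501317165) (nat_lit 76) (nat_lit 250680775038) (nat_lit 9) (nat_lit 4) (nat_lit 10) (nat_lit 5) (nat_lit 10) (nat_lit 4) (nat_lit 354) (nat_lit 324) (nat_lit 222)) (XT.nd (nat_lit 78) (nat_lit 0) (nat_lit 0) (XT.lf (nat_lit 0) (nat_lit 144958680595) (nat_lit 76) (nat_lit 108300576515) (nat_lit 152) (nat_lit 1948695473230) (nat_lit 7) (nat_lit 5) (nat_lit 8) (nat_lit 5) (nat_lit 9) (nat_lit 4) (nat_lit 355) (nat_lit 324) (nat_lit 221)) (XT.lf (nat_lit 0) (nat_lit 856643347538) (nat_lit 152) (nat_lit 1122946286700) (nat_lit 0) (nat_lit 503105753018) (nat_lit 7) (nat_lit 5) (nat_lit 9) (nat_lit 4) (nat_lit 7) (nat_lit 4) (nat_lit 356) (nat_lit 324) (nat_lit 220)))) (XT.nd (nat_lit 156) (nat_lit 152) (nat_lit 0) (XT.nd (nat_lit 78) (nat_lit 76) (nat_lit 0) (XT.lf (nat_lit 0) (nat_lit 1553530292871) (nat_lit 152) (nat_lit 51784554642) (nat_lit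 0) (nat_lit 1199992675900) (nat_lit 7) (nat_lit 5) (nat_lit 9) (nat_lit 4) (nat_lit 7) (nat_lit 4) (nat_lit 357) (nat_lit 324) (nat_lit 219)) (XT.lf (nat_lit 0) (nat_lit 1242190699750) (nat_lit 76) (nat_lit 1142634222677) (nat_lit 76) (nat_lit 789096586182) (nat_lit 6) (nat_lit 4) (nat_lit 7) (nat_lit 5) (nat_lit 7) (nat_lit 4) (nat_lit 358) (nat_lit 324) (nat_lit 218))) (XT.nd (nat_lit 78) (nat_lit 152) (nat_lit 0) (XT.lf (nat_lit 0) (nat_lit 2733398022891) (nat_lit 76) (nat_lit 608923307719) (nat_lit 76) (nat_lit 255385654247) (nat_lit 6) (nat_lit 4) (nat_lit 7) (nat_lit 5) (nat_lit 7) (nat_lit 4) (nat_lit 359) (nat_lit 324) (nat_lit 217)) (XT.lf (nat_lit 0) (nat_lit 350005087763) (nat_lit 152) (nat_lit 3710946201514) (nat_lit 0) (nat_lit 22655394953) (nat_lit 4) (nat_lit 5) (nat_lit 6) (nat_lit 4) (nat_lit 4) (nat_lit 4) (nat_lit 360) (nat_lit 324) (nat_lit 216)))))) (XT.nd (nat_lit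 546) (nat_lit 0) (nat_lit 0) (XT.nd (nat_lit 234) (nat_lit 76) (nat_lit 0) (XT.nd (nat_lit 78) (nat_lit 0) (nat_lit 0) (XT.lf (nat_lit 0) (nat_lit 1074170980519) (nat_lit 152) (nat_lit 2817421353076) (nat_lit 0) (nat_lit 746821275823) (nat_lit 4) (nat_lit 5) (nat_lit 6) (nat_lit 4) (nat_lit 4) (nat_lit 4) (nat_lit 361) (nat_lit 324) (nat_lit 215)) (XT.nd (nat_lit 78) (nat_lit 0) (nat_lit 0) (XT.lf (nat_lit 0) (nat_lit 1906961708260) (nat_lit 152) (nat_lit 1789867875816) (nat_lit 0) (nat_lit 1579611993229) (nat_lit 4) (nat_lit 5) (nat_lit 6) (nat_lit 4) (nat_lit 4) (nat_lit 4) (nat_lit 362) (nat_lit 324) (nat_lit 214)) (XT.lf (nat_lit 0) (nat_lit 2864671002616) (nat_lit 152) (nat_lit 608181462569) (nat_lit 0) (nat_lit 2537321278597) (nat_lit 4) (nat_lit 5) (nat_lit 6) (nat_lit 4) (nat_lit 4) (nat_lit 4) (nat_lit 363) (nat_lit 324) (nat_lit 213)))) (XT.nd (nat_lit 156) (nat_lit 0) (nat_lit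 0) (XT.nd (nat_lit 78) (nat_lit 0) (nat_lit 0) (XT.lf (nat_lit 0) (nat_lit 790291415530) (nat_lit 76) (nat_lit 3194751766148) (nat_lit 76) (nat_lit 2867402034313) (nat_lit 3) (nat_lit 4) (nat_lit 4) (nat_lit 5) (nat_lit 4) (nat_lit 4) (nat_lit 364) (nat_lit 324) (nat_lit 212)) (XT.lf (nat_lit 0) (nat_lit 2435364778943) (nat_lit 76) (nat_lit 2855812923757) (nat_lit 76) (nat_lit 2528463185127) (nat_lit 3) (nat_lit 4) (nat_lit 4) (nat_lit 5) (nat_lit 4) (nat_lit 4) (nat_lit 365) (nat_lit 324) (nat_lit 211))) (XT.nd (nat_lit 78) (nat_lit 0) (nat_lit 0) (XT.lf (nat_lit 0) (nat_lit 4327199087619) (nat_lit 76) (nat_lit 2466033284856) (nat_lit 76) (nat_lit 2138683540317) (nat_lit 3) (nat_lit 4) (nat_lit 4) (nat_lit 5) (nat_lit 4) (nat_lit 4) (nat_lit 366) (nat_lit 324) (nat_lit 210)) (XT.lf (nat_lit 0) (nat_lit 6502808491075) (nat_lit 76) (nat_lit 2017786726076) (nat_lit 76) (nat_lit 1690436976398)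 (nat_lit 3) (nat_lit 4) (nat_lit 4) (nat_lit 5) (nat_lit 4) (nat_lit 4) (nat_lit 367) (nat_lit 324) (nat_lit 209))))) (XT.nd (nat_lit 43680) (nat_lit 0) (nat_lit 3724) (XT.nd (nat_lit 43524) (nat_lit 0) (nat_lit 4408) (XT.nd (nat_lit 78) (nat_lit 0) (nat_lit 0) (XT.lf (nat_lit 0) (nat_lit 9004759260249) (nat_lit 76) (nat_lit 1502303206049) (nat_lit 76) (nat_lit 1174953451903) (nat_lit 3) (nat_lit 4) (nat_lit 4) (nat_lit 5) (nat_lit 4) (nat_lit 4) (nat_lit 368) (nat_lit 324) (nat_lit 208)) (XT.lf (nat_lit 0) (nat_lit 11882002605842) (nat_lit 76) (nat_lit 909497177645) (nat_lit 76) (nat_lit 582147419612) (nat_lit 3) (nat_lit 4) (nat_lit 4) (nat_lit 5) (nat_lit 4) (nat_lit 4) (nat_lit 369) (nat_lit 324) (nat_lit 207))) (XT.nd (nat_lit 78) (nat_lit 0) (nat_lit 0) (XT.lf (nat_lit 0) (nat_lit 56715778833) (nat_lit 532) (nat_lit 5133036054) (nat_lit 532) (nat_lit 5133036054) (nat_lit 61) (nat_lit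 3) (nat_lit 68) (nat_lit 3) (nat_lit 68) (nat_lit 5) (nat_lit 325) (nat_lit 325) (nat_lit 250)) (XT.lf (nat_lit 76) (nat_lit 116651834282) (nat_lit 0) (nat_lit 8098694293) (nat_lit 532) (nat_lit 19035515142) (nat_lit 62) (nat_lit 5) (nat_lit 61) (nat_lit 3) (nat_lit 68) (nat_lit 5) (nat_lit 326) (nat_lit 325) (nat_lit 249)))) (XT.nd (nat_lit 156) (nat_lit 304) (nat_lit 0) (XT.nd (nat_lit 78) (nat_lit 456) (nat_lit 0) (XT.lf (nat_lit 76) (nat_lit 110697950356) (nat_lit 0) (nat_lit 33039645218) (nat_lit 532) (nat_lit 10866522547) (nat_lit 63) (nat_lit 5) (nat_lit 62) (nat_lit 5) (nat_lit 69) (nat_lit 5) (nat_lit 327) (nat_lit 325) (nat_lit 248)) (XT.lf (nat_lit 0) (nat_lit 4829063353) (nat_lit 532) (nat_lit 60210054922) (nat_lit 608) (nat_lit 101510410966) (nat_lit 56) (nat_lit 5) (nat_lit 63) (nat_lit 5) (nat_lit 64) (nat_lit 5) (nat_lit 328) (nat_lit 325) (nat_lit 247))) (XT.nd (nat_lit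 78) (nat_lit 380) (nat_lit 0) (XT.lf (nat_lit 0) (nat_lit 28909377341) (nat_lit 532) (nat_lit 76139998392) (nat_lit 76) (nat_lit 74680892673) (nat_lit 57) (nat_lit 5) (nat_lit 64) (nat_lit 5) (nat_lit 58) (nat_lit 5) (nat_lit 329) (nat_lit 325) (nat_lit 246)) (XT.lf (nat_lit 0) (nat_lit 63703570441) (nat_lit 456) (nat_lit 91170781215) (nat_lit 76) (nat_lit 39445621040) (nat_lit 52) (nat_lit 5) (nat_lit 58) (nat_lit 5) (nat_lit 53) (nat_lit 5) (nat_lit 330) (nat_lit 325) (nat_lit 245))))))))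
noncomputable def xc49 : XT := (XT.nd (nat_lit 2262) (nat_lit 228) (nat_lit 0) (XT.nd (nat_lit 1092) (nat_lit 1064) (nat_lit 0) (XT.nd (nat_lit 546) (nat_lit 988) (nat_lit 0) (XT.nd (nat_lit 234) (nat_lit 760) (nat_lit 0) (XT.nd (nat_lit 78) (nat_lit 456) (nat_lit 0) (XT.lf (nat_lit 0) (nat_lit 105326941353) (nat_lit 228) (nat_lit 6102095931) (nat_lit 304) (nat_lit 99052124470) (nat_lit 49) (nat_lit 5) (nat_lit 52) (nat_lit 5) (nat_lit 53) (nat_lit 5) (nat_lit 331) (nat_lit 325) (nat_lit 244)) (XT.nd (nat_lit 78) (nat_lit 228) (nat_lit 0) (XT.lf (nat_lit 0) (nat_lit 109401284937) (nat_lit 228) (nat_lit 66233727201) (nat_lit 304) (nat_lit 52685782606) (nat_lit 46) (nat_lit 5) (nat_lit 49) (nat_lit 5) (nat_lit 50) (nat_lit 5) (nat_lit 332) (nat_lit 325) (nat_lit 243)) (XT.lf (nat_lit 0) (nat_lit 9504132099) (nat_lit 228) (nat_lit 131417254452) (nat_lit 76) (nat_lit 107201730911) (nat_lit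 43) (nat_lit 5) (nat_lit 46) (nat_lit 5) (nat_lit 44) (nat_lit 5) (nat_lit 333) (nat_lit 325) (nat_lit 242)))) (XT.nd (nat_lit 156) (nat_lit 380) (nat_lit 0) (XT.nd (nat_lit 78) (nat_lit 152) (nat_lit 0) (XT.lf (nat_lit 0) (nat_lit 87416770683) (nat_lit 304) (nat_lit 143841907214) (nat_lit 76) (nat_lit 38766528334) (nat_lit 40) (nat_lit 5) (nat_lit 44) (nat_lit 5) (nat_lit 41) (nat_lit 5) (nat_lit 334) (nat_lit 325) (nat_lit 241)) (XT.lf (nat_lit 0) (nat_lit 138401487758) (nat_lit 152) (nat_lit 49765902094) (nat_lit 228) (nat_lit 106153132055) (nat_lit 38) (nat_lit 5) (nat_lit 40) (nat_lit 5) (nat_lit 41) (nat_lit 5) (nat_lit 335) (nat_lit 325) (nat_lit 240))) (XT.nd (nat_lit 78) (nat_lit 228) (nat_lit 0) (XT.lf (nat_lit 0) (nat_lit 153514147866) (nat_lit 152) (nat_lit 162327399812) (nat_lit 228) (nat_lit 5473711918) (nat_lit 36) (nat_lit 5) (nat_lit 38) (nat_lit 5) (nat_lit 39) (nat_lit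 5) (nat_lit 336) (nat_lit 325) (nat_lit 239)) (XT.lf (nat_lit 0) (nat_lit 116294562079) (nat_lit 228) (nat_lit 181462674127) (nat_lit 76) (nat_lit 53469341933) (nat_lit 33) (nat_lit 5) (nat_lit 36) (nat_lit 5) (nat_lit 34) (nat_lit 5) (nat_lit 337) (nat_lit 325) (nat_lit 238))))) (XT.nd (nat_lit 234) (nat_lit 532) (nat_lit 0) (XT.nd (nat_lit 78) (nat_lit 304) (nat_lit 0) (XT.lf (nat_lit 0) (nat_lit 187502657312) (nat_lit 152) (nat_lit 82521433521) (nat_lit 228) (nat_lit 114467520434) (nat_lit 31) (nat_lit 5) (nat_lit 33) (nat_lit 5) (nat_lit 34) (nat_lit 5) (nat_lit 338) (nat_lit 325) (nat_lit 237)) (XT.nd (nat_lit 78) (nat_lit 152) (nat_lit 0) (XT.lf (nat_lit 0) (nat_lit 37595391424) (nat_lit 152) (nat_lit 215836953679) (nat_lit 76) (nat_lit 168089137909) (nat_lit 29) (nat_lit 5) (nat_lit 31) (nat_lit 5) (nat_lit 30) (nat_lit 5) (nat_lit 339) (nat_lit 325) (nat_lit 236)) (XT.lf (nat_lit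 0) (nat_lit 219478187494) (nat_lit 228) (nat_lit 240269814631) (nat_lit 76) (nat_lit 3016922804) (nat_lit 27) (nat_lit 5) (nat_lit 30) (nat_lit 5) (nat_lit 28) (nat_lit 4) (nat_lit 340) (nat_lit 325) (nat_lit 235)))) (XT.nd (nat_lit 156) (nat_lit 228) (nat_lit 0) (XT.nd (nat_lit 78) (nat_lit 228) (nat_lit 0) (XT.lf (nat_lit 0) (nat_lit 234513548270) (nat_lit 76) (nat_lit 213226021918) (nat_lit 152) (nat_lit 60927619707) (nat_lit 26) (nat_lit 5) (nat_lit 27) (nat_lit 5) (nat_lit 28) (nat_lit 4) (nat_lit 341) (nat_lit 325) (nat_lit 234)) (XT.lf (nat_lit 0) (nat_lit 156473242296) (nat_lit 228) (nat_lit 319706980086) (nat_lit 76) (nat_lit 83777851152) (nat_lit 23) (nat_lit 5) (nat_lit 26) (nat_lit 5) (nat_lit 24) (nat_lit 4) (nat_lit 342) (nat_lit 325) (nat_lit 233))) (XT.nd (nat_lit 78) (nat_lit 152) (nat_lit 0) (XT.lf (nat_lit 0) (nat_lit 234031438377) (nat_lit 76) (nat_lit 188662302802)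 (nat_lit 152) (nat_lit 194536877583) (nat_lit 22) (nat_lit 5) (nat_lit 23) (nat_lit 5) (nat_lit 24) (nat_lit 4) (nat_lit 343) (nat_lit 325) (nat_lit 232)) (XT.lf (nat_lit 0) (nat_lit 62068906881) (nat_lit 152) (nat_lit 468277908777) (nat_lit 76) (nat_lit 151170848690) (nat_lit 20) (nat_lit 5) (nat_lit 22) (nat_lit 5) (nat_lit 21) (nat_lit 4) (nat_lit 344) (nat_lit 325) (nat_lit 231)))))) (XT.nd (nat_lit 546) (nat_lit 456) (nat_lit 0) (XT.nd (nat_lit 234) (nat_lit 380) (nat_lit 0) (XT.nd (nat_lit 78) (nat_lit 152) (nat_lit 0) (XT.lf (nat_lit 0) (nat_lit 165168555678) (nat_lit 76) (nat_lit 201441994440) (nat_lit 152) (nat_lit 386755884638) (nat_lit 19) (nat_lit 5) (nat_lit 20) (nat_lit 5) (nat_lit 21) (nat_lit 4) (nat_lit 345) (nat_lit 325) (nat_lit 230)) (XT.nd (nat_lit 78) (nat_lit 76) (nat_lit 0) (XT.lf (nat_lit 0) (nat_lit 86824454355) (nat_lit 76) (nat_lit 650336453935) (nat_lit 76)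 (nat_lit 97205415019) (nat_lit 18) (nat_lit 4) (nat_lit 19) (nat_lit 5) (nat_lit 19) (nat_lit 4) (nat_lit 346) (nat_lit 325) (nat_lit 229)) (XT.lf (nat_lit 0) (nat_lit 247123827409) (nat_lit 152) (nat_lit 39113585359) (nat_lit 76) (nat_lit 638973885493) (nat_lit 17) (nat_lit 5) (nat_lit 19) (nat_lit 5) (nat_lit 18) (nat_lit 4) (nat_lit 347) (nat_lit 325) (nat_lit 228)))) (XT.nd (nat_lit 156) (nat_lit 152) (nat_lit 0) (XT.nd (nat_lit 78) (nat_lit 152) (nat_lit 0) (XT.lf (nat_lit 0) (nat_lit 660841258572) (nat_lit 152) (nat_lit 218077516643) (nat_lit 0) (nat_lit 148682703191) (nat_lit 16) (nat_lit 5) (nat_lit 18) (nat_lit 4) (nat_lit 16) (nat_lit 4) (nat_lit 348) (nat_lit 325) (nat_lit 227)) (XT.lf (nat_lit 0) (nat_lit 17507433715) (nat_lit 152) (nat_lit 475743168486) (nat_lit 76) (nat_lit 650052034548) (nat_lit 14) (nat_lit 5) (nat_lit 16) (nat_lit 5) (nat_lit 15) (nat_lit 4) (nat_lit 349)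 (nat_lit 325) (nat_lit 226))) (XT.nd (nat_lit 78) (nat_lit 76) (nat_lit 0) (XT.lf (nat_lit 0) (nat_lit 434840709125) (nat_lit 76) (nat_lit 20447466432) (nat_lit 152) (nat_lit 818901555114) (nat_lit 13) (nat_lit 5) (nat_lit 14) (nat_lit 5) (nat_lit 15) (nat_lit 4) (nat_lit 350) (nat_lit 325) (nat_lit 225)) (XT.lf (nat_lit 0) (nat_lit 78186283678) (nat_lit 76) (nat_lit 909225313533) (nat_lit 76) (nat_lit 435004246013) (nat_lit 12) (nat_lit 4) (nat_lit 13) (nat_lit 5) (nat_lit 13) (nat_lit 4) (nat_lit 351) (nat_lit 325) (nat_lit 224))))) (XT.nd (nat_lit 312) (nat_lit 228) (nat_lit 0) (XT.nd (nat_lit 156) (nat_lit 76) (nat_lit 0) (XT.nd (nat_lit 78) (nat_lit 76) (nat_lit 0) (XT.lf (nat_lit 0) (nat_lit 31790492021) (nat_lit 152) (nat_lit 408096889917) (nat_lit 76) (nat_lit 1150925078006) (nat_lit 11) (nat_lit 5) (nat_lit 13) (nat_lit 5) (nat_lit 12) (nat_lit 4) (nat_lit 352) (nat_lit 325) (nat_lit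 223)) (XT.lf (nat_lit 0) (nat_lit 563343463968) (nat_lit 152) (nat_lit 1094331706343) (nat_lit 0) (nat_lit 124249803642) (nat_lit 10) (nat_lit 5) (nat_lit 12) (nat_lit 4) (nat_lit 10) (nat_lit 4) (nat_lit 353) (nat_lit 325) (nat_lit 222))) (XT.nd (nat_lit 78) (nat_lit 76) (nat_lit 0) (XT.lf (nat_lit 0) (nat_lit 1198985389358) (nat_lit 152) (nat_lit 40878798145) (nat_lit 0) (nat_lit 759891696964) (nat_lit 10) (nat_lit 5) (nat_lit 12) (nat_lit 4) (nat_lit 10) (nat_lit 4) (nat_lit 354) (nat_lit 325) (nat_lit 221)) (XT.lf (nat_lit 0) (nat_lit 1232233173967) (nat_lit 76) (nat_lit 727375582813) (nat_lit 76) (nat_lit 288281862534) (nat_lit 9) (nat_lit 4) (nat_lit 10) (nat_lit 5) (nat_lit 10) (nat_lit 4) (nat_lit 355) (nat_lit 325) (nat_lit 220)))) (XT.nd (nat_lit 156) (nat_lit 76) (nat_lit 0) (XT.nd (nat_lit 78) (nat_lit 0) (nat_lit 0) (XT.lf (nat_lit 0) (nat_lit 166704254761) (nat_lit 76) (nat_lit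 124544783357) (nat_lit 152) (nat_lit 2240998830262) (nat_lit 7) (nat_lit 5) (nat_lit 8) (nat_lit 5) (nat_lit 9) (nat_lit 4) (nat_lit 356) (nat_lit 325) (nat_lit 219)) (XT.lf (nat_lit 0) (nat_lit 985140644101) (nat_lit 152) (nat_lit 1291386644981) (nat_lit 0) (nat_lit 578572342608) (nat_lit 7) (nat_lit 5) (nat_lit 9) (nat_lit 4) (nat_lit 7) (nat_lit 4) (nat_lit 357) (nat_lit 325) (nat_lit 218))) (XT.nd (nat_lit 78) (nat_lit 76) (nat_lit 0) (XT.lf (nat_lit 0) (nat_lit 1786560527612) (nat_lit 152) (nat_lit 59550859818) (nat_lit 0) (nat_lit 1379992209143) (nat_lit 7) (nat_lit 5) (nat_lit 9) (nat_lit 4) (nat_lit 7) (nat_lit 4) (nat_lit 358) (nat_lit 325) (nat_lit 217)) (XT.lf (nat_lit 0) (nat_lit 1428520566090) (nat_lit 76) (nat_lit 1314028725742) (nat_lit 76) (nat_lit 907460392510) (nat_lit 6) (nat_lit 4) (nat_lit 7) (nat_lit 5) (nat_lit 7) (nat_lit 4) (nat_lit 359) (nat_lit 325) (nat_lit 216)))))))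 (XT.nd (nat_lit 44538) (nat_lit 0) (nat_lit 1444) (XT.nd (nat_lit 546) (nat_lit 0) (nat_lit 0) (XT.nd (nat_lit 234) (nat_lit 76) (nat_lit 0) (XT.nd (nat_lit 78) (nat_lit 152) (nat_lit 0) (XT.lf (nat_lit 0) (nat_lit 3143408823175) (nat_lit 76) (nat_lit 700261255758) (nat_lit 76) (nat_lit 293692909689) (nat_lit 6) (nat_lit 4) (nat_lit 7) (nat_lit 5) (nat_lit 7) (nat_lit 4) (nat_lit 360) (nat_lit 325) (nat_lit 215)) (XT.nd (nat_lit 78) (nat_lit 0) (nat_lit 0) (XT.lf (nat_lit 0) (nat_lit 402506377763) (nat_lit 152) (nat_lit 4267587071762) (nat_lit 0) (nat_lit 26054195141) (nat_lit 4) (nat_lit 5) (nat_lit 6) (nat_lit 4) (nat_lit 4) (nat_lit 4) (nat_lit 361) (nat_lit 325) (nat_lit 214)) (XT.lf (nat_lit 0) (nat_lit 1235297085715) (nat_lit 152) (nat_lit 3240033634317) (nat_lit 0) (nat_lit 858844894105) (nat_lit 4) (nat_lit 5) (nat_lit 6) (nat_lit 4) (nat_lit 4) (nat_lit 4) (nat_lit 362) (nat_lit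 325) (nat_lit 213)))) (XT.nd (nat_lit 156) (nat_lit 76) (nat_lit 0) (XT.nd (nat_lit 78) (nat_lit 0) (nat_lit 0) (XT.lf (nat_lit 0) (nat_lit 2193006362863) (nat_lit 152) (nat_lit 2058347255692) (nat_lit 0) (nat_lit 1816554163438) (nat_lit 4) (nat_lit 5) (nat_lit 6) (nat_lit 4) (nat_lit 4) (nat_lit 4) (nat_lit 363) (nat_lit 325) (nat_lit 212)) (XT.lf (nat_lit 0) (nat_lit 3294371999411) (nat_lit 152) (nat_lit 699407985001) (nat_lit 0) (nat_lit 2917919793191) (nat_lit 4) (nat_lit 5) (nat_lit 6) (nat_lit 4) (nat_lit 4) (nat_lit 4) (nat_lit 364) (nat_lit 325) (nat_lit 211))) (XT.nd (nat_lit 78) (nat_lit 0) (nat_lit 0) (XT.lf (nat_lit 0) (nat_lit 908835765820) (nat_lit 76) (nat_lit 3673964209673) (nat_lit 76) (nat_lit 3297511997542) (nat_lit 3) (nat_lit 4) (nat_lit 4) (nat_lit 5) (nat_lit 4) (nat_lit 4) (nat_lit 365) (nat_lit 325) (nat_lit 210)) (XT.lf (nat_lit 0) (nat_lit 2800670050533) (nat_lit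 76) (nat_lit 3284184582844) (nat_lit 76) (nat_lit 2907732365576) (nat_lit 3) (nat_lit 4) (nat_lit 4) (nat_lit 5) (nat_lit 4) (nat_lit 4) (nat_lit 366) (nat_lit 325) (nat_lit 209))))) (XT.nd (nat_lit 43680) (nat_lit 0) (nat_lit 4028) (XT.nd (nat_lit 78) (nat_lit 0) (nat_lit 0) (XT.lf (nat_lit 0) (nat_lit 4976279433151) (nat_lit 76) (nat_lit 2835938034562) (nat_lit 76) (nat_lit 2459485812825) (nat_lit 3) (nat_lit 4) (nat_lit 4) (nat_lit 5) (nat_lit 4) (nat_lit 4) (nat_lit 367) (nat_lit 325) (nat_lit 208)) (XT.nd (nat_lit 78) (nat_lit 0) (nat_lit 0) (XT.lf (nat_lit 0) (nat_lit 7478230184206) (nat_lit 76) (nat_lit 2320454523664) (nat_lit 76) (nat_lit 1944002298041) (nat_lit 3) (nat_lit 4) (nat_lit 4) (nat_lit 5) (nat_lit 4) (nat_lit 4) (nat_lit 368) (nat_lit 325) (nat_lit 207)) (XT.lf (nat_lit 0) (nat_lit 10355473514042) (nat_lit 76) (nat_lit 1727648503197) (nat_lit 76) (nat_lit 1351196274195)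 (nat_lit 3) (nat_lit 4) (nat_lit 4) (nat_lit 5) (nat_lit 4) (nat_lit 4) (nat_lit 369) (nat_lit 325) (nat_lit 206)))) (XT.nd (nat_lit 156) (nat_lit 380) (nat_lit 0) (XT.nd (nat_lit 78) (nat_lit 0) (nat_lit 0) (XT.lf (nat_lit 0) (nat_lit 65229016712) (nat_lit 532) (nat_lit 5899817507) (nat_lit 532) (nat_lit 5899817507) (nat_lit 61) (nat_lit 3) (nat_lit 68) (nat_lit 3) (nat_lit 68) (nat_lit 5) (nat_lit 326) (nat_lit 326) (nat_lit 248)) (XT.lf (nat_lit 76) (nat_lit 134155420015) (nat_lit 0) (nat_lit 9318038120) (nat_lit 532) (nat_lit 21879651645) (nat_lit 62) (nat_lit 5) (nat_lit 61) (nat_lit 3) (nat_lit 68) (nat_lit 5) (nat_lit 327) (nat_lit 326) (nat_lit 247))) (XT.nd (nat_lit 78) (nat_lit 456) (nat_lit 0) (XT.lf (nat_lit 76) (nat_lit 127308830951) (nat_lit 0) (nat_lit 37998458082) (nat_lit 532) (nat_lit 12486711632) (nat_lit 63) (nat_lit 5) (nat_lit 62) (nat_lit 5) (nat_lit 69) (nat_lit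 5) (nat_lit 328) (nat_lit 326) (nat_lit 246)) (XT.lf (nat_lit 0) (nat_lit 5561605892) (nat_lit 532) (nat_lit 69234723229) (nat_lit 608) (nat_lit 116734966131) (nat_lit 56) (nat_lit 5) (nat_lit 63) (nat_lit 5) (nat_lit 64) (nat_lit 5) (nat_lit 329) (nat_lit 326) (nat_lit 245)))))) (XT.nd (nat_lit 546) (nat_lit 1216) (nat_lit 0) (XT.nd (nat_lit 234) (nat_lit 836) (nat_lit 0) (XT.nd (nat_lit 78) (nat_lit 608) (nat_lit 0) (XT.lf (nat_lit 0) (nat_lit 33253026025) (nat_lit 532) (nat_lit 87554124115) (nat_lit 76) (nat_lit 85882071568) (nat_lit 57) (nat_lit 5) (nat_lit 64) (nat_lit 5) (nat_lit 58) (nat_lit 5) (nat_lit 330) (nat_lit 326) (nat_lit 244)) (XT.nd (nat_lit 78) (nat_lit 228) (nat_lit 0) (XT.lf (nat_lit 0) (nat_lit 73265551032) (nat_lit 456) (nat_lit 104839579942) (nat_lit 76) (nat_lit 45362315424) (nat_lit 52) (nat_lit 5) (nat_lit 58) (nat_lit 5) (nat_lit 53) (nat_lit 5) (nat_lit 331)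 (nat_lit 326) (nat_lit 243)) (XT.lf (nat_lit 0) (nat_lit 121132223863) (nat_lit 228) (nat_lit 7016923485) (nat_lit 304) (nat_lit 113903722569) (nat_lit 49) (nat_lit 5) (nat_lit 52) (nat_lit 5) (nat_lit 53) (nat_lit 5) (nat_lit 332) (nat_lit 326) (nat_lit 242)))) (XT.nd (nat_lit 156) (nat_lit 380) (nat_lit 0) (XT.nd (nat_lit 78) (nat_lit 228) (nat_lit 0) (XT.lf (nat_lit 0) (nat_lit 125817606617) (nat_lit 228) (nat_lit 76167818812) (nat_lit 304) (nat_lit 60583070616) (nat_lit 46) (nat_lit 5) (nat_lit 49) (nat_lit 5) (nat_lit 50) (nat_lit 5) (nat_lit 333) (nat_lit 326) (nat_lit 241)) (XT.lf (nat_lit 0) (nat_lit 10934528952) (nat_lit 228) (nat_lit 151123615656) (nat_lit 76) (nat_lit 123283054290) (nat_lit 43) (nat_lit 5) (nat_lit 46) (nat_lit 5) (nat_lit 44) (nat_lit 5) (nat_lit 334) (nat_lit 326) (nat_lit 240))) (XT.nd (nat_lit 78) (nat_lit 152) (nat_lit 0) (XT.lf (nat_lit 0) (nat_lit 100533611197)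 (nat_lit 304) (nat_lit 165412180520) (nat_lit 76) (nat_lit 44582845962) (nat_lit 40) (nat_lit 5) (nat_lit 44) (nat_lit 5) (nat_lit 41) (nat_lit 5) (nat_lit 335) (nat_lit 326) (nat_lit 239)) (XT.lf (nat_lit 0) (nat_lit 159167214747) (nat_lit 152) (nat_lit 57229176742) (nat_lit 228) (nat_lit 122071894212) (nat_lit 38) (nat_lit 5) (nat_lit 40) (nat_lit 5) (nat_lit 41) (nat_lit 5) (nat_lit 336) (nat_lit 326) (nat_lit 238))))) (XT.nd (nat_lit 312) (nat_lit 532) (nat_lit 0) (XT.nd (nat_lit 156) (nat_lit 304) (nat_lit 0) (XT.nd (nat_lit 78) (nat_lit 228) (nat_lit 0) (XT.lf (nat_lit 0) (nat_lit 176546560414) (nat_lit 152) (nat_lit 186674765690) (nat_lit 228) (nat_lit 6290936087) (nat_lit 36) (nat_lit 5) (nat_lit 38) (nat_lit 5) (nat_lit 39) (nat_lit 5) (nat_lit 337) (nat_lit 326) (nat_lit 237)) (XT.lf (nat_lit 0) (nat_lit 133742074818) (nat_lit 228) (nat_lit 208676831571) (nat_lit 76) (nat_lit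 61491390069) (nat_lit 33) (nat_lit 5) (nat_lit 36) (nat_lit 5) (nat_lit 34) (nat_lit 5) (nat_lit 338) (nat_lit 326) (nat_lit 236))) (XT.nd (nat_lit 78) (nat_lit 152) (nat_lit 0) (XT.lf (nat_lit 0) (nat_lit 215632855732) (nat_lit 152) (nat_lit 94897858446) (nat_lit 228) (nat_lit 131634396151) (nat_lit 31) (nat_lit 5) (nat_lit 33) (nat_lit 5) (nat_lit 34) (nat_lit 5) (nat_lit 339) (nat_lit 326) (nat_lit 235)) (XT.lf (nat_lit 0) (nat_lit 43237538118) (nat_lit 152) (nat_lit 248207769573) (nat_lit 76) (nat_lit 193304169245) (nat_lit 29) (nat_lit 5) (nat_lit 31) (nat_lit 5) (nat_lit 30) (nat_lit 5) (nat_lit 340) (nat_lit 326) (nat_lit 234)))) (XT.nd (nat_lit 156) (nat_lit 304) (nat_lit 0) (XT.nd (nat_lit 78) (nat_lit 76) (nat_lit 0) (XT.lf (nat_lit 0) (nat_lit 252402529704) (nat_lit 228) (nat_lit 276305794964) (nat_lit 76) (nat_lit 3471128579) (nat_lit 27) (nat_lit 5) (nat_lit 30) (nat_lit 5)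 (nat_lit 28) (nat_lit 4) (nat_lit 341) (nat_lit 326) (nat_lit 233)) (XT.lf (nat_lit 0) (nat_lit 269694692159) (nat_lit 76) (nat_lit 245208185561) (nat_lit 152) (nat_lit 70064199773) (nat_lit 26) (nat_lit 5) (nat_lit 27) (nat_lit 5) (nat_lit 28) (nat_lit 4) (nat_lit 342) (nat_lit 326) (nat_lit 232))) (XT.nd (nat_lit 78) (nat_lit 76) (nat_lit 0) (XT.lf (nat_lit 0) (nat_lit 179946479315) (nat_lit 228) (nat_lit 367659007626) (nat_lit 76) (nat_lit 96346116662) (nat_lit 23) (nat_lit 5) (nat_lit 26) (nat_lit 5) (nat_lit 24) (nat_lit 4) (nat_lit 343) (nat_lit 326) (nat_lit 231)) (XT.lf (nat_lit 0) (nat_lit 269139833378) (nat_lit 76) (nat_lit 216960014572) (nat_lit 152) (nat_lit 223715199190) (nat_lit 22) (nat_lit 5) (nat_lit 23) (nat_lit 5) (nat_lit 24) (nat_lit 4) (nat_lit 344) (nat_lit 326) (nat_lit 230))))))))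
noncomputable def xc50 : XT := (XT.nd (nat_lit 45708) (nat_lit 0) (nat_lit 304) (XT.nd (nat_lit 1092) (nat_lit 304) (nat_lit 0) (XT.nd (nat_lit 546) (nat_lit 456) (nat_lit 0) (XT.nd (nat_lit 234) (nat_lit 380) (nat_lit 0) (XT.nd (nat_lit 78) (nat_lit 152) (nat_lit 0) (XT.lf (nat_lit 0) (nat_lit 71381189523) (nat_lit 152) (nat_lit 538516009585) (nat_lit 76) (nat_lit 173847958529) (nat_lit 20) (nat_lit 5) (nat_lit 22) (nat_lit 5) (nat_lit 21) (nat_lit 4) (nat_lit 345) (nat_lit 326) (nat_lit 229)) (XT.nd (nat_lit 78) (nat_lit 76) (nat_lit 0) (XT.lf (nat_lit 0) (nat_lit 189947121043) (nat_lit 76) (nat_lit 231656783229) (nat_lit 152) (nat_lit 444767353414) (nat_lit 19) (nat_lit 5) (nat_lit 20) (nat_lit 5) (nat_lit 21) (nat_lit 4) (nat_lit 346) (nat_lit 326) (nat_lit 228)) (XT.lf (nat_lit 0) (nat_lit 99851223705) (nat_lit 76) (nat_lit 747885467552) (nat_lit 76) (nat_lit 111784448330) (nat_lit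 18) (nat_lit 4) (nat_lit 19) (nat_lit 5) (nat_lit 19) (nat_lit 4) (nat_lit 347) (nat_lit 326) (nat_lit 227)))) (XT.nd (nat_lit 156) (nat_lit 228) (nat_lit 0) (XT.nd (nat_lit 78) (nat_lit 76) (nat_lit 0) (XT.lf (nat_lit 0) (nat_lit 284193871045) (nat_lit 152) (nat_lit 44977848700) (nat_lit 76) (nat_lit 734821155307) (nat_lit 17) (nat_lit 5) (nat_lit 19) (nat_lit 5) (nat_lit 18) (nat_lit 4) (nat_lit 348) (nat_lit 326) (nat_lit 226)) (XT.lf (nat_lit 0) (nat_lit 759968815159) (nat_lit 152) (nat_lit 250786525949) (nat_lit 0) (nat_lit 170986249300) (nat_lit 16) (nat_lit 5) (nat_lit 18) (nat_lit 4) (nat_lit 16) (nat_lit 4) (nat_lit 349) (nat_lit 326) (nat_lit 225))) (XT.nd (nat_lit 78) (nat_lit 76) (nat_lit 0) (XT.lf (nat_lit 0) (nat_lit 20134828471) (nat_lit 152) (nat_lit 547102179527) (nat_lit 76) (nat_lit 747560921618) (nat_lit 14) (nat_lit 5) (nat_lit 16) (nat_lit 5) (nat_lit 15) (nat_lit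 4) (nat_lit 350) (nat_lit 326) (nat_lit 224)) (XT.lf (nat_lit 0) (nat_lit 500069071141) (nat_lit 76) (nat_lit 23513497779) (nat_lit 152) (nat_lit 941735527754) (nat_lit 13) (nat_lit 5) (nat_lit 14) (nat_lit 5) (nat_lit 15) (nat_lit 4) (nat_lit 351) (nat_lit 326) (nat_lit 223))))) (XT.nd (nat_lit 234) (nat_lit 228) (nat_lit 0) (XT.nd (nat_lit 78) (nat_lit 152) (nat_lit 0) (XT.lf (nat_lit 0) (nat_lit 89916352658) (nat_lit 76) (nat_lit 1045608072850) (nat_lit 76) (nat_lit 500253706898) (nat_lit 12) (nat_lit 4) (nat_lit 13) (nat_lit 5) (nat_lit 13) (nat_lit 4) (nat_lit 352) (nat_lit 326) (nat_lit 222)) (XT.nd (nat_lit 78) (nat_lit 76) (nat_lit 0) (XT.lf (nat_lit 0) (nat_lit 36560037292) (nat_lit 152) (nat_lit 469309523016) (nat_lit 76) (nat_lit 1323564690745) (nat_lit 11) (nat_lit 5) (nat_lit 13) (nat_lit 5) (nat_lit 12) (nat_lit 4) (nat_lit 353) (nat_lit 326) (nat_lit 221)) (XT.lf (nat_lit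 0) (nat_lit 647845890666) (nat_lit 152) (nat_lit 1258479672208) (nat_lit 0) (nat_lit 142888084461) (nat_lit 10) (nat_lit 5) (nat_lit 12) (nat_lit 4) (nat_lit 10) (nat_lit 4) (nat_lit 354) (nat_lit 326) (nat_lit 220)))) (XT.nd (nat_lit 156) (nat_lit 152) (nat_lit 0) (XT.nd (nat_lit 78) (nat_lit 76) (nat_lit 0) (XT.lf (nat_lit 0) (nat_lit 1378833986547) (nat_lit 152) (nat_lit 47009061270) (nat_lit 0) (nat_lit 873876156093) (nat_lit 10) (nat_lit 5) (nat_lit 12) (nat_lit 4) (nat_lit 10) (nat_lit 4) (nat_lit 355) (nat_lit 326) (nat_lit 219)) (XT.lf (nat_lit 0) (nat_lit 1417069574901) (nat_lit 76) (nat_lit 836481215564) (nat_lit 76) (nat_lit 331523364024) (nat_lit 9) (nat_lit 4) (nat_lit 10) (nat_lit 5) (nat_lit 10) (nat_lit 4) (nat_lit 356) (nat_lit 326) (nat_lit 218))) (XT.nd (nat_lit 78) (nat_lit 0) (nat_lit 0) (XT.lf (nat_lit 0) (nat_lit 191711232920) (nat_lit 76) (nat_lit 143225835730) (nat_lit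 152) (nat_lit 2577147925915) (nat_lit 7) (nat_lit 5) (nat_lit 8) (nat_lit 5) (nat_lit 9) (nat_lit 4) (nat_lit 357) (nat_lit 326) (nat_lit 217)) (XT.lf (nat_lit 0) (nat_lit 1132912341421) (nat_lit 152) (nat_lit 1485093443449) (nat_lit 0) (nat_lit 665358743441) (nat_lit 7) (nat_lit 5) (nat_lit 9) (nat_lit 4) (nat_lit 7) (nat_lit 4) (nat_lit 358) (nat_lit 326) (nat_lit 216)))))) (XT.nd (nat_lit 546) (nat_lit 76) (nat_lit 0) (XT.nd (nat_lit 234) (nat_lit 152) (nat_lit 0) (XT.nd (nat_lit 78) (nat_lit 76) (nat_lit 0) (XT.lf (nat_lit 0) (nat_lit 2054545129106) (nat_lit 152) (nat_lit 68482446809) (nat_lit 0) (nat_lit 1586991518290) (nat_lit 7) (nat_lit 5) (nat_lit 9) (nat_lit 4) (nat_lit 7) (nat_lit 4) (nat_lit 359) (nat_lit 326) (nat_lit 215)) (XT.nd (nat_lit 78) (nat_lit 0) (nat_lit 0) (XT.lf (nat_lit 0) (nat_lit 1642799604787) (nat_lit 76) (nat_lit 1511132557977) (nat_lit 76) (nat_lit 1043578935998)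 (nat_lit 6) (nat_lit 4) (nat_lit 7) (nat_lit 5) (nat_lit 7) (nat_lit 4) (nat_lit 360) (nat_lit 326) (nat_lit 214)) (XT.lf (nat_lit 0) (nat_lit 3614920976028) (nat_lit 76) (nat_lit 805300029664) (nat_lit 76) (nat_lit 337746397979) (nat_lit 6) (nat_lit 4) (nat_lit 7) (nat_lit 5) (nat_lit 7) (nat_lit 4) (nat_lit 361) (nat_lit 326) (nat_lit 213)))) (XT.nd (nat_lit 156) (nat_lit 0) (nat_lit 0) (XT.nd (nat_lit 78) (nat_lit 0) (nat_lit 0) (XT.lf (nat_lit 0) (nat_lit 462882732790) (nat_lit 152) (nat_lit 4907724331029) (nat_lit 0) (nat_lit 29962695636) (nat_lit 4) (nat_lit 5) (nat_lit 6) (nat_lit 4) (nat_lit 4) (nat_lit 4) (nat_lit 362) (nat_lit 326) (nat_lit 212)) (XT.lf (nat_lit 0) (nat_lit 1420591994975) (nat_lit 152) (nat_lit 3726037982510) (nat_lit 0) (nat_lit 987671951025) (nat_lit 4) (nat_lit 5) (nat_lit 6) (nat_lit 4) (nat_lit 4) (nat_lit 4) (nat_lit 363) (nat_lit 326) (nat_lit 211))) (XT.nd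 (nat_lit 78) (nat_lit 0) (nat_lit 0) (XT.lf (nat_lit 0) (nat_lit 2521957618512) (nat_lit 152) (nat_lit 2367098737999) (nat_lit 0) (nat_lit 2089037568653) (nat_lit 4) (nat_lit 5) (nat_lit 6) (nat_lit 4) (nat_lit 4) (nat_lit 4) (nat_lit 364) (nat_lit 326) (nat_lit 210)) (XT.lf (nat_lit 0) (nat_lit 3788528061253) (nat_lit 152) (nat_lit 804318655754) (nat_lit 0) (nat_lit 3355608006256) (nat_lit 4) (nat_lit 5) (nat_lit 6) (nat_lit 4) (nat_lit 4) (nat_lit 4) (nat_lit 365) (nat_lit 326) (nat_lit 209))))) (XT.nd (nat_lit 234) (nat_lit 0) (nat_lit 0) (XT.nd (nat_lit 78) (nat_lit 0) (nat_lit 0) (XT.lf (nat_lit 0) (nat_lit 1045161613083) (nat_lit 76) (nat_lit 4225058598101) (nat_lit 76) (nat_lit 3792138538635) (nat_lit 3) (nat_lit 4) (nat_lit 4) (nat_lit 5) (nat_lit 4) (nat_lit 4) (nat_lit 366) (nat_lit 326) (nat_lit 208)) (XT.nd (nat_lit 78) (nat_lit 0) (nat_lit 0) (XT.lf (nat_lit 0) (nat_lit 3220770977582)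 (nat_lit 76) (nat_lit 3776812058947) (nat_lit 76) (nat_lit 3343891995595) (nat_lit 3) (nat_lit 4) (nat_lit 4) (nat_lit 5) (nat_lit 4) (nat_lit 4) (nat_lit 367) (nat_lit 326) (nat_lit 207)) (XT.lf (nat_lit 0) (nat_lit 5722721712880) (nat_lit 76) (nat_lit 3261328555986) (nat_lit 76) (nat_lit 2828408489256) (nat_lit 3) (nat_lit 4) (nat_lit 4) (nat_lit 5) (nat_lit 4) (nat_lit 4) (nat_lit 368) (nat_lit 326) (nat_lit 206)))) (XT.nd (nat_lit 43680) (nat_lit 0) (nat_lit 4408) (XT.nd (nat_lit 43602) (nat_lit 0) (nat_lit 4408) (XT.lf (nat_lit 0) (nat_lit 8599965029015) (nat_lit 76) (nat_lit 2668522542422) (nat_lit 76) (nat_lit 2235602472753) (nat_lit 3) (nat_lit 4) (nat_lit 4) (nat_lit 5) (nat_lit 4) (nat_lit 4) (nat_lit 369) (nat_lit 326) (nat_lit 205)) (XT.lf (nat_lit 0) (nat_lit 75017808580) (nat_lit 532) (nat_lit 6782390167) (nat_lit 532) (nat_lit 6782390167) (nat_lit 61) (nat_lit 3) (nat_lit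 68) (nat_lit 3) (nat_lit 68) (nat_lit 5) (nat_lit 327) (nat_lit 327) (nat_lit 246))) (XT.nd (nat_lit 78) (nat_lit 0) (nat_lit 76) (XT.lf (nat_lit 76) (nat_lit 154283126659) (nat_lit 0) (nat_lit 10719176491) (nat_lit 532) (nat_lit 25153137563) (nat_lit 62) (nat_lit 5) (nat_lit 61) (nat_lit 3) (nat_lit 68) (nat_lit 5) (nat_lit 328) (nat_lit 327) (nat_lit 245)) (XT.lf (nat_lit 76) (nat_lit 146409834642) (nat_lit 0) (nat_lit 43700393963) (nat_lit 532) (nat_lit 14352316262) (nat_lit 63) (nat_lit 5) (nat_lit 62) (nat_lit 5) (nat_lit 69) (nat_lit 5) (nat_lit 329) (nat_lit 327) (nat_lit 244))))))) (XT.nd (nat_lit 1092) (nat_lit 1444) (nat_lit 0) (XT.nd (nat_lit 546) (nat_lit 1064) (nat_lit 0) (XT.nd (nat_lit 234) (nat_lit 912) (nat_lit 0) (XT.nd (nat_lit 78) (nat_lit 304) (nat_lit 0) (XT.lf (nat_lit 0) (nat_lit 6402034327) (nat_lit 532) (nat_lit 79614759743) (nat_lit 608) (nat_lit 134243693864)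 (nat_lit 56) (nat_lit 5) (nat_lit 63) (nat_lit 5) (nat_lit 64) (nat_lit 5) (nat_lit 330) (nat_lit 327) (nat_lit 243)) (XT.nd (nat_lit 78) (nat_lit 380) (nat_lit 0) (XT.lf (nat_lit 0) (nat_lit 38246455983) (nat_lit 532) (nat_lit 100682044974) (nat_lit 76) (nat_lit 98763660182) (nat_lit 57) (nat_lit 5) (nat_lit 64) (nat_lit 5) (nat_lit 58) (nat_lit 5) (nat_lit 331) (nat_lit 327) (nat_lit 242)) (XT.lf (nat_lit 0) (nat_lit 84260257050) (nat_lit 456) (nat_lit 120560361202) (nat_lit 76) (nat_lit 52166550243) (nat_lit 52) (nat_lit 5) (nat_lit 58) (nat_lit 5) (nat_lit 53) (nat_lit 5) (nat_lit 332) (nat_lit 327) (nat_lit 241)))) (XT.nd (nat_lit 156) (nat_lit 456) (nat_lit 0) (XT.nd (nat_lit 78) (nat_lit 228) (nat_lit 0) (XT.lf (nat_lit 0) (nat_lit 139306776767) (nat_lit 228) (nat_lit 8069093891) (nat_lit 304) (nat_lit 130984577309) (nat_lit 49) (nat_lit 5) (nat_lit 52) (nat_lit 5) (nat_lit 53) (nat_lit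 5) (nat_lit 333) (nat_lit 327) (nat_lit 240)) (XT.lf (nat_lit 0) (nat_lit 144694881969) (nat_lit 228) (nat_lit 87592260088) (nat_lit 304) (nat_lit 69666312395) (nat_lit 46) (nat_lit 5) (nat_lit 49) (nat_lit 5) (nat_lit 50) (nat_lit 5) (nat_lit 334) (nat_lit 327) (nat_lit 239))) (XT.nd (nat_lit 78) (nat_lit 228) (nat_lit 0) (XT.lf (nat_lit 0) (nat_lit 12578320422) (nat_lit 228) (nat_lit 173787449525) (nat_lit 76) (nat_lit 141776316777) (nat_lit 43) (nat_lit 5) (nat_lit 46) (nat_lit 5) (nat_lit 44) (nat_lit 5) (nat_lit 335) (nat_lit 327) (nat_lit 238)) (XT.lf (nat_lit 0) (nat_lit 115616923132) (nat_lit 304) (nat_lit 190219461074) (nat_lit 76) (nat_lit 51271284862) (nat_lit 40) (nat_lit 5) (nat_lit 44) (nat_lit 5) (nat_lit 41) (nat_lit 5) (nat_lit 336) (nat_lit 327) (nat_lit 237))))) (XT.nd (nat_lit 234) (nat_lit 532) (nat_lit 0) (XT.nd (nat_lit 78) (nat_lit 380) (nat_lit 0) (XT.lf (nat_lit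 0) (nat_lit 183046458642) (nat_lit 152) (nat_lit 65812335359) (nat_lit 228) (nat_lit 140379496754) (nat_lit 38) (nat_lit 5) (nat_lit 40) (nat_lit 5) (nat_lit 41) (nat_lit 5) (nat_lit 337) (nat_lit 327) (nat_lit 236)) (XT.nd (nat_lit 78) (nat_lit 228) (nat_lit 0) (XT.lf (nat_lit 0) (nat_lit 203032544755) (nat_lit 152) (nat_lit 214674661757) (nat_lit 228) (nat_lit 7231678490) (nat_lit 36) (nat_lit 5) (nat_lit 38) (nat_lit 5) (nat_lit 39) (nat_lit 5) (nat_lit 338) (nat_lit 327) (nat_lit 235)) (XT.lf (nat_lit 0) (nat_lit 153805902810) (nat_lit 228) (nat_lit 239974391336) (nat_lit 76) (nat_lit 70716343831) (nat_lit 33) (nat_lit 5) (nat_lit 36) (nat_lit 5) (nat_lit 34) (nat_lit 5) (nat_lit 339) (nat_lit 327) (nat_lit 234)))) (XT.nd (nat_lit 156) (nat_lit 228) (nat_lit 0) (XT.nd (nat_lit 78) (nat_lit 152) (nat_lit 0) (XT.lf (nat_lit 0) (nat_lit 247981413448) (nat_lit 152) (nat_lit 109131183637)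 (nat_lit 228) (nat_lit 151377096332) (nat_lit 31) (nat_lit 5) (nat_lit 33) (nat_lit 5) (nat_lit 34) (nat_lit 5) (nat_lit 340) (nat_lit 327) (nat_lit 233)) (XT.lf (nat_lit 0) (nat_lit 49725314756) (nat_lit 152) (nat_lit 285435360599) (nat_lit 76) (nat_lit 222301050321) (nat_lit 29) (nat_lit 5) (nat_lit 31) (nat_lit 5) (nat_lit 30) (nat_lit 5) (nat_lit 341) (nat_lit 327) (nat_lit 232))) (XT.nd (nat_lit 78) (nat_lit 76) (nat_lit 0) (XT.lf (nat_lit 0) (nat_lit 290264885784) (nat_lit 228) (nat_lit 317748267716) (nat_lit 76) (nat_lit 3993058625) (nat_lit 27) (nat_lit 5) (nat_lit 30) (nat_lit 5) (nat_lit 28) (nat_lit 4) (nat_lit 342) (nat_lit 327) (nat_lit 231)) (XT.lf (nat_lit 0) (nat_lit 310152004979) (nat_lit 76) (nat_lit 281988097974) (nat_lit 152) (nat_lit 80571891827) (nat_lit 26) (nat_lit 5) (nat_lit 27) (nat_lit 5) (nat_lit 28) (nat_lit 4) (nat_lit 343) (nat_lit 327) (nat_lit 230))))))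 (XT.nd (nat_lit 546) (nat_lit 684) (nat_lit 0) (XT.nd (nat_lit 234) (nat_lit 304) (nat_lit 0) (XT.nd (nat_lit 78) (nat_lit 228) (nat_lit 0) (XT.lf (nat_lit 0) (nat_lit 206940153046) (nat_lit 228) (nat_lit 422804819471) (nat_lit 76) (nat_lit 110799234794) (nat_lit 23) (nat_lit 5) (nat_lit 26) (nat_lit 5) (nat_lit 24) (nat_lit 4) (nat_lit 344) (nat_lit 327) (nat_lit 229)) (XT.nd (nat_lit 78) (nat_lit 152) (nat_lit 0) (XT.lf (nat_lit 0) (nat_lit 309513590423) (nat_lit 76) (nat_lit 249502781484) (nat_lit 152) (nat_lit 257270807967) (nat_lit 22) (nat_lit 5) (nat_lit 23) (nat_lit 5) (nat_lit 24) (nat_lit 4) (nat_lit 345) (nat_lit 327) (nat_lit 228)) (XT.lf (nat_lit 0) (nat_lit 82089839868) (nat_lit 152) (nat_lit 619290699862) (nat_lit 76) (nat_lit 199926273318) (nat_lit 20) (nat_lit 5) (nat_lit 22) (nat_lit 5) (nat_lit 21) (nat_lit 4) (nat_lit 346) (nat_lit 327) (nat_lit 227)))) (XT.nd (nat_lit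 156) (nat_lit 152) (nat_lit 0) (XT.nd (nat_lit 78) (nat_lit 76) (nat_lit 0) (XT.lf (nat_lit 0) (nat_lit 218441670874) (nat_lit 76) (nat_lit 266404158652) (nat_lit 152) (nat_lit 511481009228) (nat_lit 19) (nat_lit 5) (nat_lit 20) (nat_lit 5) (nat_lit 21) (nat_lit 4) (nat_lit 347) (nat_lit 327) (nat_lit 226)) (XT.lf (nat_lit 0) (nat_lit 114831252212) (nat_lit 76) (nat_lit 860067187895) (nat_lit 76) (nat_lit 128550770443) (nat_lit 18) (nat_lit 4) (nat_lit 19) (nat_lit 5) (nat_lit 19) (nat_lit 4) (nat_lit 348) (nat_lit 327) (nat_lit 225))) (XT.nd (nat_lit 78) (nat_lit 76) (nat_lit 0) (XT.lf (nat_lit 0) (nat_lit 326824062873) (nat_lit 152) (nat_lit 51722428113) (nat_lit 76) (nat_lit 845045226139) (nat_lit 17) (nat_lit 5) (nat_lit 19) (nat_lit 5) (nat_lit 18) (nat_lit 4) (nat_lit 349) (nat_lit 327) (nat_lit 224)) (XT.lf (nat_lit 0) (nat_lit 873965171688) (nat_lit 152) (nat_lit 288402525112) (nat_lit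 0) (nat_lit 196635049174) (nat_lit 16) (nat_lit 5) (nat_lit 18) (nat_lit 4) (nat_lit 16) (nat_lit 4) (nat_lit 350) (nat_lit 327) (nat_lit 223))))) (XT.nd (nat_lit 312) (nat_lit 304) (nat_lit 0) (XT.nd (nat_lit 156) (nat_lit 152) (nat_lit 0) (XT.nd (nat_lit 78) (nat_lit 76) (nat_lit 0) (XT.lf (nat_lit 0) (nat_lit 23156020377) (nat_lit 152) (nat_lit 629165643142) (nat_lit 76) (nat_lit 859695877922) (nat_lit 14) (nat_lit 5) (nat_lit 16) (nat_lit 5) (nat_lit 15) (nat_lit 4) (nat_lit 351) (nat_lit 327) (nat_lit 222)) (XT.lf (nat_lit 0) (nat_lit 575081137405) (nat_lit 76) (nat_lit 27039699295) (nat_lit 152) (nat_lit 1082994903702) (nat_lit 13) (nat_lit 5) (nat_lit 14) (nat_lit 5) (nat_lit 15) (nat_lit 4) (nat_lit 352) (nat_lit 327) (nat_lit 221))) (XT.nd (nat_lit 78) (nat_lit 76) (nat_lit 0) (XT.lf (nat_lit 0) (nat_lit 103405413441) (nat_lit 76) (nat_lit 1202448499118) (nat_lit 76) (nat_lit 575290873694)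 (nat_lit 12) (nat_lit 4) (nat_lit 13) (nat_lit 5) (nat_lit 13) (nat_lit 4) (nat_lit 353) (nat_lit 327) (nat_lit 220)) (XT.lf (nat_lit 0) (nat_lit 42044777456) (nat_lit 152) (nat_lit 539704514502) (nat_lit 76) (nat_lit 1522100037864) (nat_lit 11) (nat_lit 5) (nat_lit 13) (nat_lit 5) (nat_lit 12) (nat_lit 4) (nat_lit 354) (nat_lit 327) (nat_lit 219)))) (XT.nd (nat_lit 156) (nat_lit 228) (nat_lit 0) (XT.nd (nat_lit 78) (nat_lit 0) (nat_lit 0) (XT.lf (nat_lit 0) (nat_lit 745023460167) (nat_lit 152) (nat_lit 1447250269476) (nat_lit 0) (nat_lit 164321909812) (nat_lit 10) (nat_lit 5) (nat_lit 12) (nat_lit 4) (nat_lit 10) (nat_lit 4) (nat_lit 355) (nat_lit 327) (nat_lit 218)) (XT.lf (nat_lit 0) (nat_lit 1585659680965) (nat_lit 152) (nat_lit 54059243449) (nat_lit 0) (nat_lit 1004958112274) (nat_lit 10) (nat_lit 5) (nat_lit 12) (nat_lit 4) (nat_lit 10) (nat_lit 4) (nat_lit 356) (nat_lit 327) (nat_lit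 217))) (XT.nd (nat_lit 78) (nat_lit 152) (nat_lit 0) (XT.lf (nat_lit 0) (nat_lit 1629631088520) (nat_lit 76) (nat_lit 961952865066) (nat_lit 76) (nat_lit 381251280432) (nat_lit 9) (nat_lit 4) (nat_lit 10) (nat_lit 5) (nat_lit 10) (nat_lit 4) (nat_lit 357) (nat_lit 327) (nat_lit 216)) (XT.lf (nat_lit 0) (nat_lit 220468931049) (nat_lit 76) (nat_lit 164709208155) (nat_lit 152) (nat_lit 2963719563659) (nat_lit 7) (nat_lit 5) (nat_lit 8) (nat_lit 5) (nat_lit 9) (nat_lit 4) (nat_lit 358) (nat_lit 327) (nat_lit 215))))))))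
noncomputable def xc51 : XT := (XT.nd (nat_lit 45864) (nat_lit 0) (nat_lit 0) (XT.nd (nat_lit 44694) (nat_lit 0) (nat_lit 1520) (XT.nd (nat_lit 546) (nat_lit 76) (nat_lit 0) (XT.nd (nat_lit 234) (nat_lit 152) (nat_lit 0) (XT.nd (nat_lit 78) (nat_lit 76) (nat_lit 0) (XT.lf (nat_lit 0) (nat_lit 1302849646853) (nat_lit 152) (nat_lit 1707856553896) (nat_lit 0) (nat_lit 765162970414) (nat_lit 7) (nat_lit 5) (nat_lit 9) (nat_lit 4) (nat_lit 7) (nat_lit 4) (nat_lit 359) (nat_lit 327) (nat_lit 214)) (XT.nd (nat_lit 78) (nat_lit 76) (nat_lit 0) (XT.lf (nat_lit 0) (nat_lit 2362727293446) (nat_lit 152) (nat_lit 78754025942) (nat_lit 0) (nat_lit 1825040607301) (nat_lit 7) (nat_lit 5) (nat_lit 9) (nat_lit 4) (nat_lit 7) (nat_lit 4) (nat_lit 360) (nat_lit 327) (nat_lit 213)) (XT.lf (nat_lit 0) (nat_lit 1889220266702) (nat_lit 76) (nat_lit 1737802081277) (nat_lit 76) (nat_lit 1200115386691) (nat_lit 6)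 (nat_lit 4) (nat_lit 7) (nat_lit 5) (nat_lit 7) (nat_lit 4) (nat_lit 361) (nat_lit 327) (nat_lit 212)))) (XT.nd (nat_lit 156) (nat_lit 0) (nat_lit 0) (XT.nd (nat_lit 78) (nat_lit 152) (nat_lit 0) (XT.lf (nat_lit 0) (nat_lit 4157159749560) (nat_lit 76) (nat_lit 926094720725) (nat_lit 76) (nat_lit 388408018800) (nat_lit 6) (nat_lit 4) (nat_lit 7) (nat_lit 5) (nat_lit 7) (nat_lit 4) (nat_lit 362) (nat_lit 327) (nat_lit 211)) (XT.lf (nat_lit 0) (nat_lit 532315443929) (nat_lit 152) (nat_lit 5643882374637) (nat_lit 0) (nat_lit 34457380681) (nat_lit 4) (nat_lit 5) (nat_lit 6) (nat_lit 4) (nat_lit 4) (nat_lit 4) (nat_lit 363) (nat_lit 327) (nat_lit 210))) (XT.nd (nat_lit 78) (nat_lit 0) (nat_lit 0) (XT.lf (nat_lit 0) (nat_lit 1633681056151) (nat_lit 152) (nat_lit 4284943152890) (nat_lit 0) (nat_lit 1135822987765) (nat_lit 4) (nat_lit 5) (nat_lit 6) (nat_lit 4) (nat_lit 4) (nat_lit 4) (nat_lit 364)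 (nat_lit 327) (nat_lit 209)) (XT.lf (nat_lit 0) (nat_lit 2900251489054) (nat_lit 152) (nat_lit 2722163090440) (nat_lit 0) (nat_lit 2402393416200) (nat_lit 4) (nat_lit 5) (nat_lit 6) (nat_lit 4) (nat_lit 4) (nat_lit 4) (nat_lit 365) (nat_lit 327) (nat_lit 208))))) (XT.nd (nat_lit 234) (nat_lit 0) (nat_lit 0) (XT.nd (nat_lit 78) (nat_lit 76) (nat_lit 0) (XT.lf (nat_lit 0) (nat_lit 4356807468498) (nat_lit 152) (nat_lit 924966055632) (nat_lit 0) (nat_lit 3858949391758) (nat_lit 4) (nat_lit 5) (nat_lit 6) (nat_lit 4) (nat_lit 4) (nat_lit 4) (nat_lit 366) (nat_lit 327) (nat_lit 207)) (XT.nd (nat_lit 78) (nat_lit 0) (nat_lit 0) (XT.lf (nat_lit 0) (nat_lit 1201936219801) (nat_lit 76) (nat_lit 4858817204056) (nat_lit 76) (nat_lit 4360959123937) (nat_lit 3) (nat_lit 4) (nat_lit 4) (nat_lit 5) (nat_lit 4) (nat_lit 4) (nat_lit 367) (nat_lit 327) (nat_lit 206)) (XT.lf (nat_lit 0) (nat_lit 3703886941398)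 (nat_lit 76) (nat_lit 4343333707998) (nat_lit 76) (nat_lit 3845475624941) (nat_lit 3) (nat_lit 4) (nat_lit 4) (nat_lit 5) (nat_lit 4) (nat_lit 4) (nat_lit 368) (nat_lit 327) (nat_lit 205)))) (XT.nd (nat_lit 43758) (nat_lit 0) (nat_lit 4408) (XT.nd (nat_lit 43680) (nat_lit 0) (nat_lit 4408) (XT.lf (nat_lit 0) (nat_lit 6581130245620) (nat_lit 76) (nat_lit 3750527700436) (nat_lit 76) (nat_lit 3252669614824) (nat_lit 3) (nat_lit 4) (nat_lit 4) (nat_lit 5) (nat_lit 4) (nat_lit 4) (nat_lit 369) (nat_lit 327) (nat_lit 204)) (XT.lf (nat_lit 0) (nat_lit 86273836662) (nat_lit 532) (nat_lit 7797933973) (nat_lit 532) (nat_lit 7797933973) (nat_lit 61) (nat_lit 3) (nat_lit 68) (nat_lit 3) (nat_lit 68) (nat_lit 5) (nat_lit 328) (nat_lit 328) (nat_lit 244))) (XT.nd (nat_lit 78) (nat_lit 0) (nat_lit 76) (XT.lf (nat_lit 76) (nat_lit 177428917883) (nat_lit 0) (nat_lit 12329648543) (nat_lit 532) (nat_lit 28919709840)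 (nat_lit 62) (nat_lit 5) (nat_lit 61) (nat_lit 3) (nat_lit 68) (nat_lit 5) (nat_lit 329) (nat_lit 328) (nat_lit 243)) (XT.lf (nat_lit 76) (nat_lit 168374847871) (nat_lit 0) (nat_lit 50257091749) (nat_lit 532) (nat_lit 16499566639) (nat_lit 63) (nat_lit 5) (nat_lit 62) (nat_lit 5) (nat_lit 69) (nat_lit 5) (nat_lit 330) (nat_lit 328) (nat_lit 242)))))) (XT.nd (nat_lit 546) (nat_lit 1292) (nat_lit 0) (XT.nd (nat_lit 234) (nat_lit 912) (nat_lit 0) (XT.nd (nat_lit 78) (nat_lit 304) (nat_lit 0) (XT.lf (nat_lit 0) (nat_lit 7367018153) (nat_lit 532) (nat_lit 91553062951) (nat_lit 608) (nat_lit 154379100733) (nat_lit 56) (nat_lit 5) (nat_lit 63) (nat_lit 5) (nat_lit 64) (nat_lit 5) (nat_lit 331) (nat_lit 328) (nat_lit 241)) (XT.nd (nat_lit 78) (nat_lit 380) (nat_lit 0) (XT.lf (nat_lit 0) (nat_lit 43987565065) (nat_lit 532) (nat_lit 115780421468) (nat_lit 76) (nat_lit 113577663181) (nat_lit 57) (nat_lit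 5) (nat_lit 64) (nat_lit 5) (nat_lit 58) (nat_lit 5) (nat_lit 332) (nat_lit 328) (nat_lit 240)) (XT.lf (nat_lit 0) (nat_lit 96902980571) (nat_lit 456) (nat_lit 138640516908) (nat_lit 76) (nat_lit 59991447719) (nat_lit 52) (nat_lit 5) (nat_lit 58) (nat_lit 5) (nat_lit 53) (nat_lit 5) (nat_lit 333) (nat_lit 328) (nat_lit 239)))) (XT.nd (nat_lit 156) (nat_lit 456) (nat_lit 0) (XT.nd (nat_lit 78) (nat_lit 228) (nat_lit 0) (XT.lf (nat_lit 0) (nat_lit 160206361770) (nat_lit 228) (nat_lit 9279179625) (nat_lit 304) (nat_lit 150628707274) (nat_lit 49) (nat_lit 5) (nat_lit 52) (nat_lit 5) (nat_lit 53) (nat_lit 5) (nat_lit 334) (nat_lit 328) (nat_lit 238)) (XT.lf (nat_lit 0) (nat_lit 166402618506) (nat_lit 228) (nat_lit 100730545948) (nat_lit 304) (nat_lit 80113069224) (nat_lit 46) (nat_lit 5) (nat_lit 49) (nat_lit 5) (nat_lit 50) (nat_lit 5) (nat_lit 335) (nat_lit 328) (nat_lit 237))) (XT.nd (nat_lit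 78) (nat_lit 228) (nat_lit 0) (XT.lf (nat_lit 0) (nat_lit 14467799773) (nat_lit 228) (nat_lit 199852006667) (nat_lit 76) (nat_lit 163043372492) (nat_lit 43) (nat_lit 5) (nat_lit 46) (nat_lit 5) (nat_lit 44) (nat_lit 5) (nat_lit 336) (nat_lit 328) (nat_lit 236)) (XT.lf (nat_lit 0) (nat_lit 132961934383) (nat_lit 304) (nat_lit 218748942411) (nat_lit 76) (nat_lit 58962742813) (nat_lit 40) (nat_lit 5) (nat_lit 44) (nat_lit 5) (nat_lit 41) (nat_lit 5) (nat_lit 337) (nat_lit 328) (nat_lit 235))))) (XT.nd (nat_lit 312) (nat_lit 608) (nat_lit 0) (XT.nd (nat_lit 156) (nat_lit 380) (nat_lit 0) (XT.nd (nat_lit 78) (nat_lit 152) (nat_lit 0) (XT.lf (nat_lit 0) (nat_lit 210506574269) (nat_lit 152) (nat_lit 75683264759) (nat_lit 228) (nat_lit 161434015529) (nat_lit 38) (nat_lit 5) (nat_lit 40) (nat_lit 5) (nat_lit 41) (nat_lit 5) (nat_lit 338) (nat_lit 328) (nat_lit 234)) (XT.lf (nat_lit 0) (nat_lit 233490451253)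 (nat_lit 152) (nat_lit 246874863829) (nat_lit 228) (nat_lit 8314238952) (nat_lit 36) (nat_lit 5) (nat_lit 38) (nat_lit 5) (nat_lit 39) (nat_lit 5) (nat_lit 339) (nat_lit 328) (nat_lit 233))) (XT.nd (nat_lit 78) (nat_lit 152) (nat_lit 0) (XT.lf (nat_lit 0) (nat_lit 176878691270) (nat_lit 228) (nat_lit 275967551949) (nat_lit 76) (nat_lit 81324736995) (nat_lit 33) (nat_lit 5) (nat_lit 36) (nat_lit 5) (nat_lit 34) (nat_lit 5) (nat_lit 340) (nat_lit 328) (nat_lit 232)) (XT.lf (nat_lit 0) (nat_lit 285181369779) (nat_lit 152) (nat_lit 125499837685) (nat_lit 228) (nat_lit 174081801241) (nat_lit 31) (nat_lit 5) (nat_lit 33) (nat_lit 5) (nat_lit 34) (nat_lit 5) (nat_lit 341) (nat_lit 328) (nat_lit 231)))) (XT.nd (nat_lit 156) (nat_lit 304) (nat_lit 0) (XT.nd (nat_lit 78) (nat_lit 152) (nat_lit 0) (XT.lf (nat_lit 0) (nat_lit 57185734594) (nat_lit 152) (nat_lit 328247961920) (nat_lit 76) (nat_lit 255647157351)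 (nat_lit 29) (nat_lit 5) (nat_lit 31) (nat_lit 5) (nat_lit 30) (nat_lit 5) (nat_lit 342) (nat_lit 328) (nat_lit 230)) (XT.lf (nat_lit 0) (nat_lit 333806113263) (nat_lit 228) (nat_lit 365407939637) (nat_lit 76) (nat_lit 4592970734) (nat_lit 27) (nat_lit 5) (nat_lit 30) (nat_lit 5) (nat_lit 28) (nat_lit 4) (nat_lit 343) (nat_lit 328) (nat_lit 229))) (XT.nd (nat_lit 78) (nat_lit 228) (nat_lit 0) (XT.lf (nat_lit 0) (nat_lit 356677156574) (nat_lit 76) (nat_lit 324285318022) (nat_lit 152) (nat_lit 92656210260) (nat_lit 26) (nat_lit 5) (nat_lit 27) (nat_lit 5) (nat_lit 28) (nat_lit 4) (nat_lit 344) (nat_lit 328) (nat_lit 228)) (XT.lf (nat_lit 0) (nat_lit 237982462834) (nat_lit 228) (nat_lit 486223244245) (nat_lit 76) (nat_lit 127420027864) (nat_lit 23) (nat_lit 5) (nat_lit 26) (nat_lit 5) (nat_lit 24) (nat_lit 4) (nat_lit 345) (nat_lit 328) (nat_lit 227))))))) (XT.nd (nat_lit 1092) (nat_lit 304)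 (nat_lit 0) (XT.nd (nat_lit 546) (nat_lit 532) (nat_lit 0) (XT.nd (nat_lit 234) (nat_lit 380) (nat_lit 0) (XT.nd (nat_lit 78) (nat_lit 228) (nat_lit 0) (XT.lf (nat_lit 0) (nat_lit 355942732606) (nat_lit 76) (nat_lit 286927264662) (nat_lit 152) (nat_lit 295860165570) (nat_lit 22) (nat_lit 5) (nat_lit 23) (nat_lit 5) (nat_lit 24) (nat_lit 4) (nat_lit 346) (nat_lit 328) (nat_lit 226)) (XT.nd (nat_lit 78) (nat_lit 76) (nat_lit 0) (XT.lf (nat_lit 0) (nat_lit 94404428829) (nat_lit 152) (nat_lit 712182254815) (nat_lit 76) (nat_lit 229916061960) (nat_lit 20) (nat_lit 5) (nat_lit 22) (nat_lit 5) (nat_lit 21) (nat_lit 4) (nat_lit 347) (nat_lit 328) (nat_lit 225)) (XT.lf (nat_lit 0) (nat_lit 251209798007) (nat_lit 76) (nat_lit 306363918887) (nat_lit 152) (nat_lit 588202066322) (nat_lit 19) (nat_lit 5) (nat_lit 20) (nat_lit 5) (nat_lit 21) (nat_lit 4) (nat_lit 348) (nat_lit 328) (nat_lit 224)))) (XT.nd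 (nat_lit 156) (nat_lit 228) (nat_lit 0) (XT.nd (nat_lit 78) (nat_lit 76) (nat_lit 0) (XT.lf (nat_lit 0) (nat_lit 132057713163) (nat_lit 76) (nat_lit 989076434480) (nat_lit 76) (nat_lit 147832368894) (nat_lit 18) (nat_lit 4) (nat_lit 19) (nat_lit 5) (nat_lit 19) (nat_lit 4) (nat_lit 349) (nat_lit 328) (nat_lit 223)) (XT.lf (nat_lit 0) (nat_lit 375848512509) (nat_lit 152) (nat_lit 59479206022) (nat_lit 76) (nat_lit 971802688725) (nat_lit 17) (nat_lit 5) (nat_lit 19) (nat_lit 5) (nat_lit 18) (nat_lit 4) (nat_lit 350) (nat_lit 328) (nat_lit 222))) (XT.nd (nat_lit 78) (nat_lit 152) (nat_lit 0) (XT.lf (nat_lit 0) (nat_lit 1005060729486) (nat_lit 152) (nat_lit 331661406919) (nat_lit 0) (nat_lit 226130958709) (nat_lit 16) (nat_lit 5) (nat_lit 18) (nat_lit 4) (nat_lit 16) (nat_lit 4) (nat_lit 351) (nat_lit 328) (nat_lit 221)) (XT.lf (nat_lit 0) (nat_lit 26630155105) (nat_lit 152) (nat_lit 723539080681)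 (nat_lit 76) (nat_lit 988650878183) (nat_lit 14) (nat_lit 5) (nat_lit 16) (nat_lit 5) (nat_lit 15) (nat_lit 4) (nat_lit 352) (nat_lit 328) (nat_lit 220))))) (XT.nd (nat_lit 234) (nat_lit 304) (nat_lit 0) (XT.nd (nat_lit 78) (nat_lit 152) (nat_lit 0) (XT.lf (nat_lit 0) (nat_lit 661344597689) (nat_lit 76) (nat_lit 31095031769) (nat_lit 152) (nat_lit 1245443418490) (nat_lit 13) (nat_lit 5) (nat_lit 14) (nat_lit 5) (nat_lit 15) (nat_lit 4) (nat_lit 353) (nat_lit 328) (nat_lit 219)) (XT.nd (nat_lit 78) (nat_lit 76) (nat_lit 0) (XT.lf (nat_lit 0) (nat_lit 118917441250) (nat_lit 76) (nat_lit 1382815180670) (nat_lit 76) (nat_lit 661583832357) (nat_lit 12) (nat_lit 4) (nat_lit 13) (nat_lit 5) (nat_lit 13) (nat_lit 4) (nat_lit 354) (nat_lit 328) (nat_lit 218)) (XT.lf (nat_lit 0) (nat_lit 48352049514) (nat_lit 152) (nat_lit 620659105125) (nat_lit 76) (nat_lit 1750415530127) (nat_lit 11) (nat_lit 5)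 (nat_lit 13) (nat_lit 5) (nat_lit 12) (nat_lit 4) (nat_lit 355) (nat_lit 328) (nat_lit 217)))) (XT.nd (nat_lit 156) (nat_lit 228) (nat_lit 0) (XT.nd (nat_lit 78) (nat_lit 0) (nat_lit 0) (XT.lf (nat_lit 0) (nat_lit 856777497832) (nat_lit 152) (nat_lit 1664336786410) (nat_lit 0) (nat_lit 188970659559) (nat_lit 10) (nat_lit 5) (nat_lit 12) (nat_lit 4) (nat_lit 10) (nat_lit 4) (nat_lit 356) (nat_lit 328) (nat_lit 216)) (XT.lf (nat_lit 0) (nat_lit 1823509084100) (nat_lit 152) (nat_lit 62167239977) (nat_lit 0) (nat_lit 1155702231964) (nat_lit 10) (nat_lit 5) (nat_lit 12) (nat_lit 4) (nat_lit 10) (nat_lit 4) (nat_lit 357) (nat_lit 328) (nat_lit 215))) (XT.nd (nat_lit 78) (nat_lit 152) (nat_lit 0) (XT.lf (nat_lit 0) (nat_lit 1874076566454) (nat_lit 76) (nat_lit 1106245391927) (nat_lit 76) (nat_lit 438438527735) (nat_lit 9) (nat_lit 4) (nat_lit 10) (nat_lit 5) (nat_lit 10) (nat_lit 4) (nat_lit 358)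 (nat_lit 328) (nat_lit 214)) (XT.lf (nat_lit 0) (nat_lit 253540036825) (nat_lit 76) (nat_lit 189415209088) (nat_lit 152) (nat_lit 3408277081465) (nat_lit 7) (nat_lit 5) (nat_lit 8) (nat_lit 5) (nat_lit 9) (nat_lit 4) (nat_lit 359) (nat_lit 328) (nat_lit 213)))))) (XT.nd (nat_lit 546) (nat_lit 76) (nat_lit 0) (XT.nd (nat_lit 234) (nat_lit 152) (nat_lit 0) (XT.nd (nat_lit 78) (nat_lit 76) (nat_lit 0) (XT.lf (nat_lit 0) (nat_lit 1498277437336) (nat_lit 152) (nat_lit 1964034351860) (nat_lit 0) (nat_lit 879937730122) (nat_lit 7) (nat_lit 5) (nat_lit 9) (nat_lit 4) (nat_lit 7) (nat_lit 4) (nat_lit 360) (nat_lit 328) (nat_lit 212)) (XT.nd (nat_lit 78) (nat_lit 76) (nat_lit 0) (XT.lf (nat_lit 0) (nat_lit 2717136686119) (nat_lit 152) (nat_lit 90566534077) (nat_lit 0) (nat_lit 2098796971566) (nat_lit 7) (nat_lit 5) (nat_lit 9) (nat_lit 4) (nat_lit 7) (nat_lit 4) (nat_lit 361) (nat_lit 328) (nat_lit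 211)) (XT.lf (nat_lit 0) (nat_lit 2172603852036) (nat_lit 76) (nat_lit 1998472120956) (nat_lit 76) (nat_lit 1380132400020) (nat_lit 6) (nat_lit 4) (nat_lit 7) (nat_lit 5) (nat_lit 7) (nat_lit 4) (nat_lit 362) (nat_lit 328) (nat_lit 210)))) (XT.nd (nat_lit 156) (nat_lit 0) (nat_lit 0) (XT.nd (nat_lit 78) (nat_lit 152) (nat_lit 0) (XT.lf (nat_lit 0) (nat_lit 4780734186193) (nat_lit 76) (nat_lit 1065008691867) (nat_lit 76) (nat_lit 446668965382) (nat_lit 6) (nat_lit 4) (nat_lit 7) (nat_lit 5) (nat_lit 7) (nat_lit 4) (nat_lit 363) (nat_lit 328) (nat_lit 209)) (XT.lf (nat_lit 0) (nat_lit 612162988283) (nat_lit 152) (nat_lit 6490464272574) (nat_lit 0) (nat_lit 39626200032) (nat_lit 4) (nat_lit 5) (nat_lit 6) (nat_lit 4) (nat_lit 4) (nat_lit 4) (nat_lit 364) (nat_lit 328) (nat_lit 208))) (XT.nd (nat_lit 78) (nat_lit 0) (nat_lit 0) (XT.lf (nat_lit 0) (nat_lit 1878733412631) (nat_lit 152) (nat_lit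 4927684227338) (nat_lit 0) (nat_lit 1306196620494) (nat_lit 4) (nat_lit 5) (nat_lit 6) (nat_lit 4) (nat_lit 4) (nat_lit 4) (nat_lit 365) (nat_lit 328) (nat_lit 207)) (XT.lf (nat_lit 0) (nat_lit 3335289384636) (nat_lit 152) (nat_lit 3130487207497) (nat_lit 0) (nat_lit 2762752589120) (nat_lit 4) (nat_lit 5) (nat_lit 6) (nat_lit 4) (nat_lit 4) (nat_lit 4) (nat_lit 366) (nat_lit 328) (nat_lit 206))))) (XT.nd (nat_lit 43992) (nat_lit 0) (nat_lit 4028) (XT.nd (nat_lit 156) (nat_lit 0) (nat_lit 0) (XT.nd (nat_lit 78) (nat_lit 76) (nat_lit 0) (XT.lf (nat_lit 0) (nat_lit 5010328738533) (nat_lit 152) (nat_lit 1063710662664) (nat_lit 0) (nat_lit 4437791940079) (nat_lit 4) (nat_lit 5) (nat_lit 6) (nat_lit 4) (nat_lit 4) (nat_lit 4) (nat_lit 367) (nat_lit 328) (nat_lit 205)) (XT.lf (nat_lit 0) (nat_lit 1382226928579) (nat_lit 76) (nat_lit 5587639645716) (nat_lit 76) (nat_lit 5015102844707) (nat_lit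 3) (nat_lit 4) (nat_lit 4) (nat_lit 5) (nat_lit 4) (nat_lit 4) (nat_lit 368) (nat_lit 328) (nat_lit 204))) (XT.nd (nat_lit 43758) (nat_lit 0) (nat_lit 4408) (XT.lf (nat_lit 0) (nat_lit 4259470222441) (nat_lit 76) (nat_lit 4994833643372) (nat_lit 76) (nat_lit 4422296840142) (nat_lit 3) (nat_lit 4) (nat_lit 4) (nat_lit 5) (nat_lit 4) (nat_lit 4) (nat_lit 369) (nat_lit 328) (nat_lit 203)) (XT.lf (nat_lit 0) (nat_lit 99217450380) (nat_lit 532) (nat_lit 8966251881) (nat_lit 532) (nat_lit 8966251881) (nat_lit 61) (nat_lit 3) (nat_lit 68) (nat_lit 3) (nat_lit 68) (nat_lit 5) (nat_lit 329) (nat_lit 329) (nat_lit 242)))) (XT.nd (nat_lit 156) (nat_lit 380) (nat_lit 0) (XT.nd (nat_lit 78) (nat_lit 0) (nat_lit 76) (XT.lf (nat_lit 76) (nat_lit 204045767644) (nat_lit 0) (nat_lit 14181058455) (nat_lit 532) (nat_lit 33252828238) (nat_lit 62) (nat_lit 5) (nat_lit 61) (nat_lit 3) (nat_lit 68) (nat_lit 5)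 (nat_lit 330) (nat_lit 329) (nat_lit 241)) (XT.lf (nat_lit 76) (nat_lit 193633750313) (nat_lit 0) (nat_lit 57796894597) (nat_lit 532) (nat_lit 18970269451) (nat_lit 63) (nat_lit 5) (nat_lit 62) (nat_lit 5) (nat_lit 69) (nat_lit 5) (nat_lit 331) (nat_lit 329) (nat_lit 240))) (XT.nd (nat_lit 78) (nat_lit 0) (nat_lit 76) (XT.lf (nat_lit 0) (nat_lit 8475608628) (nat_lit 532) (nat_lit 105283065303) (nat_lit 608) (nat_lit 177535098386) (nat_lit 56) (nat_lit 5) (nat_lit 63) (nat_lit 5) (nat_lit 64) (nat_lit 5) (nat_lit 332) (nat_lit 329) (nat_lit 239)) (XT.lf (nat_lit 0) (nat_lit 50588830777) (nat_lit 532) (nat_lit 133144512852) (nat_lit 76) (nat_lit 130613899783) (nat_lit 57) (nat_lit 5) (nat_lit 64) (nat_lit 5) (nat_lit 58) (nat_lit 5) (nat_lit 333) (nat_lit 329) (nat_lit 238))))))))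
noncomputable def xc52 : XT := (XT.nd (nat_lit 2184) (nat_lit 228) (nat_lit 0) (XT.nd (nat_lit 1092) (nat_lit 1140) (nat_lit 0) (XT.nd (nat_lit 546) (nat_lit 1064) (nat_lit 0) (XT.nd (nat_lit 234) (nat_lit 760) (nat_lit 0) (XT.nd (nat_lit 78) (nat_lit 456) (nat_lit 0) (XT.lf (nat_lit 0) (nat_lit 111441214018) (nat_lit 456) (nat_lit 159433646638) (nat_lit 76) (nat_lit 68990100558) (nat_lit 52) (nat_lit 5) (nat_lit 58) (nat_lit 5) (nat_lit 53) (nat_lit 5) (nat_lit 334) (nat_lit 329) (nat_lit 237)) (XT.nd (nat_lit 78) (nat_lit 228) (nat_lit 0) (XT.lf (nat_lit 0) (nat_lit 184240014325) (nat_lit 228) (nat_lit 10670846097) (nat_lit 304) (nat_lit 173220324041) (nat_lit 49) (nat_lit 5) (nat_lit 52) (nat_lit 5) (nat_lit 53) (nat_lit 5) (nat_lit 335) (nat_lit 329) (nat_lit 236)) (XT.lf (nat_lit 0) (nat_lit 191365660992) (nat_lit 228) (nat_lit 115839709576) (nat_lit 304) (nat_lit 92127617488) (nat_lit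 46) (nat_lit 5) (nat_lit 49) (nat_lit 5) (nat_lit 50) (nat_lit 5) (nat_lit 336) (nat_lit 329) (nat_lit 235)))) (XT.nd (nat_lit 156) (nat_lit 304) (nat_lit 0) (XT.nd (nat_lit 78) (nat_lit 228) (nat_lit 0) (XT.lf (nat_lit 0) (nat_lit 16640034984) (nat_lit 228) (nat_lit 229827115579) (nat_lit 76) (nat_lit 187500338251) (nat_lit 43) (nat_lit 5) (nat_lit 46) (nat_lit 5) (nat_lit 44) (nat_lit 5) (nat_lit 337) (nat_lit 329) (nat_lit 234)) (XT.lf (nat_lit 0) (nat_lit 152908094320) (nat_lit 304) (nat_lit 251558684283) (nat_lit 76) (nat_lit 67807732852) (nat_lit 40) (nat_lit 5) (nat_lit 44) (nat_lit 5) (nat_lit 41) (nat_lit 5) (nat_lit 338) (nat_lit 329) (nat_lit 233))) (XT.nd (nat_lit 78) (nat_lit 152) (nat_lit 0) (XT.lf (nat_lit 0) (nat_lit 242084939865) (nat_lit 152) (nat_lit 87035058138) (nat_lit 228) (nat_lit 185647298774) (nat_lit 38) (nat_lit 5) (nat_lit 40) (nat_lit 5) (nat_lit 41) (nat_lit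 5) (nat_lit 339) (nat_lit 329) (nat_lit 232)) (XT.lf (nat_lit 0) (nat_lit 268516306114) (nat_lit 152) (nat_lit 283905339383) (nat_lit 228) (nat_lit 9559717848) (nat_lit 36) (nat_lit 5) (nat_lit 38) (nat_lit 5) (nat_lit 39) (nat_lit 5) (nat_lit 340) (nat_lit 329) (nat_lit 231))))) (XT.nd (nat_lit 234) (nat_lit 532) (nat_lit 0) (XT.nd (nat_lit 78) (nat_lit 304) (nat_lit 0) (XT.lf (nat_lit 0) (nat_lit 203411933931) (nat_lit 228) (nat_lit 317360417756) (nat_lit 76) (nat_lit 93524159521) (nat_lit 33) (nat_lit 5) (nat_lit 36) (nat_lit 5) (nat_lit 34) (nat_lit 5) (nat_lit 341) (nat_lit 329) (nat_lit 230)) (XT.nd (nat_lit 78) (nat_lit 152) (nat_lit 0) (XT.lf (nat_lit 0) (nat_lit 327960650342) (nat_lit 152) (nat_lit 144324039427) (nat_lit 228) (nat_lit 200192665347) (nat_lit 31) (nat_lit 5) (nat_lit 33) (nat_lit 5) (nat_lit 34) (nat_lit 5) (nat_lit 342) (nat_lit 329) (nat_lit 229)) (XT.lf (nat_lit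 0) (nat_lit 65764821720) (nat_lit 152) (nat_lit 377483112528) (nat_lit 76) (nat_lit 293994948899) (nat_lit 29) (nat_lit 5) (nat_lit 31) (nat_lit 5) (nat_lit 30) (nat_lit 5) (nat_lit 343) (nat_lit 329) (nat_lit 228)))) (XT.nd (nat_lit 156) (nat_lit 304) (nat_lit 0) (XT.nd (nat_lit 78) (nat_lit 76) (nat_lit 0) (XT.lf (nat_lit 0) (nat_lit 383878160394) (nat_lit 228) (nat_lit 420217188626) (nat_lit 76) (nat_lit 5282637187) (nat_lit 27) (nat_lit 5) (nat_lit 30) (nat_lit 5) (nat_lit 28) (nat_lit 4) (nat_lit 344) (nat_lit 329) (nat_lit 227)) (XT.lf (nat_lit 0) (nat_lit 410180507639) (nat_lit 76) (nat_lit 372927363629) (nat_lit 152) (nat_lit 106553533791) (nat_lit 26) (nat_lit 5) (nat_lit 27) (nat_lit 5) (nat_lit 28) (nat_lit 4) (nat_lit 345) (nat_lit 329) (nat_lit 226))) (XT.nd (nat_lit 78) (nat_lit 76) (nat_lit 0) (XT.lf (nat_lit 0) (nat_lit 273680805288) (nat_lit 228) (nat_lit 559154993152)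 (nat_lit 76) (nat_lit 146533718509) (nat_lit 23) (nat_lit 5) (nat_lit 26) (nat_lit 5) (nat_lit 24) (nat_lit 4) (nat_lit 346) (nat_lit 329) (nat_lit 225)) (XT.lf (nat_lit 0) (nat_lit 409335733136) (nat_lit 76) (nat_lit 329965648089) (nat_lit 152) (nat_lit 340238234948) (nat_lit 22) (nat_lit 5) (nat_lit 23) (nat_lit 5) (nat_lit 24) (nat_lit 4) (nat_lit 347) (nat_lit 329) (nat_lit 224)))))) (XT.nd (nat_lit 546) (nat_lit 456) (nat_lit 0) (XT.nd (nat_lit 234) (nat_lit 380) (nat_lit 0) (XT.nd (nat_lit 78) (nat_lit 152) (nat_lit 0) (XT.lf (nat_lit 0) (nat_lit 108565934726) (nat_lit 152) (nat_lit 819008042923) (nat_lit 76) (nat_lit 264404112196) (nat_lit 20) (nat_lit 5) (nat_lit 22) (nat_lit 5) (nat_lit 21) (nat_lit 4) (nat_lit 348) (nat_lit 329) (nat_lit 223)) (XT.nd (nat_lit 78) (nat_lit 76) (nat_lit 0) (XT.lf (nat_lit 0) (nat_lit 288892686613) (nat_lit 76) (nat_lit 352317853743) (nat_lit 152)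 (nat_lit 676431548830) (nat_lit 19) (nat_lit 5) (nat_lit 20) (nat_lit 5) (nat_lit 21) (nat_lit 4) (nat_lit 349) (nat_lit 329) (nat_lit 222)) (XT.lf (nat_lit 0) (nat_lit 151867710870) (nat_lit 76) (nat_lit 1137437270843) (nat_lit 76) (nat_lit 170006455142) (nat_lit 18) (nat_lit 4) (nat_lit 19) (nat_lit 5) (nat_lit 19) (nat_lit 4) (nat_lit 350) (nat_lit 329) (nat_lit 221)))) (XT.nd (nat_lit 156) (nat_lit 228) (nat_lit 0) (XT.nd (nat_lit 78) (nat_lit 76) (nat_lit 0) (XT.lf (nat_lit 0) (nat_lit 432226424701) (nat_lit 152) (nat_lit 68399887449) (nat_lit 76) (nat_lit 1117573605202) (nat_lit 17) (nat_lit 5) (nat_lit 19) (nat_lit 5) (nat_lit 18) (nat_lit 4) (nat_lit 351) (nat_lit 329) (nat_lit 220)) (XT.lf (nat_lit 0) (nat_lit 1155820430247) (nat_lit 152) (nat_lit 381409486041) (nat_lit 0) (nat_lit 260051095642) (nat_lit 16) (nat_lit 5) (nat_lit 18) (nat_lit 4) (nat_lit 16) (nat_lit 4) (nat_lit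 352) (nat_lit 329) (nat_lit 219))) (XT.nd (nat_lit 78) (nat_lit 76) (nat_lit 0) (XT.lf (nat_lit 0) (nat_lit 30625231620) (nat_lit 152) (nat_lit 832068877428) (nat_lit 76) (nat_lit 1136948977640) (nat_lit 14) (nat_lit 5) (nat_lit 16) (nat_lit 5) (nat_lit 15) (nat_lit 4) (nat_lit 353) (nat_lit 329) (nat_lit 218)) (XT.lf (nat_lit 0) (nat_lit 760547262521) (nat_lit 76) (nat_lit 35758815895) (nat_lit 152) (nat_lit 1432259386259) (nat_lit 13) (nat_lit 5) (nat_lit 14) (nat_lit 5) (nat_lit 15) (nat_lit 4) (nat_lit 354) (nat_lit 329) (nat_lit 217))))) (XT.nd (nat_lit 234) (nat_lit 228) (nat_lit 0) (XT.nd (nat_lit 78) (nat_lit 152) (nat_lit 0) (XT.lf (nat_lit 0) (nat_lit 136755976751) (nat_lit 76) (nat_lit 1590237009139) (nat_lit 76) (nat_lit 760820898786) (nat_lit 12) (nat_lit 4) (nat_lit 13) (nat_lit 5) (nat_lit 13) (nat_lit 4) (nat_lit 355) (nat_lit 329) (nat_lit 216)) (XT.nd (nat_lit 78) (nat_lit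 76) (nat_lit 0) (XT.lf (nat_lit 0) (nat_lit 55605276934) (nat_lit 152) (nat_lit 713757149303) (nat_lit 76) (nat_lit 2012978227574) (nat_lit 11) (nat_lit 5) (nat_lit 13) (nat_lit 5) (nat_lit 12) (nat_lit 4) (nat_lit 356) (nat_lit 329) (nat_lit 215)) (XT.lf (nat_lit 0) (nat_lit 985294514672) (nat_lit 152) (nat_lit 1913986530467) (nat_lit 0) (nat_lit 217316608796) (nat_lit 10) (nat_lit 5) (nat_lit 12) (nat_lit 4) (nat_lit 10) (nat_lit 4) (nat_lit 357) (nat_lit 329) (nat_lit 214)))) (XT.nd (nat_lit 156) (nat_lit 152) (nat_lit 0) (XT.nd (nat_lit 78) (nat_lit 76) (nat_lit 0) (XT.lf (nat_lit 0) (nat_lit 2097035787729) (nat_lit 152) (nat_lit 71491653014) (nat_lit 0) (nat_lit 1329057871370) (nat_lit 10) (nat_lit 5) (nat_lit 12) (nat_lit 4) (nat_lit 10) (nat_lit 4) (nat_lit 358) (nat_lit 329) (nat_lit 213)) (XT.lf (nat_lit 0) (nat_lit 2155188667420) (nat_lit 76) (nat_lit 1272181896068) (nat_lit 76)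 (nat_lit 504203970592) (nat_lit 9) (nat_lit 4) (nat_lit 10) (nat_lit 5) (nat_lit 10) (nat_lit 4) (nat_lit 359) (nat_lit 329) (nat_lit 212))) (XT.nd (nat_lit 78) (nat_lit 0) (nat_lit 0) (XT.lf (nat_lit 0) (nat_lit 291571621644) (nat_lit 76) (nat_lit 217827202897) (nat_lit 152) (nat_lit 3919518328567) (nat_lit 7) (nat_lit 5) (nat_lit 8) (nat_lit 5) (nat_lit 9) (nat_lit 4) (nat_lit 360) (nat_lit 329) (nat_lit 211)) (XT.lf (nat_lit 0) (nat_lit 1723019312637) (nat_lit 152) (nat_lit 2258638986590) (nat_lit 0) (nat_lit 1011928627179) (nat_lit 7) (nat_lit 5) (nat_lit 9) (nat_lit 4) (nat_lit 7) (nat_lit 4) (nat_lit 361) (nat_lit 329) (nat_lit 210))))))) (XT.nd (nat_lit 44928) (nat_lit 0) (nat_lit 1064) (XT.nd (nat_lit 44382) (nat_lit 0) (nat_lit 3420) (XT.nd (nat_lit 234) (nat_lit 152) (nat_lit 0) (XT.nd (nat_lit 78) (nat_lit 76) (nat_lit 0) (XT.lf (nat_lit 0) (nat_lit 3124707414864) (nat_lit 152)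 (nat_lit 104151063711) (nat_lit 0) (nat_lit 2413616723856) (nat_lit 7) (nat_lit 5) (nat_lit 9) (nat_lit 4) (nat_lit 7) (nat_lit 4) (nat_lit 362) (nat_lit 329) (nat_lit 209)) (XT.nd (nat_lit 78) (nat_lit 0) (nat_lit 0) (XT.lf (nat_lit 0) (nat_lit 2498494842189) (nat_lit 76) (nat_lit 2298242733041) (nat_lit 76) (nat_lit 1587152037207) (nat_lit 6) (nat_lit 4) (nat_lit 7) (nat_lit 5) (nat_lit 7) (nat_lit 4) (nat_lit 363) (nat_lit 329) (nat_lit 208)) (XT.lf (nat_lit 0) (nat_lit 5497844672685) (nat_lit 76) (nat_lit 1224759816466) (nat_lit 76) (nat_lit 513669116436) (nat_lit 6) (nat_lit 4) (nat_lit 7) (nat_lit 5) (nat_lit 7) (nat_lit 4) (nat_lit 364) (nat_lit 329) (nat_lit 207)))) (XT.nd (nat_lit 156) (nat_lit 0) (nat_lit 0) (XT.nd (nat_lit 78) (nat_lit 0) (nat_lit 0) (XT.lf (nat_lit 0) (nat_lit 703987608749) (nat_lit 152) (nat_lit 7464033566951) (nat_lit 0) (nat_lit 45570290528) (nat_lit 4) (nat_lit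 5) (nat_lit 6) (nat_lit 4) (nat_lit 4) (nat_lit 4) (nat_lit 365) (nat_lit 329) (nat_lit 206)) (XT.lf (nat_lit 0) (nat_lit 2160543574285) (nat_lit 152) (nat_lit 5666836560126) (nat_lit 0) (nat_lit 1502126253125) (nat_lit 4) (nat_lit 5) (nat_lit 6) (nat_lit 4) (nat_lit 4) (nat_lit 4) (nat_lit 366) (nat_lit 329) (nat_lit 205))) (XT.nd (nat_lit 78) (nat_lit 0) (nat_lit 0) (XT.lf (nat_lit 0) (nat_lit 3835582922557) (nat_lit 152) (nat_lit 3600060026611) (nat_lit 0) (nat_lit 3177165598842) (nat_lit 4) (nat_lit 5) (nat_lit 6) (nat_lit 4) (nat_lit 4) (nat_lit 4) (nat_lit 367) (nat_lit 329) (nat_lit 204)) (XT.lf (nat_lit 0) (nat_lit 5761878162552) (nat_lit 152) (nat_lit 1223267034228) (nat_lit 0) (nat_lit 5103460836616) (nat_lit 4) (nat_lit 5) (nat_lit 6) (nat_lit 4) (nat_lit 4) (nat_lit 4) (nat_lit 368) (nat_lit 329) (nat_lit 203))))) (XT.nd (nat_lit 234) (nat_lit 912) (nat_lit 0) (XT.nd (nat_lit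 78) (nat_lit 0) (nat_lit 0) (XT.lf (nat_lit 0) (nat_lit 114101987195) (nat_lit 532) (nat_lit 10310152091) (nat_lit 532) (nat_lit 10310152091) (nat_lit 61) (nat_lit 3) (nat_lit 68) (nat_lit 3) (nat_lit 68) (nat_lit 5) (nat_lit 330) (nat_lit 330) (nat_lit 240)) (XT.nd (nat_lit 78) (nat_lit 0) (nat_lit 76) (XT.lf (nat_lit 76) (nat_lit 234654532283) (nat_lit 0) (nat_lit 16309701254) (nat_lit 532) (nat_lit 38237094192) (nat_lit 62) (nat_lit 5) (nat_lit 61) (nat_lit 3) (nat_lit 68) (nat_lit 5) (nat_lit 331) (nat_lit 330) (nat_lit 239)) (XT.lf (nat_lit 76) (nat_lit 222680835741) (nat_lit 0) (nat_lit 66467365713) (nat_lit 532) (nat_lit 21812609730) (nat_lit 63) (nat_lit 5) (nat_lit 62) (nat_lit 5) (nat_lit 69) (nat_lit 5) (nat_lit 332) (nat_lit 330) (nat_lit 238)))) (XT.nd (nat_lit 156) (nat_lit 532) (nat_lit 0) (XT.nd (nat_lit 78) (nat_lit 0) (nat_lit 76) (XT.lf (nat_lit 0) (nat_lit 9749624972)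 (nat_lit 532) (nat_lit 121073289113) (nat_lit 608) (nat_lit 204164707223) (nat_lit 56) (nat_lit 5) (nat_lit 63) (nat_lit 5) (nat_lit 64) (nat_lit 5) (nat_lit 333) (nat_lit 330) (nat_lit 237)) (XT.lf (nat_lit 0) (nat_lit 58179522843) (nat_lit 532) (nat_lit 153113942646) (nat_lit 76) (nat_lit 150205672558) (nat_lit 57) (nat_lit 5) (nat_lit 64) (nat_lit 5) (nat_lit 58) (nat_lit 5) (nat_lit 334) (nat_lit 330) (nat_lit 236))) (XT.nd (nat_lit 78) (nat_lit 228) (nat_lit 0) (XT.lf (nat_lit 0) (nat_lit 128159503011) (nat_lit 456) (nat_lit 183346464668) (nat_lit 76) (nat_lit 79338567008) (nat_lit 52) (nat_lit 5) (nat_lit 58) (nat_lit 5) (nat_lit 53) (nat_lit 5) (nat_lit 335) (nat_lit 330) (nat_lit 235)) (XT.lf (nat_lit 0) (nat_lit 211878056768) (nat_lit 228) (nat_lit 12271313864) (nat_lit 304) (nat_lit 199201339131) (nat_lit 49) (nat_lit 5) (nat_lit 52) (nat_lit 5) (nat_lit 53) (nat_lit 5) (nat_lit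 336) (nat_lit 330) (nat_lit 234)))))) (XT.nd (nat_lit 546) (nat_lit 988) (nat_lit 0) (XT.nd (nat_lit 234) (nat_lit 684) (nat_lit 0) (XT.nd (nat_lit 78) (nat_lit 456) (nat_lit 0) (XT.lf (nat_lit 0) (nat_lit 220072513703) (nat_lit 228) (nat_lit 133215349746) (nat_lit 304) (nat_lit 105944936201) (nat_lit 46) (nat_lit 5) (nat_lit 49) (nat_lit 5) (nat_lit 50) (nat_lit 5) (nat_lit 337) (nat_lit 330) (nat_lit 233)) (XT.nd (nat_lit 78) (nat_lit 228) (nat_lit 0) (XT.lf (nat_lit 0) (nat_lit 19137601854) (nat_lit 228) (nat_lit 264299147310) (nat_lit 76) (nat_lit 215625736729) (nat_lit 43) (nat_lit 5) (nat_lit 46) (nat_lit 5) (nat_lit 44) (nat_lit 5) (nat_lit 338) (nat_lit 330) (nat_lit 232)) (XT.lf (nat_lit 0) (nat_lit 175845722289) (nat_lit 304) (nat_lit 289290521338) (nat_lit 76) (nat_lit 77979330298) (nat_lit 40) (nat_lit 5) (nat_lit 44) (nat_lit 5) (nat_lit 41) (nat_lit 5) (nat_lit 339) (nat_lit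 330) (nat_lit 231)))) (XT.nd (nat_lit 156) (nat_lit 380) (nat_lit 0) (XT.nd (nat_lit 78) (nat_lit 152) (nat_lit 0) (XT.lf (nat_lit 0) (nat_lit 278399480055) (nat_lit 152) (nat_lit 100089790329) (nat_lit 228) (nat_lit 213493018102) (nat_lit 38) (nat_lit 5) (nat_lit 40) (nat_lit 5) (nat_lit 41) (nat_lit 5) (nat_lit 340) (nat_lit 330) (nat_lit 230)) (XT.lf (nat_lit 0) (nat_lit 308795481462) (nat_lit 152) (nat_lit 326490570143) (nat_lit 228) (nat_lit 10992422635) (nat_lit 36) (nat_lit 5) (nat_lit 38) (nat_lit 5) (nat_lit 39) (nat_lit 5) (nat_lit 341) (nat_lit 330) (nat_lit 229))) (XT.nd (nat_lit 78) (nat_lit 152) (nat_lit 0) (XT.lf (nat_lit 0) (nat_lit 233924812089) (nat_lit 228) (nat_lit 364962766253) (nat_lit 76) (nat_lit 107553321806) (nat_lit 33) (nat_lit 5) (nat_lit 36) (nat_lit 5) (nat_lit 34) (nat_lit 5) (nat_lit 342) (nat_lit 330) (nat_lit 228)) (XT.lf (nat_lit 0) (nat_lit 377156316965)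 (nat_lit 152) (nat_lit 165972060153) (nat_lit 228) (nat_lit 230220501951) (nat_lit 31) (nat_lit 5) (nat_lit 33) (nat_lit 5) (nat_lit 34) (nat_lit 5) (nat_lit 343) (nat_lit 330) (nat_lit 227))))) (XT.nd (nat_lit 312) (nat_lit 380) (nat_lit 0) (XT.nd (nat_lit 156) (nat_lit 304) (nat_lit 0) (XT.nd (nat_lit 78) (nat_lit 152) (nat_lit 0) (XT.lf (nat_lit 0) (nat_lit 75630472719) (nat_lit 152) (nat_lit 434104034091) (nat_lit 76) (nat_lit 338094734103) (nat_lit 29) (nat_lit 5) (nat_lit 31) (nat_lit 5) (nat_lit 30) (nat_lit 5) (nat_lit 344) (nat_lit 330) (nat_lit 226)) (XT.lf (nat_lit 0) (nat_lit 441460739002) (nat_lit 228) (nat_lit 483248298523) (nat_lit 76) (nat_lit 6075577826) (nat_lit 27) (nat_lit 5) (nat_lit 30) (nat_lit 5) (nat_lit 28) (nat_lit 4) (nat_lit 345) (nat_lit 330) (nat_lit 225))) (XT.nd (nat_lit 78) (nat_lit 228) (nat_lit 0) (XT.lf (nat_lit 0) (nat_lit 471708927890) (nat_lit 76)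 (nat_lit 428865899481) (nat_lit 152) (nat_lit 122535726047) (nat_lit 26) (nat_lit 5) (nat_lit 27) (nat_lit 5) (nat_lit 28) (nat_lit 4) (nat_lit 346) (nat_lit 330) (nat_lit 224)) (XT.lf (nat_lit 0) (nat_lit 314733661831) (nat_lit 228) (nat_lit 643026928152) (nat_lit 76) (nat_lit 168514295353) (nat_lit 23) (nat_lit 5) (nat_lit 26) (nat_lit 5) (nat_lit 24) (nat_lit 4) (nat_lit 347) (nat_lit 330) (nat_lit 223)))) (XT.nd (nat_lit 156) (nat_lit 152) (nat_lit 0) (XT.nd (nat_lit 78) (nat_lit 152) (nat_lit 0) (XT.lf (nat_lit 0) (nat_lit 470737295858) (nat_lit 76) (nat_lit 379459961259) (nat_lit 152) (nat_lit 391273247728) (nat_lit 22) (nat_lit 5) (nat_lit 23) (nat_lit 5) (nat_lit 24) (nat_lit 4) (nat_lit 348) (nat_lit 330) (nat_lit 222)) (XT.lf (nat_lit 0) (nat_lit 124851461286) (nat_lit 152) (nat_lit 941858077253) (nat_lit 76) (nat_lit 304065213668) (nat_lit 20) (nat_lit 5) (nat_lit 22) (nat_lit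 5) (nat_lit 21) (nat_lit 4) (nat_lit 349) (nat_lit 330) (nat_lit 221))) (XT.nd (nat_lit 78) (nat_lit 76) (nat_lit 0) (XT.lf (nat_lit 0) (nat_lit 332227662501) (nat_lit 76) (nat_lit 405165038059) (nat_lit 152) (nat_lit 777895655490) (nat_lit 19) (nat_lit 5) (nat_lit 20) (nat_lit 5) (nat_lit 21) (nat_lit 4) (nat_lit 350) (nat_lit 330) (nat_lit 220)) (XT.lf (nat_lit 0) (nat_lit 174648881288) (nat_lit 76) (nat_lit 1308052385999) (nat_lit 76) (nat_lit 195506841874) (nat_lit 18) (nat_lit 4) (nat_lit 19) (nat_lit 5) (nat_lit 19) (nat_lit 4) (nat_lit 351) (nat_lit 330) (nat_lit 219))))))))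
noncomputable def xc53 : XT := (XT.nd (nat_lit 46176) (nat_lit 0) (nat_lit 0) (XT.nd (nat_lit 1092) (nat_lit 152) (nat_lit 0) (XT.nd (nat_lit 546) (nat_lit 304) (nat_lit 0) (XT.nd (nat_lit 234) (nat_lit 304) (nat_lit 0) (XT.nd (nat_lit 78) (nat_lit 228) (nat_lit 0) (XT.lf (nat_lit 0) (nat_lit 497060868796) (nat_lit 152) (nat_lit 78658963590) (nat_lit 76) (nat_lit 1285210034012) (nat_lit 17) (nat_lit 5) (nat_lit 19) (nat_lit 5) (nat_lit 18) (nat_lit 4) (nat_lit 352) (nat_lit 330) (nat_lit 218)) (XT.nd (nat_lit 78) (nat_lit 152) (nat_lit 0) (XT.lf (nat_lit 0) (nat_lit 1329193941921) (nat_lit 152) (nat_lit 438620053056) (nat_lit 0) (nat_lit 299059132862) (nat_lit 16) (nat_lit 5) (nat_lit 18) (nat_lit 4) (nat_lit 16) (nat_lit 4) (nat_lit 353) (nat_lit 330) (nat_lit 217)) (XT.lf (nat_lit 0) (nat_lit 35219434699) (nat_lit 152) (nat_lit 956878403480) (nat_lit 76) (nat_lit 1307491677957) (nat_lit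 14) (nat_lit 5) (nat_lit 16) (nat_lit 5) (nat_lit 15) (nat_lit 4) (nat_lit 354) (nat_lit 330) (nat_lit 216)))) (XT.nd (nat_lit 156) (nat_lit 152) (nat_lit 0) (XT.nd (nat_lit 78) (nat_lit 76) (nat_lit 0) (XT.lf (nat_lit 0) (nat_lit 874630089274) (nat_lit 76) (nat_lit 41122282408) (nat_lit 152) (nat_lit 1647097882097) (nat_lit 13) (nat_lit 5) (nat_lit 14) (nat_lit 5) (nat_lit 15) (nat_lit 4) (nat_lit 355) (nat_lit 330) (nat_lit 215)) (XT.lf (nat_lit 0) (nat_lit 157270068396) (nat_lit 76) (nat_lit 1828772221280) (nat_lit 76) (nat_lit 874943649162) (nat_lit 12) (nat_lit 4) (nat_lit 13) (nat_lit 5) (nat_lit 13) (nat_lit 4) (nat_lit 356) (nat_lit 330) (nat_lit 214))) (XT.nd (nat_lit 78) (nat_lit 76) (nat_lit 0) (XT.lf (nat_lit 0) (nat_lit 63946386048) (nat_lit 152) (nat_lit 820820100458) (nat_lit 76) (nat_lit 2314925239916) (nat_lit 11) (nat_lit 5) (nat_lit 13) (nat_lit 5) (nat_lit 12) (nat_lit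 4) (nat_lit 357) (nat_lit 330) (nat_lit 213)) (XT.lf (nat_lit 0) (nat_lit 1133088988407) (nat_lit 152) (nat_lit 2201083924855) (nat_lit 0) (nat_lit 249914364995) (nat_lit 10) (nat_lit 5) (nat_lit 12) (nat_lit 4) (nat_lit 10) (nat_lit 4) (nat_lit 358) (nat_lit 330) (nat_lit 212))))) (XT.nd (nat_lit 234) (nat_lit 76) (nat_lit 0) (XT.nd (nat_lit 78) (nat_lit 228) (nat_lit 0) (XT.lf (nat_lit 0) (nat_lit 2411591413744) (nat_lit 152) (nat_lit 82214892111) (nat_lit 0) (nat_lit 1528416782405) (nat_lit 10) (nat_lit 5) (nat_lit 12) (nat_lit 4) (nat_lit 10) (nat_lit 4) (nat_lit 359) (nat_lit 330) (nat_lit 211)) (XT.nd (nat_lit 78) (nat_lit 152) (nat_lit 0) (XT.lf (nat_lit 0) (nat_lit 2478467433316) (nat_lit 76) (nat_lit 1463008950120) (nat_lit 76) (nat_lit 579834311888) (nat_lit 9) (nat_lit 4) (nat_lit 10) (nat_lit 5) (nat_lit 10) (nat_lit 4) (nat_lit 360) (nat_lit 330) (nat_lit 210)) (XT.lf (nat_lit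 0) (nat_lit 335307802921) (nat_lit 76) (nat_lit 250501065899) (nat_lit 152) (nat_lit 4507445839577) (nat_lit 7) (nat_lit 5) (nat_lit 8) (nat_lit 5) (nat_lit 9) (nat_lit 4) (nat_lit 361) (nat_lit 330) (nat_lit 209)))) (XT.nd (nat_lit 156) (nat_lit 76) (nat_lit 0) (XT.nd (nat_lit 78) (nat_lit 0) (nat_lit 0) (XT.lf (nat_lit 0) (nat_lit 1981472405905) (nat_lit 152) (nat_lit 2597434442859) (nat_lit 0) (nat_lit 1163718100870) (nat_lit 7) (nat_lit 5) (nat_lit 9) (nat_lit 4) (nat_lit 7) (nat_lit 4) (nat_lit 362) (nat_lit 330) (nat_lit 208)) (XT.lf (nat_lit 0) (nat_lit 3593413697851) (nat_lit 152) (nat_lit 119773382643) (nat_lit 0) (nat_lit 2775659388620) (nat_lit 7) (nat_lit 5) (nat_lit 9) (nat_lit 4) (nat_lit 7) (nat_lit 4) (nat_lit 363) (nat_lit 330) (nat_lit 207))) (XT.nd (nat_lit 78) (nat_lit 0) (nat_lit 0) (XT.lf (nat_lit 0) (nat_lit 2873269380311) (nat_lit 76) (nat_lit 2642978987188) (nat_lit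 76) (nat_lit 1825224674307) (nat_lit 6) (nat_lit 4) (nat_lit 7) (nat_lit 5) (nat_lit 7) (nat_lit 4) (nat_lit 364) (nat_lit 330) (nat_lit 206)) (XT.lf (nat_lit 0) (nat_lit 6322521644712) (nat_lit 76) (nat_lit 1408473653449) (nat_lit 76) (nat_lit 590719337396) (nat_lit 6) (nat_lit 4) (nat_lit 7) (nat_lit 5) (nat_lit 7) (nat_lit 4) (nat_lit 365) (nat_lit 330) (nat_lit 205)))))) (XT.nd (nat_lit 44460) (nat_lit 0) (nat_lit 2432) (XT.nd (nat_lit 44148) (nat_lit 0) (nat_lit 3952) (XT.nd (nat_lit 78) (nat_lit 0) (nat_lit 0) (XT.lf (nat_lit 0) (nat_lit 809585880287) (nat_lit 152) (nat_lit 8583638339983) (nat_lit 0) (nat_lit 52405955461) (nat_lit 4) (nat_lit 5) (nat_lit 6) (nat_lit 4) (nat_lit 4) (nat_lit 4) (nat_lit 366) (nat_lit 330) (nat_lit 204)) (XT.nd (nat_lit 78) (nat_lit 0) (nat_lit 0) (XT.lf (nat_lit 0) (nat_lit 2484625223668) (nat_lit 152) (nat_lit 6516861816309) (nat_lit 0) (nat_lit 1727445296619)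 (nat_lit 4) (nat_lit 5) (nat_lit 6) (nat_lit 4) (nat_lit 4) (nat_lit 4) (nat_lit 367) (nat_lit 330) (nat_lit 203)) (XT.lf (nat_lit 0) (nat_lit 4410920459410) (nat_lit 152) (nat_lit 4140068832485) (nat_lit 0) (nat_lit 3653740530430) (nat_lit 4) (nat_lit 5) (nat_lit 6) (nat_lit 4) (nat_lit 4) (nat_lit 4) (nat_lit 368) (nat_lit 330) (nat_lit 202)))) (XT.nd (nat_lit 156) (nat_lit 380) (nat_lit 0) (XT.nd (nat_lit 78) (nat_lit 0) (nat_lit 0) (XT.lf (nat_lit 0) (nat_lit 131218736509) (nat_lit 532) (nat_lit 11855890352) (nat_lit 532) (nat_lit 11855890352) (nat_lit 61) (nat_lit 3) (nat_lit 68) (nat_lit 3) (nat_lit 68) (nat_lit 5) (nat_lit 331) (nat_lit 331) (nat_lit 238)) (XT.lf (nat_lit 76) (nat_lit 269854148415) (nat_lit 0) (nat_lit 18757278583) (nat_lit 532) (nat_lit 43969892134) (nat_lit 62) (nat_lit 5) (nat_lit 61) (nat_lit 3) (nat_lit 68) (nat_lit 5) (nat_lit 332) (nat_lit 331) (nat_lit 237)))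 (XT.nd (nat_lit 78) (nat_lit 456) (nat_lit 0) (XT.lf (nat_lit 76) (nat_lit 256084490692) (nat_lit 0) (nat_lit 76438179022) (nat_lit 532) (nat_lit 25082081425) (nat_lit 63) (nat_lit 5) (nat_lit 62) (nat_lit 5) (nat_lit 69) (nat_lit 5) (nat_lit 333) (nat_lit 331) (nat_lit 236)) (XT.lf (nat_lit 0) (nat_lit 11214091439) (nat_lit 532) (nat_lit 139232591754) (nat_lit 608) (nat_lit 234788917335) (nat_lit 56) (nat_lit 5) (nat_lit 63) (nat_lit 5) (nat_lit 64) (nat_lit 5) (nat_lit 334) (nat_lit 331) (nat_lit 235))))) (XT.nd (nat_lit 312) (nat_lit 760) (nat_lit 0) (XT.nd (nat_lit 156) (nat_lit 456) (nat_lit 0) (XT.nd (nat_lit 78) (nat_lit 380) (nat_lit 0) (XT.lf (nat_lit 0) (nat_lit 66908241401) (nat_lit 532) (nat_lit 176079334886) (nat_lit 76) (nat_lit 172736287379) (nat_lit 57) (nat_lit 5) (nat_lit 64) (nat_lit 5) (nat_lit 58) (nat_lit 5) (nat_lit 335) (nat_lit 331) (nat_lit 234)) (XT.lf (nat_lit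 0) (nat_lit 147385021574) (nat_lit 456) (nat_lit 210846748951) (nat_lit 76) (nat_lit 91239315284) (nat_lit 52) (nat_lit 5) (nat_lit 58) (nat_lit 5) (nat_lit 53) (nat_lit 5) (nat_lit 336) (nat_lit 331) (nat_lit 233))) (XT.nd (nat_lit 78) (nat_lit 228) (nat_lit 0) (XT.lf (nat_lit 0) (nat_lit 243661308039) (nat_lit 228) (nat_lit 14111890606) (nat_lit 304) (nat_lit 229080002371) (nat_lit 49) (nat_lit 5) (nat_lit 52) (nat_lit 5) (nat_lit 53) (nat_lit 5) (nat_lit 337) (nat_lit 331) (nat_lit 232)) (XT.lf (nat_lit 0) (nat_lit 253084905738) (nat_lit 228) (nat_lit 153197413064) (nat_lit 304) (nat_lit 121835297494) (nat_lit 46) (nat_lit 5) (nat_lit 49) (nat_lit 5) (nat_lit 50) (nat_lit 5) (nat_lit 338) (nat_lit 331) (nat_lit 231)))) (XT.nd (nat_lit 156) (nat_lit 304) (nat_lit 0) (XT.nd (nat_lit 78) (nat_lit 228) (nat_lit 0) (XT.lf (nat_lit 0) (nat_lit 22009422943) (nat_lit 228) (nat_lit 303942480197)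 (nat_lit 76) (nat_lit 247969860179) (nat_lit 43) (nat_lit 5) (nat_lit 46) (nat_lit 5) (nat_lit 44) (nat_lit 5) (nat_lit 339) (nat_lit 331) (nat_lit 230)) (XT.lf (nat_lit 0) (nat_lit 202223649684) (nat_lit 304) (nat_lit 332682613272) (nat_lit 76) (nat_lit 89676560669) (nat_lit 40) (nat_lit 5) (nat_lit 44) (nat_lit 5) (nat_lit 41) (nat_lit 5) (nat_lit 340) (nat_lit 331) (nat_lit 229))) (XT.nd (nat_lit 78) (nat_lit 152) (nat_lit 0) (XT.lf (nat_lit 0) (nat_lit 320160762525) (nat_lit 152) (nat_lit 115102860747) (nat_lit 228) (nat_lit 245515930750) (nat_lit 38) (nat_lit 5) (nat_lit 40) (nat_lit 5) (nat_lit 41) (nat_lit 5) (nat_lit 341) (nat_lit 331) (nat_lit 228)) (XT.lf (nat_lit 0) (nat_lit 355116111379) (nat_lit 152) (nat_lit 375463724551) (nat_lit 228) (nat_lit 12640338666) (nat_lit 36) (nat_lit 5) (nat_lit 38) (nat_lit 5) (nat_lit 39) (nat_lit 5) (nat_lit 342) (nat_lit 331) (nat_lit 227)))))))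 (XT.nd (nat_lit 1092) (nat_lit 684) (nat_lit 0) (XT.nd (nat_lit 546) (nat_lit 684) (nat_lit 0) (XT.nd (nat_lit 234) (nat_lit 532) (nat_lit 0) (XT.nd (nat_lit 78) (nat_lit 304) (nat_lit 0) (XT.lf (nat_lit 0) (nat_lit 269014356639) (nat_lit 228) (nat_lit 419705885035) (nat_lit 76) (nat_lit 123686727152) (nat_lit 33) (nat_lit 5) (nat_lit 36) (nat_lit 5) (nat_lit 34) (nat_lit 5) (nat_lit 343) (nat_lit 331) (nat_lit 226)) (XT.nd (nat_lit 78) (nat_lit 152) (nat_lit 0) (XT.lf (nat_lit 0) (nat_lit 433730950952) (nat_lit 152) (nat_lit 190867426690) (nat_lit 228) (nat_lit 264752773313) (nat_lit 31) (nat_lit 5) (nat_lit 33) (nat_lit 5) (nat_lit 34) (nat_lit 5) (nat_lit 344) (nat_lit 331) (nat_lit 225)) (XT.lf (nat_lit 0) (nat_lit 86975745132) (nat_lit 152) (nat_lit 499218470723) (nat_lit 76) (nat_lit 388809354706) (nat_lit 29) (nat_lit 5) (nat_lit 31) (nat_lit 5) (nat_lit 30) (nat_lit 5) (nat_lit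 345) (nat_lit 331) (nat_lit 224)))) (XT.nd (nat_lit 156) (nat_lit 304) (nat_lit 0) (XT.nd (nat_lit 78) (nat_lit 76) (nat_lit 0) (XT.lf (nat_lit 0) (nat_lit 507680496015) (nat_lit 228) (nat_lit 555734432982) (nat_lit 76) (nat_lit 6987326644) (nat_lit 27) (nat_lit 5) (nat_lit 30) (nat_lit 5) (nat_lit 28) (nat_lit 4) (nat_lit 346) (nat_lit 331) (nat_lit 223)) (XT.lf (nat_lit 0) (nat_lit 542466283411) (nat_lit 76) (nat_lit 493195354389) (nat_lit 152) (nat_lit 140915451447) (nat_lit 26) (nat_lit 5) (nat_lit 27) (nat_lit 5) (nat_lit 28) (nat_lit 4) (nat_lit 347) (nat_lit 331) (nat_lit 222))) (XT.nd (nat_lit 78) (nat_lit 76) (nat_lit 0) (XT.lf (nat_lit 0) (nat_lit 361944267438) (nat_lit 228) (nat_lit 739479973823) (nat_lit 76) (nat_lit 193791832145) (nat_lit 23) (nat_lit 5) (nat_lit 26) (nat_lit 5) (nat_lit 24) (nat_lit 4) (nat_lit 348) (nat_lit 331) (nat_lit 221)) (XT.lf (nat_lit 0) (nat_lit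 541348799690) (nat_lit 76) (nat_lit 436378551635) (nat_lit 152) (nat_lit 449963688601) (nat_lit 22) (nat_lit 5) (nat_lit 23) (nat_lit 5) (nat_lit 24) (nat_lit 4) (nat_lit 349) (nat_lit 331) (nat_lit 220))))) (XT.nd (nat_lit 234) (nat_lit 380) (nat_lit 0) (XT.nd (nat_lit 78) (nat_lit 152) (nat_lit 0) (XT.lf (nat_lit 0) (nat_lit 143579661651) (nat_lit 152) (nat_lit 1083135902558) (nat_lit 76) (nat_lit 349675362179) (nat_lit 20) (nat_lit 5) (nat_lit 22) (nat_lit 5) (nat_lit 21) (nat_lit 4) (nat_lit 350) (nat_lit 331) (nat_lit 219)) (XT.nd (nat_lit 78) (nat_lit 76) (nat_lit 0) (XT.lf (nat_lit 0) (nat_lit 382062623140) (nat_lit 76) (nat_lit 465939420426) (nat_lit 152) (nat_lit 894579530722) (nat_lit 19) (nat_lit 5) (nat_lit 20) (nat_lit 5) (nat_lit 21) (nat_lit 4) (nat_lit 351) (nat_lit 331) (nat_lit 218)) (XT.lf (nat_lit 0) (nat_lit 200846980050) (nat_lit 76) (nat_lit 1504259884376) (nat_lit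 76) (nat_lit 224832428428) (nat_lit 18) (nat_lit 4) (nat_lit 19) (nat_lit 5) (nat_lit 19) (nat_lit 4) (nat_lit 352) (nat_lit 331) (nat_lit 217)))) (XT.nd (nat_lit 156) (nat_lit 228) (nat_lit 0) (XT.nd (nat_lit 78) (nat_lit 76) (nat_lit 0) (XT.lf (nat_lit 0) (nat_lit 571620362359) (nat_lit 152) (nat_lit 90457122324) (nat_lit 76) (nat_lit 1477991832519) (nat_lit 17) (nat_lit 5) (nat_lit 19) (nat_lit 5) (nat_lit 18) (nat_lit 4) (nat_lit 353) (nat_lit 331) (nat_lit 216)) (XT.lf (nat_lit 0) (nat_lit 1528573371308) (nat_lit 152) (nat_lit 504412413837) (nat_lit 0) (nat_lit 343918284737) (nat_lit 16) (nat_lit 5) (nat_lit 18) (nat_lit 4) (nat_lit 16) (nat_lit 4) (nat_lit 354) (nat_lit 331) (nat_lit 215))) (XT.nd (nat_lit 78) (nat_lit 76) (nat_lit 0) (XT.lf (nat_lit 0) (nat_lit 40502666226) (nat_lit 152) (nat_lit 1100409554882) (nat_lit 76) (nat_lit 1503615697077) (nat_lit 14) (nat_lit 5) (nat_lit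 16) (nat_lit 5) (nat_lit 15) (nat_lit 4) (nat_lit 355) (nat_lit 331) (nat_lit 214)) (XT.lf (nat_lit 0) (nat_lit 1005825160227) (nat_lit 76) (nat_lit 47290355680) (nat_lit 152) (nat_lit 1894162252804) (nat_lit 13) (nat_lit 5) (nat_lit 14) (nat_lit 5) (nat_lit 15) (nat_lit 4) (nat_lit 356) (nat_lit 331) (nat_lit 213)))))) (XT.nd (nat_lit 546) (nat_lit 228) (nat_lit 0) (XT.nd (nat_lit 234) (nat_lit 228) (nat_lit 0) (XT.nd (nat_lit 78) (nat_lit 152) (nat_lit 0) (XT.lf (nat_lit 0) (nat_lit 180861104276) (nat_lit 76) (nat_lit 2103087797966) (nat_lit 76) (nat_lit 1006184905843) (nat_lit 12) (nat_lit 4) (nat_lit 13) (nat_lit 5) (nat_lit 13) (nat_lit 4) (nat_lit 357) (nat_lit 331) (nat_lit 212)) (XT.nd (nat_lit 78) (nat_lit 76) (nat_lit 0) (XT.lf (nat_lit 0) (nat_lit 73538584088) (nat_lit 152) (nat_lit 943942645780) (nat_lit 76) (nat_lit 2662164236267) (nat_lit 11) (nat_lit 5) (nat_lit 13) (nat_lit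 5) (nat_lit 12) (nat_lit 4) (nat_lit 358) (nat_lit 331) (nat_lit 211)) (XT.lf (nat_lit 0) (nat_lit 1303052560890) (nat_lit 152) (nat_lit 2531246071101) (nat_lit 0) (nat_lit 287401720031) (nat_lit 10) (nat_lit 5) (nat_lit 12) (nat_lit 4) (nat_lit 10) (nat_lit 4) (nat_lit 359) (nat_lit 331) (nat_lit 210)))) (XT.nd (nat_lit 156) (nat_lit 152) (nat_lit 0) (XT.nd (nat_lit 78) (nat_lit 76) (nat_lit 0) (XT.lf (nat_lit 0) (nat_lit 2773330320782) (nat_lit 152) (nat_lit 94546741161) (nat_lit 0) (nat_lit 1757679473928) (nat_lit 10) (nat_lit 5) (nat_lit 12) (nat_lit 4) (nat_lit 10) (nat_lit 4) (nat_lit 360) (nat_lit 331) (nat_lit 209)) (XT.lf (nat_lit 0) (nat_lit 2850237900511) (nat_lit 76) (nat_lit 1682460118454) (nat_lit 76) (nat_lit 666809266389) (nat_lit 9) (nat_lit 4) (nat_lit 10) (nat_lit 5) (nat_lit 10) (nat_lit 4) (nat_lit 361) (nat_lit 331) (nat_lit 208))) (XT.nd (nat_lit 78) (nat_lit 0) (nat_lit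 0) (XT.lf (nat_lit 0) (nat_lit 385604304573) (nat_lit 76) (nat_lit 288076061374) (nat_lit 152) (nat_lit 5183562535344) (nat_lit 7) (nat_lit 5) (nat_lit 8) (nat_lit 5) (nat_lit 9) (nat_lit 4) (nat_lit 362) (nat_lit 331) (nat_lit 207)) (XT.lf (nat_lit 0) (nat_lit 2278693415275) (nat_lit 152) (nat_lit 2987049313092) (nat_lit 0) (nat_lit 1338275951814) (nat_lit 7) (nat_lit 5) (nat_lit 9) (nat_lit 4) (nat_lit 7) (nat_lit 4) (nat_lit 363) (nat_lit 331) (nat_lit 206))))) (XT.nd (nat_lit 312) (nat_lit 0) (nat_lit 0) (XT.nd (nat_lit 156) (nat_lit 152) (nat_lit 0) (XT.nd (nat_lit 78) (nat_lit 76) (nat_lit 0) (XT.lf (nat_lit 0) (nat_lit 4132425881647) (nat_lit 152) (nat_lit 137739132477) (nat_lit 0) (nat_lit 3192008415012) (nat_lit 7) (nat_lit 5) (nat_lit 9) (nat_lit 4) (nat_lit 7) (nat_lit 4) (nat_lit 364) (nat_lit 331) (nat_lit 205)) (XT.lf (nat_lit 0) (nat_lit 3304260023118) (nat_lit 76) (nat_lit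 3039425717451) (nat_lit 76) (nat_lit 2099008248058) (nat_lit 6) (nat_lit 4) (nat_lit 7) (nat_lit 5) (nat_lit 7) (nat_lit 4) (nat_lit 365) (nat_lit 331) (nat_lit 204))) (XT.nd (nat_lit 78) (nat_lit 152) (nat_lit 0) (XT.lf (nat_lit 0) (nat_lit 7270900096428) (nat_lit 76) (nat_lit 1619744599019) (nat_lit 76) (nat_lit 679327127226) (nat_lit 6) (nat_lit 4) (nat_lit 7) (nat_lit 5) (nat_lit 7) (nat_lit 4) (nat_lit 366) (nat_lit 331) (nat_lit 203)) (XT.lf (nat_lit 0) (nat_lit 931023860800) (nat_lit 152) (nat_lit 9871183892862) (nat_lit 0) (nat_lit 60266940541) (nat_lit 4) (nat_lit 5) (nat_lit 6) (nat_lit 4) (nat_lit 4) (nat_lit 4) (nat_lit 367) (nat_lit 331) (nat_lit 202)))) (XT.nd (nat_lit 44148) (nat_lit 0) (nat_lit 4332) (XT.nd (nat_lit 44070) (nat_lit 0) (nat_lit 4332) (XT.lf (nat_lit 0) (nat_lit 2857319092843) (nat_lit 152) (nat_lit 7494390916479) (nat_lit 0) (nat_lit 1986562170905) (nat_lit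 4) (nat_lit 5) (nat_lit 6) (nat_lit 4) (nat_lit 4) (nat_lit 4) (nat_lit 368) (nat_lit 331) (nat_lit 201)) (XT.lf (nat_lit 0) (nat_lit 150902644328) (nat_lit 532) (nat_lit 13633680670) (nat_lit 532) (nat_lit 13633680670) (nat_lit 61) (nat_lit 3) (nat_lit 68) (nat_lit 3) (nat_lit 68) (nat_lit 5) (nat_lit 332) (nat_lit 332) (nat_lit 236))) (XT.nd (nat_lit 78) (nat_lit 0) (nat_lit 76) (XT.lf (nat_lit 76) (nat_lit 310333356718) (nat_lit 0) (nat_lit 21571718870) (nat_lit 532) (nat_lit 50563284320) (nat_lit 62) (nat_lit 5) (nat_lit 61) (nat_lit 3) (nat_lit 68) (nat_lit 5) (nat_lit 333) (nat_lit 332) (nat_lit 235)) (XT.lf (nat_lit 76) (nat_lit 294498320885) (nat_lit 0) (nat_lit 87904441566) (nat_lit 532) (nat_lit 28842563950) (nat_lit 63) (nat_lit 5) (nat_lit 62) (nat_lit 5) (nat_lit 69) (nat_lit 5) (nat_lit 334) (nat_lit 332) (nat_lit 234))))))))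
noncomputable def xc54 : XT := (XT.nd (nat_lit 2262) (nat_lit 228) (nat_lit 0) (XT.nd (nat_lit 1092) (nat_lit 1444) (nat_lit 0) (XT.nd (nat_lit 546) (nat_lit 1064) (nat_lit 0) (XT.nd (nat_lit 234) (nat_lit 912) (nat_lit 0) (XT.nd (nat_lit 78) (nat_lit 304) (nat_lit 0) (XT.lf (nat_lit 0) (nat_lit 12897734623) (nat_lit 532) (nat_lit 160116202085) (nat_lit 608) (nat_lit 270006879910) (nat_lit 56) (nat_lit 5) (nat_lit 63) (nat_lit 5) (nat_lit 64) (nat_lit 5) (nat_lit 335) (nat_lit 332) (nat_lit 233)) (XT.nd (nat_lit 78) (nat_lit 380) (nat_lit 0) (XT.lf (nat_lit 0) (nat_lit 76945831209) (nat_lit 532) (nat_lit 202489950313) (nat_lit 76) (nat_lit 198646551988) (nat_lit 57) (nat_lit 5) (nat_lit 64) (nat_lit 5) (nat_lit 58) (nat_lit 5) (nat_lit 336) (nat_lit 332) (nat_lit 232)) (XT.lf (nat_lit 0) (nat_lit 169493979431) (nat_lit 456) (nat_lit 242472486876) (nat_lit 76) (nat_lit 104925184770) (nat_lit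 52) (nat_lit 5) (nat_lit 58) (nat_lit 5) (nat_lit 53) (nat_lit 5) (nat_lit 337) (nat_lit 332) (nat_lit 231)))) (XT.nd (nat_lit 156) (nat_lit 456) (nat_lit 0) (XT.nd (nat_lit 78) (nat_lit 228) (nat_lit 0) (XT.lf (nat_lit 0) (nat_lit 280211670790) (nat_lit 228) (nat_lit 16228583204) (nat_lit 304) (nat_lit 263440840057) (nat_lit 49) (nat_lit 5) (nat_lit 52) (nat_lit 5) (nat_lit 53) (nat_lit 5) (nat_lit 338) (nat_lit 332) (nat_lit 230)) (XT.lf (nat_lit 0) (nat_lit 291048787142) (nat_lit 228) (nat_lit 176176844197) (nat_lit 304) (nat_lit 140109549292) (nat_lit 46) (nat_lit 5) (nat_lit 49) (nat_lit 5) (nat_lit 50) (nat_lit 5) (nat_lit 339) (nat_lit 332) (nat_lit 229))) (XT.nd (nat_lit 78) (nat_lit 228) (nat_lit 0) (XT.lf (nat_lit 0) (nat_lit 25311729247) (nat_lit 228) (nat_lit 349532688362) (nat_lit 76) (nat_lit 285165538027) (nat_lit 43) (nat_lit 5) (nat_lit 46) (nat_lit 5) (nat_lit 44) (nat_lit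 5) (nat_lit 340) (nat_lit 332) (nat_lit 228)) (XT.lf (nat_lit 0) (nat_lit 232558005494) (nat_lit 304) (nat_lit 382583881432) (nat_lit 76) (nat_lit 103128294922) (nat_lit 40) (nat_lit 5) (nat_lit 44) (nat_lit 5) (nat_lit 41) (nat_lit 5) (nat_lit 341) (nat_lit 332) (nat_lit 227))))) (XT.nd (nat_lit 234) (nat_lit 532) (nat_lit 0) (XT.nd (nat_lit 78) (nat_lit 380) (nat_lit 0) (XT.lf (nat_lit 0) (nat_lit 368185905608) (nat_lit 152) (nat_lit 132367988814) (nat_lit 228) (nat_lit 282342533922) (nat_lit 38) (nat_lit 5) (nat_lit 40) (nat_lit 5) (nat_lit 41) (nat_lit 5) (nat_lit 342) (nat_lit 332) (nat_lit 226)) (XT.nd (nat_lit 78) (nat_lit 228) (nat_lit 0) (XT.lf (nat_lit 0) (nat_lit 408384516894) (nat_lit 152) (nat_lit 431782957249) (nat_lit 228) (nat_lit 14535673122) (nat_lit 36) (nat_lit 5) (nat_lit 38) (nat_lit 5) (nat_lit 39) (nat_lit 5) (nat_lit 343) (nat_lit 332) (nat_lit 225)) (XT.lf (nat_lit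 0) (nat_lit 309367132242) (nat_lit 228) (nat_lit 482660787710) (nat_lit 76) (nat_lit 142240044032) (nat_lit 33) (nat_lit 5) (nat_lit 36) (nat_lit 5) (nat_lit 34) (nat_lit 5) (nat_lit 344) (nat_lit 332) (nat_lit 224)))) (XT.nd (nat_lit 156) (nat_lit 228) (nat_lit 0) (XT.nd (nat_lit 78) (nat_lit 152) (nat_lit 0) (XT.lf (nat_lit 0) (nat_lit 498791490717) (nat_lit 152) (nat_lit 219497206111) (nat_lit 228) (nat_lit 304465081423) (nat_lit 31) (nat_lit 5) (nat_lit 33) (nat_lit 5) (nat_lit 34) (nat_lit 5) (nat_lit 345) (nat_lit 332) (nat_lit 223)) (XT.lf (nat_lit 0) (nat_lit 100022637341) (nat_lit 152) (nat_lit 574100357792) (nat_lit 76) (nat_lit 447131068299) (nat_lit 29) (nat_lit 5) (nat_lit 31) (nat_lit 5) (nat_lit 30) (nat_lit 5) (nat_lit 346) (nat_lit 332) (nat_lit 222))) (XT.nd (nat_lit 78) (nat_lit 76) (nat_lit 0) (XT.lf (nat_lit 0) (nat_lit 583833059008) (nat_lit 228) (nat_lit 639093758368)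 (nat_lit 76) (nat_lit 8035737281) (nat_lit 27) (nat_lit 5) (nat_lit 30) (nat_lit 5) (nat_lit 28) (nat_lit 4) (nat_lit 347) (nat_lit 332) (nat_lit 221)) (XT.lf (nat_lit 0) (nat_lit 623836994419) (nat_lit 76) (nat_lit 567174332396) (nat_lit 152) (nat_lit 162052290141) (nat_lit 26) (nat_lit 5) (nat_lit 27) (nat_lit 5) (nat_lit 28) (nat_lit 4) (nat_lit 348) (nat_lit 332) (nat_lit 220)))))) (XT.nd (nat_lit 546) (nat_lit 684) (nat_lit 0) (XT.nd (nat_lit 234) (nat_lit 304) (nat_lit 0) (XT.nd (nat_lit 78) (nat_lit 228) (nat_lit 0) (XT.lf (nat_lit 0) (nat_lit 416236328221) (nat_lit 228) (nat_lit 850401218628) (nat_lit 76) (nat_lit 222860903745) (nat_lit 23) (nat_lit 5) (nat_lit 26) (nat_lit 5) (nat_lit 24) (nat_lit 4) (nat_lit 349) (nat_lit 332) (nat_lit 219)) (XT.nd (nat_lit 78) (nat_lit 152) (nat_lit 0) (XT.lf (nat_lit 0) (nat_lit 622551807321) (nat_lit 76) (nat_lit 501835029040) (nat_lit 152)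 (nat_lit 517457828821) (nat_lit 22) (nat_lit 5) (nat_lit 23) (nat_lit 5) (nat_lit 24) (nat_lit 4) (nat_lit 350) (nat_lit 332) (nat_lit 218)) (XT.lf (nat_lit 0) (nat_lit 165116974734) (nat_lit 152) (nat_lit 1245605617784) (nat_lit 76) (nat_lit 402126943602) (nat_lit 20) (nat_lit 5) (nat_lit 22) (nat_lit 5) (nat_lit 21) (nat_lit 4) (nat_lit 351) (nat_lit 332) (nat_lit 217)))) (XT.nd (nat_lit 156) (nat_lit 152) (nat_lit 0) (XT.nd (nat_lit 78) (nat_lit 76) (nat_lit 0) (XT.lf (nat_lit 0) (nat_lit 439372630043) (nat_lit 76) (nat_lit 535830051190) (nat_lit 152) (nat_lit 1028766102605) (nat_lit 19) (nat_lit 5) (nat_lit 20) (nat_lit 5) (nat_lit 21) (nat_lit 4) (nat_lit 352) (nat_lit 332) (nat_lit 216)) (XT.lf (nat_lit 0) (nat_lit 230974606693) (nat_lit 76) (nat_lit 1729898595181) (nat_lit 76) (nat_lit 258556960195) (nat_lit 18) (nat_lit 4) (nat_lit 19) (nat_lit 5) (nat_lit 19) (nat_lit 4) (nat_lit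 353) (nat_lit 332) (nat_lit 215))) (XT.nd (nat_lit 78) (nat_lit 76) (nat_lit 0) (XT.lf (nat_lit 0) (nat_lit 657363691378) (nat_lit 152) (nat_lit 104025172106) (nat_lit 76) (nat_lit 1699690829254) (nat_lit 17) (nat_lit 5) (nat_lit 19) (nat_lit 5) (nat_lit 18) (nat_lit 4) (nat_lit 354) (nat_lit 332) (nat_lit 214)) (XT.lf (nat_lit 0) (nat_lit 1757859632657) (nat_lit 152) (nat_lit 580073786554) (nat_lit 0) (nat_lit 395506240640) (nat_lit 16) (nat_lit 5) (nat_lit 18) (nat_lit 4) (nat_lit 16) (nat_lit 4) (nat_lit 355) (nat_lit 332) (nat_lit 213))))) (XT.nd (nat_lit 312) (nat_lit 304) (nat_lit 0) (XT.nd (nat_lit 156) (nat_lit 152) (nat_lit 0) (XT.nd (nat_lit 78) (nat_lit 76) (nat_lit 0) (XT.lf (nat_lit 0) (nat_lit 46578305344) (nat_lit 152) (nat_lit 1265470527532) (nat_lit 76) (nat_lit 1729158253850) (nat_lit 14) (nat_lit 5) (nat_lit 16) (nat_lit 5) (nat_lit 15) (nat_lit 4) (nat_lit 356) (nat_lit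 332) (nat_lit 212)) (XT.lf (nat_lit 0) (nat_lit 1156699355858) (nat_lit 76) (nat_lit 54383705561) (nat_lit 152) (nat_lit 2178286355104) (nat_lit 13) (nat_lit 5) (nat_lit 14) (nat_lit 5) (nat_lit 15) (nat_lit 4) (nat_lit 357) (nat_lit 332) (nat_lit 211))) (XT.nd (nat_lit 78) (nat_lit 76) (nat_lit 0) (XT.lf (nat_lit 0) (nat_lit 207990667362) (nat_lit 76) (nat_lit 2418550773705) (nat_lit 76) (nat_lit 1157112421913) (nat_lit 12) (nat_lit 4) (nat_lit 13) (nat_lit 5) (nat_lit 13) (nat_lit 4) (nat_lit 358) (nat_lit 332) (nat_lit 210)) (XT.lf (nat_lit 0) (nat_lit 84569553275) (nat_lit 152) (nat_lit 1085533687451) (nat_lit 76) (nat_lit 3061489030772) (nat_lit 11) (nat_lit 5) (nat_lit 13) (nat_lit 5) (nat_lit 12) (nat_lit 4) (nat_lit 359) (nat_lit 332) (nat_lit 209)))) (XT.nd (nat_lit 156) (nat_lit 228) (nat_lit 0) (XT.nd (nat_lit 78) (nat_lit 0) (nat_lit 0) (XT.lf (nat_lit 0) (nat_lit 1498510614568)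 (nat_lit 152) (nat_lit 2910932647186) (nat_lit 0) (nat_lit 330512129481) (nat_lit 10) (nat_lit 5) (nat_lit 12) (nat_lit 4) (nat_lit 10) (nat_lit 4) (nat_lit 360) (nat_lit 332) (nat_lit 208)) (XT.lf (nat_lit 0) (nat_lit 3189330016329) (nat_lit 152) (nat_lit 108728461396) (nat_lit 0) (nat_lit 2021331526709) (nat_lit 10) (nat_lit 5) (nat_lit 12) (nat_lit 4) (nat_lit 10) (nat_lit 4) (nat_lit 361) (nat_lit 332) (nat_lit 207))) (XT.nd (nat_lit 78) (nat_lit 152) (nat_lit 0) (XT.lf (nat_lit 0) (nat_lit 3277773851901) (nat_lit 76) (nat_lit 1934829004514) (nat_lit 76) (nat_lit 766830510954) (nat_lit 9) (nat_lit 4) (nat_lit 10) (nat_lit 5) (nat_lit 10) (nat_lit 4) (nat_lit 362) (nat_lit 332) (nat_lit 206)) (XT.lf (nat_lit 0) (nat_lit 443445200704) (nat_lit 76) (nat_lit 331287346262) (nat_lit 152) (nat_lit 5961096779412) (nat_lit 7) (nat_lit 5) (nat_lit 8) (nat_lit 5) (nat_lit 9) (nat_lit 4) (nat_lit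 363) (nat_lit 332) (nat_lit 205))))))) (XT.nd (nat_lit 45162) (nat_lit 0) (nat_lit 912) (XT.nd (nat_lit 44616) (nat_lit 0) (nat_lit 2964) (XT.nd (nat_lit 234) (nat_lit 152) (nat_lit 0) (XT.nd (nat_lit 78) (nat_lit 76) (nat_lit 0) (XT.lf (nat_lit 0) (nat_lit 2620497539843) (nat_lit 152) (nat_lit 3435106486089) (nat_lit 0) (nat_lit 1539017447281) (nat_lit 7) (nat_lit 5) (nat_lit 9) (nat_lit 4) (nat_lit 7) (nat_lit 4) (nat_lit 364) (nat_lit 332) (nat_lit 204)) (XT.nd (nat_lit 78) (nat_lit 76) (nat_lit 0) (XT.lf (nat_lit 0) (nat_lit 4752289861525) (nat_lit 152) (nat_lit 158399807595) (nat_lit 0) (nat_lit 3670809766564) (nat_lit 7) (nat_lit 5) (nat_lit 9) (nat_lit 4) (nat_lit 7) (nat_lit 4) (nat_lit 365) (nat_lit 332) (nat_lit 203)) (XT.lf (nat_lit 0) (nat_lit 3799899204855) (nat_lit 76) (nat_lit 3495339485984) (nat_lit 76) (nat_lit 2413859388937) (nat_lit 6) (nat_lit 4) (nat_lit 7) (nat_lit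 5) (nat_lit 7) (nat_lit 4) (nat_lit 366) (nat_lit 332) (nat_lit 202)))) (XT.nd (nat_lit 44226) (nat_lit 0) (nat_lit 4332) (XT.nd (nat_lit 78) (nat_lit 152) (nat_lit 0) (XT.lf (nat_lit 0) (nat_lit 8361535265909) (nat_lit 76) (nat_lit 1862706211407) (nat_lit 76) (nat_lit 781226112545) (nat_lit 6) (nat_lit 4) (nat_lit 7) (nat_lit 5) (nat_lit 7) (nat_lit 4) (nat_lit 367) (nat_lit 332) (nat_lit 201)) (XT.lf (nat_lit 0) (nat_lit 1070677514377) (nat_lit 152) (nat_lit 11351861326986) (nat_lit 0) (nat_lit 69307051007) (nat_lit 4) (nat_lit 5) (nat_lit 6) (nat_lit 4) (nat_lit 4) (nat_lit 4) (nat_lit 368) (nat_lit 332) (nat_lit 200))) (XT.nd (nat_lit 78) (nat_lit 0) (nat_lit 0) (XT.lf (nat_lit 0) (nat_lit 173538870725) (nat_lit 532) (nat_lit 15678284200) (nat_lit 532) (nat_lit 15678284200) (nat_lit 61) (nat_lit 3) (nat_lit 68) (nat_lit 3) (nat_lit 68) (nat_lit 5) (nat_lit 333) (nat_lit 333) (nat_lit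 234)) (XT.lf (nat_lit 76) (nat_lit 356884181429) (nat_lit 0) (nat_lit 24808118287) (nat_lit 532) (nat_lit 58146195392) (nat_lit 62) (nat_lit 5) (nat_lit 61) (nat_lit 3) (nat_lit 68) (nat_lit 5) (nat_lit 334) (nat_lit 333) (nat_lit 233))))) (XT.nd (nat_lit 234) (nat_lit 988) (nat_lit 0) (XT.nd (nat_lit 78) (nat_lit 456) (nat_lit 0) (XT.lf (nat_lit 76) (nat_lit 338673943565) (nat_lit 0) (nat_lit 101090512861) (nat_lit 532) (nat_lit 33167565034) (nat_lit 63) (nat_lit 5) (nat_lit 62) (nat_lit 5) (nat_lit 69) (nat_lit 5) (nat_lit 335) (nat_lit 333) (nat_lit 232)) (XT.nd (nat_lit 78) (nat_lit 0) (nat_lit 76) (XT.lf (nat_lit 0) (nat_lit 14833551314) (nat_lit 532) (nat_lit 184132665720) (nat_lit 608) (nat_lit 310507628324) (nat_lit 56) (nat_lit 5) (nat_lit 63) (nat_lit 5) (nat_lit 64) (nat_lit 5) (nat_lit 336) (nat_lit 333) (nat_lit 231)) (XT.lf (nat_lit 0) (nat_lit 88488729404) (nat_lit 532) (nat_lit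 232862471361) (nat_lit 76) (nat_lit 228443399817) (nat_lit 57) (nat_lit 5) (nat_lit 64) (nat_lit 5) (nat_lit 58) (nat_lit 5) (nat_lit 337) (nat_lit 333) (nat_lit 230)))) (XT.nd (nat_lit 156) (nat_lit 456) (nat_lit 0) (XT.nd (nat_lit 78) (nat_lit 228) (nat_lit 0) (XT.lf (nat_lit 0) (nat_lit 194918987213) (nat_lit 456) (nat_lit 278842396264) (nat_lit 76) (nat_lit 120663941460) (nat_lit 52) (nat_lit 5) (nat_lit 58) (nat_lit 5) (nat_lit 53) (nat_lit 5) (nat_lit 338) (nat_lit 333) (nat_lit 229)) (XT.lf (nat_lit 0) (nat_lit 322244303484) (nat_lit 228) (nat_lit 18662801881) (nat_lit 304) (nat_lit 302956086921) (nat_lit 49) (nat_lit 5) (nat_lit 52) (nat_lit 5) (nat_lit 53) (nat_lit 5) (nat_lit 339) (nat_lit 333) (nat_lit 228))) (XT.nd (nat_lit 78) (nat_lit 228) (nat_lit 0) (XT.lf (nat_lit 0) (nat_lit 334706971408) (nat_lit 228) (nat_lit 202603234095) (nat_lit 304) (nat_lit 161125193159) (nat_lit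 46) (nat_lit 5) (nat_lit 49) (nat_lit 5) (nat_lit 50) (nat_lit 5) (nat_lit 340) (nat_lit 333) (nat_lit 227)) (XT.lf (nat_lit 0) (nat_lit 29109163767) (nat_lit 228) (nat_lit 401961711568) (nat_lit 76) (nat_lit 327940519069) (nat_lit 43) (nat_lit 5) (nat_lit 46) (nat_lit 5) (nat_lit 44) (nat_lit 5) (nat_lit 341) (nat_lit 333) (nat_lit 226)))))) (XT.nd (nat_lit 546) (nat_lit 836) (nat_lit 0) (XT.nd (nat_lit 234) (nat_lit 684) (nat_lit 0) (XT.nd (nat_lit 78) (nat_lit 304) (nat_lit 0) (XT.lf (nat_lit 0) (nat_lit 267442317552) (nat_lit 304) (nat_lit 439970613869) (nat_lit 76) (nat_lit 118597728312) (nat_lit 40) (nat_lit 5) (nat_lit 44) (nat_lit 5) (nat_lit 41) (nat_lit 5) (nat_lit 342) (nat_lit 333) (nat_lit 225)) (XT.nd (nat_lit 78) (nat_lit 152) (nat_lit 0) (XT.lf (nat_lit 0) (nat_lit 423414569297) (nat_lit 152) (nat_lit 152222959503) (nat_lit 228) (nat_lit 324693319349) (nat_lit 38) (nat_lit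 5) (nat_lit 40) (nat_lit 5) (nat_lit 41) (nat_lit 5) (nat_lit 343) (nat_lit 333) (nat_lit 224)) (XT.lf (nat_lit 0) (nat_lit 469642942108) (nat_lit 152) (nat_lit 496550154346) (nat_lit 228) (nat_lit 16715482431) (nat_lit 36) (nat_lit 5) (nat_lit 38) (nat_lit 5) (nat_lit 39) (nat_lit 5) (nat_lit 344) (nat_lit 333) (nat_lit 223)))) (XT.nd (nat_lit 156) (nat_lit 304) (nat_lit 0) (XT.nd (nat_lit 78) (nat_lit 152) (nat_lit 0) (XT.lf (nat_lit 0) (nat_lit 355772672480) (nat_lit 228) (nat_lit 555059164786) (nat_lit 76) (nat_lit 163576283384) (nat_lit 33) (nat_lit 5) (nat_lit 36) (nat_lit 5) (nat_lit 34) (nat_lit 5) (nat_lit 345) (nat_lit 333) (nat_lit 222)) (XT.lf (nat_lit 0) (nat_lit 573610892677) (nat_lit 152) (nat_lit 252421534034) (nat_lit 228) (nat_lit 350134383987) (nat_lit 31) (nat_lit 5) (nat_lit 33) (nat_lit 5) (nat_lit 34) (nat_lit 5) (nat_lit 346) (nat_lit 333) (nat_lit 221))) (XT.nd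 (nat_lit 78) (nat_lit 152) (nat_lit 0) (XT.lf (nat_lit 0) (nat_lit 115026434030) (nat_lit 152) (nat_lit 660214743378) (nat_lit 76) (nat_lit 514200963241) (nat_lit 29) (nat_lit 5) (nat_lit 31) (nat_lit 5) (nat_lit 30) (nat_lit 5) (nat_lit 347) (nat_lit 333) (nat_lit 220)) (XT.lf (nat_lit 0) (nat_lit 671408387305) (nat_lit 228) (nat_lit 734957187295) (nat_lit 76) (nat_lit 9241333518) (nat_lit 27) (nat_lit 5) (nat_lit 30) (nat_lit 5) (nat_lit 28) (nat_lit 4) (nat_lit 348) (nat_lit 333) (nat_lit 219))))) (XT.nd (nat_lit 312) (nat_lit 304) (nat_lit 0) (XT.nd (nat_lit 156) (nat_lit 228) (nat_lit 0) (XT.nd (nat_lit 78) (nat_lit 228) (nat_lit 0) (XT.lf (nat_lit 0) (nat_lit 717413124675) (nat_lit 76) (nat_lit 652250236394) (nat_lit 152) (nat_lit 186359771453) (nat_lit 26) (nat_lit 5) (nat_lit 27) (nat_lit 5) (nat_lit 28) (nat_lit 4) (nat_lit 349) (nat_lit 333) (nat_lit 218)) (XT.lf (nat_lit 0) (nat_lit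 478672095539) (nat_lit 228) (nat_lit 977960833355) (nat_lit 76) (nat_lit 256290263713) (nat_lit 23) (nat_lit 5) (nat_lit 26) (nat_lit 5) (nat_lit 24) (nat_lit 4) (nat_lit 350) (nat_lit 333) (nat_lit 217))) (XT.nd (nat_lit 78) (nat_lit 152) (nat_lit 0) (XT.lf (nat_lit 0) (nat_lit 715935098402) (nat_lit 76) (nat_lit 577110052514) (nat_lit 152) (nat_lit 595076190803) (nat_lit 22) (nat_lit 5) (nat_lit 23) (nat_lit 5) (nat_lit 24) (nat_lit 4) (nat_lit 351) (nat_lit 333) (nat_lit 216)) (XT.lf (nat_lit 0) (nat_lit 189884796056) (nat_lit 152) (nat_lit 1432445953716) (nat_lit 76) (nat_lit 462446194667) (nat_lit 20) (nat_lit 5) (nat_lit 22) (nat_lit 5) (nat_lit 21) (nat_lit 4) (nat_lit 352) (nat_lit 333) (nat_lit 215)))) (XT.nd (nat_lit 156) (nat_lit 152) (nat_lit 0) (XT.nd (nat_lit 78) (nat_lit 76) (nat_lit 0) (XT.lf (nat_lit 0) (nat_lit 505278988392) (nat_lit 76) (nat_lit 616204345409) (nat_lit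 152) (nat_lit 1183080747505) (nat_lit 19) (nat_lit 5) (nat_lit 20) (nat_lit 5) (nat_lit 21) (nat_lit 4) (nat_lit 353) (nat_lit 333) (nat_lit 214)) (XT.lf (nat_lit 0) (nat_lit 265621235985) (nat_lit 76) (nat_lit 1989383178900) (nat_lit 76) (nat_lit 297340252809) (nat_lit 18) (nat_lit 4) (nat_lit 19) (nat_lit 5) (nat_lit 19) (nat_lit 4) (nat_lit 354) (nat_lit 333) (nat_lit 213))) (XT.nd (nat_lit 78) (nat_lit 76) (nat_lit 0) (XT.lf (nat_lit 0) (nat_lit 755968452770) (nat_lit 152) (nat_lit 119628555811) (nat_lit 76) (nat_lit 1954644621398) (nat_lit 17) (nat_lit 5) (nat_lit 19) (nat_lit 5) (nat_lit 18) (nat_lit 4) (nat_lit 355) (nat_lit 333) (nat_lit 212)) (XT.lf (nat_lit 0) (nat_lit 2021538770865) (nat_lit 152) (nat_lit 667084484512) (nat_lit 0) (nat_lit 454832337939) (nat_lit 16) (nat_lit 5) (nat_lit 18) (nat_lit 4) (nat_lit 16) (nat_lit 4) (nat_lit 356) (nat_lit 333) (nat_lit 211))))))))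
noncomputable def xc55 : XT := (XT.nd (nat_lit 46410) (nat_lit 0) (nat_lit 0) (XT.nd (nat_lit 45240) (nat_lit 0) (nat_lit 1520) (XT.nd (nat_lit 546) (nat_lit 228) (nat_lit 0) (XT.nd (nat_lit 234) (nat_lit 228) (nat_lit 0) (XT.nd (nat_lit 78) (nat_lit 152) (nat_lit 0) (XT.lf (nat_lit 0) (nat_lit 53565232004) (nat_lit 152) (nat_lit 1455290758395) (nat_lit 76) (nat_lit 1988532144830) (nat_lit 14) (nat_lit 5) (nat_lit 16) (nat_lit 5) (nat_lit 15) (nat_lit 4) (nat_lit 357) (nat_lit 333) (nat_lit 210)) (XT.nd (nat_lit 78) (nat_lit 76) (nat_lit 0) (XT.lf (nat_lit 0) (nat_lit 1330204578024) (nat_lit 76) (nat_lit 62541107543) (nat_lit 152) (nat_lit 2505029130207) (nat_lit 13) (nat_lit 5) (nat_lit 14) (nat_lit 5) (nat_lit 15) (nat_lit 4) (nat_lit 358) (nat_lit 333) (nat_lit 209)) (XT.lf (nat_lit 0) (nat_lit 239189567992) (nat_lit 76) (nat_lit 2781333243102) (nat_lit 76) (nat_lit 1330679118995) (nat_lit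 12) (nat_lit 4) (nat_lit 13) (nat_lit 5) (nat_lit 13) (nat_lit 4) (nat_lit 359) (nat_lit 333) (nat_lit 208)))) (XT.nd (nat_lit 156) (nat_lit 76) (nat_lit 0) (XT.nd (nat_lit 78) (nat_lit 76) (nat_lit 0) (XT.lf (nat_lit 0) (nat_lit 97255123563) (nat_lit 152) (nat_lit 1248363471990) (nat_lit 76) (nat_lit 3520712505664) (nat_lit 11) (nat_lit 5) (nat_lit 13) (nat_lit 5) (nat_lit 12) (nat_lit 4) (nat_lit 360) (nat_lit 333) (nat_lit 207)) (XT.lf (nat_lit 0) (nat_lit 1723287334953) (nat_lit 152) (nat_lit 3347572291273) (nat_lit 0) (nat_lit 380089063418) (nat_lit 10) (nat_lit 5) (nat_lit 12) (nat_lit 4) (nat_lit 10) (nat_lit 4) (nat_lit 361) (nat_lit 333) (nat_lit 206))) (XT.nd (nat_lit 78) (nat_lit 76) (nat_lit 0) (XT.lf (nat_lit 0) (nat_lit 3667729630256) (nat_lit 152) (nat_lit 125037510614) (nat_lit 0) (nat_lit 2324531355294) (nat_lit 10) (nat_lit 5) (nat_lit 12) (nat_lit 4) (nat_lit 10) (nat_lit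 4) (nat_lit 362) (nat_lit 333) (nat_lit 205)) (XT.lf (nat_lit 0) (nat_lit 3769440131057) (nat_lit 76) (nat_lit 2225053255601) (nat_lit 76) (nat_lit 881854977659) (nat_lit 9) (nat_lit 4) (nat_lit 10) (nat_lit 5) (nat_lit 10) (nat_lit 4) (nat_lit 363) (nat_lit 333) (nat_lit 204))))) (XT.nd (nat_lit 234) (nat_lit 76) (nat_lit 0) (XT.nd (nat_lit 78) (nat_lit 0) (nat_lit 0) (XT.lf (nat_lit 0) (nat_lit 509962170182) (nat_lit 76) (nat_lit 380980354199) (nat_lit 152) (nat_lit 6855261193311) (nat_lit 7) (nat_lit 5) (nat_lit 8) (nat_lit 5) (nat_lit 9) (nat_lit 4) (nat_lit 364) (nat_lit 333) (nat_lit 203)) (XT.nd (nat_lit 78) (nat_lit 0) (nat_lit 0) (XT.lf (nat_lit 0) (nat_lit 3013572255716) (nat_lit 152) (nat_lit 3950372289651) (nat_lit 0) (nat_lit 1769870142025) (nat_lit 7) (nat_lit 5) (nat_lit 9) (nat_lit 4) (nat_lit 7) (nat_lit 4) (nat_lit 365) (nat_lit 333) (nat_lit 202)) (XT.lf (nat_lit 0) (nat_lit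 5465133414577) (nat_lit 152) (nat_lit 182159631472) (nat_lit 0) (nat_lit 4221431299072) (nat_lit 7) (nat_lit 5) (nat_lit 9) (nat_lit 4) (nat_lit 7) (nat_lit 4) (nat_lit 366) (nat_lit 333) (nat_lit 201)))) (XT.nd (nat_lit 44304) (nat_lit 0) (nat_lit 4180) (XT.nd (nat_lit 78) (nat_lit 0) (nat_lit 0) (XT.lf (nat_lit 0) (nat_lit 4369884220380) (nat_lit 76) (nat_lit 4019640341521) (nat_lit 76) (nat_lit 2775938224438) (nat_lit 6) (nat_lit 4) (nat_lit 7) (nat_lit 5) (nat_lit 7) (nat_lit 4) (nat_lit 367) (nat_lit 333) (nat_lit 200)) (XT.lf (nat_lit 0) (nat_lit 9615765673010) (nat_lit 76) (nat_lit 2142112084543) (nat_lit 76) (nat_lit 898409966089) (nat_lit 6) (nat_lit 4) (nat_lit 7) (nat_lit 5) (nat_lit 7) (nat_lit 4) (nat_lit 368) (nat_lit 333) (nat_lit 199))) (XT.nd (nat_lit 78) (nat_lit 0) (nat_lit 0) (XT.lf (nat_lit 0) (nat_lit 199570328743) (nat_lit 532) (nat_lit 18029687646) (nat_lit 532)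 (nat_lit 18029687646) (nat_lit 61) (nat_lit 3) (nat_lit 68) (nat_lit 3) (nat_lit 68) (nat_lit 5) (nat_lit 334) (nat_lit 334) (nat_lit 232)) (XT.lf (nat_lit 76) (nat_lit 410417429591) (nat_lit 0) (nat_lit 28529821163) (nat_lit 532) (nat_lit 66866928802) (nat_lit 62) (nat_lit 5) (nat_lit 61) (nat_lit 3) (nat_lit 68) (nat_lit 5) (nat_lit 335) (nat_lit 334) (nat_lit 231)))))) (XT.nd (nat_lit 546) (nat_lit 1292) (nat_lit 0) (XT.nd (nat_lit 234) (nat_lit 988) (nat_lit 0) (XT.nd (nat_lit 78) (nat_lit 456) (nat_lit 0) (XT.lf (nat_lit 76) (nat_lit 389475696384) (nat_lit 0) (nat_lit 116254396073) (nat_lit 532) (nat_lit 38141653658) (nat_lit 63) (nat_lit 5) (nat_lit 62) (nat_lit 5) (nat_lit 69) (nat_lit 5) (nat_lit 336) (nat_lit 334) (nat_lit 230)) (XT.nd (nat_lit 78) (nat_lit 0) (nat_lit 76) (XT.lf (nat_lit 0) (nat_lit 17059458489) (nat_lit 532) (nat_lit 211751834630) (nat_lit 608) (nat_lit 357083558150)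 (nat_lit 56) (nat_lit 5) (nat_lit 63) (nat_lit 5) (nat_lit 64) (nat_lit 5) (nat_lit 337) (nat_lit 334) (nat_lit 229)) (XT.lf (nat_lit 0) (nat_lit 101762812738) (nat_lit 532) (nat_lit 267791107473) (nat_lit 76) (nat_lit 262709807733) (nat_lit 57) (nat_lit 5) (nat_lit 64) (nat_lit 5) (nat_lit 58) (nat_lit 5) (nat_lit 338) (nat_lit 334) (nat_lit 228)))) (XT.nd (nat_lit 156) (nat_lit 456) (nat_lit 0) (XT.nd (nat_lit 78) (nat_lit 228) (nat_lit 0) (XT.lf (nat_lit 0) (nat_lit 224157524040) (nat_lit 456) (nat_lit 320668027051) (nat_lit 76) (nat_lit 138763516781) (nat_lit 52) (nat_lit 5) (nat_lit 58) (nat_lit 5) (nat_lit 53) (nat_lit 5) (nat_lit 339) (nat_lit 334) (nat_lit 227)) (XT.lf (nat_lit 0) (nat_lit 370581615982) (nat_lit 228) (nat_lit 21462170138) (nat_lit 304) (nat_lit 348398835200) (nat_lit 49) (nat_lit 5) (nat_lit 52) (nat_lit 5) (nat_lit 53) (nat_lit 5) (nat_lit 340) (nat_lit 334) (nat_lit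 226))) (XT.nd (nat_lit 78) (nat_lit 228) (nat_lit 0) (XT.lf (nat_lit 0) (nat_lit 384913672087) (nat_lit 228) (nat_lit 232993615821) (nat_lit 304) (nat_lit 185293375894) (nat_lit 46) (nat_lit 5) (nat_lit 49) (nat_lit 5) (nat_lit 50) (nat_lit 5) (nat_lit 341) (nat_lit 334) (nat_lit 225)) (XT.lf (nat_lit 0) (nat_lit 33476048829) (nat_lit 228) (nat_lit 462255302860) (nat_lit 76) (nat_lit 377131710606) (nat_lit 43) (nat_lit 5) (nat_lit 46) (nat_lit 5) (nat_lit 44) (nat_lit 5) (nat_lit 342) (nat_lit 334) (nat_lit 224))))) (XT.nd (nat_lit 312) (nat_lit 532) (nat_lit 0) (XT.nd (nat_lit 156) (nat_lit 380) (nat_lit 0) (XT.nd (nat_lit 78) (nat_lit 152) (nat_lit 0) (XT.lf (nat_lit 0) (nat_lit 307559127365) (nat_lit 304) (nat_lit 505965563396) (nat_lit 76) (nat_lit 136387530584) (nat_lit 40) (nat_lit 5) (nat_lit 44) (nat_lit 5) (nat_lit 41) (nat_lit 5) (nat_lit 343) (nat_lit 334) (nat_lit 223)) (XT.lf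 (nat_lit 0) (nat_lit 486927342857) (nat_lit 152) (nat_lit 175056231305) (nat_lit 228) (nat_lit 373396867602) (nat_lit 38) (nat_lit 5) (nat_lit 40) (nat_lit 5) (nat_lit 41) (nat_lit 5) (nat_lit 344) (nat_lit 334) (nat_lit 222))) (XT.nd (nat_lit 78) (nat_lit 228) (nat_lit 0) (XT.lf (nat_lit 0) (nat_lit 540089948779) (nat_lit 152) (nat_lit 571032491116) (nat_lit 228) (nat_lit 19222395224) (nat_lit 36) (nat_lit 5) (nat_lit 38) (nat_lit 5) (nat_lit 39) (nat_lit 5) (nat_lit 345) (nat_lit 334) (nat_lit 221)) (XT.lf (nat_lit 0) (nat_lit 409138929044) (nat_lit 228) (nat_lit 638317479139) (nat_lit 76) (nat_lit 188112901881) (nat_lit 33) (nat_lit 5) (nat_lit 36) (nat_lit 5) (nat_lit 34) (nat_lit 5) (nat_lit 346) (nat_lit 334) (nat_lit 220)))) (XT.nd (nat_lit 156) (nat_lit 228) (nat_lit 0) (XT.nd (nat_lit 78) (nat_lit 152) (nat_lit 0) (XT.lf (nat_lit 0) (nat_lit 659653039510) (nat_lit 152) (nat_lit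 290284572841) (nat_lit 228) (nat_lit 402654194024) (nat_lit 31) (nat_lit 5) (nat_lit 33) (nat_lit 5) (nat_lit 34) (nat_lit 5) (nat_lit 347) (nat_lit 334) (nat_lit 219)) (XT.lf (nat_lit 0) (nat_lit 132280702414) (nat_lit 152) (nat_lit 759246449718) (nat_lit 76) (nat_lit 591331285192) (nat_lit 29) (nat_lit 5) (nat_lit 31) (nat_lit 5) (nat_lit 30) (nat_lit 5) (nat_lit 348) (nat_lit 334) (nat_lit 218))) (XT.nd (nat_lit 78) (nat_lit 76) (nat_lit 0) (XT.lf (nat_lit 0) (nat_lit 772119924754) (nat_lit 228) (nat_lit 845200285367) (nat_lit 76) (nat_lit 10627711728) (nat_lit 27) (nat_lit 5) (nat_lit 30) (nat_lit 5) (nat_lit 28) (nat_lit 4) (nat_lit 349) (nat_lit 334) (nat_lit 217)) (XT.lf (nat_lit 0) (nat_lit 825025532767) (nat_lit 76) (nat_lit 750087585946) (nat_lit 152) (nat_lit 214313463288) (nat_lit 26) (nat_lit 5) (nat_lit 27) (nat_lit 5) (nat_lit 28) (nat_lit 4) (nat_lit 350) (nat_lit 334) (nat_lit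 216))))))) (XT.nd (nat_lit 1092) (nat_lit 228) (nat_lit 0) (XT.nd (nat_lit 546) (nat_lit 532) (nat_lit 0) (XT.nd (nat_lit 234) (nat_lit 304) (nat_lit 0) (XT.nd (nat_lit 78) (nat_lit 228) (nat_lit 0) (XT.lf (nat_lit 0) (nat_lit 550473150388) (nat_lit 228) (nat_lit 1124654528819) (nat_lit 76) (nat_lit 294733972954) (nat_lit 23) (nat_lit 5) (nat_lit 26) (nat_lit 5) (nat_lit 24) (nat_lit 4) (nat_lit 351) (nat_lit 334) (nat_lit 215)) (XT.nd (nat_lit 78) (nat_lit 152) (nat_lit 0) (XT.lf (nat_lit 0) (nat_lit 823325756344) (nat_lit 76) (nat_lit 663676385812) (nat_lit 152) (nat_lit 684337383249) (nat_lit 22) (nat_lit 5) (nat_lit 23) (nat_lit 5) (nat_lit 24) (nat_lit 4) (nat_lit 352) (nat_lit 334) (nat_lit 214)) (XT.lf (nat_lit 0) (nat_lit 218367723488) (nat_lit 152) (nat_lit 1647312463609) (nat_lit 76) (nat_lit 531813282298) (nat_lit 20) (nat_lit 5) (nat_lit 22) (nat_lit 5) (nat_lit 21) (nat_lit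 4) (nat_lit 353) (nat_lit 334) (nat_lit 213)))) (XT.nd (nat_lit 156) (nat_lit 152) (nat_lit 0) (XT.nd (nat_lit 78) (nat_lit 76) (nat_lit 0) (XT.lf (nat_lit 0) (nat_lit 581071187382) (nat_lit 76) (nat_lit 708634835815) (nat_lit 152) (nat_lit 1360542655100) (nat_lit 19) (nat_lit 5) (nat_lit 20) (nat_lit 5) (nat_lit 21) (nat_lit 4) (nat_lit 354) (nat_lit 334) (nat_lit 212)) (XT.lf (nat_lit 0) (nat_lit 305464752792) (nat_lit 76) (nat_lit 2287790500303) (nat_lit 76) (nat_lit 341941100624) (nat_lit 18) (nat_lit 4) (nat_lit 19) (nat_lit 5) (nat_lit 19) (nat_lit 4) (nat_lit 355) (nat_lit 334) (nat_lit 211))) (XT.nd (nat_lit 78) (nat_lit 76) (nat_lit 0) (XT.lf (nat_lit 0) (nat_lit 869363877726) (nat_lit 152) (nat_lit 137572542690) (nat_lit 76) (nat_lit 2247841441455) (nat_lit 17) (nat_lit 5) (nat_lit 19) (nat_lit 5) (nat_lit 18) (nat_lit 4) (nat_lit 356) (nat_lit 334) (nat_lit 210)) (XT.lf (nat_lit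 0) (nat_lit 2324769732664) (nat_lit 152) (nat_lit 767146877397) (nat_lit 0) (nat_lit 523057310523) (nat_lit 16) (nat_lit 5) (nat_lit 18) (nat_lit 4) (nat_lit 16) (nat_lit 4) (nat_lit 357) (nat_lit 334) (nat_lit 209))))) (XT.nd (nat_lit 234) (nat_lit 228) (nat_lit 0) (XT.nd (nat_lit 78) (nat_lit 152) (nat_lit 0) (XT.lf (nat_lit 0) (nat_lit 61600153559) (nat_lit 152) (nat_lit 1673584108815) (nat_lit 76) (nat_lit 2286812082170) (nat_lit 14) (nat_lit 5) (nat_lit 16) (nat_lit 5) (nat_lit 15) (nat_lit 4) (nat_lit 358) (nat_lit 334) (nat_lit 208)) (XT.nd (nat_lit 78) (nat_lit 76) (nat_lit 0) (XT.lf (nat_lit 0) (nat_lit 1529735505777) (nat_lit 76) (nat_lit 71922157339) (nat_lit 152) (nat_lit 2880783365022) (nat_lit 13) (nat_lit 5) (nat_lit 14) (nat_lit 5) (nat_lit 15) (nat_lit 4) (nat_lit 359) (nat_lit 334) (nat_lit 207)) (XT.lf (nat_lit 0) (nat_lit 275068230431) (nat_lit 76) (nat_lit 3198533118673)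 (nat_lit 76) (nat_lit 1530280861170) (nat_lit 12) (nat_lit 4) (nat_lit 13) (nat_lit 5) (nat_lit 13) (nat_lit 4) (nat_lit 360) (nat_lit 334) (nat_lit 206)))) (XT.nd (nat_lit 156) (nat_lit 76) (nat_lit 0) (XT.nd (nat_lit 78) (nat_lit 76) (nat_lit 0) (XT.lf (nat_lit 0) (nat_lit 111843495913) (nat_lit 152) (nat_lit 1435617789704) (nat_lit 76) (nat_lit 4048819472459) (nat_lit 11) (nat_lit 5) (nat_lit 13) (nat_lit 5) (nat_lit 12) (nat_lit 4) (nat_lit 361) (nat_lit 334) (nat_lit 205)) (XT.lf (nat_lit 0) (nat_lit 1981780532134) (nat_lit 152) (nat_lit 3849707943667) (nat_lit 0) (nat_lit 437102509521) (nat_lit 10) (nat_lit 5) (nat_lit 12) (nat_lit 4) (nat_lit 10) (nat_lit 4) (nat_lit 362) (nat_lit 334) (nat_lit 204))) (XT.nd (nat_lit 78) (nat_lit 76) (nat_lit 0) (XT.lf (nat_lit 0) (nat_lit 4217889159088) (nat_lit 152) (nat_lit 143792970860) (nat_lit 0) (nat_lit 2673211133883) (nat_lit 10) (nat_lit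 5) (nat_lit 12) (nat_lit 4) (nat_lit 10) (nat_lit 4) (nat_lit 363) (nat_lit 334) (nat_lit 203)) (XT.lf (nat_lit 0) (nat_lit 4334856302980) (nat_lit 76) (nat_lit 2558811168637) (nat_lit 76) (nat_lit 1014133141179) (nat_lit 9) (nat_lit 4) (nat_lit 10) (nat_lit 5) (nat_lit 10) (nat_lit 4) (nat_lit 364) (nat_lit 334) (nat_lit 202)))))) (XT.nd (nat_lit 44772) (nat_lit 0) (nat_lit 2432) (XT.nd (nat_lit 234) (nat_lit 76) (nat_lit 0) (XT.nd (nat_lit 78) (nat_lit 0) (nat_lit 0) (XT.lf (nat_lit 0) (nat_lit 586456638903) (nat_lit 76) (nat_lit 438127336250) (nat_lit 152) (nat_lit 7883550294416) (nat_lit 7) (nat_lit 5) (nat_lit 8) (nat_lit 5) (nat_lit 9) (nat_lit 4) (nat_lit 365) (nat_lit 334) (nat_lit 201)) (XT.nd (nat_lit 78) (nat_lit 0) (nat_lit 0) (XT.lf (nat_lit 0) (nat_lit 3465608158268) (nat_lit 152) (nat_lit 4542928005045) (nat_lit 0) (nat_lit 2035350722045) (nat_lit 7) (nat_lit 5) (nat_lit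 9) (nat_lit 4) (nat_lit 7) (nat_lit 4) (nat_lit 366) (nat_lit 334) (nat_lit 200)) (XT.lf (nat_lit 0) (nat_lit 6284903482585) (nat_lit 152) (nat_lit 209483464842) (nat_lit 0) (nat_lit 4854646044990) (nat_lit 7) (nat_lit 5) (nat_lit 9) (nat_lit 4) (nat_lit 7) (nat_lit 4) (nat_lit 367) (nat_lit 334) (nat_lit 199)))) (XT.nd (nat_lit 44382) (nat_lit 0) (nat_lit 4180) (XT.nd (nat_lit 44304) (nat_lit 0) (nat_lit 4180) (XT.lf (nat_lit 0) (nat_lit 5025366955363) (nat_lit 76) (nat_lit 4622586341815) (nat_lit 76) (nat_lit 3192328903027) (nat_lit 6) (nat_lit 4) (nat_lit 7) (nat_lit 5) (nat_lit 7) (nat_lit 4) (nat_lit 368) (nat_lit 334) (nat_lit 198)) (XT.lf (nat_lit 0) (nat_lit 229506352466) (nat_lit 532) (nat_lit 20733884321) (nat_lit 532) (nat_lit 20733884321) (nat_lit 61) (nat_lit 3) (nat_lit 68) (nat_lit 3) (nat_lit 68) (nat_lit 5) (nat_lit 335) (nat_lit 335) (nat_lit 230))) (XT.nd (nat_lit 78)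 (nat_lit 0) (nat_lit 76) (XT.lf (nat_lit 76) (nat_lit 471980513555) (nat_lit 0) (nat_lit 32809661167) (nat_lit 532) (nat_lit 76896063851) (nat_lit 62) (nat_lit 5) (nat_lit 61) (nat_lit 3) (nat_lit 68) (nat_lit 5) (nat_lit 336) (nat_lit 335) (nat_lit 229)) (XT.lf (nat_lit 76) (nat_lit 447897550867) (nat_lit 0) (nat_lit 133692787078) (nat_lit 532) (nat_lit 43862110682) (nat_lit 63) (nat_lit 5) (nat_lit 62) (nat_lit 5) (nat_lit 69) (nat_lit 5) (nat_lit 337) (nat_lit 335) (nat_lit 228))))) (XT.nd (nat_lit 312) (nat_lit 836) (nat_lit 0) (XT.nd (nat_lit 156) (nat_lit 532) (nat_lit 0) (XT.nd (nat_lit 78) (nat_lit 0) (nat_lit 76) (XT.lf (nat_lit 0) (nat_lit 19619038494) (nat_lit 532) (nat_lit 243514057123) (nat_lit 608) (nat_lit 410645929739) (nat_lit 56) (nat_lit 5) (nat_lit 63) (nat_lit 5) (nat_lit 64) (nat_lit 5) (nat_lit 338) (nat_lit 335) (nat_lit 227)) (XT.lf (nat_lit 0) (nat_lit 117027819846)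 (nat_lit 532) (nat_lit 307959218137) (nat_lit 76) (nat_lit 302116201723) (nat_lit 57) (nat_lit 5) (nat_lit 64) (nat_lit 5) (nat_lit 58) (nat_lit 5) (nat_lit 339) (nat_lit 335) (nat_lit 226))) (XT.nd (nat_lit 78) (nat_lit 228) (nat_lit 0) (XT.lf (nat_lit 0) (nat_lit 257781673438) (nat_lit 456) (nat_lit 368767680143) (nat_lit 76) (nat_lit 159578032276) (nat_lit 52) (nat_lit 5) (nat_lit 58) (nat_lit 5) (nat_lit 53) (nat_lit 5) (nat_lit 340) (nat_lit 335) (nat_lit 225)) (XT.lf (nat_lit 0) (nat_lit 426169362709) (nat_lit 228) (nat_lit 24681456320) (nat_lit 304) (nat_lit 400658157826) (nat_lit 49) (nat_lit 5) (nat_lit 52) (nat_lit 5) (nat_lit 53) (nat_lit 5) (nat_lit 341) (nat_lit 335) (nat_lit 224)))) (XT.nd (nat_lit 156) (nat_lit 380) (nat_lit 0) (XT.nd (nat_lit 78) (nat_lit 228) (nat_lit 0) (XT.lf (nat_lit 0) (nat_lit 442651218150) (nat_lit 228) (nat_lit 267942580018) (nat_lit 304) (nat_lit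 213086931436) (nat_lit 46) (nat_lit 5) (nat_lit 49) (nat_lit 5) (nat_lit 50) (nat_lit 5) (nat_lit 342) (nat_lit 335) (nat_lit 223)) (XT.lf (nat_lit 0) (nat_lit 38497842162) (nat_lit 228) (nat_lit 531593095119) (nat_lit 76) (nat_lit 433701553153) (nat_lit 43) (nat_lit 5) (nat_lit 46) (nat_lit 5) (nat_lit 44) (nat_lit 5) (nat_lit 343) (nat_lit 335) (nat_lit 222))) (XT.nd (nat_lit 78) (nat_lit 152) (nat_lit 0) (XT.lf (nat_lit 0) (nat_lit 353693345945) (nat_lit 304) (nat_lit 581859912042) (nat_lit 76) (nat_lit 156845768319) (nat_lit 40) (nat_lit 5) (nat_lit 44) (nat_lit 5) (nat_lit 41) (nat_lit 5) (nat_lit 344) (nat_lit 335) (nat_lit 221)) (XT.lf (nat_lit 0) (nat_lit 559966889023) (nat_lit 152) (nat_lit 201314535851) (nat_lit 228) (nat_lit 429406057742) (nat_lit 38) (nat_lit 5) (nat_lit 40) (nat_lit 5) (nat_lit 41) (nat_lit 5) (nat_lit 345) (nat_lit 335) (nat_lit 220))))))))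
noncomputable def xc56 : XT := (XT.nd (nat_lit 46488) (nat_lit 0) (nat_lit 0) (XT.nd (nat_lit 1092) (nat_lit 532) (nat_lit 0) (XT.nd (nat_lit 546) (nat_lit 684) (nat_lit 0) (XT.nd (nat_lit 234) (nat_lit 608) (nat_lit 0) (XT.nd (nat_lit 78) (nat_lit 380) (nat_lit 0) (XT.lf (nat_lit 0) (nat_lit 621103868585) (nat_lit 152) (nat_lit 656687223852) (nat_lit 228) (nat_lit 22105444813) (nat_lit 36) (nat_lit 5) (nat_lit 38) (nat_lit 5) (nat_lit 39) (nat_lit 5) (nat_lit 346) (nat_lit 335) (nat_lit 219)) (XT.nd (nat_lit 78) (nat_lit 152) (nat_lit 0) (XT.lf (nat_lit 0) (nat_lit 470510037354) (nat_lit 228) (nat_lit 734064677295) (nat_lit 76) (nat_lit 216329970237) (nat_lit 33) (nat_lit 5) (nat_lit 36) (nat_lit 5) (nat_lit 34) (nat_lit 5) (nat_lit 347) (nat_lit 335) (nat_lit 218)) (XT.lf (nat_lit 0) (nat_lit 758601383287) (nat_lit 152) (nat_lit 333827114117) (nat_lit 228) (nat_lit 463052060321) (nat_lit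 31) (nat_lit 5) (nat_lit 33) (nat_lit 5) (nat_lit 34) (nat_lit 5) (nat_lit 348) (nat_lit 335) (nat_lit 217)))) (XT.nd (nat_lit 156) (nat_lit 304) (nat_lit 0) (XT.nd (nat_lit 78) (nat_lit 152) (nat_lit 0) (XT.lf (nat_lit 0) (nat_lit 152123037100) (nat_lit 152) (nat_lit 873133035197) (nat_lit 76) (nat_lit 680031112160) (nat_lit 29) (nat_lit 5) (nat_lit 31) (nat_lit 5) (nat_lit 30) (nat_lit 5) (nat_lit 349) (nat_lit 335) (nat_lit 216)) (XT.lf (nat_lit 0) (nat_lit 887938124699) (nat_lit 228) (nat_lit 971979965207) (nat_lit 76) (nat_lit 12222003218) (nat_lit 27) (nat_lit 5) (nat_lit 30) (nat_lit 5) (nat_lit 28) (nat_lit 4) (nat_lit 350) (nat_lit 335) (nat_lit 215))) (XT.nd (nat_lit 78) (nat_lit 228) (nat_lit 0) (XT.lf (nat_lit 0) (nat_lit 948779694924) (nat_lit 76) (nat_lit 862600583266) (nat_lit 152) (nat_lit 246460275687) (nat_lit 26) (nat_lit 5) (nat_lit 27) (nat_lit 5) (nat_lit 28) (nat_lit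 4) (nat_lit 351) (nat_lit 335) (nat_lit 214)) (XT.lf (nat_lit 0) (nat_lit 633044304812) (nat_lit 228) (nat_lit 1293352383348) (nat_lit 76) (nat_lit 338944197203) (nat_lit 23) (nat_lit 5) (nat_lit 26) (nat_lit 5) (nat_lit 24) (nat_lit 4) (nat_lit 352) (nat_lit 335) (nat_lit 213))))) (XT.nd (nat_lit 234) (nat_lit 380) (nat_lit 0) (XT.nd (nat_lit 78) (nat_lit 228) (nat_lit 0) (XT.lf (nat_lit 0) (nat_lit 946824917097) (nat_lit 76) (nat_lit 763227711676) (nat_lit 152) (nat_lit 786987812155) (nat_lit 22) (nat_lit 5) (nat_lit 23) (nat_lit 5) (nat_lit 24) (nat_lit 4) (nat_lit 353) (nat_lit 335) (nat_lit 212)) (XT.nd (nat_lit 78) (nat_lit 76) (nat_lit 0) (XT.lf (nat_lit 0) (nat_lit 251123039308) (nat_lit 152) (nat_lit 1894409043423) (nat_lit 76) (nat_lit 611585394439) (nat_lit 20) (nat_lit 5) (nat_lit 22) (nat_lit 5) (nat_lit 21) (nat_lit 4) (nat_lit 354) (nat_lit 335) (nat_lit 211)) (XT.lf (nat_lit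 0) (nat_lit 668232130693) (nat_lit 76) (nat_lit 814929939141) (nat_lit 152) (nat_lit 1564623898710) (nat_lit 19) (nat_lit 5) (nat_lit 20) (nat_lit 5) (nat_lit 21) (nat_lit 4) (nat_lit 355) (nat_lit 335) (nat_lit 210)))) (XT.nd (nat_lit 156) (nat_lit 228) (nat_lit 0) (XT.nd (nat_lit 78) (nat_lit 76) (nat_lit 0) (XT.lf (nat_lit 0) (nat_lit 351284716303) (nat_lit 76) (nat_lit 2630958957819) (nat_lit 76) (nat_lit 393232121970) (nat_lit 18) (nat_lit 4) (nat_lit 19) (nat_lit 5) (nat_lit 19) (nat_lit 4) (nat_lit 356) (nat_lit 335) (nat_lit 209)) (XT.lf (nat_lit 0) (nat_lit 999768578130) (nat_lit 152) (nat_lit 158208199903) (nat_lit 76) (nat_lit 2585017753588) (nat_lit 17) (nat_lit 5) (nat_lit 19) (nat_lit 5) (nat_lit 18) (nat_lit 4) (nat_lit 357) (nat_lit 335) (nat_lit 208))) (XT.nd (nat_lit 78) (nat_lit 152) (nat_lit 0) (XT.lf (nat_lit 0) (nat_lit 2673485303089) (nat_lit 152) (nat_lit 882218697443)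 (nat_lit 0) (nat_lit 601515999271) (nat_lit 16) (nat_lit 5) (nat_lit 18) (nat_lit 4) (nat_lit 16) (nat_lit 4) (nat_lit 358) (nat_lit 335) (nat_lit 207)) (XT.lf (nat_lit 0) (nat_lit 70840280000) (nat_lit 152) (nat_lit 1924621526015) (nat_lit 76) (nat_lit 2629833981917) (nat_lit 14) (nat_lit 5) (nat_lit 16) (nat_lit 5) (nat_lit 15) (nat_lit 4) (nat_lit 359) (nat_lit 335) (nat_lit 206)))))) (XT.nd (nat_lit 546) (nat_lit 0) (nat_lit 0) (XT.nd (nat_lit 234) (nat_lit 304) (nat_lit 0) (XT.nd (nat_lit 78) (nat_lit 152) (nat_lit 0) (XT.lf (nat_lit 0) (nat_lit 1759196013911) (nat_lit 76) (nat_lit 82710392974) (nat_lit 152) (nat_lit 3312900767910) (nat_lit 13) (nat_lit 5) (nat_lit 14) (nat_lit 5) (nat_lit 15) (nat_lit 4) (nat_lit 360) (nat_lit 335) (nat_lit 205)) (XT.nd (nat_lit 78) (nat_lit 76) (nat_lit 0) (XT.lf (nat_lit 0) (nat_lit 316328636822) (nat_lit 76) (nat_lit 3678313002621) (nat_lit 76)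 (nat_lit 1759822895317) (nat_lit 12) (nat_lit 4) (nat_lit 13) (nat_lit 5) (nat_lit 13) (nat_lit 4) (nat_lit 361) (nat_lit 335) (nat_lit 204)) (XT.lf (nat_lit 0) (nat_lit 128620098799) (nat_lit 152) (nat_lit 1650960304598) (nat_lit 76) (nat_lit 4656142462097) (nat_lit 11) (nat_lit 5) (nat_lit 13) (nat_lit 5) (nat_lit 12) (nat_lit 4) (nat_lit 362) (nat_lit 335) (nat_lit 203)))) (XT.nd (nat_lit 156) (nat_lit 228) (nat_lit 0) (XT.nd (nat_lit 78) (nat_lit 0) (nat_lit 0) (XT.lf (nat_lit 0) (nat_lit 2279047685253) (nat_lit 152) (nat_lit 4427163990569) (nat_lit 0) (nat_lit 502667951423) (nat_lit 10) (nat_lit 5) (nat_lit 12) (nat_lit 4) (nat_lit 10) (nat_lit 4) (nat_lit 363) (nat_lit 335) (nat_lit 202)) (XT.lf (nat_lit 0) (nat_lit 4850572596689) (nat_lit 152) (nat_lit 165361790708) (nat_lit 0) (nat_lit 3074192860900) (nat_lit 10) (nat_lit 5) (nat_lit 12) (nat_lit 4) (nat_lit 10) (nat_lit 4) (nat_lit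 364) (nat_lit 335) (nat_lit 201))) (XT.nd (nat_lit 78) (nat_lit 152) (nat_lit 0) (XT.lf (nat_lit 0) (nat_lit 4985084863562) (nat_lit 76) (nat_lit 2942632786991) (nat_lit 76) (nat_lit 1166253049498) (nat_lit 9) (nat_lit 4) (nat_lit 10) (nat_lit 5) (nat_lit 10) (nat_lit 4) (nat_lit 365) (nat_lit 335) (nat_lit 200)) (XT.lf (nat_lit 0) (nat_lit 674425243012) (nat_lit 76) (nat_lit 503846382942) (nat_lit 152) (nat_lit 9066082779681) (nat_lit 7) (nat_lit 5) (nat_lit 8) (nat_lit 5) (nat_lit 9) (nat_lit 4) (nat_lit 366) (nat_lit 335) (nat_lit 199))))) (XT.nd (nat_lit 44538) (nat_lit 0) (nat_lit 3724) (XT.nd (nat_lit 78) (nat_lit 0) (nat_lit 0) (XT.lf (nat_lit 0) (nat_lit 3985449430548) (nat_lit 152) (nat_lit 5224367108975) (nat_lit 0) (nat_lit 2340653374749) (nat_lit 7) (nat_lit 5) (nat_lit 9) (nat_lit 4) (nat_lit 7) (nat_lit 4) (nat_lit 367) (nat_lit 335) (nat_lit 198)) (XT.nd (nat_lit 44382) (nat_lit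 0) (nat_lit 4104) (XT.lf (nat_lit 0) (nat_lit 7227639047181) (nat_lit 152) (nat_lit 240905900371) (nat_lit 0) (nat_lit 5582842990345) (nat_lit 7) (nat_lit 5) (nat_lit 9) (nat_lit 4) (nat_lit 7) (nat_lit 4) (nat_lit 368) (nat_lit 335) (nat_lit 197)) (XT.lf (nat_lit 0) (nat_lit 263932664059) (nat_lit 532) (nat_lit 23843773040) (nat_lit 532) (nat_lit 23843773040) (nat_lit 61) (nat_lit 3) (nat_lit 68) (nat_lit 3) (nat_lit 68) (nat_lit 5) (nat_lit 336) (nat_lit 336) (nat_lit 228)))) (XT.nd (nat_lit 156) (nat_lit 380) (nat_lit 0) (XT.nd (nat_lit 78) (nat_lit 0) (nat_lit 76) (XT.lf (nat_lit 76) (nat_lit 542777945617) (nat_lit 0) (nat_lit 37731387718) (nat_lit 532) (nat_lit 88429789670) (nat_lit 62) (nat_lit 5) (nat_lit 61) (nat_lit 3) (nat_lit 68) (nat_lit 5) (nat_lit 337) (nat_lit 336) (nat_lit 227)) (XT.lf (nat_lit 76) (nat_lit 515082561588) (nat_lit 0) (nat_lit 153746880258) (nat_lit 532) (nat_lit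 50440829155) (nat_lit 63) (nat_lit 5) (nat_lit 62) (nat_lit 5) (nat_lit 69) (nat_lit 5) (nat_lit 338) (nat_lit 336) (nat_lit 226))) (XT.nd (nat_lit 78) (nat_lit 0) (nat_lit 76) (XT.lf (nat_lit 0) (nat_lit 22562394254) (nat_lit 532) (nat_lit 280040747770) (nat_lit 608) (nat_lit 472242696604) (nat_lit 56) (nat_lit 5) (nat_lit 63) (nat_lit 5) (nat_lit 64) (nat_lit 5) (nat_lit 339) (nat_lit 336) (nat_lit 225)) (XT.lf (nat_lit 0) (nat_lit 134582435316) (nat_lit 532) (nat_lit 354152680852) (nat_lit 76) (nat_lit 347433573631) (nat_lit 57) (nat_lit 5) (nat_lit 64) (nat_lit 5) (nat_lit 58) (nat_lit 5) (nat_lit 340) (nat_lit 336) (nat_lit 224))))))) (XT.nd (nat_lit 1092) (nat_lit 1140) (nat_lit 0) (XT.nd (nat_lit 546) (nat_lit 1064) (nat_lit 0) (XT.nd (nat_lit 234) (nat_lit 760) (nat_lit 0) (XT.nd (nat_lit 78) (nat_lit 456) (nat_lit 0) (XT.lf (nat_lit 0) (nat_lit 296449318246) (nat_lit 456) (nat_lit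 424082415554) (nat_lit 76) (nat_lit 183514728028) (nat_lit 52) (nat_lit 5) (nat_lit 58) (nat_lit 5) (nat_lit 53) (nat_lit 5) (nat_lit 341) (nat_lit 336) (nat_lit 223)) (XT.nd (nat_lit 78) (nat_lit 228) (nat_lit 0) (XT.lf (nat_lit 0) (nat_lit 490095148461) (nat_lit 228) (nat_lit 28383645022) (nat_lit 304) (nat_lit 460756501421) (nat_lit 49) (nat_lit 5) (nat_lit 52) (nat_lit 5) (nat_lit 53) (nat_lit 5) (nat_lit 342) (nat_lit 336) (nat_lit 222)) (XT.lf (nat_lit 0) (nat_lit 509049275353) (nat_lit 228) (nat_lit 308133907908) (nat_lit 304) (nat_lit 245049630249) (nat_lit 46) (nat_lit 5) (nat_lit 49) (nat_lit 5) (nat_lit 50) (nat_lit 5) (nat_lit 343) (nat_lit 336) (nat_lit 221)))) (XT.nd (nat_lit 156) (nat_lit 304) (nat_lit 0) (XT.nd (nat_lit 78) (nat_lit 228) (nat_lit 0) (XT.lf (nat_lit 0) (nat_lit 44272810365) (nat_lit 228) (nat_lit 611331678918) (nat_lit 76) (nat_lit 498756851121) (nat_lit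 43) (nat_lit 5) (nat_lit 46) (nat_lit 5) (nat_lit 44) (nat_lit 5) (nat_lit 344) (nat_lit 336) (nat_lit 220)) (XT.lf (nat_lit 0) (nat_lit 406747612090) (nat_lit 304) (nat_lit 669138531466) (nat_lit 76) (nat_lit 180372715343) (nat_lit 40) (nat_lit 5) (nat_lit 44) (nat_lit 5) (nat_lit 41) (nat_lit 5) (nat_lit 345) (nat_lit 336) (nat_lit 219))) (XT.nd (nat_lit 78) (nat_lit 152) (nat_lit 0) (XT.lf (nat_lit 0) (nat_lit 643962258662) (nat_lit 152) (nat_lit 231511617816) (nat_lit 228) (nat_lit 493816709315) (nat_lit 38) (nat_lit 5) (nat_lit 40) (nat_lit 5) (nat_lit 41) (nat_lit 5) (nat_lit 346) (nat_lit 336) (nat_lit 218)) (XT.lf (nat_lit 0) (nat_lit 714269772115) (nat_lit 152) (nat_lit 755190200865) (nat_lit 228) (nat_lit 25421027360) (nat_lit 36) (nat_lit 5) (nat_lit 38) (nat_lit 5) (nat_lit 39) (nat_lit 5) (nat_lit 347) (nat_lit 336) (nat_lit 217))))) (XT.nd (nat_lit 234) (nat_lit 532) (nat_lit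 0) (XT.nd (nat_lit 78) (nat_lit 304) (nat_lit 0) (XT.lf (nat_lit 0) (nat_lit 541086746325) (nat_lit 228) (nat_lit 844174058499) (nat_lit 76) (nat_lit 248779566395) (nat_lit 33) (nat_lit 5) (nat_lit 36) (nat_lit 5) (nat_lit 34) (nat_lit 5) (nat_lit 348) (nat_lit 336) (nat_lit 216)) (XT.nd (nat_lit 78) (nat_lit 152) (nat_lit 0) (XT.lf (nat_lit 0) (nat_lit 872391884051) (nat_lit 152) (nat_lit 383901071859) (nat_lit 228) (nat_lit 532509670650) (nat_lit 31) (nat_lit 5) (nat_lit 33) (nat_lit 5) (nat_lit 34) (nat_lit 5) (nat_lit 349) (nat_lit 336) (nat_lit 215)) (XT.lf (nat_lit 0) (nat_lit 174941666066) (nat_lit 152) (nat_lit 1004102701646) (nat_lit 76) (nat_lit 782035880450) (nat_lit 29) (nat_lit 5) (nat_lit 31) (nat_lit 5) (nat_lit 30) (nat_lit 5) (nat_lit 350) (nat_lit 336) (nat_lit 214)))) (XT.nd (nat_lit 156) (nat_lit 304) (nat_lit 0) (XT.nd (nat_lit 78) (nat_lit 76) (nat_lit 0) (XT.lf (nat_lit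 0) (nat_lit 1021129003125) (nat_lit 228) (nat_lit 1117776685534) (nat_lit 76) (nat_lit 14055405576) (nat_lit 27) (nat_lit 5) (nat_lit 30) (nat_lit 5) (nat_lit 28) (nat_lit 4) (nat_lit 351) (nat_lit 336) (nat_lit 213)) (XT.lf (nat_lit 0) (nat_lit 1091096900386) (nat_lit 76) (nat_lit 991990564463) (nat_lit 152) (nat_lit 283429160447) (nat_lit 26) (nat_lit 5) (nat_lit 27) (nat_lit 5) (nat_lit 28) (nat_lit 4) (nat_lit 352) (nat_lit 336) (nat_lit 212))) (XT.nd (nat_lit 78) (nat_lit 76) (nat_lit 0) (XT.lf (nat_lit 0) (nat_lit 728001088051) (nat_lit 228) (nat_lit 1487354995259) (nat_lit 76) (nat_lit 389785923800) (nat_lit 23) (nat_lit 5) (nat_lit 26) (nat_lit 5) (nat_lit 24) (nat_lit 4) (nat_lit 353) (nat_lit 336) (nat_lit 211)) (XT.lf (nat_lit 0) (nat_lit 1088848879465) (nat_lit 76) (nat_lit 877711768611) (nat_lit 152) (nat_lit 905035848945) (nat_lit 22) (nat_lit 5) (nat_lit 23) (nat_lit 5) (nat_lit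 24) (nat_lit 4) (nat_lit 354) (nat_lit 336) (nat_lit 210)))))) (XT.nd (nat_lit 546) (nat_lit 456) (nat_lit 0) (XT.nd (nat_lit 234) (nat_lit 380) (nat_lit 0) (XT.nd (nat_lit 78) (nat_lit 152) (nat_lit 0) (XT.lf (nat_lit 0) (nat_lit 288791614142) (nat_lit 152) (nat_lit 2178570180861) (nat_lit 76) (nat_lit 703323294188) (nat_lit 20) (nat_lit 5) (nat_lit 22) (nat_lit 5) (nat_lit 21) (nat_lit 4) (nat_lit 355) (nat_lit 336) (nat_lit 209)) (XT.nd (nat_lit 78) (nat_lit 76) (nat_lit 0) (XT.lf (nat_lit 0) (nat_lit 768467150829) (nat_lit 76) (nat_lit 937169337728) (nat_lit 152) (nat_lit 1799317366576) (nat_lit 19) (nat_lit 5) (nat_lit 20) (nat_lit 5) (nat_lit 21) (nat_lit 4) (nat_lit 356) (nat_lit 336) (nat_lit 208)) (XT.lf (nat_lit 0) (nat_lit 403977613233) (nat_lit 76) (nat_lit 3025602712624) (nat_lit 76) (nat_lit 452216831572) (nat_lit 18) (nat_lit 4) (nat_lit 19) (nat_lit 5) (nat_lit 19) (nat_lit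 4) (nat_lit 357) (nat_lit 336) (nat_lit 207)))) (XT.nd (nat_lit 156) (nat_lit 228) (nat_lit 0) (XT.nd (nat_lit 78) (nat_lit 76) (nat_lit 0) (XT.lf (nat_lit 0) (nat_lit 1149733954638) (nat_lit 152) (nat_lit 181939260368) (nat_lit 76) (nat_lit 2972770489152) (nat_lit 17) (nat_lit 5) (nat_lit 19) (nat_lit 5) (nat_lit 18) (nat_lit 4) (nat_lit 358) (nat_lit 336) (nat_lit 206)) (XT.lf (nat_lit 0) (nat_lit 3074508182126) (nat_lit 152) (nat_lit 1014551342087) (nat_lit 0) (nat_lit 691743468854) (nat_lit 16) (nat_lit 5) (nat_lit 18) (nat_lit 4) (nat_lit 16) (nat_lit 4) (nat_lit 359) (nat_lit 336) (nat_lit 205))) (XT.nd (nat_lit 78) (nat_lit 76) (nat_lit 0) (XT.lf (nat_lit 0) (nat_lit 81466400190) (nat_lit 152) (nat_lit 2213314604352) (nat_lit 76) (nat_lit 3024309145309) (nat_lit 14) (nat_lit 5) (nat_lit 16) (nat_lit 5) (nat_lit 15) (nat_lit 4) (nat_lit 360) (nat_lit 336) (nat_lit 204)) (XT.lf (nat_lit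 0) (nat_lit 2023075553819) (nat_lit 76) (nat_lit 95116885406) (nat_lit 152) (nat_lit 3809835806072) (nat_lit 13) (nat_lit 5) (nat_lit 14) (nat_lit 5) (nat_lit 15) (nat_lit 4) (nat_lit 361) (nat_lit 336) (nat_lit 203))))) (XT.nd (nat_lit 312) (nat_lit 228) (nat_lit 0) (XT.nd (nat_lit 156) (nat_lit 76) (nat_lit 0) (XT.nd (nat_lit 78) (nat_lit 76) (nat_lit 0) (XT.lf (nat_lit 0) (nat_lit 363778062270) (nat_lit 76) (nat_lit 4230059889610) (nat_lit 76) (nat_lit 2023796257760) (nat_lit 12) (nat_lit 4) (nat_lit 13) (nat_lit 5) (nat_lit 13) (nat_lit 4) (nat_lit 362) (nat_lit 336) (nat_lit 202)) (XT.lf (nat_lit 0) (nat_lit 147913172976) (nat_lit 152) (nat_lit 1898604234174) (nat_lit 76) (nat_lit 5354563883410) (nat_lit 11) (nat_lit 5) (nat_lit 13) (nat_lit 5) (nat_lit 12) (nat_lit 4) (nat_lit 363) (nat_lit 336) (nat_lit 201))) (XT.nd (nat_lit 78) (nat_lit 0) (nat_lit 0) (XT.lf (nat_lit 0) (nat_lit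 2620904893465) (nat_lit 152) (nat_lit 5091238479780) (nat_lit 0) (nat_lit 578068193644) (nat_lit 10) (nat_lit 5) (nat_lit 12) (nat_lit 4) (nat_lit 10) (nat_lit 4) (nat_lit 364) (nat_lit 336) (nat_lit 200)) (XT.lf (nat_lit 0) (nat_lit 5578158534387) (nat_lit 152) (nat_lit 190165964206) (nat_lit 0) (nat_lit 3535321833085) (nat_lit 10) (nat_lit 5) (nat_lit 12) (nat_lit 4) (nat_lit 10) (nat_lit 4) (nat_lit 365) (nat_lit 336) (nat_lit 199)))) (XT.nd (nat_lit 156) (nat_lit 0) (nat_lit 0) (XT.nd (nat_lit 78) (nat_lit 152) (nat_lit 0) (XT.lf (nat_lit 0) (nat_lit 5732847680154) (nat_lit 76) (nat_lit 3384027661984) (nat_lit 76) (nat_lit 1341190959394) (nat_lit 9) (nat_lit 4) (nat_lit 10) (nat_lit 5) (nat_lit 10) (nat_lit 4) (nat_lit 366) (nat_lit 336) (nat_lit 198)) (XT.lf (nat_lit 0) (nat_lit 775589111335) (nat_lit 76) (nat_lit 579423299744) (nat_lit 152) (nat_lit 10425995152098) (nat_lit 7) (nat_lit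 5) (nat_lit 8) (nat_lit 5) (nat_lit 9) (nat_lit 4) (nat_lit 367) (nat_lit 336) (nat_lit 197))) (XT.nd (nat_lit 44460) (nat_lit 0) (nat_lit 4104) (XT.lf (nat_lit 0) (nat_lit 4583266881834) (nat_lit 152) (nat_lit 6008022102106) (nat_lit 0) (nat_lit 2691751414533) (nat_lit 7) (nat_lit 5) (nat_lit 9) (nat_lit 4) (nat_lit 7) (nat_lit 4) (nat_lit 368) (nat_lit 336) (nat_lit 196)) (XT.lf (nat_lit 0) (nat_lit 303522834914) (nat_lit 532) (nat_lit 27420192357) (nat_lit 532) (nat_lit 27420192357) (nat_lit 61) (nat_lit 3) (nat_lit 68) (nat_lit 3) (nat_lit 68) (nat_lit 5) (nat_lit 337) (nat_lit 337) (nat_lit 226))))))))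
noncomputable def xc57 : XT := (XT.nd (nat_lit 2262) (nat_lit 76) (nat_lit 0) (XT.nd (nat_lit 1092) (nat_lit 1444) (nat_lit 0) (XT.nd (nat_lit 546) (nat_lit 1292) (nat_lit 0) (XT.nd (nat_lit 234) (nat_lit 760) (nat_lit 0) (XT.nd (nat_lit 78) (nat_lit 380) (nat_lit 0) (XT.lf (nat_lit 76) (nat_lit 624194905913) (nat_lit 0) (nat_lit 43391305612) (nat_lit 532) (nat_lit 101693741100) (nat_lit 62) (nat_lit 5) (nat_lit 61) (nat_lit 3) (nat_lit 68) (nat_lit 5) (nat_lit 338) (nat_lit 337) (nat_lit 225)) (XT.nd (nat_lit 78) (nat_lit 456) (nat_lit 0) (XT.lf (nat_lit 76) (nat_lit 592345231717) (nat_lit 0) (nat_lit 176809044711) (nat_lit 532) (nat_lit 58006501257) (nat_lit 63) (nat_lit 5) (nat_lit 62) (nat_lit 5) (nat_lit 69) (nat_lit 5) (nat_lit 339) (nat_lit 337) (nat_lit 224)) (XT.lf (nat_lit 0) (nat_lit 25947131453) (nat_lit 532) (nat_lit 322046543926) (nat_lit 608) (nat_lit 543079008394) (nat_lit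 56) (nat_lit 5) (nat_lit 63) (nat_lit 5) (nat_lit 64) (nat_lit 5) (nat_lit 340) (nat_lit 337) (nat_lit 223)))) (XT.nd (nat_lit 156) (nat_lit 456) (nat_lit 0) (XT.nd (nat_lit 78) (nat_lit 380) (nat_lit 0) (XT.lf (nat_lit 0) (nat_lit 154770135202) (nat_lit 532) (nat_lit 407275265396) (nat_lit 76) (nat_lit 399548565554) (nat_lit 57) (nat_lit 5) (nat_lit 64) (nat_lit 5) (nat_lit 58) (nat_lit 5) (nat_lit 341) (nat_lit 337) (nat_lit 222)) (XT.lf (nat_lit 0) (nat_lit 340917013747) (nat_lit 456) (nat_lit 487694462871) (nat_lit 76) (nat_lit 211041930359) (nat_lit 52) (nat_lit 5) (nat_lit 58) (nat_lit 5) (nat_lit 53) (nat_lit 5) (nat_lit 342) (nat_lit 337) (nat_lit 221))) (XT.nd (nat_lit 78) (nat_lit 228) (nat_lit 0) (XT.lf (nat_lit 0) (nat_lit 563609709083) (nat_lit 228) (nat_lit 32641169283) (nat_lit 304) (nat_lit 529869689240) (nat_lit 49) (nat_lit 5) (nat_lit 52) (nat_lit 5) (nat_lit 53) (nat_lit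 5) (nat_lit 343) (nat_lit 337) (nat_lit 220)) (XT.lf (nat_lit 0) (nat_lit 585406949816) (nat_lit 228) (nat_lit 354353949397) (nat_lit 304) (nat_lit 281806817016) (nat_lit 46) (nat_lit 5) (nat_lit 49) (nat_lit 5) (nat_lit 50) (nat_lit 5) (nat_lit 344) (nat_lit 337) (nat_lit 219))))) (XT.nd (nat_lit 234) (nat_lit 684) (nat_lit 0) (XT.nd (nat_lit 78) (nat_lit 380) (nat_lit 0) (XT.lf (nat_lit 0) (nat_lit 50913952622) (nat_lit 228) (nat_lit 703031143066) (nat_lit 76) (nat_lit 573570427935) (nat_lit 43) (nat_lit 5) (nat_lit 46) (nat_lit 5) (nat_lit 44) (nat_lit 5) (nat_lit 345) (nat_lit 337) (nat_lit 218)) (XT.nd (nat_lit 78) (nat_lit 152) (nat_lit 0) (XT.lf (nat_lit 0) (nat_lit 467759953717) (nat_lit 304) (nat_lit 769509033392) (nat_lit 76) (nat_lit 207428684478) (nat_lit 40) (nat_lit 5) (nat_lit 44) (nat_lit 5) (nat_lit 41) (nat_lit 5) (nat_lit 346) (nat_lit 337) (nat_lit 217)) (XT.lf (nat_lit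 0) (nat_lit 740556851741) (nat_lit 152) (nat_lit 266238286075) (nat_lit 228) (nat_lit 567889021316) (nat_lit 38) (nat_lit 5) (nat_lit 40) (nat_lit 5) (nat_lit 41) (nat_lit 5) (nat_lit 347) (nat_lit 337) (nat_lit 216)))) (XT.nd (nat_lit 156) (nat_lit 304) (nat_lit 0) (XT.nd (nat_lit 78) (nat_lit 228) (nat_lit 0) (XT.lf (nat_lit 0) (nat_lit 821410482351) (nat_lit 152) (nat_lit 868468650417) (nat_lit 228) (nat_lit 29234004395) (nat_lit 36) (nat_lit 5) (nat_lit 38) (nat_lit 5) (nat_lit 39) (nat_lit 5) (nat_lit 348) (nat_lit 337) (nat_lit 215)) (XT.lf (nat_lit 0) (nat_lit 622249912050) (nat_lit 228) (nat_lit 970799925013) (nat_lit 76) (nat_lit 286096577440) (nat_lit 33) (nat_lit 5) (nat_lit 36) (nat_lit 5) (nat_lit 34) (nat_lit 5) (nat_lit 349) (nat_lit 337) (nat_lit 214))) (XT.nd (nat_lit 78) (nat_lit 152) (nat_lit 0) (XT.lf (nat_lit 0) (nat_lit 1003250888413) (nat_lit 152) (nat_lit 441486149934)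 (nat_lit 228) (nat_lit 612385970987) (nat_lit 31) (nat_lit 5) (nat_lit 33) (nat_lit 5) (nat_lit 34) (nat_lit 5) (nat_lit 350) (nat_lit 337) (nat_lit 213)) (XT.lf (nat_lit 0) (nat_lit 201183047093) (nat_lit 152) (nat_lit 1154717888496) (nat_lit 76) (nat_lit 899341339241) (nat_lit 29) (nat_lit 5) (nat_lit 31) (nat_lit 5) (nat_lit 30) (nat_lit 5) (nat_lit 351) (nat_lit 337) (nat_lit 212)))))) (XT.nd (nat_lit 546) (nat_lit 608) (nat_lit 0) (XT.nd (nat_lit 234) (nat_lit 380) (nat_lit 0) (XT.nd (nat_lit 78) (nat_lit 304) (nat_lit 0) (XT.lf (nat_lit 0) (nat_lit 1174298474366) (nat_lit 228) (nat_lit 1285442980838) (nat_lit 76) (nat_lit 16163793445) (nat_lit 27) (nat_lit 5) (nat_lit 30) (nat_lit 5) (nat_lit 28) (nat_lit 4) (nat_lit 352) (nat_lit 337) (nat_lit 211)) (XT.nd (nat_lit 78) (nat_lit 228) (nat_lit 0) (XT.lf (nat_lit 0) (nat_lit 1254761625404) (nat_lit 76) (nat_lit 1140789068760) (nat_lit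 152) (nat_lit 325943416107) (nat_lit 26) (nat_lit 5) (nat_lit 27) (nat_lit 5) (nat_lit 28) (nat_lit 4) (nat_lit 353) (nat_lit 337) (nat_lit 210)) (XT.lf (nat_lit 0) (nat_lit 837201355242) (nat_lit 228) (nat_lit 1710458058846) (nat_lit 76) (nat_lit 448253885729) (nat_lit 23) (nat_lit 5) (nat_lit 26) (nat_lit 5) (nat_lit 24) (nat_lit 4) (nat_lit 354) (nat_lit 337) (nat_lit 209)))) (XT.nd (nat_lit 156) (nat_lit 152) (nat_lit 0) (XT.nd (nat_lit 78) (nat_lit 152) (nat_lit 0) (XT.lf (nat_lit 0) (nat_lit 1252176381368) (nat_lit 76) (nat_lit 1009368458427) (nat_lit 152) (nat_lit 1040791124182) (nat_lit 22) (nat_lit 5) (nat_lit 23) (nat_lit 5) (nat_lit 24) (nat_lit 4) (nat_lit 355) (nat_lit 337) (nat_lit 208)) (XT.lf (nat_lit 0) (nat_lit 332110446198) (nat_lit 152) (nat_lit 2505355542338) (nat_lit 76) (nat_lit 808821856811) (nat_lit 20) (nat_lit 5) (nat_lit 22) (nat_lit 5) (nat_lit 21) (nat_lit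 4) (nat_lit 356) (nat_lit 337) (nat_lit 207))) (XT.nd (nat_lit 78) (nat_lit 76) (nat_lit 0) (XT.lf (nat_lit 0) (nat_lit 883737375084) (nat_lit 76) (nat_lit 1077744668606) (nat_lit 152) (nat_lit 2069214883138) (nat_lit 19) (nat_lit 5) (nat_lit 20) (nat_lit 5) (nat_lit 21) (nat_lit 4) (nat_lit 357) (nat_lit 337) (nat_lit 206)) (XT.lf (nat_lit 0) (nat_lit 464574398495) (nat_lit 76) (nat_lit 3479443052320) (nat_lit 76) (nat_lit 520049274119) (nat_lit 18) (nat_lit 4) (nat_lit 19) (nat_lit 5) (nat_lit 19) (nat_lit 4) (nat_lit 358) (nat_lit 337) (nat_lit 205))))) (XT.nd (nat_lit 312) (nat_lit 228) (nat_lit 0) (XT.nd (nat_lit 156) (nat_lit 228) (nat_lit 0) (XT.nd (nat_lit 78) (nat_lit 76) (nat_lit 0) (XT.lf (nat_lit 0) (nat_lit 1322194115727) (nat_lit 152) (nat_lit 209230021241) (nat_lit 76) (nat_lit 3418686117364) (nat_lit 17) (nat_lit 5) (nat_lit 19) (nat_lit 5) (nat_lit 18) (nat_lit 4) (nat_lit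 359) (nat_lit 337) (nat_lit 204)) (XT.lf (nat_lit 0) (nat_lit 3535684472638) (nat_lit 152) (nat_lit 1166733922438) (nat_lit 0) (nat_lit 795505041880) (nat_lit 16) (nat_lit 5) (nat_lit 18) (nat_lit 4) (nat_lit 16) (nat_lit 4) (nat_lit 360) (nat_lit 337) (nat_lit 203))) (XT.nd (nat_lit 78) (nat_lit 76) (nat_lit 0) (XT.lf (nat_lit 0) (nat_lit 93686419341) (nat_lit 152) (nat_lit 2545311681155) (nat_lit 76) (nat_lit 3477955567089) (nat_lit 14) (nat_lit 5) (nat_lit 16) (nat_lit 5) (nat_lit 15) (nat_lit 4) (nat_lit 361) (nat_lit 337) (nat_lit 202)) (XT.lf (nat_lit 0) (nat_lit 2326536991104) (nat_lit 76) (nat_lit 109384367922) (nat_lit 152) (nat_lit 4381311118741) (nat_lit 13) (nat_lit 5) (nat_lit 14) (nat_lit 5) (nat_lit 15) (nat_lit 4) (nat_lit 362) (nat_lit 337) (nat_lit 201)))) (XT.nd (nat_lit 156) (nat_lit 76) (nat_lit 0) (XT.nd (nat_lit 78) (nat_lit 76) (nat_lit 0) (XT.lf (nat_lit 0) (nat_lit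 418344869853) (nat_lit 76) (nat_lit 4864568825108) (nat_lit 76) (nat_lit 2327365642091) (nat_lit 12) (nat_lit 4) (nat_lit 13) (nat_lit 5) (nat_lit 13) (nat_lit 4) (nat_lit 363) (nat_lit 337) (nat_lit 200)) (XT.lf (nat_lit 0) (nat_lit 170100193805) (nat_lit 152) (nat_lit 2183394781501) (nat_lit 76) (nat_lit 6157748505240) (nat_lit 11) (nat_lit 5) (nat_lit 13) (nat_lit 5) (nat_lit 12) (nat_lit 4) (nat_lit 364) (nat_lit 337) (nat_lit 199))) (XT.nd (nat_lit 78) (nat_lit 0) (nat_lit 0) (XT.lf (nat_lit 0) (nat_lit 3014040669393) (nat_lit 152) (nat_lit 5854924169044) (nat_lit 0) (nat_lit 664778460126) (nat_lit 10) (nat_lit 5) (nat_lit 12) (nat_lit 4) (nat_lit 10) (nat_lit 4) (nat_lit 365) (nat_lit 337) (nat_lit 198)) (XT.lf (nat_lit 0) (nat_lit 6414882350988) (nat_lit 152) (nat_lit 218690786921) (nat_lit 0) (nat_lit 4065620140600) (nat_lit 10) (nat_lit 5) (nat_lit 12) (nat_lit 4) (nat_lit 10)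 (nat_lit 4) (nat_lit 366) (nat_lit 337) (nat_lit 197))))))) (XT.nd (nat_lit 45630) (nat_lit 0) (nat_lit 152) (XT.nd (nat_lit 45084) (nat_lit 0) (nat_lit 1824) (XT.nd (nat_lit 44772) (nat_lit 0) (nat_lit 3268) (XT.nd (nat_lit 44616) (nat_lit 0) (nat_lit 3952) (XT.lf (nat_lit 0) (nat_lit 6592774898006) (nat_lit 76) (nat_lit 3891631778726) (nat_lit 76) (nat_lit 1542369567364) (nat_lit 9) (nat_lit 4) (nat_lit 10) (nat_lit 5) (nat_lit 10) (nat_lit 4) (nat_lit 367) (nat_lit 337) (nat_lit 196)) (XT.nd (nat_lit 78) (nat_lit 0) (nat_lit 0) (XT.lf (nat_lit 0) (nat_lit 349051465252) (nat_lit 532) (nat_lit 31533110331) (nat_lit 532) (nat_lit 31533110331) (nat_lit 61) (nat_lit 3) (nat_lit 68) (nat_lit 3) (nat_lit 68) (nat_lit 5) (nat_lit 338) (nat_lit 338) (nat_lit 224)) (XT.lf (nat_lit 76) (nat_lit 717824344788) (nat_lit 0) (nat_lit 49900160044) (nat_lit 532) (nat_lit 116947411324) (nat_lit 62) (nat_lit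 5) (nat_lit 61) (nat_lit 3) (nat_lit 68) (nat_lit 5) (nat_lit 339) (nat_lit 338) (nat_lit 223)))) (XT.nd (nat_lit 156) (nat_lit 304) (nat_lit 0) (XT.nd (nat_lit 78) (nat_lit 456) (nat_lit 0) (XT.lf (nat_lit 76) (nat_lit 681197232650) (nat_lit 0) (nat_lit 203330501543) (nat_lit 532) (nat_lit 66707134464) (nat_lit 63) (nat_lit 5) (nat_lit 62) (nat_lit 5) (nat_lit 69) (nat_lit 5) (nat_lit 340) (nat_lit 338) (nat_lit 222)) (XT.lf (nat_lit 0) (nat_lit 29839487039) (nat_lit 532) (nat_lit 370353286567) (nat_lit 608) (nat_lit 624540789558) (nat_lit 56) (nat_lit 5) (nat_lit 63) (nat_lit 5) (nat_lit 64) (nat_lit 5) (nat_lit 341) (nat_lit 338) (nat_lit 221))) (XT.nd (nat_lit 78) (nat_lit 380) (nat_lit 0) (XT.lf (nat_lit 0) (nat_lit 177985908480) (nat_lit 532) (nat_lit 468366315066) (nat_lit 76) (nat_lit 459480817024) (nat_lit 57) (nat_lit 5) (nat_lit 64) (nat_lit 5) (nat_lit 58) (nat_lit 5) (nat_lit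 342) (nat_lit 338) (nat_lit 220)) (XT.lf (nat_lit 0) (nat_lit 392054790961) (nat_lit 456) (nat_lit 560848394104) (nat_lit 76) (nat_lit 242698214715) (nat_lit 52) (nat_lit 5) (nat_lit 58) (nat_lit 5) (nat_lit 53) (nat_lit 5) (nat_lit 343) (nat_lit 338) (nat_lit 219))))) (XT.nd (nat_lit 234) (nat_lit 760) (nat_lit 0) (XT.nd (nat_lit 78) (nat_lit 456) (nat_lit 0) (XT.lf (nat_lit 0) (nat_lit 648151383481) (nat_lit 228) (nat_lit 37537327669) (nat_lit 304) (nat_lit 609349925315) (nat_lit 49) (nat_lit 5) (nat_lit 52) (nat_lit 5) (nat_lit 53) (nat_lit 5) (nat_lit 344) (nat_lit 338) (nat_lit 218)) (XT.nd (nat_lit 78) (nat_lit 228) (nat_lit 0) (XT.lf (nat_lit 0) (nat_lit 673218206399) (nat_lit 228) (nat_lit 407507008008) (nat_lit 304) (nat_lit 324077644657) (nat_lit 46) (nat_lit 5) (nat_lit 49) (nat_lit 5) (nat_lit 50) (nat_lit 5) (nat_lit 345) (nat_lit 338) (nat_lit 217)) (XT.lf (nat_lit 0) (nat_lit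 58551212398) (nat_lit 228) (nat_lit 808485596991) (nat_lit 76) (nat_lit 659606029286) (nat_lit 43) (nat_lit 5) (nat_lit 46) (nat_lit 5) (nat_lit 44) (nat_lit 5) (nat_lit 346) (nat_lit 338) (nat_lit 216)))) (XT.nd (nat_lit 156) (nat_lit 380) (nat_lit 0) (XT.nd (nat_lit 78) (nat_lit 152) (nat_lit 0) (XT.lf (nat_lit 0) (nat_lit 537924097862) (nat_lit 304) (nat_lit 884935178349) (nat_lit 76) (nat_lit 238543033905) (nat_lit 40) (nat_lit 5) (nat_lit 44) (nat_lit 5) (nat_lit 41) (nat_lit 5) (nat_lit 347) (nat_lit 338) (nat_lit 215)) (XT.lf (nat_lit 0) (nat_lit 851640571775) (nat_lit 152) (nat_lit 306173972719) (nat_lit 228) (nat_lit 653072227523) (nat_lit 38) (nat_lit 5) (nat_lit 40) (nat_lit 5) (nat_lit 41) (nat_lit 5) (nat_lit 348) (nat_lit 338) (nat_lit 214))) (XT.nd (nat_lit 78) (nat_lit 228) (nat_lit 0) (XT.lf (nat_lit 0) (nat_lit 944622239519) (nat_lit 152) (nat_lit 998738887051) (nat_lit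 228) (nat_lit 33618971165) (nat_lit 36) (nat_lit 5) (nat_lit 38) (nat_lit 5) (nat_lit 39) (nat_lit 5) (nat_lit 349) (nat_lit 338) (nat_lit 213)) (XT.lf (nat_lit 0) (nat_lit 715587515133) (nat_lit 228) (nat_lit 1116419730581) (nat_lit 76) (nat_lit 329011121587) (nat_lit 33) (nat_lit 5) (nat_lit 36) (nat_lit 5) (nat_lit 34) (nat_lit 5) (nat_lit 350) (nat_lit 338) (nat_lit 212)))))) (XT.nd (nat_lit 546) (nat_lit 684) (nat_lit 0) (XT.nd (nat_lit 234) (nat_lit 532) (nat_lit 0) (XT.nd (nat_lit 78) (nat_lit 304) (nat_lit 0) (XT.lf (nat_lit 0) (nat_lit 1153738689354) (nat_lit 152) (nat_lit 507709009889) (nat_lit 228) (nat_lit 704243753016) (nat_lit 31) (nat_lit 5) (nat_lit 33) (nat_lit 5) (nat_lit 34) (nat_lit 5) (nat_lit 351) (nat_lit 338) (nat_lit 211)) (XT.nd (nat_lit 78) (nat_lit 152) (nat_lit 0) (XT.lf (nat_lit 0) (nat_lit 231360603300) (nat_lit 152) (nat_lit 1327925406630) (nat_lit 76) (nat_lit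 1034242598141) (nat_lit 29) (nat_lit 5) (nat_lit 31) (nat_lit 5) (nat_lit 30) (nat_lit 5) (nat_lit 352) (nat_lit 338) (nat_lit 210)) (XT.lf (nat_lit 0) (nat_lit 1350443336842) (nat_lit 228) (nat_lit 1478259271043) (nat_lit 76) (nat_lit 18588420710) (nat_lit 27) (nat_lit 5) (nat_lit 30) (nat_lit 5) (nat_lit 28) (nat_lit 4) (nat_lit 353) (nat_lit 338) (nat_lit 209)))) (XT.nd (nat_lit 156) (nat_lit 228) (nat_lit 0) (XT.nd (nat_lit 78) (nat_lit 228) (nat_lit 0) (XT.lf (nat_lit 0) (nat_lit 1442976012852) (nat_lit 76) (nat_lit 1311907368301) (nat_lit 152) (nat_lit 374834838990) (nat_lit 26) (nat_lit 5) (nat_lit 27) (nat_lit 5) (nat_lit 28) (nat_lit 4) (nat_lit 354) (nat_lit 338) (nat_lit 208)) (XT.lf (nat_lit 0) (nat_lit 962781637154) (nat_lit 228) (nat_lit 1967026627255) (nat_lit 76) (nat_lit 515492024059) (nat_lit 23) (nat_lit 5) (nat_lit 26) (nat_lit 5) (nat_lit 24) (nat_lit 4) (nat_lit 355)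 (nat_lit 338) (nat_lit 207))) (XT.nd (nat_lit 78) (nat_lit 152) (nat_lit 0) (XT.lf (nat_lit 0) (nat_lit 1440002967105) (nat_lit 76) (nat_lit 1160773670121) (nat_lit 152) (nat_lit 1196909715603) (nat_lit 22) (nat_lit 5) (nat_lit 23) (nat_lit 5) (nat_lit 24) (nat_lit 4) (nat_lit 356) (nat_lit 338) (nat_lit 206)) (XT.lf (nat_lit 0) (nat_lit 381927081132) (nat_lit 152) (nat_lit 2881158748432) (nat_lit 76) (nat_lit 930145187124) (nat_lit 20) (nat_lit 5) (nat_lit 22) (nat_lit 5) (nat_lit 21) (nat_lit 4) (nat_lit 357) (nat_lit 338) (nat_lit 205))))) (XT.nd (nat_lit 312) (nat_lit 380) (nat_lit 0) (XT.nd (nat_lit 156) (nat_lit 152) (nat_lit 0) (XT.nd (nat_lit 78) (nat_lit 76) (nat_lit 0) (XT.lf (nat_lit 0) (nat_lit 1016298096002) (nat_lit 76) (nat_lit 1239406316134) (nat_lit 152) (nat_lit 2379597048747) (nat_lit 19) (nat_lit 5) (nat_lit 20) (nat_lit 5) (nat_lit 21) (nat_lit 4) (nat_lit 358) (nat_lit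 338) (nat_lit 204)) (XT.lf (nat_lit 0) (nat_lit 534260666608) (nat_lit 76) (nat_lit 4001359459357) (nat_lit 76) (nat_lit 598056603091) (nat_lit 18) (nat_lit 4) (nat_lit 19) (nat_lit 5) (nat_lit 19) (nat_lit 4) (nat_lit 359) (nat_lit 338) (nat_lit 203))) (XT.nd (nat_lit 78) (nat_lit 76) (nat_lit 0) (XT.lf (nat_lit 0) (nat_lit 1520523284422) (nat_lit 152) (nat_lit 240614427504) (nat_lit 76) (nat_lit 3931489076436) (nat_lit 17) (nat_lit 5) (nat_lit 19) (nat_lit 5) (nat_lit 18) (nat_lit 4) (nat_lit 360) (nat_lit 338) (nat_lit 202)) (XT.lf (nat_lit 0) (nat_lit 4066037191317) (nat_lit 152) (nat_lit 1341743919340) (nat_lit 0) (nat_lit 914830838009) (nat_lit 16) (nat_lit 5) (nat_lit 18) (nat_lit 4) (nat_lit 16) (nat_lit 4) (nat_lit 361) (nat_lit 338) (nat_lit 201)))) (XT.nd (nat_lit 156) (nat_lit 152) (nat_lit 0) (XT.nd (nat_lit 78) (nat_lit 76) (nat_lit 0) (XT.lf (nat_lit 0) (nat_lit 107739426948)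 (nat_lit 152) (nat_lit 2927108347243) (nat_lit 76) (nat_lit 3999648939947) (nat_lit 14) (nat_lit 5) (nat_lit 16) (nat_lit 5) (nat_lit 15) (nat_lit 4) (nat_lit 362) (nat_lit 338) (nat_lit 200)) (XT.lf (nat_lit 0) (nat_lit 2675517618569) (nat_lit 76) (nat_lit 125791985080) (nat_lit 152) (nat_lit 5038507742513) (nat_lit 13) (nat_lit 5) (nat_lit 14) (nat_lit 5) (nat_lit 15) (nat_lit 4) (nat_lit 363) (nat_lit 338) (nat_lit 199))) (XT.nd (nat_lit 78) (nat_lit 76) (nat_lit 0) (XT.lf (nat_lit 0) (nat_lit 481096674616) (nat_lit 76) (nat_lit 5594254112623) (nat_lit 76) (nat_lit 2676470447321) (nat_lit 12) (nat_lit 4) (nat_lit 13) (nat_lit 5) (nat_lit 13) (nat_lit 4) (nat_lit 364) (nat_lit 338) (nat_lit 198)) (XT.lf (nat_lit 0) (nat_lit 195615256814) (nat_lit 152) (nat_lit 2510903932338) (nat_lit 76) (nat_lit 7081410810756) (nat_lit 11) (nat_lit 5) (nat_lit 13) (nat_lit 5) (nat_lit 12) (nat_lit 4)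 (nat_lit 365) (nat_lit 338) (nat_lit 197))))))))
noncomputable def xc58 : XT := (XT.nd (nat_lit 46800) (nat_lit 0) (nat_lit 0) (XT.nd (nat_lit 45708) (nat_lit 0) (nat_lit 228) (XT.nd (nat_lit 45162) (nat_lit 0) (nat_lit 1976) (XT.nd (nat_lit 44850) (nat_lit 0) (nat_lit 3496) (XT.nd (nat_lit 78) (nat_lit 0) (nat_lit 0) (XT.lf (nat_lit 0) (nat_lit 3466146801491) (nat_lit 152) (nat_lit 6733162731865) (nat_lit 0) (nat_lit 764495257451) (nat_lit 10) (nat_lit 5) (nat_lit 12) (nat_lit 4) (nat_lit 10) (nat_lit 4) (nat_lit 366) (nat_lit 338) (nat_lit 196)) (XT.nd (nat_lit 44694) (nat_lit 0) (nat_lit 3876) (XT.lf (nat_lit 0) (nat_lit 7377114731192) (nat_lit 152) (nat_lit 251494350581) (nat_lit 0) (nat_lit 4675463186304) (nat_lit 10) (nat_lit 5) (nat_lit 12) (nat_lit 4) (nat_lit 10) (nat_lit 4) (nat_lit 367) (nat_lit 338) (nat_lit 195)) (XT.lf (nat_lit 0) (nat_lit 401409340126) (nat_lit 532) (nat_lit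 36262993040) (nat_lit 532) (nat_lit 36262993040) (nat_lit 61) (nat_lit 3) (nat_lit 68) (nat_lit 3) (nat_lit 68) (nat_lit 5) (nat_lit 339) (nat_lit 339) (nat_lit 222)))) (XT.nd (nat_lit 156) (nat_lit 380) (nat_lit 0) (XT.nd (nat_lit 78) (nat_lit 0) (nat_lit 76) (XT.lf (nat_lit 76) (nat_lit 825498149996) (nat_lit 0) (nat_lit 57385303968) (nat_lit 532) (nat_lit 134489227414) (nat_lit 62) (nat_lit 5) (nat_lit 61) (nat_lit 3) (nat_lit 68) (nat_lit 5) (nat_lit 340) (nat_lit 339) (nat_lit 221)) (XT.lf (nat_lit 76) (nat_lit 783376981007) (nat_lit 0) (nat_lit 233830152483) (nat_lit 532) (nat_lit 76712946046) (nat_lit 63) (nat_lit 5) (nat_lit 62) (nat_lit 5) (nat_lit 69) (nat_lit 5) (nat_lit 341) (nat_lit 339) (nat_lit 220))) (XT.nd (nat_lit 78) (nat_lit 0) (nat_lit 76) (XT.lf (nat_lit 0) (nat_lit 34315626253) (nat_lit 532) (nat_lit 425906098874) (nat_lit 608) (nat_lit 718221854990) (nat_lit 56)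 (nat_lit 5) (nat_lit 63) (nat_lit 5) (nat_lit 64) (nat_lit 5) (nat_lit 342) (nat_lit 339) (nat_lit 219)) (XT.lf (nat_lit 0) (nat_lit 204683986054) (nat_lit 532) (nat_lit 538621080746) (nat_lit 76) (nat_lit 528402914351) (nat_lit 57) (nat_lit 5) (nat_lit 64) (nat_lit 5) (nat_lit 58) (nat_lit 5) (nat_lit 343) (nat_lit 339) (nat_lit 218))))) (XT.nd (nat_lit 234) (nat_lit 760) (nat_lit 0) (XT.nd (nat_lit 78) (nat_lit 456) (nat_lit 0) (XT.lf (nat_lit 0) (nat_lit 450863179853) (nat_lit 456) (nat_lit 644975473108) (nat_lit 76) (nat_lit 279102942993) (nat_lit 52) (nat_lit 5) (nat_lit 58) (nat_lit 5) (nat_lit 53) (nat_lit 5) (nat_lit 344) (nat_lit 339) (nat_lit 217)) (XT.nd (nat_lit 78) (nat_lit 228) (nat_lit 0) (XT.lf (nat_lit 0) (nat_lit 745374255869) (nat_lit 228) (nat_lit 43167913959) (nat_lit 304) (nat_lit 700752249794) (nat_lit 49) (nat_lit 5) (nat_lit 52) (nat_lit 5) (nat_lit 53) (nat_lit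 5) (nat_lit 345) (nat_lit 339) (nat_lit 216)) (XT.lf (nat_lit 0) (nat_lit 774201099257) (nat_lit 228) (nat_lit 468633033654) (nat_lit 304) (nat_lit 372689143974) (nat_lit 46) (nat_lit 5) (nat_lit 49) (nat_lit 5) (nat_lit 50) (nat_lit 5) (nat_lit 346) (nat_lit 339) (nat_lit 215)))) (XT.nd (nat_lit 156) (nat_lit 304) (nat_lit 0) (XT.nd (nat_lit 78) (nat_lit 228) (nat_lit 0) (XT.lf (nat_lit 0) (nat_lit 67334020445) (nat_lit 228) (nat_lit 929758272053) (nat_lit 76) (nat_lit 758546961778) (nat_lit 43) (nat_lit 5) (nat_lit 46) (nat_lit 5) (nat_lit 44) (nat_lit 5) (nat_lit 347) (nat_lit 339) (nat_lit 214)) (XT.lf (nat_lit 0) (nat_lit 618612826786) (nat_lit 304) (nat_lit 1017675296272) (nat_lit 76) (nat_lit 274324524344) (nat_lit 40) (nat_lit 5) (nat_lit 44) (nat_lit 5) (nat_lit 41) (nat_lit 5) (nat_lit 348) (nat_lit 339) (nat_lit 213))) (XT.nd (nat_lit 78) (nat_lit 152) (nat_lit 0) (XT.lf (nat_lit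 0) (nat_lit 979386802926) (nat_lit 152) (nat_lit 352100026081) (nat_lit 228) (nat_lit 751032950505) (nat_lit 38) (nat_lit 5) (nat_lit 40) (nat_lit 5) (nat_lit 41) (nat_lit 5) (nat_lit 349) (nat_lit 339) (nat_lit 212)) (XT.lf (nat_lit 0) (nat_lit 1086315715194) (nat_lit 152) (nat_lit 1148549674037) (nat_lit 228) (nat_lit 38661715600) (nat_lit 36) (nat_lit 5) (nat_lit 38) (nat_lit 5) (nat_lit 39) (nat_lit 5) (nat_lit 350) (nat_lit 339) (nat_lit 211)))))) (XT.nd (nat_lit 546) (nat_lit 684) (nat_lit 0) (XT.nd (nat_lit 234) (nat_lit 532) (nat_lit 0) (XT.nd (nat_lit 78) (nat_lit 304) (nat_lit 0) (XT.lf (nat_lit 0) (nat_lit 822925730325) (nat_lit 228) (nat_lit 1283882551655) (nat_lit 76) (nat_lit 378362833327) (nat_lit 33) (nat_lit 5) (nat_lit 36) (nat_lit 5) (nat_lit 34) (nat_lit 5) (nat_lit 351) (nat_lit 339) (nat_lit 210)) (XT.nd (nat_lit 78) (nat_lit 152) (nat_lit 0) (XT.lf (nat_lit 0) (nat_lit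 1326799619546) (nat_lit 152) (nat_lit 583865314086) (nat_lit 228) (nat_lit 809880230057) (nat_lit 31) (nat_lit 5) (nat_lit 33) (nat_lit 5) (nat_lit 34) (nat_lit 5) (nat_lit 352) (nat_lit 339) (nat_lit 209)) (XT.lf (nat_lit 0) (nat_lit 266064768761) (nat_lit 152) (nat_lit 1527114092756) (nat_lit 76) (nat_lit 1189379031728) (nat_lit 29) (nat_lit 5) (nat_lit 31) (nat_lit 5) (nat_lit 30) (nat_lit 5) (nat_lit 353) (nat_lit 339) (nat_lit 208)))) (XT.nd (nat_lit 156) (nat_lit 304) (nat_lit 0) (XT.nd (nat_lit 78) (nat_lit 76) (nat_lit 0) (XT.lf (nat_lit 0) (nat_lit 1553009906421) (nat_lit 228) (nat_lit 1699998043046) (nat_lit 76) (nat_lit 21376727860) (nat_lit 27) (nat_lit 5) (nat_lit 30) (nat_lit 5) (nat_lit 28) (nat_lit 4) (nat_lit 354) (nat_lit 339) (nat_lit 207)) (XT.lf (nat_lit 0) (nat_lit 1659422523391) (nat_lit 76) (nat_lit 1508693427592) (nat_lit 152) (nat_lit 431059997139) (nat_lit 26)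 (nat_lit 5) (nat_lit 27) (nat_lit 5) (nat_lit 28) (nat_lit 4) (nat_lit 355) (nat_lit 339) (nat_lit 206))) (XT.nd (nat_lit 78) (nat_lit 76) (nat_lit 0) (XT.lf (nat_lit 0) (nat_lit 1107198942179) (nat_lit 228) (nat_lit 2262080515168) (nat_lit 76) (nat_lit 592815869611) (nat_lit 23) (nat_lit 5) (nat_lit 26) (nat_lit 5) (nat_lit 24) (nat_lit 4) (nat_lit 356) (nat_lit 339) (nat_lit 205)) (XT.lf (nat_lit 0) (nat_lit 1656003509359) (nat_lit 76) (nat_lit 1334889677486) (nat_lit 152) (nat_lit 1376446114565) (nat_lit 22) (nat_lit 5) (nat_lit 23) (nat_lit 5) (nat_lit 24) (nat_lit 4) (nat_lit 357) (nat_lit 339) (nat_lit 204))))) (XT.nd (nat_lit 234) (nat_lit 380) (nat_lit 0) (XT.nd (nat_lit 78) (nat_lit 152) (nat_lit 0) (XT.lf (nat_lit 0) (nat_lit 439216194722) (nat_lit 152) (nat_lit 3313332465984) (nat_lit 76) (nat_lit 1069667004354) (nat_lit 20) (nat_lit 5) (nat_lit 22) (nat_lit 5) (nat_lit 21) (nat_lit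 4) (nat_lit 358) (nat_lit 339) (nat_lit 203)) (XT.nd (nat_lit 78) (nat_lit 76) (nat_lit 0) (XT.lf (nat_lit 0) (nat_lit 1168742897098) (nat_lit 76) (nat_lit 1425317223657) (nat_lit 152) (nat_lit 2736536555503) (nat_lit 19) (nat_lit 5) (nat_lit 20) (nat_lit 5) (nat_lit 21) (nat_lit 4) (nat_lit 359) (nat_lit 339) (nat_lit 202)) (XT.lf (nat_lit 0) (nat_lit 614399848518) (nat_lit 76) (nat_lit 4601563339840) (nat_lit 76) (nat_lit 687765046564) (nat_lit 18) (nat_lit 4) (nat_lit 19) (nat_lit 5) (nat_lit 19) (nat_lit 4) (nat_lit 360) (nat_lit 339) (nat_lit 201)))) (XT.nd (nat_lit 156) (nat_lit 228) (nat_lit 0) (XT.nd (nat_lit 78) (nat_lit 76) (nat_lit 0) (XT.lf (nat_lit 0) (nat_lit 1748601815904) (nat_lit 152) (nat_lit 276706518341) (nat_lit 76) (nat_lit 4521212469256) (nat_lit 17) (nat_lit 5) (nat_lit 19) (nat_lit 5) (nat_lit 18) (nat_lit 4) (nat_lit 361) (nat_lit 339) (nat_lit 200)) (XT.lf (nat_lit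 0) (nat_lit 4675942806146) (nat_lit 152) (nat_lit 1543005438080) (nat_lit 0) (nat_lit 1052055493841) (nat_lit 16) (nat_lit 5) (nat_lit 18) (nat_lit 4) (nat_lit 16) (nat_lit 4) (nat_lit 362) (nat_lit 339) (nat_lit 199))) (XT.nd (nat_lit 78) (nat_lit 76) (nat_lit 0) (XT.lf (nat_lit 0) (nat_lit 123900374793) (nat_lit 152) (nat_lit 3366174534236) (nat_lit 76) (nat_lit 4599596309518) (nat_lit 14) (nat_lit 5) (nat_lit 16) (nat_lit 5) (nat_lit 15) (nat_lit 4) (nat_lit 363) (nat_lit 339) (nat_lit 198)) (XT.lf (nat_lit 0) (nat_lit 3076845320938) (nat_lit 76) (nat_lit 144660754086) (nat_lit 152) (nat_lit 5794283870590) (nat_lit 13) (nat_lit 5) (nat_lit 14) (nat_lit 5) (nat_lit 15) (nat_lit 4) (nat_lit 364) (nat_lit 339) (nat_lit 197))))))) (XT.nd (nat_lit 45786) (nat_lit 0) (nat_lit 228) (XT.nd (nat_lit 45240) (nat_lit 0) (nat_lit 2128) (XT.nd (nat_lit 44928) (nat_lit 0) (nat_lit 3496) (XT.nd (nat_lit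 78) (nat_lit 152) (nat_lit 0) (XT.lf (nat_lit 0) (nat_lit 553261231979) (nat_lit 76) (nat_lit 6433392202105) (nat_lit 76) (nat_lit 3077940983355) (nat_lit 12) (nat_lit 4) (nat_lit 13) (nat_lit 5) (nat_lit 13) (nat_lit 4) (nat_lit 365) (nat_lit 339) (nat_lit 196)) (XT.nd (nat_lit 78) (nat_lit 76) (nat_lit 0) (XT.lf (nat_lit 0) (nat_lit 224957570997) (nat_lit 152) (nat_lit 2887539471989) (nat_lit 76) (nat_lit 8143622454850) (nat_lit 11) (nat_lit 5) (nat_lit 13) (nat_lit 5) (nat_lit 12) (nat_lit 4) (nat_lit 366) (nat_lit 339) (nat_lit 195)) (XT.lf (nat_lit 0) (nat_lit 3986068845677) (nat_lit 152) (nat_lit 7743137094359) (nat_lit 0) (nat_lit 879169567472) (nat_lit 10) (nat_lit 5) (nat_lit 12) (nat_lit 4) (nat_lit 10) (nat_lit 4) (nat_lit 367) (nat_lit 339) (nat_lit 194)))) (XT.nd (nat_lit 156) (nat_lit 380) (nat_lit 0) (XT.nd (nat_lit 78) (nat_lit 0) (nat_lit 0) (XT.lf (nat_lit 0) (nat_lit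 461620858412) (nat_lit 532) (nat_lit 41702378600) (nat_lit 532) (nat_lit 41702378600) (nat_lit 61) (nat_lit 3) (nat_lit 68) (nat_lit 3) (nat_lit 68) (nat_lit 5) (nat_lit 340) (nat_lit 340) (nat_lit 220)) (XT.lf (nat_lit 76) (nat_lit 949322988554) (nat_lit 0) (nat_lit 65993190238) (nat_lit 532) (nat_lit 154662388004) (nat_lit 62) (nat_lit 5) (nat_lit 61) (nat_lit 3) (nat_lit 68) (nat_lit 5) (nat_lit 341) (nat_lit 340) (nat_lit 219))) (XT.nd (nat_lit 78) (nat_lit 456) (nat_lit 0) (XT.lf (nat_lit 76) (nat_lit 900883651756) (nat_lit 0) (nat_lit 268904732602) (nat_lit 532) (nat_lit 88219692423) (nat_lit 63) (nat_lit 5) (nat_lit 62) (nat_lit 5) (nat_lit 69) (nat_lit 5) (nat_lit 342) (nat_lit 340) (nat_lit 218)) (XT.lf (nat_lit 0) (nat_lit 39463133637) (nat_lit 532) (nat_lit 489791877085) (nat_lit 608) (nat_lit 825955093162) (nat_lit 56) (nat_lit 5) (nat_lit 63) (nat_lit 5) (nat_lit 64) (nat_lit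 5) (nat_lit 343) (nat_lit 340) (nat_lit 217))))) (XT.nd (nat_lit 234) (nat_lit 836) (nat_lit 0) (XT.nd (nat_lit 78) (nat_lit 608) (nat_lit 0) (XT.lf (nat_lit 0) (nat_lit 235386728613) (nat_lit 532) (nat_lit 619414105557) (nat_lit 76) (nat_lit 607663332429) (nat_lit 57) (nat_lit 5) (nat_lit 64) (nat_lit 5) (nat_lit 58) (nat_lit 5) (nat_lit 344) (nat_lit 340) (nat_lit 216)) (XT.nd (nat_lit 78) (nat_lit 228) (nat_lit 0) (XT.lf (nat_lit 0) (nat_lit 518492785562) (nat_lit 456) (nat_lit 741721657884) (nat_lit 76) (nat_lit 320968381470) (nat_lit 52) (nat_lit 5) (nat_lit 58) (nat_lit 5) (nat_lit 53) (nat_lit 5) (nat_lit 345) (nat_lit 340) (nat_lit 215)) (XT.lf (nat_lit 0) (nat_lit 857180518912) (nat_lit 228) (nat_lit 49643091329) (nat_lit 304) (nat_lit 805864963015) (nat_lit 49) (nat_lit 5) (nat_lit 52) (nat_lit 5) (nat_lit 53) (nat_lit 5) (nat_lit 346) (nat_lit 340) (nat_lit 214)))) (XT.nd (nat_lit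 156) (nat_lit 380) (nat_lit 0) (XT.nd (nat_lit 78) (nat_lit 228) (nat_lit 0) (XT.lf (nat_lit 0) (nat_lit 890331386564) (nat_lit 228) (nat_lit 538927969378) (nat_lit 304) (nat_lit 428592404129) (nat_lit 46) (nat_lit 5) (nat_lit 49) (nat_lit 5) (nat_lit 50) (nat_lit 5) (nat_lit 347) (nat_lit 340) (nat_lit 213)) (XT.lf (nat_lit 0) (nat_lit 77434218927) (nat_lit 228) (nat_lit 1069221888485) (nat_lit 76) (nat_lit 872329027292) (nat_lit 43) (nat_lit 5) (nat_lit 46) (nat_lit 5) (nat_lit 44) (nat_lit 5) (nat_lit 348) (nat_lit 340) (nat_lit 212))) (XT.nd (nat_lit 78) (nat_lit 152) (nat_lit 0) (XT.lf (nat_lit 0) (nat_lit 711404837189) (nat_lit 304) (nat_lit 1170326470615) (nat_lit 76) (nat_lit 315473229729) (nat_lit 40) (nat_lit 5) (nat_lit 44) (nat_lit 5) (nat_lit 41) (nat_lit 5) (nat_lit 349) (nat_lit 340) (nat_lit 211)) (XT.lf (nat_lit 0) (nat_lit 1126294933298) (nat_lit 152) (nat_lit 404914997822)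 (nat_lit 228) (nat_lit 863687809038) (nat_lit 38) (nat_lit 5) (nat_lit 40) (nat_lit 5) (nat_lit 41) (nat_lit 5) (nat_lit 350) (nat_lit 340) (nat_lit 210)))))) (XT.nd (nat_lit 546) (nat_lit 760) (nat_lit 0) (XT.nd (nat_lit 234) (nat_lit 608) (nat_lit 0) (XT.nd (nat_lit 78) (nat_lit 380) (nat_lit 0) (XT.lf (nat_lit 0) (nat_lit 1249263178141) (nat_lit 152) (nat_lit 1320832090307) (nat_lit 228) (nat_lit 44460896388) (nat_lit 36) (nat_lit 5) (nat_lit 38) (nat_lit 5) (nat_lit 39) (nat_lit 5) (nat_lit 351) (nat_lit 340) (nat_lit 209)) (XT.nd (nat_lit 78) (nat_lit 152) (nat_lit 0) (XT.lf (nat_lit 0) (nat_lit 946364656355) (nat_lit 228) (nat_lit 1476464829667) (nat_lit 76) (nat_lit 435117291220) (nat_lit 33) (nat_lit 5) (nat_lit 36) (nat_lit 5) (nat_lit 34) (nat_lit 5) (nat_lit 352) (nat_lit 340) (nat_lit 208)) (XT.lf (nat_lit 0) (nat_lit 1525819658348) (nat_lit 152) (nat_lit 671445075443) (nat_lit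 228) (nat_lit 931362199604) (nat_lit 31) (nat_lit 5) (nat_lit 33) (nat_lit 5) (nat_lit 34) (nat_lit 5) (nat_lit 353) (nat_lit 340) (nat_lit 207)))) (XT.nd (nat_lit 156) (nat_lit 304) (nat_lit 0) (XT.nd (nat_lit 78) (nat_lit 152) (nat_lit 0) (XT.lf (nat_lit 0) (nat_lit 305974540760) (nat_lit 152) (nat_lit 1756181112250) (nat_lit 76) (nat_lit 1367785919657) (nat_lit 29) (nat_lit 5) (nat_lit 31) (nat_lit 5) (nat_lit 30) (nat_lit 5) (nat_lit 354) (nat_lit 340) (nat_lit 206)) (XT.lf (nat_lit 0) (nat_lit 1785961444597) (nat_lit 228) (nat_lit 1954997659783) (nat_lit 76) (nat_lit 24583270343) (nat_lit 27) (nat_lit 5) (nat_lit 30) (nat_lit 5) (nat_lit 28) (nat_lit 4) (nat_lit 355) (nat_lit 340) (nat_lit 205))) (XT.nd (nat_lit 78) (nat_lit 228) (nat_lit 0) (XT.lf (nat_lit 0) (nat_lit 1908335984025) (nat_lit 76) (nat_lit 1734997406984) (nat_lit 152) (nat_lit 495718945520) (nat_lit 26) (nat_lit 5)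 (nat_lit 27) (nat_lit 5) (nat_lit 28) (nat_lit 4) (nat_lit 356) (nat_lit 340) (nat_lit 204)) (XT.lf (nat_lit 0) (nat_lit 1273278828460) (nat_lit 228) (nat_lit 2601392512159) (nat_lit 76) (nat_lit 681738281768) (nat_lit 23) (nat_lit 5) (nat_lit 26) (nat_lit 5) (nat_lit 24) (nat_lit 4) (nat_lit 357) (nat_lit 340) (nat_lit 203))))) (XT.nd (nat_lit 312) (nat_lit 380) (nat_lit 0) (XT.nd (nat_lit 156) (nat_lit 152) (nat_lit 0) (XT.nd (nat_lit 78) (nat_lit 152) (nat_lit 0) (XT.lf (nat_lit 0) (nat_lit 1904404109252) (nat_lit 76) (nat_lit 1535123096479) (nat_lit 152) (nat_lit 1582912987607) (nat_lit 22) (nat_lit 5) (nat_lit 23) (nat_lit 5) (nat_lit 24) (nat_lit 4) (nat_lit 358) (nat_lit 340) (nat_lit 202)) (XT.lf (nat_lit 0) (nat_lit 505098662811) (nat_lit 152) (nat_lit 3810332264266) (nat_lit 76) (nat_lit 1230117084619) (nat_lit 20) (nat_lit 5) (nat_lit 22) (nat_lit 5) (nat_lit 21) (nat_lit 4)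 (nat_lit 359) (nat_lit 340) (nat_lit 201))) (XT.nd (nat_lit 78) (nat_lit 76) (nat_lit 0) (XT.lf (nat_lit 0) (nat_lit 1344054397217) (nat_lit 76) (nat_lit 1639114777037) (nat_lit 152) (nat_lit 3147017000600) (nat_lit 19) (nat_lit 5) (nat_lit 20) (nat_lit 5) (nat_lit 21) (nat_lit 4) (nat_lit 360) (nat_lit 340) (nat_lit 200)) (XT.lf (nat_lit 0) (nat_lit 706559887738) (nat_lit 76) (nat_lit 5291797811765) (nat_lit 76) (nat_lit 790929768016) (nat_lit 18) (nat_lit 4) (nat_lit 19) (nat_lit 5) (nat_lit 19) (nat_lit 4) (nat_lit 361) (nat_lit 340) (nat_lit 199)))) (XT.nd (nat_lit 156) (nat_lit 228) (nat_lit 0) (XT.nd (nat_lit 78) (nat_lit 76) (nat_lit 0) (XT.lf (nat_lit 0) (nat_lit 2010892117641) (nat_lit 152) (nat_lit 318212440676) (nat_lit 76) (nat_lit 5199394363353) (nat_lit 17) (nat_lit 5) (nat_lit 19) (nat_lit 5) (nat_lit 18) (nat_lit 4) (nat_lit 362) (nat_lit 340) (nat_lit 198)) (XT.lf (nat_lit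 0) (nat_lit 5377334254388) (nat_lit 152) (nat_lit 1774456201497) (nat_lit 0) (nat_lit 1209863840700) (nat_lit 16) (nat_lit 5) (nat_lit 18) (nat_lit 4) (nat_lit 16) (nat_lit 4) (nat_lit 363) (nat_lit 340) (nat_lit 197))) (XT.nd (nat_lit 78) (nat_lit 76) (nat_lit 0) (XT.lf (nat_lit 0) (nat_lit 142485456573) (nat_lit 152) (nat_lit 3871100665151) (nat_lit 76) (nat_lit 5289535777555) (nat_lit 14) (nat_lit 5) (nat_lit 16) (nat_lit 5) (nat_lit 15) (nat_lit 4) (nat_lit 364) (nat_lit 340) (nat_lit 196)) (XT.lf (nat_lit 0) (nat_lit 3538372164132) (nat_lit 76) (nat_lit 166359845456) (nat_lit 152) (nat_lit 6663426425999) (nat_lit 13) (nat_lit 5) (nat_lit 14) (nat_lit 5) (nat_lit 15) (nat_lit 4) (nat_lit 365) (nat_lit 340) (nat_lit 195))))))))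
noncomputable def xc59 : XT := (XT.nd (nat_lit 91884) (nat_lit 0) (nat_lit 228) (XT.nd (nat_lit 45864) (nat_lit 0) (nat_lit 76) (XT.nd (nat_lit 45318) (nat_lit 0) (nat_lit 1900) (XT.nd (nat_lit 45006) (nat_lit 0) (nat_lit 3420) (XT.nd (nat_lit 78) (nat_lit 76) (nat_lit 0) (XT.lf (nat_lit 0) (nat_lit 636250459249) (nat_lit 76) (nat_lit 7398401011694) (nat_lit 76) (nat_lit 3539632107369) (nat_lit 12) (nat_lit 4) (nat_lit 13) (nat_lit 5) (nat_lit 13) (nat_lit 4) (nat_lit 366) (nat_lit 340) (nat_lit 194)) (XT.nd (nat_lit 44850) (nat_lit 0) (nat_lit 3800) (XT.lf (nat_lit 0) (nat_lit 258701226051) (nat_lit 152) (nat_lit 3320670354830) (nat_lit 76) (nat_lit 9365165840076) (nat_lit 11) (nat_lit 5) (nat_lit 13) (nat_lit 5) (nat_lit 12) (nat_lit 4) (nat_lit 367) (nat_lit 340) (nat_lit 193)) (XT.lf (nat_lit 0) (nat_lit 530864075845) (nat_lit 532) (nat_lit 47957687454) (nat_lit 532) (nat_lit 47957687454)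 (nat_lit 61) (nat_lit 3) (nat_lit 68) (nat_lit 3) (nat_lit 68) (nat_lit 5) (nat_lit 341) (nat_lit 341) (nat_lit 218)))) (XT.nd (nat_lit 156) (nat_lit 380) (nat_lit 0) (XT.nd (nat_lit 78) (nat_lit 0) (nat_lit 76) (XT.lf (nat_lit 76) (nat_lit 1091721524595) (nat_lit 0) (nat_lit 75892237337) (nat_lit 532) (nat_lit 177861577190) (nat_lit 62) (nat_lit 5) (nat_lit 61) (nat_lit 3) (nat_lit 68) (nat_lit 5) (nat_lit 342) (nat_lit 341) (nat_lit 217)) (XT.lf (nat_lit 76) (nat_lit 1036016292978) (nat_lit 0) (nat_lit 309240485778) (nat_lit 532) (nat_lit 101452498439) (nat_lit 63) (nat_lit 5) (nat_lit 62) (nat_lit 5) (nat_lit 69) (nat_lit 5) (nat_lit 343) (nat_lit 341) (nat_lit 216))) (XT.nd (nat_lit 78) (nat_lit 0) (nat_lit 76) (XT.lf (nat_lit 0) (nat_lit 45382727272) (nat_lit 532) (nat_lit 563260555344) (nat_lit 608) (nat_lit 949848326832) (nat_lit 56) (nat_lit 5) (nat_lit 63) (nat_lit 5) (nat_lit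 64) (nat_lit 5) (nat_lit 344) (nat_lit 341) (nat_lit 215)) (XT.lf (nat_lit 0) (nat_lit 270694847283) (nat_lit 532) (nat_lit 712326117572) (nat_lit 76) (nat_lit 698812817870) (nat_lit 57) (nat_lit 5) (nat_lit 64) (nat_lit 5) (nat_lit 58) (nat_lit 5) (nat_lit 345) (nat_lit 341) (nat_lit 214))))) (XT.nd (nat_lit 234) (nat_lit 760) (nat_lit 0) (XT.nd (nat_lit 78) (nat_lit 456) (nat_lit 0) (XT.lf (nat_lit 0) (nat_lit 596266800736) (nat_lit 456) (nat_lit 852979803587) (nat_lit 76) (nat_lit 369113636444) (nat_lit 52) (nat_lit 5) (nat_lit 58) (nat_lit 5) (nat_lit 53) (nat_lit 5) (nat_lit 346) (nat_lit 341) (nat_lit 213)) (XT.nd (nat_lit 78) (nat_lit 228) (nat_lit 0) (XT.lf (nat_lit 0) (nat_lit 985757691012) (nat_lit 228) (nat_lit 57089547676) (nat_lit 304) (nat_lit 926744613517) (nat_lit 49) (nat_lit 5) (nat_lit 52) (nat_lit 5) (nat_lit 53) (nat_lit 5) (nat_lit 347) (nat_lit 341) (nat_lit 212))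 (XT.lf (nat_lit 0) (nat_lit 1023881187114) (nat_lit 228) (nat_lit 619767150173) (nat_lit 304) (nat_lit 492881180483) (nat_lit 46) (nat_lit 5) (nat_lit 49) (nat_lit 5) (nat_lit 50) (nat_lit 5) (nat_lit 348) (nat_lit 341) (nat_lit 211)))) (XT.nd (nat_lit 156) (nat_lit 304) (nat_lit 0) (XT.nd (nat_lit 78) (nat_lit 228) (nat_lit 0) (XT.lf (nat_lit 0) (nat_lit 89049423914) (nat_lit 228) (nat_lit 1229605077711) (nat_lit 76) (nat_lit 1003178397451) (nat_lit 43) (nat_lit 5) (nat_lit 46) (nat_lit 5) (nat_lit 44) (nat_lit 5) (nat_lit 349) (nat_lit 341) (nat_lit 210)) (XT.lf (nat_lit 0) (nat_lit 818115628086) (nat_lit 304) (nat_lit 1345875350396) (nat_lit 76) (nat_lit 362794234402) (nat_lit 40) (nat_lit 5) (nat_lit 44) (nat_lit 5) (nat_lit 41) (nat_lit 5) (nat_lit 350) (nat_lit 341) (nat_lit 209))) (XT.nd (nat_lit 78) (nat_lit 152) (nat_lit 0) (XT.lf (nat_lit 0) (nat_lit 1295239256417) (nat_lit 152)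 (nat_lit 465652223169) (nat_lit 228) (nat_lit 993240916845) (nat_lit 38) (nat_lit 5) (nat_lit 40) (nat_lit 5) (nat_lit 41) (nat_lit 5) (nat_lit 351) (nat_lit 341) (nat_lit 208)) (XT.lf (nat_lit 0) (nat_lit 1436652734763) (nat_lit 152) (nat_lit 1518956877512) (nat_lit 228) (nat_lit 51129972962) (nat_lit 36) (nat_lit 5) (nat_lit 38) (nat_lit 5) (nat_lit 39) (nat_lit 5) (nat_lit 352) (nat_lit 341) (nat_lit 207)))))) (XT.nd (nat_lit 546) (nat_lit 760) (nat_lit 0) (XT.nd (nat_lit 234) (nat_lit 532) (nat_lit 0) (XT.nd (nat_lit 78) (nat_lit 304) (nat_lit 0) (XT.lf (nat_lit 0) (nat_lit 1088319405078) (nat_lit 228) (nat_lit 1697934474922) (nat_lit 76) (nat_lit 500384909776) (nat_lit 33) (nat_lit 5) (nat_lit 36) (nat_lit 5) (nat_lit 34) (nat_lit 5) (nat_lit 353) (nat_lit 341) (nat_lit 206)) (XT.nd (nat_lit 78) (nat_lit 152) (nat_lit 0) (XT.lf (nat_lit 0) (nat_lit 1754692679593) (nat_lit 152) (nat_lit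 772161809724) (nat_lit 228) (nat_lit 1071066480424) (nat_lit 31) (nat_lit 5) (nat_lit 33) (nat_lit 5) (nat_lit 34) (nat_lit 5) (nat_lit 354) (nat_lit 341) (nat_lit 205)) (XT.lf (nat_lit 0) (nat_lit 351870764737) (nat_lit 152) (nat_lit 2019608207693) (nat_lit 76) (nat_lit 1572953832687) (nat_lit 29) (nat_lit 5) (nat_lit 31) (nat_lit 5) (nat_lit 30) (nat_lit 5) (nat_lit 355) (nat_lit 341) (nat_lit 204)))) (XT.nd (nat_lit 156) (nat_lit 304) (nat_lit 0) (XT.nd (nat_lit 78) (nat_lit 76) (nat_lit 0) (XT.lf (nat_lit 0) (nat_lit 2053855700767) (nat_lit 228) (nat_lit 2248247240910) (nat_lit 76) (nat_lit 28270786076) (nat_lit 27) (nat_lit 5) (nat_lit 30) (nat_lit 5) (nat_lit 28) (nat_lit 4) (nat_lit 356) (nat_lit 341) (nat_lit 203)) (XT.lf (nat_lit 0) (nat_lit 2194586443727) (nat_lit 76) (nat_lit 1995246991758) (nat_lit 152) (nat_lit 570076748640) (nat_lit 26) (nat_lit 5) (nat_lit 27) (nat_lit 5)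 (nat_lit 28) (nat_lit 4) (nat_lit 357) (nat_lit 341) (nat_lit 202))) (XT.nd (nat_lit 78) (nat_lit 76) (nat_lit 0) (XT.lf (nat_lit 0) (nat_lit 1464270686722) (nat_lit 228) (nat_lit 2991601328277) (nat_lit 76) (nat_lit 783999048014) (nat_lit 23) (nat_lit 5) (nat_lit 26) (nat_lit 5) (nat_lit 24) (nat_lit 4) (nat_lit 358) (nat_lit 341) (nat_lit 201)) (XT.lf (nat_lit 0) (nat_lit 2190064781207) (nat_lit 76) (nat_lit 1765391536277) (nat_lit 152) (nat_lit 1820349902370) (nat_lit 22) (nat_lit 5) (nat_lit 23) (nat_lit 5) (nat_lit 24) (nat_lit 4) (nat_lit 359) (nat_lit 341) (nat_lit 200))))) (XT.nd (nat_lit 312) (nat_lit 380) (nat_lit 0) (XT.nd (nat_lit 156) (nat_lit 152) (nat_lit 0) (XT.nd (nat_lit 78) (nat_lit 76) (nat_lit 0) (XT.lf (nat_lit 0) (nat_lit 580863491633) (nat_lit 152) (nat_lit 4381882049753) (nat_lit 76) (nat_lit 1414634669703) (nat_lit 20) (nat_lit 5) (nat_lit 22) (nat_lit 5) (nat_lit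 21) (nat_lit 4) (nat_lit 360) (nat_lit 341) (nat_lit 199)) (XT.lf (nat_lit 0) (nat_lit 1545662606368) (nat_lit 76) (nat_lit 1884981970782) (nat_lit 152) (nat_lit 3619069521784) (nat_lit 19) (nat_lit 5) (nat_lit 20) (nat_lit 5) (nat_lit 21) (nat_lit 4) (nat_lit 361) (nat_lit 341) (nat_lit 198))) (XT.nd (nat_lit 78) (nat_lit 76) (nat_lit 0) (XT.lf (nat_lit 0) (nat_lit 812543917737) (nat_lit 76) (nat_lit 6085567461563) (nat_lit 76) (nat_lit 909569206351) (nat_lit 18) (nat_lit 4) (nat_lit 19) (nat_lit 5) (nat_lit 19) (nat_lit 4) (nat_lit 362) (nat_lit 341) (nat_lit 197)) (XT.lf (nat_lit 0) (nat_lit 2312525957482) (nat_lit 152) (nat_lit 365944264875) (nat_lit 76) (nat_lit 5979303535783) (nat_lit 17) (nat_lit 5) (nat_lit 19) (nat_lit 5) (nat_lit 18) (nat_lit 4) (nat_lit 363) (nat_lit 341) (nat_lit 196)))) (XT.nd (nat_lit 156) (nat_lit 152) (nat_lit 0) (XT.nd (nat_lit 78) (nat_lit 152) (nat_lit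 0) (XT.lf (nat_lit 0) (nat_lit 6183934413204) (nat_lit 152) (nat_lit 2040624592179) (nat_lit 0) (nat_lit 1391343434032) (nat_lit 16) (nat_lit 5) (nat_lit 18) (nat_lit 4) (nat_lit 16) (nat_lit 4) (nat_lit 364) (nat_lit 341) (nat_lit 195)) (XT.lf (nat_lit 0) (nat_lit 163858294386) (nat_lit 152) (nat_lit 4451765727706) (nat_lit 76) (nat_lit 6082966160528) (nat_lit 14) (nat_lit 5) (nat_lit 16) (nat_lit 5) (nat_lit 15) (nat_lit 4) (nat_lit 365) (nat_lit 341) (nat_lit 194))) (XT.nd (nat_lit 78) (nat_lit 76) (nat_lit 0) (XT.lf (nat_lit 0) (nat_lit 4069128022819) (nat_lit 76) (nat_lit 191313805833) (nat_lit 152) (nat_lit 7662940370860) (nat_lit 13) (nat_lit 5) (nat_lit 14) (nat_lit 5) (nat_lit 15) (nat_lit 4) (nat_lit 366) (nat_lit 341) (nat_lit 193)) (XT.lf (nat_lit 0) (nat_lit 731688060252) (nat_lit 76) (nat_lit 8508161147775) (nat_lit 76) (nat_lit 4070576905712) (nat_lit 12) (nat_lit 4) (nat_lit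 13) (nat_lit 5) (nat_lit 13) (nat_lit 4) (nat_lit 367) (nat_lit 341) (nat_lit 192))))))) (XT.nd (nat_lit 1092) (nat_lit 1292) (nat_lit 0) (XT.nd (nat_lit 546) (nat_lit 1368) (nat_lit 0) (XT.nd (nat_lit 234) (nat_lit 912) (nat_lit 0) (XT.nd (nat_lit 78) (nat_lit 0) (nat_lit 0) (XT.lf (nat_lit 0) (nat_lit 610493754269) (nat_lit 532) (nat_lit 55151304325) (nat_lit 532) (nat_lit 55151304325) (nat_lit 61) (nat_lit 3) (nat_lit 68) (nat_lit 3) (nat_lit 68) (nat_lit 5) (nat_lit 342) (nat_lit 342) (nat_lit 216)) (XT.nd (nat_lit 78) (nat_lit 0) (nat_lit 76) (XT.lf (nat_lit 76) (nat_lit 1255479819642) (nat_lit 0) (nat_lit 87276124781) (nat_lit 532) (nat_lit 204540685970) (nat_lit 62) (nat_lit 5) (nat_lit 61) (nat_lit 3) (nat_lit 68) (nat_lit 5) (nat_lit 343) (nat_lit 342) (nat_lit 215)) (XT.lf (nat_lit 76) (nat_lit 1191418807593) (nat_lit 0) (nat_lit 355626591376) (nat_lit 532) (nat_lit 116670261410)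 (nat_lit 63) (nat_lit 5) (nat_lit 62) (nat_lit 5) (nat_lit 69) (nat_lit 5) (nat_lit 344) (nat_lit 342) (nat_lit 214)))) (XT.nd (nat_lit 156) (nat_lit 532) (nat_lit 0) (XT.nd (nat_lit 78) (nat_lit 0) (nat_lit 76) (XT.lf (nat_lit 0) (nat_lit 52190229814) (nat_lit 532) (nat_lit 647749560533) (nat_lit 608) (nat_lit 1092325552943) (nat_lit 56) (nat_lit 5) (nat_lit 63) (nat_lit 5) (nat_lit 64) (nat_lit 5) (nat_lit 345) (nat_lit 342) (nat_lit 213)) (XT.lf (nat_lit 0) (nat_lit 311299157081) (nat_lit 532) (nat_lit 819174956705) (nat_lit 76) (nat_lit 803634729644) (nat_lit 57) (nat_lit 5) (nat_lit 64) (nat_lit 5) (nat_lit 58) (nat_lit 5) (nat_lit 346) (nat_lit 342) (nat_lit 212))) (XT.nd (nat_lit 78) (nat_lit 228) (nat_lit 0) (XT.lf (nat_lit 0) (nat_lit 685706894450) (nat_lit 456) (nat_lit 980926696258) (nat_lit 76) (nat_lit 424480680211) (nat_lit 52) (nat_lit 5) (nat_lit 58) (nat_lit 5) (nat_lit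 53) (nat_lit 5) (nat_lit 347) (nat_lit 342) (nat_lit 211)) (XT.lf (nat_lit 0) (nat_lit 1133621415940) (nat_lit 228) (nat_lit 65652974268) (nat_lit 304) (nat_lit 1065756234505) (nat_lit 49) (nat_lit 5) (nat_lit 52) (nat_lit 5) (nat_lit 53) (nat_lit 5) (nat_lit 348) (nat_lit 342) (nat_lit 210))))) (XT.nd (nat_lit 234) (nat_lit 684) (nat_lit 0) (XT.nd (nat_lit 78) (nat_lit 456) (nat_lit 0) (XT.lf (nat_lit 0) (nat_lit 1177463435174) (nat_lit 228) (nat_lit 712732211650) (nat_lit 304) (nat_lit 566813293838) (nat_lit 46) (nat_lit 5) (nat_lit 49) (nat_lit 5) (nat_lit 50) (nat_lit 5) (nat_lit 349) (nat_lit 342) (nat_lit 209)) (XT.nd (nat_lit 78) (nat_lit 228) (nat_lit 0) (XT.lf (nat_lit 0) (nat_lit 102406892055) (nat_lit 228) (nat_lit 1414045768256) (nat_lit 76) (nat_lit 1153655169217) (nat_lit 43) (nat_lit 5) (nat_lit 46) (nat_lit 5) (nat_lit 44) (nat_lit 5) (nat_lit 350) (nat_lit 342) (nat_lit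 208)) (XT.lf (nat_lit 0) (nat_lit 940833021690) (nat_lit 304) (nat_lit 1547756584289) (nat_lit 76) (nat_lit 417213384846) (nat_lit 40) (nat_lit 5) (nat_lit 44) (nat_lit 5) (nat_lit 41) (nat_lit 5) (nat_lit 351) (nat_lit 342) (nat_lit 207)))) (XT.nd (nat_lit 156) (nat_lit 380) (nat_lit 0) (XT.nd (nat_lit 78) (nat_lit 152) (nat_lit 0) (XT.lf (nat_lit 0) (nat_lit 1489525207734) (nat_lit 152) (nat_lit 535500038251) (nat_lit 228) (nat_lit 1142227006320) (nat_lit 38) (nat_lit 5) (nat_lit 40) (nat_lit 5) (nat_lit 41) (nat_lit 5) (nat_lit 352) (nat_lit 342) (nat_lit 206)) (XT.lf (nat_lit 0) (nat_lit 1652150705394) (nat_lit 152) (nat_lit 1746800389221) (nat_lit 228) (nat_lit 58799425138) (nat_lit 36) (nat_lit 5) (nat_lit 38) (nat_lit 5) (nat_lit 39) (nat_lit 5) (nat_lit 353) (nat_lit 342) (nat_lit 205))) (XT.nd (nat_lit 78) (nat_lit 152) (nat_lit 0) (XT.lf (nat_lit 0) (nat_lit 1251567353850) (nat_lit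 228) (nat_lit 1952624586277) (nat_lit 76) (nat_lit 575442665049) (nat_lit 33) (nat_lit 5) (nat_lit 36) (nat_lit 5) (nat_lit 34) (nat_lit 5) (nat_lit 354) (nat_lit 342) (nat_lit 204)) (XT.lf (nat_lit 0) (nat_lit 2017896636346) (nat_lit 152) (nat_lit 887986060740) (nat_lit 228) (nat_lit 1231726415346) (nat_lit 31) (nat_lit 5) (nat_lit 33) (nat_lit 5) (nat_lit 34) (nat_lit 5) (nat_lit 355) (nat_lit 342) (nat_lit 203)))))) (XT.nd (nat_lit 546) (nat_lit 380) (nat_lit 0) (XT.nd (nat_lit 234) (nat_lit 532) (nat_lit 0) (XT.nd (nat_lit 78) (nat_lit 228) (nat_lit 0) (XT.lf (nat_lit 0) (nat_lit 404651411857) (nat_lit 152) (nat_lit 2322549384862) (nat_lit 76) (nat_lit 1808896926555) (nat_lit 29) (nat_lit 5) (nat_lit 31) (nat_lit 5) (nat_lit 30) (nat_lit 5) (nat_lit 356) (nat_lit 342) (nat_lit 202)) (XT.nd (nat_lit 78) (nat_lit 76) (nat_lit 0) (XT.lf (nat_lit 0) (nat_lit 2361934085735) (nat_lit 228)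 (nat_lit 2585484275749) (nat_lit 76) (nat_lit 32511423029) (nat_lit 27) (nat_lit 5) (nat_lit 30) (nat_lit 5) (nat_lit 28) (nat_lit 4) (nat_lit 357) (nat_lit 342) (nat_lit 201)) (XT.lf (nat_lit 0) (nat_lit 2523774457241) (nat_lit 76) (nat_lit 2294534020655) (nat_lit 152) (nat_lit 655588231668) (nat_lit 26) (nat_lit 5) (nat_lit 27) (nat_lit 5) (nat_lit 28) (nat_lit 4) (nat_lit 358) (nat_lit 342) (nat_lit 200)))) (XT.nd (nat_lit 156) (nat_lit 228) (nat_lit 0) (XT.nd (nat_lit 78) (nat_lit 76) (nat_lit 0) (XT.lf (nat_lit 0) (nat_lit 1683911315433) (nat_lit 228) (nat_lit 3440341481616) (nat_lit 76) (nat_lit 901598923350) (nat_lit 23) (nat_lit 5) (nat_lit 26) (nat_lit 5) (nat_lit 24) (nat_lit 4) (nat_lit 359) (nat_lit 342) (nat_lit 199)) (XT.lf (nat_lit 0) (nat_lit 2518574540406) (nat_lit 76) (nat_lit 2030200248063) (nat_lit 152) (nat_lit 2093402362487) (nat_lit 22) (nat_lit 5) (nat_lit 23) (nat_lit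 5) (nat_lit 24) (nat_lit 4) (nat_lit 360) (nat_lit 342) (nat_lit 198))) (XT.nd (nat_lit 78) (nat_lit 76) (nat_lit 0) (XT.lf (nat_lit 0) (nat_lit 667993037608) (nat_lit 152) (nat_lit 5039164316270) (nat_lit 76) (nat_lit 1626829887089) (nat_lit 20) (nat_lit 5) (nat_lit 22) (nat_lit 5) (nat_lit 21) (nat_lit 4) (nat_lit 361) (nat_lit 342) (nat_lit 197)) (XT.lf (nat_lit 0) (nat_lit 1777512034804) (nat_lit 76) (nat_lit 2167729249150) (nat_lit 152) (nat_lit 4161929928195) (nat_lit 19) (nat_lit 5) (nat_lit 20) (nat_lit 5) (nat_lit 21) (nat_lit 4) (nat_lit 362) (nat_lit 342) (nat_lit 196))))) (XT.nd (nat_lit 45318) (nat_lit 0) (nat_lit 3192) (XT.nd (nat_lit 156) (nat_lit 228) (nat_lit 0) (XT.nd (nat_lit 78) (nat_lit 76) (nat_lit 0) (XT.lf (nat_lit 0) (nat_lit 934425540813) (nat_lit 76) (nat_lit 6998402564187) (nat_lit 76) (nat_lit 1046004566988) (nat_lit 18) (nat_lit 4) (nat_lit 19) (nat_lit 5)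 (nat_lit 19) (nat_lit 4) (nat_lit 363) (nat_lit 342) (nat_lit 195)) (XT.lf (nat_lit 0) (nat_lit 2659404867886) (nat_lit 152) (nat_lit 420835872921) (nat_lit 76) (nat_lit 6876199079706) (nat_lit 17) (nat_lit 5) (nat_lit 19) (nat_lit 5) (nat_lit 18) (nat_lit 4) (nat_lit 364) (nat_lit 342) (nat_lit 194))) (XT.nd (nat_lit 78) (nat_lit 152) (nat_lit 0) (XT.lf (nat_lit 0) (nat_lit 7111524590805) (nat_lit 152) (nat_lit 2346718251106) (nat_lit 0) (nat_lit 1600044962163) (nat_lit 16) (nat_lit 5) (nat_lit 18) (nat_lit 4) (nat_lit 16) (nat_lit 4) (nat_lit 365) (nat_lit 342) (nat_lit 193)) (XT.lf (nat_lit 0) (nat_lit 188437053159) (nat_lit 152) (nat_lit 5119530558720) (nat_lit 76) (nat_lit 6995411096963) (nat_lit 14) (nat_lit 5) (nat_lit 16) (nat_lit 5) (nat_lit 15) (nat_lit 4) (nat_lit 366) (nat_lit 342) (nat_lit 192)))) (XT.nd (nat_lit 156) (nat_lit 380) (nat_lit 0) (XT.nd (nat_lit 78) (nat_lit 0)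 (nat_lit 0) (XT.lf (nat_lit 0) (nat_lit 702067868107) (nat_lit 532) (nat_lit 63423972566) (nat_lit 532) (nat_lit 63423972566) (nat_lit 61) (nat_lit 3) (nat_lit 68) (nat_lit 3) (nat_lit 68) (nat_lit 5) (nat_lit 343) (nat_lit 343) (nat_lit 214)) (XT.lf (nat_lit 76) (nat_lit 1443801842764) (nat_lit 0) (nat_lit 100367582700) (nat_lit 532) (nat_lit 235221692230) (nat_lit 62) (nat_lit 5) (nat_lit 61) (nat_lit 3) (nat_lit 68) (nat_lit 5) (nat_lit 344) (nat_lit 343) (nat_lit 213))) (XT.nd (nat_lit 78) (nat_lit 456) (nat_lit 0) (XT.lf (nat_lit 76) (nat_lit 1370131682167) (nat_lit 0) (nat_lit 408970604832) (nat_lit 532) (nat_lit 134170716089) (nat_lit 63) (nat_lit 5) (nat_lit 62) (nat_lit 5) (nat_lit 69) (nat_lit 5) (nat_lit 345) (nat_lit 343) (nat_lit 212)) (XT.lf (nat_lit 0) (nat_lit 60018834948) (nat_lit 532) (nat_lit 744911935549) (nat_lit 608) (nat_lit 1256174368558) (nat_lit 56) (nat_lit 5)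 (nat_lit 63) (nat_lit 5) (nat_lit 64) (nat_lit 5) (nat_lit 346) (nat_lit 343) (nat_lit 211))))))))
noncomputable def xc60 : XT := (XT.nd (nat_lit 47268) (nat_lit 0) (nat_lit 152) (XT.nd (nat_lit 1092) (nat_lit 532) (nat_lit 0) (XT.nd (nat_lit 546) (nat_lit 1140) (nat_lit 0) (XT.nd (nat_lit 234) (nat_lit 836) (nat_lit 0) (XT.nd (nat_lit 78) (nat_lit 608) (nat_lit 0) (XT.lf (nat_lit 0) (nat_lit 357994093180) (nat_lit 532) (nat_lit 942051140852) (nat_lit 76) (nat_lit 924179930844) (nat_lit 57) (nat_lit 5) (nat_lit 64) (nat_lit 5) (nat_lit 58) (nat_lit 5) (nat_lit 347) (nat_lit 343) (nat_lit 210)) (XT.nd (nat_lit 78) (nat_lit 228) (nat_lit 0) (XT.lf (nat_lit 0) (nat_lit 788562984271) (nat_lit 456) (nat_lit 1128065641817) (nat_lit 76) (nat_lit 488152780958) (nat_lit 52) (nat_lit 5) (nat_lit 58) (nat_lit 5) (nat_lit 53) (nat_lit 5) (nat_lit 348) (nat_lit 343) (nat_lit 209)) (XT.lf (nat_lit 0)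 (nat_lit 1303664682226) (nat_lit 228) (nat_lit 75500916204) (nat_lit 304) (nat_lit 1225619615965) (nat_lit 49) (nat_lit 5) (nat_lit 52) (nat_lit 5) (nat_lit 53) (nat_lit 5) (nat_lit 349) (nat_lit 343) (nat_lit 208)))) (XT.nd (nat_lit 156) (nat_lit 380) (nat_lit 0) (XT.nd (nat_lit 78) (nat_lit 228) (nat_lit 0) (XT.lf (nat_lit 0) (nat_lit 1354083003375) (nat_lit 228) (nat_lit 819642035043) (nat_lit 304) (nat_lit 651835239735) (nat_lit 46) (nat_lit 5) (nat_lit 49) (nat_lit 5) (nat_lit 50) (nat_lit 5) (nat_lit 350) (nat_lit 343) (nat_lit 207)) (XT.lf (nat_lit 0) (nat_lit 117767967114) (nat_lit 228) (nat_lit 1626152579723) (nat_lit 76) (nat_lit 1326703453785) (nat_lit 43) (nat_lit 5) (nat_lit 46) (nat_lit 5) (nat_lit 44) (nat_lit 5) (nat_lit 351) (nat_lit 343) (nat_lit 206))) (XT.nd (nat_lit 78) (nat_lit 152) (nat_lit 0) (XT.lf (nat_lit 0) (nat_lit 1081958012291) (nat_lit 304) (nat_lit 1779920020011)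 (nat_lit 76) (nat_lit 479795404131) (nat_lit 40) (nat_lit 5) (nat_lit 44) (nat_lit 5) (nat_lit 41) (nat_lit 5) (nat_lit 352) (nat_lit 343) (nat_lit 205)) (XT.lf (nat_lit 0) (nat_lit 1712954036421) (nat_lit 152) (nat_lit 615825030080) (nat_lit 228) (nat_lit 1313561020934) (nat_lit 38) (nat_lit 5) (nat_lit 40) (nat_lit 5) (nat_lit 41) (nat_lit 5) (nat_lit 353) (nat_lit 343) (nat_lit 204))))) (XT.nd (nat_lit 234) (nat_lit 608) (nat_lit 0) (XT.nd (nat_lit 78) (nat_lit 380) (nat_lit 0) (XT.lf (nat_lit 0) (nat_lit 1899973356887) (nat_lit 152) (nat_lit 2008820432544) (nat_lit 228) (nat_lit 67619305813) (nat_lit 36) (nat_lit 5) (nat_lit 38) (nat_lit 5) (nat_lit 39) (nat_lit 5) (nat_lit 354) (nat_lit 343) (nat_lit 203)) (XT.nd (nat_lit 78) (nat_lit 152) (nat_lit 0) (XT.lf (nat_lit 0) (nat_lit 1439302485670) (nat_lit 228) (nat_lit 2245518228939) (nat_lit 76) (nat_lit 661759079028) (nat_lit 33) (nat_lit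 5) (nat_lit 36) (nat_lit 5) (nat_lit 34) (nat_lit 5) (nat_lit 355) (nat_lit 343) (nat_lit 202)) (XT.lf (nat_lit 0) (nat_lit 2320581173246) (nat_lit 152) (nat_lit 1021183954393) (nat_lit 228) (nat_lit 1416485349563) (nat_lit 31) (nat_lit 5) (nat_lit 33) (nat_lit 5) (nat_lit 34) (nat_lit 5) (nat_lit 356) (nat_lit 343) (nat_lit 201)))) (XT.nd (nat_lit 156) (nat_lit 304) (nat_lit 0) (XT.nd (nat_lit 78) (nat_lit 152) (nat_lit 0) (XT.lf (nat_lit 0) (nat_lit 465349148142) (nat_lit 152) (nat_lit 2670931751772) (nat_lit 76) (nat_lit 2080231479878) (nat_lit 29) (nat_lit 5) (nat_lit 31) (nat_lit 5) (nat_lit 30) (nat_lit 5) (nat_lit 357) (nat_lit 343) (nat_lit 200)) (XT.lf (nat_lit 0) (nat_lit 2716224221169) (nat_lit 228) (nat_lit 2973306878323) (nat_lit 76) (nat_lit 37388150881) (nat_lit 27) (nat_lit 5) (nat_lit 30) (nat_lit 5) (nat_lit 28) (nat_lit 4) (nat_lit 358) (nat_lit 343) (nat_lit 199))) (XT.nd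 (nat_lit 78) (nat_lit 228) (nat_lit 0) (XT.lf (nat_lit 0) (nat_lit 2902340661333) (nat_lit 76) (nat_lit 2638714108731) (nat_lit 152) (nat_lit 753926444287) (nat_lit 26) (nat_lit 5) (nat_lit 27) (nat_lit 5) (nat_lit 28) (nat_lit 4) (nat_lit 359) (nat_lit 343) (nat_lit 198)) (XT.lf (nat_lit 0) (nat_lit 1936498032183) (nat_lit 228) (nat_lit 3956392669149) (nat_lit 76) (nat_lit 1036838775564) (nat_lit 23) (nat_lit 5) (nat_lit 26) (nat_lit 5) (nat_lit 24) (nat_lit 4) (nat_lit 360) (nat_lit 343) (nat_lit 197)))))) (XT.nd (nat_lit 45630) (nat_lit 0) (nat_lit 2280) (XT.nd (nat_lit 234) (nat_lit 228) (nat_lit 0) (XT.nd (nat_lit 78) (nat_lit 228) (nat_lit 0) (XT.lf (nat_lit 0) (nat_lit 2896360753238) (nat_lit 76) (nat_lit 2334730271165) (nat_lit 152) (nat_lit 2407412697776) (nat_lit 22) (nat_lit 5) (nat_lit 23) (nat_lit 5) (nat_lit 24) (nat_lit 4) (nat_lit 361) (nat_lit 343) (nat_lit 196)) (XT.nd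 (nat_lit 78) (nat_lit 76) (nat_lit 0) (XT.lf (nat_lit 0) (nat_lit 768192010059) (nat_lit 152) (nat_lit 5795038932748) (nat_lit 76) (nat_lit 1870854382954) (nat_lit 20) (nat_lit 5) (nat_lit 22) (nat_lit 5) (nat_lit 21) (nat_lit 4) (nat_lit 362) (nat_lit 343) (nat_lit 195)) (XT.lf (nat_lit 0) (nat_lit 2044138868365) (nat_lit 76) (nat_lit 2492888623481) (nat_lit 152) (nat_lit 4786219400897) (nat_lit 19) (nat_lit 5) (nat_lit 20) (nat_lit 5) (nat_lit 21) (nat_lit 4) (nat_lit 363) (nat_lit 343) (nat_lit 194)))) (XT.nd (nat_lit 156) (nat_lit 76) (nat_lit 0) (XT.nd (nat_lit 78) (nat_lit 76) (nat_lit 0) (XT.lf (nat_lit 0) (nat_lit 1074589398715) (nat_lit 76) (nat_lit 8048162936255) (nat_lit 76) (nat_lit 1202905236675) (nat_lit 18) (nat_lit 4) (nat_lit 19) (nat_lit 5) (nat_lit 19) (nat_lit 4) (nat_lit 364) (nat_lit 343) (nat_lit 193)) (XT.lf (nat_lit 0) (nat_lit 3058315610759) (nat_lit 152) (nat_lit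 483961229901) (nat_lit 76) (nat_lit 7907628951912) (nat_lit 17) (nat_lit 5) (nat_lit 19) (nat_lit 5) (nat_lit 18) (nat_lit 4) (nat_lit 365) (nat_lit 343) (nat_lit 192))) (XT.nd (nat_lit 45162) (nat_lit 0) (nat_lit 3420) (XT.lf (nat_lit 0) (nat_lit 8178253291237) (nat_lit 152) (nat_lit 2698725966163) (nat_lit 0) (nat_lit 1840051716337) (nat_lit 16) (nat_lit 5) (nat_lit 18) (nat_lit 4) (nat_lit 16) (nat_lit 4) (nat_lit 366) (nat_lit 343) (nat_lit 191)) (XT.lf (nat_lit 0) (nat_lit 807378086659) (nat_lit 532) (nat_lit 72937547727) (nat_lit 532) (nat_lit 72937547727) (nat_lit 61) (nat_lit 3) (nat_lit 68) (nat_lit 3) (nat_lit 68) (nat_lit 5) (nat_lit 344) (nat_lit 344) (nat_lit 212))))) (XT.nd (nat_lit 234) (nat_lit 760) (nat_lit 0) (XT.nd (nat_lit 78) (nat_lit 380) (nat_lit 0) (XT.lf (nat_lit 76) (nat_lit 1660372157119) (nat_lit 0) (nat_lit 115422749746) (nat_lit 532) (nat_lit 270504872995)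 (nat_lit 62) (nat_lit 5) (nat_lit 61) (nat_lit 3) (nat_lit 68) (nat_lit 5) (nat_lit 345) (nat_lit 344) (nat_lit 211)) (XT.nd (nat_lit 78) (nat_lit 456) (nat_lit 0) (XT.lf (nat_lit 76) (nat_lit 1575651474897) (nat_lit 0) (nat_lit 470316214271) (nat_lit 532) (nat_lit 154296259583) (nat_lit 63) (nat_lit 5) (nat_lit 62) (nat_lit 5) (nat_lit 69) (nat_lit 5) (nat_lit 346) (nat_lit 344) (nat_lit 210)) (XT.lf (nat_lit 0) (nat_lit 69021713621) (nat_lit 532) (nat_lit 856648681221) (nat_lit 608) (nat_lit 1444600510740) (nat_lit 56) (nat_lit 5) (nat_lit 63) (nat_lit 5) (nat_lit 64) (nat_lit 5) (nat_lit 347) (nat_lit 344) (nat_lit 209)))) (XT.nd (nat_lit 156) (nat_lit 456) (nat_lit 0) (XT.nd (nat_lit 78) (nat_lit 380) (nat_lit 0) (XT.lf (nat_lit 0) (nat_lit 411693254444) (nat_lit 532) (nat_lit 1083358767097) (nat_lit 76) (nat_lit 1062806914236) (nat_lit 57) (nat_lit 5) (nat_lit 64) (nat_lit 5) (nat_lit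 58) (nat_lit 5) (nat_lit 348) (nat_lit 344) (nat_lit 208)) (XT.lf (nat_lit 0) (nat_lit 906847473995) (nat_lit 456) (nat_lit 1297275443569) (nat_lit 76) (nat_lit 561375697131) (nat_lit 52) (nat_lit 5) (nat_lit 58) (nat_lit 5) (nat_lit 53) (nat_lit 5) (nat_lit 349) (nat_lit 344) (nat_lit 207))) (XT.nd (nat_lit 78) (nat_lit 228) (nat_lit 0) (XT.lf (nat_lit 0) (nat_lit 1499214425312) (nat_lit 228) (nat_lit 86826050456) (nat_lit 304) (nat_lit 1409462517743) (nat_lit 49) (nat_lit 5) (nat_lit 52) (nat_lit 5) (nat_lit 53) (nat_lit 5) (nat_lit 350) (nat_lit 344) (nat_lit 206)) (XT.lf (nat_lit 0) (nat_lit 1557195493900) (nat_lit 228) (nat_lit 942588333983) (nat_lit 304) (nat_lit 749610489265) (nat_lit 46) (nat_lit 5) (nat_lit 49) (nat_lit 5) (nat_lit 50) (nat_lit 5) (nat_lit 351) (nat_lit 344) (nat_lit 205))))))) (XT.nd (nat_lit 46332) (nat_lit 0) (nat_lit 836) (XT.nd (nat_lit 546) (nat_lit 836)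 (nat_lit 0) (XT.nd (nat_lit 234) (nat_lit 684) (nat_lit 0) (XT.nd (nat_lit 78) (nat_lit 380) (nat_lit 0) (XT.lf (nat_lit 0) (nat_lit 135433193373) (nat_lit 228) (nat_lit 1870075426023) (nat_lit 76) (nat_lit 1525708978799) (nat_lit 43) (nat_lit 5) (nat_lit 46) (nat_lit 5) (nat_lit 44) (nat_lit 5) (nat_lit 352) (nat_lit 344) (nat_lit 204)) (XT.nd (nat_lit 78) (nat_lit 152) (nat_lit 0) (XT.lf (nat_lit 0) (nat_lit 1244251742374) (nat_lit 304) (nat_lit 2046907983752) (nat_lit 76) (nat_lit 551764723489) (nat_lit 40) (nat_lit 5) (nat_lit 44) (nat_lit 5) (nat_lit 41) (nat_lit 5) (nat_lit 353) (nat_lit 344) (nat_lit 203)) (XT.lf (nat_lit 0) (nat_lit 1969897177821) (nat_lit 152) (nat_lit 708198774076) (nat_lit 228) (nat_lit 1510595146600) (nat_lit 38) (nat_lit 5) (nat_lit 40) (nat_lit 5) (nat_lit 41) (nat_lit 5) (nat_lit 354) (nat_lit 344) (nat_lit 202)))) (XT.nd (nat_lit 156) (nat_lit 304) (nat_lit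 0) (XT.nd (nat_lit 78) (nat_lit 228) (nat_lit 0) (XT.lf (nat_lit 0) (nat_lit 2184969394963) (nat_lit 152) (nat_lit 2310143486037) (nat_lit 228) (nat_lit 77762176660) (nat_lit 36) (nat_lit 5) (nat_lit 38) (nat_lit 5) (nat_lit 39) (nat_lit 5) (nat_lit 355) (nat_lit 344) (nat_lit 201)) (XT.lf (nat_lit 0) (nat_lit 1655197880253) (nat_lit 228) (nat_lit 2582345929041) (nat_lit 76) (nat_lit 761022951635) (nat_lit 33) (nat_lit 5) (nat_lit 36) (nat_lit 5) (nat_lit 34) (nat_lit 5) (nat_lit 356) (nat_lit 344) (nat_lit 200))) (XT.nd (nat_lit 78) (nat_lit 152) (nat_lit 0) (XT.lf (nat_lit 0) (nat_lit 2668668380573) (nat_lit 152) (nat_lit 1174361535863) (nat_lit 228) (nat_lit 1628958130762) (nat_lit 31) (nat_lit 5) (nat_lit 33) (nat_lit 5) (nat_lit 34) (nat_lit 5) (nat_lit 357) (nat_lit 344) (nat_lit 199)) (XT.lf (nat_lit 0) (nat_lit 535151538894) (nat_lit 152) (nat_lit 3071571483672) (nat_lit 76) (nat_lit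 2392266212703) (nat_lit 29) (nat_lit 5) (nat_lit 31) (nat_lit 5) (nat_lit 30) (nat_lit 5) (nat_lit 358) (nat_lit 344) (nat_lit 198))))) (XT.nd (nat_lit 234) (nat_lit 380) (nat_lit 0) (XT.nd (nat_lit 78) (nat_lit 304) (nat_lit 0) (XT.lf (nat_lit 0) (nat_lit 3123657871413) (nat_lit 228) (nat_lit 3419302880742) (nat_lit 76) (nat_lit 42996384401) (nat_lit 27) (nat_lit 5) (nat_lit 30) (nat_lit 5) (nat_lit 28) (nat_lit 4) (nat_lit 359) (nat_lit 344) (nat_lit 197)) (XT.nd (nat_lit 78) (nat_lit 228) (nat_lit 0) (XT.lf (nat_lit 0) (nat_lit 3337691787380) (nat_lit 76) (nat_lit 3034521213681) (nat_lit 152) (nat_lit 867015394196) (nat_lit 26) (nat_lit 5) (nat_lit 27) (nat_lit 5) (nat_lit 28) (nat_lit 4) (nat_lit 360) (nat_lit 344) (nat_lit 196)) (XT.lf (nat_lit 0) (nat_lit 2226972751706) (nat_lit 228) (nat_lit 4549851543276) (nat_lit 76) (nat_lit 1192364602266) (nat_lit 23) (nat_lit 5) (nat_lit 26)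 (nat_lit 5) (nat_lit 24) (nat_lit 4) (nat_lit 361) (nat_lit 344) (nat_lit 195)))) (XT.nd (nat_lit 156) (nat_lit 152) (nat_lit 0) (XT.nd (nat_lit 78) (nat_lit 152) (nat_lit 0) (XT.lf (nat_lit 0) (nat_lit 3330814890247) (nat_lit 76) (nat_lit 2684939801173) (nat_lit 152) (nat_lit 2768524588012) (nat_lit 22) (nat_lit 5) (nat_lit 23) (nat_lit 5) (nat_lit 24) (nat_lit 4) (nat_lit 362) (nat_lit 344) (nat_lit 194)) (XT.lf (nat_lit 0) (nat_lit 883420824279) (nat_lit 152) (nat_lit 6664294749249) (nat_lit 76) (nat_lit 2151482550078) (nat_lit 20) (nat_lit 5) (nat_lit 22) (nat_lit 5) (nat_lit 21) (nat_lit 4) (nat_lit 363) (nat_lit 344) (nat_lit 193))) (XT.nd (nat_lit 78) (nat_lit 76) (nat_lit 0) (XT.lf (nat_lit 0) (nat_lit 2350759720050) (nat_lit 76) (nat_lit 2866821907141) (nat_lit 152) (nat_lit 5504152298535) (nat_lit 19) (nat_lit 5) (nat_lit 20) (nat_lit 5) (nat_lit 21) (nat_lit 4) (nat_lit 364)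 (nat_lit 344) (nat_lit 192)) (XT.lf (nat_lit 0) (nat_lit 1235777828771) (nat_lit 76) (nat_lit 9255387367197) (nat_lit 76) (nat_lit 1383341010561) (nat_lit 18) (nat_lit 4) (nat_lit 19) (nat_lit 5) (nat_lit 19) (nat_lit 4) (nat_lit 365) (nat_lit 344) (nat_lit 191)))))) (XT.nd (nat_lit 546) (nat_lit 1520) (nat_lit 0) (XT.nd (nat_lit 234) (nat_lit 912) (nat_lit 0) (XT.nd (nat_lit 78) (nat_lit 0) (nat_lit 0) (XT.lf (nat_lit 0) (nat_lit 928484828644) (nat_lit 532) (nat_lit 83878164215) (nat_lit 532) (nat_lit 83878164215) (nat_lit 61) (nat_lit 3) (nat_lit 68) (nat_lit 3) (nat_lit 68) (nat_lit 5) (nat_lit 345) (nat_lit 345) (nat_lit 210)) (XT.nd (nat_lit 78) (nat_lit 0) (nat_lit 76) (XT.lf (nat_lit 76) (nat_lit 1909428009375) (nat_lit 0) (nat_lit 132736184622) (nat_lit 532) (nat_lit 311080548693) (nat_lit 62) (nat_lit 5) (nat_lit 61) (nat_lit 3) (nat_lit 68) (nat_lit 5) (nat_lit 346) (nat_lit 345)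 (nat_lit 209)) (XT.lf (nat_lit 76) (nat_lit 1811999226683) (nat_lit 0) (nat_lit 540863660562) (nat_lit 532) (nat_lit 177440650189) (nat_lit 63) (nat_lit 5) (nat_lit 62) (nat_lit 5) (nat_lit 69) (nat_lit 5) (nat_lit 347) (nat_lit 345) (nat_lit 208)))) (XT.nd (nat_lit 156) (nat_lit 532) (nat_lit 0) (XT.nd (nat_lit 78) (nat_lit 0) (nat_lit 76) (XT.lf (nat_lit 0) (nat_lit 79375011066) (nat_lit 532) (nat_lit 985145949634) (nat_lit 608) (nat_lit 1661290577445) (nat_lit 56) (nat_lit 5) (nat_lit 63) (nat_lit 5) (nat_lit 64) (nat_lit 5) (nat_lit 348) (nat_lit 345) (nat_lit 207)) (XT.lf (nat_lit 0) (nat_lit 473447278366) (nat_lit 532) (nat_lit 1245862548223) (nat_lit 76) (nat_lit 1222227946656) (nat_lit 57) (nat_lit 5) (nat_lit 64) (nat_lit 5) (nat_lit 58) (nat_lit 5) (nat_lit 349) (nat_lit 345) (nat_lit 206))) (XT.nd (nat_lit 78) (nat_lit 228) (nat_lit 0) (XT.lf (nat_lit 0) (nat_lit 1042874626915)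 (nat_lit 456) (nat_lit 1491866726441) (nat_lit 76) (nat_lit 645582050966) (nat_lit 52) (nat_lit 5) (nat_lit 58) (nat_lit 5) (nat_lit 53) (nat_lit 5) (nat_lit 350) (nat_lit 345) (nat_lit 205)) (XT.lf (nat_lit 0) (nat_lit 1724096619924) (nat_lit 228) (nat_lit 99849955621) (nat_lit 304) (nat_lit 1620881864692) (nat_lit 49) (nat_lit 5) (nat_lit 52) (nat_lit 5) (nat_lit 53) (nat_lit 5) (nat_lit 351) (nat_lit 345) (nat_lit 204))))) (XT.nd (nat_lit 312) (nat_lit 684) (nat_lit 0) (XT.nd (nat_lit 156) (nat_lit 380) (nat_lit 0) (XT.nd (nat_lit 78) (nat_lit 228) (nat_lit 0) (XT.lf (nat_lit 0) (nat_lit 1790774848245) (nat_lit 228) (nat_lit 1083976579304) (nat_lit 304) (nat_lit 862052035108) (nat_lit 46) (nat_lit 5) (nat_lit 49) (nat_lit 5) (nat_lit 50) (nat_lit 5) (nat_lit 352) (nat_lit 345) (nat_lit 203)) (XT.lf (nat_lit 0) (nat_lit 155748195964) (nat_lit 228) (nat_lit 2150586709182) (nat_lit 76)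 (nat_lit 1754565330871) (nat_lit 43) (nat_lit 5) (nat_lit 46) (nat_lit 5) (nat_lit 44) (nat_lit 5) (nat_lit 353) (nat_lit 345) (nat_lit 202))) (XT.nd (nat_lit 78) (nat_lit 152) (nat_lit 0) (XT.lf (nat_lit 0) (nat_lit 1430889525083) (nat_lit 304) (nat_lit 2353944151629) (nat_lit 76) (nat_lit 634529438620) (nat_lit 40) (nat_lit 5) (nat_lit 44) (nat_lit 5) (nat_lit 41) (nat_lit 5) (nat_lit 354) (nat_lit 345) (nat_lit 201)) (XT.lf (nat_lit 0) (nat_lit 2265381781668) (nat_lit 152) (nat_lit 814428582235) (nat_lit 228) (nat_lit 1737184397816) (nat_lit 38) (nat_lit 5) (nat_lit 40) (nat_lit 5) (nat_lit 41) (nat_lit 5) (nat_lit 355) (nat_lit 345) (nat_lit 200)))) (XT.nd (nat_lit 156) (nat_lit 304) (nat_lit 0) (XT.nd (nat_lit 78) (nat_lit 228) (nat_lit 0) (XT.lf (nat_lit 0) (nat_lit 2512714830328) (nat_lit 152) (nat_lit 2656665000332) (nat_lit 228) (nat_lit 89426484237) (nat_lit 36) (nat_lit 5) (nat_lit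 38) (nat_lit 5) (nat_lit 39) (nat_lit 5) (nat_lit 356) (nat_lit 345) (nat_lit 199)) (XT.lf (nat_lit 0) (nat_lit 1903477578724) (nat_lit 228) (nat_lit 2969697792508) (nat_lit 76) (nat_lit 875176402511) (nat_lit 33) (nat_lit 5) (nat_lit 36) (nat_lit 5) (nat_lit 34) (nat_lit 5) (nat_lit 357) (nat_lit 345) (nat_lit 198))) (XT.nd (nat_lit 78) (nat_lit 152) (nat_lit 0) (XT.lf (nat_lit 0) (nat_lit 3068968661357) (nat_lit 152) (nat_lit 1350515757405) (nat_lit 228) (nat_lit 1873301834318) (nat_lit 31) (nat_lit 5) (nat_lit 33) (nat_lit 5) (nat_lit 34) (nat_lit 5) (nat_lit 358) (nat_lit 345) (nat_lit 197)) (XT.lf (nat_lit 0) (nat_lit 615424283740) (nat_lit 152) (nat_lit 3532307182884) (nat_lit 76) (nat_lit 2751106152807) (nat_lit 29) (nat_lit 5) (nat_lit 31) (nat_lit 5) (nat_lit 30) (nat_lit 5) (nat_lit 359) (nat_lit 345) (nat_lit 196))))))))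
noncomputable def xc61 : XT := (XT.nd (nat_lit 92976) (nat_lit 0) (nat_lit 304) (XT.nd (nat_lit 46410) (nat_lit 0) (nat_lit 76) (XT.nd (nat_lit 45864) (nat_lit 0) (nat_lit 2052) (XT.nd (nat_lit 234) (nat_lit 304) (nat_lit 0) (XT.nd (nat_lit 78) (nat_lit 304) (nat_lit 0) (XT.lf (nat_lit 0) (nat_lit 3592206565031) (nat_lit 228) (nat_lit 3932198290677) (nat_lit 76) (nat_lit 49445850293) (nat_lit 27) (nat_lit 5) (nat_lit 30) (nat_lit 5) (nat_lit 28) (nat_lit 4) (nat_lit 360) (nat_lit 345) (nat_lit 195)) (XT.nd (nat_lit 78) (nat_lit 228) (nat_lit 0) (XT.lf (nat_lit 0) (nat_lit 3838345575787) (nat_lit 76) (nat_lit 3489699387145) (nat_lit 152) (nat_lit 997067690672) (nat_lit 26) (nat_lit 5) (nat_lit 27) (nat_lit 5) (nat_lit 28) (nat_lit 4) (nat_lit 361) (nat_lit 345) (nat_lit 194)) (XT.lf (nat_lit 0) (nat_lit 2561018675574) (nat_lit 228) (nat_lit 5232329254923) (nat_lit 76) (nat_lit 1371219300445)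 (nat_lit 23) (nat_lit 5) (nat_lit 26) (nat_lit 5) (nat_lit 24) (nat_lit 4) (nat_lit 362) (nat_lit 345) (nat_lit 193)))) (XT.nd (nat_lit 156) (nat_lit 76) (nat_lit 0) (XT.nd (nat_lit 78) (nat_lit 152) (nat_lit 0) (XT.lf (nat_lit 0) (nat_lit 3830437141950) (nat_lit 76) (nat_lit 3087680763284) (nat_lit 152) (nat_lit 3183803265302) (nat_lit 22) (nat_lit 5) (nat_lit 23) (nat_lit 5) (nat_lit 24) (nat_lit 4) (nat_lit 363) (nat_lit 345) (nat_lit 192)) (XT.lf (nat_lit 0) (nat_lit 1015933957531) (nat_lit 152) (nat_lit 7663938943934) (nat_lit 76) (nat_lit 2474204939909) (nat_lit 20) (nat_lit 5) (nat_lit 22) (nat_lit 5) (nat_lit 21) (nat_lit 4) (nat_lit 364) (nat_lit 345) (nat_lit 191))) (XT.nd (nat_lit 45396) (nat_lit 0) (nat_lit 3192) (XT.lf (nat_lit 0) (nat_lit 2703373694261) (nat_lit 76) (nat_lit 3296845185755) (nat_lit 152) (nat_lit 6329775133865) (nat_lit 19) (nat_lit 5) (nat_lit 20) (nat_lit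 5) (nat_lit 21) (nat_lit 4) (nat_lit 365) (nat_lit 345) (nat_lit 190)) (XT.lf (nat_lit 0) (nat_lit 1067757574859) (nat_lit 532) (nat_lit 96459876998) (nat_lit 532) (nat_lit 96459876998) (nat_lit 61) (nat_lit 3) (nat_lit 68) (nat_lit 3) (nat_lit 68) (nat_lit 5) (nat_lit 346) (nat_lit 346) (nat_lit 208))))) (XT.nd (nat_lit 234) (nat_lit 760) (nat_lit 0) (XT.nd (nat_lit 78) (nat_lit 380) (nat_lit 0) (XT.lf (nat_lit 76) (nat_lit 2195842232474) (nat_lit 0) (nat_lit 152646629263) (nat_lit 532) (nat_lit 357742589220) (nat_lit 62) (nat_lit 5) (nat_lit 61) (nat_lit 3) (nat_lit 68) (nat_lit 5) (nat_lit 347) (nat_lit 346) (nat_lit 207)) (XT.nd (nat_lit 78) (nat_lit 456) (nat_lit 0) (XT.lf (nat_lit 76) (nat_lit 2083799133787) (nat_lit 0) (nat_lit 621993220346) (nat_lit 532) (nat_lit 204056711172) (nat_lit 63) (nat_lit 5) (nat_lit 62) (nat_lit 5) (nat_lit 69) (nat_lit 5) (nat_lit 348) (nat_lit 346)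 (nat_lit 206)) (XT.lf (nat_lit 0) (nat_lit 91281293275) (nat_lit 532) (nat_lit 1132917816544) (nat_lit 608) (nat_lit 1910484156571) (nat_lit 56) (nat_lit 5) (nat_lit 63) (nat_lit 5) (nat_lit 64) (nat_lit 5) (nat_lit 349) (nat_lit 346) (nat_lit 205)))) (XT.nd (nat_lit 156) (nat_lit 456) (nat_lit 0) (XT.nd (nat_lit 78) (nat_lit 380) (nat_lit 0) (XT.lf (nat_lit 0) (nat_lit 544464397158) (nat_lit 532) (nat_lit 1432741904794) (nat_lit 76) (nat_lit 1405562135089) (nat_lit 57) (nat_lit 5) (nat_lit 64) (nat_lit 5) (nat_lit 58) (nat_lit 5) (nat_lit 350) (nat_lit 346) (nat_lit 204)) (XT.lf (nat_lit 0) (nat_lit 1199305845013) (nat_lit 456) (nat_lit 1715646709952) (nat_lit 76) (nat_lit 742419358056) (nat_lit 52) (nat_lit 5) (nat_lit 58) (nat_lit 5) (nat_lit 53) (nat_lit 5) (nat_lit 351) (nat_lit 346) (nat_lit 203))) (XT.nd (nat_lit 78) (nat_lit 228) (nat_lit 0) (XT.lf (nat_lit 0) (nat_lit 1982711136213)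 (nat_lit 228) (nat_lit 114827447147) (nat_lit 304) (nat_lit 1864014121173) (nat_lit 49) (nat_lit 5) (nat_lit 52) (nat_lit 5) (nat_lit 53) (nat_lit 5) (nat_lit 352) (nat_lit 346) (nat_lit 202)) (XT.lf (nat_lit 0) (nat_lit 2059391098363) (nat_lit 228) (nat_lit 1246573062588) (nat_lit 304) (nat_lit 991359819545) (nat_lit 46) (nat_lit 5) (nat_lit 49) (nat_lit 5) (nat_lit 50) (nat_lit 5) (nat_lit 353) (nat_lit 346) (nat_lit 201)))))) (XT.nd (nat_lit 546) (nat_lit 684) (nat_lit 0) (XT.nd (nat_lit 234) (nat_lit 684) (nat_lit 0) (XT.nd (nat_lit 78) (nat_lit 380) (nat_lit 0) (XT.lf (nat_lit 0) (nat_lit 179110443193) (nat_lit 228) (nat_lit 2473174692313) (nat_lit 76) (nat_lit 2017750134473) (nat_lit 43) (nat_lit 5) (nat_lit 46) (nat_lit 5) (nat_lit 44) (nat_lit 5) (nat_lit 354) (nat_lit 346) (nat_lit 200)) (XT.nd (nat_lit 78) (nat_lit 152) (nat_lit 0) (XT.lf (nat_lit 0) (nat_lit 1645522969991) (nat_lit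 304) (nat_lit 2707035751926) (nat_lit 76) (nat_lit 729708859410) (nat_lit 40) (nat_lit 5) (nat_lit 44) (nat_lit 5) (nat_lit 41) (nat_lit 5) (nat_lit 355) (nat_lit 346) (nat_lit 199)) (XT.lf (nat_lit 0) (nat_lit 2605189069465) (nat_lit 152) (nat_lit 936592863557) (nat_lit 228) (nat_lit 1997762041781) (nat_lit 38) (nat_lit 5) (nat_lit 40) (nat_lit 5) (nat_lit 41) (nat_lit 5) (nat_lit 356) (nat_lit 346) (nat_lit 198)))) (XT.nd (nat_lit 156) (nat_lit 304) (nat_lit 0) (XT.nd (nat_lit 78) (nat_lit 228) (nat_lit 0) (XT.lf (nat_lit 0) (nat_lit 2889622074627) (nat_lit 152) (nat_lit 3055164743871) (nat_lit 228) (nat_lit 102840442564) (nat_lit 36) (nat_lit 5) (nat_lit 38) (nat_lit 5) (nat_lit 39) (nat_lit 5) (nat_lit 357) (nat_lit 346) (nat_lit 197)) (XT.lf (nat_lit 0) (nat_lit 2188999227959) (nat_lit 228) (nat_lit 3415152441809) (nat_lit 76) (nat_lit 1006452869036) (nat_lit 33) (nat_lit 5) (nat_lit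 36) (nat_lit 5) (nat_lit 34) (nat_lit 5) (nat_lit 358) (nat_lit 346) (nat_lit 196))) (XT.nd (nat_lit 78) (nat_lit 152) (nat_lit 0) (XT.lf (nat_lit 0) (nat_lit 3529313978479) (nat_lit 152) (nat_lit 1553093114333) (nat_lit 228) (nat_lit 2154297097324) (nat_lit 31) (nat_lit 5) (nat_lit 33) (nat_lit 5) (nat_lit 34) (nat_lit 5) (nat_lit 359) (nat_lit 346) (nat_lit 195)) (XT.lf (nat_lit 0) (nat_lit 707737936896) (nat_lit 152) (nat_lit 4062153242669) (nat_lit 76) (nat_lit 3163772081928) (nat_lit 29) (nat_lit 5) (nat_lit 31) (nat_lit 5) (nat_lit 30) (nat_lit 5) (nat_lit 360) (nat_lit 346) (nat_lit 194))))) (XT.nd (nat_lit 312) (nat_lit 152) (nat_lit 0) (XT.nd (nat_lit 156) (nat_lit 304) (nat_lit 0) (XT.nd (nat_lit 78) (nat_lit 76) (nat_lit 0) (XT.lf (nat_lit 0) (nat_lit 4131037559545) (nat_lit 228) (nat_lit 4522028017509) (nat_lit 76) (nat_lit 56862734061) (nat_lit 27) (nat_lit 5) (nat_lit 30)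 (nat_lit 5) (nat_lit 28) (nat_lit 4) (nat_lit 361) (nat_lit 346) (nat_lit 193)) (XT.lf (nat_lit 0) (nat_lit 4414097427505) (nat_lit 76) (nat_lit 4013154288722) (nat_lit 152) (nat_lit 1146627834705) (nat_lit 26) (nat_lit 5) (nat_lit 27) (nat_lit 5) (nat_lit 28) (nat_lit 4) (nat_lit 362) (nat_lit 346) (nat_lit 192))) (XT.nd (nat_lit 78) (nat_lit 76) (nat_lit 0) (XT.lf (nat_lit 0) (nat_lit 2945171485313) (nat_lit 228) (nat_lit 6017178628156) (nat_lit 76) (nat_lit 1576902201440) (nat_lit 23) (nat_lit 5) (nat_lit 26) (nat_lit 5) (nat_lit 24) (nat_lit 4) (nat_lit 363) (nat_lit 346) (nat_lit 191)) (XT.lf (nat_lit 0) (nat_lit 4405002726978) (nat_lit 76) (nat_lit 3550832871678) (nat_lit 152) (nat_lit 3661373746847) (nat_lit 22) (nat_lit 5) (nat_lit 23) (nat_lit 5) (nat_lit 24) (nat_lit 4) (nat_lit 364) (nat_lit 346) (nat_lit 190)))) (XT.nd (nat_lit 45552) (nat_lit 0) (nat_lit 3116) (XT.nd (nat_lit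 45474) (nat_lit 0) (nat_lit 3116) (XT.lf (nat_lit 0) (nat_lit 1168324058428) (nat_lit 152) (nat_lit 8813529772139) (nat_lit 76) (nat_lit 2845335686430) (nat_lit 20) (nat_lit 5) (nat_lit 22) (nat_lit 5) (nat_lit 21) (nat_lit 4) (nat_lit 365) (nat_lit 346) (nat_lit 189)) (XT.lf (nat_lit 0) (nat_lit 1227921227661) (nat_lit 532) (nat_lit 110928849588) (nat_lit 532) (nat_lit 110928849588) (nat_lit 61) (nat_lit 3) (nat_lit 68) (nat_lit 3) (nat_lit 68) (nat_lit 5) (nat_lit 347) (nat_lit 347) (nat_lit 206))) (XT.nd (nat_lit 78) (nat_lit 0) (nat_lit 76) (XT.lf (nat_lit 76) (nat_lit 2525218583748) (nat_lit 0) (nat_lit 175543636467) (nat_lit 532) (nat_lit 411403946012) (nat_lit 62) (nat_lit 5) (nat_lit 61) (nat_lit 3) (nat_lit 68) (nat_lit 5) (nat_lit 348) (nat_lit 347) (nat_lit 205)) (XT.lf (nat_lit 76) (nat_lit 2396369021323) (nat_lit 0) (nat_lit 715292211489) (nat_lit 532) (nat_lit 234665190214)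 (nat_lit 63) (nat_lit 5) (nat_lit 62) (nat_lit 5) (nat_lit 69) (nat_lit 5) (nat_lit 349) (nat_lit 347) (nat_lit 204))))))) (XT.nd (nat_lit 1092) (nat_lit 228) (nat_lit 0) (XT.nd (nat_lit 546) (nat_lit 1064) (nat_lit 0) (XT.nd (nat_lit 234) (nat_lit 912) (nat_lit 0) (XT.nd (nat_lit 78) (nat_lit 304) (nat_lit 0) (XT.lf (nat_lit 0) (nat_lit 104973510366) (nat_lit 532) (nat_lit 1302855469717) (nat_lit 608) (nat_lit 2197056774393) (nat_lit 56) (nat_lit 5) (nat_lit 63) (nat_lit 5) (nat_lit 64) (nat_lit 5) (nat_lit 350) (nat_lit 347) (nat_lit 203)) (XT.nd (nat_lit 78) (nat_lit 380) (nat_lit 0) (XT.lf (nat_lit 0) (nat_lit 626134077175) (nat_lit 532) (nat_lit 1647653171108) (nat_lit 76) (nat_lit 1616396452657) (nat_lit 57) (nat_lit 5) (nat_lit 64) (nat_lit 5) (nat_lit 58) (nat_lit 5) (nat_lit 351) (nat_lit 347) (nat_lit 202)) (XT.lf (nat_lit 0) (nat_lit 1379201739958) (nat_lit 456) (nat_lit 1972993697197)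 (nat_lit 76) (nat_lit 853782261344) (nat_lit 52) (nat_lit 5) (nat_lit 58) (nat_lit 5) (nat_lit 53) (nat_lit 5) (nat_lit 352) (nat_lit 347) (nat_lit 201)))) (XT.nd (nat_lit 156) (nat_lit 456) (nat_lit 0) (XT.nd (nat_lit 78) (nat_lit 228) (nat_lit 0) (XT.lf (nat_lit 0) (nat_lit 2280117824263) (nat_lit 228) (nat_lit 132051562845) (nat_lit 304) (nat_lit 2143616221790) (nat_lit 49) (nat_lit 5) (nat_lit 52) (nat_lit 5) (nat_lit 53) (nat_lit 5) (nat_lit 353) (nat_lit 347) (nat_lit 200)) (XT.lf (nat_lit 0) (nat_lit 2368299780419) (nat_lit 228) (nat_lit 1433559019245) (nat_lit 304) (nat_lit 1140063776727) (nat_lit 46) (nat_lit 5) (nat_lit 49) (nat_lit 5) (nat_lit 50) (nat_lit 5) (nat_lit 354) (nat_lit 347) (nat_lit 199))) (XT.nd (nat_lit 78) (nat_lit 228) (nat_lit 0) (XT.lf (nat_lit 0) (nat_lit 205977023157) (nat_lit 228) (nat_lit 2844150878582) (nat_lit 76) (nat_lit 2320412657646) (nat_lit 43)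 (nat_lit 5) (nat_lit 46) (nat_lit 5) (nat_lit 44) (nat_lit 5) (nat_lit 355) (nat_lit 347) (nat_lit 198)) (XT.lf (nat_lit 0) (nat_lit 1892351427699) (nat_lit 304) (nat_lit 3113091097742) (nat_lit 76) (nat_lit 839165192100) (nat_lit 40) (nat_lit 5) (nat_lit 44) (nat_lit 5) (nat_lit 41) (nat_lit 5) (nat_lit 356) (nat_lit 347) (nat_lit 197))))) (XT.nd (nat_lit 234) (nat_lit 532) (nat_lit 0) (XT.nd (nat_lit 78) (nat_lit 380) (nat_lit 0) (XT.lf (nat_lit 0) (nat_lit 2995967445422) (nat_lit 152) (nat_lit 1077081788544) (nat_lit 228) (nat_lit 2297426336170) (nat_lit 38) (nat_lit 5) (nat_lit 40) (nat_lit 5) (nat_lit 41) (nat_lit 5) (nat_lit 357) (nat_lit 347) (nat_lit 196)) (XT.nd (nat_lit 78) (nat_lit 228) (nat_lit 0) (XT.lf (nat_lit 0) (nat_lit 3323065400755) (nat_lit 152) (nat_lit 3513439450528) (nat_lit 228) (nat_lit 118266498130) (nat_lit 36) (nat_lit 5) (nat_lit 38) (nat_lit 5) (nat_lit 39)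 (nat_lit 5) (nat_lit 358) (nat_lit 347) (nat_lit 195)) (XT.lf (nat_lit 0) (nat_lit 2517349121549) (nat_lit 228) (nat_lit 3927425293278) (nat_lit 76) (nat_lit 1157420804040) (nat_lit 33) (nat_lit 5) (nat_lit 36) (nat_lit 5) (nat_lit 34) (nat_lit 5) (nat_lit 359) (nat_lit 347) (nat_lit 194)))) (XT.nd (nat_lit 156) (nat_lit 228) (nat_lit 0) (XT.nd (nat_lit 78) (nat_lit 152) (nat_lit 0) (XT.lf (nat_lit 0) (nat_lit 4058711088800) (nat_lit 152) (nat_lit 1786057076429) (nat_lit 228) (nat_lit 2477441652742) (nat_lit 31) (nat_lit 5) (nat_lit 33) (nat_lit 5) (nat_lit 34) (nat_lit 5) (nat_lit 360) (nat_lit 347) (nat_lit 193)) (XT.lf (nat_lit 0) (nat_lit 813898635442) (nat_lit 152) (nat_lit 4671476215725) (nat_lit 76) (nat_lit 3638337898905) (nat_lit 29) (nat_lit 5) (nat_lit 31) (nat_lit 5) (nat_lit 30) (nat_lit 5) (nat_lit 361) (nat_lit 347) (nat_lit 192))) (XT.nd (nat_lit 78) (nat_lit 76) (nat_lit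 0) (XT.lf (nat_lit 0) (nat_lit 4750693200856) (nat_lit 228) (nat_lit 5200332207455) (nat_lit 76) (nat_lit 65392148878) (nat_lit 27) (nat_lit 5) (nat_lit 30) (nat_lit 5) (nat_lit 28) (nat_lit 4) (nat_lit 362) (nat_lit 347) (nat_lit 191)) (XT.lf (nat_lit 0) (nat_lit 5076212053237) (nat_lit 76) (nat_lit 4615127427119) (nat_lit 152) (nat_lit 1318622002676) (nat_lit 26) (nat_lit 5) (nat_lit 27) (nat_lit 5) (nat_lit 28) (nat_lit 4) (nat_lit 363) (nat_lit 347) (nat_lit 190)))))) (XT.nd (nat_lit 46098) (nat_lit 0) (nat_lit 608) (XT.nd (nat_lit 45786) (nat_lit 0) (nat_lit 2204) (XT.nd (nat_lit 45630) (nat_lit 0) (nat_lit 2888) (XT.lf (nat_lit 0) (nat_lit 3386947214463) (nat_lit 228) (nat_lit 6919755411033) (nat_lit 76) (nat_lit 1813437536138) (nat_lit 23) (nat_lit 5) (nat_lit 26) (nat_lit 5) (nat_lit 24) (nat_lit 4) (nat_lit 364) (nat_lit 347) (nat_lit 189)) (XT.nd (nat_lit 78) (nat_lit 0) (nat_lit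 0) (XT.lf (nat_lit 0) (nat_lit 1412109424342) (nat_lit 532) (nat_lit 127568170252) (nat_lit 532) (nat_lit 127568170252) (nat_lit 61) (nat_lit 3) (nat_lit 68) (nat_lit 3) (nat_lit 68) (nat_lit 5) (nat_lit 348) (nat_lit 348) (nat_lit 204)) (XT.lf (nat_lit 76) (nat_lit 2904001383712) (nat_lit 0) (nat_lit 201875191627) (nat_lit 532) (nat_lit 473114514028) (nat_lit 62) (nat_lit 5) (nat_lit 61) (nat_lit 3) (nat_lit 68) (nat_lit 5) (nat_lit 349) (nat_lit 348) (nat_lit 203)))) (XT.nd (nat_lit 156) (nat_lit 304) (nat_lit 0) (XT.nd (nat_lit 78) (nat_lit 456) (nat_lit 0) (XT.lf (nat_lit 76) (nat_lit 2755824387730) (nat_lit 0) (nat_lit 822586049330) (nat_lit 532) (nat_lit 269864947851) (nat_lit 63) (nat_lit 5) (nat_lit 62) (nat_lit 5) (nat_lit 69) (nat_lit 5) (nat_lit 350) (nat_lit 348) (nat_lit 202)) (XT.lf (nat_lit 0) (nat_lit 120719554387) (nat_lit 532) (nat_lit 1498283775575) (nat_lit 608) (nat_lit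 2526615286269) (nat_lit 56) (nat_lit 5) (nat_lit 63) (nat_lit 5) (nat_lit 64) (nat_lit 5) (nat_lit 351) (nat_lit 348) (nat_lit 201))) (XT.nd (nat_lit 78) (nat_lit 380) (nat_lit 0) (XT.lf (nat_lit 0) (nat_lit 720054204210) (nat_lit 532) (nat_lit 1894801132102) (nat_lit 76) (nat_lit 1858855918517) (nat_lit 57) (nat_lit 5) (nat_lit 64) (nat_lit 5) (nat_lit 58) (nat_lit 5) (nat_lit 352) (nat_lit 348) (nat_lit 200)) (XT.lf (nat_lit 0) (nat_lit 1586082014709) (nat_lit 456) (nat_lit 2268942737223) (nat_lit 76) (nat_lit 981849600228) (nat_lit 52) (nat_lit 5) (nat_lit 58) (nat_lit 5) (nat_lit 53) (nat_lit 5) (nat_lit 353) (nat_lit 348) (nat_lit 199))))) (XT.nd (nat_lit 312) (nat_lit 684) (nat_lit 0) (XT.nd (nat_lit 156) (nat_lit 456) (nat_lit 0) (XT.nd (nat_lit 78) (nat_lit 228) (nat_lit 0) (XT.lf (nat_lit 0) (nat_lit 2622135511225) (nat_lit 228) (nat_lit 151859296232) (nat_lit 304) (nat_lit 2465158641780)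 (nat_lit 49) (nat_lit 5) (nat_lit 52) (nat_lit 5) (nat_lit 53) (nat_lit 5) (nat_lit 354) (nat_lit 348) (nat_lit 198)) (XT.lf (nat_lit 0) (nat_lit 2723544760564) (nat_lit 228) (nat_lit 1648592870067) (nat_lit 304) (nat_lit 1311073331327) (nat_lit 46) (nat_lit 5) (nat_lit 49) (nat_lit 5) (nat_lit 50) (nat_lit 5) (nat_lit 355) (nat_lit 348) (nat_lit 197))) (XT.nd (nat_lit 78) (nat_lit 228) (nat_lit 0) (XT.lf (nat_lit 0) (nat_lit 236873586827) (nat_lit 228) (nat_lit 3270773497078) (nat_lit 76) (nat_lit 2668474558564) (nat_lit 43) (nat_lit 5) (nat_lit 46) (nat_lit 5) (nat_lit 44) (nat_lit 5) (nat_lit 356) (nat_lit 348) (nat_lit 196)) (XT.lf (nat_lit 0) (nat_lit 2176204151085) (nat_lit 304) (nat_lit 3580054749569) (nat_lit 76) (nat_lit 965039973771) (nat_lit 40) (nat_lit 5) (nat_lit 44) (nat_lit 5) (nat_lit 41) (nat_lit 5) (nat_lit 357) (nat_lit 348) (nat_lit 195)))) (XT.nd (nat_lit 156) (nat_lit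 380) (nat_lit 0) (XT.nd (nat_lit 78) (nat_lit 152) (nat_lit 0) (XT.lf (nat_lit 0) (nat_lit 3445362573983) (nat_lit 152) (nat_lit 1238644053388) (nat_lit 228) (nat_lit 2642040277615) (nat_lit 38) (nat_lit 5) (nat_lit 40) (nat_lit 5) (nat_lit 41) (nat_lit 5) (nat_lit 358) (nat_lit 348) (nat_lit 194)) (XT.lf (nat_lit 0) (nat_lit 3821525222161) (nat_lit 152) (nat_lit 4040455364384) (nat_lit 228) (nat_lit 136006464669) (nat_lit 36) (nat_lit 5) (nat_lit 38) (nat_lit 5) (nat_lit 39) (nat_lit 5) (nat_lit 359) (nat_lit 348) (nat_lit 193))) (XT.nd (nat_lit 78) (nat_lit 152) (nat_lit 0) (XT.lf (nat_lit 0) (nat_lit 2894951496886) (nat_lit 228) (nat_lit 4516539076077) (nat_lit 76) (nat_lit 1331033928162) (nat_lit 33) (nat_lit 5) (nat_lit 36) (nat_lit 5) (nat_lit 34) (nat_lit 5) (nat_lit 360) (nat_lit 348) (nat_lit 192)) (XT.lf (nat_lit 0) (nat_lit 4667517762366) (nat_lit 152) (nat_lit 2053965634073)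 (nat_lit 228) (nat_lit 2849057893711) (nat_lit 31) (nat_lit 5) (nat_lit 33) (nat_lit 5) (nat_lit 34) (nat_lit 5) (nat_lit 361) (nat_lit 348) (nat_lit 191))))))))
noncomputable def xc62 : XT := (XT.nd (nat_lit 93600) (nat_lit 0) (nat_lit 228) (XT.nd (nat_lit 46722) (nat_lit 0) (nat_lit 76) (XT.nd (nat_lit 46176) (nat_lit 0) (nat_lit 912) (XT.nd (nat_lit 45864) (nat_lit 0) (nat_lit 2280) (XT.nd (nat_lit 78) (nat_lit 228) (nat_lit 0) (XT.lf (nat_lit 0) (nat_lit 935983436816) (nat_lit 152) (nat_lit 5372197637993) (nat_lit 76) (nat_lit 4184088587286) (nat_lit 29) (nat_lit 5) (nat_lit 31) (nat_lit 5) (nat_lit 30) (nat_lit 5) (nat_lit 362) (nat_lit 348) (nat_lit 190)) (XT.nd (nat_lit 78) (nat_lit 76) (nat_lit 0) (XT.lf (nat_lit 0) (nat_lit 5463297186564) (nat_lit 228) (nat_lit 5980382028986) (nat_lit 76) (nat_lit 75200974768) (nat_lit 27) (nat_lit 5) (nat_lit 30) (nat_lit 5) (nat_lit 28) (nat_lit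 4) (nat_lit 363) (nat_lit 348) (nat_lit 189)) (XT.lf (nat_lit 0) (nat_lit 5837643869999) (nat_lit 76) (nat_lit 5307396537474) (nat_lit 152) (nat_lit 1516415297607) (nat_lit 26) (nat_lit 5) (nat_lit 27) (nat_lit 5) (nat_lit 28) (nat_lit 4) (nat_lit 364) (nat_lit 348) (nat_lit 188)))) (XT.nd (nat_lit 156) (nat_lit 380) (nat_lit 0) (XT.nd (nat_lit 78) (nat_lit 0) (nat_lit 0) (XT.lf (nat_lit 0) (nat_lit 1623925847469) (nat_lit 532) (nat_lit 146703390667) (nat_lit 532) (nat_lit 146703390667) (nat_lit 61) (nat_lit 3) (nat_lit 68) (nat_lit 3) (nat_lit 68) (nat_lit 5) (nat_lit 349) (nat_lit 349) (nat_lit 202)) (XT.lf (nat_lit 76) (nat_lit 3339601600648) (nat_lit 0) (nat_lit 232156477699) (nat_lit 532) (nat_lit 544081673070) (nat_lit 62) (nat_lit 5) (nat_lit 61) (nat_lit 3) (nat_lit 68) (nat_lit 5) (nat_lit 350) (nat_lit 349) (nat_lit 201))) (XT.nd (nat_lit 78) (nat_lit 456) (nat_lit 0) (XT.lf (nat_lit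 76) (nat_lit 3169198055877) (nat_lit 0) (nat_lit 945973961355) (nat_lit 532) (nat_lit 310344674228) (nat_lit 63) (nat_lit 5) (nat_lit 62) (nat_lit 5) (nat_lit 69) (nat_lit 5) (nat_lit 351) (nat_lit 349) (nat_lit 200)) (XT.lf (nat_lit 0) (nat_lit 138827500753) (nat_lit 532) (nat_lit 1723026330872) (nat_lit 608) (nat_lit 2905607575971) (nat_lit 56) (nat_lit 5) (nat_lit 63) (nat_lit 5) (nat_lit 64) (nat_lit 5) (nat_lit 352) (nat_lit 349) (nat_lit 199))))) (XT.nd (nat_lit 234) (nat_lit 836) (nat_lit 0) (XT.nd (nat_lit 78) (nat_lit 608) (nat_lit 0) (XT.lf (nat_lit 0) (nat_lit 828062346530) (nat_lit 532) (nat_lit 2179021290823) (nat_lit 76) (nat_lit 2137684304753) (nat_lit 57) (nat_lit 5) (nat_lit 64) (nat_lit 5) (nat_lit 58) (nat_lit 5) (nat_lit 353) (nat_lit 349) (nat_lit 198)) (XT.nd (nat_lit 78) (nat_lit 228) (nat_lit 0) (XT.lf (nat_lit 0) (nat_lit 1823994327317) (nat_lit 456) (nat_lit 2609284136801)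 (nat_lit 76) (nat_lit 1129127040022) (nat_lit 52) (nat_lit 5) (nat_lit 58) (nat_lit 5) (nat_lit 53) (nat_lit 5) (nat_lit 354) (nat_lit 349) (nat_lit 197)) (XT.lf (nat_lit 0) (nat_lit 3015455847982) (nat_lit 228) (nat_lit 174638189881) (nat_lit 304) (nat_lit 2834932428008) (nat_lit 49) (nat_lit 5) (nat_lit 52) (nat_lit 5) (nat_lit 53) (nat_lit 5) (nat_lit 355) (nat_lit 349) (nat_lit 196)))) (XT.nd (nat_lit 156) (nat_lit 380) (nat_lit 0) (XT.nd (nat_lit 78) (nat_lit 228) (nat_lit 0) (XT.lf (nat_lit 0) (nat_lit 3132076484540) (nat_lit 228) (nat_lit 1895881799015) (nat_lit 304) (nat_lit 1507734322021) (nat_lit 46) (nat_lit 5) (nat_lit 49) (nat_lit 5) (nat_lit 50) (nat_lit 5) (nat_lit 356) (nat_lit 349) (nat_lit 195)) (XT.lf (nat_lit 0) (nat_lit 272404632561) (nat_lit 228) (nat_lit 3761389511589) (nat_lit 76) (nat_lit 3068745744066) (nat_lit 43) (nat_lit 5) (nat_lit 46) (nat_lit 5) (nat_lit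 44) (nat_lit 5) (nat_lit 357) (nat_lit 349) (nat_lit 194))) (XT.nd (nat_lit 78) (nat_lit 152) (nat_lit 0) (XT.lf (nat_lit 0) (nat_lit 2502634780728) (nat_lit 304) (nat_lit 4117062952300) (nat_lit 76) (nat_lit 1109795971997) (nat_lit 40) (nat_lit 5) (nat_lit 44) (nat_lit 5) (nat_lit 41) (nat_lit 5) (nat_lit 358) (nat_lit 349) (nat_lit 193)) (XT.lf (nat_lit 0) (nat_lit 3962166968963) (nat_lit 152) (nat_lit 1424440658796) (nat_lit 228) (nat_lit 3038346312466) (nat_lit 38) (nat_lit 5) (nat_lit 40) (nat_lit 5) (nat_lit 41) (nat_lit 5) (nat_lit 359) (nat_lit 349) (nat_lit 192)))))) (XT.nd (nat_lit 46254) (nat_lit 0) (nat_lit 988) (XT.nd (nat_lit 234) (nat_lit 304) (nat_lit 0) (XT.nd (nat_lit 78) (nat_lit 380) (nat_lit 0) (XT.lf (nat_lit 0) (nat_lit 4394754014024) (nat_lit 152) (nat_lit 4646523666227) (nat_lit 228) (nat_lit 156407428183) (nat_lit 36) (nat_lit 5) (nat_lit 38) (nat_lit 5) (nat_lit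 39) (nat_lit 5) (nat_lit 360) (nat_lit 349) (nat_lit 191)) (XT.nd (nat_lit 78) (nat_lit 152) (nat_lit 0) (XT.lf (nat_lit 0) (nat_lit 3329194226790) (nat_lit 228) (nat_lit 5194019929025) (nat_lit 76) (nat_lit 1530689020044) (nat_lit 33) (nat_lit 5) (nat_lit 36) (nat_lit 5) (nat_lit 34) (nat_lit 5) (nat_lit 361) (nat_lit 349) (nat_lit 190)) (XT.lf (nat_lit 0) (nat_lit 5367645434467) (nat_lit 152) (nat_lit 2362060476295) (nat_lit 228) (nat_lit 3276416572519) (nat_lit 31) (nat_lit 5) (nat_lit 33) (nat_lit 5) (nat_lit 34) (nat_lit 5) (nat_lit 362) (nat_lit 349) (nat_lit 189)))) (XT.nd (nat_lit 45864) (nat_lit 0) (nat_lit 2584) (XT.nd (nat_lit 78) (nat_lit 152) (nat_lit 0) (XT.lf (nat_lit 0) (nat_lit 1076380956919) (nat_lit 152) (nat_lit 6178027276063) (nat_lit 76) (nat_lit 4811701878059) (nat_lit 29) (nat_lit 5) (nat_lit 31) (nat_lit 5) (nat_lit 30) (nat_lit 5) (nat_lit 363) (nat_lit 349) (nat_lit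 188)) (XT.lf (nat_lit 0) (nat_lit 6282791768768) (nat_lit 228) (nat_lit 6877439326084) (nat_lit 76) (nat_lit 86481123675) (nat_lit 27) (nat_lit 5) (nat_lit 30) (nat_lit 5) (nat_lit 28) (nat_lit 4) (nat_lit 364) (nat_lit 349) (nat_lit 187))) (XT.nd (nat_lit 78) (nat_lit 0) (nat_lit 0) (XT.lf (nat_lit 0) (nat_lit 1867514731754) (nat_lit 532) (nat_lit 168708895394) (nat_lit 532) (nat_lit 168708895394) (nat_lit 61) (nat_lit 3) (nat_lit 68) (nat_lit 3) (nat_lit 68) (nat_lit 5) (nat_lit 350) (nat_lit 350) (nat_lit 200)) (XT.lf (nat_lit 76) (nat_lit 3840541847836) (nat_lit 0) (nat_lit 266979954894) (nat_lit 532) (nat_lit 625693910374) (nat_lit 62) (nat_lit 5) (nat_lit 61) (nat_lit 3) (nat_lit 68) (nat_lit 5) (nat_lit 351) (nat_lit 350) (nat_lit 199))))) (XT.nd (nat_lit 312) (nat_lit 912) (nat_lit 0) (XT.nd (nat_lit 156) (nat_lit 304) (nat_lit 0) (XT.nd (nat_lit 78) (nat_lit 456) (nat_lit 0) (XT.lf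 (nat_lit 76) (nat_lit 3644577771811) (nat_lit 0) (nat_lit 1087870059056) (nat_lit 532) (nat_lit 356896363416) (nat_lit 63) (nat_lit 5) (nat_lit 62) (nat_lit 5) (nat_lit 69) (nat_lit 5) (nat_lit 352) (nat_lit 350) (nat_lit 198)) (XT.lf (nat_lit 0) (nat_lit 159651635853) (nat_lit 532) (nat_lit 1981480272155) (nat_lit 608) (nat_lit 3341448709919) (nat_lit 56) (nat_lit 5) (nat_lit 63) (nat_lit 5) (nat_lit 64) (nat_lit 5) (nat_lit 353) (nat_lit 350) (nat_lit 197))) (XT.nd (nat_lit 78) (nat_lit 380) (nat_lit 0) (XT.lf (nat_lit 0) (nat_lit 952271707348) (nat_lit 532) (nat_lit 2505874476057) (nat_lit 76) (nat_lit 2458336949300) (nat_lit 57) (nat_lit 5) (nat_lit 64) (nat_lit 5) (nat_lit 58) (nat_lit 5) (nat_lit 354) (nat_lit 350) (nat_lit 196)) (XT.lf (nat_lit 0) (nat_lit 2097593484281) (nat_lit 456) (nat_lit 3000676749000) (nat_lit 76) (nat_lit 1298496095844) (nat_lit 52) (nat_lit 5) (nat_lit 58)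 (nat_lit 5) (nat_lit 53) (nat_lit 5) (nat_lit 355) (nat_lit 350) (nat_lit 195)))) (XT.nd (nat_lit 156) (nat_lit 456) (nat_lit 0) (XT.nd (nat_lit 78) (nat_lit 228) (nat_lit 0) (XT.lf (nat_lit 0) (nat_lit 3467774232796) (nat_lit 228) (nat_lit 200833917770) (nat_lit 304) (nat_lit 3260172284617) (nat_lit 49) (nat_lit 5) (nat_lit 52) (nat_lit 5) (nat_lit 53) (nat_lit 5) (nat_lit 356) (nat_lit 350) (nat_lit 194)) (XT.lf (nat_lit 0) (nat_lit 3601887964701) (nat_lit 228) (nat_lit 2180264067687) (nat_lit 304) (nat_lit 1733894463515) (nat_lit 46) (nat_lit 5) (nat_lit 49) (nat_lit 5) (nat_lit 50) (nat_lit 5) (nat_lit 357) (nat_lit 350) (nat_lit 193))) (XT.nd (nat_lit 78) (nat_lit 228) (nat_lit 0) (XT.lf (nat_lit 0) (nat_lit 313265333275) (nat_lit 228) (nat_lit 4325597930728) (nat_lit 76) (nat_lit 3529057606974) (nat_lit 43) (nat_lit 5) (nat_lit 46) (nat_lit 5) (nat_lit 44) (nat_lit 5) (nat_lit 358)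 (nat_lit 350) (nat_lit 192)) (XT.lf (nat_lit 0) (nat_lit 2878030003116) (nat_lit 304) (nat_lit 4734622387807) (nat_lit 76) (nat_lit 1276265369430) (nat_lit 40) (nat_lit 5) (nat_lit 44) (nat_lit 5) (nat_lit 41) (nat_lit 5) (nat_lit 359) (nat_lit 350) (nat_lit 191))))))) (XT.nd (nat_lit 46878) (nat_lit 0) (nat_lit 304) (XT.nd (nat_lit 46332) (nat_lit 0) (nat_lit 1064) (XT.nd (nat_lit 234) (nat_lit 304) (nat_lit 0) (XT.nd (nat_lit 78) (nat_lit 380) (nat_lit 0) (XT.lf (nat_lit 0) (nat_lit 4556492021025) (nat_lit 152) (nat_lit 1638106755650) (nat_lit 228) (nat_lit 3494098254201) (nat_lit 38) (nat_lit 5) (nat_lit 40) (nat_lit 5) (nat_lit 41) (nat_lit 5) (nat_lit 360) (nat_lit 350) (nat_lit 190)) (XT.nd (nat_lit 78) (nat_lit 228) (nat_lit 0) (XT.lf (nat_lit 0) (nat_lit 5053967122584) (nat_lit 152) (nat_lit 5343502214033) (nat_lit 228) (nat_lit 179868537733) (nat_lit 36) (nat_lit 5) (nat_lit 38)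 (nat_lit 5) (nat_lit 39) (nat_lit 5) (nat_lit 361) (nat_lit 350) (nat_lit 189)) (XT.lf (nat_lit 0) (nat_lit 3828573364871) (nat_lit 228) (nat_lit 5973122911980) (nat_lit 76) (nat_lit 1760292375061) (nat_lit 33) (nat_lit 5) (nat_lit 36) (nat_lit 5) (nat_lit 34) (nat_lit 5) (nat_lit 362) (nat_lit 350) (nat_lit 188)))) (XT.nd (nat_lit 45942) (nat_lit 0) (nat_lit 2432) (XT.nd (nat_lit 78) (nat_lit 152) (nat_lit 0) (XT.lf (nat_lit 0) (nat_lit 6172792255495) (nat_lit 152) (nat_lit 2716369545554) (nat_lit 228) (nat_lit 3767879054428) (nat_lit 31) (nat_lit 5) (nat_lit 33) (nat_lit 5) (nat_lit 34) (nat_lit 5) (nat_lit 363) (nat_lit 350) (nat_lit 187)) (XT.lf (nat_lit 0) (nat_lit 1237838103920) (nat_lit 152) (nat_lit 7104731361703) (nat_lit 76) (nat_lit 5533457161794) (nat_lit 29) (nat_lit 5) (nat_lit 31) (nat_lit 5) (nat_lit 30) (nat_lit 5) (nat_lit 364) (nat_lit 350) (nat_lit 186))) (XT.nd (nat_lit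 78) (nat_lit 0) (nat_lit 0) (XT.lf (nat_lit 0) (nat_lit 2147641946936) (nat_lit 532) (nat_lit 194015226774) (nat_lit 532) (nat_lit 194015226774) (nat_lit 61) (nat_lit 3) (nat_lit 68) (nat_lit 3) (nat_lit 68) (nat_lit 5) (nat_lit 351) (nat_lit 351) (nat_lit 198)) (XT.lf (nat_lit 76) (nat_lit 4416623130373) (nat_lit 0) (nat_lit 307026952317) (nat_lit 532) (nat_lit 719547986603) (nat_lit 62) (nat_lit 5) (nat_lit 61) (nat_lit 3) (nat_lit 68) (nat_lit 5) (nat_lit 352) (nat_lit 351) (nat_lit 197))))) (XT.nd (nat_lit 234) (nat_lit 988) (nat_lit 0) (XT.nd (nat_lit 78) (nat_lit 456) (nat_lit 0) (XT.lf (nat_lit 76) (nat_lit 4191264443293) (nat_lit 0) (nat_lit 1251050570559) (nat_lit 532) (nat_lit 410430808895) (nat_lit 63) (nat_lit 5) (nat_lit 62) (nat_lit 5) (nat_lit 69) (nat_lit 5) (nat_lit 353) (nat_lit 351) (nat_lit 196)) (XT.nd (nat_lit 78) (nat_lit 0) (nat_lit 76) (XT.lf (nat_lit 0) (nat_lit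 183599388782) (nat_lit 532) (nat_lit 2278702306666) (nat_lit 608) (nat_lit 3842666014555) (nat_lit 56) (nat_lit 5) (nat_lit 63) (nat_lit 5) (nat_lit 64) (nat_lit 5) (nat_lit 354) (nat_lit 351) (nat_lit 195)) (XT.lf (nat_lit 0) (nat_lit 1095112470133) (nat_lit 532) (nat_lit 2881755641122) (nat_lit 76) (nat_lit 2827087490814) (nat_lit 57) (nat_lit 5) (nat_lit 64) (nat_lit 5) (nat_lit 58) (nat_lit 5) (nat_lit 355) (nat_lit 351) (nat_lit 194)))) (XT.nd (nat_lit 156) (nat_lit 456) (nat_lit 0) (XT.nd (nat_lit 78) (nat_lit 228) (nat_lit 0) (XT.lf (nat_lit 0) (nat_lit 2412232512870) (nat_lit 456) (nat_lit 3450778255058) (nat_lit 76) (nat_lit 1493270510084) (nat_lit 52) (nat_lit 5) (nat_lit 58) (nat_lit 5) (nat_lit 53) (nat_lit 5) (nat_lit 356) (nat_lit 351) (nat_lit 193)) (XT.lf (nat_lit 0) (nat_lit 3987940373475) (nat_lit 228) (nat_lit 230959004986) (nat_lit 304) (nat_lit 3749198121570) (nat_lit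 49) (nat_lit 5) (nat_lit 52) (nat_lit 5) (nat_lit 53) (nat_lit 5) (nat_lit 357) (nat_lit 351) (nat_lit 192))) (XT.nd (nat_lit 78) (nat_lit 228) (nat_lit 0) (XT.lf (nat_lit 0) (nat_lit 4142171165062) (nat_lit 228) (nat_lit 2507303676947) (nat_lit 304) (nat_lit 1993978627893) (nat_lit 46) (nat_lit 5) (nat_lit 49) (nat_lit 5) (nat_lit 50) (nat_lit 5) (nat_lit 358) (nat_lit 351) (nat_lit 191)) (XT.lf (nat_lit 0) (nat_lit 360255137675) (nat_lit 228) (nat_lit 4974437614591) (nat_lit 76) (nat_lit 4058416249002) (nat_lit 43) (nat_lit 5) (nat_lit 46) (nat_lit 5) (nat_lit 44) (nat_lit 5) (nat_lit 359) (nat_lit 351) (nat_lit 190)))))) (XT.nd (nat_lit 46488) (nat_lit 0) (nat_lit 380) (XT.nd (nat_lit 234) (nat_lit 228) (nat_lit 0) (XT.nd (nat_lit 78) (nat_lit 304) (nat_lit 0) (XT.lf (nat_lit 0) (nat_lit 3309734507574) (nat_lit 304) (nat_lit 5444815740430) (nat_lit 76) (nat_lit 1467705176080) (nat_lit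 40) (nat_lit 5) (nat_lit 44) (nat_lit 5) (nat_lit 41) (nat_lit 5) (nat_lit 360) (nat_lit 351) (nat_lit 189)) (XT.nd (nat_lit 78) (nat_lit 152) (nat_lit 0) (XT.lf (nat_lit 0) (nat_lit 5239965829258) (nat_lit 152) (nat_lit 1883822767512) (nat_lit 228) (nat_lit 4018212988448) (nat_lit 38) (nat_lit 5) (nat_lit 40) (nat_lit 5) (nat_lit 41) (nat_lit 5) (nat_lit 361) (nat_lit 351) (nat_lit 188)) (XT.lf (nat_lit 0) (nat_lit 5812062195853) (nat_lit 152) (nat_lit 6145027544528) (nat_lit 228) (nat_lit 206848814857) (nat_lit 36) (nat_lit 5) (nat_lit 38) (nat_lit 5) (nat_lit 39) (nat_lit 5) (nat_lit 362) (nat_lit 351) (nat_lit 187)))) (XT.nd (nat_lit 46098) (nat_lit 0) (nat_lit 2128) (XT.nd (nat_lit 46020) (nat_lit 0) (nat_lit 2128) (XT.lf (nat_lit 0) (nat_lit 4402859372673) (nat_lit 228) (nat_lit 6869091343938) (nat_lit 76) (nat_lit 2024336232839) (nat_lit 33) (nat_lit 5) (nat_lit 36) (nat_lit 5) (nat_lit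 34) (nat_lit 5) (nat_lit 363) (nat_lit 351) (nat_lit 186)) (XT.lf (nat_lit 0) (nat_lit 2469788243073) (nat_lit 532) (nat_lit 223117508575) (nat_lit 532) (nat_lit 223117508575) (nat_lit 61) (nat_lit 3) (nat_lit 68) (nat_lit 3) (nat_lit 68) (nat_lit 5) (nat_lit 352) (nat_lit 352) (nat_lit 196))) (XT.nd (nat_lit 78) (nat_lit 0) (nat_lit 76) (XT.lf (nat_lit 76) (nat_lit 5079116603984) (nat_lit 0) (nat_lit 353080998332) (nat_lit 532) (nat_lit 827480176785) (nat_lit 62) (nat_lit 5) (nat_lit 61) (nat_lit 3) (nat_lit 68) (nat_lit 5) (nat_lit 353) (nat_lit 352) (nat_lit 195)) (XT.lf (nat_lit 76) (nat_lit 4819954114104) (nat_lit 0) (nat_lit 1438708158143) (nat_lit 532) (nat_lit 471995423398) (nat_lit 63) (nat_lit 5) (nat_lit 62) (nat_lit 5) (nat_lit 69) (nat_lit 5) (nat_lit 354) (nat_lit 352) (nat_lit 194))))) (XT.nd (nat_lit 312) (nat_lit 836) (nat_lit 0) (XT.nd (nat_lit 156) (nat_lit 532) (nat_lit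 0) (XT.nd (nat_lit 78) (nat_lit 0) (nat_lit 76) (XT.lf (nat_lit 0) (nat_lit 211139302809) (nat_lit 532) (nat_lit 2620507647894) (nat_lit 608) (nat_lit 4419065915338) (nat_lit 56) (nat_lit 5) (nat_lit 63) (nat_lit 5) (nat_lit 64) (nat_lit 5) (nat_lit 355) (nat_lit 352) (nat_lit 193)) (XT.lf (nat_lit 0) (nat_lit 1259379345706) (nat_lit 532) (nat_lit 3314018982494) (nat_lit 76) (nat_lit 3251150613770) (nat_lit 57) (nat_lit 5) (nat_lit 64) (nat_lit 5) (nat_lit 58) (nat_lit 5) (nat_lit 356) (nat_lit 352) (nat_lit 192))) (XT.nd (nat_lit 78) (nat_lit 228) (nat_lit 0) (XT.lf (nat_lit 0) (nat_lit 2774067394298) (nat_lit 456) (nat_lit 3968394988559) (nat_lit 76) (nat_lit 1717261086492) (nat_lit 52) (nat_lit 5) (nat_lit 58) (nat_lit 5) (nat_lit 53) (nat_lit 5) (nat_lit 357) (nat_lit 352) (nat_lit 191)) (XT.lf (nat_lit 0) (nat_lit 4586131433852) (nat_lit 228) (nat_lit 265602855394) (nat_lit 304) (nat_lit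 4311577835465) (nat_lit 49) (nat_lit 5) (nat_lit 52) (nat_lit 5) (nat_lit 53) (nat_lit 5) (nat_lit 358) (nat_lit 352) (nat_lit 190)))) (XT.nd (nat_lit 156) (nat_lit 380) (nat_lit 0) (XT.nd (nat_lit 78) (nat_lit 228) (nat_lit 0) (XT.lf (nat_lit 0) (nat_lit 4763496844099) (nat_lit 228) (nat_lit 2883399227815) (nat_lit 304) (nat_lit 2293075418184) (nat_lit 46) (nat_lit 5) (nat_lit 49) (nat_lit 5) (nat_lit 50) (nat_lit 5) (nat_lit 359) (nat_lit 352) (nat_lit 189)) (XT.lf (nat_lit 0) (nat_lit 414293411659) (nat_lit 228) (nat_lit 5720603252435) (nat_lit 76) (nat_lit 4667178687094) (nat_lit 43) (nat_lit 5) (nat_lit 46) (nat_lit 5) (nat_lit 44) (nat_lit 5) (nat_lit 360) (nat_lit 352) (nat_lit 188))) (XT.nd (nat_lit 78) (nat_lit 152) (nat_lit 0) (XT.lf (nat_lit 0) (nat_lit 3806194686728) (nat_lit 304) (nat_lit 6261538097299) (nat_lit 76) (nat_lit 1687860953426) (nat_lit 40) (nat_lit 5) (nat_lit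 44) (nat_lit 5) (nat_lit 41) (nat_lit 5) (nat_lit 361) (nat_lit 352) (nat_lit 187)) (XT.lf (nat_lit 0) (nat_lit 6025960707487) (nat_lit 152) (nat_lit 2166396181515) (nat_lit 228) (nat_lit 4620944933780) (nat_lit 38) (nat_lit 5) (nat_lit 40) (nat_lit 5) (nat_lit 41) (nat_lit 5) (nat_lit 362) (nat_lit 352) (nat_lit 186))))))))
noncomputable def xc63 : XT := (XT.nd (nat_lit 140634) (nat_lit 0) (nat_lit 532) (XT.nd (nat_lit 93288) (nat_lit 0) (nat_lit 304) (XT.nd (nat_lit 46566) (nat_lit 0) (nat_lit 152) (XT.nd (nat_lit 46254) (nat_lit 0) (nat_lit 1216) (XT.nd (nat_lit 46098) (nat_lit 0) (nat_lit 1900) (XT.lf (nat_lit 0) (nat_lit 6683871528923) (nat_lit 152) (nat_lit 7066781674991) (nat_lit 228) (nat_lit 237876134411) (nat_lit 36) (nat_lit 5) (nat_lit 38) (nat_lit 5) (nat_lit 39) (nat_lit 5) (nat_lit 363) (nat_lit 352) (nat_lit 185)) (XT.nd (nat_lit 78) (nat_lit 0) (nat_lit 0) (XT.lf (nat_lit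 0) (nat_lit 2840256482631) (nat_lit 532) (nat_lit 256585133187) (nat_lit 532) (nat_lit 256585133187) (nat_lit 61) (nat_lit 3) (nat_lit 68) (nat_lit 3) (nat_lit 68) (nat_lit 5) (nat_lit 353) (nat_lit 353) (nat_lit 194)) (XT.lf (nat_lit 76) (nat_lit 5840984097647) (nat_lit 0) (nat_lit 406043150477) (nat_lit 532) (nat_lit 951602197398) (nat_lit 62) (nat_lit 5) (nat_lit 61) (nat_lit 3) (nat_lit 68) (nat_lit 5) (nat_lit 354) (nat_lit 353) (nat_lit 193)))) (XT.nd (nat_lit 156) (nat_lit 304) (nat_lit 0) (XT.nd (nat_lit 78) (nat_lit 456) (nat_lit 0) (XT.lf (nat_lit 76) (nat_lit 5542947234485) (nat_lit 0) (nat_lit 1654514383377) (nat_lit 532) (nat_lit 542794731743) (nat_lit 63) (nat_lit 5) (nat_lit 62) (nat_lit 5) (nat_lit 69) (nat_lit 5) (nat_lit 355) (nat_lit 353) (nat_lit 192)) (XT.lf (nat_lit 0) (nat_lit 242810202548) (nat_lit 532) (nat_lit 3013583791469) (nat_lit 608) (nat_lit 5081925801580)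 (nat_lit 56) (nat_lit 5) (nat_lit 63) (nat_lit 5) (nat_lit 64) (nat_lit 5) (nat_lit 356) (nat_lit 353) (nat_lit 191))) (XT.nd (nat_lit 78) (nat_lit 380) (nat_lit 0) (XT.lf (nat_lit 0) (nat_lit 1448286251383) (nat_lit 532) (nat_lit 3811121826242) (nat_lit 76) (nat_lit 3738823205332) (nat_lit 57) (nat_lit 5) (nat_lit 64) (nat_lit 5) (nat_lit 58) (nat_lit 5) (nat_lit 357) (nat_lit 353) (nat_lit 190)) (XT.lf (nat_lit 0) (nat_lit 3190177506843) (nat_lit 456) (nat_lit 4563654233246) (nat_lit 76) (nat_lit 1974850249388) (nat_lit 52) (nat_lit 5) (nat_lit 58) (nat_lit 5) (nat_lit 53) (nat_lit 5) (nat_lit 358) (nat_lit 353) (nat_lit 189))))) (XT.nd (nat_lit 312) (nat_lit 380) (nat_lit 0) (XT.nd (nat_lit 78) (nat_lit 456) (nat_lit 0) (XT.lf (nat_lit 0) (nat_lit 5274051152223) (nat_lit 228) (nat_lit 305443283446) (nat_lit 304) (nat_lit 4958314507502) (nat_lit 49) (nat_lit 5) (nat_lit 52) (nat_lit 5)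 (nat_lit 53) (nat_lit 5) (nat_lit 359) (nat_lit 353) (nat_lit 188)) (XT.nd (nat_lit 78) (nat_lit 228) (nat_lit 0) (XT.lf (nat_lit 0) (nat_lit 5478021373947) (nat_lit 228) (nat_lit 3315909111476) (nat_lit 304) (nat_lit 2637036727968) (nat_lit 46) (nat_lit 5) (nat_lit 49) (nat_lit 5) (nat_lit 50) (nat_lit 5) (nat_lit 360) (nat_lit 353) (nat_lit 187)) (XT.lf (nat_lit 0) (nat_lit 476437425929) (nat_lit 228) (nat_lit 6578693737015) (nat_lit 76) (nat_lit 5367255490720) (nat_lit 43) (nat_lit 5) (nat_lit 46) (nat_lit 5) (nat_lit 44) (nat_lit 5) (nat_lit 361) (nat_lit 353) (nat_lit 186)))) (XT.nd (nat_lit 46254) (nat_lit 0) (nat_lit 1748) (XT.nd (nat_lit 46176) (nat_lit 0) (nat_lit 1748) (XT.lf (nat_lit 0) (nat_lit 6929854816514) (nat_lit 152) (nat_lit 2491355607892) (nat_lit 228) (nat_lit 5314086671627) (nat_lit 38) (nat_lit 5) (nat_lit 40) (nat_lit 5) (nat_lit 41) (nat_lit 5) (nat_lit 363) (nat_lit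 353) (nat_lit 184)) (XT.lf (nat_lit 0) (nat_lit 3266294957368) (nat_lit 532) (nat_lit 295072901899) (nat_lit 532) (nat_lit 295072901899) (nat_lit 61) (nat_lit 3) (nat_lit 68) (nat_lit 3) (nat_lit 68) (nat_lit 5) (nat_lit 354) (nat_lit 354) (nat_lit 192))) (XT.nd (nat_lit 78) (nat_lit 0) (nat_lit 76) (XT.lf (nat_lit 76) (nat_lit 6717131714613) (nat_lit 0) (nat_lit 466949624860) (nat_lit 532) (nat_lit 1094342522544) (nat_lit 62) (nat_lit 5) (nat_lit 61) (nat_lit 3) (nat_lit 68) (nat_lit 5) (nat_lit 355) (nat_lit 354) (nat_lit 191)) (XT.lf (nat_lit 76) (nat_lit 6374389322127) (nat_lit 0) (nat_lit 1902691542027) (nat_lit 532) (nat_lit 624213937599) (nat_lit 63) (nat_lit 5) (nat_lit 62) (nat_lit 5) (nat_lit 69) (nat_lit 5) (nat_lit 356) (nat_lit 354) (nat_lit 190)))))) (XT.nd (nat_lit 46722) (nat_lit 0) (nat_lit 456) (XT.nd (nat_lit 234) (nat_lit 912) (nat_lit 0) (XT.nd (nat_lit 78) (nat_lit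 304) (nat_lit 0) (XT.lf (nat_lit 0) (nat_lit 279231736195) (nat_lit 532) (nat_lit 3465621357460) (nat_lit 608) (nat_lit 5844214671017) (nat_lit 56) (nat_lit 5) (nat_lit 63) (nat_lit 5) (nat_lit 64) (nat_lit 5) (nat_lit 357) (nat_lit 354) (nat_lit 189)) (XT.nd (nat_lit 78) (nat_lit 380) (nat_lit 0) (XT.lf (nat_lit 0) (nat_lit 1665529191980) (nat_lit 532) (nat_lit 4382790097435) (nat_lit 76) (nat_lit 4299646685751) (nat_lit 57) (nat_lit 5) (nat_lit 64) (nat_lit 5) (nat_lit 58) (nat_lit 5) (nat_lit 358) (nat_lit 354) (nat_lit 188)) (XT.lf (nat_lit 0) (nat_lit 3668704135441) (nat_lit 456) (nat_lit 5248202365512) (nat_lit 76) (nat_lit 2271077786737) (nat_lit 52) (nat_lit 5) (nat_lit 58) (nat_lit 5) (nat_lit 53) (nat_lit 5) (nat_lit 359) (nat_lit 354) (nat_lit 187)))) (XT.nd (nat_lit 156) (nat_lit 456) (nat_lit 0) (XT.nd (nat_lit 78) (nat_lit 228) (nat_lit 0) (XT.lf (nat_lit 0) (nat_lit 6065158827546)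 (nat_lit 228) (nat_lit 351259775769) (nat_lit 304) (nat_lit 5702061681146) (nat_lit 49) (nat_lit 5) (nat_lit 52) (nat_lit 5) (nat_lit 53) (nat_lit 5) (nat_lit 360) (nat_lit 354) (nat_lit 186)) (XT.lf (nat_lit 0) (nat_lit 6299724582484) (nat_lit 228) (nat_lit 3813295477812) (nat_lit 304) (nat_lit 3032592234938) (nat_lit 46) (nat_lit 5) (nat_lit 49) (nat_lit 5) (nat_lit 50) (nat_lit 5) (nat_lit 361) (nat_lit 354) (nat_lit 185))) (XT.nd (nat_lit 78) (nat_lit 228) (nat_lit 0) (XT.lf (nat_lit 0) (nat_lit 547903041724) (nat_lit 228) (nat_lit 7565497795083) (nat_lit 76) (nat_lit 6172343814752) (nat_lit 43) (nat_lit 5) (nat_lit 46) (nat_lit 5) (nat_lit 44) (nat_lit 5) (nat_lit 362) (nat_lit 354) (nat_lit 184)) (XT.lf (nat_lit 0) (nat_lit 5033692477547) (nat_lit 304) (nat_lit 8280884127630) (nat_lit 76) (nat_lit 2232196112252) (nat_lit 40) (nat_lit 5) (nat_lit 44) (nat_lit 5) (nat_lit 41) (nat_lit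 5) (nat_lit 363) (nat_lit 354) (nat_lit 183))))) (XT.nd (nat_lit 312) (nat_lit 760) (nat_lit 0) (XT.nd (nat_lit 156) (nat_lit 380) (nat_lit 0) (XT.nd (nat_lit 78) (nat_lit 0) (nat_lit 0) (XT.lf (nat_lit 0) (nat_lit 3756239202745) (nat_lit 532) (nat_lit 339333836227) (nat_lit 532) (nat_lit 339333836227) (nat_lit 61) (nat_lit 3) (nat_lit 68) (nat_lit 3) (nat_lit 68) (nat_lit 5) (nat_lit 355) (nat_lit 355) (nat_lit 190)) (XT.lf (nat_lit 76) (nat_lit 7724701473558) (nat_lit 0) (nat_lit 536992069959) (nat_lit 532) (nat_lit 1258493897549) (nat_lit 62) (nat_lit 5) (nat_lit 61) (nat_lit 3) (nat_lit 68) (nat_lit 5) (nat_lit 356) (nat_lit 355) (nat_lit 189))) (XT.nd (nat_lit 78) (nat_lit 456) (nat_lit 0) (XT.lf (nat_lit 76) (nat_lit 7330547722312) (nat_lit 0) (nat_lit 2188095274196) (nat_lit 532) (nat_lit 717846025286) (nat_lit 63) (nat_lit 5) (nat_lit 62) (nat_lit 5) (nat_lit 69) (nat_lit 5) (nat_lit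 357) (nat_lit 355) (nat_lit 188)) (XT.lf (nat_lit 0) (nat_lit 321116499093) (nat_lit 532) (nat_lit 3985464559016) (nat_lit 608) (nat_lit 6720846871064) (nat_lit 56) (nat_lit 5) (nat_lit 63) (nat_lit 5) (nat_lit 64) (nat_lit 5) (nat_lit 358) (nat_lit 355) (nat_lit 187)))) (XT.nd (nat_lit 156) (nat_lit 456) (nat_lit 0) (XT.nd (nat_lit 78) (nat_lit 380) (nat_lit 0) (XT.lf (nat_lit 0) (nat_lit 1915358572962) (nat_lit 532) (nat_lit 5040208609977) (nat_lit 76) (nat_lit 4944593688325) (nat_lit 57) (nat_lit 5) (nat_lit 64) (nat_lit 5) (nat_lit 58) (nat_lit 5) (nat_lit 359) (nat_lit 355) (nat_lit 186)) (XT.lf (nat_lit 0) (nat_lit 4219009757701) (nat_lit 456) (nat_lit 6035432718282) (nat_lit 76) (nat_lit 2611739454702) (nat_lit 52) (nat_lit 5) (nat_lit 58) (nat_lit 5) (nat_lit 53) (nat_lit 5) (nat_lit 360) (nat_lit 355) (nat_lit 185))) (XT.nd (nat_lit 78) (nat_lit 228) (nat_lit 0) (XT.lf (nat_lit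 0) (nat_lit 6974932653561) (nat_lit 228) (nat_lit 403948741988) (nat_lit 304) (nat_lit 6557370931441) (nat_lit 49) (nat_lit 5) (nat_lit 52) (nat_lit 5) (nat_lit 53) (nat_lit 5) (nat_lit 361) (nat_lit 355) (nat_lit 184)) (XT.lf (nat_lit 0) (nat_lit 7244683271706) (nat_lit 228) (nat_lit 4385289799192) (nat_lit 304) (nat_lit 3487481068495) (nat_lit 46) (nat_lit 5) (nat_lit 49) (nat_lit 5) (nat_lit 50) (nat_lit 5) (nat_lit 362) (nat_lit 355) (nat_lit 183))))))) (XT.nd (nat_lit 93678) (nat_lit 0) (nat_lit 456) (XT.nd (nat_lit 46800) (nat_lit 0) (nat_lit 228) (XT.nd (nat_lit 46488) (nat_lit 0) (nat_lit 684) (XT.nd (nat_lit 46332) (nat_lit 0) (nat_lit 1368) (XT.lf (nat_lit 0) (nat_lit 630088499423) (nat_lit 228) (nat_lit 8700322462467) (nat_lit 76) (nat_lit 7098195387286) (nat_lit 43) (nat_lit 5) (nat_lit 46) (nat_lit 5) (nat_lit 44) (nat_lit 5) (nat_lit 363) (nat_lit 355) (nat_lit 182)) (XT.nd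 (nat_lit 78) (nat_lit 0) (nat_lit 0) (XT.lf (nat_lit 0) (nat_lit 4319675084496) (nat_lit 532) (nat_lit 390233910937) (nat_lit 532) (nat_lit 390233910937) (nat_lit 61) (nat_lit 3) (nat_lit 68) (nat_lit 3) (nat_lit 68) (nat_lit 5) (nat_lit 356) (nat_lit 356) (nat_lit 188)) (XT.lf (nat_lit 76) (nat_lit 8883406695917) (nat_lit 0) (nat_lit 617540881488) (nat_lit 532) (nat_lit 1447267979629) (nat_lit 62) (nat_lit 5) (nat_lit 61) (nat_lit 3) (nat_lit 68) (nat_lit 5) (nat_lit 357) (nat_lit 356) (nat_lit 187)))) (XT.nd (nat_lit 156) (nat_lit 304) (nat_lit 0) (XT.nd (nat_lit 78) (nat_lit 456) (nat_lit 0) (XT.lf (nat_lit 76) (nat_lit 8430129882071) (nat_lit 0) (nat_lit 2516309565979) (nat_lit 532) (nat_lit 825522926846) (nat_lit 63) (nat_lit 5) (nat_lit 62) (nat_lit 5) (nat_lit 69) (nat_lit 5) (nat_lit 358) (nat_lit 356) (nat_lit 186)) (XT.lf (nat_lit 0) (nat_lit 369283975823) (nat_lit 532) (nat_lit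 4583284241309) (nat_lit 608) (nat_lit 7728973901266) (nat_lit 56) (nat_lit 5) (nat_lit 63) (nat_lit 5) (nat_lit 64) (nat_lit 5) (nat_lit 359) (nat_lit 356) (nat_lit 185))) (XT.nd (nat_lit 78) (nat_lit 380) (nat_lit 0) (XT.lf (nat_lit 0) (nat_lit 2202662360558) (nat_lit 532) (nat_lit 5796239899906) (nat_lit 76) (nat_lit 5686282741356) (nat_lit 57) (nat_lit 5) (nat_lit 64) (nat_lit 5) (nat_lit 58) (nat_lit 5) (nat_lit 360) (nat_lit 356) (nat_lit 184)) (XT.lf (nat_lit 0) (nat_lit 4851861222827) (nat_lit 456) (nat_lit 6940747624470) (nat_lit 76) (nat_lit 3003500372874) (nat_lit 52) (nat_lit 5) (nat_lit 58) (nat_lit 5) (nat_lit 53) (nat_lit 5) (nat_lit 361) (nat_lit 356) (nat_lit 183))))) (XT.nd (nat_lit 46566) (nat_lit 0) (nat_lit 760) (XT.nd (nat_lit 78) (nat_lit 228) (nat_lit 0) (XT.lf (nat_lit 0) (nat_lit 8021172553019) (nat_lit 228) (nat_lit 464541053175) (nat_lit 304) (nat_lit 7540976569739)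 (nat_lit 49) (nat_lit 5) (nat_lit 52) (nat_lit 5) (nat_lit 53) (nat_lit 5) (nat_lit 362) (nat_lit 356) (nat_lit 182)) (XT.nd (nat_lit 46410) (nat_lit 0) (nat_lit 1140) (XT.lf (nat_lit 0) (nat_lit 8331385763860) (nat_lit 228) (nat_lit 5043083268850) (nat_lit 304) (nat_lit 4010603227497) (nat_lit 46) (nat_lit 5) (nat_lit 49) (nat_lit 5) (nat_lit 50) (nat_lit 5) (nat_lit 363) (nat_lit 356) (nat_lit 181)) (XT.lf (nat_lit 0) (nat_lit 4967626348183) (nat_lit 532) (nat_lit 448768997030) (nat_lit 532) (nat_lit 448768997030) (nat_lit 61) (nat_lit 3) (nat_lit 68) (nat_lit 3) (nat_lit 68) (nat_lit 5) (nat_lit 357) (nat_lit 357) (nat_lit 186)))) (XT.nd (nat_lit 156) (nat_lit 380) (nat_lit 0) (XT.nd (nat_lit 78) (nat_lit 0) (nat_lit 76) (XT.lf (nat_lit 76) (nat_lit 10215917701307) (nat_lit 0) (nat_lit 710172014494) (nat_lit 532) (nat_lit 1664358174643) (nat_lit 62) (nat_lit 5) (nat_lit 61) (nat_lit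 3) (nat_lit 68) (nat_lit 5) (nat_lit 358) (nat_lit 357) (nat_lit 185)) (XT.lf (nat_lit 76) (nat_lit 9694649365449) (nat_lit 0) (nat_lit 2893756001370) (nat_lit 532) (nat_lit 949351364185) (nat_lit 63) (nat_lit 5) (nat_lit 62) (nat_lit 5) (nat_lit 69) (nat_lit 5) (nat_lit 359) (nat_lit 357) (nat_lit 184))) (XT.nd (nat_lit 78) (nat_lit 0) (nat_lit 76) (XT.lf (nat_lit 0) (nat_lit 424676573608) (nat_lit 532) (nat_lit 5270776876325) (nat_lit 608) (nat_lit 8888319986110) (nat_lit 56) (nat_lit 5) (nat_lit 63) (nat_lit 5) (nat_lit 64) (nat_lit 5) (nat_lit 360) (nat_lit 357) (nat_lit 183)) (XT.lf (nat_lit 0) (nat_lit 2533061715891) (nat_lit 532) (nat_lit 6665675883706) (nat_lit 76) (nat_lit 6539225152395) (nat_lit 57) (nat_lit 5) (nat_lit 64) (nat_lit 5) (nat_lit 58) (nat_lit 5) (nat_lit 361) (nat_lit 357) (nat_lit 182)))))) (XT.nd (nat_lit 93522) (nat_lit 0) (nat_lit 532) (XT.nd (nat_lit 46644)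 (nat_lit 0) (nat_lit 532) (XT.nd (nat_lit 78) (nat_lit 228) (nat_lit 0) (XT.lf (nat_lit 0) (nat_lit 5579640407363) (nat_lit 456) (nat_lit 7981859766964) (nat_lit 76) (nat_lit 3454025428779) (nat_lit 52) (nat_lit 5) (nat_lit 58) (nat_lit 5) (nat_lit 53) (nat_lit 5) (nat_lit 362) (nat_lit 357) (nat_lit 181)) (XT.nd (nat_lit 46488) (nat_lit 0) (nat_lit 912) (XT.lf (nat_lit 0) (nat_lit 9224348437048) (nat_lit 228) (nat_lit 534222211067) (nat_lit 304) (nat_lit 8672123054127) (nat_lit 49) (nat_lit 5) (nat_lit 52) (nat_lit 5) (nat_lit 53) (nat_lit 5) (nat_lit 363) (nat_lit 357) (nat_lit 180)) (XT.lf (nat_lit 0) (nat_lit 5712770301176) (nat_lit 532) (nat_lit 516084346170) (nat_lit 532) (nat_lit 516084346170) (nat_lit 61) (nat_lit 3) (nat_lit 68) (nat_lit 3) (nat_lit 68) (nat_lit 5) (nat_lit 358) (nat_lit 358) (nat_lit 184)))) (XT.nd (nat_lit 156) (nat_lit 380) (nat_lit 0) (XT.nd (nat_lit 78) (nat_lit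 0) (nat_lit 76) (XT.lf (nat_lit 76) (nat_lit 11748305357261) (nat_lit 0) (nat_lit 816697817261) (nat_lit 532) (nat_lit 1914011899380) (nat_lit 62) (nat_lit 5) (nat_lit 61) (nat_lit 3) (nat_lit 68) (nat_lit 5) (nat_lit 359) (nat_lit 358) (nat_lit 183)) (XT.lf (nat_lit 76) (nat_lit 11148846771073) (nat_lit 0) (nat_lit 3327819401950) (nat_lit 532) (nat_lit 1091754067536) (nat_lit 63) (nat_lit 5) (nat_lit 62) (nat_lit 5) (nat_lit 69) (nat_lit 5) (nat_lit 360) (nat_lit 358) (nat_lit 182))) (XT.nd (nat_lit 78) (nat_lit 0) (nat_lit 76) (XT.lf (nat_lit 0) (nat_lit 488378060717) (nat_lit 532) (nat_lit 6061393406882) (nat_lit 608) (nat_lit 10221567983765) (nat_lit 56) (nat_lit 5) (nat_lit 63) (nat_lit 5) (nat_lit 64) (nat_lit 5) (nat_lit 361) (nat_lit 358) (nat_lit 181)) (XT.lf (nat_lit 0) (nat_lit 2913020974219) (nat_lit 532) (nat_lit 7665527265365) (nat_lit 76) (nat_lit 7520108925130) (nat_lit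 57) (nat_lit 5) (nat_lit 64) (nat_lit 5) (nat_lit 58) (nat_lit 5) (nat_lit 362) (nat_lit 358) (nat_lit 180))))) (XT.nd (nat_lit 46956) (nat_lit 0) (nat_lit 380) (XT.nd (nat_lit 156) (nat_lit 380) (nat_lit 0) (XT.nd (nat_lit 78) (nat_lit 0) (nat_lit 0) (XT.lf (nat_lit 0) (nat_lit 6569685846931) (nat_lit 532) (nat_lit 593496997783) (nat_lit 532) (nat_lit 593496997783) (nat_lit 61) (nat_lit 3) (nat_lit 68) (nat_lit 3) (nat_lit 68) (nat_lit 5) (nat_lit 359) (nat_lit 359) (nat_lit 182)) (XT.lf (nat_lit 76) (nat_lit 13510551161422) (nat_lit 0) (nat_lit 939202490298) (nat_lit 532) (nat_lit 2201113683184) (nat_lit 62) (nat_lit 5) (nat_lit 61) (nat_lit 3) (nat_lit 68) (nat_lit 5) (nat_lit 360) (nat_lit 359) (nat_lit 181))) (XT.nd (nat_lit 78) (nat_lit 456) (nat_lit 0) (XT.lf (nat_lit 76) (nat_lit 12821173787344) (nat_lit 0) (nat_lit 3826992312525) (nat_lit 532) (nat_lit 1255517176701) (nat_lit 63)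 (nat_lit 5) (nat_lit 62) (nat_lit 5) (nat_lit 69) (nat_lit 5) (nat_lit 361) (nat_lit 359) (nat_lit 180)) (XT.lf (nat_lit 0) (nat_lit 561634770632) (nat_lit 532) (nat_lit 6970602417240) (nat_lit 608) (nat_lit 11754803181132) (nat_lit 56) (nat_lit 5) (nat_lit 63) (nat_lit 5) (nat_lit 64) (nat_lit 5) (nat_lit 362) (nat_lit 359) (nat_lit 179)))) (XT.nd (nat_lit 156) (nat_lit 0) (nat_lit 0) (XT.nd (nat_lit 78) (nat_lit 0) (nat_lit 0) (XT.lf (nat_lit 0) (nat_lit 7555138724409) (nat_lit 532) (nat_lit 682521547214) (nat_lit 532) (nat_lit 682521547214) (nat_lit 61) (nat_lit 3) (nat_lit 68) (nat_lit 3) (nat_lit 68) (nat_lit 5) (nat_lit 360) (nat_lit 360) (nat_lit 180)) (XT.lf (nat_lit 76) (nat_lit 15537133836069) (nat_lit 0) (nat_lit 1080082864181) (nat_lit 532) (nat_lit 2531280734827) (nat_lit 62) (nat_lit 5) (nat_lit 61) (nat_lit 3) (nat_lit 68) (nat_lit 5) (nat_lit 361) (nat_lit 360) (nat_lit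 179))) (XT.nd (nat_lit 46878) (nat_lit 76) (nat_lit 0) (XT.lf (nat_lit 76) (nat_lit 14744349855908) (nat_lit 0) (nat_lit 4401041159617) (nat_lit 532) (nat_lit 1443844752477) (nat_lit 63) (nat_lit 5) (nat_lit 62) (nat_lit 5) (nat_lit 69) (nat_lit 5) (nat_lit 362) (nat_lit 360) (nat_lit 178)) (XT.lf (nat_lit 76) (nat_lit 17867703911808) (nat_lit 0) (nat_lit 1242095294064) (nat_lit 532) (nat_lit 2910972844420) (nat_lit 62) (nat_lit 5) (nat_lit 61) (nat_lit 3) (nat_lit 68) (nat_lit 5) (nat_lit 362) (nat_lit 361) (nat_lit 177))))))))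

set_option maxRecDepth 10000000 in
noncomputable def Tp : PT := (PT.nd (nat_lit 7137078) (PT.nd (nat_lit 6856200) pc0 pc1) (PT.nd (nat_lit 141102) pc2 pc3))

set_option maxRecDepth 10000000 in
noncomputable def Tx : XT := (XT.nd (nat_lit 12404808) (nat_lit 0) (nat_lit 76) XT.nil (XT.nd (nat_lit 4546464) (nat_lit 0) (nat_lit 0) (XT.nd (nat_lit 2013258) (nat_lit 0) (nat_lit 0) (XT.nd (nat_lit 1359072) (nat_lit 0) (nat_lit 0) (XT.nd (nat_lit 937638) (nat_lit 0) (nat_lit 0) (XT.nd (nat_lit 655668) (nat_lit 0) (nat_lit 0) (XT.nd (nat_lit 467610) (nat_lit 0) (nat_lit 0) (XT.nd (nat_lit 327132) (nat_lit 0) (nat_lit 0) xc0 xc1) (XT.nd (nat_lit 94302) (nat_lit 0) (nat_lit 0) xc2 xc3)) (XT.nd (nat_lit 185562) (nat_lit 0) (nat_lit 0) (XT.nd (nat_lit 93054) (nat_lit 0) (nat_lit 0) xc4 xc5) (XT.nd (nat_lit 48282) (nat_lit 0) (nat_lit 0) xc6 xc7))) (XT.nd (nat_lit 233610) (nat_lit 0) (nat_lit 0) (XT.nd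 (nat_lit 138840) (nat_lit 0) (nat_lit 0) (XT.nd (nat_lit 91182) (nat_lit 0) (nat_lit 0) xc8 xc9) (XT.nd (nat_lit 47424) (nat_lit 0) (nat_lit 0) xc10 xc11)) (XT.nd (nat_lit 94146) (nat_lit 0) (nat_lit 0) (XT.nd (nat_lit 47112) (nat_lit 0) (nat_lit 0) xc12 xc13) (XT.nd (nat_lit 46878) (nat_lit 0) (nat_lit 0) xc14 xc15)))) (XT.nd (nat_lit 327522) (nat_lit 0) (nat_lit 0) (XT.nd (nat_lit 185484) (nat_lit 0) (nat_lit 0) (XT.nd (nat_lit 93054) (nat_lit 0) (nat_lit 0) (XT.nd (nat_lit 46566) (nat_lit 0) (nat_lit 0) xc16 xc17) (XT.nd (nat_lit 46254) (nat_lit 0) (nat_lit 0) xc18 xc19)) (XT.nd (nat_lit 91806) (nat_lit 0) (nat_lit 0) (XT.nd (nat_lit 45942) (nat_lit 0) (nat_lit 0) xc20 xc21) (XT.nd (nat_lit 45708) (nat_lit 0) (nat_lit 0) xc22 xc23))) (XT.nd (nat_lit 183456) (nat_lit 0) (nat_lit 0) (XT.nd (nat_lit 91572) (nat_lit 0) (nat_lit 0) (XT.nd (nat_lit 45708) (nat_lit 0) (nat_lit 0) xc24 xc25)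 (XT.nd (nat_lit 45864) (nat_lit 0) (nat_lit 0) xc26 xc27)) (XT.nd (nat_lit 50622) (nat_lit 0) (nat_lit 0) (XT.nd (nat_lit 4446) (nat_lit 0) (nat_lit 0) xc28 xc29) (XT.nd (nat_lit 46254) (nat_lit 0) (nat_lit 0) xc30 xc31))))) (XT.nd (nat_lit 751998) (nat_lit 0) (nat_lit 76) (XT.nd (nat_lit 373230) (nat_lit 0) (nat_lit 0) (XT.nd (nat_lit 185952) (nat_lit 0) (nat_lit 0) (XT.nd (nat_lit 92820) (nat_lit 0) (nat_lit 0) (XT.nd (nat_lit 46332) (nat_lit 0) (nat_lit 0) xc32 xc33) (XT.nd (nat_lit 46488) (nat_lit 0) (nat_lit 0) xc34 xc35)) (XT.nd (nat_lit 93444) (nat_lit 0) (nat_lit 0) (XT.nd (nat_lit 46644) (nat_lit 0) (nat_lit 0) xc36 xc37) (XT.nd (nat_lit 46878) (nat_lit 0) (nat_lit 0) xc38 xc39))) (XT.nd (nat_lit 188682) (nat_lit 0) (nat_lit 0) (XT.nd (nat_lit 94146) (nat_lit 0) (nat_lit 0) (XT.nd (nat_lit 46956) (nat_lit 0) (nat_lit 0) xc40 xc41) (XT.nd (nat_lit 47190) (nat_lit 0) (nat_lit 0)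 xc42 xc43)) (XT.nd (nat_lit 94848) (nat_lit 0) (nat_lit 0) (XT.nd (nat_lit 47346) (nat_lit 0) (nat_lit 0) xc44 xc45) (XT.nd (nat_lit 47580) (nat_lit 0) (nat_lit 0) xc46 xc47)))) (XT.nd (nat_lit 561054) (nat_lit 0) (nat_lit 380) (XT.nd (nat_lit 278850) (nat_lit 0) (nat_lit 152) (XT.nd (nat_lit 139074) (nat_lit 0) (nat_lit 76) (XT.nd (nat_lit 91104) (nat_lit 0) (nat_lit 76) xc48 xc49) (XT.nd (nat_lit 47970) (nat_lit 0) (nat_lit 0) xc50 xc51)) (XT.nd (nat_lit 140712) (nat_lit 0) (nat_lit 0) (XT.nd (nat_lit 48282) (nat_lit 0) (nat_lit 0) xc52 xc53) (XT.nd (nat_lit 48594) (nat_lit 0) (nat_lit 152) xc54 xc55))) (XT.nd (nat_lit 375102) (nat_lit 0) (nat_lit 684) (XT.nd (nat_lit 142194) (nat_lit 0) (nat_lit 228) (XT.nd (nat_lit 93132) (nat_lit 0) (nat_lit 152) xc56 xc57) (XT.nd (nat_lit 93756) (nat_lit 0) (nat_lit 76) xc58 xc59)) (XT.nd (nat_lit 235560) (nat_lit 0) (nat_lit 760) (XT.nd (nat_lit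 94770) (nat_lit 0) (nat_lit 228) xc60 xc61) (XT.nd (nat_lit 187590) (nat_lit 0) (nat_lit 760) xc62 xc63)))))) XT.nil))

set_option maxRecDepth 10000000 in
noncomputable def Te : XT := XT.nil

set_option maxRecDepth 10000000 in
noncomputable def Tz : ZL := (ZL.cons (nat_lit 76) (nat_lit 3) (nat_lit 150381837580488096491) (ZL.cons (nat_lit 152) (nat_lit 6) (nat_lit 281633796431505641996) (ZL.cons (nat_lit 228) (nat_lit 6) (nat_lit 265093942790155081756) (ZL.cons (nat_lit 304) (nat_lit 3) (nat_lit 131277318628207640089) (ZL.cons (nat_lit 380) (nat_lit 6) (nat_lit 246073111102601937482) (ZL.cons (nat_lit 456) (nat_lit 6) (nat_lit 231866753327925787634) (ZL.cons (nat_lit 532) (nat_lit 3) (nat_lit 114829330779728197479) (ZL.cons (nat_lit 608) (nat_lit 6) (nat_lit 215529441887048215310) (ZL.cons (nat_lit 684) (nat_lit 6) (nat_lit 203409010830917238504) (ZL.cons (nat_lit 760) (nat_lit 3) (nat_lit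 100744465516124100696) (ZL.cons (nat_lit 836) (nat_lit 6) (nat_lit 189470515116366615174) (ZL.cons (nat_lit 912) (nat_lit 6) (nat_lit 179239051219310121276) (ZL.cons (nat_lit 988) (nat_lit 3) (nat_lit 88784708305885914068) (ZL.cons (nat_lit 1064) (nat_lit 6) (nat_lit 167472867737695153290) (ZL.cons (nat_lit 1140) (nat_lit 6) (nat_lit 158983327320513351348) (ZL.cons (nat_lit 1216) (nat_lit 3) (nat_lit 78765735570022635179) (ZL.cons (nat_lit 1292) (nat_lit 6) (nat_lit 149220355840754279116) (ZL.cons (nat_lit 1368) (nat_lit 6) (nat_lit 142376913062227355818) (ZL.cons (nat_lit 1444) (nat_lit 3) (nat_lit 70557214713518860088) (ZL.cons (nat_lit 1520) (nat_lit 6) (nat_lit 136867249358797669366) (ZL.cons (nat_lit 1596) (nat_lit 6) (nat_lit 134506953866921394030) (ZL.cons (nat_lit 1672) (nat_lit 6) (nat_lit 129268652464663894298) (ZL.cons (nat_lit 1748) (nat_lit 3) (nat_lit 64085420303988627302)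 (ZL.cons (nat_lit 1824) (nat_lit 6) (nat_lit 125297036714568878594) (ZL.cons (nat_lit 1900) (nat_lit 6) (nat_lit 123244605852067769606) (ZL.cons (nat_lit 1976) (nat_lit 3) (nat_lit 60160248104228468906) (ZL.cons (nat_lit 2052) (nat_lit 6) (nat_lit 120866302723336155254) (ZL.cons (nat_lit 2128) (nat_lit 6) (nat_lit 122514401091091009652) (ZL.cons (nat_lit 2204) (nat_lit 6) (nat_lit 119631866745272970840) (ZL.cons (nat_lit 2280) (nat_lit 3) (nat_lit 59338623869729250773) (ZL.cons (nat_lit 2356) (nat_lit 6) (nat_lit 116088455254600033884) (ZL.cons (nat_lit 2432) (nat_lit 6) (nat_lit 117261939261590351380) (ZL.cons (nat_lit 2508) (nat_lit 6) (nat_lit 115477216772458952262) (ZL.cons (nat_lit 2584) (nat_lit 3) (nat_lit 56477113078714884825) (ZL.cons (nat_lit 2660) (nat_lit 6) (nat_lit 113581903649540869704) (ZL.cons (nat_lit 2736) (nat_lit 3) (nat_lit 56375900083111969940) (ZL.cons (nat_lit 2812)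 (nat_lit 6) (nat_lit 111402293558185074764) (ZL.cons (nat_lit 2888) (nat_lit 1) (nat_lit 18446744073709551617) ZL.nil))))))))))))))))))))))))))))))))))))))

noncomputable def vl : XL := ⟨(nat_lit 0), (nat_lit 76), (nat_lit 151173105), (nat_lit 228), (nat_lit 116940868), (nat_lit 76), (nat_lit 151173105), (nat_lit 1), (nat_lit 5), (nat_lit 3), (nat_lit 4), (nat_lit 1), (nat_lit 4), (nat_lit 0), (nat_lit 0), (nat_lit 0)⟩

noncomputable def cp0 : Nat := (nat_lit 12044047667395442204730407820955512321952612908096704930360181207414450757024574345177278925434372463159745250026232000773863008978743070190027717505246787798582655178249441369110014286833203475112563025210694251411938646505105302590872791176184179642343097445474953510119522559354709519092667648440672776968730900008523938106854851896041319439821003325751105276319919666442530507048778899765499729904387423895686856646725267062841046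02577113335801623714853370750181651698398210130982948493145510306040662983530527195903021812887090951246647077718921504887126763008722852200791125978231653318637838744600127387628960618331516571773275032845785433152230842528415787377647357032680137491412311835830675775058205583067174160305012752656729010226802751197535119115486722018083064830805861634541542366427978003463230723544058759442182665850308135753822843088234359196226571740476000896322371584)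

noncomputable def cp1 : Nat := (nat_lit 21414961562975336895955659763005834908778428578399551953420935371157715784546060288070595830307323355451488392067489123996216261573742987888104594715610110081550764691520080231815104595936442608319804567703446347880956418782399978219918232429252584006759176159914118999539451126006916738243664617713325334055937765105774818345369832183273485419220058917757430444374117580981387941090471743440837419544811012433420742550173069735934054788918394731450549027810008876165089130461661399867670088626007445069351747157184303868078988686545688550663900892564290203146448514619323665300617195407748751020870531084961529630281965874744563831993040274005884367275767664156522829826091663001911287626025817615073020975350152918958429305409494704255314121184945153416369644685379399718331159638793625918721668596040616619485512896367458400402740090887279616596993832188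396964123565329608703122439270146925535770480373576291735332867350872733349480487341337380221810302257426785954868164604770789083573617717922164319977836992016942848510893597747984297847287080056543822105763363780561378144630020903372413847681729590912005509058167404041786468072223167810585389232321936055438003240986327254577850859873532655874690482361295789037088373343255657712572969765114917049432187398449470217684202959856187378759102300699880331250984111287130397728200814813408337836343011373546100508501981194424590895183539914469935843355592664378082644320049195494879770107744844835061875234507681905195738587183203788871403445296054356155324260411043468086068037522684193274024386193696569924327512659389490213537377739721635741700887523096040862488769492298303322705777683503259194701236160652017227810695064226918406399890374493165055854306651595076981976927850379922927849074812314401573301336528849553766355958131951723554962640498935974039278231924869181573372146694061651221071515950537730898752415969388380672407924450462536512981136937311784801129235758587744651660610124058523024228352)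

noncomputable def rc0 : Nat := (nat_lit 21414961562975336895955659763005834908778428578399551953420935371157715784546060288070595830307323355451488392067489123996216261573742987888104594715610110081550764691520080231815104595936442608319804567703446347880956418782399978219918232429252584006759176159914118999539451126006916738243664617713325334055937765105774818345369832183273485419220058917757430444374117580981387941090471743440837419544811012433420742550173069735934054788918394731450549027810008876165089130461661399867670088626007445069351747157184303868078988686545688550663900892564290203146448514619323665300617195407748751020870531084961529630281965874744563831993040274005884367275767664156522829826091663001911287626025817615073020975350152918958429305409494704255314121184945153416369644685379399718331159638793625918721668596040616619485512896367458400402740090887279616596993832188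396964123565329608703122439270146925535770480373576291735332867350872733349480487341337380221810302257426785954868164604770789083573617717922164319977836992016942848510893597747984297847287080056543822105763363780561378144630020903372413847681729590912005509058167404041786468072223167810585389232321936055438003240986327254577850859873532655874690482361295789037088373343255657712572969765114917049432187398449470217684202959856187378759102300699880331250984111287130397728200814813408337836343011373546100508501981194424590895183539914469935843355592664378082644320049195494879770107744844835061875234507681905195738587183203788871403445296054356155324260411043468086068037522684193274024386193696569924327512659389490213537377739721635741700887523096040862488769492298303322705777683503259194701236160652017227810695064226918406399890374493165055854306651595076981976927850379922927849074812314401573301336528849553766355958131951723554962640498935974039278231924869181573372146694061651221071515950537730898752415969388380672407924450462536512981136937311784801129235758587744651660610124058523024228352)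

end Vale.Agent.Lib.P154.PChain.BG.S1
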