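import Vale.Agent.Lib.P154.PChain.BG.R1_0

set_option linter.all false

namespace Vale.Agent.Lib.P154.PChain.BG.S2

open Vale.Agent.Lib.P154.Chain

noncomputable def pc0 : PT := (PT.nd (nat_lit 7769346) (PT.nd (nat_lit 7450950) (PT.nd (nat_lit 7291752) (PT.nd (nat_lit 7238634) (PT.nd (nat_lit 7185594) (PT.nd (nat_lit 7185516) PT.nil (PT.lf (nat_lit 76) (nat_lit 6) (nat_lit 1) (nat_lit 3) (nat_lit 187) (nat_lit 135) (nat_lit 188))) (PT.nd (nat_lit 52962) (PT.lf (nat_lit 76) (nat_lit 6) (nat_lit 1) (nat_lit 1) (nat_lit 188) (nat_lit 135) (nat_lit 187)) (PT.lf (nat_lit 152) (nat_lit 6) (nat_lit 2) (nat_lit 3) (nat_lit 186) (nat_lit 136) (nat_lit 188)))) (PT.nd (nat_lit 78) (PT.lf (nat_lit 228) (nat_lit 3) (nat_lit 3) (nat_lit 1) (nat_lit 187) (nat_lit 136) (nat_lit 187)) (PT.nd (nat_lit 52962) (PT.lf (nat_lit 152) (nat_lit 6) (nat_lit 2) (nat_lit 1) (nat_lit 188) (nat_lit 136) (nat_lit 186))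 (PT.lf (nat_lit 304) (nat_lit 6) (nat_lit 4) (nat_lit 3) (nat_lit 186) (nat_lit 137) (nat_lit 187))))) (PT.nd (nat_lit 53118) (PT.nd (nat_lit 52962) (PT.lf (nat_lit 304) (nat_lit 6) (nat_lit 4) (nat_lit 1) (nat_lit 187) (nat_lit 137) (nat_lit 186)) (PT.nd (nat_lit 78) (PT.lf (nat_lit 380) (nat_lit 6) (nat_lit 5) (nat_lit 3) (nat_lit 185) (nat_lit 138) (nat_lit 187)) (PT.lf (nat_lit 456) (nat_lit 3) (nat_lit 6) (nat_lit 1) (nat_lit 186) (nat_lit 138) (nat_lit 186)))) (PT.nd (nat_lit 53040) (PT.nd (nat_lit 52962) (PT.lf (nat_lit 380) (nat_lit 6) (nat_lit 5) (nat_lit 1) (nat_lit 187) (nat_lit 138) (nat_lit 185)) (PT.lf (nat_lit 532) (nat_lit 6) (nat_lit 7) (nat_lit 3) (nat_lit 185) (nat_lit 139) (nat_lit 186))) (PT.nd (nat_lit 52962) (PT.lf (nat_lit 532) (nat_lit 6) (nat_lit 7) (nat_lit 1) (nat_lit 186) (nat_lit 139) (nat_lit 185)) (PT.lf (nat_lit 608) (nat_lit 6) (nat_lit 8) (nat_lit 3)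 (nat_lit 184) (nat_lit 140) (nat_lit 186)))))) (PT.nd (nat_lit 159198) (PT.nd (nat_lit 53118) (PT.nd (nat_lit 78) (PT.lf (nat_lit 684) (nat_lit 3) (nat_lit 9) (nat_lit 1) (nat_lit 185) (nat_lit 140) (nat_lit 185)) (PT.nd (nat_lit 52962) (PT.lf (nat_lit 608) (nat_lit 6) (nat_lit 8) (nat_lit 1) (nat_lit 186) (nat_lit 140) (nat_lit 184)) (PT.lf (nat_lit 760) (nat_lit 6) (nat_lit 10) (nat_lit 3) (nat_lit 184) (nat_lit 141) (nat_lit 185)))) (PT.nd (nat_lit 53040) (PT.nd (nat_lit 52962) (PT.lf (nat_lit 760) (nat_lit 6) (nat_lit 10) (nat_lit 1) (nat_lit 185) (nat_lit 141) (nat_lit 184)) (PT.lf (nat_lit 836) (nat_lit 6) (nat_lit 11) (nat_lit 3) (nat_lit 183) (nat_lit 142) (nat_lit 185))) (PT.nd (nat_lit 78) (PT.lf (nat_lit 912) (nat_lit 3) (nat_lit 12) (nat_lit 1) (nat_lit 184) (nat_lit 142) (nat_lit 184)) (PT.lf (nat_lit 836) (nat_lit 6) (nat_lit 11) (nat_lit 1) (nat_lit 185) (nat_lit 142) (nat_lit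 183))))) (PT.nd (nat_lit 53118) (PT.nd (nat_lit 78) (PT.lf (nat_lit 988) (nat_lit 6) (nat_lit 13) (nat_lit 3) (nat_lit 183) (nat_lit 143) (nat_lit 184)) (PT.nd (nat_lit 52962) (PT.lf (nat_lit 988) (nat_lit 6) (nat_lit 13) (nat_lit 1) (nat_lit 184) (nat_lit 143) (nat_lit 183)) (PT.lf (nat_lit 1064) (nat_lit 6) (nat_lit 14) (nat_lit 3) (nat_lit 182) (nat_lit 144) (nat_lit 184)))) (PT.nd (nat_lit 53040) (PT.nd (nat_lit 78) (PT.lf (nat_lit 1140) (nat_lit 3) (nat_lit 15) (nat_lit 1) (nat_lit 183) (nat_lit 144) (nat_lit 183)) (PT.lf (nat_lit 1064) (nat_lit 6) (nat_lit 14) (nat_lit 1) (nat_lit 184) (nat_lit 144) (nat_lit 182))) (PT.nd (nat_lit 78) (PT.lf (nat_lit 1216) (nat_lit 6) (nat_lit 16) (nat_lit 3) (nat_lit 182) (nat_lit 145) (nat_lit 183)) (PT.lf (nat_lit 1216) (nat_lit 6) (nat_lit 16) (nat_lit 1) (nat_lit 183) (nat_lit 145) (nat_lit 182))))))) (PT.nd (nat_lit 265434) (PT.nd (nat_lit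 106314) (PT.nd (nat_lit 53118) (PT.nd (nat_lit 78) (PT.lf (nat_lit 1292) (nat_lit 6) (nat_lit 17) (nat_lit 3) (nat_lit 181) (nat_lit 146) (nat_lit 183)) (PT.nd (nat_lit 78) (PT.lf (nat_lit 1368) (nat_lit 3) (nat_lit 18) (nat_lit 1) (nat_lit 182) (nat_lit 146) (nat_lit 182)) (PT.lf (nat_lit 1292) (nat_lit 6) (nat_lit 17) (nat_lit 1) (nat_lit 183) (nat_lit 146) (nat_lit 181)))) (PT.nd (nat_lit 53040) (PT.nd (nat_lit 78) (PT.lf (nat_lit 1444) (nat_lit 6) (nat_lit 19) (nat_lit 3) (nat_lit 181) (nat_lit 147) (nat_lit 182)) (PT.lf (nat_lit 1444) (nat_lit 6) (nat_lit 19) (nat_lit 1) (nat_lit 182) (nat_lit 147) (nat_lit 181))) (PT.nd (nat_lit 78) (PT.lf (nat_lit 1520) (nat_lit 6) (nat_lit 20) (nat_lit 3) (nat_lit 180) (nat_lit 148) (nat_lit 182)) (PT.lf (nat_lit 1596) (nat_lit 3) (nat_lit 21) (nat_lit 1) (nat_lit 181) (nat_lit 148) (nat_lit 181))))) (PT.nd (nat_lit 106002) (PT.nd (nat_lit 52962)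 (PT.lf (nat_lit 1520) (nat_lit 6) (nat_lit 20) (nat_lit 1) (nat_lit 182) (nat_lit 148) (nat_lit 180)) (PT.nd (nat_lit 78) (PT.lf (nat_lit 1672) (nat_lit 6) (nat_lit 22) (nat_lit 3) (nat_lit 180) (nat_lit 149) (nat_lit 181)) (PT.lf (nat_lit 1672) (nat_lit 6) (nat_lit 22) (nat_lit 1) (nat_lit 181) (nat_lit 149) (nat_lit 180)))) (PT.nd (nat_lit 156) (PT.nd (nat_lit 78) (PT.lf (nat_lit 1748) (nat_lit 6) (nat_lit 23) (nat_lit 3) (nat_lit 179) (nat_lit 150) (nat_lit 181)) (PT.lf (nat_lit 1824) (nat_lit 3) (nat_lit 24) (nat_lit 1) (nat_lit 180) (nat_lit 150) (nat_lit 180))) (PT.nd (nat_lit 52884) (PT.lf (nat_lit 1748) (nat_lit 6) (nat_lit 23) (nat_lit 1) (nat_lit 181) (nat_lit 150) (nat_lit 179)) (PT.lf (nat_lit 1900) (nat_lit 6) (nat_lit 25) (nat_lit 3) (nat_lit 178) (nat_lit 151) (nat_lit 181)))))) (PT.nd (nat_lit 106158) (PT.nd (nat_lit 53040) (PT.nd (nat_lit 78) (PT.lf (nat_lit 1976) (nat_lit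 6) (nat_lit 26) (nat_lit 3) (nat_lit 179) (nat_lit 151) (nat_lit 180)) (PT.nd (nat_lit 78) (PT.lf (nat_lit 1976) (nat_lit 6) (nat_lit 26) (nat_lit 1) (nat_lit 180) (nat_lit 151) (nat_lit 179)) (PT.lf (nat_lit 1900) (nat_lit 6) (nat_lit 25) (nat_lit 1) (nat_lit 181) (nat_lit 151) (nat_lit 178)))) (PT.nd (nat_lit 156) (PT.nd (nat_lit 78) (PT.lf (nat_lit 2052) (nat_lit 6) (nat_lit 27) (nat_lit 3) (nat_lit 178) (nat_lit 152) (nat_lit 180)) (PT.lf (nat_lit 2128) (nat_lit 3) (nat_lit 28) (nat_lit 1) (nat_lit 179) (nat_lit 152) (nat_lit 179))) (PT.nd (nat_lit 52884) (PT.lf (nat_lit 2052) (nat_lit 6) (nat_lit 27) (nat_lit 1) (nat_lit 180) (nat_lit 152) (nat_lit 178)) (PT.lf (nat_lit 2204) (nat_lit 6) (nat_lit 29) (nat_lit 3) (nat_lit 177) (nat_lit 153) (nat_lit 180))))) (PT.nd (nat_lit 53040) (PT.nd (nat_lit 78) (PT.lf (nat_lit 2280) (nat_lit 6) (nat_lit 30) (nat_lit 3) (nat_lit 178) (nat_lit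 153) (nat_lit 179)) (PT.nd (nat_lit 78) (PT.lf (nat_lit 2280) (nat_lit 6) (nat_lit 30) (nat_lit 1) (nat_lit 179) (nat_lit 153) (nat_lit 178)) (PT.lf (nat_lit 2204) (nat_lit 6) (nat_lit 29) (nat_lit 1) (nat_lit 180) (nat_lit 153) (nat_lit 177)))) (PT.nd (nat_lit 156) (PT.nd (nat_lit 78) (PT.lf (nat_lit 2356) (nat_lit 6) (nat_lit 31) (nat_lit 3) (nat_lit 177) (nat_lit 154) (nat_lit 179)) (PT.lf (nat_lit 2432) (nat_lit 3) (nat_lit 32) (nat_lit 1) (nat_lit 178) (nat_lit 154) (nat_lit 178))) (PT.nd (nat_lit 52884) (PT.lf (nat_lit 2356) (nat_lit 6) (nat_lit 31) (nat_lit 1) (nat_lit 179) (nat_lit 154) (nat_lit 177)) (PT.lf (nat_lit 2508) (nat_lit 6) (nat_lit 33) (nat_lit 3) (nat_lit 176) (nat_lit 155) (nat_lit 179))))))))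
noncomputable def pc1 : PT := (PT.nd (nat_lit 318318) (PT.nd (nat_lit 159276) (PT.nd (nat_lit 53274) (PT.nd (nat_lit 52962) (PT.nd (nat_lit 78) (PT.lf (nat_lit 2584) (nat_lit 6) (nat_lit 34) (nat_lit 3) (nat_lit 177) (nat_lit 155) (nat_lit 178)) (PT.nd (nat_lit 78) (PT.lf (nat_lit 2584) (nat_lit 6) (nat_lit 34) (nat_lit 1) (nat_lit 178) (nat_lit 155) (nat_lit 177)) (PT.lf (nat_lit 2508) (nat_lit 6) (nat_lit 33) (nat_lit 1) (nat_lit 179) (nat_lit 155) (nat_lit 176)))) (PT.nd (nat_lit 156) (PT.nd (nat_lit 78) (PT.lf (nat_lit 2660) (nat_lit 6) (nat_lit 35) (nat_lit 3) (nat_lit 175) (nat_lit 156) (nat_lit 179)) (PT.lf (nat_lit 2736) (nat_lit 6) (nat_lit 36) (nat_lit 3) (nat_lit 176) (nat_lit 156) (nat_lit 178))) (PT.nd (nat_lit 78) (PT.lf (nat_lit 2812) (nat_lit 3) (nat_lit 37) (nat_lit 1) (nat_lit 177) (nat_lit 156) (nat_lit 177)) (PT.lf (nat_lit 2736) (nat_lit 6) (nat_lit 36) (nat_lit 1)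 (nat_lit 178) (nat_lit 156) (nat_lit 176))))) (PT.nd (nat_lit 52962) (PT.nd (nat_lit 52806) (PT.lf (nat_lit 2660) (nat_lit 6) (nat_lit 35) (nat_lit 1) (nat_lit 179) (nat_lit 156) (nat_lit 175)) (PT.nd (nat_lit 78) (PT.lf (nat_lit 2888) (nat_lit 6) (nat_lit 38) (nat_lit 3) (nat_lit 175) (nat_lit 157) (nat_lit 178)) (PT.lf (nat_lit 2964) (nat_lit 6) (nat_lit 39) (nat_lit 3) (nat_lit 176) (nat_lit 157) (nat_lit 177)))) (PT.nd (nat_lit 52884) (PT.nd (nat_lit 78) (PT.lf (nat_lit 2964) (nat_lit 6) (nat_lit 39) (nat_lit 1) (nat_lit 177) (nat_lit 157) (nat_lit 176)) (PT.lf (nat_lit 2888) (nat_lit 6) (nat_lit 38) (nat_lit 1) (nat_lit 178) (nat_lit 157) (nat_lit 175))) (PT.nd (nat_lit 78) (PT.lf (nat_lit 3040) (nat_lit 6) (nat_lit 40) (nat_lit 3) (nat_lit 174) (nat_lit 158) (nat_lit 178)) (PT.lf (nat_lit 3116) (nat_lit 6) (nat_lit 41) (nat_lit 3) (nat_lit 175) (nat_lit 158) (nat_lit 177)))))) (PT.nd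 (nat_lit 53196) (PT.nd (nat_lit 52884) (PT.nd (nat_lit 78) (PT.lf (nat_lit 3192) (nat_lit 3) (nat_lit 42) (nat_lit 1) (nat_lit 176) (nat_lit 158) (nat_lit 176)) (PT.nd (nat_lit 78) (PT.lf (nat_lit 3116) (nat_lit 6) (nat_lit 41) (nat_lit 1) (nat_lit 177) (nat_lit 158) (nat_lit 175)) (PT.lf (nat_lit 3040) (nat_lit 6) (nat_lit 40) (nat_lit 1) (nat_lit 178) (nat_lit 158) (nat_lit 174)))) (PT.nd (nat_lit 156) (PT.nd (nat_lit 78) (PT.lf (nat_lit 3268) (nat_lit 6) (nat_lit 43) (nat_lit 3) (nat_lit 173) (nat_lit 159) (nat_lit 178)) (PT.lf (nat_lit 3344) (nat_lit 6) (nat_lit 44) (nat_lit 3) (nat_lit 174) (nat_lit 159) (nat_lit 177))) (PT.nd (nat_lit 78) (PT.lf (nat_lit 3420) (nat_lit 6) (nat_lit 45) (nat_lit 3) (nat_lit 175) (nat_lit 159) (nat_lit 176)) (PT.lf (nat_lit 3420) (nat_lit 6) (nat_lit 45) (nat_lit 1) (nat_lit 176) (nat_lit 159) (nat_lit 175))))) (PT.nd (nat_lit 52884) (PT.nd (nat_lit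 78) (PT.lf (nat_lit 3344) (nat_lit 6) (nat_lit 44) (nat_lit 1) (nat_lit 177) (nat_lit 159) (nat_lit 174)) (PT.nd (nat_lit 52728) (PT.lf (nat_lit 3268) (nat_lit 6) (nat_lit 43) (nat_lit 1) (nat_lit 178) (nat_lit 159) (nat_lit 173)) (PT.lf (nat_lit 3496) (nat_lit 6) (nat_lit 46) (nat_lit 3) (nat_lit 173) (nat_lit 160) (nat_lit 177)))) (PT.nd (nat_lit 156) (PT.nd (nat_lit 78) (PT.lf (nat_lit 3572) (nat_lit 6) (nat_lit 47) (nat_lit 3) (nat_lit 174) (nat_lit 160) (nat_lit 176)) (PT.lf (nat_lit 3648) (nat_lit 3) (nat_lit 48) (nat_lit 1) (nat_lit 175) (nat_lit 160) (nat_lit 175))) (PT.nd (nat_lit 78) (PT.lf (nat_lit 3572) (nat_lit 6) (nat_lit 47) (nat_lit 1) (nat_lit 176) (nat_lit 160) (nat_lit 174)) (PT.lf (nat_lit 3496) (nat_lit 6) (nat_lit 46) (nat_lit 1) (nat_lit 177) (nat_lit 160) (nat_lit 173))))))) (PT.nd (nat_lit 106158) (PT.nd (nat_lit 53118) (PT.nd (nat_lit 234) (PT.nd (nat_lit 78)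 (PT.lf (nat_lit 3724) (nat_lit 6) (nat_lit 49) (nat_lit 3) (nat_lit 172) (nat_lit 161) (nat_lit 177)) (PT.nd (nat_lit 78) (PT.lf (nat_lit 3800) (nat_lit 6) (nat_lit 50) (nat_lit 3) (nat_lit 173) (nat_lit 161) (nat_lit 176)) (PT.lf (nat_lit 3876) (nat_lit 6) (nat_lit 51) (nat_lit 3) (nat_lit 174) (nat_lit 161) (nat_lit 175)))) (PT.nd (nat_lit 156) (PT.nd (nat_lit 78) (PT.lf (nat_lit 3876) (nat_lit 6) (nat_lit 51) (nat_lit 1) (nat_lit 175) (nat_lit 161) (nat_lit 174)) (PT.lf (nat_lit 3800) (nat_lit 6) (nat_lit 50) (nat_lit 1) (nat_lit 176) (nat_lit 161) (nat_lit 173))) (PT.nd (nat_lit 52650) (PT.lf (nat_lit 3724) (nat_lit 6) (nat_lit 49) (nat_lit 1) (nat_lit 177) (nat_lit 161) (nat_lit 172)) (PT.lf (nat_lit 3952) (nat_lit 6) (nat_lit 52) (nat_lit 3) (nat_lit 171) (nat_lit 162) (nat_lit 177))))) (PT.nd (nat_lit 234) (PT.nd (nat_lit 78) (PT.lf (nat_lit 4028) (nat_lit 6) (nat_lit 53) (nat_lit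 3) (nat_lit 172) (nat_lit 162) (nat_lit 176)) (PT.nd (nat_lit 78) (PT.lf (nat_lit 4104) (nat_lit 6) (nat_lit 54) (nat_lit 3) (nat_lit 173) (nat_lit 162) (nat_lit 175)) (PT.lf (nat_lit 4180) (nat_lit 3) (nat_lit 55) (nat_lit 1) (nat_lit 174) (nat_lit 162) (nat_lit 174)))) (PT.nd (nat_lit 156) (PT.nd (nat_lit 78) (PT.lf (nat_lit 4104) (nat_lit 6) (nat_lit 54) (nat_lit 1) (nat_lit 175) (nat_lit 162) (nat_lit 173)) (PT.lf (nat_lit 4028) (nat_lit 6) (nat_lit 53) (nat_lit 1) (nat_lit 176) (nat_lit 162) (nat_lit 172))) (PT.nd (nat_lit 52572) (PT.lf (nat_lit 3952) (nat_lit 6) (nat_lit 52) (nat_lit 1) (nat_lit 177) (nat_lit 162) (nat_lit 171)) (PT.lf (nat_lit 4332) (nat_lit 6) (nat_lit 57) (nat_lit 3) (nat_lit 170) (nat_lit 163) (nat_lit 177)))))) (PT.nd (nat_lit 52962) (PT.nd (nat_lit 234) (PT.nd (nat_lit 78) (PT.lf (nat_lit 4408) (nat_lit 6) (nat_lit 58) (nat_lit 3) (nat_lit 171) (nat_lit 163)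 (nat_lit 176)) (PT.nd (nat_lit 78) (PT.lf (nat_lit 4484) (nat_lit 6) (nat_lit 59) (nat_lit 3) (nat_lit 172) (nat_lit 163) (nat_lit 175)) (PT.lf (nat_lit 4560) (nat_lit 6) (nat_lit 60) (nat_lit 3) (nat_lit 173) (nat_lit 163) (nat_lit 174)))) (PT.nd (nat_lit 156) (PT.nd (nat_lit 78) (PT.lf (nat_lit 4560) (nat_lit 6) (nat_lit 60) (nat_lit 1) (nat_lit 174) (nat_lit 163) (nat_lit 173)) (PT.lf (nat_lit 4484) (nat_lit 6) (nat_lit 59) (nat_lit 1) (nat_lit 175) (nat_lit 163) (nat_lit 172))) (PT.nd (nat_lit 78) (PT.lf (nat_lit 4408) (nat_lit 6) (nat_lit 58) (nat_lit 1) (nat_lit 176) (nat_lit 163) (nat_lit 171)) (PT.lf (nat_lit 4332) (nat_lit 6) (nat_lit 57) (nat_lit 1) (nat_lit 177) (nat_lit 163) (nat_lit 170))))) (PT.nd (nat_lit 234) (PT.nd (nat_lit 78) (PT.lf (nat_lit 4256) (nat_lit 6) (nat_lit 56) (nat_lit 3) (nat_lit 169) (nat_lit 164) (nat_lit 177)) (PT.nd (nat_lit 78) (PT.lf (nat_lit 4864)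 (nat_lit 6) (nat_lit 64) (nat_lit 3) (nat_lit 170) (nat_lit 164) (nat_lit 176)) (PT.lf (nat_lit 4940) (nat_lit 6) (nat_lit 65) (nat_lit 3) (nat_lit 171) (nat_lit 164) (nat_lit 175)))) (PT.nd (nat_lit 156) (PT.nd (nat_lit 78) (PT.lf (nat_lit 5016) (nat_lit 6) (nat_lit 66) (nat_lit 3) (nat_lit 172) (nat_lit 164) (nat_lit 174)) (PT.lf (nat_lit 5092) (nat_lit 3) (nat_lit 67) (nat_lit 1) (nat_lit 173) (nat_lit 164) (nat_lit 173))) (PT.nd (nat_lit 78) (PT.lf (nat_lit 5016) (nat_lit 6) (nat_lit 66) (nat_lit 1) (nat_lit 174) (nat_lit 164) (nat_lit 172)) (PT.lf (nat_lit 4940) (nat_lit 6) (nat_lit 65) (nat_lit 1) (nat_lit 175) (nat_lit 164) (nat_lit 171))))))))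
noncomputable def pc2 : PT := (PT.nd (nat_lit 159276) (PT.nd (nat_lit 105846) (PT.nd (nat_lit 52884) (PT.nd (nat_lit 52650) (PT.nd (nat_lit 78) (PT.lf (nat_lit 4864) (nat_lit 6) (nat_lit 64) (nat_lit 1) (nat_lit 176) (nat_lit 164) (nat_lit 170)) (PT.nd (nat_lit 52494) (PT.lf (nat_lit 4256) (nat_lit 6) (nat_lit 56) (nat_lit 1) (nat_lit 177) (nat_lit 164) (nat_lit 169)) (PT.lf (nat_lit 4788) (nat_lit 6) (nat_lit 63) (nat_lit 3) (nat_lit 169) (nat_lit 165) (nat_lit 176)))) (PT.nd (nat_lit 78) (PT.lf (nat_lit 5320) (nat_lit 6) (nat_lit 70) (nat_lit 3) (nat_lit 170) (nat_lit 165) (nat_lit 175)) (PT.nd (nat_lit 78) (PT.lf (nat_lit 5396) (nat_lit 6) (nat_lit 71) (nat_lit 3) (nat_lit 171) (nat_lit 165) (nat_lit 174)) (PT.lf (nat_lit 5472) (nat_lit 6) (nat_lit 72) (nat_lit 3) (nat_lit 172) (nat_lit 165) (nat_lit 173))))) (PT.nd (nat_lit 234) (PT.nd (nat_lit 78) (PT.lf (nat_lit 5472) (nat_lit 6)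 (nat_lit 72) (nat_lit 1) (nat_lit 173) (nat_lit 165) (nat_lit 172)) (PT.nd (nat_lit 78) (PT.lf (nat_lit 5396) (nat_lit 6) (nat_lit 71) (nat_lit 1) (nat_lit 174) (nat_lit 165) (nat_lit 171)) (PT.lf (nat_lit 5320) (nat_lit 6) (nat_lit 70) (nat_lit 1) (nat_lit 175) (nat_lit 165) (nat_lit 170)))) (PT.nd (nat_lit 52572) (PT.nd (nat_lit 52494) (PT.lf (nat_lit 4788) (nat_lit 6) (nat_lit 63) (nat_lit 1) (nat_lit 176) (nat_lit 165) (nat_lit 169)) (PT.lf (nat_lit 4712) (nat_lit 6) (nat_lit 62) (nat_lit 3) (nat_lit 168) (nat_lit 166) (nat_lit 176))) (PT.nd (nat_lit 78) (PT.lf (nat_lit 5244) (nat_lit 6) (nat_lit 69) (nat_lit 3) (nat_lit 169) (nat_lit 166) (nat_lit 175)) (PT.lf (nat_lit 5700) (nat_lit 6) (nat_lit 75) (nat_lit 3) (nat_lit 170) (nat_lit 166) (nat_lit 174)))))) (PT.nd (nat_lit 52884) (PT.nd (nat_lit 234) (PT.nd (nat_lit 78) (PT.lf (nat_lit 5776) (nat_lit 6) (nat_lit 76) (nat_lit 3) (nat_lit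 171) (nat_lit 166) (nat_lit 173)) (PT.nd (nat_lit 78) (PT.lf (nat_lit 5852) (nat_lit 3) (nat_lit 77) (nat_lit 1) (nat_lit 172) (nat_lit 166) (nat_lit 172)) (PT.lf (nat_lit 5776) (nat_lit 6) (nat_lit 76) (nat_lit 1) (nat_lit 173) (nat_lit 166) (nat_lit 171)))) (PT.nd (nat_lit 156) (PT.nd (nat_lit 78) (PT.lf (nat_lit 5700) (nat_lit 6) (nat_lit 75) (nat_lit 1) (nat_lit 174) (nat_lit 166) (nat_lit 170)) (PT.lf (nat_lit 5244) (nat_lit 6) (nat_lit 69) (nat_lit 1) (nat_lit 175) (nat_lit 166) (nat_lit 169))) (PT.nd (nat_lit 52416) (PT.lf (nat_lit 4712) (nat_lit 6) (nat_lit 62) (nat_lit 1) (nat_lit 176) (nat_lit 166) (nat_lit 168)) (PT.lf (nat_lit 4636) (nat_lit 3) (nat_lit 61) (nat_lit 3) (nat_lit 167) (nat_lit 167) (nat_lit 176))))) (PT.nd (nat_lit 234) (PT.nd (nat_lit 78) (PT.lf (nat_lit 5168) (nat_lit 6) (nat_lit 68) (nat_lit 3) (nat_lit 168) (nat_lit 167) (nat_lit 175)) (PT.nd (nat_lit 78)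 (PT.lf (nat_lit 5624) (nat_lit 6) (nat_lit 74) (nat_lit 3) (nat_lit 169) (nat_lit 167) (nat_lit 174)) (PT.lf (nat_lit 6004) (nat_lit 6) (nat_lit 79) (nat_lit 3) (nat_lit 170) (nat_lit 167) (nat_lit 173)))) (PT.nd (nat_lit 156) (PT.nd (nat_lit 78) (PT.lf (nat_lit 6080) (nat_lit 6) (nat_lit 80) (nat_lit 3) (nat_lit 171) (nat_lit 167) (nat_lit 172)) (PT.lf (nat_lit 6080) (nat_lit 6) (nat_lit 80) (nat_lit 1) (nat_lit 172) (nat_lit 167) (nat_lit 171))) (PT.nd (nat_lit 78) (PT.lf (nat_lit 6004) (nat_lit 6) (nat_lit 79) (nat_lit 1) (nat_lit 173) (nat_lit 167) (nat_lit 170)) (PT.lf (nat_lit 5624) (nat_lit 6) (nat_lit 74) (nat_lit 1) (nat_lit 174) (nat_lit 167) (nat_lit 169))))))) (PT.nd (nat_lit 105456) (PT.nd (nat_lit 52806) (PT.nd (nat_lit 52494) (PT.nd (nat_lit 78) (PT.lf (nat_lit 5168) (nat_lit 6) (nat_lit 68) (nat_lit 1) (nat_lit 175) (nat_lit 167) (nat_lit 168)) (PT.nd (nat_lit 52338) (PT.lf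 (nat_lit 4636) (nat_lit 3) (nat_lit 61) (nat_lit 0) (nat_lit 176) (nat_lit 167) (nat_lit 167)) (PT.lf (nat_lit 4712) (nat_lit 6) (nat_lit 62) (nat_lit 5) (nat_lit 166) (nat_lit 168) (nat_lit 176)))) (PT.nd (nat_lit 156) (PT.nd (nat_lit 78) (PT.lf (nat_lit 5168) (nat_lit 6) (nat_lit 68) (nat_lit 5) (nat_lit 167) (nat_lit 168) (nat_lit 175)) (PT.lf (nat_lit 5548) (nat_lit 3) (nat_lit 73) (nat_lit 3) (nat_lit 168) (nat_lit 168) (nat_lit 174))) (PT.nd (nat_lit 78) (PT.lf (nat_lit 5928) (nat_lit 6) (nat_lit 78) (nat_lit 3) (nat_lit 169) (nat_lit 168) (nat_lit 173)) (PT.lf (nat_lit 6232) (nat_lit 6) (nat_lit 82) (nat_lit 3) (nat_lit 170) (nat_lit 168) (nat_lit 172))))) (PT.nd (nat_lit 234) (PT.nd (nat_lit 78) (PT.lf (nat_lit 6308) (nat_lit 3) (nat_lit 83) (nat_lit 1) (nat_lit 171) (nat_lit 168) (nat_lit 171)) (PT.nd (nat_lit 78) (PT.lf (nat_lit 6232) (nat_lit 6) (nat_lit 82) (nat_lit 1) (nat_lit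 172) (nat_lit 168) (nat_lit 170)) (PT.lf (nat_lit 5928) (nat_lit 6) (nat_lit 78) (nat_lit 1) (nat_lit 173) (nat_lit 168) (nat_lit 169)))) (PT.nd (nat_lit 156) (PT.nd (nat_lit 78) (PT.lf (nat_lit 5548) (nat_lit 3) (nat_lit 73) (nat_lit 0) (nat_lit 174) (nat_lit 168) (nat_lit 168)) (PT.lf (nat_lit 5168) (nat_lit 6) (nat_lit 68) (nat_lit 0) (nat_lit 175) (nat_lit 168) (nat_lit 167))) (PT.nd (nat_lit 52182) (PT.lf (nat_lit 4712) (nat_lit 6) (nat_lit 62) (nat_lit 0) (nat_lit 176) (nat_lit 168) (nat_lit 166)) (PT.lf (nat_lit 4256) (nat_lit 6) (nat_lit 56) (nat_lit 5) (nat_lit 164) (nat_lit 169) (nat_lit 177)))))) (PT.nd (nat_lit 546) (PT.nd (nat_lit 234) (PT.nd (nat_lit 78) (PT.lf (nat_lit 4788) (nat_lit 6) (nat_lit 63) (nat_lit 5) (nat_lit 165) (nat_lit 169) (nat_lit 176)) (PT.nd (nat_lit 78) (PT.lf (nat_lit 5244) (nat_lit 6) (nat_lit 69) (nat_lit 5) (nat_lit 166) (nat_lit 169) (nat_lit 175))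 (PT.lf (nat_lit 5624) (nat_lit 6) (nat_lit 74) (nat_lit 5) (nat_lit 167) (nat_lit 169) (nat_lit 174)))) (PT.nd (nat_lit 156) (PT.nd (nat_lit 78) (PT.lf (nat_lit 5928) (nat_lit 6) (nat_lit 78) (nat_lit 5) (nat_lit 168) (nat_lit 169) (nat_lit 173)) (PT.lf (nat_lit 6156) (nat_lit 3) (nat_lit 81) (nat_lit 3) (nat_lit 169) (nat_lit 169) (nat_lit 172))) (PT.nd (nat_lit 78) (PT.lf (nat_lit 6384) (nat_lit 6) (nat_lit 84) (nat_lit 3) (nat_lit 170) (nat_lit 169) (nat_lit 171)) (PT.lf (nat_lit 6384) (nat_lit 6) (nat_lit 84) (nat_lit 1) (nat_lit 171) (nat_lit 169) (nat_lit 170))))) (PT.nd (nat_lit 234) (PT.nd (nat_lit 78) (PT.lf (nat_lit 6156) (nat_lit 3) (nat_lit 81) (nat_lit 0) (nat_lit 172) (nat_lit 169) (nat_lit 169)) (PT.nd (nat_lit 78) (PT.lf (nat_lit 5928) (nat_lit 6) (nat_lit 78) (nat_lit 0) (nat_lit 173) (nat_lit 169) (nat_lit 168)) (PT.lf (nat_lit 5624) (nat_lit 6) (nat_lit 74) (nat_lit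 0) (nat_lit 174) (nat_lit 169) (nat_lit 167)))) (PT.nd (nat_lit 156) (PT.nd (nat_lit 78) (PT.lf (nat_lit 5244) (nat_lit 6) (nat_lit 69) (nat_lit 0) (nat_lit 175) (nat_lit 169) (nat_lit 166)) (PT.lf (nat_lit 4788) (nat_lit 6) (nat_lit 63) (nat_lit 0) (nat_lit 176) (nat_lit 169) (nat_lit 165))) (PT.nd (nat_lit 52026) (PT.lf (nat_lit 4256) (nat_lit 6) (nat_lit 56) (nat_lit 0) (nat_lit 177) (nat_lit 169) (nat_lit 164)) (PT.lf (nat_lit 4332) (nat_lit 6) (nat_lit 57) (nat_lit 5) (nat_lit 163) (nat_lit 170) (nat_lit 177))))))))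
noncomputable def pc3 : PT := (PT.nd (nat_lit 54054) (PT.nd (nat_lit 52962) (PT.nd (nat_lit 546) (PT.nd (nat_lit 234) (PT.nd (nat_lit 78) (PT.lf (nat_lit 4864) (nat_lit 6) (nat_lit 64) (nat_lit 5) (nat_lit 164) (nat_lit 170) (nat_lit 176)) (PT.nd (nat_lit 78) (PT.lf (nat_lit 5320) (nat_lit 6) (nat_lit 70) (nat_lit 5) (nat_lit 165) (nat_lit 170) (nat_lit 175)) (PT.lf (nat_lit 5700) (nat_lit 6) (nat_lit 75) (nat_lit 5) (nat_lit 166) (nat_lit 170) (nat_lit 174)))) (PT.nd (nat_lit 156) (PT.nd (nat_lit 78) (PT.lf (nat_lit 6004) (nat_lit 6) (nat_lit 79) (nat_lit 5) (nat_lit 167) (nat_lit 170) (nat_lit 173)) (PT.lf (nat_lit 6232) (nat_lit 6) (nat_lit 82) (nat_lit 5) (nat_lit 168) (nat_lit 170) (nat_lit 172))) (PT.nd (nat_lit 78) (PT.lf (nat_lit 6384) (nat_lit 6) (nat_lit 84) (nat_lit 5) (nat_lit 169) (nat_lit 170) (nat_lit 171)) (PT.lf (nat_lit 6460) (nat_lit 1) (nat_lit 85) (nat_lit 0) (nat_lit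 170) (nat_lit 170) (nat_lit 170))))) (PT.nd (nat_lit 234) (PT.nd (nat_lit 78) (PT.lf (nat_lit 6384) (nat_lit 6) (nat_lit 84) (nat_lit 0) (nat_lit 171) (nat_lit 170) (nat_lit 169)) (PT.nd (nat_lit 78) (PT.lf (nat_lit 6232) (nat_lit 6) (nat_lit 82) (nat_lit 0) (nat_lit 172) (nat_lit 170) (nat_lit 168)) (PT.lf (nat_lit 6004) (nat_lit 6) (nat_lit 79) (nat_lit 0) (nat_lit 173) (nat_lit 170) (nat_lit 167)))) (PT.nd (nat_lit 156) (PT.nd (nat_lit 78) (PT.lf (nat_lit 5700) (nat_lit 6) (nat_lit 75) (nat_lit 0) (nat_lit 174) (nat_lit 170) (nat_lit 166)) (PT.lf (nat_lit 5320) (nat_lit 6) (nat_lit 70) (nat_lit 0) (nat_lit 175) (nat_lit 170) (nat_lit 165))) (PT.nd (nat_lit 78) (PT.lf (nat_lit 4864) (nat_lit 6) (nat_lit 64) (nat_lit 0) (nat_lit 176) (nat_lit 170) (nat_lit 164)) (PT.lf (nat_lit 4332) (nat_lit 6) (nat_lit 57) (nat_lit 0) (nat_lit 177) (nat_lit 170) (nat_lit 163)))))) (PT.nd (nat_lit 546)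 (PT.nd (nat_lit 234) (PT.nd (nat_lit 78) (PT.lf (nat_lit 3952) (nat_lit 6) (nat_lit 52) (nat_lit 5) (nat_lit 162) (nat_lit 171) (nat_lit 177)) (PT.nd (nat_lit 78) (PT.lf (nat_lit 4408) (nat_lit 6) (nat_lit 58) (nat_lit 5) (nat_lit 163) (nat_lit 171) (nat_lit 176)) (PT.lf (nat_lit 4940) (nat_lit 6) (nat_lit 65) (nat_lit 5) (nat_lit 164) (nat_lit 171) (nat_lit 175)))) (PT.nd (nat_lit 156) (PT.nd (nat_lit 78) (PT.lf (nat_lit 5396) (nat_lit 6) (nat_lit 71) (nat_lit 5) (nat_lit 165) (nat_lit 171) (nat_lit 174)) (PT.lf (nat_lit 5776) (nat_lit 6) (nat_lit 76) (nat_lit 5) (nat_lit 166) (nat_lit 171) (nat_lit 173))) (PT.nd (nat_lit 78) (PT.lf (nat_lit 6080) (nat_lit 6) (nat_lit 80) (nat_lit 5) (nat_lit 167) (nat_lit 171) (nat_lit 172)) (PT.lf (nat_lit 6308) (nat_lit 3) (nat_lit 83) (nat_lit 4) (nat_lit 168) (nat_lit 171) (nat_lit 171))))) (PT.nd (nat_lit 234) (PT.nd (nat_lit 78) (PT.lf (nat_lit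 6384) (nat_lit 6) (nat_lit 84) (nat_lit 4) (nat_lit 169) (nat_lit 171) (nat_lit 170)) (PT.nd (nat_lit 78) (PT.lf (nat_lit 6384) (nat_lit 6) (nat_lit 84) (nat_lit 2) (nat_lit 170) (nat_lit 171) (nat_lit 169)) (PT.lf (nat_lit 6308) (nat_lit 3) (nat_lit 83) (nat_lit 0) (nat_lit 171) (nat_lit 171) (nat_lit 168)))) (PT.nd (nat_lit 156) (PT.nd (nat_lit 78) (PT.lf (nat_lit 6080) (nat_lit 6) (nat_lit 80) (nat_lit 0) (nat_lit 172) (nat_lit 171) (nat_lit 167)) (PT.lf (nat_lit 5776) (nat_lit 6) (nat_lit 76) (nat_lit 0) (nat_lit 173) (nat_lit 171) (nat_lit 166))) (PT.nd (nat_lit 78) (PT.lf (nat_lit 5396) (nat_lit 6) (nat_lit 71) (nat_lit 0) (nat_lit 174) (nat_lit 171) (nat_lit 165)) (PT.lf (nat_lit 4940) (nat_lit 6) (nat_lit 65) (nat_lit 0) (nat_lit 175) (nat_lit 171) (nat_lit 164))))))) (PT.nd (nat_lit 52884) (PT.nd (nat_lit 52338) (PT.nd (nat_lit 52026) (PT.nd (nat_lit 78) (PT.lf (nat_lit 4408)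 (nat_lit 6) (nat_lit 58) (nat_lit 0) (nat_lit 176) (nat_lit 171) (nat_lit 163)) (PT.nd (nat_lit 51870) (PT.lf (nat_lit 3952) (nat_lit 6) (nat_lit 52) (nat_lit 0) (nat_lit 177) (nat_lit 171) (nat_lit 162)) (PT.lf (nat_lit 3724) (nat_lit 6) (nat_lit 49) (nat_lit 5) (nat_lit 161) (nat_lit 172) (nat_lit 177)))) (PT.nd (nat_lit 156) (PT.nd (nat_lit 78) (PT.lf (nat_lit 4028) (nat_lit 6) (nat_lit 53) (nat_lit 5) (nat_lit 162) (nat_lit 172) (nat_lit 176)) (PT.lf (nat_lit 4484) (nat_lit 6) (nat_lit 59) (nat_lit 5) (nat_lit 163) (nat_lit 172) (nat_lit 175))) (PT.nd (nat_lit 78) (PT.lf (nat_lit 5016) (nat_lit 6) (nat_lit 66) (nat_lit 5) (nat_lit 164) (nat_lit 172) (nat_lit 174)) (PT.lf (nat_lit 5472) (nat_lit 6) (nat_lit 72) (nat_lit 5) (nat_lit 165) (nat_lit 172) (nat_lit 173))))) (PT.nd (nat_lit 234) (PT.nd (nat_lit 78) (PT.lf (nat_lit 5852) (nat_lit 3) (nat_lit 77) (nat_lit 4) (nat_lit 166) (nat_lit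 172) (nat_lit 172)) (PT.nd (nat_lit 78) (PT.lf (nat_lit 6080) (nat_lit 6) (nat_lit 80) (nat_lit 4) (nat_lit 167) (nat_lit 172) (nat_lit 171)) (PT.lf (nat_lit 6232) (nat_lit 6) (nat_lit 82) (nat_lit 4) (nat_lit 168) (nat_lit 172) (nat_lit 170)))) (PT.nd (nat_lit 156) (PT.nd (nat_lit 78) (PT.lf (nat_lit 6156) (nat_lit 3) (nat_lit 81) (nat_lit 2) (nat_lit 169) (nat_lit 172) (nat_lit 169)) (PT.lf (nat_lit 6232) (nat_lit 6) (nat_lit 82) (nat_lit 2) (nat_lit 170) (nat_lit 172) (nat_lit 168))) (PT.nd (nat_lit 78) (PT.lf (nat_lit 6080) (nat_lit 6) (nat_lit 80) (nat_lit 2) (nat_lit 171) (nat_lit 172) (nat_lit 167)) (PT.lf (nat_lit 5852) (nat_lit 3) (nat_lit 77) (nat_lit 0) (nat_lit 172) (nat_lit 172) (nat_lit 166)))))) (PT.nd (nat_lit 52182) (PT.nd (nat_lit 234) (PT.nd (nat_lit 78) (PT.lf (nat_lit 5472) (nat_lit 6) (nat_lit 72) (nat_lit 0) (nat_lit 173) (nat_lit 172) (nat_lit 165)) (PT.nd (nat_lit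 78) (PT.lf (nat_lit 5016) (nat_lit 6) (nat_lit 66) (nat_lit 0) (nat_lit 174) (nat_lit 172) (nat_lit 164)) (PT.lf (nat_lit 4484) (nat_lit 6) (nat_lit 59) (nat_lit 0) (nat_lit 175) (nat_lit 172) (nat_lit 163)))) (PT.nd (nat_lit 51792) (PT.nd (nat_lit 78) (PT.lf (nat_lit 4028) (nat_lit 6) (nat_lit 53) (nat_lit 0) (nat_lit 176) (nat_lit 172) (nat_lit 162)) (PT.lf (nat_lit 3724) (nat_lit 6) (nat_lit 49) (nat_lit 0) (nat_lit 177) (nat_lit 172) (nat_lit 161))) (PT.nd (nat_lit 78) (PT.lf (nat_lit 3268) (nat_lit 6) (nat_lit 43) (nat_lit 5) (nat_lit 159) (nat_lit 173) (nat_lit 178)) (PT.lf (nat_lit 3496) (nat_lit 6) (nat_lit 46) (nat_lit 5) (nat_lit 160) (nat_lit 173) (nat_lit 177))))) (PT.nd (nat_lit 234) (PT.nd (nat_lit 78) (PT.lf (nat_lit 3800) (nat_lit 6) (nat_lit 50) (nat_lit 5) (nat_lit 161) (nat_lit 173) (nat_lit 176)) (PT.nd (nat_lit 78) (PT.lf (nat_lit 4104) (nat_lit 6) (nat_lit 54) (nat_lit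 5) (nat_lit 162) (nat_lit 173) (nat_lit 175)) (PT.lf (nat_lit 4560) (nat_lit 6) (nat_lit 60) (nat_lit 5) (nat_lit 163) (nat_lit 173) (nat_lit 174)))) (PT.nd (nat_lit 156) (PT.nd (nat_lit 78) (PT.lf (nat_lit 5092) (nat_lit 3) (nat_lit 67) (nat_lit 4) (nat_lit 164) (nat_lit 173) (nat_lit 173)) (PT.lf (nat_lit 5472) (nat_lit 6) (nat_lit 72) (nat_lit 4) (nat_lit 165) (nat_lit 173) (nat_lit 172))) (PT.nd (nat_lit 78) (PT.lf (nat_lit 5776) (nat_lit 6) (nat_lit 76) (nat_lit 4) (nat_lit 166) (nat_lit 173) (nat_lit 171)) (PT.lf (nat_lit 6004) (nat_lit 6) (nat_lit 79) (nat_lit 4) (nat_lit 167) (nat_lit 173) (nat_lit 170))))))))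
noncomputable def pc4 : PT := (PT.nd (nat_lit 53586) (PT.nd (nat_lit 52494) (PT.nd (nat_lit 468) (PT.nd (nat_lit 234) (PT.nd (nat_lit 78) (PT.lf (nat_lit 5928) (nat_lit 6) (nat_lit 78) (nat_lit 4) (nat_lit 168) (nat_lit 173) (nat_lit 169)) (PT.nd (nat_lit 78) (PT.lf (nat_lit 5928) (nat_lit 6) (nat_lit 78) (nat_lit 2) (nat_lit 169) (nat_lit 173) (nat_lit 168)) (PT.lf (nat_lit 6004) (nat_lit 6) (nat_lit 79) (nat_lit 2) (nat_lit 170) (nat_lit 173) (nat_lit 167)))) (PT.nd (nat_lit 78) (PT.lf (nat_lit 5776) (nat_lit 6) (nat_lit 76) (nat_lit 2) (nat_lit 171) (nat_lit 173) (nat_lit 166)) (PT.nd (nat_lit 78) (PT.lf (nat_lit 5472) (nat_lit 6) (nat_lit 72) (nat_lit 2) (nat_lit 172) (nat_lit 173) (nat_lit 165)) (PT.lf (nat_lit 5092) (nat_lit 3) (nat_lit 67) (nat_lit 0) (nat_lit 173) (nat_lit 173) (nat_lit 164))))) (PT.nd (nat_lit 234) (PT.nd (nat_lit 78) (PT.lf (nat_lit 4560) (nat_lit 6) (nat_lit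 60) (nat_lit 0) (nat_lit 174) (nat_lit 173) (nat_lit 163)) (PT.nd (nat_lit 78) (PT.lf (nat_lit 4104) (nat_lit 6) (nat_lit 54) (nat_lit 0) (nat_lit 175) (nat_lit 173) (nat_lit 162)) (PT.lf (nat_lit 3800) (nat_lit 6) (nat_lit 50) (nat_lit 0) (nat_lit 176) (nat_lit 173) (nat_lit 161)))) (PT.nd (nat_lit 51636) (PT.nd (nat_lit 78) (PT.lf (nat_lit 3496) (nat_lit 6) (nat_lit 46) (nat_lit 0) (nat_lit 177) (nat_lit 173) (nat_lit 160)) (PT.lf (nat_lit 3268) (nat_lit 6) (nat_lit 43) (nat_lit 0) (nat_lit 178) (nat_lit 173) (nat_lit 159))) (PT.nd (nat_lit 78) (PT.lf (nat_lit 3040) (nat_lit 6) (nat_lit 40) (nat_lit 5) (nat_lit 158) (nat_lit 174) (nat_lit 178)) (PT.lf (nat_lit 3344) (nat_lit 6) (nat_lit 44) (nat_lit 5) (nat_lit 159) (nat_lit 174) (nat_lit 177)))))) (PT.nd (nat_lit 546) (PT.nd (nat_lit 234) (PT.nd (nat_lit 78) (PT.lf (nat_lit 3572) (nat_lit 6) (nat_lit 47) (nat_lit 5) (nat_lit 160) (nat_lit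 174) (nat_lit 176)) (PT.nd (nat_lit 78) (PT.lf (nat_lit 3876) (nat_lit 6) (nat_lit 51) (nat_lit 5) (nat_lit 161) (nat_lit 174) (nat_lit 175)) (PT.lf (nat_lit 4180) (nat_lit 3) (nat_lit 55) (nat_lit 4) (nat_lit 162) (nat_lit 174) (nat_lit 174)))) (PT.nd (nat_lit 156) (PT.nd (nat_lit 78) (PT.lf (nat_lit 4560) (nat_lit 6) (nat_lit 60) (nat_lit 4) (nat_lit 163) (nat_lit 174) (nat_lit 173)) (PT.lf (nat_lit 5016) (nat_lit 6) (nat_lit 66) (nat_lit 4) (nat_lit 164) (nat_lit 174) (nat_lit 172))) (PT.nd (nat_lit 78) (PT.lf (nat_lit 5396) (nat_lit 6) (nat_lit 71) (nat_lit 4) (nat_lit 165) (nat_lit 174) (nat_lit 171)) (PT.lf (nat_lit 5700) (nat_lit 6) (nat_lit 75) (nat_lit 4) (nat_lit 166) (nat_lit 174) (nat_lit 170))))) (PT.nd (nat_lit 234) (PT.nd (nat_lit 78) (PT.lf (nat_lit 5624) (nat_lit 6) (nat_lit 74) (nat_lit 4) (nat_lit 167) (nat_lit 174) (nat_lit 169)) (PT.nd (nat_lit 78) (PT.lf (nat_lit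 5548) (nat_lit 3) (nat_lit 73) (nat_lit 2) (nat_lit 168) (nat_lit 174) (nat_lit 168)) (PT.lf (nat_lit 5624) (nat_lit 6) (nat_lit 74) (nat_lit 2) (nat_lit 169) (nat_lit 174) (nat_lit 167)))) (PT.nd (nat_lit 156) (PT.nd (nat_lit 78) (PT.lf (nat_lit 5700) (nat_lit 6) (nat_lit 75) (nat_lit 2) (nat_lit 170) (nat_lit 174) (nat_lit 166)) (PT.lf (nat_lit 5396) (nat_lit 6) (nat_lit 71) (nat_lit 2) (nat_lit 171) (nat_lit 174) (nat_lit 165))) (PT.nd (nat_lit 78) (PT.lf (nat_lit 5016) (nat_lit 6) (nat_lit 66) (nat_lit 2) (nat_lit 172) (nat_lit 174) (nat_lit 164)) (PT.lf (nat_lit 4560) (nat_lit 6) (nat_lit 60) (nat_lit 2) (nat_lit 173) (nat_lit 174) (nat_lit 163))))))) (PT.nd (nat_lit 52416) (PT.nd (nat_lit 51870) (PT.nd (nat_lit 234) (PT.nd (nat_lit 78) (PT.lf (nat_lit 4180) (nat_lit 3) (nat_lit 55) (nat_lit 0) (nat_lit 174) (nat_lit 174) (nat_lit 162)) (PT.nd (nat_lit 78) (PT.lf (nat_lit 3876) (nat_lit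 6) (nat_lit 51) (nat_lit 0) (nat_lit 175) (nat_lit 174) (nat_lit 161)) (PT.lf (nat_lit 3572) (nat_lit 6) (nat_lit 47) (nat_lit 0) (nat_lit 176) (nat_lit 174) (nat_lit 160)))) (PT.nd (nat_lit 51480) (PT.nd (nat_lit 78) (PT.lf (nat_lit 3344) (nat_lit 6) (nat_lit 44) (nat_lit 0) (nat_lit 177) (nat_lit 174) (nat_lit 159)) (PT.lf (nat_lit 3040) (nat_lit 6) (nat_lit 40) (nat_lit 0) (nat_lit 178) (nat_lit 174) (nat_lit 158))) (PT.nd (nat_lit 78) (PT.lf (nat_lit 2660) (nat_lit 6) (nat_lit 35) (nat_lit 5) (nat_lit 156) (nat_lit 175) (nat_lit 179)) (PT.lf (nat_lit 2888) (nat_lit 6) (nat_lit 38) (nat_lit 5) (nat_lit 157) (nat_lit 175) (nat_lit 178))))) (PT.nd (nat_lit 234) (PT.nd (nat_lit 78) (PT.lf (nat_lit 3116) (nat_lit 6) (nat_lit 41) (nat_lit 5) (nat_lit 158) (nat_lit 175) (nat_lit 177)) (PT.nd (nat_lit 78) (PT.lf (nat_lit 3420) (nat_lit 6) (nat_lit 45) (nat_lit 5) (nat_lit 159) (nat_lit 175)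 (nat_lit 176)) (PT.lf (nat_lit 3648) (nat_lit 3) (nat_lit 48) (nat_lit 4) (nat_lit 160) (nat_lit 175) (nat_lit 175)))) (PT.nd (nat_lit 156) (PT.nd (nat_lit 78) (PT.lf (nat_lit 3876) (nat_lit 6) (nat_lit 51) (nat_lit 4) (nat_lit 161) (nat_lit 175) (nat_lit 174)) (PT.lf (nat_lit 4104) (nat_lit 6) (nat_lit 54) (nat_lit 4) (nat_lit 162) (nat_lit 175) (nat_lit 173))) (PT.nd (nat_lit 78) (PT.lf (nat_lit 4484) (nat_lit 6) (nat_lit 59) (nat_lit 4) (nat_lit 163) (nat_lit 175) (nat_lit 172)) (PT.lf (nat_lit 4940) (nat_lit 6) (nat_lit 65) (nat_lit 4) (nat_lit 164) (nat_lit 175) (nat_lit 171)))))) (PT.nd (nat_lit 546) (PT.nd (nat_lit 234) (PT.nd (nat_lit 78) (PT.lf (nat_lit 5320) (nat_lit 6) (nat_lit 70) (nat_lit 4) (nat_lit 165) (nat_lit 175) (nat_lit 170)) (PT.nd (nat_lit 78) (PT.lf (nat_lit 5244) (nat_lit 6) (nat_lit 69) (nat_lit 4) (nat_lit 166) (nat_lit 175) (nat_lit 169)) (PT.lf (nat_lit 5168)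 (nat_lit 6) (nat_lit 68) (nat_lit 4) (nat_lit 167) (nat_lit 175) (nat_lit 168)))) (PT.nd (nat_lit 156) (PT.nd (nat_lit 78) (PT.lf (nat_lit 5168) (nat_lit 6) (nat_lit 68) (nat_lit 2) (nat_lit 168) (nat_lit 175) (nat_lit 167)) (PT.lf (nat_lit 5244) (nat_lit 6) (nat_lit 69) (nat_lit 2) (nat_lit 169) (nat_lit 175) (nat_lit 166))) (PT.nd (nat_lit 78) (PT.lf (nat_lit 5320) (nat_lit 6) (nat_lit 70) (nat_lit 2) (nat_lit 170) (nat_lit 175) (nat_lit 165)) (PT.lf (nat_lit 4940) (nat_lit 6) (nat_lit 65) (nat_lit 2) (nat_lit 171) (nat_lit 175) (nat_lit 164))))) (PT.nd (nat_lit 234) (PT.nd (nat_lit 78) (PT.lf (nat_lit 4484) (nat_lit 6) (nat_lit 59) (nat_lit 2) (nat_lit 172) (nat_lit 175) (nat_lit 163)) (PT.nd (nat_lit 78) (PT.lf (nat_lit 4104) (nat_lit 6) (nat_lit 54) (nat_lit 2) (nat_lit 173) (nat_lit 175) (nat_lit 162)) (PT.lf (nat_lit 3876) (nat_lit 6) (nat_lit 51) (nat_lit 2) (nat_lit 174) (nat_lit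 175) (nat_lit 161)))) (PT.nd (nat_lit 156) (PT.nd (nat_lit 78) (PT.lf (nat_lit 3648) (nat_lit 3) (nat_lit 48) (nat_lit 0) (nat_lit 175) (nat_lit 175) (nat_lit 160)) (PT.lf (nat_lit 3420) (nat_lit 6) (nat_lit 45) (nat_lit 0) (nat_lit 176) (nat_lit 175) (nat_lit 159))) (PT.nd (nat_lit 78) (PT.lf (nat_lit 3116) (nat_lit 6) (nat_lit 41) (nat_lit 0) (nat_lit 177) (nat_lit 175) (nat_lit 158)) (PT.lf (nat_lit 2888) (nat_lit 6) (nat_lit 38) (nat_lit 0) (nat_lit 178) (nat_lit 175) (nat_lit 157))))))))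
noncomputable def pc5 : PT := (PT.nd (nat_lit 104364) (PT.nd (nat_lit 52260) (PT.nd (nat_lit 51714) (PT.nd (nat_lit 51402) (PT.nd (nat_lit 51246) (PT.lf (nat_lit 2660) (nat_lit 6) (nat_lit 35) (nat_lit 0) (nat_lit 179) (nat_lit 175) (nat_lit 156)) (PT.nd (nat_lit 78) (PT.lf (nat_lit 2508) (nat_lit 6) (nat_lit 33) (nat_lit 5) (nat_lit 155) (nat_lit 176) (nat_lit 179)) (PT.lf (nat_lit 2736) (nat_lit 6) (nat_lit 36) (nat_lit 5) (nat_lit 156) (nat_lit 176) (nat_lit 178)))) (PT.nd (nat_lit 156) (PT.nd (nat_lit 78) (PT.lf (nat_lit 2964) (nat_lit 6) (nat_lit 39) (nat_lit 5) (nat_lit 157) (nat_lit 176) (nat_lit 177)) (PT.lf (nat_lit 3192) (nat_lit 3) (nat_lit 42) (nat_lit 4) (nat_lit 158) (nat_lit 176) (nat_lit 176))) (PT.nd (nat_lit 78) (PT.lf (nat_lit 3420) (nat_lit 6) (nat_lit 45) (nat_lit 4) (nat_lit 159) (nat_lit 176) (nat_lit 175)) (PT.lf (nat_lit 3572) (nat_lit 6) (nat_lit 47) (nat_lit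 4) (nat_lit 160) (nat_lit 176) (nat_lit 174))))) (PT.nd (nat_lit 234) (PT.nd (nat_lit 78) (PT.lf (nat_lit 3800) (nat_lit 6) (nat_lit 50) (nat_lit 4) (nat_lit 161) (nat_lit 176) (nat_lit 173)) (PT.nd (nat_lit 78) (PT.lf (nat_lit 4028) (nat_lit 6) (nat_lit 53) (nat_lit 4) (nat_lit 162) (nat_lit 176) (nat_lit 172)) (PT.lf (nat_lit 4408) (nat_lit 6) (nat_lit 58) (nat_lit 4) (nat_lit 163) (nat_lit 176) (nat_lit 171)))) (PT.nd (nat_lit 156) (PT.nd (nat_lit 78) (PT.lf (nat_lit 4864) (nat_lit 6) (nat_lit 64) (nat_lit 4) (nat_lit 164) (nat_lit 176) (nat_lit 170)) (PT.lf (nat_lit 4788) (nat_lit 6) (nat_lit 63) (nat_lit 4) (nat_lit 165) (nat_lit 176) (nat_lit 169))) (PT.nd (nat_lit 78) (PT.lf (nat_lit 4712) (nat_lit 6) (nat_lit 62) (nat_lit 4) (nat_lit 166) (nat_lit 176) (nat_lit 168)) (PT.lf (nat_lit 4636) (nat_lit 3) (nat_lit 61) (nat_lit 2) (nat_lit 167) (nat_lit 176) (nat_lit 167)))))) (PT.nd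 (nat_lit 546) (PT.nd (nat_lit 234) (PT.nd (nat_lit 78) (PT.lf (nat_lit 4712) (nat_lit 6) (nat_lit 62) (nat_lit 2) (nat_lit 168) (nat_lit 176) (nat_lit 166)) (PT.nd (nat_lit 78) (PT.lf (nat_lit 4788) (nat_lit 6) (nat_lit 63) (nat_lit 2) (nat_lit 169) (nat_lit 176) (nat_lit 165)) (PT.lf (nat_lit 4864) (nat_lit 6) (nat_lit 64) (nat_lit 2) (nat_lit 170) (nat_lit 176) (nat_lit 164)))) (PT.nd (nat_lit 156) (PT.nd (nat_lit 78) (PT.lf (nat_lit 4408) (nat_lit 6) (nat_lit 58) (nat_lit 2) (nat_lit 171) (nat_lit 176) (nat_lit 163)) (PT.lf (nat_lit 4028) (nat_lit 6) (nat_lit 53) (nat_lit 2) (nat_lit 172) (nat_lit 176) (nat_lit 162))) (PT.nd (nat_lit 78) (PT.lf (nat_lit 3800) (nat_lit 6) (nat_lit 50) (nat_lit 2) (nat_lit 173) (nat_lit 176) (nat_lit 161)) (PT.lf (nat_lit 3572) (nat_lit 6) (nat_lit 47) (nat_lit 2) (nat_lit 174) (nat_lit 176) (nat_lit 160))))) (PT.nd (nat_lit 234) (PT.nd (nat_lit 78) (PT.lf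 (nat_lit 3420) (nat_lit 6) (nat_lit 45) (nat_lit 2) (nat_lit 175) (nat_lit 176) (nat_lit 159)) (PT.nd (nat_lit 78) (PT.lf (nat_lit 3192) (nat_lit 3) (nat_lit 42) (nat_lit 0) (nat_lit 176) (nat_lit 176) (nat_lit 158)) (PT.lf (nat_lit 2964) (nat_lit 6) (nat_lit 39) (nat_lit 0) (nat_lit 177) (nat_lit 176) (nat_lit 157)))) (PT.nd (nat_lit 51168) (PT.nd (nat_lit 78) (PT.lf (nat_lit 2736) (nat_lit 6) (nat_lit 36) (nat_lit 0) (nat_lit 178) (nat_lit 176) (nat_lit 156)) (PT.lf (nat_lit 2508) (nat_lit 6) (nat_lit 33) (nat_lit 0) (nat_lit 179) (nat_lit 176) (nat_lit 155))) (PT.nd (nat_lit 78) (PT.lf (nat_lit 2204) (nat_lit 6) (nat_lit 29) (nat_lit 5) (nat_lit 153) (nat_lit 177) (nat_lit 180)) (PT.lf (nat_lit 2356) (nat_lit 6) (nat_lit 31) (nat_lit 5) (nat_lit 154) (nat_lit 177) (nat_lit 179))))))) (PT.nd (nat_lit 1404) (PT.nd (nat_lit 546) (PT.nd (nat_lit 234) (PT.nd (nat_lit 78) (PT.lf (nat_lit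 2584) (nat_lit 6) (nat_lit 34) (nat_lit 5) (nat_lit 155) (nat_lit 177) (nat_lit 178)) (PT.nd (nat_lit 78) (PT.lf (nat_lit 2812) (nat_lit 3) (nat_lit 37) (nat_lit 4) (nat_lit 156) (nat_lit 177) (nat_lit 177)) (PT.lf (nat_lit 2964) (nat_lit 6) (nat_lit 39) (nat_lit 4) (nat_lit 157) (nat_lit 177) (nat_lit 176)))) (PT.nd (nat_lit 156) (PT.nd (nat_lit 78) (PT.lf (nat_lit 3116) (nat_lit 6) (nat_lit 41) (nat_lit 4) (nat_lit 158) (nat_lit 177) (nat_lit 175)) (PT.lf (nat_lit 3344) (nat_lit 6) (nat_lit 44) (nat_lit 4) (nat_lit 159) (nat_lit 177) (nat_lit 174))) (PT.nd (nat_lit 78) (PT.lf (nat_lit 3496) (nat_lit 6) (nat_lit 46) (nat_lit 4) (nat_lit 160) (nat_lit 177) (nat_lit 173)) (PT.lf (nat_lit 3724) (nat_lit 6) (nat_lit 49) (nat_lit 4) (nat_lit 161) (nat_lit 177) (nat_lit 172))))) (PT.nd (nat_lit 546) (PT.nd (nat_lit 78) (PT.lf (nat_lit 3952) (nat_lit 6) (nat_lit 52) (nat_lit 4) (nat_lit 162)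 (nat_lit 177) (nat_lit 171)) (PT.nd (nat_lit 78) (PT.lf (nat_lit 4332) (nat_lit 6) (nat_lit 57) (nat_lit 4) (nat_lit 163) (nat_lit 177) (nat_lit 170)) (PT.lf (nat_lit 4256) (nat_lit 6) (nat_lit 56) (nat_lit 4) (nat_lit 164) (nat_lit 177) (nat_lit 169)))) (PT.nd (nat_lit 156) (PT.nd (nat_lit 78) (PT.lf (nat_lit 4256) (nat_lit 6) (nat_lit 56) (nat_lit 2) (nat_lit 169) (nat_lit 177) (nat_lit 164)) (PT.lf (nat_lit 4332) (nat_lit 6) (nat_lit 57) (nat_lit 2) (nat_lit 170) (nat_lit 177) (nat_lit 163))) (PT.nd (nat_lit 78) (PT.lf (nat_lit 3952) (nat_lit 6) (nat_lit 52) (nat_lit 2) (nat_lit 171) (nat_lit 177) (nat_lit 162)) (PT.lf (nat_lit 3724) (nat_lit 6) (nat_lit 49) (nat_lit 2) (nat_lit 172) (nat_lit 177) (nat_lit 161)))))) (PT.nd (nat_lit 546) (PT.nd (nat_lit 234) (PT.nd (nat_lit 78) (PT.lf (nat_lit 3496) (nat_lit 6) (nat_lit 46) (nat_lit 2) (nat_lit 173) (nat_lit 177) (nat_lit 160)) (PT.nd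 (nat_lit 78) (PT.lf (nat_lit 3344) (nat_lit 6) (nat_lit 44) (nat_lit 2) (nat_lit 174) (nat_lit 177) (nat_lit 159)) (PT.lf (nat_lit 3116) (nat_lit 6) (nat_lit 41) (nat_lit 2) (nat_lit 175) (nat_lit 177) (nat_lit 158)))) (PT.nd (nat_lit 156) (PT.nd (nat_lit 78) (PT.lf (nat_lit 2964) (nat_lit 6) (nat_lit 39) (nat_lit 2) (nat_lit 176) (nat_lit 177) (nat_lit 157)) (PT.lf (nat_lit 2812) (nat_lit 3) (nat_lit 37) (nat_lit 0) (nat_lit 177) (nat_lit 177) (nat_lit 156))) (PT.nd (nat_lit 78) (PT.lf (nat_lit 2584) (nat_lit 6) (nat_lit 34) (nat_lit 0) (nat_lit 178) (nat_lit 177) (nat_lit 155)) (PT.lf (nat_lit 2356) (nat_lit 6) (nat_lit 31) (nat_lit 0) (nat_lit 179) (nat_lit 177) (nat_lit 154))))) (PT.nd (nat_lit 51012) (PT.nd (nat_lit 50856) (PT.lf (nat_lit 2204) (nat_lit 6) (nat_lit 29) (nat_lit 0) (nat_lit 180) (nat_lit 177) (nat_lit 153)) (PT.nd (nat_lit 78) (PT.lf (nat_lit 1900) (nat_lit 6) (nat_lit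 25) (nat_lit 5) (nat_lit 151) (nat_lit 178) (nat_lit 181)) (PT.lf (nat_lit 2052) (nat_lit 6) (nat_lit 27) (nat_lit 5) (nat_lit 152) (nat_lit 178) (nat_lit 180)))) (PT.nd (nat_lit 156) (PT.nd (nat_lit 78) (PT.lf (nat_lit 2280) (nat_lit 6) (nat_lit 30) (nat_lit 5) (nat_lit 153) (nat_lit 178) (nat_lit 179)) (PT.lf (nat_lit 2432) (nat_lit 3) (nat_lit 32) (nat_lit 4) (nat_lit 154) (nat_lit 178) (nat_lit 178))) (PT.nd (nat_lit 78) (PT.lf (nat_lit 2584) (nat_lit 6) (nat_lit 34) (nat_lit 4) (nat_lit 155) (nat_lit 178) (nat_lit 177)) (PT.lf (nat_lit 2736) (nat_lit 6) (nat_lit 36) (nat_lit 4) (nat_lit 156) (nat_lit 178) (nat_lit 176))))))))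
noncomputable def pc6 : PT := (PT.nd (nat_lit 105690) (PT.nd (nat_lit 52728) (PT.nd (nat_lit 1560) (PT.nd (nat_lit 1248) (PT.nd (nat_lit 78) (PT.lf (nat_lit 2888) (nat_lit 6) (nat_lit 38) (nat_lit 4) (nat_lit 157) (nat_lit 178) (nat_lit 175)) (PT.nd (nat_lit 78) (PT.lf (nat_lit 3040) (nat_lit 6) (nat_lit 40) (nat_lit 4) (nat_lit 158) (nat_lit 178) (nat_lit 174)) (PT.lf (nat_lit 3268) (nat_lit 6) (nat_lit 43) (nat_lit 4) (nat_lit 159) (nat_lit 178) (nat_lit 173)))) (PT.nd (nat_lit 156) (PT.nd (nat_lit 78) (PT.lf (nat_lit 3268) (nat_lit 6) (nat_lit 43) (nat_lit 2) (nat_lit 173) (nat_lit 178) (nat_lit 159)) (PT.lf (nat_lit 3040) (nat_lit 6) (nat_lit 40) (nat_lit 2) (nat_lit 174) (nat_lit 178) (nat_lit 158))) (PT.nd (nat_lit 78) (PT.lf (nat_lit 2888) (nat_lit 6) (nat_lit 38) (nat_lit 2) (nat_lit 175) (nat_lit 178) (nat_lit 157)) (PT.lf (nat_lit 2736) (nat_lit 6) (nat_lit 36) (nat_lit 2) (nat_lit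 176) (nat_lit 178) (nat_lit 156))))) (PT.nd (nat_lit 234) (PT.nd (nat_lit 78) (PT.lf (nat_lit 2584) (nat_lit 6) (nat_lit 34) (nat_lit 2) (nat_lit 177) (nat_lit 178) (nat_lit 155)) (PT.nd (nat_lit 78) (PT.lf (nat_lit 2432) (nat_lit 3) (nat_lit 32) (nat_lit 0) (nat_lit 178) (nat_lit 178) (nat_lit 154)) (PT.lf (nat_lit 2280) (nat_lit 6) (nat_lit 30) (nat_lit 0) (nat_lit 179) (nat_lit 178) (nat_lit 153)))) (PT.nd (nat_lit 50778) (PT.nd (nat_lit 78) (PT.lf (nat_lit 2052) (nat_lit 6) (nat_lit 27) (nat_lit 0) (nat_lit 180) (nat_lit 178) (nat_lit 152)) (PT.lf (nat_lit 1900) (nat_lit 6) (nat_lit 25) (nat_lit 0) (nat_lit 181) (nat_lit 178) (nat_lit 151))) (PT.nd (nat_lit 78) (PT.lf (nat_lit 1748) (nat_lit 6) (nat_lit 23) (nat_lit 5) (nat_lit 150) (nat_lit 179) (nat_lit 181)) (PT.lf (nat_lit 1976) (nat_lit 6) (nat_lit 26) (nat_lit 5) (nat_lit 151) (nat_lit 179) (nat_lit 180)))))) (PT.nd (nat_lit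 1950) (PT.nd (nat_lit 234) (PT.nd (nat_lit 78) (PT.lf (nat_lit 2128) (nat_lit 3) (nat_lit 28) (nat_lit 4) (nat_lit 152) (nat_lit 179) (nat_lit 179)) (PT.nd (nat_lit 78) (PT.lf (nat_lit 2280) (nat_lit 6) (nat_lit 30) (nat_lit 4) (nat_lit 153) (nat_lit 179) (nat_lit 178)) (PT.lf (nat_lit 2356) (nat_lit 6) (nat_lit 31) (nat_lit 4) (nat_lit 154) (nat_lit 179) (nat_lit 177)))) (PT.nd (nat_lit 1560) (PT.nd (nat_lit 78) (PT.lf (nat_lit 2508) (nat_lit 6) (nat_lit 33) (nat_lit 4) (nat_lit 155) (nat_lit 179) (nat_lit 176)) (PT.lf (nat_lit 2660) (nat_lit 6) (nat_lit 35) (nat_lit 4) (nat_lit 156) (nat_lit 179) (nat_lit 175))) (PT.nd (nat_lit 78) (PT.lf (nat_lit 2660) (nat_lit 6) (nat_lit 35) (nat_lit 2) (nat_lit 175) (nat_lit 179) (nat_lit 156)) (PT.lf (nat_lit 2508) (nat_lit 6) (nat_lit 33) (nat_lit 2) (nat_lit 176) (nat_lit 179) (nat_lit 155))))) (PT.nd (nat_lit 234) (PT.nd (nat_lit 78) (PT.lf (nat_lit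 2356) (nat_lit 6) (nat_lit 31) (nat_lit 2) (nat_lit 177) (nat_lit 179) (nat_lit 154)) (PT.nd (nat_lit 78) (PT.lf (nat_lit 2280) (nat_lit 6) (nat_lit 30) (nat_lit 2) (nat_lit 178) (nat_lit 179) (nat_lit 153)) (PT.lf (nat_lit 2128) (nat_lit 3) (nat_lit 28) (nat_lit 0) (nat_lit 179) (nat_lit 179) (nat_lit 152)))) (PT.nd (nat_lit 50622) (PT.nd (nat_lit 78) (PT.lf (nat_lit 1976) (nat_lit 6) (nat_lit 26) (nat_lit 0) (nat_lit 180) (nat_lit 179) (nat_lit 151)) (PT.lf (nat_lit 1748) (nat_lit 6) (nat_lit 23) (nat_lit 0) (nat_lit 181) (nat_lit 179) (nat_lit 150))) (PT.nd (nat_lit 78) (PT.lf (nat_lit 1520) (nat_lit 6) (nat_lit 20) (nat_lit 5) (nat_lit 148) (nat_lit 180) (nat_lit 182)) (PT.lf (nat_lit 1672) (nat_lit 6) (nat_lit 22) (nat_lit 5) (nat_lit 149) (nat_lit 180) (nat_lit 181))))))) (PT.nd (nat_lit 53118) (PT.nd (nat_lit 2340) (PT.nd (nat_lit 234) (PT.nd (nat_lit 78) (PT.lf (nat_lit 1824) (nat_lit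 3) (nat_lit 24) (nat_lit 4) (nat_lit 150) (nat_lit 180) (nat_lit 180)) (PT.nd (nat_lit 78) (PT.lf (nat_lit 1976) (nat_lit 6) (nat_lit 26) (nat_lit 4) (nat_lit 151) (nat_lit 180) (nat_lit 179)) (PT.lf (nat_lit 2052) (nat_lit 6) (nat_lit 27) (nat_lit 4) (nat_lit 152) (nat_lit 180) (nat_lit 178)))) (PT.nd (nat_lit 1950) (PT.nd (nat_lit 1872) (PT.lf (nat_lit 2204) (nat_lit 6) (nat_lit 29) (nat_lit 4) (nat_lit 153) (nat_lit 180) (nat_lit 177)) (PT.lf (nat_lit 2204) (nat_lit 6) (nat_lit 29) (nat_lit 2) (nat_lit 177) (nat_lit 180) (nat_lit 153))) (PT.nd (nat_lit 78) (PT.lf (nat_lit 2052) (nat_lit 6) (nat_lit 27) (nat_lit 2) (nat_lit 178) (nat_lit 180) (nat_lit 152)) (PT.lf (nat_lit 1976) (nat_lit 6) (nat_lit 26) (nat_lit 2) (nat_lit 179) (nat_lit 180) (nat_lit 151))))) (PT.nd (nat_lit 50466) (PT.nd (nat_lit 78) (PT.lf (nat_lit 1824) (nat_lit 3) (nat_lit 24) (nat_lit 0) (nat_lit 180) (nat_lit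 180) (nat_lit 150)) (PT.nd (nat_lit 78) (PT.lf (nat_lit 1672) (nat_lit 6) (nat_lit 22) (nat_lit 0) (nat_lit 181) (nat_lit 180) (nat_lit 149)) (PT.lf (nat_lit 1520) (nat_lit 6) (nat_lit 20) (nat_lit 0) (nat_lit 182) (nat_lit 180) (nat_lit 148)))) (PT.nd (nat_lit 156) (PT.nd (nat_lit 78) (PT.lf (nat_lit 1292) (nat_lit 6) (nat_lit 17) (nat_lit 5) (nat_lit 146) (nat_lit 181) (nat_lit 183)) (PT.lf (nat_lit 1444) (nat_lit 6) (nat_lit 19) (nat_lit 5) (nat_lit 147) (nat_lit 181) (nat_lit 182))) (PT.nd (nat_lit 78) (PT.lf (nat_lit 1596) (nat_lit 3) (nat_lit 21) (nat_lit 4) (nat_lit 148) (nat_lit 181) (nat_lit 181)) (PT.lf (nat_lit 1672) (nat_lit 6) (nat_lit 22) (nat_lit 4) (nat_lit 149) (nat_lit 181) (nat_lit 180)))))) (PT.nd (nat_lit 2574) (PT.nd (nat_lit 2262) (PT.nd (nat_lit 78) (PT.lf (nat_lit 1748) (nat_lit 6) (nat_lit 23) (nat_lit 4) (nat_lit 150) (nat_lit 181) (nat_lit 179)) (PT.nd (nat_lit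 2106) (PT.lf (nat_lit 1900) (nat_lit 6) (nat_lit 25) (nat_lit 4) (nat_lit 151) (nat_lit 181) (nat_lit 178)) (PT.lf (nat_lit 1900) (nat_lit 6) (nat_lit 25) (nat_lit 2) (nat_lit 178) (nat_lit 181) (nat_lit 151)))) (PT.nd (nat_lit 156) (PT.nd (nat_lit 78) (PT.lf (nat_lit 1748) (nat_lit 6) (nat_lit 23) (nat_lit 2) (nat_lit 179) (nat_lit 181) (nat_lit 150)) (PT.lf (nat_lit 1672) (nat_lit 6) (nat_lit 22) (nat_lit 2) (nat_lit 180) (nat_lit 181) (nat_lit 149))) (PT.nd (nat_lit 78) (PT.lf (nat_lit 1596) (nat_lit 3) (nat_lit 21) (nat_lit 0) (nat_lit 181) (nat_lit 181) (nat_lit 148)) (PT.lf (nat_lit 1444) (nat_lit 6) (nat_lit 19) (nat_lit 0) (nat_lit 182) (nat_lit 181) (nat_lit 147))))) (PT.nd (nat_lit 50232) (PT.nd (nat_lit 50076) (PT.lf (nat_lit 1292) (nat_lit 6) (nat_lit 17) (nat_lit 0) (nat_lit 183) (nat_lit 181) (nat_lit 146)) (PT.nd (nat_lit 78) (PT.lf (nat_lit 1064) (nat_lit 6) (nat_lit 14)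 (nat_lit 5) (nat_lit 144) (nat_lit 182) (nat_lit 184)) (PT.lf (nat_lit 1216) (nat_lit 6) (nat_lit 16) (nat_lit 5) (nat_lit 145) (nat_lit 182) (nat_lit 183)))) (PT.nd (nat_lit 156) (PT.nd (nat_lit 78) (PT.lf (nat_lit 1368) (nat_lit 3) (nat_lit 18) (nat_lit 4) (nat_lit 146) (nat_lit 182) (nat_lit 182)) (PT.lf (nat_lit 1444) (nat_lit 6) (nat_lit 19) (nat_lit 4) (nat_lit 147) (nat_lit 182) (nat_lit 181))) (PT.nd (nat_lit 2496) (PT.lf (nat_lit 1520) (nat_lit 6) (nat_lit 20) (nat_lit 4) (nat_lit 148) (nat_lit 182) (nat_lit 180)) (PT.lf (nat_lit 1520) (nat_lit 6) (nat_lit 20) (nat_lit 2) (nat_lit 180) (nat_lit 182) (nat_lit 148))))))))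
noncomputable def pc7 : PT := (PT.nd (nat_lit 156312) (PT.nd (nat_lit 103038) (PT.nd (nat_lit 50310) (PT.nd (nat_lit 234) (PT.nd (nat_lit 78) (PT.lf (nat_lit 1444) (nat_lit 6) (nat_lit 19) (nat_lit 2) (nat_lit 181) (nat_lit 182) (nat_lit 147)) (PT.nd (nat_lit 78) (PT.lf (nat_lit 1368) (nat_lit 3) (nat_lit 18) (nat_lit 0) (nat_lit 182) (nat_lit 182) (nat_lit 146)) (PT.lf (nat_lit 1216) (nat_lit 6) (nat_lit 16) (nat_lit 0) (nat_lit 183) (nat_lit 182) (nat_lit 145)))) (PT.nd (nat_lit 49920) (PT.nd (nat_lit 49842) (PT.lf (nat_lit 1064) (nat_lit 6) (nat_lit 14) (nat_lit 0) (nat_lit 184) (nat_lit 182) (nat_lit 144)) (PT.lf (nat_lit 836) (nat_lit 6) (nat_lit 11) (nat_lit 5) (nat_lit 142) (nat_lit 183) (nat_lit 185))) (PT.nd (nat_lit 78) (PT.lf (nat_lit 988) (nat_lit 6) (nat_lit 13) (nat_lit 5) (nat_lit 143) (nat_lit 183) (nat_lit 184)) (PT.lf (nat_lit 1140) (nat_lit 3) (nat_lit 15) (nat_lit 4)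 (nat_lit 144) (nat_lit 183) (nat_lit 183))))) (PT.nd (nat_lit 2886) (PT.nd (nat_lit 78) (PT.lf (nat_lit 1216) (nat_lit 6) (nat_lit 16) (nat_lit 4) (nat_lit 145) (nat_lit 183) (nat_lit 182)) (PT.nd (nat_lit 2730) (PT.lf (nat_lit 1292) (nat_lit 6) (nat_lit 17) (nat_lit 4) (nat_lit 146) (nat_lit 183) (nat_lit 181)) (PT.lf (nat_lit 1292) (nat_lit 6) (nat_lit 17) (nat_lit 2) (nat_lit 181) (nat_lit 183) (nat_lit 146)))) (PT.nd (nat_lit 156) (PT.nd (nat_lit 78) (PT.lf (nat_lit 1216) (nat_lit 6) (nat_lit 16) (nat_lit 2) (nat_lit 182) (nat_lit 183) (nat_lit 145)) (PT.lf (nat_lit 1140) (nat_lit 3) (nat_lit 15) (nat_lit 0) (nat_lit 183) (nat_lit 183) (nat_lit 144))) (PT.nd (nat_lit 78) (PT.lf (nat_lit 988) (nat_lit 6) (nat_lit 13) (nat_lit 0) (nat_lit 184) (nat_lit 183) (nat_lit 143)) (PT.lf (nat_lit 836) (nat_lit 6) (nat_lit 11) (nat_lit 0) (nat_lit 185) (nat_lit 183) (nat_lit 142)))))) (PT.nd (nat_lit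 3432) (PT.nd (nat_lit 234) (PT.nd (nat_lit 78) (PT.lf (nat_lit 608) (nat_lit 6) (nat_lit 8) (nat_lit 5) (nat_lit 140) (nat_lit 184) (nat_lit 186)) (PT.nd (nat_lit 78) (PT.lf (nat_lit 760) (nat_lit 6) (nat_lit 10) (nat_lit 5) (nat_lit 141) (nat_lit 184) (nat_lit 185)) (PT.lf (nat_lit 912) (nat_lit 3) (nat_lit 12) (nat_lit 4) (nat_lit 142) (nat_lit 184) (nat_lit 184)))) (PT.nd (nat_lit 3042) (PT.nd (nat_lit 78) (PT.lf (nat_lit 988) (nat_lit 6) (nat_lit 13) (nat_lit 4) (nat_lit 143) (nat_lit 184) (nat_lit 183)) (PT.lf (nat_lit 1064) (nat_lit 6) (nat_lit 14) (nat_lit 4) (nat_lit 144) (nat_lit 184) (nat_lit 182))) (PT.nd (nat_lit 78) (PT.lf (nat_lit 1064) (nat_lit 6) (nat_lit 14) (nat_lit 2) (nat_lit 182) (nat_lit 184) (nat_lit 144)) (PT.lf (nat_lit 988) (nat_lit 6) (nat_lit 13) (nat_lit 2) (nat_lit 183) (nat_lit 184) (nat_lit 143))))) (PT.nd (nat_lit 49530) (PT.nd (nat_lit 78) (PT.lf (nat_lit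 912) (nat_lit 3) (nat_lit 12) (nat_lit 0) (nat_lit 184) (nat_lit 184) (nat_lit 142)) (PT.nd (nat_lit 78) (PT.lf (nat_lit 760) (nat_lit 6) (nat_lit 10) (nat_lit 0) (nat_lit 185) (nat_lit 184) (nat_lit 141)) (PT.lf (nat_lit 608) (nat_lit 6) (nat_lit 8) (nat_lit 0) (nat_lit 186) (nat_lit 184) (nat_lit 140)))) (PT.nd (nat_lit 156) (PT.nd (nat_lit 78) (PT.lf (nat_lit 380) (nat_lit 6) (nat_lit 5) (nat_lit 5) (nat_lit 138) (nat_lit 185) (nat_lit 187)) (PT.lf (nat_lit 532) (nat_lit 6) (nat_lit 7) (nat_lit 5) (nat_lit 139) (nat_lit 185) (nat_lit 186))) (PT.nd (nat_lit 78) (PT.lf (nat_lit 684) (nat_lit 3) (nat_lit 9) (nat_lit 4) (nat_lit 140) (nat_lit 185) (nat_lit 185)) (PT.lf (nat_lit 760) (nat_lit 6) (nat_lit 10) (nat_lit 4) (nat_lit 141) (nat_lit 185) (nat_lit 184))))))) (PT.nd (nat_lit 56628) (PT.nd (nat_lit 52728) (PT.nd (nat_lit 3354) (PT.nd (nat_lit 3198) (PT.lf (nat_lit 836) (nat_lit 6)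 (nat_lit 11) (nat_lit 4) (nat_lit 142) (nat_lit 185) (nat_lit 183)) (PT.nd (nat_lit 78) (PT.lf (nat_lit 836) (nat_lit 6) (nat_lit 11) (nat_lit 2) (nat_lit 183) (nat_lit 185) (nat_lit 142)) (PT.lf (nat_lit 760) (nat_lit 6) (nat_lit 10) (nat_lit 2) (nat_lit 184) (nat_lit 185) (nat_lit 141)))) (PT.nd (nat_lit 156) (PT.nd (nat_lit 78) (PT.lf (nat_lit 684) (nat_lit 3) (nat_lit 9) (nat_lit 0) (nat_lit 185) (nat_lit 185) (nat_lit 140)) (PT.lf (nat_lit 532) (nat_lit 6) (nat_lit 7) (nat_lit 0) (nat_lit 186) (nat_lit 185) (nat_lit 139))) (PT.nd (nat_lit 49140) (PT.lf (nat_lit 380) (nat_lit 6) (nat_lit 5) (nat_lit 0) (nat_lit 187) (nat_lit 185) (nat_lit 138)) (PT.lf (nat_lit 152) (nat_lit 6) (nat_lit 2) (nat_lit 5) (nat_lit 136) (nat_lit 186) (nat_lit 188))))) (PT.nd (nat_lit 234) (PT.nd (nat_lit 78) (PT.lf (nat_lit 304) (nat_lit 6) (nat_lit 4) (nat_lit 5) (nat_lit 137) (nat_lit 186) (nat_lit 187))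 (PT.nd (nat_lit 78) (PT.lf (nat_lit 456) (nat_lit 3) (nat_lit 6) (nat_lit 4) (nat_lit 138) (nat_lit 186) (nat_lit 186)) (PT.lf (nat_lit 532) (nat_lit 6) (nat_lit 7) (nat_lit 4) (nat_lit 139) (nat_lit 186) (nat_lit 185)))) (PT.nd (nat_lit 3510) (PT.nd (nat_lit 3432) (PT.lf (nat_lit 608) (nat_lit 6) (nat_lit 8) (nat_lit 4) (nat_lit 140) (nat_lit 186) (nat_lit 184)) (PT.lf (nat_lit 608) (nat_lit 6) (nat_lit 8) (nat_lit 2) (nat_lit 184) (nat_lit 186) (nat_lit 140))) (PT.nd (nat_lit 78) (PT.lf (nat_lit 532) (nat_lit 6) (nat_lit 7) (nat_lit 2) (nat_lit 185) (nat_lit 186) (nat_lit 139)) (PT.lf (nat_lit 456) (nat_lit 3) (nat_lit 6) (nat_lit 0) (nat_lit 186) (nat_lit 186) (nat_lit 138)))))) (PT.nd (nat_lit 53040) (PT.nd (nat_lit 49140) (PT.nd (nat_lit 78) (PT.lf (nat_lit 304) (nat_lit 6) (nat_lit 4) (nat_lit 0) (nat_lit 187) (nat_lit 186) (nat_lit 137)) (PT.nd (nat_lit 48984) (PT.lf (nat_lit 152)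 (nat_lit 6) (nat_lit 2) (nat_lit 0) (nat_lit 188) (nat_lit 186) (nat_lit 136)) (PT.lf (nat_lit 76) (nat_lit 6) (nat_lit 1) (nat_lit 5) (nat_lit 135) (nat_lit 187) (nat_lit 188)))) (PT.nd (nat_lit 156) (PT.nd (nat_lit 78) (PT.lf (nat_lit 228) (nat_lit 3) (nat_lit 3) (nat_lit 4) (nat_lit 136) (nat_lit 187) (nat_lit 187)) (PT.lf (nat_lit 304) (nat_lit 6) (nat_lit 4) (nat_lit 4) (nat_lit 137) (nat_lit 187) (nat_lit 186))) (PT.nd (nat_lit 3666) (PT.lf (nat_lit 380) (nat_lit 6) (nat_lit 5) (nat_lit 4) (nat_lit 138) (nat_lit 187) (nat_lit 185)) (PT.lf (nat_lit 380) (nat_lit 6) (nat_lit 5) (nat_lit 2) (nat_lit 185) (nat_lit 187) (nat_lit 138))))) (PT.nd (nat_lit 49140) (PT.nd (nat_lit 78) (PT.lf (nat_lit 304) (nat_lit 6) (nat_lit 4) (nat_lit 2) (nat_lit 186) (nat_lit 187) (nat_lit 137)) (PT.nd (nat_lit 78) (PT.lf (nat_lit 228) (nat_lit 3) (nat_lit 3) (nat_lit 0) (nat_lit 187) (nat_lit 187) (nat_lit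 136)) (PT.lf (nat_lit 76) (nat_lit 6) (nat_lit 1) (nat_lit 0) (nat_lit 188) (nat_lit 187) (nat_lit 135)))) (PT.nd (nat_lit 3978) (PT.nd (nat_lit 78) (PT.lf (nat_lit 76) (nat_lit 6) (nat_lit 1) (nat_lit 4) (nat_lit 135) (nat_lit 188) (nat_lit 187)) (PT.lf (nat_lit 152) (nat_lit 6) (nat_lit 2) (nat_lit 4) (nat_lit 136) (nat_lit 188) (nat_lit 186))) (PT.nd (nat_lit 78) (PT.lf (nat_lit 152) (nat_lit 6) (nat_lit 2) (nat_lit 2) (nat_lit 186) (nat_lit 188) (nat_lit 136)) (PT.lf (nat_lit 76) (nat_lit 6) (nat_lit 1) (nat_lit 2) (nat_lit 187) (nat_lit 188) (nat_lit 135))))))))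
noncomputable def xc0 : XT := (XT.nd (nat_lit 159432) (nat_lit 0) (nat_lit 0) (XT.nd (nat_lit 106158) (nat_lit 0) (nat_lit 0) (XT.nd (nat_lit 53118) (nat_lit 0) (nat_lit 0) (XT.nd (nat_lit 52962) (nat_lit 0) (nat_lit 0) (XT.nd (nat_lit 78) (nat_lit 0) (nat_lit 0) (XT.lf (nat_lit 0) (nat_lit 1548104059790) (nat_lit 152) (nat_lit 1202893501545) (nat_lit 0) (nat_lit 1548104059790) (nat_lit 1) (nat_lit 5) (nat_lit 3) (nat_lit 4) (nat_lit 1) (nat_lit 4) (nat_lit 460) (nat_lit 280) (nat_lit 280)) (XT.lf (nat_lit 0) (nat_lit 3344346997883) (nat_lit 152) (nat_lit 2597337168146) (nat_lit 0) (nat_lit 3344339251820) (nat_lit 1) (nat_lit 5) (nat_lit 3) (nat_lit 4) (nat_lit 1) (nat_lit 4) (nat_lit 461) (nat_lit 280) (nat_lit 279))) (XT.nd (nat_lit 78) (nat_lit 0) (nat_lit 0) (XT.lf (nat_lit 0) (nat_lit 1326832725801) (nat_lit 152) (nat_lit 1032155585036) (nat_lit 0) (nat_lit 1326832725801) (nat_lit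 1) (nat_lit 5) (nat_lit 3) (nat_lit 4) (nat_lit 1) (nat_lit 4) (nat_lit 458) (nat_lit 281) (nat_lit 281)) (XT.lf (nat_lit 0) (nat_lit 2866436294766) (nat_lit 152) (nat_lit 2228470244870) (nat_lit 0) (nat_lit 2866427929018) (nat_lit 1) (nat_lit 5) (nat_lit 3) (nat_lit 4) (nat_lit 1) (nat_lit 4) (nat_lit 459) (nat_lit 281) (nat_lit 280)))) (XT.nd (nat_lit 52806) (nat_lit 0) (nat_lit 0) (XT.nd (nat_lit 78) (nat_lit 0) (nat_lit 0) (XT.lf (nat_lit 0) (nat_lit 3096205077874) (nat_lit 152) (nat_lit 2405810111830) (nat_lit 0) (nat_lit 3096188966063) (nat_lit 1) (nat_lit 5) (nat_lit 3) (nat_lit 4) (nat_lit 1) (nat_lit 4) (nat_lit 460) (nat_lit 281) (nat_lit 279)) (XT.lf (nat_lit 0) (nat_lit 3344333393718) (nat_lit 152) (nat_lit 2597381673866) (nat_lit 0) (nat_lit 3344310109625) (nat_lit 1) (nat_lit 5) (nat_lit 3) (nat_lit 4) (nat_lit 1) (nat_lit 4) (nat_lit 461) (nat_lit 281) (nat_lit 278))) (XT.nd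 (nat_lit 78) (nat_lit 0) (nat_lit 0) (XT.lf (nat_lit 0) (nat_lit 1137094862751) (nat_lit 152) (nat_lit 885844804272) (nat_lit 0) (nat_lit 1137094862751) (nat_lit 1) (nat_lit 5) (nat_lit 3) (nat_lit 4) (nat_lit 1) (nat_lit 4) (nat_lit 456) (nat_lit 282) (nat_lit 282)) (XT.nd (nat_lit 78) (nat_lit 0) (nat_lit 0) (XT.lf (nat_lit 0) (nat_lit 2456640719139) (nat_lit 152) (nat_lit 1912360092917) (nat_lit 0) (nat_lit 2456631684131) (nat_lit 1) (nat_lit 5) (nat_lit 3) (nat_lit 4) (nat_lit 1) (nat_lit 4) (nat_lit 457) (nat_lit 282) (nat_lit 281)) (XT.lf (nat_lit 0) (nat_lit 2653662166560) (nat_lit 152) (nat_lit 2064336127510) (nat_lit 0) (nat_lit 2653644765803) (nat_lit 1) (nat_lit 5) (nat_lit 3) (nat_lit 4) (nat_lit 1) (nat_lit 4) (nat_lit 458) (nat_lit 282) (nat_lit 280)))))) (XT.nd (nat_lit 52884) (nat_lit 0) (nat_lit 0) (XT.nd (nat_lit 156) (nat_lit 0) (nat_lit 0) (XT.nd (nat_lit 78) (nat_lit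 0) (nat_lit 0) (XT.lf (nat_lit 0) (nat_lit 2866421602267) (nat_lit 152) (nat_lit 2228518311048) (nat_lit 0) (nat_lit 2866396455447) (nat_lit 1) (nat_lit 5) (nat_lit 3) (nat_lit 4) (nat_lit 1) (nat_lit 4) (nat_lit 459) (nat_lit 282) (nat_lit 279)) (XT.lf (nat_lit 0) (nat_lit 3096179822917) (nat_lit 152) (nat_lit 2405879574988) (nat_lit 0) (nat_lit 3096147503816) (nat_lit 1) (nat_lit 5) (nat_lit 3) (nat_lit 4) (nat_lit 1) (nat_lit 4) (nat_lit 460) (nat_lit 282) (nat_lit 278))) (XT.nd (nat_lit 52572) (nat_lit 0) (nat_lit 0) (XT.lf (nat_lit 0) (nat_lit 3344298358706) (nat_lit 152) (nat_lit 2597470949043) (nat_lit 0) (nat_lit 3344259398605) (nat_lit 1) (nat_lit 5) (nat_lit 3) (nat_lit 4) (nat_lit 1) (nat_lit 4) (nat_lit 461) (nat_lit 282) (nat_lit 277)) (XT.nd (nat_lit 78) (nat_lit 0) (nat_lit 0) (XT.lf (nat_lit 0) (nat_lit 974389199786) (nat_lit 152) (nat_lit 760481912306) (nat_lit 0) (nat_lit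 974389199786) (nat_lit 1) (nat_lit 5) (nat_lit 3) (nat_lit 4) (nat_lit 1) (nat_lit 4) (nat_lit 454) (nat_lit 283) (nat_lit 283)) (XT.lf (nat_lit 0) (nat_lit 2105237752384) (nat_lit 152) (nat_lit 1641491071524) (nat_lit 0) (nat_lit 2105227994575) (nat_lit 1) (nat_lit 5) (nat_lit 3) (nat_lit 4) (nat_lit 1) (nat_lit 4) (nat_lit 455) (nat_lit 283) (nat_lit 282))))) (XT.nd (nat_lit 156) (nat_lit 0) (nat_lit 0) (XT.nd (nat_lit 78) (nat_lit 0) (nat_lit 0) (XT.lf (nat_lit 0) (nat_lit 2274186177655) (nat_lit 152) (nat_lit 1771716562578) (nat_lit 0) (nat_lit 2274167384838) (nat_lit 1) (nat_lit 5) (nat_lit 3) (nat_lit 4) (nat_lit 1) (nat_lit 4) (nat_lit 456) (nat_lit 283) (nat_lit 281)) (XT.lf (nat_lit 0) (nat_lit 2456624851241) (nat_lit 152) (nat_lit 1912412004388) (nat_lit 0) (nat_lit 2456597692675) (nat_lit 1) (nat_lit 5) (nat_lit 3) (nat_lit 4) (nat_lit 1) (nat_lit 4) (nat_lit 457) (nat_lit 283)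 (nat_lit 280))) (XT.nd (nat_lit 78) (nat_lit 0) (nat_lit 0) (XT.lf (nat_lit 0) (nat_lit 2653634891206) (nat_lit 152) (nat_lit 2064411147720) (nat_lit 0) (nat_lit 2653599986577) (nat_lit 1) (nat_lit 5) (nat_lit 3) (nat_lit 4) (nat_lit 1) (nat_lit 4) (nat_lit 458) (nat_lit 283) (nat_lit 279)) (XT.nd (nat_lit 78) (nat_lit 0) (nat_lit 0) (XT.lf (nat_lit 0) (nat_lit 2866383764454) (nat_lit 152) (nat_lit 2228614728239) (nat_lit 0) (nat_lit 2866341687545) (nat_lit 1) (nat_lit 5) (nat_lit 3) (nat_lit 4) (nat_lit 1) (nat_lit 4) (nat_lit 459) (nat_lit 283) (nat_lit 278)) (XT.lf (nat_lit 0) (nat_lit 3096132205050) (nat_lit 152) (nat_lit 2405995804198) (nat_lit 0) (nat_lit 3096083487140) (nat_lit 1) (nat_lit 5) (nat_lit 3) (nat_lit 4) (nat_lit 1) (nat_lit 4) (nat_lit 460) (nat_lit 283) (nat_lit 277))))))) (XT.nd (nat_lit 53040) (nat_lit 0) (nat_lit 0) (XT.nd (nat_lit 52650) (nat_lit 0) (nat_lit 0)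 (XT.nd (nat_lit 52494) (nat_lit 0) (nat_lit 0) (XT.nd (nat_lit 52416) (nat_lit 0) (nat_lit 0) (XT.lf (nat_lit 0) (nat_lit 3344241685233) (nat_lit 152) (nat_lit 2597605522715) (nat_lit 0) (nat_lit 3344186818249) (nat_lit 1) (nat_lit 5) (nat_lit 3) (nat_lit 4) (nat_lit 1) (nat_lit 4) (nat_lit 461) (nat_lit 283) (nat_lit 276)) (XT.lf (nat_lit 0) (nat_lit 834856409171) (nat_lit 152) (nat_lit 653084460225) (nat_lit 0) (nat_lit 834856409171) (nat_lit 1) (nat_lit 5) (nat_lit 3) (nat_lit 4) (nat_lit 1) (nat_lit 4) (nat_lit 452) (nat_lit 284) (nat_lit 284))) (XT.nd (nat_lit 78) (nat_lit 0) (nat_lit 0) (XT.lf (nat_lit 0) (nat_lit 1803891491122) (nat_lit 152) (nat_lit 1409420586305) (nat_lit 0) (nat_lit 1803880952688) (nat_lit 1) (nat_lit 5) (nat_lit 3) (nat_lit 4) (nat_lit 1) (nat_lit 4) (nat_lit 453) (nat_lit 284) (nat_lit 283)) (XT.lf (nat_lit 0) (nat_lit 1948774567899) (nat_lit 152) (nat_lit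 1520992934968) (nat_lit 0) (nat_lit 1948754271656) (nat_lit 1) (nat_lit 5) (nat_lit 3) (nat_lit 4) (nat_lit 1) (nat_lit 4) (nat_lit 454) (nat_lit 284) (nat_lit 282)))) (XT.nd (nat_lit 156) (nat_lit 0) (nat_lit 0) (XT.nd (nat_lit 78) (nat_lit 0) (nat_lit 0) (XT.lf (nat_lit 0) (nat_lit 2105220615053) (nat_lit 152) (nat_lit 1641547135913) (nat_lit 0) (nat_lit 2105191283803) (nat_lit 1) (nat_lit 5) (nat_lit 3) (nat_lit 4) (nat_lit 1) (nat_lit 4) (nat_lit 455) (nat_lit 284) (nat_lit 281)) (XT.lf (nat_lit 0) (nat_lit 2274156720273) (nat_lit 152) (nat_lit 1771797584406) (nat_lit 0) (nat_lit 2274119023274) (nat_lit 1) (nat_lit 5) (nat_lit 3) (nat_lit 4) (nat_lit 1) (nat_lit 4) (nat_lit 456) (nat_lit 284) (nat_lit 280))) (XT.nd (nat_lit 78) (nat_lit 0) (nat_lit 0) (XT.lf (nat_lit 0) (nat_lit 2456583986403) (nat_lit 152) (nat_lit 1912516134955) (nat_lit 0) (nat_lit 2456538543341) (nat_lit 1) (nat_lit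 5) (nat_lit 3) (nat_lit 4) (nat_lit 1) (nat_lit 4) (nat_lit 457) (nat_lit 284) (nat_lit 279)) (XT.nd (nat_lit 78) (nat_lit 0) (nat_lit 0) (XT.lf (nat_lit 0) (nat_lit 2653583463910) (nat_lit 152) (nat_lit 2064536675267) (nat_lit 0) (nat_lit 2653530848567) (nat_lit 1) (nat_lit 5) (nat_lit 3) (nat_lit 4) (nat_lit 1) (nat_lit 4) (nat_lit 458) (nat_lit 284) (nat_lit 278)) (XT.lf (nat_lit 0) (nat_lit 2866322557104) (nat_lit 152) (nat_lit 2228760067804) (nat_lit 0) (nat_lit 2866263300760) (nat_lit 1) (nat_lit 5) (nat_lit 3) (nat_lit 4) (nat_lit 1) (nat_lit 4) (nat_lit 459) (nat_lit 284) (nat_lit 277)))))) (XT.nd (nat_lit 52572) (nat_lit 0) (nat_lit 0) (XT.nd (nat_lit 52338) (nat_lit 0) (nat_lit 0) (XT.nd (nat_lit 78) (nat_lit 0) (nat_lit 0) (XT.lf (nat_lit 0) (nat_lit 3096061942094) (nat_lit 152) (nat_lit 2406159488226) (nat_lit 0) (nat_lit 3095996536676) (nat_lit 1) (nat_lit 5) (nat_lit 3) (nat_lit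 4) (nat_lit 1) (nat_lit 4) (nat_lit 460) (nat_lit 284) (nat_lit 276)) (XT.lf (nat_lit 0) (nat_lit 3344163037457) (nat_lit 152) (nat_lit 2597786192356) (nat_lit 0) (nat_lit 3344091938451) (nat_lit 1) (nat_lit 5) (nat_lit 3) (nat_lit 4) (nat_lit 1) (nat_lit 4) (nat_lit 461) (nat_lit 284) (nat_lit 275))) (XT.nd (nat_lit 78) (nat_lit 0) (nat_lit 0) (XT.lf (nat_lit 0) (nat_lit 715187508840) (nat_lit 152) (nat_lit 561095958928) (nat_lit 0) (nat_lit 715187508840) (nat_lit 1) (nat_lit 5) (nat_lit 3) (nat_lit 4) (nat_lit 1) (nat_lit 4) (nat_lit 450) (nat_lit 285) (nat_lit 285)) (XT.nd (nat_lit 78) (nat_lit 0) (nat_lit 0) (XT.lf (nat_lit 0) (nat_lit 1545454798192) (nat_lit 152) (nat_lit 1210626075680) (nat_lit 0) (nat_lit 1545443416684) (nat_lit 1) (nat_lit 5) (nat_lit 3) (nat_lit 4) (nat_lit 1) (nat_lit 4) (nat_lit 451) (nat_lit 285) (nat_lit 284)) (XT.lf (nat_lit 0) (nat_lit 1669708680133) (nat_lit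 152) (nat_lit 1306200359634) (nat_lit 0) (nat_lit 1669686760192) (nat_lit 1) (nat_lit 5) (nat_lit 3) (nat_lit 4) (nat_lit 1) (nat_lit 4) (nat_lit 452) (nat_lit 285) (nat_lit 283))))) (XT.nd (nat_lit 156) (nat_lit 0) (nat_lit 0) (XT.nd (nat_lit 78) (nat_lit 0) (nat_lit 0) (XT.lf (nat_lit 0) (nat_lit 1803872982805) (nat_lit 152) (nat_lit 1409481135845) (nat_lit 0) (nat_lit 1803841305054) (nat_lit 1) (nat_lit 5) (nat_lit 3) (nat_lit 4) (nat_lit 1) (nat_lit 4) (nat_lit 453) (nat_lit 285) (nat_lit 282)) (XT.lf (nat_lit 0) (nat_lit 1948742753926) (nat_lit 152) (nat_lit 1521080438541) (nat_lit 0) (nat_lit 1948702041167) (nat_lit 1) (nat_lit 5) (nat_lit 3) (nat_lit 4) (nat_lit 1) (nat_lit 4) (nat_lit 454) (nat_lit 285) (nat_lit 281))) (XT.nd (nat_lit 78) (nat_lit 0) (nat_lit 0) (XT.lf (nat_lit 0) (nat_lit 2105176481029) (nat_lit 152) (nat_lit 1641659596925) (nat_lit 0) (nat_lit 2105127402522)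 (nat_lit 1) (nat_lit 5) (nat_lit 3) (nat_lit 4) (nat_lit 1) (nat_lit 4) (nat_lit 455) (nat_lit 285) (nat_lit 280)) (XT.nd (nat_lit 78) (nat_lit 0) (nat_lit 0) (XT.lf (nat_lit 0) (nat_lit 2274101178793) (nat_lit 152) (nat_lit 1771933154156) (nat_lit 0) (nat_lit 2274044354223) (nat_lit 1) (nat_lit 5) (nat_lit 3) (nat_lit 4) (nat_lit 1) (nat_lit 4) (nat_lit 456) (nat_lit 285) (nat_lit 279)) (XT.lf (nat_lit 0) (nat_lit 2456517882464) (nat_lit 152) (nat_lit 1912673101686) (nat_lit 0) (nat_lit 2456453885614) (nat_lit 1) (nat_lit 5) (nat_lit 3) (nat_lit 4) (nat_lit 1) (nat_lit 4) (nat_lit 457) (nat_lit 285) (nat_lit 278))))))))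
noncomputable def xc1 : XT := (XT.nd (nat_lit 105378) (nat_lit 0) (nat_lit 0) (XT.nd (nat_lit 52728) (nat_lit 0) (nat_lit 0) (XT.nd (nat_lit 52338) (nat_lit 0) (nat_lit 0) (XT.nd (nat_lit 156) (nat_lit 0) (nat_lit 0) (XT.nd (nat_lit 78) (nat_lit 0) (nat_lit 0) (XT.lf (nat_lit 0) (nat_lit 2653507579917) (nat_lit 152) (nat_lit 2064713454018) (nat_lit 0) (nat_lit 2653436942065) (nat_lit 1) (nat_lit 5) (nat_lit 3) (nat_lit 4) (nat_lit 1) (nat_lit 4) (nat_lit 458) (nat_lit 285) (nat_lit 277)) (XT.lf (nat_lit 0) (nat_lit 2866237617505) (nat_lit 152) (nat_lit 2228955191017) (nat_lit 0) (nat_lit 2866160830579) (nat_lit 1) (nat_lit 5) (nat_lit 3) (nat_lit 4) (nat_lit 1) (nat_lit 4) (nat_lit 459) (nat_lit 285) (nat_lit 276))) (XT.nd (nat_lit 78) (nat_lit 0) (nat_lit 0) (XT.lf (nat_lit 0) (nat_lit 3095968617675) (nat_lit 152) (nat_lit 2406371597051) (nat_lit 0) (nat_lit 3095886137161) (nat_lit 1)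 (nat_lit 5) (nat_lit 3) (nat_lit 4) (nat_lit 1) (nat_lit 4) (nat_lit 460) (nat_lit 285) (nat_lit 275)) (XT.lf (nat_lit 0) (nat_lit 3344061949316) (nat_lit 152) (nat_lit 2598014028601) (nat_lit 0) (nat_lit 3343974196961) (nat_lit 1) (nat_lit 5) (nat_lit 3) (nat_lit 4) (nat_lit 1) (nat_lit 4) (nat_lit 461) (nat_lit 285) (nat_lit 274)))) (XT.nd (nat_lit 156) (nat_lit 0) (nat_lit 0) (XT.nd (nat_lit 78) (nat_lit 0) (nat_lit 0) (XT.lf (nat_lit 0) (nat_lit 612545330994) (nat_lit 152) (nat_lit 482325149603) (nat_lit 0) (nat_lit 612545330994) (nat_lit 1) (nat_lit 5) (nat_lit 3) (nat_lit 4) (nat_lit 1) (nat_lit 4) (nat_lit 448) (nat_lit 286) (nat_lit 286)) (XT.lf (nat_lit 0) (nat_lit 1323799676372) (nat_lit 152) (nat_lit 1040373831892) (nat_lit 0) (nat_lit 1323787384344) (nat_lit 1) (nat_lit 5) (nat_lit 3) (nat_lit 4) (nat_lit 1) (nat_lit 4) (nat_lit 449) (nat_lit 286) (nat_lit 285))) (XT.nd (nat_lit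 78) (nat_lit 0) (nat_lit 0) (XT.lf (nat_lit 0) (nat_lit 1430370548415) (nat_lit 152) (nat_lit 1122225872175) (nat_lit 0) (nat_lit 1430346874878) (nat_lit 1) (nat_lit 5) (nat_lit 3) (nat_lit 4) (nat_lit 1) (nat_lit 4) (nat_lit 450) (nat_lit 286) (nat_lit 284)) (XT.nd (nat_lit 78) (nat_lit 0) (nat_lit 0) (XT.lf (nat_lit 0) (nat_lit 1545434809210) (nat_lit 152) (nat_lit 1210691469184) (nat_lit 0) (nat_lit 1545400597239) (nat_lit 1) (nat_lit 5) (nat_lit 3) (nat_lit 4) (nat_lit 1) (nat_lit 4) (nat_lit 451) (nat_lit 286) (nat_lit 283)) (XT.lf (nat_lit 0) (nat_lit 1669674321043) (nat_lit 152) (nat_lit 1306294863493) (nat_lit 0) (nat_lit 1669630351263) (nat_lit 1) (nat_lit 5) (nat_lit 3) (nat_lit 4) (nat_lit 1) (nat_lit 4) (nat_lit 452) (nat_lit 286) (nat_lit 282)))))) (XT.nd (nat_lit 390) (nat_lit 0) (nat_lit 0) (XT.nd (nat_lit 156) (nat_lit 0) (nat_lit 0) (XT.nd (nat_lit 78) (nat_lit 0) (nat_lit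 0) (XT.lf (nat_lit 0) (nat_lit 1803825318058) (nat_lit 152) (nat_lit 1409602593737) (nat_lit 0) (nat_lit 1803772313271) (nat_lit 1) (nat_lit 5) (nat_lit 3) (nat_lit 4) (nat_lit 1) (nat_lit 4) (nat_lit 453) (nat_lit 286) (nat_lit 281)) (XT.lf (nat_lit 0) (nat_lit 1948682769127) (nat_lit 152) (nat_lit 1521226853872) (nat_lit 0) (nat_lit 1948621398592) (nat_lit 1) (nat_lit 5) (nat_lit 3) (nat_lit 4) (nat_lit 1) (nat_lit 4) (nat_lit 454) (nat_lit 286) (nat_lit 280))) (XT.nd (nat_lit 78) (nat_lit 0) (nat_lit 0) (XT.lf (nat_lit 0) (nat_lit 2105105088775) (nat_lit 152) (nat_lit 1641829120995) (nat_lit 0) (nat_lit 2105035972176) (nat_lit 1) (nat_lit 5) (nat_lit 3) (nat_lit 4) (nat_lit 1) (nat_lit 4) (nat_lit 455) (nat_lit 286) (nat_lit 279)) (XT.nd (nat_lit 78) (nat_lit 0) (nat_lit 0) (XT.lf (nat_lit 0) (nat_lit 2274019224081) (nat_lit 152) (nat_lit 1772124075207) (nat_lit 0) (nat_lit 2273942935201)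 (nat_lit 1) (nat_lit 5) (nat_lit 3) (nat_lit 4) (nat_lit 1) (nat_lit 4) (nat_lit 456) (nat_lit 286) (nat_lit 278)) (XT.lf (nat_lit 0) (nat_lit 2456426147698) (nat_lit 152) (nat_lit 1912883834755) (nat_lit 0) (nat_lit 2456343217818) (nat_lit 1) (nat_lit 5) (nat_lit 3) (nat_lit 4) (nat_lit 1) (nat_lit 4) (nat_lit 457) (nat_lit 286) (nat_lit 277))))) (XT.nd (nat_lit 156) (nat_lit 0) (nat_lit 0) (XT.nd (nat_lit 78) (nat_lit 0) (nat_lit 0) (XT.lf (nat_lit 0) (nat_lit 2653406789544) (nat_lit 152) (nat_lit 2064942531549) (nat_lit 0) (nat_lit 2653317710589) (nat_lit 1) (nat_lit 5) (nat_lit 3) (nat_lit 4) (nat_lit 1) (nat_lit 4) (nat_lit 458) (nat_lit 286) (nat_lit 276)) (XT.lf (nat_lit 0) (nat_lit 2866128442313) (nat_lit 152) (nat_lit 2229201254161) (nat_lit 0) (nat_lit 2866033669770) (nat_lit 1) (nat_lit 5) (nat_lit 3) (nat_lit 4) (nat_lit 1) (nat_lit 4) (nat_lit 459) (nat_lit 286) (nat_lit 275)))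 (XT.nd (nat_lit 78) (nat_lit 0) (nat_lit 0) (XT.lf (nat_lit 0) (nat_lit 3095851678760) (nat_lit 152) (nat_lit 2406633387615) (nat_lit 0) (nat_lit 3095751634377) (nat_lit 1) (nat_lit 5) (nat_lit 3) (nat_lit 4) (nat_lit 1) (nat_lit 4) (nat_lit 460) (nat_lit 286) (nat_lit 274)) (XT.nd (nat_lit 51948) (nat_lit 0) (nat_lit 0) (XT.lf (nat_lit 0) (nat_lit 3343937821769) (nat_lit 152) (nat_lit 2598290381590) (nat_lit 0) (nat_lit 3343832896052) (nat_lit 1) (nat_lit 5) (nat_lit 3) (nat_lit 4) (nat_lit 1) (nat_lit 4) (nat_lit 461) (nat_lit 286) (nat_lit 273)) (XT.lf (nat_lit 0) (nat_lit 524497192596) (nat_lit 152) (nat_lit 414893941031) (nat_lit 0) (nat_lit 524497192596) (nat_lit 1) (nat_lit 5) (nat_lit 3) (nat_lit 4) (nat_lit 1) (nat_lit 4) (nat_lit 446) (nat_lit 287) (nat_lit 287))))))) (XT.nd (nat_lit 780) (nat_lit 0) (nat_lit 0) (XT.nd (nat_lit 390) (nat_lit 0) (nat_lit 0) (XT.nd (nat_lit 156)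 (nat_lit 0) (nat_lit 0) (XT.nd (nat_lit 78) (nat_lit 0) (nat_lit 0) (XT.lf (nat_lit 0) (nat_lit 1133671838346) (nat_lit 152) (nat_lit 894606542076) (nat_lit 0) (nat_lit 1133658562955) (nat_lit 1) (nat_lit 5) (nat_lit 3) (nat_lit 4) (nat_lit 1) (nat_lit 4) (nat_lit 447) (nat_lit 287) (nat_lit 286)) (XT.lf (nat_lit 0) (nat_lit 1225085835182) (nat_lit 152) (nat_lit 964686969872) (nat_lit 0) (nat_lit 1225060267762) (nat_lit 1) (nat_lit 5) (nat_lit 3) (nat_lit 4) (nat_lit 1) (nat_lit 4) (nat_lit 448) (nat_lit 287) (nat_lit 285))) (XT.nd (nat_lit 78) (nat_lit 0) (nat_lit 0) (XT.lf (nat_lit 0) (nat_lit 1323778088271) (nat_lit 152) (nat_lit 1040444456875) (nat_lit 0) (nat_lit 1323741139343) (nat_lit 1) (nat_lit 5) (nat_lit 3) (nat_lit 4) (nat_lit 1) (nat_lit 4) (nat_lit 449) (nat_lit 287) (nat_lit 284)) (XT.nd (nat_lit 78) (nat_lit 0) (nat_lit 0) (XT.lf (nat_lit 0) (nat_lit 1430333440597) (nat_lit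 152) (nat_lit 1122327936343) (nat_lit 0) (nat_lit 1430285953235) (nat_lit 1) (nat_lit 5) (nat_lit 3) (nat_lit 4) (nat_lit 1) (nat_lit 4) (nat_lit 450) (nat_lit 287) (nat_lit 283)) (XT.lf (nat_lit 0) (nat_lit 1545383331283) (nat_lit 152) (nat_lit 1210822643707) (nat_lit 0) (nat_lit 1545326086113) (nat_lit 1) (nat_lit 5) (nat_lit 3) (nat_lit 4) (nat_lit 1) (nat_lit 4) (nat_lit 451) (nat_lit 287) (nat_lit 282))))) (XT.nd (nat_lit 156) (nat_lit 0) (nat_lit 0) (XT.nd (nat_lit 78) (nat_lit 0) (nat_lit 0) (XT.lf (nat_lit 0) (nat_lit 1669609537460) (nat_lit 152) (nat_lit 1306452992051) (nat_lit 0) (nat_lit 1669543257282) (nat_lit 1) (nat_lit 5) (nat_lit 3) (nat_lit 4) (nat_lit 1) (nat_lit 4) (nat_lit 452) (nat_lit 287) (nat_lit 281)) (XT.lf (nat_lit 0) (nat_lit 1803748214424) (nat_lit 152) (nat_lit 1409785679733) (nat_lit 0) (nat_lit 1803673568497) (nat_lit 1) (nat_lit 5) (nat_lit 3) (nat_lit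 4) (nat_lit 1) (nat_lit 4) (nat_lit 453) (nat_lit 287) (nat_lit 280))) (XT.nd (nat_lit 78) (nat_lit 0) (nat_lit 0) (XT.lf (nat_lit 0) (nat_lit 1948594258038) (nat_lit 152) (nat_lit 1521433048606) (nat_lit 0) (nat_lit 1948511866048) (nat_lit 1) (nat_lit 5) (nat_lit 3) (nat_lit 4) (nat_lit 1) (nat_lit 4) (nat_lit 454) (nat_lit 287) (nat_lit 279)) (XT.nd (nat_lit 78) (nat_lit 0) (nat_lit 0) (XT.lf (nat_lit 0) (nat_lit 2105006015227) (nat_lit 152) (nat_lit 1642056712709) (nat_lit 0) (nat_lit 2104916450956) (nat_lit 1) (nat_lit 5) (nat_lit 3) (nat_lit 4) (nat_lit 1) (nat_lit 4) (nat_lit 455) (nat_lit 287) (nat_lit 278)) (XT.lf (nat_lit 0) (nat_lit 2273910370479) (nat_lit 152) (nat_lit 1772371478941) (nat_lit 0) (nat_lit 2273814165207) (nat_lit 1) (nat_lit 5) (nat_lit 3) (nat_lit 4) (nat_lit 1) (nat_lit 4) (nat_lit 456) (nat_lit 287) (nat_lit 277)))))) (XT.nd (nat_lit 52104) (nat_lit 0) (nat_lit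 0) (XT.nd (nat_lit 156) (nat_lit 0) (nat_lit 0) (XT.nd (nat_lit 78) (nat_lit 0) (nat_lit 0) (XT.lf (nat_lit 0) (nat_lit 2456308238490) (nat_lit 152) (nat_lit 1913149582951) (nat_lit 0) (nat_lit 2456205884144) (nat_lit 1) (nat_lit 5) (nat_lit 3) (nat_lit 4) (nat_lit 1) (nat_lit 4) (nat_lit 457) (nat_lit 287) (nat_lit 276)) (XT.lf (nat_lit 0) (nat_lit 2653280495516) (nat_lit 152) (nat_lit 2065225265358) (nat_lit 0) (nat_lit 2653172447583) (nat_lit 1) (nat_lit 5) (nat_lit 3) (nat_lit 4) (nat_lit 1) (nat_lit 4) (nat_lit 458) (nat_lit 287) (nat_lit 275))) (XT.nd (nat_lit 78) (nat_lit 0) (nat_lit 0) (XT.lf (nat_lit 0) (nat_lit 2865994384562) (nat_lit 152) (nat_lit 2229499715390) (nat_lit 0) (nat_lit 2865881064788) (nat_lit 1) (nat_lit 5) (nat_lit 3) (nat_lit 4) (nat_lit 1) (nat_lit 4) (nat_lit 459) (nat_lit 287) (nat_lit 274)) (XT.nd (nat_lit 78) (nat_lit 0) (nat_lit 0) (XT.lf (nat_lit 0) (nat_lit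 3095710432378) (nat_lit 152) (nat_lit 2406946411269) (nat_lit 0) (nat_lit 3095592231270) (nat_lit 1) (nat_lit 5) (nat_lit 3) (nat_lit 4) (nat_lit 1) (nat_lit 4) (nat_lit 460) (nat_lit 287) (nat_lit 273)) (XT.lf (nat_lit 0) (nat_lit 3343789919246) (nat_lit 152) (nat_lit 2598616888972) (nat_lit 0) (nat_lit 3343667198385) (nat_lit 1) (nat_lit 5) (nat_lit 3) (nat_lit 4) (nat_lit 1) (nat_lit 4) (nat_lit 461) (nat_lit 287) (nat_lit 272))))) (XT.nd (nat_lit 156) (nat_lit 0) (nat_lit 0) (XT.nd (nat_lit 78) (nat_lit 0) (nat_lit 0) (XT.lf (nat_lit 0) (nat_lit 448957169583) (nat_lit 152) (nat_lit 357192777524) (nat_lit 0) (nat_lit 448957169583) (nat_lit 1) (nat_lit 5) (nat_lit 3) (nat_lit 4) (nat_lit 1) (nat_lit 4) (nat_lit 444) (nat_lit 288) (nat_lit 288)) (XT.lf (nat_lit 0) (nat_lit 970566020826) (nat_lit 152) (nat_lit 769846879256) (nat_lit 0) (nat_lit 970551683403) (nat_lit 1) (nat_lit 5) (nat_lit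 3) (nat_lit 4) (nat_lit 1) (nat_lit 4) (nat_lit 445) (nat_lit 288) (nat_lit 287))) (XT.nd (nat_lit 78) (nat_lit 0) (nat_lit 0) (XT.lf (nat_lit 0) (nat_lit 1048989172241) (nat_lit 152) (nat_lit 829827486381) (nat_lit 0) (nat_lit 1048961559427) (nat_lit 1) (nat_lit 5) (nat_lit 3) (nat_lit 4) (nat_lit 1) (nat_lit 4) (nat_lit 446) (nat_lit 288) (nat_lit 286)) (XT.nd (nat_lit 78) (nat_lit 0) (nat_lit 0) (XT.lf (nat_lit 0) (nat_lit 1133648523197) (nat_lit 152) (nat_lit 894682817058) (nat_lit 0) (nat_lit 1133608618355) (nat_lit 1) (nat_lit 5) (nat_lit 3) (nat_lit 4) (nat_lit 1) (nat_lit 4) (nat_lit 447) (nat_lit 288) (nat_lit 285)) (XT.lf (nat_lit 0) (nat_lit 1225045758738) (nat_lit 152) (nat_lit 964797199173) (nat_lit 0) (nat_lit 1224994472388) (nat_lit 1) (nat_lit 5) (nat_lit 3) (nat_lit 4) (nat_lit 1) (nat_lit 4) (nat_lit 448) (nat_lit 288) (nat_lit 284))))))))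
noncomputable def xc2 : XT := (XT.nd (nat_lit 53040) (nat_lit 0) (nat_lit 0) (XT.nd (nat_lit 702) (nat_lit 0) (nat_lit 0) (XT.nd (nat_lit 312) (nat_lit 0) (nat_lit 0) (XT.nd (nat_lit 156) (nat_lit 0) (nat_lit 0) (XT.nd (nat_lit 78) (nat_lit 0) (nat_lit 0) (XT.lf (nat_lit 0) (nat_lit 1323722492111) (nat_lit 152) (nat_lit 1040586125361) (nat_lit 0) (nat_lit 1323660667327) (nat_lit 1) (nat_lit 5) (nat_lit 3) (nat_lit 4) (nat_lit 1) (nat_lit 4) (nat_lit 449) (nat_lit 288) (nat_lit 283)) (XT.lf (nat_lit 0) (nat_lit 1430263474328) (nat_lit 152) (nat_lit 1122498715184) (nat_lit 0) (nat_lit 1430191891735) (nat_lit 1) (nat_lit 5) (nat_lit 3) (nat_lit 4) (nat_lit 1) (nat_lit 4) (nat_lit 450) (nat_lit 288) (nat_lit 282))) (XT.nd (nat_lit 78) (nat_lit 0) (nat_lit 0) (XT.lf (nat_lit 0) (nat_lit 1545300059359) (nat_lit 152) (nat_lit 1211020376582) (nat_lit 0) (nat_lit 1545219441758) (nat_lit 1) (nat_lit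 5) (nat_lit 3) (nat_lit 4) (nat_lit 1) (nat_lit 4) (nat_lit 451) (nat_lit 288) (nat_lit 281)) (XT.lf (nat_lit 0) (nat_lit 1669513945484) (nat_lit 152) (nat_lit 1306675682364) (nat_lit 0) (nat_lit 1669424962135) (nat_lit 1) (nat_lit 5) (nat_lit 3) (nat_lit 4) (nat_lit 1) (nat_lit 4) (nat_lit 452) (nat_lit 288) (nat_lit 280)))) (XT.nd (nat_lit 156) (nat_lit 0) (nat_lit 0) (XT.nd (nat_lit 78) (nat_lit 0) (nat_lit 0) (XT.lf (nat_lit 0) (nat_lit 1803641214993) (nat_lit 152) (nat_lit 1410031478785) (nat_lit 0) (nat_lit 1803544485580) (nat_lit 1) (nat_lit 5) (nat_lit 3) (nat_lit 4) (nat_lit 1) (nat_lit 4) (nat_lit 453) (nat_lit 288) (nat_lit 279)) (XT.lf (nat_lit 0) (nat_lit 1948476696148) (nat_lit 152) (nat_lit 1521700244639) (nat_lit 0) (nat_lit 1948372794455) (nat_lit 1) (nat_lit 5) (nat_lit 3) (nat_lit 4) (nat_lit 1) (nat_lit 4) (nat_lit 454) (nat_lit 288) (nat_lit 278))) (XT.nd (nat_lit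 78) (nat_lit 0) (nat_lit 0) (XT.lf (nat_lit 0) (nat_lit 2104878673283) (nat_lit 152) (nat_lit 1642343720761) (nat_lit 0) (nat_lit 2104768130589) (nat_lit 1) (nat_lit 5) (nat_lit 3) (nat_lit 4) (nat_lit 1) (nat_lit 4) (nat_lit 455) (nat_lit 288) (nat_lit 277)) (XT.nd (nat_lit 78) (nat_lit 0) (nat_lit 0) (XT.lf (nat_lit 0) (nat_lit 2273773972928) (nat_lit 152) (nat_lit 1772676831454) (nat_lit 0) (nat_lit 2273657281160) (nat_lit 1) (nat_lit 5) (nat_lit 3) (nat_lit 4) (nat_lit 1) (nat_lit 4) (nat_lit 456) (nat_lit 288) (nat_lit 276)) (XT.lf (nat_lit 0) (nat_lit 2456163456120) (nat_lit 152) (nat_lit 1913471921078) (nat_lit 0) (nat_lit 2456041070763) (nat_lit 1) (nat_lit 5) (nat_lit 3) (nat_lit 4) (nat_lit 1) (nat_lit 4) (nat_lit 457) (nat_lit 288) (nat_lit 275)))))) (XT.nd (nat_lit 51948) (nat_lit 0) (nat_lit 0) (XT.nd (nat_lit 156) (nat_lit 0) (nat_lit 0) (XT.nd (nat_lit 78) (nat_lit 0) (nat_lit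 0) (XT.lf (nat_lit 0) (nat_lit 2653127949424) (nat_lit 152) (nat_lit 2065563330904) (nat_lit 0) (nat_lit 2653000292227) (nat_lit 1) (nat_lit 5) (nat_lit 3) (nat_lit 4) (nat_lit 1) (nat_lit 4) (nat_lit 458) (nat_lit 288) (nat_lit 274)) (XT.lf (nat_lit 0) (nat_lit 2865834649838) (nat_lit 152) (nat_lit 2229852343362) (nat_lit 0) (nat_lit 2865702111307) (nat_lit 1) (nat_lit 5) (nat_lit 3) (nat_lit 4) (nat_lit 1) (nat_lit 4) (nat_lit 459) (nat_lit 288) (nat_lit 273))) (XT.nd (nat_lit 78) (nat_lit 0) (nat_lit 0) (XT.lf (nat_lit 0) (nat_lit 3095544041513) (nat_lit 152) (nat_lit 2407312522968) (nat_lit 0) (nat_lit 3095406983229) (nat_lit 1) (nat_lit 5) (nat_lit 3) (nat_lit 4) (nat_lit 1) (nat_lit 4) (nat_lit 460) (nat_lit 288) (nat_lit 272)) (XT.nd (nat_lit 51636) (nat_lit 0) (nat_lit 0) (XT.lf (nat_lit 0) (nat_lit 3343617365288) (nat_lit 152) (nat_lit 2598995485603) (nat_lit 0) (nat_lit 3343476122047)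 (nat_lit 1) (nat_lit 5) (nat_lit 3) (nat_lit 4) (nat_lit 1) (nat_lit 4) (nat_lit 461) (nat_lit 288) (nat_lit 271)) (XT.lf (nat_lit 0) (nat_lit 384136604586) (nat_lit 152) (nat_lit 307842377718) (nat_lit 0) (nat_lit 384136604586) (nat_lit 1) (nat_lit 5) (nat_lit 3) (nat_lit 4) (nat_lit 1) (nat_lit 4) (nat_lit 442) (nat_lit 289) (nat_lit 289))))) (XT.nd (nat_lit 156) (nat_lit 0) (nat_lit 0) (XT.nd (nat_lit 78) (nat_lit 0) (nat_lit 0) (XT.lf (nat_lit 0) (nat_lit 830619083195) (nat_lit 152) (nat_lit 663114854059) (nat_lit 0) (nat_lit 830603598779) (nat_lit 1) (nat_lit 5) (nat_lit 3) (nat_lit 4) (nat_lit 1) (nat_lit 4) (nat_lit 443) (nat_lit 289) (nat_lit 288)) (XT.lf (nat_lit 0) (nat_lit 897908709179) (nat_lit 152) (nat_lit 714428327711) (nat_lit 0) (nat_lit 897878887340) (nat_lit 1) (nat_lit 5) (nat_lit 3) (nat_lit 4) (nat_lit 1) (nat_lit 4) (nat_lit 444) (nat_lit 289) (nat_lit 287))) (XT.nd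 (nat_lit 78) (nat_lit 0) (nat_lit 0) (XT.lf (nat_lit 0) (nat_lit 970540840465) (nat_lit 152) (nat_lit 769929256237) (nat_lit 0) (nat_lit 970497743235) (nat_lit 1) (nat_lit 5) (nat_lit 3) (nat_lit 4) (nat_lit 1) (nat_lit 4) (nat_lit 445) (nat_lit 289) (nat_lit 286)) (XT.nd (nat_lit 78) (nat_lit 0) (nat_lit 0) (XT.lf (nat_lit 0) (nat_lit 1048945889682) (nat_lit 152) (nat_lit 829946534026) (nat_lit 0) (nat_lit 1048890500423) (nat_lit 1) (nat_lit 5) (nat_lit 3) (nat_lit 4) (nat_lit 1) (nat_lit 4) (nat_lit 446) (nat_lit 289) (nat_lit 285)) (XT.lf (nat_lit 0) (nat_lit 1133588479344) (nat_lit 152) (nat_lit 894835819023) (nat_lit 0) (nat_lit 1133521708577) (nat_lit 1) (nat_lit 5) (nat_lit 3) (nat_lit 4) (nat_lit 1) (nat_lit 4) (nat_lit 447) (nat_lit 289) (nat_lit 284))))))) (XT.nd (nat_lit 780) (nat_lit 0) (nat_lit 0) (XT.nd (nat_lit 390) (nat_lit 0) (nat_lit 0) (XT.nd (nat_lit 156) (nat_lit 0)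 (nat_lit 0) (XT.nd (nat_lit 78) (nat_lit 0) (nat_lit 0) (XT.lf (nat_lit 0) (nat_lit 1224970195168) (nat_lit 152) (nat_lit 964981640322) (nat_lit 0) (nat_lit 1224892885968) (nat_lit 1) (nat_lit 5) (nat_lit 3) (nat_lit 4) (nat_lit 1) (nat_lit 4) (nat_lit 448) (nat_lit 289) (nat_lit 283)) (XT.lf (nat_lit 0) (nat_lit 1323632558432) (nat_lit 152) (nat_lit 1040799676866) (nat_lit 0) (nat_lit 1323545491423) (nat_lit 1) (nat_lit 5) (nat_lit 3) (nat_lit 4) (nat_lit 1) (nat_lit 4) (nat_lit 449) (nat_lit 289) (nat_lit 282))) (XT.nd (nat_lit 78) (nat_lit 0) (nat_lit 0) (XT.lf (nat_lit 0) (nat_lit 1430160234994) (nat_lit 152) (nat_lit 1122739220722) (nat_lit 0) (nat_lit 1430064132977) (nat_lit 1) (nat_lit 5) (nat_lit 3) (nat_lit 4) (nat_lit 1) (nat_lit 4) (nat_lit 450) (nat_lit 289) (nat_lit 281)) (XT.nd (nat_lit 78) (nat_lit 0) (nat_lit 0) (XT.lf (nat_lit 0) (nat_lit 1545184499973) (nat_lit 152) (nat_lit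 1211285839559) (nat_lit 0) (nat_lit 1545080032207) (nat_lit 1) (nat_lit 5) (nat_lit 3) (nat_lit 4) (nat_lit 1) (nat_lit 4) (nat_lit 451) (nat_lit 289) (nat_lit 280)) (XT.lf (nat_lit 0) (nat_lit 1669386978643) (nat_lit 152) (nat_lit 1306964254079) (nat_lit 0) (nat_lit 1669274764814) (nat_lit 1) (nat_lit 5) (nat_lit 3) (nat_lit 4) (nat_lit 1) (nat_lit 4) (nat_lit 452) (nat_lit 289) (nat_lit 279))))) (XT.nd (nat_lit 156) (nat_lit 0) (nat_lit 0) (XT.nd (nat_lit 78) (nat_lit 0) (nat_lit 0) (XT.lf (nat_lit 0) (nat_lit 1803503685693) (nat_lit 152) (nat_lit 1410341447480) (nat_lit 0) (nat_lit 1803384299583) (nat_lit 1) (nat_lit 5) (nat_lit 3) (nat_lit 4) (nat_lit 1) (nat_lit 4) (nat_lit 453) (nat_lit 289) (nat_lit 278)) (XT.lf (nat_lit 0) (nat_lit 1948329386794) (nat_lit 152) (nat_lit 1522030025354) (nat_lit 0) (nat_lit 1948203359684) (nat_lit 1) (nat_lit 5) (nat_lit 3) (nat_lit 4) (nat_lit 1)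 (nat_lit 4) (nat_lit 454) (nat_lit 289) (nat_lit 277))) (XT.nd (nat_lit 78) (nat_lit 0) (nat_lit 0) (XT.lf (nat_lit 0) (nat_lit 2104722308323) (nat_lit 152) (nat_lit 1642691845938) (nat_lit 0) (nat_lit 2104590132138) (nat_lit 1) (nat_lit 5) (nat_lit 3) (nat_lit 4) (nat_lit 1) (nat_lit 4) (nat_lit 455) (nat_lit 289) (nat_lit 276)) (XT.nd (nat_lit 78) (nat_lit 0) (nat_lit 0) (XT.lf (nat_lit 0) (nat_lit 2273609223148) (nat_lit 152) (nat_lit 1773041942244) (nat_lit 0) (nat_lit 2273471353376) (nat_lit 1) (nat_lit 5) (nat_lit 3) (nat_lit 4) (nat_lit 1) (nat_lit 4) (nat_lit 456) (nat_lit 289) (nat_lit 275)) (XT.lf (nat_lit 0) (nat_lit 2455990942617) (nat_lit 152) (nat_lit 1913852759288) (nat_lit 0) (nat_lit 2455847801004) (nat_lit 1) (nat_lit 5) (nat_lit 3) (nat_lit 4) (nat_lit 1) (nat_lit 4) (nat_lit 457) (nat_lit 289) (nat_lit 274)))))) (XT.nd (nat_lit 51792) (nat_lit 0) (nat_lit 0) (XT.nd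 (nat_lit 156) (nat_lit 0) (nat_lit 0) (XT.nd (nat_lit 78) (nat_lit 0) (nat_lit 0) (XT.lf (nat_lit 0) (nat_lit 2652948247289) (nat_lit 152) (nat_lit 2065958731539) (nat_lit 0) (nat_lit 2652800224343) (nat_lit 1) (nat_lit 5) (nat_lit 3) (nat_lit 4) (nat_lit 1) (nat_lit 4) (nat_lit 458) (nat_lit 289) (nat_lit 273)) (XT.lf (nat_lit 0) (nat_lit 2865648291563) (nat_lit 152) (nat_lit 2230261227724) (nat_lit 0) (nat_lit 2865495748863) (nat_lit 1) (nat_lit 5) (nat_lit 3) (nat_lit 4) (nat_lit 1) (nat_lit 4) (nat_lit 459) (nat_lit 289) (nat_lit 272))) (XT.nd (nat_lit 78) (nat_lit 0) (nat_lit 0) (XT.lf (nat_lit 0) (nat_lit 3095351520145) (nat_lit 152) (nat_lit 2407733892263) (nat_lit 0) (nat_lit 3095194792487) (nat_lit 1) (nat_lit 5) (nat_lit 3) (nat_lit 4) (nat_lit 1) (nat_lit 4) (nat_lit 460) (nat_lit 289) (nat_lit 271)) (XT.nd (nat_lit 51480) (nat_lit 0) (nat_lit 0) (XT.lf (nat_lit 0) (nat_lit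 3343419137352) (nat_lit 152) (nat_lit 2599428415021) (nat_lit 0) (nat_lit 3343258534735) (nat_lit 1) (nat_lit 5) (nat_lit 3) (nat_lit 4) (nat_lit 1) (nat_lit 4) (nat_lit 461) (nat_lit 289) (nat_lit 270)) (XT.lf (nat_lit 0) (nat_lit 328501673416) (nat_lit 152) (nat_lit 265660935624) (nat_lit 0) (nat_lit 328501673416) (nat_lit 1) (nat_lit 5) (nat_lit 3) (nat_lit 4) (nat_lit 1) (nat_lit 4) (nat_lit 440) (nat_lit 290) (nat_lit 290))))) (XT.nd (nat_lit 156) (nat_lit 0) (nat_lit 0) (XT.nd (nat_lit 78) (nat_lit 0) (nat_lit 0) (XT.lf (nat_lit 0) (nat_lit 710518353251) (nat_lit 152) (nat_lit 571856964592) (nat_lit 0) (nat_lit 710501630082) (nat_lit 1) (nat_lit 5) (nat_lit 3) (nat_lit 4) (nat_lit 1) (nat_lit 4) (nat_lit 441) (nat_lit 290) (nat_lit 289)) (XT.lf (nat_lit 0) (nat_lit 768267128786) (nat_lit 152) (nat_lit 615730949913) (nat_lit 0) (nat_lit 768234921201) (nat_lit 1) (nat_lit 5) (nat_lit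 3) (nat_lit 4) (nat_lit 1) (nat_lit 4) (nat_lit 442) (nat_lit 290) (nat_lit 288))) (XT.nd (nat_lit 78) (nat_lit 0) (nat_lit 0) (XT.lf (nat_lit 0) (nat_lit 830591888405) (nat_lit 152) (nat_lit 663203821199) (nat_lit 0) (nat_lit 830545343397) (nat_lit 1) (nat_lit 5) (nat_lit 3) (nat_lit 4) (nat_lit 1) (nat_lit 4) (nat_lit 443) (nat_lit 290) (nat_lit 287)) (XT.nd (nat_lit 78) (nat_lit 0) (nat_lit 0) (XT.lf (nat_lit 0) (nat_lit 897861964015) (nat_lit 152) (nat_lit 714556899169) (nat_lit 0) (nat_lit 897802143616) (nat_lit 1) (nat_lit 5) (nat_lit 3) (nat_lit 4) (nat_lit 1) (nat_lit 4) (nat_lit 444) (nat_lit 290) (nat_lit 286)) (XT.lf (nat_lit 0) (nat_lit 970475993103) (nat_lit 152) (nat_lit 770094498358) (nat_lit 0) (nat_lit 970403880675) (nat_lit 1) (nat_lit 5) (nat_lit 3) (nat_lit 4) (nat_lit 1) (nat_lit 4) (nat_lit 445) (nat_lit 290) (nat_lit 285))))))))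
noncomputable def xc3 : XT := (XT.nd (nat_lit 52728) (nat_lit 0) (nat_lit 0) (XT.nd (nat_lit 702) (nat_lit 0) (nat_lit 0) (XT.nd (nat_lit 312) (nat_lit 0) (nat_lit 0) (XT.nd (nat_lit 156) (nat_lit 0) (nat_lit 0) (XT.nd (nat_lit 78) (nat_lit 0) (nat_lit 0) (XT.lf (nat_lit 0) (nat_lit 1048864281026) (nat_lit 152) (nat_lit 830145730467) (nat_lit 0) (nat_lit 1048780787090) (nat_lit 1) (nat_lit 5) (nat_lit 3) (nat_lit 4) (nat_lit 1) (nat_lit 4) (nat_lit 446) (nat_lit 290) (nat_lit 284)) (XT.lf (nat_lit 0) (nat_lit 1133491350971) (nat_lit 152) (nat_lit 895066454648) (nat_lit 0) (nat_lit 1133397318601) (nat_lit 1) (nat_lit 5) (nat_lit 3) (nat_lit 4) (nat_lit 1) (nat_lit 4) (nat_lit 447) (nat_lit 290) (nat_lit 283))) (XT.nd (nat_lit 78) (nat_lit 0) (nat_lit 0) (XT.lf (nat_lit 0) (nat_lit 1224858696687) (nat_lit 152) (nat_lit 965241386303) (nat_lit 0) (nat_lit 1224754906508) (nat_lit 1) (nat_lit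 5) (nat_lit 3) (nat_lit 4) (nat_lit 1) (nat_lit 4) (nat_lit 448) (nat_lit 290) (nat_lit 282)) (XT.lf (nat_lit 0) (nat_lit 1323507754295) (nat_lit 152) (nat_lit 1041086376880) (nat_lit 0) (nat_lit 1323394929109) (nat_lit 1) (nat_lit 5) (nat_lit 3) (nat_lit 4) (nat_lit 1) (nat_lit 4) (nat_lit 449) (nat_lit 290) (nat_lit 281)))) (XT.nd (nat_lit 156) (nat_lit 0) (nat_lit 0) (XT.nd (nat_lit 78) (nat_lit 0) (nat_lit 0) (XT.lf (nat_lit 0) (nat_lit 1430023110805) (nat_lit 152) (nat_lit 1123050878175) (nat_lit 0) (nat_lit 1429901919870) (nat_lit 1) (nat_lit 5) (nat_lit 3) (nat_lit 4) (nat_lit 1) (nat_lit 4) (nat_lit 450) (nat_lit 290) (nat_lit 280)) (XT.lf (nat_lit 0) (nat_lit 1545035968329) (nat_lit 152) (nat_lit 1211620605750) (nat_lit 0) (nat_lit 1544907031330) (nat_lit 1) (nat_lit 5) (nat_lit 3) (nat_lit 4) (nat_lit 1) (nat_lit 4) (nat_lit 451) (nat_lit 290) (nat_lit 279))) (XT.nd (nat_lit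 78) (nat_lit 0) (nat_lit 0) (XT.lf (nat_lit 0) (nat_lit 1669227884540) (nat_lit 152) (nat_lit 1307320417251) (nat_lit 0) (nat_lit 1669091775261) (nat_lit 1) (nat_lit 5) (nat_lit 3) (nat_lit 4) (nat_lit 1) (nat_lit 4) (nat_lit 452) (nat_lit 290) (nat_lit 278)) (XT.nd (nat_lit 78) (nat_lit 0) (nat_lit 0) (XT.lf (nat_lit 0) (nat_lit 1803334811536) (nat_lit 152) (nat_lit 1410717422672) (nat_lit 0) (nat_lit 1803192061256) (nat_lit 1) (nat_lit 5) (nat_lit 3) (nat_lit 4) (nat_lit 1) (nat_lit 4) (nat_lit 453) (nat_lit 290) (nat_lit 277)) (XT.lf (nat_lit 0) (nat_lit 1948151457031) (nat_lit 152) (nat_lit 1522424345007) (nat_lit 0) (nat_lit 1948002557677) (nat_lit 1) (nat_lit 5) (nat_lit 3) (nat_lit 4) (nat_lit 1) (nat_lit 4) (nat_lit 454) (nat_lit 290) (nat_lit 276)))))) (XT.nd (nat_lit 390) (nat_lit 0) (nat_lit 0) (XT.nd (nat_lit 156) (nat_lit 0) (nat_lit 0) (XT.nd (nat_lit 78) (nat_lit 0) (nat_lit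 0) (XT.lf (nat_lit 0) (nat_lit 2104535993740) (nat_lit 152) (nat_lit 1643103151205) (nat_lit 0) (nat_lit 2104381400798) (nat_lit 1) (nat_lit 5) (nat_lit 3) (nat_lit 4) (nat_lit 1) (nat_lit 4) (nat_lit 455) (nat_lit 290) (nat_lit 275)) (XT.lf (nat_lit 0) (nat_lit 2273415144843) (nat_lit 152) (nat_lit 1773468974930) (nat_lit 0) (nat_lit 2273255280060) (nat_lit 1) (nat_lit 5) (nat_lit 3) (nat_lit 4) (nat_lit 1) (nat_lit 4) (nat_lit 456) (nat_lit 290) (nat_lit 274))) (XT.nd (nat_lit 78) (nat_lit 0) (nat_lit 0) (XT.lf (nat_lit 0) (nat_lit 2455789675680) (nat_lit 152) (nat_lit 1914294354399) (nat_lit 0) (nat_lit 2455624929564) (nat_lit 1) (nat_lit 5) (nat_lit 3) (nat_lit 4) (nat_lit 1) (nat_lit 4) (nat_lit 457) (nat_lit 290) (nat_lit 273)) (XT.nd (nat_lit 78) (nat_lit 0) (nat_lit 0) (XT.lf (nat_lit 0) (nat_lit 2652740324212) (nat_lit 152) (nat_lit 2066413810378) (nat_lit 0) (nat_lit 2652571058342)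 (nat_lit 1) (nat_lit 5) (nat_lit 3) (nat_lit 4) (nat_lit 1) (nat_lit 4) (nat_lit 458) (nat_lit 290) (nat_lit 272)) (XT.lf (nat_lit 0) (nat_lit 2865434205392) (nat_lit 152) (nat_lit 2230728791495) (nat_lit 0) (nat_lit 2865260754565) (nat_lit 1) (nat_lit 5) (nat_lit 3) (nat_lit 4) (nat_lit 1) (nat_lit 4) (nat_lit 459) (nat_lit 290) (nat_lit 271))))) (XT.nd (nat_lit 51402) (nat_lit 0) (nat_lit 0) (XT.nd (nat_lit 78) (nat_lit 0) (nat_lit 0) (XT.lf (nat_lit 0) (nat_lit 3095131727406) (nat_lit 152) (nat_lit 2408213016157) (nat_lit 0) (nat_lit 3094954401619) (nat_lit 1) (nat_lit 5) (nat_lit 3) (nat_lit 4) (nat_lit 1) (nat_lit 4) (nat_lit 460) (nat_lit 290) (nat_lit 270)) (XT.lf (nat_lit 0) (nat_lit 3343194060754) (nat_lit 152) (nat_lit 2599918242733) (nat_lit 0) (nat_lit 3343013147042) (nat_lit 1) (nat_lit 5) (nat_lit 3) (nat_lit 4) (nat_lit 1) (nat_lit 4) (nat_lit 461) (nat_lit 290) (nat_lit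 269))) (XT.nd (nat_lit 78) (nat_lit 0) (nat_lit 0) (XT.lf (nat_lit 0) (nat_lit 280737003160) (nat_lit 152) (nat_lit 229636004995) (nat_lit 0) (nat_lit 280737003160) (nat_lit 1) (nat_lit 5) (nat_lit 3) (nat_lit 4) (nat_lit 1) (nat_lit 4) (nat_lit 438) (nat_lit 291) (nat_lit 291)) (XT.nd (nat_lit 78) (nat_lit 0) (nat_lit 0) (XT.lf (nat_lit 0) (nat_lit 607423044592) (nat_lit 152) (nat_lit 493885461924) (nat_lit 0) (nat_lit 607404983569) (nat_lit 1) (nat_lit 5) (nat_lit 3) (nat_lit 4) (nat_lit 1) (nat_lit 4) (nat_lit 439) (nat_lit 291) (nat_lit 290)) (XT.lf (nat_lit 0) (nat_lit 656996780016) (nat_lit 152) (nat_lit 531371761284) (nat_lit 0) (nat_lit 656961995824) (nat_lit 1) (nat_lit 5) (nat_lit 3) (nat_lit 4) (nat_lit 1) (nat_lit 4) (nat_lit 440) (nat_lit 291) (nat_lit 289))))))) (XT.nd (nat_lit 780) (nat_lit 0) (nat_lit 0) (XT.nd (nat_lit 390) (nat_lit 0) (nat_lit 0) (XT.nd (nat_lit 156)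 (nat_lit 0) (nat_lit 0) (XT.nd (nat_lit 78) (nat_lit 0) (nat_lit 0) (XT.lf (nat_lit 0) (nat_lit 710488982878) (nat_lit 152) (nat_lit 571953049103) (nat_lit 0) (nat_lit 710438714269) (nat_lit 1) (nat_lit 5) (nat_lit 3) (nat_lit 4) (nat_lit 1) (nat_lit 4) (nat_lit 441) (nat_lit 291) (nat_lit 288)) (XT.lf (nat_lit 0) (nat_lit 768216644010) (nat_lit 152) (nat_lit 615869807087) (nat_lit 0) (nat_lit 768152037978) (nat_lit 1) (nat_lit 5) (nat_lit 3) (nat_lit 4) (nat_lit 1) (nat_lit 4) (nat_lit 442) (nat_lit 291) (nat_lit 287))) (XT.nd (nat_lit 78) (nat_lit 0) (nat_lit 0) (XT.lf (nat_lit 0) (nat_lit 830521853254) (nat_lit 152) (nat_lit 663382282690) (nat_lit 0) (nat_lit 830443971832) (nat_lit 1) (nat_lit 5) (nat_lit 3) (nat_lit 4) (nat_lit 1) (nat_lit 4) (nat_lit 443) (nat_lit 291) (nat_lit 286)) (XT.nd (nat_lit 78) (nat_lit 0) (nat_lit 0) (XT.lf (nat_lit 0) (nat_lit 897773826667) (nat_lit 152)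 (nat_lit 714772031325) (nat_lit 0) (nat_lit 897683653216) (nat_lit 1) (nat_lit 5) (nat_lit 3) (nat_lit 4) (nat_lit 1) (nat_lit 4) (nat_lit 444) (nat_lit 291) (nat_lit 285)) (XT.lf (nat_lit 0) (nat_lit 970371094461) (nat_lit 152) (nat_lit 770343584834) (nat_lit 0) (nat_lit 970269539501) (nat_lit 1) (nat_lit 5) (nat_lit 3) (nat_lit 4) (nat_lit 1) (nat_lit 4) (nat_lit 445) (nat_lit 291) (nat_lit 284))))) (XT.nd (nat_lit 156) (nat_lit 0) (nat_lit 0) (XT.nd (nat_lit 78) (nat_lit 0) (nat_lit 0) (XT.lf (nat_lit 0) (nat_lit 1048743862666) (nat_lit 152) (nat_lit 830426256127) (nat_lit 0) (nat_lit 1048631769273) (nat_lit 1) (nat_lit 5) (nat_lit 3) (nat_lit 4) (nat_lit 1) (nat_lit 4) (nat_lit 446) (nat_lit 291) (nat_lit 283)) (XT.lf (nat_lit 0) (nat_lit 1133356562503) (nat_lit 152) (nat_lit 895376090663) (nat_lit 0) (nat_lit 1133234711302) (nat_lit 1) (nat_lit 5) (nat_lit 3) (nat_lit 4) (nat_lit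 1) (nat_lit 4) (nat_lit 447) (nat_lit 291) (nat_lit 282))) (XT.nd (nat_lit 78) (nat_lit 0) (nat_lit 0) (XT.lf (nat_lit 0) (nat_lit 1224710602563) (nat_lit 152) (nat_lit 965577976352) (nat_lit 0) (nat_lit 1224579716353) (nat_lit 1) (nat_lit 5) (nat_lit 3) (nat_lit 4) (nat_lit 1) (nat_lit 4) (nat_lit 448) (nat_lit 291) (nat_lit 281)) (XT.nd (nat_lit 78) (nat_lit 0) (nat_lit 0) (XT.lf (nat_lit 0) (nat_lit 1323347340120) (nat_lit 152) (nat_lit 1041447924367) (nat_lit 0) (nat_lit 1323208088162) (nat_lit 1) (nat_lit 5) (nat_lit 3) (nat_lit 4) (nat_lit 1) (nat_lit 4) (nat_lit 449) (nat_lit 291) (nat_lit 280)) (XT.lf (nat_lit 0) (nat_lit 1429851289174) (nat_lit 152) (nat_lit 1123435534401) (nat_lit 0) (nat_lit 1429704291153) (nat_lit 1) (nat_lit 5) (nat_lit 3) (nat_lit 4) (nat_lit 1) (nat_lit 4) (nat_lit 450) (nat_lit 291) (nat_lit 279)))))) (XT.nd (nat_lit 390) (nat_lit 0) (nat_lit 0) (XT.nd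 (nat_lit 156) (nat_lit 0) (nat_lit 0) (XT.nd (nat_lit 78) (nat_lit 0) (nat_lit 0) (XT.lf (nat_lit 0) (nat_lit 1544853584239) (nat_lit 152) (nat_lit 1212026658957) (nat_lit 0) (nat_lit 1544699413937) (nat_lit 1) (nat_lit 5) (nat_lit 3) (nat_lit 4) (nat_lit 1) (nat_lit 4) (nat_lit 451) (nat_lit 291) (nat_lit 278)) (XT.lf (nat_lit 0) (nat_lit 1669035720396) (nat_lit 152) (nat_lit 1307746282477) (nat_lit 0) (nat_lit 1668874909094) (nat_lit 1) (nat_lit 5) (nat_lit 3) (nat_lit 4) (nat_lit 1) (nat_lit 4) (nat_lit 452) (nat_lit 291) (nat_lit 277))) (XT.nd (nat_lit 78) (nat_lit 0) (nat_lit 0) (XT.lf (nat_lit 0) (nat_lit 1803133591786) (nat_lit 152) (nat_lit 1411161632359) (nat_lit 0) (nat_lit 1802966631409) (nat_lit 1) (nat_lit 5) (nat_lit 3) (nat_lit 4) (nat_lit 1) (nat_lit 4) (nat_lit 453) (nat_lit 291) (nat_lit 276)) (XT.nd (nat_lit 78) (nat_lit 0) (nat_lit 0) (XT.lf (nat_lit 0) (nat_lit 1947941852461)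 (nat_lit 152) (nat_lit 1522885540308) (nat_lit 0) (nat_lit 1947769198496) (nat_lit 1) (nat_lit 5) (nat_lit 3) (nat_lit 4) (nat_lit 1) (nat_lit 4) (nat_lit 454) (nat_lit 291) (nat_lit 275)) (XT.lf (nat_lit 0) (nat_lit 2104318625448) (nat_lit 152) (nat_lit 1643580073925) (nat_lit 0) (nat_lit 2104140699642) (nat_lit 1) (nat_lit 5) (nat_lit 3) (nat_lit 4) (nat_lit 1) (nat_lit 4) (nat_lit 455) (nat_lit 291) (nat_lit 274))))) (XT.nd (nat_lit 156) (nat_lit 0) (nat_lit 0) (XT.nd (nat_lit 78) (nat_lit 0) (nat_lit 0) (XT.lf (nat_lit 0) (nat_lit 2273190587919) (nat_lit 152) (nat_lit 1773960460076) (nat_lit 0) (nat_lit 2273007780780) (nat_lit 1) (nat_lit 5) (nat_lit 3) (nat_lit 4) (nat_lit 1) (nat_lit 4) (nat_lit 456) (nat_lit 291) (nat_lit 273)) (XT.lf (nat_lit 0) (nat_lit 2455558462616) (nat_lit 152) (nat_lit 1914799323272) (nat_lit 0) (nat_lit 2455371135723) (nat_lit 1) (nat_lit 5) (nat_lit 3)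 (nat_lit 4) (nat_lit 1) (nat_lit 4) (nat_lit 457) (nat_lit 291) (nat_lit 272))) (XT.nd (nat_lit 78) (nat_lit 0) (nat_lit 0) (XT.lf (nat_lit 0) (nat_lit 2652502948054) (nat_lit 152) (nat_lit 2066931264184) (nat_lit 0) (nat_lit 2652311436204) (nat_lit 1) (nat_lit 5) (nat_lit 3) (nat_lit 4) (nat_lit 1) (nat_lit 4) (nat_lit 458) (nat_lit 291) (nat_lit 271)) (XT.nd (nat_lit 78) (nat_lit 0) (nat_lit 0) (XT.lf (nat_lit 0) (nat_lit 2865191122667) (nat_lit 152) (nat_lit 2231257805424) (nat_lit 0) (nat_lit 2864995735857) (nat_lit 1) (nat_lit 5) (nat_lit 3) (nat_lit 4) (nat_lit 1) (nat_lit 4) (nat_lit 459) (nat_lit 291) (nat_lit 270)) (XT.lf (nat_lit 0) (nat_lit 3094883360822) (nat_lit 152) (nat_lit 2408752733903) (nat_lit 0) (nat_lit 3094684386086) (nat_lit 1) (nat_lit 5) (nat_lit 3) (nat_lit 4) (nat_lit 1) (nat_lit 4) (nat_lit 460) (nat_lit 291) (nat_lit 269))))))))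
noncomputable def xc4 : XT := (XT.nd (nat_lit 52572) (nat_lit 0) (nat_lit 0) (XT.nd (nat_lit 51792) (nat_lit 0) (nat_lit 0) (XT.nd (nat_lit 51402) (nat_lit 0) (nat_lit 0) (XT.nd (nat_lit 51246) (nat_lit 0) (nat_lit 0) (XT.nd (nat_lit 51168) (nat_lit 0) (nat_lit 0) (XT.lf (nat_lit 0) (nat_lit 3342940801708) (nat_lit 152) (nat_lit 2600467871421) (nat_lit 0) (nat_lit 3342738504818) (nat_lit 1) (nat_lit 5) (nat_lit 3) (nat_lit 4) (nat_lit 1) (nat_lit 4) (nat_lit 461) (nat_lit 291) (nat_lit 268)) (XT.lf (nat_lit 0) (nat_lit 239714478391) (nat_lit 152) (nat_lit 198900399215) (nat_lit 0) (nat_lit 239714478391) (nat_lit 1) (nat_lit 5) (nat_lit 3) (nat_lit 4) (nat_lit 1) (nat_lit 4) (nat_lit 436) (nat_lit 292) (nat_lit 292))) (XT.nd (nat_lit 78) (nat_lit 0) (nat_lit 0) (XT.lf (nat_lit 0) (nat_lit 518896880512) (nat_lit 152) (nat_lit 427326288731) (nat_lit 0) (nat_lit 518877374607) (nat_lit 1) (nat_lit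 5) (nat_lit 3) (nat_lit 4) (nat_lit 1) (nat_lit 4) (nat_lit 437) (nat_lit 292) (nat_lit 291)) (XT.lf (nat_lit 0) (nat_lit 561466914158) (nat_lit 152) (nat_lit 459325891228) (nat_lit 0) (nat_lit 561429347230) (nat_lit 1) (nat_lit 5) (nat_lit 3) (nat_lit 4) (nat_lit 1) (nat_lit 4) (nat_lit 438) (nat_lit 292) (nat_lit 290)))) (XT.nd (nat_lit 156) (nat_lit 0) (nat_lit 0) (XT.nd (nat_lit 78) (nat_lit 0) (nat_lit 0) (XT.lf (nat_lit 0) (nat_lit 607391324589) (nat_lit 152) (nat_lit 493989233195) (nat_lit 0) (nat_lit 607337034491) (nat_lit 1) (nat_lit 5) (nat_lit 3) (nat_lit 4) (nat_lit 1) (nat_lit 4) (nat_lit 439) (nat_lit 292) (nat_lit 289)) (XT.lf (nat_lit 0) (nat_lit 656942256457) (nat_lit 152) (nat_lit 531521727031) (nat_lit 0) (nat_lit 656872481943) (nat_lit 1) (nat_lit 5) (nat_lit 3) (nat_lit 4) (nat_lit 1) (nat_lit 4) (nat_lit 440) (nat_lit 292) (nat_lit 288))) (XT.nd (nat_lit 78) (nat_lit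 0) (nat_lit 0) (XT.lf (nat_lit 0) (nat_lit 710413344916) (nat_lit 152) (nat_lit 572145787514) (nat_lit 0) (nat_lit 710329232979) (nat_lit 1) (nat_lit 5) (nat_lit 3) (nat_lit 4) (nat_lit 1) (nat_lit 4) (nat_lit 441) (nat_lit 292) (nat_lit 287)) (XT.nd (nat_lit 78) (nat_lit 0) (nat_lit 0) (XT.lf (nat_lit 0) (nat_lit 768121455673) (nat_lit 152) (nat_lit 616102149815) (nat_lit 0) (nat_lit 768024068346) (nat_lit 1) (nat_lit 5) (nat_lit 3) (nat_lit 4) (nat_lit 1) (nat_lit 4) (nat_lit 442) (nat_lit 292) (nat_lit 286)) (XT.lf (nat_lit 0) (nat_lit 830408562720) (nat_lit 152) (nat_lit 663651296084) (nat_lit 0) (nat_lit 830298883364) (nat_lit 1) (nat_lit 5) (nat_lit 3) (nat_lit 4) (nat_lit 1) (nat_lit 4) (nat_lit 443) (nat_lit 292) (nat_lit 285)))))) (XT.nd (nat_lit 390) (nat_lit 0) (nat_lit 0) (XT.nd (nat_lit 156) (nat_lit 0) (nat_lit 0) (XT.nd (nat_lit 78) (nat_lit 0) (nat_lit 0) (XT.lf (nat_lit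 0) (nat_lit 897643774839) (nat_lit 152) (nat_lit 715074999037) (nat_lit 0) (nat_lit 897522713974) (nat_lit 1) (nat_lit 5) (nat_lit 3) (nat_lit 4) (nat_lit 1) (nat_lit 4) (nat_lit 444) (nat_lit 292) (nat_lit 284)) (XT.lf (nat_lit 0) (nat_lit 970225522915) (nat_lit 152) (nat_lit 770677991731) (nat_lit 0) (nat_lit 970093923617) (nat_lit 1) (nat_lit 5) (nat_lit 3) (nat_lit 4) (nat_lit 1) (nat_lit 4) (nat_lit 445) (nat_lit 292) (nat_lit 283))) (XT.nd (nat_lit 78) (nat_lit 0) (nat_lit 0) (XT.lf (nat_lit 0) (nat_lit 1048583921013) (nat_lit 152) (nat_lit 830789773379) (nat_lit 0) (nat_lit 1048442563906) (nat_lit 1) (nat_lit 5) (nat_lit 3) (nat_lit 4) (nat_lit 1) (nat_lit 4) (nat_lit 446) (nat_lit 292) (nat_lit 282)) (XT.nd (nat_lit 78) (nat_lit 0) (nat_lit 0) (XT.lf (nat_lit 0) (nat_lit 1133183315194) (nat_lit 152) (nat_lit 895766561949) (nat_lit 0) (nat_lit 1133032923079) (nat_lit 1) (nat_lit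 5) (nat_lit 3) (nat_lit 4) (nat_lit 1) (nat_lit 4) (nat_lit 447) (nat_lit 292) (nat_lit 281)) (XT.lf (nat_lit 0) (nat_lit 1224525035202) (nat_lit 152) (nat_lit 965993405076) (nat_lit 0) (nat_lit 1224366277339) (nat_lit 1) (nat_lit 5) (nat_lit 3) (nat_lit 4) (nat_lit 1) (nat_lit 4) (nat_lit 448) (nat_lit 292) (nat_lit 280))))) (XT.nd (nat_lit 156) (nat_lit 0) (nat_lit 0) (XT.nd (nat_lit 78) (nat_lit 0) (nat_lit 0) (XT.lf (nat_lit 0) (nat_lit 1323150365303) (nat_lit 152) (nat_lit 1041886461830) (nat_lit 0) (nat_lit 1322983861377) (nat_lit 1) (nat_lit 5) (nat_lit 3) (nat_lit 4) (nat_lit 1) (nat_lit 4) (nat_lit 449) (nat_lit 292) (nat_lit 279)) (XT.lf (nat_lit 0) (nat_lit 1429643751899) (nat_lit 152) (nat_lit 1123895468844) (nat_lit 0) (nat_lit 1429470075692) (nat_lit 1) (nat_lit 5) (nat_lit 3) (nat_lit 4) (nat_lit 1) (nat_lit 4) (nat_lit 450) (nat_lit 292) (nat_lit 278))) (XT.nd (nat_lit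 78) (nat_lit 0) (nat_lit 0) (XT.lf (nat_lit 0) (nat_lit 1544636266910) (nat_lit 152) (nat_lit 1212506405419) (nat_lit 0) (nat_lit 1544455949702) (nat_lit 1) (nat_lit 5) (nat_lit 3) (nat_lit 4) (nat_lit 1) (nat_lit 4) (nat_lit 451) (nat_lit 292) (nat_lit 277)) (XT.nd (nat_lit 78) (nat_lit 0) (nat_lit 0) (XT.lf (nat_lit 0) (nat_lit 1668809347461) (nat_lit 152) (nat_lit 1308244373401) (nat_lit 0) (nat_lit 1668622881179) (nat_lit 1) (nat_lit 5) (nat_lit 3) (nat_lit 4) (nat_lit 1) (nat_lit 4) (nat_lit 452) (nat_lit 292) (nat_lit 276)) (XT.lf (nat_lit 0) (nat_lit 1802898834031) (nat_lit 152) (nat_lit 1411676708897) (nat_lit 0) (nat_lit 1802706674161) (nat_lit 1) (nat_lit 5) (nat_lit 3) (nat_lit 4) (nat_lit 1) (nat_lit 4) (nat_lit 453) (nat_lit 292) (nat_lit 275))))))) (XT.nd (nat_lit 51636) (nat_lit 0) (nat_lit 0) (XT.nd (nat_lit 312) (nat_lit 0) (nat_lit 0) (XT.nd (nat_lit 156) (nat_lit 0)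 (nat_lit 0) (XT.nd (nat_lit 78) (nat_lit 0) (nat_lit 0) (XT.lf (nat_lit 0) (nat_lit 1947699330984) (nat_lit 152) (nat_lit 1523416344265) (nat_lit 0) (nat_lit 1947501899273) (nat_lit 1) (nat_lit 5) (nat_lit 3) (nat_lit 4) (nat_lit 1) (nat_lit 4) (nat_lit 454) (nat_lit 292) (nat_lit 274)) (XT.lf (nat_lit 0) (nat_lit 2104068915338) (nat_lit 152) (nat_lit 1644125440308) (nat_lit 0) (nat_lit 2103866602294) (nat_lit 1) (nat_lit 5) (nat_lit 3) (nat_lit 4) (nat_lit 1) (nat_lit 4) (nat_lit 455) (nat_lit 292) (nat_lit 273))) (XT.nd (nat_lit 78) (nat_lit 0) (nat_lit 0) (XT.lf (nat_lit 0) (nat_lit 2272934221669) (nat_lit 152) (nat_lit 1774519310186) (nat_lit 0) (nat_lit 2272727388871) (nat_lit 1) (nat_lit 5) (nat_lit 3) (nat_lit 4) (nat_lit 1) (nat_lit 4) (nat_lit 456) (nat_lit 292) (nat_lit 272)) (XT.lf (nat_lit 0) (nat_lit 2455295933272) (nat_lit 152) (nat_lit 1915370658315) (nat_lit 0) (nat_lit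 2455084915518) (nat_lit 1) (nat_lit 5) (nat_lit 3) (nat_lit 4) (nat_lit 1) (nat_lit 4) (nat_lit 457) (nat_lit 292) (nat_lit 271)))) (XT.nd (nat_lit 156) (nat_lit 0) (nat_lit 0) (XT.nd (nat_lit 78) (nat_lit 0) (nat_lit 0) (XT.lf (nat_lit 0) (nat_lit 2652234712143) (nat_lit 152) (nat_lit 2067514159349) (nat_lit 0) (nat_lit 2652019819428) (nat_lit 1) (nat_lit 5) (nat_lit 3) (nat_lit 4) (nat_lit 1) (nat_lit 4) (nat_lit 458) (nat_lit 292) (nat_lit 270)) (XT.lf (nat_lit 0) (nat_lit 2864917602897) (nat_lit 152) (nat_lit 2231851404407) (nat_lit 0) (nat_lit 2864699122256) (nat_lit 1) (nat_lit 5) (nat_lit 3) (nat_lit 4) (nat_lit 1) (nat_lit 4) (nat_lit 459) (nat_lit 292) (nat_lit 269))) (XT.nd (nat_lit 78) (nat_lit 0) (nat_lit 0) (XT.lf (nat_lit 0) (nat_lit 3094604948590) (nat_lit 152) (nat_lit 2409356243828) (nat_lit 0) (nat_lit 3094383145795) (nat_lit 1) (nat_lit 5) (nat_lit 3) (nat_lit 4) (nat_lit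 1) (nat_lit 4) (nat_lit 460) (nat_lit 292) (nat_lit 268)) (XT.nd (nat_lit 51012) (nat_lit 0) (nat_lit 0) (XT.lf (nat_lit 0) (nat_lit 3342657859419) (nat_lit 152) (nat_lit 2601080558144) (nat_lit 0) (nat_lit 3342432980556) (nat_lit 1) (nat_lit 5) (nat_lit 3) (nat_lit 4) (nat_lit 1) (nat_lit 4) (nat_lit 461) (nat_lit 292) (nat_lit 267)) (XT.lf (nat_lit 0) (nat_lit 204466495183) (nat_lit 152) (nat_lit 172711534223) (nat_lit 0) (nat_lit 204466495183) (nat_lit 1) (nat_lit 5) (nat_lit 3) (nat_lit 4) (nat_lit 1) (nat_lit 4) (nat_lit 434) (nat_lit 293) (nat_lit 293)))))) (XT.nd (nat_lit 390) (nat_lit 0) (nat_lit 0) (XT.nd (nat_lit 156) (nat_lit 0) (nat_lit 0) (XT.nd (nat_lit 78) (nat_lit 0) (nat_lit 0) (XT.lf (nat_lit 0) (nat_lit 442850325357) (nat_lit 152) (nat_lit 370574454461) (nat_lit 0) (nat_lit 442829258980) (nat_lit 1) (nat_lit 5) (nat_lit 3) (nat_lit 4) (nat_lit 1) (nat_lit 4) (nat_lit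 435) (nat_lit 293) (nat_lit 292)) (XT.lf (nat_lit 0) (nat_lit 479421297247) (nat_lit 152) (nat_lit 397858990167) (nat_lit 0) (nat_lit 479380724965) (nat_lit 1) (nat_lit 5) (nat_lit 3) (nat_lit 4) (nat_lit 1) (nat_lit 4) (nat_lit 436) (nat_lit 293) (nat_lit 291))) (XT.nd (nat_lit 78) (nat_lit 0) (nat_lit 0) (XT.lf (nat_lit 0) (nat_lit 518862622909) (nat_lit 152) (nat_lit 427438361704) (nat_lit 0) (nat_lit 518803989603) (nat_lit 1) (nat_lit 5) (nat_lit 3) (nat_lit 4) (nat_lit 1) (nat_lit 4) (nat_lit 437) (nat_lit 293) (nat_lit 290)) (XT.nd (nat_lit 78) (nat_lit 0) (nat_lit 0) (XT.lf (nat_lit 0) (nat_lit 561408028715) (nat_lit 152) (nat_lit 459487854235) (nat_lit 0) (nat_lit 561332672240) (nat_lit 1) (nat_lit 5) (nat_lit 3) (nat_lit 4) (nat_lit 1) (nat_lit 4) (nat_lit 438) (nat_lit 293) (nat_lit 289)) (XT.lf (nat_lit 0) (nat_lit 607309635589) (nat_lit 152) (nat_lit 494197390679) (nat_lit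 0) (nat_lit 607218794698) (nat_lit 1) (nat_lit 5) (nat_lit 3) (nat_lit 4) (nat_lit 1) (nat_lit 4) (nat_lit 439) (nat_lit 293) (nat_lit 288))))) (XT.nd (nat_lit 156) (nat_lit 0) (nat_lit 0) (XT.nd (nat_lit 78) (nat_lit 0) (nat_lit 0) (XT.lf (nat_lit 0) (nat_lit 656839453054) (nat_lit 152) (nat_lit 531772657178) (nat_lit 0) (nat_lit 656734274741) (nat_lit 1) (nat_lit 5) (nat_lit 3) (nat_lit 4) (nat_lit 1) (nat_lit 4) (nat_lit 440) (nat_lit 293) (nat_lit 287)) (XT.lf (nat_lit 0) (nat_lit 710290991139) (nat_lit 152) (nat_lit 572436321978) (nat_lit 0) (nat_lit 710172537434) (nat_lit 1) (nat_lit 5) (nat_lit 3) (nat_lit 4) (nat_lit 1) (nat_lit 4) (nat_lit 441) (nat_lit 293) (nat_lit 286))) (XT.nd (nat_lit 78) (nat_lit 0) (nat_lit 0) (XT.lf (nat_lit 0) (nat_lit 767980999699) (nat_lit 152) (nat_lit 616429354945) (nat_lit 0) (nat_lit 767850253965) (nat_lit 1) (nat_lit 5) (nat_lit 3) (nat_lit 4)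 (nat_lit 1) (nat_lit 4) (nat_lit 442) (nat_lit 293) (nat_lit 285)) (XT.nd (nat_lit 78) (nat_lit 0) (nat_lit 0) (XT.lf (nat_lit 0) (nat_lit 830251345451) (nat_lit 152) (nat_lit 664012455532) (nat_lit 0) (nat_lit 830109218210) (nat_lit 1) (nat_lit 5) (nat_lit 3) (nat_lit 4) (nat_lit 1) (nat_lit 4) (nat_lit 443) (nat_lit 293) (nat_lit 284)) (XT.lf (nat_lit 0) (nat_lit 897471037853) (nat_lit 152) (nat_lit 715467597670) (nat_lit 0) (nat_lit 897318372178) (nat_lit 1) (nat_lit 5) (nat_lit 3) (nat_lit 4) (nat_lit 1) (nat_lit 4) (nat_lit 444) (nat_lit 293) (nat_lit 283))))))))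
noncomputable def xc5 : XT := (XT.nd (nat_lit 52260) (nat_lit 0) (nat_lit 0) (XT.nd (nat_lit 702) (nat_lit 0) (nat_lit 0) (XT.nd (nat_lit 312) (nat_lit 0) (nat_lit 0) (XT.nd (nat_lit 156) (nat_lit 0) (nat_lit 0) (XT.nd (nat_lit 78) (nat_lit 0) (nat_lit 0) (XT.lf (nat_lit 0) (nat_lit 970038415821) (nat_lit 152) (nat_lit 771099700719) (nat_lit 0) (nat_lit 969875992337) (nat_lit 1) (nat_lit 5) (nat_lit 3) (nat_lit 4) (nat_lit 1) (nat_lit 4) (nat_lit 445) (nat_lit 293) (nat_lit 282)) (XT.lf (nat_lit 0) (nat_lit 1048383508262) (nat_lit 152) (nat_lit 831238436401) (nat_lit 0) (nat_lit 1048212049770) (nat_lit 1) (nat_lit 5) (nat_lit 3) (nat_lit 4) (nat_lit 1) (nat_lit 4) (nat_lit 446) (nat_lit 293) (nat_lit 281))) (XT.nd (nat_lit 78) (nat_lit 0) (nat_lit 0) (XT.lf (nat_lit 0) (nat_lit 1132970582392) (nat_lit 152) (nat_lit 896240182409) (nat_lit 0) (nat_lit 1132790758151) (nat_lit 1) (nat_lit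 5) (nat_lit 3) (nat_lit 4) (nat_lit 1) (nat_lit 4) (nat_lit 447) (nat_lit 293) (nat_lit 280)) (XT.lf (nat_lit 0) (nat_lit 1224300894944) (nat_lit 152) (nat_lit 966490134275) (nat_lit 0) (nat_lit 1224113324641) (nat_lit 1) (nat_lit 5) (nat_lit 3) (nat_lit 4) (nat_lit 1) (nat_lit 4) (nat_lit 448) (nat_lit 293) (nat_lit 279)))) (XT.nd (nat_lit 156) (nat_lit 0) (nat_lit 0) (XT.nd (nat_lit 78) (nat_lit 0) (nat_lit 0) (XT.lf (nat_lit 0) (nat_lit 1322915662587) (nat_lit 152) (nat_lit 1042404588010) (nat_lit 0) (nat_lit 1322720920003) (nat_lit 1) (nat_lit 5) (nat_lit 3) (nat_lit 4) (nat_lit 1) (nat_lit 4) (nat_lit 449) (nat_lit 293) (nat_lit 278)) (XT.lf (nat_lit 0) (nat_lit 1429399269129) (nat_lit 152) (nat_lit 1124433407043) (nat_lit 0) (nat_lit 1429197885544) (nat_lit 1) (nat_lit 5) (nat_lit 3) (nat_lit 4) (nat_lit 1) (nat_lit 4) (nat_lit 450) (nat_lit 293) (nat_lit 277))) (XT.nd (nat_lit 78)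 (nat_lit 0) (nat_lit 0) (XT.lf (nat_lit 0) (nat_lit 1544382728534) (nat_lit 152) (nat_lit 1213062688080) (nat_lit 0) (nat_lit 1544175195874) (nat_lit 1) (nat_lit 5) (nat_lit 3) (nat_lit 4) (nat_lit 1) (nat_lit 4) (nat_lit 451) (nat_lit 293) (nat_lit 276)) (XT.nd (nat_lit 78) (nat_lit 0) (nat_lit 0) (XT.lf (nat_lit 0) (nat_lit 1668547424265) (nat_lit 152) (nat_lit 1308817641675) (nat_lit 0) (nat_lit 1668334198018) (nat_lit 1) (nat_lit 5) (nat_lit 3) (nat_lit 4) (nat_lit 1) (nat_lit 4) (nat_lit 452) (nat_lit 293) (nat_lit 275)) (XT.lf (nat_lit 0) (nat_lit 1802629147113) (nat_lit 152) (nat_lit 1412265704591) (nat_lit 0) (nat_lit 1802410649025) (nat_lit 1) (nat_lit 5) (nat_lit 3) (nat_lit 4) (nat_lit 1) (nat_lit 4) (nat_lit 453) (nat_lit 293) (nat_lit 274)))))) (XT.nd (nat_lit 390) (nat_lit 0) (nat_lit 0) (XT.nd (nat_lit 156) (nat_lit 0) (nat_lit 0) (XT.nd (nat_lit 78) (nat_lit 0) (nat_lit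 0) (XT.lf (nat_lit 0) (nat_lit 1947422455433) (nat_lit 152) (nat_lit 1524019902384) (nat_lit 0) (nat_lit 1947199076012) (nat_lit 1) (nat_lit 5) (nat_lit 3) (nat_lit 4) (nat_lit 1) (nat_lit 4) (nat_lit 454) (nat_lit 293) (nat_lit 273)) (XT.lf (nat_lit 0) (nat_lit 2103785383648) (nat_lit 152) (nat_lit 1644742482154) (nat_lit 0) (nat_lit 2103557484473) (nat_lit 1) (nat_lit 5) (nat_lit 3) (nat_lit 4) (nat_lit 1) (nat_lit 4) (nat_lit 455) (nat_lit 293) (nat_lit 272))) (XT.nd (nat_lit 78) (nat_lit 0) (nat_lit 0) (XT.lf (nat_lit 0) (nat_lit 2272644526885) (nat_lit 152) (nat_lit 1775148836965) (nat_lit 0) (nat_lit 2272412442753) (nat_lit 1) (nat_lit 5) (nat_lit 3) (nat_lit 4) (nat_lit 1) (nat_lit 4) (nat_lit 456) (nat_lit 293) (nat_lit 271)) (XT.nd (nat_lit 78) (nat_lit 0) (nat_lit 0) (XT.lf (nat_lit 0) (nat_lit 2455000531921) (nat_lit 152) (nat_lit 1916011745216) (nat_lit 0) (nat_lit 2454764572829)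 (nat_lit 1) (nat_lit 5) (nat_lit 3) (nat_lit 4) (nat_lit 1) (nat_lit 4) (nat_lit 457) (nat_lit 293) (nat_lit 270)) (XT.lf (nat_lit 0) (nat_lit 2651934026932) (nat_lit 152) (nat_lit 2068165950068) (nat_lit 0) (nat_lit 2651694479914) (nat_lit 1) (nat_lit 5) (nat_lit 3) (nat_lit 4) (nat_lit 1) (nat_lit 4) (nat_lit 458) (nat_lit 293) (nat_lit 269))))) (XT.nd (nat_lit 156) (nat_lit 0) (nat_lit 0) (XT.nd (nat_lit 78) (nat_lit 0) (nat_lit 0) (XT.lf (nat_lit 0) (nat_lit 2864612025224) (nat_lit 152) (nat_lit 2232513106068) (nat_lit 0) (nat_lit 2864369156052) (nat_lit 1) (nat_lit 5) (nat_lit 3) (nat_lit 4) (nat_lit 1) (nat_lit 4) (nat_lit 459) (nat_lit 293) (nat_lit 268)) (XT.lf (nat_lit 0) (nat_lit 3094294840860) (nat_lit 152) (nat_lit 2410027122288) (nat_lit 0) (nat_lit 3094048895619) (nat_lit 1) (nat_lit 5) (nat_lit 3) (nat_lit 4) (nat_lit 1) (nat_lit 4) (nat_lit 460) (nat_lit 293) (nat_lit 267)))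 (XT.nd (nat_lit 50856) (nat_lit 0) (nat_lit 0) (XT.lf (nat_lit 0) (nat_lit 3342343557191) (nat_lit 152) (nat_lit 2601759933639) (nat_lit 0) (nat_lit 3342094763739) (nat_lit 1) (nat_lit 5) (nat_lit 3) (nat_lit 4) (nat_lit 1) (nat_lit 4) (nat_lit 461) (nat_lit 293) (nat_lit 266)) (XT.nd (nat_lit 78) (nat_lit 0) (nat_lit 0) (XT.lf (nat_lit 0) (nat_lit 174163028207) (nat_lit 152) (nat_lit 150433723653) (nat_lit 0) (nat_lit 174163028207) (nat_lit 1) (nat_lit 5) (nat_lit 3) (nat_lit 4) (nat_lit 1) (nat_lit 4) (nat_lit 432) (nat_lit 294) (nat_lit 294)) (XT.lf (nat_lit 0) (nat_lit 377491052349) (nat_lit 152) (nat_lit 322255786873) (nat_lit 0) (nat_lit 377468300662) (nat_lit 1) (nat_lit 5) (nat_lit 3) (nat_lit 4) (nat_lit 1) (nat_lit 4) (nat_lit 433) (nat_lit 294) (nat_lit 293))))))) (XT.nd (nat_lit 780) (nat_lit 0) (nat_lit 0) (XT.nd (nat_lit 390) (nat_lit 0) (nat_lit 0) (XT.nd (nat_lit 156) (nat_lit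 0) (nat_lit 0) (XT.nd (nat_lit 78) (nat_lit 0) (nat_lit 0) (XT.lf (nat_lit 0) (nat_lit 408924718068) (nat_lit 152) (nat_lit 345485915521) (nat_lit 0) (nat_lit 408880900003) (nat_lit 1) (nat_lit 5) (nat_lit 3) (nat_lit 4) (nat_lit 1) (nat_lit 4) (nat_lit 434) (nat_lit 294) (nat_lit 292)) (XT.lf (nat_lit 0) (nat_lit 442813327145) (nat_lit 152) (nat_lit 370695493272) (nat_lit 0) (nat_lit 442750003176) (nat_lit 1) (nat_lit 5) (nat_lit 3) (nat_lit 4) (nat_lit 1) (nat_lit 4) (nat_lit 435) (nat_lit 294) (nat_lit 291))) (XT.nd (nat_lit 78) (nat_lit 0) (nat_lit 0) (XT.lf (nat_lit 0) (nat_lit 479357700968) (nat_lit 152) (nat_lit 398033910216) (nat_lit 0) (nat_lit 479276315976) (nat_lit 1) (nat_lit 5) (nat_lit 3) (nat_lit 4) (nat_lit 1) (nat_lit 4) (nat_lit 436) (nat_lit 294) (nat_lit 290)) (XT.nd (nat_lit 78) (nat_lit 0) (nat_lit 0) (XT.lf (nat_lit 0) (nat_lit 518774398789) (nat_lit 152) (nat_lit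 427663171787) (nat_lit 0) (nat_lit 518676290627) (nat_lit 1) (nat_lit 5) (nat_lit 3) (nat_lit 4) (nat_lit 1) (nat_lit 4) (nat_lit 437) (nat_lit 294) (nat_lit 289)) (XT.lf (nat_lit 0) (nat_lit 561297001039) (nat_lit 152) (nat_lit 459758858794) (nat_lit 0) (nat_lit 561183408461) (nat_lit 1) (nat_lit 5) (nat_lit 3) (nat_lit 4) (nat_lit 1) (nat_lit 4) (nat_lit 438) (nat_lit 294) (nat_lit 288))))) (XT.nd (nat_lit 156) (nat_lit 0) (nat_lit 0) (XT.nd (nat_lit 78) (nat_lit 0) (nat_lit 0) (XT.lf (nat_lit 0) (nat_lit 607177493510) (nat_lit 152) (nat_lit 494511167901) (nat_lit 0) (nat_lit 607049563509) (nat_lit 1) (nat_lit 5) (nat_lit 3) (nat_lit 4) (nat_lit 1) (nat_lit 4) (nat_lit 439) (nat_lit 294) (nat_lit 287)) (XT.lf (nat_lit 0) (nat_lit 656687760601) (nat_lit 152) (nat_lit 532126038718) (nat_lit 0) (nat_lit 656546555209) (nat_lit 1) (nat_lit 5) (nat_lit 3) (nat_lit 4) (nat_lit 1) (nat_lit 4)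 (nat_lit 440) (nat_lit 294) (nat_lit 286))) (XT.nd (nat_lit 78) (nat_lit 0) (nat_lit 0) (XT.lf (nat_lit 0) (nat_lit 710121196488) (nat_lit 152) (nat_lit 572826374183) (nat_lit 0) (nat_lit 709967699067) (nat_lit 1) (nat_lit 5) (nat_lit 3) (nat_lit 4) (nat_lit 1) (nat_lit 4) (nat_lit 441) (nat_lit 294) (nat_lit 285)) (XT.nd (nat_lit 78) (nat_lit 0) (nat_lit 0) (XT.lf (nat_lit 0) (nat_lit 767794443754) (nat_lit 152) (nat_lit 616853361468) (nat_lit 0) (nat_lit 767629564825) (nat_lit 1) (nat_lit 5) (nat_lit 3) (nat_lit 4) (nat_lit 1) (nat_lit 4) (nat_lit 442) (nat_lit 294) (nat_lit 284)) (XT.lf (nat_lit 0) (nat_lit 830049269789) (nat_lit 152) (nat_lit 664467901240) (nat_lit 0) (nat_lit 829873852427) (nat_lit 1) (nat_lit 5) (nat_lit 3) (nat_lit 4) (nat_lit 1) (nat_lit 4) (nat_lit 443) (nat_lit 294) (nat_lit 283)))))) (XT.nd (nat_lit 390) (nat_lit 0) (nat_lit 0) (XT.nd (nat_lit 156) (nat_lit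 0) (nat_lit 0) (XT.nd (nat_lit 78) (nat_lit 0) (nat_lit 0) (XT.lf (nat_lit 0) (nat_lit 897254592082) (nat_lit 152) (nat_lit 715952153734) (nat_lit 0) (nat_lit 897069416911) (nat_lit 1) (nat_lit 5) (nat_lit 3) (nat_lit 4) (nat_lit 1) (nat_lit 4) (nat_lit 444) (nat_lit 294) (nat_lit 282)) (XT.lf (nat_lit 0) (nat_lit 969808664395) (nat_lit 152) (nat_lit 771611210816) (nat_lit 0) (nat_lit 969614454215) (nat_lit 1) (nat_lit 5) (nat_lit 3) (nat_lit 4) (nat_lit 1) (nat_lit 4) (nat_lit 445) (nat_lit 294) (nat_lit 281))) (XT.nd (nat_lit 78) (nat_lit 0) (nat_lit 0) (XT.lf (nat_lit 0) (nat_lit 1048141436785) (nat_lit 152) (nat_lit 831774903936) (nat_lit 0) (nat_lit 1047938860857) (nat_lit 1) (nat_lit 5) (nat_lit 3) (nat_lit 4) (nat_lit 1) (nat_lit 4) (nat_lit 446) (nat_lit 294) (nat_lit 280)) (XT.nd (nat_lit 78) (nat_lit 0) (nat_lit 0) (XT.lf (nat_lit 0) (nat_lit 1132717103459) (nat_lit 152) (nat_lit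 896799758683) (nat_lit 0) (nat_lit 1132506781468) (nat_lit 1) (nat_lit 5) (nat_lit 3) (nat_lit 4) (nat_lit 1) (nat_lit 4) (nat_lit 447) (nat_lit 294) (nat_lit 279)) (XT.lf (nat_lit 0) (nat_lit 1224036853553) (nat_lit 152) (nat_lit 967071107530) (nat_lit 0) (nat_lit 1223819359281) (nat_lit 1) (nat_lit 5) (nat_lit 3) (nat_lit 4) (nat_lit 1) (nat_lit 4) (nat_lit 448) (nat_lit 294) (nat_lit 278))))) (XT.nd (nat_lit 156) (nat_lit 0) (nat_lit 0) (XT.nd (nat_lit 78) (nat_lit 0) (nat_lit 0) (XT.lf (nat_lit 0) (nat_lit 1322641841142) (nat_lit 152) (nat_lit 1043005373284) (nat_lit 0) (nat_lit 1322417705869) (nat_lit 1) (nat_lit 5) (nat_lit 3) (nat_lit 4) (nat_lit 1) (nat_lit 4) (nat_lit 449) (nat_lit 294) (nat_lit 277)) (XT.lf (nat_lit 0) (nat_lit 1429116392077) (nat_lit 152) (nat_lit 1125052536779) (nat_lit 0) (nat_lit 1428886107730) (nat_lit 1) (nat_lit 5) (nat_lit 3) (nat_lit 4) (nat_lit 1) (nat_lit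 4) (nat_lit 450) (nat_lit 294) (nat_lit 276))) (XT.nd (nat_lit 78) (nat_lit 0) (nat_lit 0) (XT.lf (nat_lit 0) (nat_lit 1544091466662) (nat_lit 152) (nat_lit 1213698803429) (nat_lit 0) (nat_lit 1543855488727) (nat_lit 1) (nat_lit 5) (nat_lit 3) (nat_lit 4) (nat_lit 1) (nat_lit 4) (nat_lit 451) (nat_lit 294) (nat_lit 275)) (XT.nd (nat_lit 78) (nat_lit 0) (nat_lit 0) (XT.lf (nat_lit 0) (nat_lit 1668248398671) (nat_lit 152) (nat_lit 1309469484444) (nat_lit 0) (nat_lit 1668007148896) (nat_lit 1) (nat_lit 5) (nat_lit 3) (nat_lit 4) (nat_lit 1) (nat_lit 4) (nat_lit 452) (nat_lit 294) (nat_lit 274)) (XT.lf (nat_lit 0) (nat_lit 1802322932887) (nat_lit 152) (nat_lit 1412932109784) (nat_lit 0) (nat_lit 1802076801778) (nat_lit 1) (nat_lit 5) (nat_lit 3) (nat_lit 4) (nat_lit 1) (nat_lit 4) (nat_lit 453) (nat_lit 294) (nat_lit 273))))))))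
noncomputable def xc6 : XT := (XT.nd (nat_lit 52104) (nat_lit 0) (nat_lit 0) (XT.nd (nat_lit 51324) (nat_lit 0) (nat_lit 0) (XT.nd (nat_lit 312) (nat_lit 0) (nat_lit 0) (XT.nd (nat_lit 156) (nat_lit 0) (nat_lit 0) (XT.nd (nat_lit 78) (nat_lit 0) (nat_lit 0) (XT.lf (nat_lit 0) (nat_lit 1947109585067) (nat_lit 152) (nat_lit 1524699791305) (nat_lit 0) (nat_lit 1946858934204) (nat_lit 1) (nat_lit 5) (nat_lit 3) (nat_lit 4) (nat_lit 1) (nat_lit 4) (nat_lit 454) (nat_lit 294) (nat_lit 272)) (XT.lf (nat_lit 0) (nat_lit 2103466350188) (nat_lit 152) (nat_lit 1645434856007) (nat_lit 0) (nat_lit 2103211514368) (nat_lit 1) (nat_lit 5) (nat_lit 3) (nat_lit 4) (nat_lit 1) (nat_lit 4) (nat_lit 455) (nat_lit 294) (nat_lit 271))) (XT.nd (nat_lit 78) (nat_lit 0) (nat_lit 0) (XT.lf (nat_lit 0) (nat_lit 2272319786858) (nat_lit 152) (nat_lit 1775852770941) (nat_lit 0) (nat_lit 2272061076078) (nat_lit 1) (nat_lit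 5) (nat_lit 3) (nat_lit 4) (nat_lit 1) (nat_lit 4) (nat_lit 456) (nat_lit 294) (nat_lit 270)) (XT.lf (nat_lit 0) (nat_lit 2454670508034) (nat_lit 152) (nat_lit 1916726383010) (nat_lit 0) (nat_lit 2454408209329) (nat_lit 1) (nat_lit 5) (nat_lit 3) (nat_lit 4) (nat_lit 1) (nat_lit 4) (nat_lit 457) (nat_lit 294) (nat_lit 269)))) (XT.nd (nat_lit 156) (nat_lit 0) (nat_lit 0) (XT.nd (nat_lit 78) (nat_lit 0) (nat_lit 0) (XT.lf (nat_lit 0) (nat_lit 2651599110584) (nat_lit 152) (nat_lit 2068890498804) (nat_lit 0) (nat_lit 2651333489725) (nat_lit 1) (nat_lit 5) (nat_lit 3) (nat_lit 4) (nat_lit 1) (nat_lit 4) (nat_lit 458) (nat_lit 294) (nat_lit 268)) (XT.lf (nat_lit 0) (nat_lit 2864272578818) (nat_lit 152) (nat_lit 2233246831602) (nat_lit 0) (nat_lit 2864003881890) (nat_lit 1) (nat_lit 5) (nat_lit 3) (nat_lit 4) (nat_lit 1) (nat_lit 4) (nat_lit 459) (nat_lit 294) (nat_lit 267))) (XT.nd (nat_lit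 78) (nat_lit 0) (nat_lit 0) (XT.lf (nat_lit 0) (nat_lit 3093951199956) (nat_lit 152) (nat_lit 2410769344857) (nat_lit 0) (nat_lit 3093679654817) (nat_lit 1) (nat_lit 5) (nat_lit 3) (nat_lit 4) (nat_lit 1) (nat_lit 4) (nat_lit 460) (nat_lit 294) (nat_lit 266)) (XT.nd (nat_lit 50700) (nat_lit 0) (nat_lit 0) (XT.lf (nat_lit 0) (nat_lit 3341996032493) (nat_lit 152) (nat_lit 2602510023834) (nat_lit 0) (nat_lit 3341721850121) (nat_lit 1) (nat_lit 5) (nat_lit 3) (nat_lit 4) (nat_lit 1) (nat_lit 4) (nat_lit 461) (nat_lit 294) (nat_lit 265)) (XT.lf (nat_lit 0) (nat_lit 148091966733) (nat_lit 152) (nat_lit 131523005472) (nat_lit 0) (nat_lit 148091966733) (nat_lit 1) (nat_lit 5) (nat_lit 3) (nat_lit 4) (nat_lit 1) (nat_lit 4) (nat_lit 430) (nat_lit 295) (nat_lit 295)))))) (XT.nd (nat_lit 390) (nat_lit 0) (nat_lit 0) (XT.nd (nat_lit 156) (nat_lit 0) (nat_lit 0) (XT.nd (nat_lit 78) (nat_lit 0) (nat_lit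 0) (XT.lf (nat_lit 0) (nat_lit 321281472480) (nat_lit 152) (nat_lit 281194151105) (nat_lit 0) (nat_lit 321256900657) (nat_lit 1) (nat_lit 5) (nat_lit 3) (nat_lit 4) (nat_lit 1) (nat_lit 4) (nat_lit 431) (nat_lit 295) (nat_lit 294)) (XT.lf (nat_lit 0) (nat_lit 348317122332) (nat_lit 152) (nat_lit 300935322147) (nat_lit 0) (nat_lit 348269798822) (nat_lit 1) (nat_lit 5) (nat_lit 3) (nat_lit 4) (nat_lit 1) (nat_lit 4) (nat_lit 432) (nat_lit 295) (nat_lit 293))) (XT.nd (nat_lit 78) (nat_lit 0) (nat_lit 0) (XT.lf (nat_lit 0) (nat_lit 377451094281) (nat_lit 152) (nat_lit 322386508789) (nat_lit 0) (nat_lit 377382704393) (nat_lit 1) (nat_lit 5) (nat_lit 3) (nat_lit 4) (nat_lit 1) (nat_lit 4) (nat_lit 433) (nat_lit 295) (nat_lit 292)) (XT.nd (nat_lit 78) (nat_lit 0) (nat_lit 0) (XT.lf (nat_lit 0) (nat_lit 408856034087) (nat_lit 152) (nat_lit 345674829173) (nat_lit 0) (nat_lit 408768138294) (nat_lit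 1) (nat_lit 5) (nat_lit 3) (nat_lit 4) (nat_lit 1) (nat_lit 4) (nat_lit 434) (nat_lit 295) (nat_lit 291)) (XT.lf (nat_lit 0) (nat_lit 442718045096) (nat_lit 152) (nat_lit 370938288161) (nat_lit 0) (nat_lit 442612088281) (nat_lit 1) (nat_lit 5) (nat_lit 3) (nat_lit 4) (nat_lit 1) (nat_lit 4) (nat_lit 435) (nat_lit 295) (nat_lit 290))))) (XT.nd (nat_lit 156) (nat_lit 0) (nat_lit 0) (XT.nd (nat_lit 78) (nat_lit 0) (nat_lit 0) (XT.lf (nat_lit 0) (nat_lit 479237791079) (nat_lit 152) (nat_lit 398326595139) (nat_lit 0) (nat_lit 479115111094) (nat_lit 1) (nat_lit 5) (nat_lit 3) (nat_lit 4) (nat_lit 1) (nat_lit 4) (nat_lit 436) (nat_lit 295) (nat_lit 289)) (XT.lf (nat_lit 0) (nat_lit 518631685344) (nat_lit 152) (nat_lit 428002051186) (nat_lit 0) (nat_lit 518493520943) (nat_lit 1) (nat_lit 5) (nat_lit 3) (nat_lit 4) (nat_lit 1) (nat_lit 4) (nat_lit 437) (nat_lit 295) (nat_lit 288))) (XT.nd (nat_lit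 78) (nat_lit 0) (nat_lit 0) (XT.lf (nat_lit 0) (nat_lit 561133173191) (nat_lit 152) (nat_lit 460140510857) (nat_lit 0) (nat_lit 560980671367) (nat_lit 1) (nat_lit 5) (nat_lit 3) (nat_lit 4) (nat_lit 1) (nat_lit 4) (nat_lit 438) (nat_lit 295) (nat_lit 287)) (XT.nd (nat_lit 78) (nat_lit 0) (nat_lit 0) (XT.lf (nat_lit 0) (nat_lit 606994115288) (nat_lit 152) (nat_lit 494932424282) (nat_lit 0) (nat_lit 606828338073) (nat_lit 1) (nat_lit 5) (nat_lit 3) (nat_lit 4) (nat_lit 1) (nat_lit 4) (nat_lit 439) (nat_lit 295) (nat_lit 286)) (XT.lf (nat_lit 0) (nat_lit 656486280181) (nat_lit 152) (nat_lit 532583965763) (nat_lit 0) (nat_lit 656308210938) (nat_lit 1) (nat_lit 5) (nat_lit 3) (nat_lit 4) (nat_lit 1) (nat_lit 4) (nat_lit 440) (nat_lit 295) (nat_lit 285))))))) (XT.nd (nat_lit 780) (nat_lit 0) (nat_lit 0) (XT.nd (nat_lit 390) (nat_lit 0) (nat_lit 0) (XT.nd (nat_lit 156) (nat_lit 0) (nat_lit 0)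 (XT.nd (nat_lit 78) (nat_lit 0) (nat_lit 0) (XT.lf (nat_lit 0) (nat_lit 709902954773) (nat_lit 152) (nat_lit 573318255547) (nat_lit 0) (nat_lit 709713504022) (nat_lit 1) (nat_lit 5) (nat_lit 3) (nat_lit 4) (nat_lit 1) (nat_lit 4) (nat_lit 441) (nat_lit 295) (nat_lit 284)) (XT.lf (nat_lit 0) (nat_lit 767560682322) (nat_lit 152) (nat_lit 617376682017) (nat_lit 0) (nat_lit 767360693137) (nat_lit 1) (nat_lit 5) (nat_lit 3) (nat_lit 4) (nat_lit 1) (nat_lit 4) (nat_lit 442) (nat_lit 295) (nat_lit 283))) (XT.nd (nat_lit 78) (nat_lit 0) (nat_lit 0) (XT.lf (nat_lit 0) (nat_lit 829801138249) (nat_lit 152) (nat_lit 665020332145) (nat_lit 0) (nat_lit 829591391255) (nat_lit 1) (nat_lit 5) (nat_lit 3) (nat_lit 4) (nat_lit 1) (nat_lit 4) (nat_lit 443) (nat_lit 295) (nat_lit 282)) (XT.nd (nat_lit 78) (nat_lit 0) (nat_lit 0) (XT.lf (nat_lit 0) (nat_lit 896993154886) (nat_lit 152) (nat_lit 716531538672)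 (nat_lit 0) (nat_lit 896774372885) (nat_lit 1) (nat_lit 5) (nat_lit 3) (nat_lit 4) (nat_lit 1) (nat_lit 4) (nat_lit 444) (nat_lit 295) (nat_lit 281)) (XT.lf (nat_lit 0) (nat_lit 969534907147) (nat_lit 152) (nat_lit 772215553192) (nat_lit 0) (nat_lit 969307759397) (nat_lit 1) (nat_lit 5) (nat_lit 3) (nat_lit 4) (nat_lit 1) (nat_lit 4) (nat_lit 445) (nat_lit 295) (nat_lit 280))))) (XT.nd (nat_lit 156) (nat_lit 0) (nat_lit 0) (XT.nd (nat_lit 78) (nat_lit 0) (nat_lit 0) (XT.lf (nat_lit 0) (nat_lit 1047856272082) (nat_lit 152) (nat_lit 832402355051) (nat_lit 0) (nat_lit 1047621378268) (nat_lit 1) (nat_lit 5) (nat_lit 3) (nat_lit 4) (nat_lit 1) (nat_lit 4) (nat_lit 446) (nat_lit 295) (nat_lit 279)) (XT.lf (nat_lit 0) (nat_lit 1132421376297) (nat_lit 152) (nat_lit 897448606779) (nat_lit 0) (nat_lit 1132179310203) (nat_lit 1) (nat_lit 5) (nat_lit 3) (nat_lit 4) (nat_lit 1) (nat_lit 4) (nat_lit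 447) (nat_lit 295) (nat_lit 278))) (XT.nd (nat_lit 78) (nat_lit 0) (nat_lit 0) (XT.lf (nat_lit 0) (nat_lit 1223731346337) (nat_lit 152) (nat_lit 967739767645) (nat_lit 0) (nat_lit 1223482639242) (nat_lit 1) (nat_lit 5) (nat_lit 3) (nat_lit 4) (nat_lit 1) (nat_lit 4) (nat_lit 448) (nat_lit 295) (nat_lit 277)) (XT.nd (nat_lit 78) (nat_lit 0) (nat_lit 0) (XT.lf (nat_lit 0) (nat_lit 1322327278320) (nat_lit 152) (nat_lit 1043692377860) (nat_lit 0) (nat_lit 1322072422150) (nat_lit 1) (nat_lit 5) (nat_lit 3) (nat_lit 4) (nat_lit 1) (nat_lit 4) (nat_lit 449) (nat_lit 295) (nat_lit 276)) (XT.lf (nat_lit 0) (nat_lit 1428793444436) (nat_lit 152) (nat_lit 1125756526969) (nat_lit 0) (nat_lit 1428532894678) (nat_lit 1) (nat_lit 5) (nat_lit 3) (nat_lit 4) (nat_lit 1) (nat_lit 4) (nat_lit 450) (nat_lit 295) (nat_lit 275)))))) (XT.nd (nat_lit 390) (nat_lit 0) (nat_lit 0) (XT.nd (nat_lit 156) (nat_lit 0)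 (nat_lit 0) (XT.nd (nat_lit 78) (nat_lit 0) (nat_lit 0) (XT.lf (nat_lit 0) (nat_lit 1543760755298) (nat_lit 152) (nat_lit 1214418521038) (nat_lit 0) (nat_lit 1543494933700) (nat_lit 1) (nat_lit 5) (nat_lit 3) (nat_lit 4) (nat_lit 1) (nat_lit 4) (nat_lit 451) (nat_lit 295) (nat_lit 274)) (XT.lf (nat_lit 0) (nat_lit 1667910498675) (nat_lit 152) (nat_lit 1310203764478) (nat_lit 0) (nat_lit 1667639795744) (nat_lit 1) (nat_lit 5) (nat_lit 3) (nat_lit 4) (nat_lit 1) (nat_lit 4) (nat_lit 452) (nat_lit 295) (nat_lit 273))) (XT.nd (nat_lit 78) (nat_lit 0) (nat_lit 0) (XT.lf (nat_lit 0) (nat_lit 1801978376750) (nat_lit 152) (nat_lit 1413679873546) (nat_lit 0) (nat_lit 1801703154065) (nat_lit 1) (nat_lit 5) (nat_lit 3) (nat_lit 4) (nat_lit 1) (nat_lit 4) (nat_lit 453) (nat_lit 295) (nat_lit 272)) (XT.nd (nat_lit 78) (nat_lit 0) (nat_lit 0) (XT.lf (nat_lit 0) (nat_lit 1946758865837) (nat_lit 152)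 (nat_lit 1525460040000) (nat_lit 0) (nat_lit 1946479458195) (nat_lit 1) (nat_lit 5) (nat_lit 3) (nat_lit 4) (nat_lit 1) (nat_lit 4) (nat_lit 454) (nat_lit 295) (nat_lit 271)) (XT.lf (nat_lit 0) (nat_lit 2103109924390) (nat_lit 152) (nat_lit 1646206664825) (nat_lit 0) (nat_lit 2102826641788) (nat_lit 1) (nat_lit 5) (nat_lit 3) (nat_lit 4) (nat_lit 1) (nat_lit 4) (nat_lit 455) (nat_lit 295) (nat_lit 270))))) (XT.nd (nat_lit 156) (nat_lit 0) (nat_lit 0) (XT.nd (nat_lit 78) (nat_lit 0) (nat_lit 0) (XT.lf (nat_lit 0) (nat_lit 2271958077201) (nat_lit 152) (nat_lit 1776635283576) (nat_lit 0) (nat_lit 2271671206673) (nat_lit 1) (nat_lit 5) (nat_lit 3) (nat_lit 4) (nat_lit 1) (nat_lit 4) (nat_lit 456) (nat_lit 295) (nat_lit 269)) (XT.lf (nat_lit 0) (nat_lit 2454303905916) (nat_lit 152) (nat_lit 1917518806587) (nat_lit 0) (nat_lit 2454013713234) (nat_lit 1) (nat_lit 5) (nat_lit 3) (nat_lit 4) (nat_lit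 1) (nat_lit 4) (nat_lit 457) (nat_lit 295) (nat_lit 268))) (XT.nd (nat_lit 78) (nat_lit 0) (nat_lit 0) (XT.lf (nat_lit 0) (nat_lit 2651227978408) (nat_lit 152) (nat_lit 2069692099180) (nat_lit 0) (nat_lit 2650934709658) (nat_lit 1) (nat_lit 5) (nat_lit 3) (nat_lit 4) (nat_lit 1) (nat_lit 4) (nat_lit 458) (nat_lit 295) (nat_lit 267)) (XT.nd (nat_lit 78) (nat_lit 0) (nat_lit 0) (XT.lf (nat_lit 0) (nat_lit 2863897252145) (nat_lit 152) (nat_lit 2234056929013) (nat_lit 0) (nat_lit 2863601135183) (nat_lit 1) (nat_lit 5) (nat_lit 3) (nat_lit 4) (nat_lit 1) (nat_lit 4) (nat_lit 459) (nat_lit 295) (nat_lit 266)) (XT.lf (nat_lit 0) (nat_lit 3093571989488) (nat_lit 152) (nat_lit 2411587309893) (nat_lit 0) (nat_lit 3093273235294) (nat_lit 1) (nat_lit 5) (nat_lit 3) (nat_lit 4) (nat_lit 1) (nat_lit 4) (nat_lit 460) (nat_lit 295) (nat_lit 265))))))))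
noncomputable def xc7 : XT := (XT.nd (nat_lit 51948) (nat_lit 0) (nat_lit 0) (XT.nd (nat_lit 51168) (nat_lit 0) (nat_lit 0) (XT.nd (nat_lit 50778) (nat_lit 0) (nat_lit 0) (XT.nd (nat_lit 50622) (nat_lit 0) (nat_lit 0) (XT.nd (nat_lit 50544) (nat_lit 0) (nat_lit 0) (XT.lf (nat_lit 0) (nat_lit 3341613225920) (nat_lit 152) (nat_lit 2603335273708) (nat_lit 0) (nat_lit 3341312029843) (nat_lit 1) (nat_lit 5) (nat_lit 3) (nat_lit 4) (nat_lit 1) (nat_lit 4) (nat_lit 461) (nat_lit 295) (nat_lit 264)) (XT.lf (nat_lit 0) (nat_lit 125642252973) (nat_lit 152) (nat_lit 115514139400) (nat_lit 0) (nat_lit 125642252973) (nat_lit 1) (nat_lit 5) (nat_lit 3) (nat_lit 4) (nat_lit 1) (nat_lit 4) (nat_lit 428) (nat_lit 296) (nat_lit 296))) (XT.nd (nat_lit 78) (nat_lit 0) (nat_lit 0) (XT.lf (nat_lit 0) (nat_lit 272902316704) (nat_lit 152) (nat_lit 246383357132) (nat_lit 0) (nat_lit 272875779136) (nat_lit 1) (nat_lit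 5) (nat_lit 3) (nat_lit 4) (nat_lit 1) (nat_lit 4) (nat_lit 429) (nat_lit 296) (nat_lit 295)) (XT.lf (nat_lit 0) (nat_lit 296174284658) (nat_lit 152) (nat_lit 263119315773) (nat_lit 0) (nat_lit 296123175267) (nat_lit 1) (nat_lit 5) (nat_lit 3) (nat_lit 4) (nat_lit 1) (nat_lit 4) (nat_lit 430) (nat_lit 296) (nat_lit 294)))) (XT.nd (nat_lit 156) (nat_lit 0) (nat_lit 0) (XT.nd (nat_lit 78) (nat_lit 0) (nat_lit 0) (XT.lf (nat_lit 0) (nat_lit 321238317766) (nat_lit 152) (nat_lit 281335330774) (nat_lit 0) (nat_lit 321164456688) (nat_lit 1) (nat_lit 5) (nat_lit 3) (nat_lit 4) (nat_lit 1) (nat_lit 4) (nat_lit 431) (nat_lit 296) (nat_lit 293)) (XT.lf (nat_lit 0) (nat_lit 348242943632) (nat_lit 152) (nat_lit 301139348891) (nat_lit 0) (nat_lit 348148016176) (nat_lit 1) (nat_lit 5) (nat_lit 3) (nat_lit 4) (nat_lit 1) (nat_lit 4) (nat_lit 432) (nat_lit 296) (nat_lit 292))) (XT.nd (nat_lit 78) (nat_lit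 0) (nat_lit 0) (XT.lf (nat_lit 0) (nat_lit 377348189668) (nat_lit 152) (nat_lit 322648727269) (nat_lit 0) (nat_lit 377233756307) (nat_lit 1) (nat_lit 5) (nat_lit 3) (nat_lit 4) (nat_lit 1) (nat_lit 4) (nat_lit 433) (nat_lit 296) (nat_lit 291)) (XT.nd (nat_lit 78) (nat_lit 0) (nat_lit 0) (XT.lf (nat_lit 0) (nat_lit 408726531406) (nat_lit 152) (nat_lit 345990928890) (nat_lit 0) (nat_lit 408594037022) (nat_lit 1) (nat_lit 5) (nat_lit 3) (nat_lit 4) (nat_lit 1) (nat_lit 4) (nat_lit 434) (nat_lit 296) (nat_lit 290)) (XT.lf (nat_lit 0) (nat_lit 442563914575) (nat_lit 152) (nat_lit 371304277912) (nat_lit 0) (nat_lit 442414697022) (nat_lit 1) (nat_lit 5) (nat_lit 3) (nat_lit 4) (nat_lit 1) (nat_lit 4) (nat_lit 435) (nat_lit 296) (nat_lit 289)))))) (XT.nd (nat_lit 390) (nat_lit 0) (nat_lit 0) (XT.nd (nat_lit 156) (nat_lit 0) (nat_lit 0) (XT.nd (nat_lit 78) (nat_lit 0) (nat_lit 0) (XT.lf (nat_lit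 0) (nat_lit 479060857002) (nat_lit 152) (nat_lit 398738779367) (nat_lit 0) (nat_lit 478896155033) (nat_lit 1) (nat_lit 5) (nat_lit 3) (nat_lit 4) (nat_lit 1) (nat_lit 4) (nat_lit 436) (nat_lit 296) (nat_lit 288)) (XT.lf (nat_lit 0) (nat_lit 518433636863) (nat_lit 152) (nat_lit 428457008078) (nat_lit 0) (nat_lit 518254597472) (nat_lit 1) (nat_lit 5) (nat_lit 3) (nat_lit 4) (nat_lit 1) (nat_lit 4) (nat_lit 437) (nat_lit 296) (nat_lit 287))) (XT.nd (nat_lit 78) (nat_lit 0) (nat_lit 0) (XT.lf (nat_lit 0) (nat_lit 560915574336) (nat_lit 152) (nat_lit 460635072066) (nat_lit 0) (nat_lit 560723259554) (nat_lit 1) (nat_lit 5) (nat_lit 3) (nat_lit 4) (nat_lit 1) (nat_lit 4) (nat_lit 438) (nat_lit 296) (nat_lit 286)) (XT.nd (nat_lit 78) (nat_lit 0) (nat_lit 0) (XT.lf (nat_lit 0) (nat_lit 606758414236) (nat_lit 152) (nat_lit 495463656156) (nat_lit 0) (nat_lit 606553807424) (nat_lit 1) (nat_lit 5)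 (nat_lit 3) (nat_lit 4) (nat_lit 1) (nat_lit 4) (nat_lit 439) (nat_lit 296) (nat_lit 285)) (XT.lf (nat_lit 0) (nat_lit 656233817835) (nat_lit 152) (nat_lit 533149151956) (nat_lit 0) (nat_lit 656017829515) (nat_lit 1) (nat_lit 5) (nat_lit 3) (nat_lit 4) (nat_lit 1) (nat_lit 4) (nat_lit 440) (nat_lit 296) (nat_lit 284))))) (XT.nd (nat_lit 156) (nat_lit 0) (nat_lit 0) (XT.nd (nat_lit 78) (nat_lit 0) (nat_lit 0) (XT.lf (nat_lit 0) (nat_lit 709634972710) (nat_lit 152) (nat_lit 573914880924) (nat_lit 0) (nat_lit 709408445957) (nat_lit 1) (nat_lit 5) (nat_lit 3) (nat_lit 4) (nat_lit 1) (nat_lit 4) (nat_lit 441) (nat_lit 296) (nat_lit 283)) (XT.lf (nat_lit 0) (nat_lit 767278330150) (nat_lit 152) (nat_lit 618002417750) (nat_lit 0) (nat_lit 767042045588) (nat_lit 1) (nat_lit 5) (nat_lit 3) (nat_lit 4) (nat_lit 1) (nat_lit 4) (nat_lit 442) (nat_lit 296) (nat_lit 282))) (XT.nd (nat_lit 78) (nat_lit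 0) (nat_lit 0) (XT.lf (nat_lit 0) (nat_lit 829505480422) (nat_lit 152) (nat_lit 665673021911) (nat_lit 0) (nat_lit 829260160852) (nat_lit 1) (nat_lit 5) (nat_lit 3) (nat_lit 4) (nat_lit 1) (nat_lit 4) (nat_lit 443) (nat_lit 296) (nat_lit 281)) (XT.nd (nat_lit 78) (nat_lit 0) (nat_lit 0) (XT.lf (nat_lit 0) (nat_lit 896685177007) (nat_lit 152) (nat_lit 717209185876) (nat_lit 0) (nat_lit 896431491689) (nat_lit 1) (nat_lit 5) (nat_lit 3) (nat_lit 4) (nat_lit 1) (nat_lit 4) (nat_lit 444) (nat_lit 296) (nat_lit 280)) (XT.lf (nat_lit 0) (nat_lit 969215521813) (nat_lit 152) (nat_lit 772916309135) (nat_lit 0) (nat_lit 968954090431) (nat_lit 1) (nat_lit 5) (nat_lit 3) (nat_lit 4) (nat_lit 1) (nat_lit 4) (nat_lit 445) (nat_lit 296) (nat_lit 279))))))) (XT.nd (nat_lit 780) (nat_lit 0) (nat_lit 0) (XT.nd (nat_lit 390) (nat_lit 0) (nat_lit 0) (XT.nd (nat_lit 156) (nat_lit 0) (nat_lit 0) (XT.nd (nat_lit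 78) (nat_lit 0) (nat_lit 0) (XT.lf (nat_lit 0) (nat_lit 1047526324289) (nat_lit 152) (nat_lit 833124507975) (nat_lit 0) (nat_lit 1047257720626) (nat_lit 1) (nat_lit 5) (nat_lit 3) (nat_lit 4) (nat_lit 1) (nat_lit 4) (nat_lit 446) (nat_lit 296) (nat_lit 278)) (XT.lf (nat_lit 0) (nat_lit 1132081648450) (nat_lit 152) (nat_lit 898190571722) (nat_lit 0) (nat_lit 1131806403787) (nat_lit 1) (nat_lit 5) (nat_lit 3) (nat_lit 4) (nat_lit 1) (nat_lit 4) (nat_lit 447) (nat_lit 296) (nat_lit 277))) (XT.nd (nat_lit 78) (nat_lit 0) (nat_lit 0) (XT.lf (nat_lit 0) (nat_lit 1223382562884) (nat_lit 152) (nat_lit 968500077050) (nat_lit 0) (nat_lit 1223101169146) (nat_lit 1) (nat_lit 5) (nat_lit 3) (nat_lit 4) (nat_lit 1) (nat_lit 4) (nat_lit 448) (nat_lit 296) (nat_lit 276)) (XT.nd (nat_lit 78) (nat_lit 0) (nat_lit 0) (XT.lf (nat_lit 0) (nat_lit 1321970110047) (nat_lit 152) (nat_lit 1044469672878) (nat_lit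 0) (nat_lit 1321683022721) (nat_lit 1) (nat_lit 5) (nat_lit 3) (nat_lit 4) (nat_lit 1) (nat_lit 4) (nat_lit 449) (nat_lit 296) (nat_lit 275)) (XT.lf (nat_lit 0) (nat_lit 1428428512440) (nat_lit 152) (nat_lit 1126549549406) (nat_lit 0) (nat_lit 1428136153274) (nat_lit 1) (nat_lit 5) (nat_lit 3) (nat_lit 4) (nat_lit 1) (nat_lit 4) (nat_lit 450) (nat_lit 296) (nat_lit 274))))) (XT.nd (nat_lit 156) (nat_lit 0) (nat_lit 0) (XT.nd (nat_lit 78) (nat_lit 0) (nat_lit 0) (XT.lf (nat_lit 0) (nat_lit 1543388634671) (nat_lit 152) (nat_lit 1215226105901) (nat_lit 0) (nat_lit 1543091394171) (nat_lit 1) (nat_lit 5) (nat_lit 3) (nat_lit 4) (nat_lit 1) (nat_lit 4) (nat_lit 451) (nat_lit 296) (nat_lit 273)) (XT.lf (nat_lit 0) (nat_lit 1667531721907) (nat_lit 152) (nat_lit 1311024833069) (nat_lit 0) (nat_lit 1667229961654) (nat_lit 1) (nat_lit 5) (nat_lit 3) (nat_lit 4) (nat_lit 1) (nat_lit 4) (nat_lit 452)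 (nat_lit 296) (nat_lit 272))) (XT.nd (nat_lit 78) (nat_lit 0) (nat_lit 0) (XT.lf (nat_lit 0) (nat_lit 1801593436889) (nat_lit 152) (nat_lit 1414513427069) (nat_lit 0) (nat_lit 1801287491679) (nat_lit 1) (nat_lit 5) (nat_lit 3) (nat_lit 4) (nat_lit 1) (nat_lit 4) (nat_lit 453) (nat_lit 296) (nat_lit 271)) (XT.nd (nat_lit 78) (nat_lit 0) (nat_lit 0) (XT.lf (nat_lit 0) (nat_lit 1946368219408) (nat_lit 152) (nat_lit 1526305153646) (nat_lit 0) (nat_lit 1946058399238) (nat_lit 1) (nat_lit 5) (nat_lit 3) (nat_lit 4) (nat_lit 1) (nat_lit 4) (nat_lit 454) (nat_lit 296) (nat_lit 270)) (XT.lf (nat_lit 0) (nat_lit 2102713994102) (nat_lit 152) (nat_lit 1647062482288) (nat_lit 0) (nat_lit 2102400586006) (nat_lit 1) (nat_lit 5) (nat_lit 3) (nat_lit 4) (nat_lit 1) (nat_lit 4) (nat_lit 455) (nat_lit 296) (nat_lit 269)))))) (XT.nd (nat_lit 390) (nat_lit 0) (nat_lit 0) (XT.nd (nat_lit 156) (nat_lit 0) (nat_lit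 0) (XT.nd (nat_lit 78) (nat_lit 0) (nat_lit 0) (XT.lf (nat_lit 0) (nat_lit 2271557254451) (nat_lit 152) (nat_lit 1777501011982) (nat_lit 0) (nat_lit 2271240524201) (nat_lit 1) (nat_lit 5) (nat_lit 3) (nat_lit 4) (nat_lit 1) (nat_lit 4) (nat_lit 456) (nat_lit 296) (nat_lit 268)) (XT.lf (nat_lit 0) (nat_lit 2453898553108) (nat_lit 152) (nat_lit 1918393711791) (nat_lit 0) (nat_lit 2453578746790) (nat_lit 1) (nat_lit 5) (nat_lit 3) (nat_lit 4) (nat_lit 1) (nat_lit 4) (nat_lit 457) (nat_lit 296) (nat_lit 267))) (XT.nd (nat_lit 78) (nat_lit 0) (nat_lit 0) (XT.lf (nat_lit 0) (nat_lit 2650818431103) (nat_lit 152) (nat_lit 2070575501418) (nat_lit 0) (nat_lit 2650495776573) (nat_lit 1) (nat_lit 5) (nat_lit 3) (nat_lit 4) (nat_lit 1) (nat_lit 4) (nat_lit 458) (nat_lit 296) (nat_lit 266)) (XT.nd (nat_lit 78) (nat_lit 0) (nat_lit 0) (XT.lf (nat_lit 0) (nat_lit 2863483821045) (nat_lit 152) (nat_lit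 2234948198877) (nat_lit 0) (nat_lit 2863158529283) (nat_lit 1) (nat_lit 5) (nat_lit 3) (nat_lit 4) (nat_lit 1) (nat_lit 4) (nat_lit 459) (nat_lit 296) (nat_lit 265)) (XT.lf (nat_lit 0) (nat_lit 3093154962283) (nat_lit 152) (nat_lit 2412485864596) (nat_lit 0) (nat_lit 3092827228639) (nat_lit 1) (nat_lit 5) (nat_lit 3) (nat_lit 4) (nat_lit 1) (nat_lit 4) (nat_lit 460) (nat_lit 296) (nat_lit 264))))) (XT.nd (nat_lit 50466) (nat_lit 0) (nat_lit 0) (XT.nd (nat_lit 50388) (nat_lit 0) (nat_lit 0) (XT.lf (nat_lit 0) (nat_lit 3341192868988) (nat_lit 152) (nat_lit 2604240573631) (nat_lit 0) (nat_lit 3340862874341) (nat_lit 1) (nat_lit 5) (nat_lit 3) (nat_lit 4) (nat_lit 1) (nat_lit 4) (nat_lit 461) (nat_lit 296) (nat_lit 263)) (XT.lf (nat_lit 0) (nat_lit 106289422734) (nat_lit 152) (nat_lit 102009465931) (nat_lit 0) (nat_lit 106289422734) (nat_lit 1) (nat_lit 5) (nat_lit 3) (nat_lit 4) (nat_lit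 1) (nat_lit 4) (nat_lit 426) (nat_lit 297) (nat_lit 297))) (XT.nd (nat_lit 78) (nat_lit 0) (nat_lit 0) (XT.lf (nat_lit 0) (nat_lit 231221407412) (nat_lit 152) (nat_lit 216963087722) (nat_lit 0) (nat_lit 231192746838) (nat_lit 1) (nat_lit 5) (nat_lit 3) (nat_lit 4) (nat_lit 1) (nat_lit 4) (nat_lit 427) (nat_lit 297) (nat_lit 296)) (XT.nd (nat_lit 78) (nat_lit 0) (nat_lit 0) (XT.lf (nat_lit 0) (nat_lit 251274085232) (nat_lit 152) (nat_lit 231107448015) (nat_lit 0) (nat_lit 251218887090) (nat_lit 1) (nat_lit 5) (nat_lit 3) (nat_lit 4) (nat_lit 1) (nat_lit 4) (nat_lit 428) (nat_lit 297) (nat_lit 295)) (XT.lf (nat_lit 0) (nat_lit 272855709613) (nat_lit 152) (nat_lit 246535831175) (nat_lit 0) (nat_lit 272775939648) (nat_lit 1) (nat_lit 5) (nat_lit 3) (nat_lit 4) (nat_lit 1) (nat_lit 4) (nat_lit 429) (nat_lit 297) (nat_lit 294))))))))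
noncomputable def xc8 : XT := (XT.nd (nat_lit 1482) (nat_lit 0) (nat_lit 0) (XT.nd (nat_lit 702) (nat_lit 0) (nat_lit 0) (XT.nd (nat_lit 312) (nat_lit 0) (nat_lit 0) (XT.nd (nat_lit 156) (nat_lit 0) (nat_lit 0) (XT.nd (nat_lit 78) (nat_lit 0) (nat_lit 0) (XT.lf (nat_lit 0) (nat_lit 296094171662) (nat_lit 152) (nat_lit 263339664657) (nat_lit 0) (nat_lit 295991650010) (nat_lit 1) (nat_lit 5) (nat_lit 3) (nat_lit 4) (nat_lit 1) (nat_lit 4) (nat_lit 430) (nat_lit 297) (nat_lit 293)) (XT.lf (nat_lit 0) (nat_lit 321127180784) (nat_lit 152) (nat_lit 281618526733) (nat_lit 0) (nat_lit 321003592755) (nat_lit 1) (nat_lit 5) (nat_lit 3) (nat_lit 4) (nat_lit 1) (nat_lit 4) (nat_lit 431) (nat_lit 297) (nat_lit 292))) (XT.nd (nat_lit 78) (nat_lit 0) (nat_lit 0) (XT.lf (nat_lit 0) (nat_lit 348103080737) (nat_lit 152) (nat_lit 301480736586) (nat_lit 0) (nat_lit 347959986802) (nat_lit 1) (nat_lit 5) (nat_lit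 3) (nat_lit 4) (nat_lit 1) (nat_lit 4) (nat_lit 432) (nat_lit 297) (nat_lit 291)) (XT.lf (nat_lit 0) (nat_lit 377181728705) (nat_lit 152) (nat_lit 323043996201) (nat_lit 0) (nat_lit 377020573748) (nat_lit 1) (nat_lit 5) (nat_lit 3) (nat_lit 4) (nat_lit 1) (nat_lit 4) (nat_lit 433) (nat_lit 297) (nat_lit 290)))) (XT.nd (nat_lit 156) (nat_lit 0) (nat_lit 0) (XT.nd (nat_lit 78) (nat_lit 0) (nat_lit 0) (XT.lf (nat_lit 0) (nat_lit 408535442603) (nat_lit 152) (nat_lit 346436087856) (nat_lit 0) (nat_lit 408357564476) (nat_lit 1) (nat_lit 5) (nat_lit 3) (nat_lit 4) (nat_lit 1) (nat_lit 4) (nat_lit 434) (nat_lit 297) (nat_lit 289)) (XT.lf (nat_lit 0) (nat_lit 442350022217) (nat_lit 152) (nat_lit 371795631355) (nat_lit 0) (nat_lit 442156659674) (nat_lit 1) (nat_lit 5) (nat_lit 3) (nat_lit 4) (nat_lit 1) (nat_lit 4) (nat_lit 435) (nat_lit 297) (nat_lit 288))) (XT.nd (nat_lit 78) (nat_lit 0) (nat_lit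 0) (XT.lf (nat_lit 0) (nat_lit 478825850240) (nat_lit 152) (nat_lit 399272905473) (nat_lit 0) (nat_lit 478618150274) (nat_lit 1) (nat_lit 5) (nat_lit 3) (nat_lit 4) (nat_lit 1) (nat_lit 4) (nat_lit 436) (nat_lit 297) (nat_lit 287)) (XT.nd (nat_lit 78) (nat_lit 0) (nat_lit 0) (XT.lf (nat_lit 0) (nat_lit 518179079727) (nat_lit 152) (nat_lit 429030738501) (nat_lit 0) (nat_lit 517958104371) (nat_lit 1) (nat_lit 5) (nat_lit 3) (nat_lit 4) (nat_lit 1) (nat_lit 4) (nat_lit 437) (nat_lit 297) (nat_lit 286)) (XT.lf (nat_lit 0) (nat_lit 560642915002) (nat_lit 152) (nat_lit 461245473154) (nat_lit 0) (nat_lit 560409647617) (nat_lit 1) (nat_lit 5) (nat_lit 3) (nat_lit 4) (nat_lit 1) (nat_lit 4) (nat_lit 438) (nat_lit 297) (nat_lit 285)))))) (XT.nd (nat_lit 390) (nat_lit 0) (nat_lit 0) (XT.nd (nat_lit 156) (nat_lit 0) (nat_lit 0) (XT.nd (nat_lit 78) (nat_lit 0) (nat_lit 0) (XT.lf (nat_lit 0) (nat_lit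 606468993607) (nat_lit 152) (nat_lit 496108011563) (nat_lit 0) (nat_lit 606224344714) (nat_lit 1) (nat_lit 5) (nat_lit 3) (nat_lit 4) (nat_lit 1) (nat_lit 4) (nat_lit 439) (nat_lit 297) (nat_lit 284)) (XT.lf (nat_lit 0) (nat_lit 655928877489) (nat_lit 152) (nat_lit 533824946548) (nat_lit 0) (nat_lit 655673690162) (nat_lit 1) (nat_lit 5) (nat_lit 3) (nat_lit 4) (nat_lit 1) (nat_lit 4) (nat_lit 440) (nat_lit 297) (nat_lit 283))) (XT.nd (nat_lit 78) (nat_lit 0) (nat_lit 0) (XT.lf (nat_lit 0) (nat_lit 709315662256) (nat_lit 152) (nat_lit 574619785872) (nat_lit 0) (nat_lit 709050717121) (nat_lit 1) (nat_lit 5) (nat_lit 3) (nat_lit 4) (nat_lit 1) (nat_lit 4) (nat_lit 441) (nat_lit 297) (nat_lit 282)) (XT.nd (nat_lit 78) (nat_lit 0) (nat_lit 0) (XT.lf (nat_lit 0) (nat_lit 766945714041) (nat_lit 152) (nat_lit 618734276730) (nat_lit 0) (nat_lit 766671733897) (nat_lit 1) (nat_lit 5) (nat_lit 3)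 (nat_lit 4) (nat_lit 1) (nat_lit 4) (nat_lit 442) (nat_lit 297) (nat_lit 281)) (XT.lf (nat_lit 0) (nat_lit 829160544261) (nat_lit 152) (nat_lit 666429838329) (nat_lit 0) (nat_lit 828878198368) (nat_lit 1) (nat_lit 5) (nat_lit 3) (nat_lit 4) (nat_lit 1) (nat_lit 4) (nat_lit 443) (nat_lit 297) (nat_lit 280))))) (XT.nd (nat_lit 156) (nat_lit 0) (nat_lit 0) (XT.nd (nat_lit 78) (nat_lit 0) (nat_lit 0) (XT.lf (nat_lit 0) (nat_lit 896328833391) (nat_lit 152) (nat_lit 717989111034) (nat_lit 0) (nat_lit 896038741435) (nat_lit 1) (nat_lit 5) (nat_lit 3) (nat_lit 4) (nat_lit 1) (nat_lit 4) (nat_lit 444) (nat_lit 297) (nat_lit 279)) (XT.lf (nat_lit 0) (nat_lit 968848615738) (nat_lit 152) (nat_lit 773717631274) (nat_lit 0) (nat_lit 968551351501) (nat_lit 1) (nat_lit 5) (nat_lit 3) (nat_lit 4) (nat_lit 1) (nat_lit 4) (nat_lit 445) (nat_lit 297) (nat_lit 278))) (XT.nd (nat_lit 78) (nat_lit 0) (nat_lit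 0) (XT.lf (nat_lit 0) (nat_lit 1047149638159) (nat_lit 152) (nat_lit 833945642133) (nat_lit 0) (nat_lit 1046845732922) (nat_lit 1) (nat_lit 5) (nat_lit 3) (nat_lit 4) (nat_lit 1) (nat_lit 4) (nat_lit 446) (nat_lit 297) (nat_lit 277)) (XT.nd (nat_lit 78) (nat_lit 0) (nat_lit 0) (XT.lf (nat_lit 0) (nat_lit 1131695906715) (nat_lit 152) (nat_lit 899030050341) (nat_lit 0) (nat_lit 1131385852403) (nat_lit 1) (nat_lit 5) (nat_lit 3) (nat_lit 4) (nat_lit 1) (nat_lit 4) (nat_lit 447) (nat_lit 297) (nat_lit 276)) (XT.lf (nat_lit 0) (nat_lit 1222988436329) (nat_lit 152) (nat_lit 969356541282) (nat_lit 0) (nat_lit 1222672688429) (nat_lit 1) (nat_lit 5) (nat_lit 3) (nat_lit 4) (nat_lit 1) (nat_lit 4) (nat_lit 448) (nat_lit 297) (nat_lit 275))))))) (XT.nd (nat_lit 702) (nat_lit 0) (nat_lit 0) (XT.nd (nat_lit 312) (nat_lit 0) (nat_lit 0) (XT.nd (nat_lit 156) (nat_lit 0) (nat_lit 0) (XT.nd (nat_lit 78)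 (nat_lit 0) (nat_lit 0) (XT.lf (nat_lit 0) (nat_lit 1321568219769) (nat_lit 152) (nat_lit 1045341864531) (nat_lit 0) (nat_lit 1321247200029) (nat_lit 1) (nat_lit 5) (nat_lit 3) (nat_lit 4) (nat_lit 1) (nat_lit 4) (nat_lit 449) (nat_lit 297) (nat_lit 274)) (XT.lf (nat_lit 0) (nat_lit 1428019433531) (nat_lit 152) (nat_lit 1127436303484) (nat_lit 0) (nat_lit 1427693532457) (nat_lit 1) (nat_lit 5) (nat_lit 3) (nat_lit 4) (nat_lit 1) (nat_lit 4) (nat_lit 450) (nat_lit 297) (nat_lit 273))) (XT.nd (nat_lit 78) (nat_lit 0) (nat_lit 0) (XT.lf (nat_lit 0) (nat_lit 1542972899620) (nat_lit 152) (nat_lit 1216126343706) (nat_lit 0) (nat_lit 1542642478793) (nat_lit 1) (nat_lit 5) (nat_lit 3) (nat_lit 4) (nat_lit 1) (nat_lit 4) (nat_lit 451) (nat_lit 297) (nat_lit 272)) (XT.lf (nat_lit 0) (nat_lit 1667109823764) (nat_lit 152) (nat_lit 1311937555806) (nat_lit 0) (nat_lit 1666775217980) (nat_lit 1) (nat_lit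 5) (nat_lit 3) (nat_lit 4) (nat_lit 1) (nat_lit 4) (nat_lit 452) (nat_lit 297) (nat_lit 271)))) (XT.nd (nat_lit 156) (nat_lit 0) (nat_lit 0) (XT.nd (nat_lit 78) (nat_lit 0) (nat_lit 0) (XT.lf (nat_lit 0) (nat_lit 1801165832178) (nat_lit 152) (nat_lit 1415437709930) (nat_lit 0) (nat_lit 1800827351434) (nat_lit 1) (nat_lit 5) (nat_lit 3) (nat_lit 4) (nat_lit 1) (nat_lit 4) (nat_lit 453) (nat_lit 297) (nat_lit 270)) (XT.lf (nat_lit 0) (nat_lit 1945935330838) (nat_lit 152) (nat_lit 1527240140323) (nat_lit 0) (nat_lit 1945593262168) (nat_lit 1) (nat_lit 5) (nat_lit 3) (nat_lit 4) (nat_lit 1) (nat_lit 4) (nat_lit 454) (nat_lit 297) (nat_lit 269))) (XT.nd (nat_lit 78) (nat_lit 0) (nat_lit 0) (XT.lf (nat_lit 0) (nat_lit 2102276213070) (nat_lit 152) (nat_lit 1648007379908) (nat_lit 0) (nat_lit 2101930822247) (nat_lit 1) (nat_lit 5) (nat_lit 3) (nat_lit 4) (nat_lit 1) (nat_lit 4) (nat_lit 455) (nat_lit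 297) (nat_lit 268)) (XT.nd (nat_lit 78) (nat_lit 0) (nat_lit 0) (XT.lf (nat_lit 0) (nat_lit 2271114943362) (nat_lit 152) (nat_lit 1778455086400) (nat_lit 0) (nat_lit 2270766476470) (nat_lit 1) (nat_lit 5) (nat_lit 3) (nat_lit 4) (nat_lit 1) (nat_lit 4) (nat_lit 456) (nat_lit 297) (nat_lit 267)) (XT.lf (nat_lit 0) (nat_lit 2453452047521) (nat_lit 152) (nat_lit 1919356283244) (nat_lit 0) (nat_lit 2453100732418) (nat_lit 1) (nat_lit 5) (nat_lit 3) (nat_lit 4) (nat_lit 1) (nat_lit 4) (nat_lit 457) (nat_lit 297) (nat_lit 266)))))) (XT.nd (nat_lit 50544) (nat_lit 0) (nat_lit 0) (XT.nd (nat_lit 156) (nat_lit 0) (nat_lit 0) (XT.nd (nat_lit 78) (nat_lit 0) (nat_lit 0) (XT.lf (nat_lit 0) (nat_lit 2650368041722) (nat_lit 152) (nat_lit 2071545940497) (nat_lit 0) (nat_lit 2650014089385) (nat_lit 1) (nat_lit 5) (nat_lit 3) (nat_lit 4) (nat_lit 1) (nat_lit 4) (nat_lit 458) (nat_lit 297) (nat_lit 265))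 (XT.lf (nat_lit 0) (nat_lit 2863029835559) (nat_lit 152) (nat_lit 2235925922794) (nat_lit 0) (nat_lit 2862673441340) (nat_lit 1) (nat_lit 5) (nat_lit 3) (nat_lit 4) (nat_lit 1) (nat_lit 4) (nat_lit 459) (nat_lit 297) (nat_lit 264))) (XT.nd (nat_lit 78) (nat_lit 0) (nat_lit 0) (XT.lf (nat_lit 0) (nat_lit 3092697647069) (nat_lit 152) (nat_lit 2413470333734) (nat_lit 0) (nat_lit 3092338991849) (nat_lit 1) (nat_lit 5) (nat_lit 3) (nat_lit 4) (nat_lit 1) (nat_lit 4) (nat_lit 460) (nat_lit 297) (nat_lit 263)) (XT.nd (nat_lit 50232) (nat_lit 0) (nat_lit 0) (XT.lf (nat_lit 0) (nat_lit 3340732470692) (nat_lit 152) (nat_lit 2605231288344) (nat_lit 0) (nat_lit 3340371721951) (nat_lit 1) (nat_lit 5) (nat_lit 3) (nat_lit 4) (nat_lit 1) (nat_lit 4) (nat_lit 461) (nat_lit 297) (nat_lit 262)) (XT.lf (nat_lit 0) (nat_lit 89583205432) (nat_lit 152) (nat_lit 90669361905) (nat_lit 0) (nat_lit 89583205432)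 (nat_lit 1) (nat_lit 5) (nat_lit 3) (nat_lit 4) (nat_lit 1) (nat_lit 4) (nat_lit 424) (nat_lit 298) (nat_lit 298))))) (XT.nd (nat_lit 156) (nat_lit 0) (nat_lit 0) (XT.nd (nat_lit 78) (nat_lit 0) (nat_lit 0) (XT.lf (nat_lit 0) (nat_lit 195266878383) (nat_lit 152) (nat_lit 192198274330) (nat_lit 0) (nat_lit 195235924963) (nat_lit 1) (nat_lit 5) (nat_lit 3) (nat_lit 4) (nat_lit 1) (nat_lit 4) (nat_lit 425) (nat_lit 298) (nat_lit 297)) (XT.lf (nat_lit 0) (nat_lit 212567591098) (nat_lit 152) (nat_lit 204104434615) (nat_lit 0) (nat_lit 212507977105) (nat_lit 1) (nat_lit 5) (nat_lit 3) (nat_lit 4) (nat_lit 1) (nat_lit 4) (nat_lit 426) (nat_lit 298) (nat_lit 296))) (XT.nd (nat_lit 78) (nat_lit 0) (nat_lit 0) (XT.lf (nat_lit 0) (nat_lit 231171071754) (nat_lit 152) (nat_lit 217127759688) (nat_lit 0) (nat_lit 231084920192) (nat_lit 1) (nat_lit 5) (nat_lit 3) (nat_lit 4) (nat_lit 1) (nat_lit 4) (nat_lit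 427) (nat_lit 298) (nat_lit 295)) (XT.nd (nat_lit 78) (nat_lit 0) (nat_lit 0) (XT.lf (nat_lit 0) (nat_lit 251187563196) (nat_lit 152) (nat_lit 231345424810) (nat_lit 0) (nat_lit 251076839812) (nat_lit 1) (nat_lit 5) (nat_lit 3) (nat_lit 4) (nat_lit 1) (nat_lit 4) (nat_lit 428) (nat_lit 298) (nat_lit 294)) (XT.lf (nat_lit 0) (nat_lit 272735681672) (nat_lit 152) (nat_lit 246841682810) (nat_lit 0) (nat_lit 272602206601) (nat_lit 1) (nat_lit 5) (nat_lit 3) (nat_lit 4) (nat_lit 1) (nat_lit 4) (nat_lit 429) (nat_lit 298) (nat_lit 293))))))))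
noncomputable def xc9 : XT := (XT.nd (nat_lit 1482) (nat_lit 0) (nat_lit 0) (XT.nd (nat_lit 702) (nat_lit 0) (nat_lit 0) (XT.nd (nat_lit 312) (nat_lit 0) (nat_lit 0) (XT.nd (nat_lit 156) (nat_lit 0) (nat_lit 0) (XT.nd (nat_lit 78) (nat_lit 0) (nat_lit 0) (XT.lf (nat_lit 0) (nat_lit 295943119735) (nat_lit 152) (nat_lit 263708363367) (nat_lit 0) (nat_lit 295788578286) (nat_lit 1) (nat_lit 5) (nat_lit 3) (nat_lit 4) (nat_lit 1) (nat_lit 4) (nat_lit 430) (nat_lit 298) (nat_lit 292)) (XT.lf (nat_lit 0) (nat_lit 320947402944) (nat_lit 152) (nat_lit 282045417179) (nat_lit 0) (nat_lit 320773355590) (nat_lit 1) (nat_lit 5) (nat_lit 3) (nat_lit 4) (nat_lit 1) (nat_lit 4) (nat_lit 431) (nat_lit 298) (nat_lit 291))) (XT.nd (nat_lit 78) (nat_lit 0) (nat_lit 0) (XT.lf (nat_lit 0) (nat_lit 347896704829) (nat_lit 152) (nat_lit 301961508270) (nat_lit 0) (nat_lit 347704596453) (nat_lit 1) (nat_lit 5) (nat_lit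 3) (nat_lit 4) (nat_lit 1) (nat_lit 4) (nat_lit 432) (nat_lit 298) (nat_lit 290)) (XT.lf (nat_lit 0) (nat_lit 376950724958) (nat_lit 152) (nat_lit 323574657919) (nat_lit 0) (nat_lit 376741893411) (nat_lit 1) (nat_lit 5) (nat_lit 3) (nat_lit 4) (nat_lit 1) (nat_lit 4) (nat_lit 433) (nat_lit 298) (nat_lit 289)))) (XT.nd (nat_lit 156) (nat_lit 0) (nat_lit 0) (XT.nd (nat_lit 78) (nat_lit 0) (nat_lit 0) (XT.lf (nat_lit 0) (nat_lit 408281635300) (nat_lit 152) (nat_lit 347012944051) (nat_lit 0) (nat_lit 408057319337) (nat_lit 1) (nat_lit 5) (nat_lit 3) (nat_lit 4) (nat_lit 1) (nat_lit 4) (nat_lit 434) (nat_lit 298) (nat_lit 288)) (XT.lf (nat_lit 0) (nat_lit 442075100509) (nat_lit 152) (nat_lit 372415260212) (nat_lit 0) (nat_lit 441836447124) (nat_lit 1) (nat_lit 5) (nat_lit 3) (nat_lit 4) (nat_lit 1) (nat_lit 4) (nat_lit 435) (nat_lit 298) (nat_lit 287))) (XT.nd (nat_lit 78) (nat_lit 0) (nat_lit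 0) (XT.lf (nat_lit 0) (nat_lit 478531378159) (nat_lit 152) (nat_lit 399932138648) (nat_lit 0) (nat_lit 478279449383) (nat_lit 1) (nat_lit 5) (nat_lit 3) (nat_lit 4) (nat_lit 1) (nat_lit 4) (nat_lit 436) (nat_lit 298) (nat_lit 286)) (XT.nd (nat_lit 78) (nat_lit 0) (nat_lit 0) (XT.lf (nat_lit 0) (nat_lit 517866505449) (nat_lit 152) (nat_lit 429726642341) (nat_lit 0) (nat_lit 517602284644) (nat_lit 1) (nat_lit 5) (nat_lit 3) (nat_lit 4) (nat_lit 1) (nat_lit 4) (nat_lit 437) (nat_lit 298) (nat_lit 285)) (XT.lf (nat_lit 0) (nat_lit 560313579429) (nat_lit 152) (nat_lit 461975331313) (nat_lit 0) (nat_lit 560037977116) (nat_lit 1) (nat_lit 5) (nat_lit 3) (nat_lit 4) (nat_lit 1) (nat_lit 4) (nat_lit 438) (nat_lit 298) (nat_lit 284)))))) (XT.nd (nat_lit 390) (nat_lit 0) (nat_lit 0) (XT.nd (nat_lit 156) (nat_lit 0) (nat_lit 0) (XT.nd (nat_lit 78) (nat_lit 0) (nat_lit 0) (XT.lf (nat_lit 0) (nat_lit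 606124138317) (nat_lit 152) (nat_lit 496869308906) (nat_lit 0) (nat_lit 605837997571) (nat_lit 1) (nat_lit 5) (nat_lit 3) (nat_lit 4) (nat_lit 1) (nat_lit 4) (nat_lit 439) (nat_lit 298) (nat_lit 283)) (XT.lf (nat_lit 0) (nat_lit 655569652091) (nat_lit 152) (nat_lit 534615354247) (nat_lit 0) (nat_lit 655273753535) (nat_lit 1) (nat_lit 5) (nat_lit 3) (nat_lit 4) (nat_lit 1) (nat_lit 4) (nat_lit 440) (nat_lit 298) (nat_lit 282))) (XT.nd (nat_lit 78) (nat_lit 0) (nat_lit 0) (XT.lf (nat_lit 0) (nat_lit 708943131202) (nat_lit 152) (nat_lit 575437147604) (nat_lit 0) (nat_lit 708638197639) (nat_lit 1) (nat_lit 5) (nat_lit 3) (nat_lit 4) (nat_lit 1) (nat_lit 4) (nat_lit 441) (nat_lit 298) (nat_lit 281)) (XT.nd (nat_lit 78) (nat_lit 0) (nat_lit 0) (XT.lf (nat_lit 0) (nat_lit 766560862935) (nat_lit 152) (nat_lit 619576595901) (nat_lit 0) (nat_lit 766247563623) (nat_lit 1) (nat_lit 5) (nat_lit 3)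 (nat_lit 4) (nat_lit 1) (nat_lit 4) (nat_lit 442) (nat_lit 298) (nat_lit 280)) (XT.lf (nat_lit 0) (nat_lit 828764285699) (nat_lit 152) (nat_lit 667295266239) (nat_lit 0) (nat_lit 828443240324) (nat_lit 1) (nat_lit 5) (nat_lit 3) (nat_lit 4) (nat_lit 1) (nat_lit 4) (nat_lit 443) (nat_lit 298) (nat_lit 279))))) (XT.nd (nat_lit 156) (nat_lit 0) (nat_lit 0) (XT.nd (nat_lit 78) (nat_lit 0) (nat_lit 0) (XT.lf (nat_lit 0) (nat_lit 895922012371) (nat_lit 152) (nat_lit 718875935924) (nat_lit 0) (nat_lit 895593794715) (nat_lit 1) (nat_lit 5) (nat_lit 3) (nat_lit 4) (nat_lit 1) (nat_lit 4) (nat_lit 444) (nat_lit 298) (nat_lit 278)) (XT.lf (nat_lit 0) (nat_lit 968432014664) (nat_lit 152) (nat_lit 774624268183) (nat_lit 0) (nat_lit 968097156007) (nat_lit 1) (nat_lit 5) (nat_lit 3) (nat_lit 4) (nat_lit 1) (nat_lit 4) (nat_lit 445) (nat_lit 298) (nat_lit 277))) (XT.nd (nat_lit 78) (nat_lit 0) (nat_lit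 0) (XT.lf (nat_lit 0) (nat_lit 1046723981480) (nat_lit 152) (nat_lit 834870623504) (nat_lit 0) (nat_lit 1046382973748) (nat_lit 1) (nat_lit 5) (nat_lit 3) (nat_lit 4) (nat_lit 1) (nat_lit 4) (nat_lit 446) (nat_lit 298) (nat_lit 276)) (XT.nd (nat_lit 78) (nat_lit 0) (nat_lit 0) (XT.lf (nat_lit 0) (nat_lit 1131261865215) (nat_lit 152) (nat_lit 899972017326) (nat_lit 0) (nat_lit 1130915163896) (nat_lit 1) (nat_lit 5) (nat_lit 3) (nat_lit 4) (nat_lit 1) (nat_lit 4) (nat_lit 447) (nat_lit 298) (nat_lit 275)) (XT.lf (nat_lit 0) (nat_lit 1222546631106) (nat_lit 152) (nat_lit 970314235686) (nat_lit 0) (nat_lit 1222194657947) (nat_lit 1) (nat_lit 5) (nat_lit 3) (nat_lit 4) (nat_lit 1) (nat_lit 4) (nat_lit 448) (nat_lit 298) (nat_lit 274))))))) (XT.nd (nat_lit 780) (nat_lit 0) (nat_lit 0) (XT.nd (nat_lit 390) (nat_lit 0) (nat_lit 0) (XT.nd (nat_lit 156) (nat_lit 0) (nat_lit 0) (XT.nd (nat_lit 78)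 (nat_lit 0) (nat_lit 0) (XT.lf (nat_lit 0) (nat_lit 1321119225915) (nat_lit 152) (nat_lit 1046314121360) (nat_lit 0) (nat_lit 1320762371422) (nat_lit 1) (nat_lit 5) (nat_lit 3) (nat_lit 4) (nat_lit 1) (nat_lit 4) (nat_lit 449) (nat_lit 298) (nat_lit 273)) (XT.lf (nat_lit 0) (nat_lit 1427563783536) (nat_lit 152) (nat_lit 1128422044040) (nat_lit 0) (nat_lit 1427202409289) (nat_lit 1) (nat_lit 5) (nat_lit 3) (nat_lit 4) (nat_lit 1) (nat_lit 4) (nat_lit 450) (nat_lit 298) (nat_lit 272))) (XT.nd (nat_lit 78) (nat_lit 0) (nat_lit 0) (XT.lf (nat_lit 0) (nat_lit 1542511086533) (nat_lit 152) (nat_lit 1217124569195) (nat_lit 0) (nat_lit 1542145527329) (nat_lit 1) (nat_lit 5) (nat_lit 3) (nat_lit 4) (nat_lit 1) (nat_lit 4) (nat_lit 451) (nat_lit 298) (nat_lit 271)) (XT.nd (nat_lit 78) (nat_lit 0) (nat_lit 0) (XT.lf (nat_lit 0) (nat_lit 1666642304108) (nat_lit 152) (nat_lit 1312947341418) (nat_lit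 0) (nat_lit 1666272869945) (nat_lit 1) (nat_lit 5) (nat_lit 3) (nat_lit 4) (nat_lit 1) (nat_lit 4) (nat_lit 452) (nat_lit 298) (nat_lit 270)) (XT.lf (nat_lit 0) (nat_lit 1800693028663) (nat_lit 152) (nat_lit 1416458199359) (nat_lit 0) (nat_lit 1800320006573) (nat_lit 1) (nat_lit 5) (nat_lit 3) (nat_lit 4) (nat_lit 1) (nat_lit 4) (nat_lit 453) (nat_lit 298) (nat_lit 269))))) (XT.nd (nat_lit 156) (nat_lit 0) (nat_lit 0) (XT.nd (nat_lit 78) (nat_lit 0) (nat_lit 0) (XT.lf (nat_lit 0) (nat_lit 1945457634862) (nat_lit 152) (nat_lit 1528270540695) (nat_lit 0) (nat_lit 1945081290618) (nat_lit 1) (nat_lit 5) (nat_lit 3) (nat_lit 4) (nat_lit 1) (nat_lit 4) (nat_lit 454) (nat_lit 298) (nat_lit 268)) (XT.lf (nat_lit 0) (nat_lit 2101793987036) (nat_lit 152) (nat_lit 1649046957078) (nat_lit 0) (nat_lit 2101414566725) (nat_lit 1) (nat_lit 5) (nat_lit 3) (nat_lit 4) (nat_lit 1) (nat_lit 4) (nat_lit 455)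 (nat_lit 298) (nat_lit 267))) (XT.nd (nat_lit 78) (nat_lit 0) (nat_lit 0) (XT.lf (nat_lit 0) (nat_lit 2270628522830) (nat_lit 152) (nat_lit 1779503160605) (nat_lit 0) (nat_lit 2270246254307) (nat_lit 1) (nat_lit 5) (nat_lit 3) (nat_lit 4) (nat_lit 1) (nat_lit 4) (nat_lit 456) (nat_lit 298) (nat_lit 266)) (XT.nd (nat_lit 78) (nat_lit 0) (nat_lit 0) (XT.lf (nat_lit 0) (nat_lit 2452961743195) (nat_lit 152) (nat_lit 1920412225075) (nat_lit 0) (nat_lit 2452576837440) (nat_lit 1) (nat_lit 5) (nat_lit 3) (nat_lit 4) (nat_lit 1) (nat_lit 4) (nat_lit 457) (nat_lit 298) (nat_lit 265)) (XT.lf (nat_lit 0) (nat_lit 2649874141290) (nat_lit 152) (nat_lit 2072609167166) (nat_lit 0) (nat_lit 2649486793652) (nat_lit 1) (nat_lit 5) (nat_lit 3) (nat_lit 4) (nat_lit 1) (nat_lit 4) (nat_lit 458) (nat_lit 298) (nat_lit 264)))))) (XT.nd (nat_lit 50388) (nat_lit 0) (nat_lit 0) (XT.nd (nat_lit 156) (nat_lit 0)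 (nat_lit 0) (XT.nd (nat_lit 78) (nat_lit 0) (nat_lit 0) (XT.lf (nat_lit 0) (nat_lit 2862532605400) (nat_lit 152) (nat_lit 2236995894683) (nat_lit 0) (nat_lit 2862142996760) (nat_lit 1) (nat_lit 5) (nat_lit 3) (nat_lit 4) (nat_lit 1) (nat_lit 4) (nat_lit 459) (nat_lit 298) (nat_lit 263)) (XT.lf (nat_lit 0) (nat_lit 3092197333829) (nat_lit 152) (nat_lit 2414546551198) (nat_lit 0) (nat_lit 3091805631669) (nat_lit 1) (nat_lit 5) (nat_lit 3) (nat_lit 4) (nat_lit 1) (nat_lit 4) (nat_lit 460) (nat_lit 298) (nat_lit 262))) (XT.nd (nat_lit 50076) (nat_lit 0) (nat_lit 0) (XT.lf (nat_lit 0) (nat_lit 3340229302748) (nat_lit 152) (nat_lit 2606313288747) (nat_lit 0) (nat_lit 3339835662143) (nat_lit 1) (nat_lit 5) (nat_lit 3) (nat_lit 4) (nat_lit 1) (nat_lit 4) (nat_lit 461) (nat_lit 298) (nat_lit 261)) (XT.nd (nat_lit 78) (nat_lit 0) (nat_lit 0) (XT.lf (nat_lit 0) (nat_lit 75136889368) (nat_lit 152)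 (nat_lit 81204065435) (nat_lit 0) (nat_lit 75136889368) (nat_lit 1) (nat_lit 5) (nat_lit 3) (nat_lit 4) (nat_lit 1) (nat_lit 4) (nat_lit 422) (nat_lit 299) (nat_lit 299)) (XT.lf (nat_lit 0) (nat_lit 164204208058) (nat_lit 152) (nat_lit 171461430165) (nat_lit 0) (nat_lit 164170778365) (nat_lit 1) (nat_lit 5) (nat_lit 3) (nat_lit 4) (nat_lit 1) (nat_lit 4) (nat_lit 423) (nat_lit 299) (nat_lit 298))))) (XT.nd (nat_lit 156) (nat_lit 0) (nat_lit 0) (XT.nd (nat_lit 78) (nat_lit 0) (nat_lit 0) (XT.lf (nat_lit 0) (nat_lit 179154256143) (nat_lit 152) (nat_lit 181431066783) (nat_lit 0) (nat_lit 179089873031) (nat_lit 1) (nat_lit 5) (nat_lit 3) (nat_lit 4) (nat_lit 1) (nat_lit 4) (nat_lit 424) (nat_lit 299) (nat_lit 297)) (XT.lf (nat_lit 0) (nat_lit 195212515872) (nat_lit 152) (nat_lit 192376120054) (nat_lit 0) (nat_lit 195119472185) (nat_lit 1) (nat_lit 5) (nat_lit 3) (nat_lit 4) (nat_lit 1) (nat_lit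 4) (nat_lit 425) (nat_lit 299) (nat_lit 296))) (XT.nd (nat_lit 78) (nat_lit 0) (nat_lit 0) (XT.lf (nat_lit 0) (nat_lit 212474147300) (nat_lit 152) (nat_lit 204361449553) (nat_lit 0) (nat_lit 212354566045) (nat_lit 1) (nat_lit 5) (nat_lit 3) (nat_lit 4) (nat_lit 1) (nat_lit 4) (nat_lit 426) (nat_lit 299) (nat_lit 295)) (XT.nd (nat_lit 78) (nat_lit 0) (nat_lit 0) (XT.lf (nat_lit 0) (nat_lit 231041441578) (nat_lit 152) (nat_lit 217458079454) (nat_lit 0) (nat_lit 230897288500) (nat_lit 1) (nat_lit 5) (nat_lit 3) (nat_lit 4) (nat_lit 1) (nat_lit 4) (nat_lit 427) (nat_lit 299) (nat_lit 294)) (XT.lf (nat_lit 0) (nat_lit 251024427116) (nat_lit 152) (nat_lit 231743619417) (nat_lit 0) (nat_lit 250857522351) (nat_lit 1) (nat_lit 5) (nat_lit 3) (nat_lit 4) (nat_lit 1) (nat_lit 4) (nat_lit 428) (nat_lit 299) (nat_lit 293))))))))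
noncomputable def xc10 : XT := (XT.nd (nat_lit 1482) (nat_lit 0) (nat_lit 0) (XT.nd (nat_lit 702) (nat_lit 0) (nat_lit 0) (XT.nd (nat_lit 312) (nat_lit 0) (nat_lit 0) (XT.nd (nat_lit 156) (nat_lit 0) (nat_lit 0) (XT.nd (nat_lit 78) (nat_lit 0) (nat_lit 0) (XT.lf (nat_lit 0) (nat_lit 272541521605) (nat_lit 152) (nat_lit 247302724492) (nat_lit 0) (nat_lit 272353550463) (nat_lit 1) (nat_lit 5) (nat_lit 3) (nat_lit 4) (nat_lit 1) (nat_lit 4) (nat_lit 429) (nat_lit 299) (nat_lit 292)) (XT.lf (nat_lit 0) (nat_lit 295720233755) (nat_lit 152) (nat_lit 264227596785) (nat_lit 0) (nat_lit 295512756708) (nat_lit 1) (nat_lit 5) (nat_lit 3) (nat_lit 4) (nat_lit 1) (nat_lit 4) (nat_lit 430) (nat_lit 299) (nat_lit 291))) (XT.nd (nat_lit 78) (nat_lit 0) (nat_lit 0) (XT.lf (nat_lit 0) (nat_lit 320697918897) (nat_lit 152) (nat_lit 282618531835) (nat_lit 0) (nat_lit 320472380827) (nat_lit 1) (nat_lit 5) (nat_lit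 3) (nat_lit 4) (nat_lit 1) (nat_lit 4) (nat_lit 431) (nat_lit 299) (nat_lit 290)) (XT.lf (nat_lit 0) (nat_lit 347622592942) (nat_lit 152) (nat_lit 302584512959) (nat_lit 0) (nat_lit 347380331702) (nat_lit 1) (nat_lit 5) (nat_lit 3) (nat_lit 4) (nat_lit 1) (nat_lit 4) (nat_lit 432) (nat_lit 299) (nat_lit 289)))) (XT.nd (nat_lit 156) (nat_lit 0) (nat_lit 0) (XT.nd (nat_lit 78) (nat_lit 0) (nat_lit 0) (XT.lf (nat_lit 0) (nat_lit 376653809514) (nat_lit 152) (nat_lit 324243857085) (nat_lit 0) (nat_lit 376396063858) (nat_lit 1) (nat_lit 5) (nat_lit 3) (nat_lit 4) (nat_lit 1) (nat_lit 4) (nat_lit 433) (nat_lit 299) (nat_lit 288)) (XT.lf (nat_lit 0) (nat_lit 407963605452) (nat_lit 152) (nat_lit 347724915880) (nat_lit 0) (nat_lit 407691522374) (nat_lit 1) (nat_lit 5) (nat_lit 3) (nat_lit 4) (nat_lit 1) (nat_lit 4) (nat_lit 434) (nat_lit 299) (nat_lit 287))) (XT.nd (nat_lit 78) (nat_lit 0) (nat_lit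 0) (XT.lf (nat_lit 0) (nat_lit 441737520289) (nat_lit 152) (nat_lit 373166836359) (nat_lit 0) (nat_lit 441452161819) (nat_lit 1) (nat_lit 5) (nat_lit 3) (nat_lit 4) (nat_lit 1) (nat_lit 4) (nat_lit 435) (nat_lit 299) (nat_lit 286)) (XT.nd (nat_lit 78) (nat_lit 0) (nat_lit 0) (XT.lf (nat_lit 0) (nat_lit 478175695740) (nat_lit 152) (nat_lit 400720385459) (nat_lit 0) (nat_lit 477878045242) (nat_lit 1) (nat_lit 5) (nat_lit 3) (nat_lit 4) (nat_lit 1) (nat_lit 4) (nat_lit 436) (nat_lit 299) (nat_lit 285)) (XT.lf (nat_lit 0) (nat_lit 517494061735) (nat_lit 152) (nat_lit 430548843471) (nat_lit 0) (nat_lit 517185029729) (nat_lit 1) (nat_lit 5) (nat_lit 3) (nat_lit 4) (nat_lit 1) (nat_lit 4) (nat_lit 437) (nat_lit 299) (nat_lit 284)))))) (XT.nd (nat_lit 390) (nat_lit 0) (nat_lit 0) (XT.nd (nat_lit 156) (nat_lit 0) (nat_lit 0) (XT.nd (nat_lit 78) (nat_lit 0) (nat_lit 0) (XT.lf (nat_lit 0) (nat_lit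 559925615999) (nat_lit 152) (nat_lit 462828971628) (nat_lit 0) (nat_lit 559606045559) (nat_lit 1) (nat_lit 5) (nat_lit 3) (nat_lit 4) (nat_lit 1) (nat_lit 4) (nat_lit 438) (nat_lit 299) (nat_lit 283)) (XT.lf (nat_lit 0) (nat_lit 605721804779) (nat_lit 152) (nat_lit 497752059577) (nat_lit 0) (nat_lit 605392476530) (nat_lit 1) (nat_lit 5) (nat_lit 3) (nat_lit 4) (nat_lit 1) (nat_lit 4) (nat_lit 439) (nat_lit 299) (nat_lit 282))) (XT.nd (nat_lit 78) (nat_lit 0) (nat_lit 0) (XT.lf (nat_lit 0) (nat_lit 655154012897) (nat_lit 152) (nat_lit 535525058951) (nat_lit 0) (nat_lit 654815649640) (nat_lit 1) (nat_lit 5) (nat_lit 3) (nat_lit 4) (nat_lit 1) (nat_lit 4) (nat_lit 440) (nat_lit 299) (nat_lit 281)) (XT.nd (nat_lit 78) (nat_lit 0) (nat_lit 0) (XT.lf (nat_lit 0) (nat_lit 708515171956) (nat_lit 152) (nat_lit 576371809746) (nat_lit 0) (nat_lit 708168442951) (nat_lit 1) (nat_lit 5) (nat_lit 3)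 (nat_lit 4) (nat_lit 1) (nat_lit 4) (nat_lit 441) (nat_lit 299) (nat_lit 280)) (XT.lf (nat_lit 0) (nat_lit 766121496234) (nat_lit 152) (nat_lit 620534366782) (nat_lit 0) (nat_lit 765767021166) (nat_lit 1) (nat_lit 5) (nat_lit 3) (nat_lit 4) (nat_lit 1) (nat_lit 4) (nat_lit 442) (nat_lit 299) (nat_lit 279))))) (XT.nd (nat_lit 156) (nat_lit 0) (nat_lit 0) (XT.nd (nat_lit 78) (nat_lit 0) (nat_lit 0) (XT.lf (nat_lit 0) (nat_lit 828314356540) (nat_lit 152) (nat_lit 668274434101) (nat_lit 0) (nat_lit 827952709191) (nat_lit 1) (nat_lit 5) (nat_lit 3) (nat_lit 4) (nat_lit 1) (nat_lit 4) (nat_lit 443) (nat_lit 299) (nat_lit 278)) (XT.lf (nat_lit 0) (nat_lit 895462303157) (nat_lit 152) (nat_lit 719874915804) (nat_lit 0) (nat_lit 895094014807) (nat_lit 1) (nat_lit 5) (nat_lit 3) (nat_lit 4) (nat_lit 1) (nat_lit 4) (nat_lit 444) (nat_lit 299) (nat_lit 277))) (XT.nd (nat_lit 78) (nat_lit 0) (nat_lit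 0) (XT.lf (nat_lit 0) (nat_lit 967963249844) (nat_lit 152) (nat_lit 775641592526) (nat_lit 0) (nat_lit 967588812419) (nat_lit 1) (nat_lit 5) (nat_lit 3) (nat_lit 4) (nat_lit 1) (nat_lit 4) (nat_lit 445) (nat_lit 299) (nat_lit 276)) (XT.nd (nat_lit 78) (nat_lit 0) (nat_lit 0) (XT.lf (nat_lit 0) (nat_lit 1046246831840) (nat_lit 152) (nat_lit 835904933460) (nat_lit 0) (nat_lit 1045866700827) (nat_lit 1) (nat_lit 5) (nat_lit 3) (nat_lit 4) (nat_lit 1) (nat_lit 4) (nat_lit 446) (nat_lit 299) (nat_lit 275)) (XT.lf (nat_lit 0) (nat_lit 1130776951852) (nat_lit 152) (nat_lit 901022054701) (nat_lit 0) (nat_lit 1130391549000) (nat_lit 1) (nat_lit 5) (nat_lit 3) (nat_lit 4) (nat_lit 1) (nat_lit 4) (nat_lit 447) (nat_lit 299) (nat_lit 274))))))) (XT.nd (nat_lit 780) (nat_lit 0) (nat_lit 0) (XT.nd (nat_lit 390) (nat_lit 0) (nat_lit 0) (XT.nd (nat_lit 156) (nat_lit 0) (nat_lit 0) (XT.nd (nat_lit 78)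 (nat_lit 0) (nat_lit 0) (XT.lf (nat_lit 0) (nat_lit 1222054529112) (nat_lit 152) (nat_lit 971378835487) (nat_lit 0) (nat_lit 1221664244926) (nat_lit 1) (nat_lit 5) (nat_lit 3) (nat_lit 4) (nat_lit 1) (nat_lit 4) (nat_lit 448) (nat_lit 299) (nat_lit 273)) (XT.lf (nat_lit 0) (nat_lit 1320620467780) (nat_lit 152) (nat_lit 1047392204888) (nat_lit 0) (nat_lit 1320225663840) (nat_lit 1) (nat_lit 5) (nat_lit 3) (nat_lit 4) (nat_lit 1) (nat_lit 4) (nat_lit 449) (nat_lit 299) (nat_lit 272))) (XT.nd (nat_lit 78) (nat_lit 0) (nat_lit 0) (XT.lf (nat_lit 0) (nat_lit 1427058862308) (nat_lit 152) (nat_lit 1129512612501) (nat_lit 0) (nat_lit 1426659873411) (nat_lit 1) (nat_lit 5) (nat_lit 3) (nat_lit 4) (nat_lit 1) (nat_lit 4) (nat_lit 450) (nat_lit 299) (nat_lit 271)) (XT.nd (nat_lit 78) (nat_lit 0) (nat_lit 0) (XT.lf (nat_lit 0) (nat_lit 1542000458737) (nat_lit 152) (nat_lit 1218226697779) (nat_lit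 0) (nat_lit 1541597594880) (nat_lit 1) (nat_lit 5) (nat_lit 3) (nat_lit 4) (nat_lit 1) (nat_lit 4) (nat_lit 451) (nat_lit 299) (nat_lit 270)) (XT.lf (nat_lit 0) (nat_lit 1666126392454) (nat_lit 152) (nat_lit 1314060173819) (nat_lit 0) (nat_lit 1665719940671) (nat_lit 1) (nat_lit 5) (nat_lit 3) (nat_lit 4) (nat_lit 1) (nat_lit 4) (nat_lit 452) (nat_lit 299) (nat_lit 269))))) (XT.nd (nat_lit 156) (nat_lit 0) (nat_lit 0) (XT.nd (nat_lit 78) (nat_lit 0) (nat_lit 0) (XT.lf (nat_lit 0) (nat_lit 1800172224547) (nat_lit 152) (nat_lit 1417580942702) (nat_lit 0) (nat_lit 1799762450610) (nat_lit 1) (nat_lit 5) (nat_lit 3) (nat_lit 4) (nat_lit 1) (nat_lit 4) (nat_lit 453) (nat_lit 299) (nat_lit 268)) (XT.lf (nat_lit 0) (nat_lit 1944932300687) (nat_lit 152) (nat_lit 1529402460836) (nat_lit 0) (nat_lit 1944519450682) (nat_lit 1) (nat_lit 5) (nat_lit 3) (nat_lit 4) (nat_lit 1) (nat_lit 4) (nat_lit 454)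 (nat_lit 299) (nat_lit 267))) (XT.nd (nat_lit 78) (nat_lit 0) (nat_lit 0) (XT.lf (nat_lit 0) (nat_lit 2101264458365) (nat_lit 152) (nat_lit 1650187374254) (nat_lit 0) (nat_lit 2100848760148) (nat_lit 1) (nat_lit 5) (nat_lit 3) (nat_lit 4) (nat_lit 1) (nat_lit 4) (nat_lit 455) (nat_lit 299) (nat_lit 266)) (XT.nd (nat_lit 78) (nat_lit 0) (nat_lit 0) (XT.lf (nat_lit 0) (nat_lit 2270095110364) (nat_lit 152) (nat_lit 1780651445407) (nat_lit 0) (nat_lit 2269676774915) (nat_lit 1) (nat_lit 5) (nat_lit 3) (nat_lit 4) (nat_lit 1) (nat_lit 4) (nat_lit 456) (nat_lit 299) (nat_lit 265)) (XT.lf (nat_lit 0) (nat_lit 2452424734624) (nat_lit 152) (nat_lit 1921567794715) (nat_lit 0) (nat_lit 2452003957293) (nat_lit 1) (nat_lit 5) (nat_lit 3) (nat_lit 4) (nat_lit 1) (nat_lit 4) (nat_lit 457) (nat_lit 299) (nat_lit 264)))))) (XT.nd (nat_lit 50232) (nat_lit 0) (nat_lit 0) (XT.nd (nat_lit 156) (nat_lit 0)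 (nat_lit 0) (XT.nd (nat_lit 78) (nat_lit 0) (nat_lit 0) (XT.lf (nat_lit 0) (nat_lit 2649333802991) (nat_lit 152) (nat_lit 2073771482027) (nat_lit 0) (nat_lit 2648910764658) (nat_lit 1) (nat_lit 5) (nat_lit 3) (nat_lit 4) (nat_lit 1) (nat_lit 4) (nat_lit 458) (nat_lit 299) (nat_lit 263)) (XT.lf (nat_lit 0) (nat_lit 2861989184020) (nat_lit 152) (nat_lit 2238164455119) (nat_lit 0) (nat_lit 2861564052166) (nat_lit 1) (nat_lit 5) (nat_lit 3) (nat_lit 4) (nat_lit 1) (nat_lit 4) (nat_lit 459) (nat_lit 299) (nat_lit 262))) (XT.nd (nat_lit 78) (nat_lit 0) (nat_lit 0) (XT.lf (nat_lit 0) (nat_lit 3091651057745) (nat_lit 152) (nat_lit 2415720894573) (nat_lit 0) (nat_lit 3091223987446) (nat_lit 1) (nat_lit 5) (nat_lit 3) (nat_lit 4) (nat_lit 1) (nat_lit 4) (nat_lit 460) (nat_lit 299) (nat_lit 261)) (XT.nd (nat_lit 49920) (nat_lit 0) (nat_lit 0) (XT.lf (nat_lit 0) (nat_lit 3339680383418) (nat_lit 152)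 (nat_lit 2607492986696) (nat_lit 0) (nat_lit 3339251518263) (nat_lit 1) (nat_lit 5) (nat_lit 3) (nat_lit 4) (nat_lit 1) (nat_lit 4) (nat_lit 461) (nat_lit 299) (nat_lit 260)) (XT.lf (nat_lit 0) (nat_lit 62618200174) (nat_lit 152) (nat_lit 73366675459) (nat_lit 0) (nat_lit 62618200174) (nat_lit 1) (nat_lit 5) (nat_lit 3) (nat_lit 4) (nat_lit 1) (nat_lit 4) (nat_lit 420) (nat_lit 300) (nat_lit 300))))) (XT.nd (nat_lit 156) (nat_lit 0) (nat_lit 0) (XT.nd (nat_lit 78) (nat_lit 0) (nat_lit 0) (XT.lf (nat_lit 0) (nat_lit 137316521558) (nat_lit 152) (nat_lit 154217519722) (nat_lit 0) (nat_lit 137280417490) (nat_lit 1) (nat_lit 5) (nat_lit 3) (nat_lit 4) (nat_lit 1) (nat_lit 4) (nat_lit 421) (nat_lit 300) (nat_lit 299)) (XT.lf (nat_lit 0) (nat_lit 150260651639) (nat_lit 152) (nat_lit 162507861281) (nat_lit 0) (nat_lit 150191117877) (nat_lit 1) (nat_lit 5) (nat_lit 3) (nat_lit 4) (nat_lit 1) (nat_lit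 4) (nat_lit 422) (nat_lit 300) (nat_lit 298))) (XT.nd (nat_lit 78) (nat_lit 0) (nat_lit 0) (XT.lf (nat_lit 0) (nat_lit 164145496546) (nat_lit 152) (nat_lit 171653503546) (nat_lit 0) (nat_lit 164045009364) (nat_lit 1) (nat_lit 5) (nat_lit 3) (nat_lit 4) (nat_lit 1) (nat_lit 4) (nat_lit 423) (nat_lit 300) (nat_lit 297)) (XT.nd (nat_lit 78) (nat_lit 0) (nat_lit 0) (XT.lf (nat_lit 0) (nat_lit 179053336841) (nat_lit 152) (nat_lit 181708642916) (nat_lit 0) (nat_lit 178924189086) (nat_lit 1) (nat_lit 5) (nat_lit 3) (nat_lit 4) (nat_lit 1) (nat_lit 4) (nat_lit 424) (nat_lit 300) (nat_lit 296)) (XT.lf (nat_lit 0) (nat_lit 195072515282) (nat_lit 152) (nat_lit 192732865401) (nat_lit 0) (nat_lit 194916829958) (nat_lit 1) (nat_lit 5) (nat_lit 3) (nat_lit 4) (nat_lit 1) (nat_lit 4) (nat_lit 425) (nat_lit 300) (nat_lit 295))))))))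
noncomputable def xc11 : XT := (XT.nd (nat_lit 1482) (nat_lit 0) (nat_lit 0) (XT.nd (nat_lit 702) (nat_lit 0) (nat_lit 0) (XT.nd (nat_lit 312) (nat_lit 0) (nat_lit 0) (XT.nd (nat_lit 156) (nat_lit 0) (nat_lit 0) (XT.nd (nat_lit 78) (nat_lit 0) (nat_lit 0) (XT.lf (nat_lit 0) (nat_lit 212297960333) (nat_lit 152) (nat_lit 204791499728) (nat_lit 0) (nat_lit 212117703187) (nat_lit 1) (nat_lit 5) (nat_lit 3) (nat_lit 4) (nat_lit 1) (nat_lit 4) (nat_lit 426) (nat_lit 300) (nat_lit 294)) (XT.lf (nat_lit 0) (nat_lit 230831748706) (nat_lit 152) (nat_lit 217956004471) (nat_lit 0) (nat_lit 230628739872) (nat_lit 1) (nat_lit 5) (nat_lit 3) (nat_lit 4) (nat_lit 1) (nat_lit 4) (nat_lit 427) (nat_lit 300) (nat_lit 293))) (XT.nd (nat_lit 78) (nat_lit 0) (nat_lit 0) (XT.lf (nat_lit 0) (nat_lit 250783710257) (nat_lit 152) (nat_lit 232304391508) (nat_lit 0) (nat_lit 250559635047) (nat_lit 1) (nat_lit 5) (nat_lit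 3) (nat_lit 4) (nat_lit 1) (nat_lit 4) (nat_lit 428) (nat_lit 300) (nat_lit 292)) (XT.lf (nat_lit 0) (nat_lit 272272078834) (nat_lit 152) (nat_lit 247921688320) (nat_lit 0) (nat_lit 272028497718) (nat_lit 1) (nat_lit 5) (nat_lit 3) (nat_lit 4) (nat_lit 1) (nat_lit 4) (nat_lit 429) (nat_lit 300) (nat_lit 291)))) (XT.nd (nat_lit 156) (nat_lit 0) (nat_lit 0) (XT.nd (nat_lit 78) (nat_lit 0) (nat_lit 0) (XT.lf (nat_lit 0) (nat_lit 295424192917) (nat_lit 152) (nat_lit 264900441850) (nat_lit 0) (nat_lit 295162550778) (nat_lit 1) (nat_lit 5) (nat_lit 3) (nat_lit 4) (nat_lit 1) (nat_lit 4) (nat_lit 430) (nat_lit 300) (nat_lit 290)) (XT.lf (nat_lit 0) (nat_lit 320377250218) (nat_lit 152) (nat_lit 283341266934) (nat_lit 0) (nat_lit 320098884909) (nat_lit 1) (nat_lit 5) (nat_lit 3) (nat_lit 4) (nat_lit 1) (nat_lit 4) (nat_lit 431) (nat_lit 300) (nat_lit 289))) (XT.nd (nat_lit 78) (nat_lit 0) (nat_lit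 0) (XT.lf (nat_lit 0) (nat_lit 347279120707) (nat_lit 152) (nat_lit 303353442535) (nat_lit 0) (nat_lit 346985270982) (nat_lit 1) (nat_lit 5) (nat_lit 3) (nat_lit 4) (nat_lit 1) (nat_lit 4) (nat_lit 432) (nat_lit 300) (nat_lit 288)) (XT.nd (nat_lit 78) (nat_lit 0) (nat_lit 0) (XT.lf (nat_lit 0) (nat_lit 376289222875) (nat_lit 152) (nat_lit 325055559323) (nat_lit 0) (nat_lit 375981035728) (nat_lit 1) (nat_lit 5) (nat_lit 3) (nat_lit 4) (nat_lit 1) (nat_lit 4) (nat_lit 433) (nat_lit 300) (nat_lit 287)) (XT.lf (nat_lit 0) (nat_lit 407579468440) (nat_lit 152) (nat_lit 348576222436) (nat_lit 0) (nat_lit 407258005902) (nat_lit 1) (nat_lit 5) (nat_lit 3) (nat_lit 4) (nat_lit 1) (nat_lit 4) (nat_lit 434) (nat_lit 300) (nat_lit 286)))))) (XT.nd (nat_lit 390) (nat_lit 0) (nat_lit 0) (XT.nd (nat_lit 156) (nat_lit 0) (nat_lit 0) (XT.nd (nat_lit 78) (nat_lit 0) (nat_lit 0) (XT.lf (nat_lit 0) (nat_lit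 441335281078) (nat_lit 152) (nat_lit 374054813580) (nat_lit 0) (nat_lit 441001526511) (nat_lit 1) (nat_lit 5) (nat_lit 3) (nat_lit 4) (nat_lit 1) (nat_lit 4) (nat_lit 435) (nat_lit 300) (nat_lit 285)) (XT.lf (nat_lit 0) (nat_lit 477756695236) (nat_lit 152) (nat_lit 401642316999) (nat_lit 0) (nat_lit 477411559160) (nat_lit 1) (nat_lit 5) (nat_lit 3) (nat_lit 4) (nat_lit 1) (nat_lit 4) (nat_lit 436) (nat_lit 300) (nat_lit 284))) (XT.nd (nat_lit 78) (nat_lit 0) (nat_lit 0) (XT.lf (nat_lit 0) (nat_lit 517059541514) (nat_lit 152) (nat_lit 431502214196) (nat_lit 0) (nat_lit 516703867005) (nat_lit 1) (nat_lit 5) (nat_lit 3) (nat_lit 4) (nat_lit 1) (nat_lit 4) (nat_lit 437) (nat_lit 300) (nat_lit 283)) (XT.nd (nat_lit 78) (nat_lit 0) (nat_lit 0) (XT.lf (nat_lit 0) (nat_lit 559476725669) (nat_lit 152) (nat_lit 463811452708) (nat_lit 0) (nat_lit 559111293352) (nat_lit 1) (nat_lit 5) (nat_lit 3)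 (nat_lit 4) (nat_lit 1) (nat_lit 4) (nat_lit 438) (nat_lit 300) (nat_lit 282)) (XT.lf (nat_lit 0) (nat_lit 605259608793) (nat_lit 152) (nat_lit 498761494690) (nat_lit 0) (nat_lit 604885141468) (nat_lit 1) (nat_lit 5) (nat_lit 3) (nat_lit 4) (nat_lit 1) (nat_lit 4) (nat_lit 439) (nat_lit 300) (nat_lit 281))))) (XT.nd (nat_lit 156) (nat_lit 0) (nat_lit 0) (XT.nd (nat_lit 78) (nat_lit 0) (nat_lit 0) (XT.lf (nat_lit 0) (nat_lit 654679496859) (nat_lit 152) (nat_lit 536559451502) (nat_lit 0) (nat_lit 654296663786) (nat_lit 1) (nat_lit 5) (nat_lit 3) (nat_lit 4) (nat_lit 1) (nat_lit 4) (nat_lit 440) (nat_lit 300) (nat_lit 280)) (XT.lf (nat_lit 0) (nat_lit 708029248464) (nat_lit 152) (nat_lit 577429311037) (nat_lit 0) (nat_lit 707638669327) (nat_lit 1) (nat_lit 5) (nat_lit 3) (nat_lit 4) (nat_lit 1) (nat_lit 4) (nat_lit 441) (nat_lit 300) (nat_lit 279))) (XT.nd (nat_lit 78) (nat_lit 0) (nat_lit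 0) (XT.lf (nat_lit 0) (nat_lit 765625010283) (nat_lit 152) (nat_lit 621613265053) (nat_lit 0) (nat_lit 765227258865) (nat_lit 1) (nat_lit 5) (nat_lit 3) (nat_lit 4) (nat_lit 1) (nat_lit 4) (nat_lit 442) (nat_lit 300) (nat_lit 278)) (XT.nd (nat_lit 78) (nat_lit 0) (nat_lit 0) (XT.lf (nat_lit 0) (nat_lit 827808090534) (nat_lit 152) (nat_lit 669373144391) (nat_lit 0) (nat_lit 827403698116) (nat_lit 1) (nat_lit 5) (nat_lit 3) (nat_lit 4) (nat_lit 1) (nat_lit 4) (nat_lit 443) (nat_lit 300) (nat_lit 277)) (XT.lf (nat_lit 0) (nat_lit 894946981546) (nat_lit 152) (nat_lit 720991970557) (nat_lit 0) (nat_lit 894536440053) (nat_lit 1) (nat_lit 5) (nat_lit 3) (nat_lit 4) (nat_lit 1) (nat_lit 4) (nat_lit 444) (nat_lit 300) (nat_lit 276))))))) (XT.nd (nat_lit 780) (nat_lit 0) (nat_lit 0) (XT.nd (nat_lit 390) (nat_lit 0) (nat_lit 0) (XT.nd (nat_lit 156) (nat_lit 0) (nat_lit 0) (XT.nd (nat_lit 78) (nat_lit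 0) (nat_lit 0) (XT.lf (nat_lit 0) (nat_lit 967439543412) (nat_lit 152) (nat_lit 776775632891) (nat_lit 0) (nat_lit 967023308332) (nat_lit 1) (nat_lit 5) (nat_lit 3) (nat_lit 4) (nat_lit 1) (nat_lit 4) (nat_lit 445) (nat_lit 300) (nat_lit 275)) (XT.lf (nat_lit 0) (nat_lit 1045715361686) (nat_lit 152) (nat_lit 837054701245) (nat_lit 0) (nat_lit 1045293854764) (nat_lit 1) (nat_lit 5) (nat_lit 3) (nat_lit 4) (nat_lit 1) (nat_lit 4) (nat_lit 446) (nat_lit 300) (nat_lit 274))) (XT.nd (nat_lit 78) (nat_lit 0) (nat_lit 0) (XT.lf (nat_lit 0) (nat_lit 1130238293067) (nat_lit 152) (nat_lit 902186384912) (nat_lit 0) (nat_lit 1129811904812) (nat_lit 1) (nat_lit 5) (nat_lit 3) (nat_lit 4) (nat_lit 1) (nat_lit 4) (nat_lit 447) (nat_lit 300) (nat_lit 273)) (XT.nd (nat_lit 78) (nat_lit 0) (nat_lit 0) (XT.lf (nat_lit 0) (nat_lit 1221509214186) (nat_lit 152) (nat_lit 972556649424) (nat_lit 0) (nat_lit 1221078306177)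 (nat_lit 1) (nat_lit 5) (nat_lit 3) (nat_lit 4) (nat_lit 1) (nat_lit 4) (nat_lit 448) (nat_lit 300) (nat_lit 272)) (XT.lf (nat_lit 0) (nat_lit 1320068989761) (nat_lit 152) (nat_lit 1048582503758) (nat_lit 0) (nat_lit 1319633896795) (nat_lit 1) (nat_lit 5) (nat_lit 3) (nat_lit 4) (nat_lit 1) (nat_lit 4) (nat_lit 449) (nat_lit 300) (nat_lit 271))))) (XT.nd (nat_lit 156) (nat_lit 0) (nat_lit 0) (XT.nd (nat_lit 78) (nat_lit 0) (nat_lit 0) (XT.lf (nat_lit 0) (nat_lit 1426501677721) (nat_lit 152) (nat_lit 1130714471494) (nat_lit 0) (nat_lit 1426062709795) (nat_lit 1) (nat_lit 5) (nat_lit 3) (nat_lit 4) (nat_lit 1) (nat_lit 4) (nat_lit 450) (nat_lit 300) (nat_lit 270)) (XT.lf (nat_lit 0) (nat_lit 1541437990291) (nat_lit 152) (nat_lit 1219439260590) (nat_lit 0) (nat_lit 1540995434439) (nat_lit 1) (nat_lit 5) (nat_lit 3) (nat_lit 4) (nat_lit 1) (nat_lit 4) (nat_lit 451) (nat_lit 300) (nat_lit 269)))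 (XT.nd (nat_lit 78) (nat_lit 0) (nat_lit 0) (XT.lf (nat_lit 0) (nat_lit 1665559031545) (nat_lit 152) (nat_lit 1315282647572) (nat_lit 0) (nat_lit 1665113153540) (nat_lit 1) (nat_lit 5) (nat_lit 3) (nat_lit 4) (nat_lit 1) (nat_lit 4) (nat_lit 452) (nat_lit 300) (nat_lit 268)) (XT.nd (nat_lit 78) (nat_lit 0) (nat_lit 0) (XT.lf (nat_lit 0) (nat_lit 1799600333581) (nat_lit 152) (nat_lit 1418812593253) (nat_lit 0) (nat_lit 1799151379507) (nat_lit 1) (nat_lit 5) (nat_lit 3) (nat_lit 4) (nat_lit 1) (nat_lit 4) (nat_lit 453) (nat_lit 300) (nat_lit 267)) (XT.lf (nat_lit 0) (nat_lit 1944356215224) (nat_lit 152) (nat_lit 1530642608422) (nat_lit 0) (nat_lit 1943904412939) (nat_lit 1) (nat_lit 5) (nat_lit 3) (nat_lit 4) (nat_lit 1) (nat_lit 4) (nat_lit 454) (nat_lit 300) (nat_lit 266)))))) (XT.nd (nat_lit 390) (nat_lit 0) (nat_lit 0) (XT.nd (nat_lit 156) (nat_lit 0) (nat_lit 0) (XT.nd (nat_lit 78)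 (nat_lit 0) (nat_lit 0) (XT.lf (nat_lit 0) (nat_lit 2100684489107) (nat_lit 152) (nat_lit 1651435389466) (nat_lit 0) (nat_lit 2100230049589) (nat_lit 1) (nat_lit 5) (nat_lit 3) (nat_lit 4) (nat_lit 1) (nat_lit 4) (nat_lit 455) (nat_lit 300) (nat_lit 265)) (XT.lf (nat_lit 0) (nat_lit 2269511545001) (nat_lit 152) (nat_lit 1781906745457) (nat_lit 0) (nat_lit 2269054663601) (nat_lit 1) (nat_lit 5) (nat_lit 3) (nat_lit 4) (nat_lit 1) (nat_lit 4) (nat_lit 456) (nat_lit 300) (nat_lit 264))) (XT.nd (nat_lit 78) (nat_lit 0) (nat_lit 0) (XT.lf (nat_lit 0) (nat_lit 2451837839533) (nat_lit 152) (nat_lit 1922829839986) (nat_lit 0) (nat_lit 2451378697131) (nat_lit 1) (nat_lit 5) (nat_lit 3) (nat_lit 4) (nat_lit 1) (nat_lit 4) (nat_lit 457) (nat_lit 300) (nat_lit 263)) (XT.nd (nat_lit 78) (nat_lit 0) (nat_lit 0) (XT.lf (nat_lit 0) (nat_lit 2648743824820) (nat_lit 152) (nat_lit 2075039772872) (nat_lit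 0) (nat_lit 2648282588897) (nat_lit 1) (nat_lit 5) (nat_lit 3) (nat_lit 4) (nat_lit 1) (nat_lit 4) (nat_lit 458) (nat_lit 300) (nat_lit 262)) (XT.lf (nat_lit 0) (nat_lit 2861396351144) (nat_lit 152) (nat_lit 2239438528904) (nat_lit 0) (nat_lit 2860933176776) (nat_lit 1) (nat_lit 5) (nat_lit 3) (nat_lit 4) (nat_lit 1) (nat_lit 4) (nat_lit 459) (nat_lit 300) (nat_lit 261))))) (XT.nd (nat_lit 49842) (nat_lit 0) (nat_lit 0) (XT.nd (nat_lit 78) (nat_lit 0) (nat_lit 0) (XT.lf (nat_lit 0) (nat_lit 3091055581624) (nat_lit 152) (nat_lit 2417000322931) (nat_lit 0) (nat_lit 3090590612400) (nat_lit 1) (nat_lit 5) (nat_lit 3) (nat_lit 4) (nat_lit 1) (nat_lit 4) (nat_lit 460) (nat_lit 300) (nat_lit 260)) (XT.lf (nat_lit 0) (nat_lit 3339082459848) (nat_lit 152) (nat_lit 2608777372993) (nat_lit 0) (nat_lit 3338615828721) (nat_lit 1) (nat_lit 5) (nat_lit 3) (nat_lit 4) (nat_lit 1) (nat_lit 4) (nat_lit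 461) (nat_lit 300) (nat_lit 259))) (XT.nd (nat_lit 78) (nat_lit 0) (nat_lit 0) (XT.lf (nat_lit 0) (nat_lit 51741476194) (nat_lit 152) (nat_lit 66947159006) (nat_lit 0) (nat_lit 51741476194) (nat_lit 1) (nat_lit 5) (nat_lit 3) (nat_lit 4) (nat_lit 1) (nat_lit 4) (nat_lit 418) (nat_lit 301) (nat_lit 301)) (XT.nd (nat_lit 78) (nat_lit 0) (nat_lit 0) (XT.lf (nat_lit 0) (nat_lit 113987694497) (nat_lit 152) (nat_lit 140011004242) (nat_lit 0) (nat_lit 113948702103) (nat_lit 1) (nat_lit 5) (nat_lit 3) (nat_lit 4) (nat_lit 1) (nat_lit 4) (nat_lit 419) (nat_lit 301) (nat_lit 300)) (XT.lf (nat_lit 0) (nat_lit 125222223082) (nat_lit 152) (nat_lit 146841059761) (nat_lit 0) (nat_lit 125147126619) (nat_lit 1) (nat_lit 5) (nat_lit 3) (nat_lit 4) (nat_lit 1) (nat_lit 4) (nat_lit 420) (nat_lit 301) (nat_lit 299))))))))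
noncomputable def xc12 : XT := (XT.nd (nat_lit 1482) (nat_lit 0) (nat_lit 0) (XT.nd (nat_lit 702) (nat_lit 0) (nat_lit 0) (XT.nd (nat_lit 312) (nat_lit 0) (nat_lit 0) (XT.nd (nat_lit 156) (nat_lit 0) (nat_lit 0) (XT.nd (nat_lit 78) (nat_lit 0) (nat_lit 0) (XT.lf (nat_lit 0) (nat_lit 137253113126) (nat_lit 152) (nat_lit 154424958974) (nat_lit 0) (nat_lit 137144586970) (nat_lit 1) (nat_lit 5) (nat_lit 3) (nat_lit 4) (nat_lit 1) (nat_lit 4) (nat_lit 421) (nat_lit 301) (nat_lit 298)) (XT.lf (nat_lit 0) (nat_lit 150151658793) (nat_lit 152) (nat_lit 162807643505) (nat_lit 0) (nat_lit 150012179217) (nat_lit 1) (nat_lit 5) (nat_lit 3) (nat_lit 4) (nat_lit 1) (nat_lit 4) (nat_lit 422) (nat_lit 301) (nat_lit 297))) (XT.nd (nat_lit 78) (nat_lit 0) (nat_lit 0) (XT.lf (nat_lit 0) (nat_lit 163994295909) (nat_lit 152) (nat_lit 172038788521) (nat_lit 0) (nat_lit 163826155759) (nat_lit 1) (nat_lit 5) (nat_lit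 3) (nat_lit 4) (nat_lit 1) (nat_lit 4) (nat_lit 423) (nat_lit 301) (nat_lit 296)) (XT.lf (nat_lit 0) (nat_lit 178863054916) (nat_lit 152) (nat_lit 182173097106) (nat_lit 0) (nat_lit 178668377199) (nat_lit 1) (nat_lit 5) (nat_lit 3) (nat_lit 4) (nat_lit 1) (nat_lit 4) (nat_lit 424) (nat_lit 301) (nat_lit 295)))) (XT.nd (nat_lit 156) (nat_lit 0) (nat_lit 0) (XT.nd (nat_lit 78) (nat_lit 0) (nat_lit 0) (XT.lf (nat_lit 0) (nat_lit 194846046980) (nat_lit 152) (nat_lit 193270624419) (nat_lit 0) (nat_lit 194626797440) (nat_lit 1) (nat_lit 5) (nat_lit 3) (nat_lit 4) (nat_lit 1) (nat_lit 4) (nat_lit 425) (nat_lit 301) (nat_lit 294)) (XT.lf (nat_lit 0) (nat_lit 212037986126) (nat_lit 152) (nat_lit 205397133587) (nat_lit 0) (nat_lit 211795984898) (nat_lit 1) (nat_lit 5) (nat_lit 3) (nat_lit 4) (nat_lit 1) (nat_lit 4) (nat_lit 426) (nat_lit 301) (nat_lit 293))) (XT.nd (nat_lit 78) (nat_lit 0) (nat_lit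 0) (XT.lf (nat_lit 0) (nat_lit 230540750513) (nat_lit 152) (nat_lit 218624485405) (nat_lit 0) (nat_lit 230277682908) (nat_lit 1) (nat_lit 5) (nat_lit 3) (nat_lit 4) (nat_lit 1) (nat_lit 4) (nat_lit 427) (nat_lit 301) (nat_lit 292)) (XT.nd (nat_lit 78) (nat_lit 0) (nat_lit 0) (XT.lf (nat_lit 0) (nat_lit 250463986152) (nat_lit 152) (nat_lit 233031064178) (nat_lit 0) (nat_lit 250181412642) (nat_lit 1) (nat_lit 5) (nat_lit 3) (nat_lit 4) (nat_lit 1) (nat_lit 4) (nat_lit 428) (nat_lit 301) (nat_lit 291)) (XT.lf (nat_lit 0) (nat_lit 271925756661) (nat_lit 152) (nat_lit 248702242227) (nat_lit 0) (nat_lit 271625122128) (nat_lit 1) (nat_lit 5) (nat_lit 3) (nat_lit 4) (nat_lit 1) (nat_lit 4) (nat_lit 429) (nat_lit 301) (nat_lit 290)))))) (XT.nd (nat_lit 390) (nat_lit 0) (nat_lit 0) (XT.nd (nat_lit 156) (nat_lit 0) (nat_lit 0) (XT.nd (nat_lit 78) (nat_lit 0) (nat_lit 0) (XT.lf (nat_lit 0) (nat_lit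 295053242903) (nat_lit 152) (nat_lit 265730885791) (nat_lit 0) (nat_lit 294735885200) (nat_lit 1) (nat_lit 5) (nat_lit 3) (nat_lit 4) (nat_lit 1) (nat_lit 4) (nat_lit 430) (nat_lit 301) (nat_lit 289)) (XT.lf (nat_lit 0) (nat_lit 319983496648) (nat_lit 152) (nat_lit 284217905351) (nat_lit 0) (nat_lit 319650654529) (nat_lit 1) (nat_lit 5) (nat_lit 3) (nat_lit 4) (nat_lit 1) (nat_lit 4) (nat_lit 431) (nat_lit 301) (nat_lit 288))) (XT.nd (nat_lit 78) (nat_lit 0) (nat_lit 0) (XT.lf (nat_lit 0) (nat_lit 346864252733) (nat_lit 152) (nat_lit 304272853616) (nat_lit 0) (nat_lit 346517073192) (nat_lit 1) (nat_lit 5) (nat_lit 3) (nat_lit 4) (nat_lit 1) (nat_lit 4) (nat_lit 432) (nat_lit 301) (nat_lit 287)) (XT.nd (nat_lit 78) (nat_lit 0) (nat_lit 0) (XT.lf (nat_lit 0) (nat_lit 375854804528) (nat_lit 152) (nat_lit 326014574722) (nat_lit 0) (nat_lit 375494349596) (nat_lit 1) (nat_lit 5) (nat_lit 3)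 (nat_lit 4) (nat_lit 1) (nat_lit 4) (nat_lit 433) (nat_lit 301) (nat_lit 286)) (XT.lf (nat_lit 0) (nat_lit 407126947895) (nat_lit 152) (nat_lit 349571908499) (nat_lit 0) (nat_lit 406754200934) (nat_lit 1) (nat_lit 5) (nat_lit 3) (nat_lit 4) (nat_lit 1) (nat_lit 4) (nat_lit 434) (nat_lit 301) (nat_lit 285))))) (XT.nd (nat_lit 156) (nat_lit 0) (nat_lit 0) (XT.nd (nat_lit 78) (nat_lit 0) (nat_lit 0) (XT.lf (nat_lit 0) (nat_lit 440865999239) (nat_lit 152) (nat_lit 375084453963) (nat_lit 0) (nat_lit 440481870770) (nat_lit 1) (nat_lit 5) (nat_lit 3) (nat_lit 4) (nat_lit 1) (nat_lit 4) (nat_lit 435) (nat_lit 301) (nat_lit 284)) (XT.lf (nat_lit 0) (nat_lit 477271893679) (nat_lit 152) (nat_lit 402703396566) (nat_lit 0) (nat_lit 476877226777) (nat_lit 1) (nat_lit 5) (nat_lit 3) (nat_lit 4) (nat_lit 1) (nat_lit 4) (nat_lit 436) (nat_lit 301) (nat_lit 283))) (XT.nd (nat_lit 78) (nat_lit 0) (nat_lit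 0) (XT.lf (nat_lit 0) (nat_lit 516560369850) (nat_lit 152) (nat_lit 432592404118) (nat_lit 0) (nat_lit 516155945138) (nat_lit 1) (nat_lit 5) (nat_lit 3) (nat_lit 4) (nat_lit 1) (nat_lit 4) (nat_lit 437) (nat_lit 301) (nat_lit 282)) (XT.nd (nat_lit 78) (nat_lit 0) (nat_lit 0) (XT.lf (nat_lit 0) (nat_lit 558964248349) (nat_lit 152) (nat_lit 464928596664) (nat_lit 0) (nat_lit 558550788629) (nat_lit 1) (nat_lit 5) (nat_lit 3) (nat_lit 4) (nat_lit 1) (nat_lit 4) (nat_lit 438) (nat_lit 301) (nat_lit 281)) (XT.lf (nat_lit 0) (nat_lit 604734811421) (nat_lit 152) (nat_lit 499903596084) (nat_lit 0) (nat_lit 604312985953) (nat_lit 1) (nat_lit 5) (nat_lit 3) (nat_lit 4) (nat_lit 1) (nat_lit 4) (nat_lit 439) (nat_lit 301) (nat_lit 280))))))) (XT.nd (nat_lit 702) (nat_lit 0) (nat_lit 0) (XT.nd (nat_lit 312) (nat_lit 0) (nat_lit 0) (XT.nd (nat_lit 156) (nat_lit 0) (nat_lit 0) (XT.nd (nat_lit 78) (nat_lit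 0) (nat_lit 0) (XT.lf (nat_lit 0) (nat_lit 654143292032) (nat_lit 152) (nat_lit 537724661635) (nat_lit 0) (nat_lit 653713720501) (nat_lit 1) (nat_lit 5) (nat_lit 3) (nat_lit 4) (nat_lit 1) (nat_lit 4) (nat_lit 440) (nat_lit 301) (nat_lit 279)) (XT.lf (nat_lit 0) (nat_lit 707482481178) (nat_lit 152) (nat_lit 578615918150) (nat_lit 0) (nat_lit 707045737366) (nat_lit 1) (nat_lit 5) (nat_lit 3) (nat_lit 4) (nat_lit 1) (nat_lit 4) (nat_lit 441) (nat_lit 301) (nat_lit 278))) (XT.nd (nat_lit 78) (nat_lit 0) (nat_lit 0) (XT.lf (nat_lit 0) (nat_lit 765068462942) (nat_lit 152) (nat_lit 622819684186) (nat_lit 0) (nat_lit 764625078130) (nat_lit 1) (nat_lit 5) (nat_lit 3) (nat_lit 4) (nat_lit 1) (nat_lit 4) (nat_lit 442) (nat_lit 301) (nat_lit 277)) (XT.lf (nat_lit 0) (nat_lit 827242487588) (nat_lit 152) (nat_lit 670597907986) (nat_lit 0) (nat_lit 826792953701) (nat_lit 1) (nat_lit 5) (nat_lit 3) (nat_lit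 4) (nat_lit 1) (nat_lit 4) (nat_lit 443) (nat_lit 301) (nat_lit 276)))) (XT.nd (nat_lit 156) (nat_lit 0) (nat_lit 0) (XT.nd (nat_lit 78) (nat_lit 0) (nat_lit 0) (XT.lf (nat_lit 0) (nat_lit 894372993780) (nat_lit 152) (nat_lit 722233719765) (nat_lit 0) (nat_lit 893917766305) (nat_lit 1) (nat_lit 5) (nat_lit 3) (nat_lit 4) (nat_lit 1) (nat_lit 4) (nat_lit 444) (nat_lit 301) (nat_lit 275)) (XT.lf (nat_lit 0) (nat_lit 966857791924) (nat_lit 152) (nat_lit 778033109518) (nat_lit 0) (nat_lit 966397292608) (nat_lit 1) (nat_lit 5) (nat_lit 3) (nat_lit 4) (nat_lit 1) (nat_lit 4) (nat_lit 445) (nat_lit 301) (nat_lit 274))) (XT.nd (nat_lit 78) (nat_lit 0) (nat_lit 0) (XT.lf (nat_lit 0) (nat_lit 1045126421565) (nat_lit 152) (nat_lit 838326740297) (nat_lit 0) (nat_lit 1044661040916) (nat_lit 1) (nat_lit 5) (nat_lit 3) (nat_lit 4) (nat_lit 1) (nat_lit 4) (nat_lit 446) (nat_lit 301) (nat_lit 273)) (XT.nd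 (nat_lit 78) (nat_lit 0) (nat_lit 0) (XT.lf (nat_lit 0) (nat_lit 1129642696806) (nat_lit 152) (nat_lit 903471907692) (nat_lit 0) (nat_lit 1129172796403) (nat_lit 1) (nat_lit 5) (nat_lit 3) (nat_lit 4) (nat_lit 1) (nat_lit 4) (nat_lit 447) (nat_lit 301) (nat_lit 272)) (XT.lf (nat_lit 0) (nat_lit 1220907454832) (nat_lit 152) (nat_lit 973854657137) (nat_lit 0) (nat_lit 1220433369472) (nat_lit 1) (nat_lit 5) (nat_lit 3) (nat_lit 4) (nat_lit 1) (nat_lit 4) (nat_lit 448) (nat_lit 301) (nat_lit 271)))))) (XT.nd (nat_lit 390) (nat_lit 0) (nat_lit 0) (XT.nd (nat_lit 156) (nat_lit 0) (nat_lit 0) (XT.nd (nat_lit 78) (nat_lit 0) (nat_lit 0) (XT.lf (nat_lit 0) (nat_lit 1319461523839) (nat_lit 152) (nat_lit 1049892071594) (nat_lit 0) (nat_lit 1318983563519) (nat_lit 1) (nat_lit 5) (nat_lit 3) (nat_lit 4) (nat_lit 1) (nat_lit 4) (nat_lit 449) (nat_lit 301) (nat_lit 270)) (XT.lf (nat_lit 0) (nat_lit 1425888927940)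 (nat_lit 152) (nat_lit 1132034743147) (nat_lit 0) (nat_lit 1425407379694) (nat_lit 1) (nat_lit 5) (nat_lit 3) (nat_lit 4) (nat_lit 1) (nat_lit 4) (nat_lit 450) (nat_lit 301) (nat_lit 269))) (XT.nd (nat_lit 78) (nat_lit 0) (nat_lit 0) (XT.lf (nat_lit 0) (nat_lit 1540820348048) (nat_lit 152) (nat_lit 1220769443185) (nat_lit 0) (nat_lit 1540335477648) (nat_lit 1) (nat_lit 5) (nat_lit 3) (nat_lit 4) (nat_lit 1) (nat_lit 4) (nat_lit 451) (nat_lit 301) (nat_lit 268)) (XT.nd (nat_lit 78) (nat_lit 0) (nat_lit 0) (XT.lf (nat_lit 0) (nat_lit 1664936859245) (nat_lit 152) (nat_lit 1316622006965) (nat_lit 0) (nat_lit 1664448912777) (nat_lit 1) (nat_lit 5) (nat_lit 3) (nat_lit 4) (nat_lit 1) (nat_lit 4) (nat_lit 452) (nat_lit 301) (nat_lit 267)) (XT.lf (nat_lit 0) (nat_lit 1798973966783) (nat_lit 152) (nat_lit 1420160449682) (nat_lit 0) (nat_lit 1798483172104) (nat_lit 1) (nat_lit 5) (nat_lit 3) (nat_lit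 4) (nat_lit 1) (nat_lit 4) (nat_lit 453) (nat_lit 301) (nat_lit 266))))) (XT.nd (nat_lit 156) (nat_lit 0) (nat_lit 0) (XT.nd (nat_lit 78) (nat_lit 0) (nat_lit 0) (XT.lf (nat_lit 0) (nat_lit 1943725964632) (nat_lit 152) (nat_lit 1531998332476) (nat_lit 0) (nat_lit 1943232532720) (nat_lit 1) (nat_lit 5) (nat_lit 3) (nat_lit 4) (nat_lit 1) (nat_lit 4) (nat_lit 454) (nat_lit 301) (nat_lit 265)) (XT.lf (nat_lit 0) (nat_lit 2100050642410) (nat_lit 152) (nat_lit 1652798398358) (nat_lit 0) (nat_lit 2099554768615) (nat_lit 1) (nat_lit 5) (nat_lit 3) (nat_lit 4) (nat_lit 1) (nat_lit 4) (nat_lit 455) (nat_lit 301) (nat_lit 264))) (XT.nd (nat_lit 78) (nat_lit 0) (nat_lit 0) (XT.lf (nat_lit 0) (nat_lit 2268874368576) (nat_lit 152) (nat_lit 1783276499570) (nat_lit 0) (nat_lit 2268376233780) (nat_lit 1) (nat_lit 5) (nat_lit 3) (nat_lit 4) (nat_lit 1) (nat_lit 4) (nat_lit 456) (nat_lit 301) (nat_lit 263))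 (XT.nd (nat_lit 78) (nat_lit 0) (nat_lit 0) (XT.lf (nat_lit 0) (nat_lit 2451197580027) (nat_lit 152) (nat_lit 1924205839673) (nat_lit 0) (nat_lit 2450697351711) (nat_lit 1) (nat_lit 5) (nat_lit 3) (nat_lit 4) (nat_lit 1) (nat_lit 4) (nat_lit 457) (nat_lit 301) (nat_lit 262)) (XT.lf (nat_lit 0) (nat_lit 2648100710609) (nat_lit 152) (nat_lit 2076421555499) (nat_lit 0) (nat_lit 2647598543848) (nat_lit 1) (nat_lit 5) (nat_lit 3) (nat_lit 4) (nat_lit 1) (nat_lit 4) (nat_lit 458) (nat_lit 301) (nat_lit 261))))))))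
noncomputable def xc13 : XT := (XT.nd (nat_lit 51012) (nat_lit 0) (nat_lit 0) (XT.nd (nat_lit 50232) (nat_lit 0) (nat_lit 0) (XT.nd (nat_lit 49842) (nat_lit 0) (nat_lit 0) (XT.nd (nat_lit 156) (nat_lit 0) (nat_lit 0) (XT.nd (nat_lit 78) (nat_lit 0) (nat_lit 0) (XT.lf (nat_lit 0) (nat_lit 2860750593688) (nat_lit 152) (nat_lit 2240825666105) (nat_lit 0) (nat_lit 2860246632070) (nat_lit 1) (nat_lit 5) (nat_lit 3) (nat_lit 4) (nat_lit 1) (nat_lit 4) (nat_lit 459) (nat_lit 301) (nat_lit 260)) (XT.lf (nat_lit 0) (nat_lit 3090407376719) (nat_lit 152) (nat_lit 2418392418071) (nat_lit 0) (nat_lit 3089901753197) (nat_lit 1) (nat_lit 5) (nat_lit 3) (nat_lit 4) (nat_lit 1) (nat_lit 4) (nat_lit 460) (nat_lit 301) (nat_lit 259))) (XT.nd (nat_lit 49608) (nat_lit 0) (nat_lit 0) (XT.lf (nat_lit 0) (nat_lit 3338431988787) (nat_lit 152) (nat_lit 2610174058816) (nat_lit 0) (nat_lit 3337924826465) (nat_lit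 1) (nat_lit 5) (nat_lit 3) (nat_lit 4) (nat_lit 1) (nat_lit 4) (nat_lit 461) (nat_lit 301) (nat_lit 258)) (XT.lf (nat_lit 0) (nat_lit 42260955475) (nat_lit 152) (nat_lit 61767223145) (nat_lit 0) (nat_lit 42260955475) (nat_lit 1) (nat_lit 5) (nat_lit 3) (nat_lit 4) (nat_lit 1) (nat_lit 4) (nat_lit 416) (nat_lit 302) (nat_lit 302)))) (XT.nd (nat_lit 156) (nat_lit 0) (nat_lit 0) (XT.nd (nat_lit 78) (nat_lit 0) (nat_lit 0) (XT.lf (nat_lit 0) (nat_lit 93687858217) (nat_lit 152) (nat_lit 128454754045) (nat_lit 0) (nat_lit 93645746431) (nat_lit 1) (nat_lit 5) (nat_lit 3) (nat_lit 4) (nat_lit 1) (nat_lit 4) (nat_lit 417) (nat_lit 302) (nat_lit 301)) (XT.lf (nat_lit 0) (nat_lit 103467640941) (nat_lit 152) (nat_lit 134010643563) (nat_lit 0) (nat_lit 103386536761) (nat_lit 1) (nat_lit 5) (nat_lit 3) (nat_lit 4) (nat_lit 1) (nat_lit 4) (nat_lit 418) (nat_lit 302) (nat_lit 300))) (XT.nd (nat_lit 78)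 (nat_lit 0) (nat_lit 0) (XT.lf (nat_lit 0) (nat_lit 113919213390) (nat_lit 152) (nat_lit 140235038634) (nat_lit 0) (nat_lit 113802005141) (nat_lit 1) (nat_lit 5) (nat_lit 3) (nat_lit 4) (nat_lit 1) (nat_lit 4) (nat_lit 419) (nat_lit 302) (nat_lit 299)) (XT.nd (nat_lit 78) (nat_lit 0) (nat_lit 0) (XT.lf (nat_lit 0) (nat_lit 125104510807) (nat_lit 152) (nat_lit 147164824563) (nat_lit 0) (nat_lit 124953872865) (nat_lit 1) (nat_lit 5) (nat_lit 3) (nat_lit 4) (nat_lit 1) (nat_lit 4) (nat_lit 420) (nat_lit 302) (nat_lit 298)) (XT.lf (nat_lit 0) (nat_lit 137089816438) (nat_lit 152) (nat_lit 154841066747) (nat_lit 0) (nat_lit 136908225076) (nat_lit 1) (nat_lit 5) (nat_lit 3) (nat_lit 4) (nat_lit 1) (nat_lit 4) (nat_lit 421) (nat_lit 302) (nat_lit 297)))))) (XT.nd (nat_lit 390) (nat_lit 0) (nat_lit 0) (XT.nd (nat_lit 156) (nat_lit 0) (nat_lit 0) (XT.nd (nat_lit 78) (nat_lit 0) (nat_lit 0) (XT.lf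 (nat_lit 0) (nat_lit 149946154314) (nat_lit 152) (nat_lit 163309254030) (nat_lit 0) (nat_lit 149735902379) (nat_lit 1) (nat_lit 5) (nat_lit 3) (nat_lit 4) (nat_lit 1) (nat_lit 4) (nat_lit 422) (nat_lit 302) (nat_lit 296)) (XT.lf (nat_lit 0) (nat_lit 163749710143) (nat_lit 152) (nat_lit 172619568261) (nat_lit 0) (nat_lit 163512920639) (nat_lit 1) (nat_lit 5) (nat_lit 3) (nat_lit 4) (nat_lit 1) (nat_lit 4) (nat_lit 423) (nat_lit 302) (nat_lit 295))) (XT.nd (nat_lit 78) (nat_lit 0) (nat_lit 0) (XT.lf (nat_lit 0) (nat_lit 178582282773) (nat_lit 152) (nat_lit 182827181673) (nat_lit 0) (nat_lit 178320921447) (nat_lit 1) (nat_lit 5) (nat_lit 3) (nat_lit 4) (nat_lit 1) (nat_lit 4) (nat_lit 424) (nat_lit 302) (nat_lit 294)) (XT.nd (nat_lit 78) (nat_lit 0) (nat_lit 0) (XT.lf (nat_lit 0) (nat_lit 194531768931) (nat_lit 152) (nat_lit 193992583828) (nat_lit 0) (nat_lit 194247655918) (nat_lit 1) (nat_lit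 5) (nat_lit 3) (nat_lit 4) (nat_lit 1) (nat_lit 4) (nat_lit 425) (nat_lit 302) (nat_lit 293)) (XT.lf (nat_lit 0) (nat_lit 211692684092) (nat_lit 152) (nat_lit 206181940071) (nat_lit 0) (nat_lit 211387504701) (nat_lit 1) (nat_lit 5) (nat_lit 3) (nat_lit 4) (nat_lit 1) (nat_lit 4) (nat_lit 426) (nat_lit 302) (nat_lit 292))))) (XT.nd (nat_lit 156) (nat_lit 0) (nat_lit 0) (XT.nd (nat_lit 78) (nat_lit 0) (nat_lit 0) (XT.lf (nat_lit 0) (nat_lit 230166722565) (nat_lit 152) (nat_lit 219467483624) (nat_lit 0) (nat_lit 229842037270) (nat_lit 1) (nat_lit 5) (nat_lit 3) (nat_lit 4) (nat_lit 1) (nat_lit 4) (nat_lit 427) (nat_lit 302) (nat_lit 291)) (XT.lf (nat_lit 0) (nat_lit 250063360137) (nat_lit 152) (nat_lit 233927943635) (nat_lit 0) (nat_lit 249720613818) (nat_lit 1) (nat_lit 5) (nat_lit 3) (nat_lit 4) (nat_lit 1) (nat_lit 4) (nat_lit 428) (nat_lit 302) (nat_lit 290))) (XT.nd (nat_lit 78) (nat_lit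 0) (nat_lit 0) (XT.lf (nat_lit 0) (nat_lit 271500502806) (nat_lit 152) (nat_lit 249649011718) (nat_lit 0) (nat_lit 271141033317) (nat_lit 1) (nat_lit 5) (nat_lit 3) (nat_lit 4) (nat_lit 1) (nat_lit 4) (nat_lit 429) (nat_lit 302) (nat_lit 289)) (XT.nd (nat_lit 78) (nat_lit 0) (nat_lit 0) (XT.lf (nat_lit 0) (nat_lit 294605185492) (nat_lit 152) (nat_lit 266723849759) (nat_lit 0) (nat_lit 294230231587) (nat_lit 1) (nat_lit 5) (nat_lit 3) (nat_lit 4) (nat_lit 1) (nat_lit 4) (nat_lit 430) (nat_lit 302) (nat_lit 288)) (XT.lf (nat_lit 0) (nat_lit 319514324833) (nat_lit 152) (nat_lit 285253641982) (nat_lit 0) (nat_lit 319125033506) (nat_lit 1) (nat_lit 5) (nat_lit 3) (nat_lit 4) (nat_lit 1) (nat_lit 4) (nat_lit 431) (nat_lit 302) (nat_lit 287))))))) (XT.nd (nat_lit 780) (nat_lit 0) (nat_lit 0) (XT.nd (nat_lit 390) (nat_lit 0) (nat_lit 0) (XT.nd (nat_lit 156) (nat_lit 0) (nat_lit 0) (XT.nd (nat_lit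 78) (nat_lit 0) (nat_lit 0) (XT.lf (nat_lit 0) (nat_lit 346375530545) (nat_lit 152) (nat_lit 305348194564) (nat_lit 0) (nat_lit 345972963827) (nat_lit 1) (nat_lit 5) (nat_lit 3) (nat_lit 4) (nat_lit 1) (nat_lit 4) (nat_lit 432) (nat_lit 302) (nat_lit 286)) (XT.lf (nat_lit 0) (nat_lit 375347980142) (nat_lit 152) (nat_lit 327126586335) (nat_lit 0) (nat_lit 374933121395) (nat_lit 1) (nat_lit 5) (nat_lit 3) (nat_lit 4) (nat_lit 1) (nat_lit 4) (nat_lit 433) (nat_lit 302) (nat_lit 285))) (XT.nd (nat_lit 78) (nat_lit 0) (nat_lit 0) (XT.lf (nat_lit 0) (nat_lit 406603362214) (nat_lit 152) (nat_lit 350717874431) (nat_lit 0) (nat_lit 406177121959) (nat_lit 1) (nat_lit 5) (nat_lit 3) (nat_lit 4) (nat_lit 1) (nat_lit 4) (nat_lit 434) (nat_lit 302) (nat_lit 284)) (XT.nd (nat_lit 78) (nat_lit 0) (nat_lit 0) (XT.lf (nat_lit 0) (nat_lit 440326893842) (nat_lit 152) (nat_lit 376261859079) (nat_lit 0) (nat_lit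 439890115153) (nat_lit 1) (nat_lit 5) (nat_lit 3) (nat_lit 4) (nat_lit 1) (nat_lit 4) (nat_lit 435) (nat_lit 302) (nat_lit 283)) (XT.lf (nat_lit 0) (nat_lit 476718418173) (nat_lit 152) (nat_lit 403909912038) (nat_lit 0) (nat_lit 476271881676) (nat_lit 1) (nat_lit 5) (nat_lit 3) (nat_lit 4) (nat_lit 1) (nat_lit 4) (nat_lit 436) (nat_lit 302) (nat_lit 282))))) (XT.nd (nat_lit 156) (nat_lit 0) (nat_lit 0) (XT.nd (nat_lit 78) (nat_lit 0) (nat_lit 0) (XT.lf (nat_lit 0) (nat_lit 515993588688) (nat_lit 152) (nat_lit 433825873624) (nat_lit 0) (nat_lit 515538017182) (nat_lit 1) (nat_lit 5) (nat_lit 3) (nat_lit 4) (nat_lit 1) (nat_lit 4) (nat_lit 437) (nat_lit 302) (nat_lit 281)) (XT.lf (nat_lit 0) (nat_lit 558385147136) (nat_lit 152) (nat_lit 466187023607) (nat_lit 0) (nat_lit 557921209882) (nat_lit 1) (nat_lit 5) (nat_lit 3) (nat_lit 4) (nat_lit 1) (nat_lit 4) (nat_lit 438) (nat_lit 302) (nat_lit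 280))) (XT.nd (nat_lit 78) (nat_lit 0) (nat_lit 0) (XT.lf (nat_lit 0) (nat_lit 604144302752) (nat_lit 152) (nat_lit 501185131767) (nat_lit 0) (nat_lit 603672619436) (nat_lit 1) (nat_lit 5) (nat_lit 3) (nat_lit 4) (nat_lit 1) (nat_lit 4) (nat_lit 439) (nat_lit 302) (nat_lit 279)) (XT.nd (nat_lit 78) (nat_lit 0) (nat_lit 0) (XT.lf (nat_lit 0) (nat_lit 653542220905) (nat_lit 152) (nat_lit 539027594299) (nat_lit 0) (nat_lit 653063365307) (nat_lit 1) (nat_lit 5) (nat_lit 3) (nat_lit 4) (nat_lit 1) (nat_lit 4) (nat_lit 440) (nat_lit 302) (nat_lit 278)) (XT.lf (nat_lit 0) (nat_lit 706871629996) (nat_lit 152) (nat_lit 579938662833) (nat_lit 0) (nat_lit 706386133398) (nat_lit 1) (nat_lit 5) (nat_lit 3) (nat_lit 4) (nat_lit 1) (nat_lit 4) (nat_lit 441) (nat_lit 302) (nat_lit 277)))))) (XT.nd (nat_lit 390) (nat_lit 0) (nat_lit 0) (XT.nd (nat_lit 156) (nat_lit 0) (nat_lit 0) (XT.nd (nat_lit 78) (nat_lit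 0) (nat_lit 0) (XT.lf (nat_lit 0) (nat_lit 764448556155) (nat_lit 152) (nat_lit 624160773330) (nat_lit 0) (nat_lit 763956910482) (nat_lit 1) (nat_lit 5) (nat_lit 3) (nat_lit 4) (nat_lit 1) (nat_lit 4) (nat_lit 442) (nat_lit 302) (nat_lit 276)) (XT.lf (nat_lit 0) (nat_lit 826614195981) (nat_lit 152) (nat_lit 671955982743) (nat_lit 0) (nat_lit 826116856720) (nat_lit 1) (nat_lit 5) (nat_lit 3) (nat_lit 4) (nat_lit 1) (nat_lit 4) (nat_lit 443) (nat_lit 302) (nat_lit 275))) (XT.nd (nat_lit 78) (nat_lit 0) (nat_lit 0) (XT.lf (nat_lit 0) (nat_lit 893736938450) (nat_lit 152) (nat_lit 723607521942) (nat_lit 0) (nat_lit 893234327348) (nat_lit 1) (nat_lit 5) (nat_lit 3) (nat_lit 4) (nat_lit 1) (nat_lit 4) (nat_lit 444) (nat_lit 302) (nat_lit 274)) (XT.nd (nat_lit 78) (nat_lit 0) (nat_lit 0) (XT.lf (nat_lit 0) (nat_lit 966214547962) (nat_lit 152) (nat_lit 779421474121) (nat_lit 0) (nat_lit 965707055527)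 (nat_lit 1) (nat_lit 5) (nat_lit 3) (nat_lit 4) (nat_lit 1) (nat_lit 4) (nat_lit 445) (nat_lit 302) (nat_lit 273)) (XT.lf (nat_lit 0) (nat_lit 1044476521463) (nat_lit 152) (nat_lit 839728588627) (nat_lit 0) (nat_lit 1043964509275) (nat_lit 1) (nat_lit 5) (nat_lit 3) (nat_lit 4) (nat_lit 1) (nat_lit 4) (nat_lit 446) (nat_lit 302) (nat_lit 272))))) (XT.nd (nat_lit 156) (nat_lit 0) (nat_lit 0) (XT.nd (nat_lit 78) (nat_lit 0) (nat_lit 0) (XT.lf (nat_lit 0) (nat_lit 1128986633610) (nat_lit 152) (nat_lit 904886240954) (nat_lit 0) (nat_lit 1128470436465) (nat_lit 1) (nat_lit 5) (nat_lit 3) (nat_lit 4) (nat_lit 1) (nat_lit 4) (nat_lit 447) (nat_lit 302) (nat_lit 271)) (XT.lf (nat_lit 0) (nat_lit 1220245685069) (nat_lit 152) (nat_lit 975280550522) (nat_lit 0) (nat_lit 1219725612963) (nat_lit 1) (nat_lit 5) (nat_lit 3) (nat_lit 4) (nat_lit 1) (nat_lit 4) (nat_lit 448) (nat_lit 302) (nat_lit 270)))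 (XT.nd (nat_lit 78) (nat_lit 0) (nat_lit 0) (XT.lf (nat_lit 0) (nat_lit 1318794470217) (nat_lit 152) (nat_lit 1051328668796) (nat_lit 0) (nat_lit 1318270810185) (nat_lit 1) (nat_lit 5) (nat_lit 3) (nat_lit 4) (nat_lit 1) (nat_lit 4) (nat_lit 449) (nat_lit 302) (nat_lit 269)) (XT.nd (nat_lit 78) (nat_lit 0) (nat_lit 0) (XT.lf (nat_lit 0) (nat_lit 1425216981856) (nat_lit 152) (nat_lit 1133481251292) (nat_lit 0) (nat_lit 1424689999670) (nat_lit 1) (nat_lit 5) (nat_lit 3) (nat_lit 4) (nat_lit 1) (nat_lit 4) (nat_lit 450) (nat_lit 302) (nat_lit 268)) (XT.lf (nat_lit 0) (nat_lit 1540143871906) (nat_lit 152) (nat_lit 1222225128128) (nat_lit 0) (nat_lit 1539613813653) (nat_lit 1) (nat_lit 5) (nat_lit 3) (nat_lit 4) (nat_lit 1) (nat_lit 4) (nat_lit 451) (nat_lit 302) (nat_lit 267))))))))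
noncomputable def xc14 : XT := (XT.nd (nat_lit 50856) (nat_lit 0) (nat_lit 0) (XT.nd (nat_lit 702) (nat_lit 0) (nat_lit 0) (XT.nd (nat_lit 312) (nat_lit 0) (nat_lit 0) (XT.nd (nat_lit 156) (nat_lit 0) (nat_lit 0) (XT.nd (nat_lit 78) (nat_lit 0) (nat_lit 0) (XT.lf (nat_lit 0) (nat_lit 1664256188606) (nat_lit 152) (nat_lit 1318086188943) (nat_lit 0) (nat_lit 1663723282141) (nat_lit 1) (nat_lit 5) (nat_lit 3) (nat_lit 4) (nat_lit 1) (nat_lit 4) (nat_lit 452) (nat_lit 302) (nat_lit 266)) (XT.lf (nat_lit 0) (nat_lit 1798289412350) (nat_lit 152) (nat_lit 1421632499285) (nat_lit 0) (nat_lit 1797753868652) (nat_lit 1) (nat_lit 5) (nat_lit 3) (nat_lit 4) (nat_lit 1) (nat_lit 4) (nat_lit 453) (nat_lit 302) (nat_lit 265))) (XT.nd (nat_lit 78) (nat_lit 0) (nat_lit 0) (XT.lf (nat_lit 0) (nat_lit 1943037814093) (nat_lit 152) (nat_lit 1533477666918) (nat_lit 0) (nat_lit 1942499828513) (nat_lit 1) (nat_lit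 5) (nat_lit 3) (nat_lit 4) (nat_lit 1) (nat_lit 4) (nat_lit 454) (nat_lit 302) (nat_lit 264)) (XT.lf (nat_lit 0) (nat_lit 2099359162143) (nat_lit 152) (nat_lit 1654284478021) (nat_lit 0) (nat_lit 2098818915561) (nat_lit 1) (nat_lit 5) (nat_lit 3) (nat_lit 4) (nat_lit 1) (nat_lit 4) (nat_lit 455) (nat_lit 302) (nat_lit 263)))) (XT.nd (nat_lit 156) (nat_lit 0) (nat_lit 0) (XT.nd (nat_lit 78) (nat_lit 0) (nat_lit 0) (XT.lf (nat_lit 0) (nat_lit 2268179805228) (nat_lit 152) (nat_lit 1784768824807) (nat_lit 0) (nat_lit 2267637465126) (nat_lit 1) (nat_lit 5) (nat_lit 3) (nat_lit 4) (nat_lit 1) (nat_lit 4) (nat_lit 456) (nat_lit 302) (nat_lit 262)) (XT.lf (nat_lit 0) (nat_lit 2450500161975) (nat_lit 152) (nat_lit 1925703947850) (nat_lit 0) (nat_lit 2449955883428) (nat_lit 1) (nat_lit 5) (nat_lit 3) (nat_lit 4) (nat_lit 1) (nat_lit 4) (nat_lit 457) (nat_lit 302) (nat_lit 261))) (XT.nd (nat_lit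 78) (nat_lit 0) (nat_lit 0) (XT.lf (nat_lit 0) (nat_lit 2647400649312) (nat_lit 152) (nat_lit 2077925018250) (nat_lit 0) (nat_lit 2646854575909) (nat_lit 1) (nat_lit 5) (nat_lit 3) (nat_lit 4) (nat_lit 1) (nat_lit 4) (nat_lit 458) (nat_lit 302) (nat_lit 260)) (XT.nd (nat_lit 78) (nat_lit 0) (nat_lit 0) (XT.lf (nat_lit 0) (nat_lit 2860048084942) (nat_lit 152) (nat_lit 2242334086794) (nat_lit 0) (nat_lit 2859500349634) (nat_lit 1) (nat_lit 5) (nat_lit 3) (nat_lit 4) (nat_lit 1) (nat_lit 4) (nat_lit 459) (nat_lit 302) (nat_lit 259)) (XT.lf (nat_lit 0) (nat_lit 3089702601816) (nat_lit 152) (nat_lit 2419905429443) (nat_lit 0) (nat_lit 3089153327709) (nat_lit 1) (nat_lit 5) (nat_lit 3) (nat_lit 4) (nat_lit 1) (nat_lit 4) (nat_lit 460) (nat_lit 302) (nat_lit 258)))))) (XT.nd (nat_lit 49764) (nat_lit 0) (nat_lit 0) (XT.nd (nat_lit 49530) (nat_lit 0) (nat_lit 0) (XT.nd (nat_lit 49452) (nat_lit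 0) (nat_lit 0) (XT.lf (nat_lit 0) (nat_lit 3337725115591) (nat_lit 152) (nat_lit 2611691320822) (nat_lit 0) (nat_lit 3337174416669) (nat_lit 1) (nat_lit 5) (nat_lit 3) (nat_lit 4) (nat_lit 1) (nat_lit 4) (nat_lit 461) (nat_lit 302) (nat_lit 257)) (XT.lf (nat_lit 0) (nat_lit 33965015370) (nat_lit 152) (nat_lit 57675929030) (nat_lit 0) (nat_lit 33965015370) (nat_lit 1) (nat_lit 5) (nat_lit 3) (nat_lit 4) (nat_lit 1) (nat_lit 4) (nat_lit 414) (nat_lit 303) (nat_lit 303))) (XT.nd (nat_lit 78) (nat_lit 0) (nat_lit 0) (XT.lf (nat_lit 0) (nat_lit 75960963143) (nat_lit 152) (nat_lit 119220562921) (nat_lit 0) (nat_lit 75915482415) (nat_lit 1) (nat_lit 5) (nat_lit 3) (nat_lit 4) (nat_lit 1) (nat_lit 4) (nat_lit 415) (nat_lit 303) (nat_lit 302)) (XT.nd (nat_lit 78) (nat_lit 0) (nat_lit 0) (XT.lf (nat_lit 0) (nat_lit 84505374587) (nat_lit 152) (nat_lit 123660077885) (nat_lit 0) (nat_lit 84417782072)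 (nat_lit 1) (nat_lit 5) (nat_lit 3) (nat_lit 4) (nat_lit 1) (nat_lit 4) (nat_lit 416) (nat_lit 303) (nat_lit 301)) (XT.lf (nat_lit 0) (nat_lit 93613898621) (nat_lit 152) (nat_lit 128696711188) (nat_lit 0) (nat_lit 93487313712) (nat_lit 1) (nat_lit 5) (nat_lit 3) (nat_lit 4) (nat_lit 1) (nat_lit 4) (nat_lit 417) (nat_lit 303) (nat_lit 300))))) (XT.nd (nat_lit 156) (nat_lit 0) (nat_lit 0) (XT.nd (nat_lit 78) (nat_lit 0) (nat_lit 0) (XT.lf (nat_lit 0) (nat_lit 103340511685) (nat_lit 152) (nat_lit 134360309549) (nat_lit 0) (nat_lit 103177822708) (nat_lit 1) (nat_lit 5) (nat_lit 3) (nat_lit 4) (nat_lit 1) (nat_lit 4) (nat_lit 418) (nat_lit 303) (nat_lit 299)) (XT.lf (nat_lit 0) (nat_lit 113742852967) (nat_lit 152) (nat_lit 140684435029) (nat_lit 0) (nat_lit 113546734296) (nat_lit 1) (nat_lit 5) (nat_lit 3) (nat_lit 4) (nat_lit 1) (nat_lit 4) (nat_lit 419) (nat_lit 303) (nat_lit 298))) (XT.nd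 (nat_lit 78) (nat_lit 0) (nat_lit 0) (XT.lf (nat_lit 0) (nat_lit 124882565970) (nat_lit 152) (nat_lit 147706563930) (nat_lit 0) (nat_lit 124655493880) (nat_lit 1) (nat_lit 5) (nat_lit 3) (nat_lit 4) (nat_lit 1) (nat_lit 4) (nat_lit 420) (nat_lit 303) (nat_lit 297)) (XT.nd (nat_lit 78) (nat_lit 0) (nat_lit 0) (XT.lf (nat_lit 0) (nat_lit 136825663810) (nat_lit 152) (nat_lit 155468308866) (nat_lit 0) (nat_lit 136569931147) (nat_lit 1) (nat_lit 5) (nat_lit 3) (nat_lit 4) (nat_lit 1) (nat_lit 4) (nat_lit 421) (nat_lit 303) (nat_lit 296)) (XT.lf (nat_lit 0) (nat_lit 149642920399) (nat_lit 152) (nat_lit 164015665363) (nat_lit 0) (nat_lit 149360650167) (nat_lit 1) (nat_lit 5) (nat_lit 3) (nat_lit 4) (nat_lit 1) (nat_lit 4) (nat_lit 422) (nat_lit 303) (nat_lit 295))))))) (XT.nd (nat_lit 780) (nat_lit 0) (nat_lit 0) (XT.nd (nat_lit 390) (nat_lit 0) (nat_lit 0) (XT.nd (nat_lit 156) (nat_lit 0) (nat_lit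 0) (XT.nd (nat_lit 78) (nat_lit 0) (nat_lit 0) (XT.lf (nat_lit 0) (nat_lit 163410289851) (nat_lit 152) (nat_lit 173399284422) (nat_lit 0) (nat_lit 163103447796) (nat_lit 1) (nat_lit 5) (nat_lit 3) (nat_lit 4) (nat_lit 1) (nat_lit 4) (nat_lit 423) (nat_lit 303) (nat_lit 294)) (XT.lf (nat_lit 0) (nat_lit 178209356576) (nat_lit 152) (nat_lit 183674772675) (nat_lit 0) (nat_lit 177879762834) (nat_lit 1) (nat_lit 5) (nat_lit 3) (nat_lit 4) (nat_lit 1) (nat_lit 4) (nat_lit 424) (nat_lit 303) (nat_lit 293))) (XT.nd (nat_lit 78) (nat_lit 0) (nat_lit 0) (XT.lf (nat_lit 0) (nat_lit 194127818748) (nat_lit 152) (nat_lit 194903021905) (nat_lit 0) (nat_lit 193777158629) (nat_lit 1) (nat_lit 5) (nat_lit 3) (nat_lit 4) (nat_lit 1) (nat_lit 4) (nat_lit 425) (nat_lit 303) (nat_lit 292)) (XT.nd (nat_lit 78) (nat_lit 0) (nat_lit 0) (XT.lf (nat_lit 0) (nat_lit 211260007995) (nat_lit 152) (nat_lit 207150569884)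 (nat_lit 0) (nat_lit 210889841971) (nat_lit 1) (nat_lit 5) (nat_lit 3) (nat_lit 4) (nat_lit 1) (nat_lit 4) (nat_lit 426) (nat_lit 303) (nat_lit 291)) (XT.lf (nat_lit 0) (nat_lit 229707448402) (nat_lit 152) (nat_lit 220489994675) (nat_lit 0) (nat_lit 229319221354) (nat_lit 1) (nat_lit 5) (nat_lit 3) (nat_lit 4) (nat_lit 1) (nat_lit 4) (nat_lit 427) (nat_lit 303) (nat_lit 290))))) (XT.nd (nat_lit 156) (nat_lit 0) (nat_lit 0) (XT.nd (nat_lit 78) (nat_lit 0) (nat_lit 0) (XT.lf (nat_lit 0) (nat_lit 249579458133) (nat_lit 152) (nat_lit 235000344720) (nat_lit 0) (nat_lit 249174507916) (nat_lit 1) (nat_lit 5) (nat_lit 3) (nat_lit 4) (nat_lit 1) (nat_lit 4) (nat_lit 428) (nat_lit 303) (nat_lit 289)) (XT.lf (nat_lit 0) (nat_lit 270993797246) (nat_lit 152) (nat_lit 250767607279) (nat_lit 0) (nat_lit 270573362613) (nat_lit 1) (nat_lit 5) (nat_lit 3) (nat_lit 4) (nat_lit 1) (nat_lit 4) (nat_lit 429)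 (nat_lit 303) (nat_lit 288))) (XT.nd (nat_lit 78) (nat_lit 0) (nat_lit 0) (XT.lf (nat_lit 0) (nat_lit 294077365528) (nat_lit 152) (nat_lit 267885217983) (nat_lit 0) (nat_lit 293642593473) (nat_lit 1) (nat_lit 5) (nat_lit 3) (nat_lit 4) (nat_lit 1) (nat_lit 4) (nat_lit 430) (nat_lit 303) (nat_lit 287)) (XT.nd (nat_lit 78) (nat_lit 0) (nat_lit 0) (XT.lf (nat_lit 0) (nat_lit 318966954496) (nat_lit 152) (nat_lit 286454614524) (nat_lit 0) (nat_lit 318518907050) (nat_lit 1) (nat_lit 5) (nat_lit 3) (nat_lit 4) (nat_lit 1) (nat_lit 4) (nat_lit 431) (nat_lit 303) (nat_lit 286)) (XT.lf (nat_lit 0) (nat_lit 345810058010) (nat_lit 152) (nat_lit 306585837771) (nat_lit 0) (nat_lit 345349718534) (nat_lit 1) (nat_lit 5) (nat_lit 3) (nat_lit 4) (nat_lit 1) (nat_lit 4) (nat_lit 432) (nat_lit 303) (nat_lit 285)))))) (XT.nd (nat_lit 390) (nat_lit 0) (nat_lit 0) (XT.nd (nat_lit 156) (nat_lit 0) (nat_lit 0)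 (XT.nd (nat_lit 78) (nat_lit 0) (nat_lit 0) (XT.lf (nat_lit 0) (nat_lit 374765746312) (nat_lit 152) (nat_lit 328398183861) (nat_lit 0) (nat_lit 374294025329) (nat_lit 1) (nat_lit 5) (nat_lit 3) (nat_lit 4) (nat_lit 1) (nat_lit 4) (nat_lit 433) (nat_lit 303) (nat_lit 284)) (XT.lf (nat_lit 0) (nat_lit 406005608668) (nat_lit 152) (nat_lit 352020911142) (nat_lit 0) (nat_lit 405523349251) (nat_lit 1) (nat_lit 5) (nat_lit 3) (nat_lit 4) (nat_lit 1) (nat_lit 4) (nat_lit 434) (nat_lit 303) (nat_lit 283))) (XT.nd (nat_lit 78) (nat_lit 0) (nat_lit 0) (XT.lf (nat_lit 0) (nat_lit 439714770187) (nat_lit 152) (nat_lit 377594006145) (nat_lit 0) (nat_lit 439222752961) (nat_lit 1) (nat_lit 5) (nat_lit 3) (nat_lit 4) (nat_lit 1) (nat_lit 4) (nat_lit 435) (nat_lit 303) (nat_lit 282)) (XT.nd (nat_lit 78) (nat_lit 0) (nat_lit 0) (XT.lf (nat_lit 0) (nat_lit 476092988863) (nat_lit 152) (nat_lit 405269013138)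 (nat_lit 0) (nat_lit 475591936629) (nat_lit 1) (nat_lit 5) (nat_lit 3) (nat_lit 4) (nat_lit 1) (nat_lit 4) (nat_lit 436) (nat_lit 303) (nat_lit 281)) (XT.lf (nat_lit 0) (nat_lit 515355839325) (nat_lit 152) (nat_lit 435209932161) (nat_lit 0) (nat_lit 514846421343) (nat_lit 1) (nat_lit 5) (nat_lit 3) (nat_lit 4) (nat_lit 1) (nat_lit 4) (nat_lit 437) (nat_lit 303) (nat_lit 280))))) (XT.nd (nat_lit 156) (nat_lit 0) (nat_lit 0) (XT.nd (nat_lit 78) (nat_lit 0) (nat_lit 0) (XT.lf (nat_lit 0) (nat_lit 557735990318) (nat_lit 152) (nat_lit 467594190884) (nat_lit 0) (nat_lit 557218826273) (nat_lit 1) (nat_lit 5) (nat_lit 3) (nat_lit 4) (nat_lit 1) (nat_lit 4) (nat_lit 438) (nat_lit 303) (nat_lit 279)) (XT.lf (nat_lit 0) (nat_lit 603484583476) (nat_lit 152) (nat_lit 502613696024) (nat_lit 0) (nat_lit 602960247150) (nat_lit 1) (nat_lit 5) (nat_lit 3) (nat_lit 4) (nat_lit 1) (nat_lit 4) (nat_lit 439)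 (nat_lit 303) (nat_lit 278))) (XT.nd (nat_lit 78) (nat_lit 0) (nat_lit 0) (XT.lf (nat_lit 0) (nat_lit 652872721574) (nat_lit 152) (nat_lit 540475970575) (nat_lit 0) (nat_lit 652341744247) (nat_lit 1) (nat_lit 5) (nat_lit 3) (nat_lit 4) (nat_lit 1) (nat_lit 4) (nat_lit 440) (nat_lit 303) (nat_lit 277)) (XT.nd (nat_lit 78) (nat_lit 0) (nat_lit 0) (XT.lf (nat_lit 0) (nat_lit 706193075060) (nat_lit 152) (nat_lit 581405383571) (nat_lit 0) (nat_lit 705655948658) (nat_lit 1) (nat_lit 5) (nat_lit 3) (nat_lit 4) (nat_lit 1) (nat_lit 4) (nat_lit 441) (nat_lit 303) (nat_lit 276)) (XT.lf (nat_lit 0) (nat_lit 763761616399) (nat_lit 152) (nat_lit 625644479682) (nat_lit 0) (nat_lit 763218796409) (nat_lit 1) (nat_lit 5) (nat_lit 3) (nat_lit 4) (nat_lit 1) (nat_lit 4) (nat_lit 442) (nat_lit 303) (nat_lit 275))))))))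
noncomputable def xc15 : XT := (XT.nd (nat_lit 50700) (nat_lit 0) (nat_lit 0) (XT.nd (nat_lit 702) (nat_lit 0) (nat_lit 0) (XT.nd (nat_lit 312) (nat_lit 0) (nat_lit 0) (XT.nd (nat_lit 156) (nat_lit 0) (nat_lit 0) (XT.nd (nat_lit 78) (nat_lit 0) (nat_lit 0) (XT.lf (nat_lit 0) (nat_lit 825919492502) (nat_lit 152) (nat_lit 673455416514) (nat_lit 0) (nat_lit 825371400672) (nat_lit 1) (nat_lit 5) (nat_lit 3) (nat_lit 4) (nat_lit 1) (nat_lit 4) (nat_lit 443) (nat_lit 303) (nat_lit 274)) (XT.lf (nat_lit 0) (nat_lit 893035046339) (nat_lit 152) (nat_lit 725121518138) (nat_lit 0) (nat_lit 892482073176) (nat_lit 1) (nat_lit 5) (nat_lit 3) (nat_lit 4) (nat_lit 1) (nat_lit 4) (nat_lit 444) (nat_lit 303) (nat_lit 273))) (XT.nd (nat_lit 78) (nat_lit 0) (nat_lit 0) (XT.lf (nat_lit 0) (nat_lit 965505999711) (nat_lit 152) (nat_lit 780948954044) (nat_lit 0) (nat_lit 964948506794) (nat_lit 1) (nat_lit 5)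 (nat_lit 3) (nat_lit 4) (nat_lit 1) (nat_lit 4) (nat_lit 445) (nat_lit 303) (nat_lit 272)) (XT.lf (nat_lit 0) (nat_lit 1043761810119) (nat_lit 152) (nat_lit 841268553483) (nat_lit 0) (nat_lit 1043200132245) (nat_lit 1) (nat_lit 5) (nat_lit 3) (nat_lit 4) (nat_lit 1) (nat_lit 4) (nat_lit 446) (nat_lit 303) (nat_lit 271)))) (XT.nd (nat_lit 156) (nat_lit 0) (nat_lit 0) (XT.nd (nat_lit 78) (nat_lit 0) (nat_lit 0) (XT.lf (nat_lit 0) (nat_lit 1128266215698) (nat_lit 152) (nat_lit 906437765933) (nat_lit 0) (nat_lit 1127700662864) (nat_lit 1) (nat_lit 5) (nat_lit 3) (nat_lit 4) (nat_lit 1) (nat_lit 4) (nat_lit 447) (nat_lit 303) (nat_lit 270)) (XT.lf (nat_lit 0) (nat_lit 1219519983297) (nat_lit 152) (nat_lit 976842779319) (nat_lit 0) (nat_lit 1218950842537) (nat_lit 1) (nat_lit 5) (nat_lit 3) (nat_lit 4) (nat_lit 1) (nat_lit 4) (nat_lit 448) (nat_lit 303) (nat_lit 269))) (XT.nd (nat_lit 78) (nat_lit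 0) (nat_lit 0) (XT.lf (nat_lit 0) (nat_lit 1318063875984) (nat_lit 152) (nat_lit 1052900808535) (nat_lit 0) (nat_lit 1317491413070) (nat_lit 1) (nat_lit 5) (nat_lit 3) (nat_lit 4) (nat_lit 1) (nat_lit 4) (nat_lit 449) (nat_lit 303) (nat_lit 268)) (XT.nd (nat_lit 78) (nat_lit 0) (nat_lit 0) (XT.lf (nat_lit 0) (nat_lit 1424481857565) (nat_lit 152) (nat_lit 1135062567829) (nat_lit 0) (nat_lit 1423906318583) (nat_lit 1) (nat_lit 5) (nat_lit 3) (nat_lit 4) (nat_lit 1) (nat_lit 4) (nat_lit 450) (nat_lit 303) (nat_lit 267)) (XT.lf (nat_lit 0) (nat_lit 1539404553118) (nat_lit 152) (nat_lit 1223814941699) (nat_lit 0) (nat_lit 1538826165925) (nat_lit 1) (nat_lit 5) (nat_lit 3) (nat_lit 4) (nat_lit 1) (nat_lit 4) (nat_lit 451) (nat_lit 303) (nat_lit 266)))))) (XT.nd (nat_lit 390) (nat_lit 0) (nat_lit 0) (XT.nd (nat_lit 156) (nat_lit 0) (nat_lit 0) (XT.nd (nat_lit 78) (nat_lit 0) (nat_lit 0) (XT.lf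 (nat_lit 0) (nat_lit 1663512986023) (nat_lit 152) (nat_lit 1319683870141) (nat_lit 0) (nat_lit 1662931961597) (nat_lit 1) (nat_lit 5) (nat_lit 3) (nat_lit 4) (nat_lit 1) (nat_lit 4) (nat_lit 452) (nat_lit 303) (nat_lit 265)) (XT.lf (nat_lit 0) (nat_lit 1797542613662) (nat_lit 152) (nat_lit 1423237465321) (nat_lit 0) (nat_lit 1796959147353) (nat_lit 1) (nat_lit 5) (nat_lit 3) (nat_lit 4) (nat_lit 1) (nat_lit 4) (nat_lit 453) (nat_lit 303) (nat_lit 264))) (XT.nd (nat_lit 78) (nat_lit 0) (nat_lit 0) (XT.lf (nat_lit 0) (nat_lit 1942287685678) (nat_lit 152) (nat_lit 1535089378175) (nat_lit 0) (nat_lit 1941701958367) (nat_lit 1) (nat_lit 5) (nat_lit 3) (nat_lit 4) (nat_lit 1) (nat_lit 4) (nat_lit 454) (nat_lit 303) (nat_lit 263)) (XT.nd (nat_lit 78) (nat_lit 0) (nat_lit 0) (XT.lf (nat_lit 0) (nat_lit 2098605950647) (nat_lit 152) (nat_lit 1655902434852) (nat_lit 0) (nat_lit 2098018129816) (nat_lit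 1) (nat_lit 5) (nat_lit 3) (nat_lit 4) (nat_lit 1) (nat_lit 4) (nat_lit 455) (nat_lit 303) (nat_lit 262)) (XT.lf (nat_lit 0) (nat_lit 2267423739027) (nat_lit 152) (nat_lit 1786392564577) (nat_lit 0) (nat_lit 2266833979752) (nat_lit 1) (nat_lit 5) (nat_lit 3) (nat_lit 4) (nat_lit 1) (nat_lit 4) (nat_lit 456) (nat_lit 303) (nat_lit 261))))) (XT.nd (nat_lit 156) (nat_lit 0) (nat_lit 0) (XT.nd (nat_lit 78) (nat_lit 0) (nat_lit 0) (XT.lf (nat_lit 0) (nat_lit 2449741452529) (nat_lit 152) (nat_lit 1927333042194) (nat_lit 0) (nat_lit 2449149898397) (nat_lit 1) (nat_lit 5) (nat_lit 3) (nat_lit 4) (nat_lit 1) (nat_lit 4) (nat_lit 457) (nat_lit 303) (nat_lit 260)) (XT.lf (nat_lit 0) (nat_lit 2646639492417) (nat_lit 152) (nat_lit 2079559070532) (nat_lit 0) (nat_lit 2646046276381) (nat_lit 1) (nat_lit 5) (nat_lit 3) (nat_lit 4) (nat_lit 1) (nat_lit 4) (nat_lit 458) (nat_lit 303) (nat_lit 259))) (XT.nd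 (nat_lit 78) (nat_lit 0) (nat_lit 0) (XT.lf (nat_lit 0) (nat_lit 2859284661890) (nat_lit 152) (nat_lit 2243972729760) (nat_lit 0) (nat_lit 2858689907054) (nat_lit 1) (nat_lit 5) (nat_lit 3) (nat_lit 4) (nat_lit 1) (nat_lit 4) (nat_lit 459) (nat_lit 303) (nat_lit 258)) (XT.nd (nat_lit 78) (nat_lit 0) (nat_lit 0) (XT.lf (nat_lit 0) (nat_lit 3088937080471) (nat_lit 152) (nat_lit 2421548323043) (nat_lit 0) (nat_lit 3088340900821) (nat_lit 1) (nat_lit 5) (nat_lit 3) (nat_lit 4) (nat_lit 1) (nat_lit 4) (nat_lit 460) (nat_lit 303) (nat_lit 257)) (XT.lf (nat_lit 0) (nat_lit 3336957651382) (nat_lit 152) (nat_lit 2613338150193) (nat_lit 0) (nat_lit 3336360152458) (nat_lit 1) (nat_lit 5) (nat_lit 3) (nat_lit 4) (nat_lit 1) (nat_lit 4) (nat_lit 461) (nat_lit 303) (nat_lit 256))))))) (XT.nd (nat_lit 780) (nat_lit 0) (nat_lit 0) (XT.nd (nat_lit 390) (nat_lit 0) (nat_lit 0) (XT.nd (nat_lit 156) (nat_lit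 0) (nat_lit 0) (XT.nd (nat_lit 78) (nat_lit 0) (nat_lit 0) (XT.lf (nat_lit 0) (nat_lit 26671228481) (nat_lit 152) (nat_lit 54545943025) (nat_lit 0) (nat_lit 26671228481) (nat_lit 1) (nat_lit 5) (nat_lit 3) (nat_lit 4) (nat_lit 1) (nat_lit 4) (nat_lit 412) (nat_lit 304) (nat_lit 304)) (XT.lf (nat_lit 0) (nat_lit 60414105857) (nat_lit 152) (nat_lit 112031037647) (nat_lit 0) (nat_lit 60364986671) (nat_lit 1) (nat_lit 5) (nat_lit 3) (nat_lit 4) (nat_lit 1) (nat_lit 4) (nat_lit 413) (nat_lit 304) (nat_lit 303))) (XT.nd (nat_lit 78) (nat_lit 0) (nat_lit 0) (XT.lf (nat_lit 0) (nat_lit 67912171469) (nat_lit 152) (nat_lit 115487540183) (nat_lit 0) (nat_lit 67817571554) (nat_lit 1) (nat_lit 5) (nat_lit 3) (nat_lit 4) (nat_lit 1) (nat_lit 4) (nat_lit 414) (nat_lit 304) (nat_lit 302)) (XT.nd (nat_lit 78) (nat_lit 0) (nat_lit 0) (XT.lf (nat_lit 0) (nat_lit 75881086780) (nat_lit 152) (nat_lit 119481876636)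 (nat_lit 0) (nat_lit 75744375078) (nat_lit 1) (nat_lit 5) (nat_lit 3) (nat_lit 4) (nat_lit 1) (nat_lit 4) (nat_lit 415) (nat_lit 304) (nat_lit 301)) (XT.lf (nat_lit 0) (nat_lit 84368074990) (nat_lit 152) (nat_lit 124037717149) (nat_lit 0) (nat_lit 84192370895) (nat_lit 1) (nat_lit 5) (nat_lit 3) (nat_lit 4) (nat_lit 1) (nat_lit 4) (nat_lit 416) (nat_lit 304) (nat_lit 300))))) (XT.nd (nat_lit 156) (nat_lit 0) (nat_lit 0) (XT.nd (nat_lit 78) (nat_lit 0) (nat_lit 0) (XT.lf (nat_lit 0) (nat_lit 93423429364) (nat_lit 152) (nat_lit 129182059295) (nat_lit 0) (nat_lit 93211621200) (nat_lit 1) (nat_lit 5) (nat_lit 3) (nat_lit 4) (nat_lit 1) (nat_lit 4) (nat_lit 417) (nat_lit 304) (nat_lit 299)) (XT.lf (nat_lit 0) (nat_lit 103100811261) (nat_lit 152) (nat_lit 134945388065) (nat_lit 0) (nat_lit 102855573404) (nat_lit 1) (nat_lit 5) (nat_lit 3) (nat_lit 4) (nat_lit 1) (nat_lit 4) (nat_lit 418) (nat_lit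 304) (nat_lit 298))) (XT.nd (nat_lit 78) (nat_lit 0) (nat_lit 0) (XT.lf (nat_lit 0) (nat_lit 113457568129) (nat_lit 152) (nat_lit 141361856517) (nat_lit 0) (nat_lit 113181376852) (nat_lit 1) (nat_lit 5) (nat_lit 3) (nat_lit 4) (nat_lit 1) (nat_lit 4) (nat_lit 419) (nat_lit 304) (nat_lit 297)) (XT.nd (nat_lit 78) (nat_lit 0) (nat_lit 0) (XT.lf (nat_lit 0) (nat_lit 124555073342) (nat_lit 152) (nat_lit 148469488169) (nat_lit 0) (nat_lit 124250221492) (nat_lit 1) (nat_lit 5) (nat_lit 3) (nat_lit 4) (nat_lit 1) (nat_lit 4) (nat_lit 420) (nat_lit 304) (nat_lit 296)) (XT.lf (nat_lit 0) (nat_lit 136459089895) (nat_lit 152) (nat_lit 156310402320) (nat_lit 0) (nat_lit 136127700476) (nat_lit 1) (nat_lit 5) (nat_lit 3) (nat_lit 4) (nat_lit 1) (nat_lit 4) (nat_lit 421) (nat_lit 304) (nat_lit 295)))))) (XT.nd (nat_lit 390) (nat_lit 0) (nat_lit 0) (XT.nd (nat_lit 156) (nat_lit 0) (nat_lit 0) (XT.nd (nat_lit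 78) (nat_lit 0) (nat_lit 0) (XT.lf (nat_lit 0) (nat_lit 149240160107) (nat_lit 152) (nat_lit 164931063645) (nat_lit 0) (nat_lit 148884198865) (nat_lit 1) (nat_lit 5) (nat_lit 3) (nat_lit 4) (nat_lit 1) (nat_lit 4) (nat_lit 422) (nat_lit 304) (nat_lit 294)) (XT.lf (nat_lit 0) (nat_lit 162974023653) (nat_lit 152) (nat_lit 174382557545) (nat_lit 0) (nat_lit 162595310724) (nat_lit 1) (nat_lit 5) (nat_lit 3) (nat_lit 4) (nat_lit 1) (nat_lit 4) (nat_lit 423) (nat_lit 304) (nat_lit 293))) (XT.nd (nat_lit 78) (nat_lit 0) (nat_lit 0) (XT.lf (nat_lit 0) (nat_lit 177742066392) (nat_lit 152) (nat_lit 184720892874) (nat_lit 0) (nat_lit 177342287086) (nat_lit 1) (nat_lit 5) (nat_lit 3) (nat_lit 4) (nat_lit 1) (nat_lit 4) (nat_lit 424) (nat_lit 304) (nat_lit 292)) (XT.nd (nat_lit 78) (nat_lit 0) (nat_lit 0) (XT.lf (nat_lit 0) (nat_lit 193631802652) (nat_lit 152) (nat_lit 196007333840) (nat_lit 0) (nat_lit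 193212517440) (nat_lit 1) (nat_lit 5) (nat_lit 3) (nat_lit 4) (nat_lit 1) (nat_lit 4) (nat_lit 425) (nat_lit 304) (nat_lit 291)) (XT.lf (nat_lit 0) (nat_lit 210737393831) (nat_lit 152) (nat_lit 208308763056) (nat_lit 0) (nat_lit 210300047597) (nat_lit 1) (nat_lit 5) (nat_lit 3) (nat_lit 4) (nat_lit 1) (nat_lit 4) (nat_lit 426) (nat_lit 304) (nat_lit 290))))) (XT.nd (nat_lit 156) (nat_lit 0) (nat_lit 0) (XT.nd (nat_lit 78) (nat_lit 0) (nat_lit 0) (XT.lf (nat_lit 0) (nat_lit 229160206397) (nat_lit 152) (nat_lit 221698077881) (nat_lit 0) (nat_lit 228706136993) (nat_lit 1) (nat_lit 5) (nat_lit 3) (nat_lit 4) (nat_lit 1) (nat_lit 4) (nat_lit 427) (nat_lit 304) (nat_lit 289)) (XT.lf (nat_lit 0) (nat_lit 249009412572) (nat_lit 152) (nat_lit 236254622402) (nat_lit 0) (nat_lit 248539858752) (nat_lit 1) (nat_lit 5) (nat_lit 3) (nat_lit 4) (nat_lit 1) (nat_lit 4) (nat_lit 428) (nat_lit 304) (nat_lit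 288))) (XT.nd (nat_lit 78) (nat_lit 0) (nat_lit 0) (XT.lf (nat_lit 0) (nat_lit 270402637281) (nat_lit 152) (nat_lit 252064657625) (nat_lit 0) (nat_lit 269918746039) (nat_lit 1) (nat_lit 5) (nat_lit 3) (nat_lit 4) (nat_lit 1) (nat_lit 4) (nat_lit 429) (nat_lit 304) (nat_lit 287)) (XT.nd (nat_lit 78) (nat_lit 0) (nat_lit 0) (XT.lf (nat_lit 0) (nat_lit 293466655190) (nat_lit 152) (nat_lit 269221872646) (nat_lit 0) (nat_lit 292969488557) (nat_lit 1) (nat_lit 5) (nat_lit 3) (nat_lit 4) (nat_lit 1) (nat_lit 4) (nat_lit 430) (nat_lit 304) (nat_lit 286)) (XT.lf (nat_lit 0) (nat_lit 318338141960) (nat_lit 152) (nat_lit 287827939852) (nat_lit 0) (nat_lit 317828683298) (nat_lit 1) (nat_lit 5) (nat_lit 3) (nat_lit 4) (nat_lit 1) (nat_lit 4) (nat_lit 431) (nat_lit 304) (nat_lit 285))))))))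
noncomputable def xc16 : XT := (XT.nd (nat_lit 1482) (nat_lit 0) (nat_lit 0) (XT.nd (nat_lit 702) (nat_lit 0) (nat_lit 0) (XT.nd (nat_lit 312) (nat_lit 0) (nat_lit 0) (XT.nd (nat_lit 156) (nat_lit 0) (nat_lit 0) (XT.nd (nat_lit 78) (nat_lit 0) (nat_lit 0) (XT.lf (nat_lit 0) (nat_lit 345164484180) (nat_lit 152) (nat_lit 307993117418) (nat_lit 0) (nat_lit 344643644009) (nat_lit 1) (nat_lit 5) (nat_lit 3) (nat_lit 4) (nat_lit 1) (nat_lit 4) (nat_lit 432) (nat_lit 304) (nat_lit 284)) (XT.lf (nat_lit 0) (nat_lit 374104652765) (nat_lit 152) (nat_lit 329836902692) (nat_lit 0) (nat_lit 373573274162) (nat_lit 1) (nat_lit 5) (nat_lit 3) (nat_lit 4) (nat_lit 1) (nat_lit 4) (nat_lit 433) (nat_lit 304) (nat_lit 283))) (XT.nd (nat_lit 78) (nat_lit 0) (nat_lit 0) (XT.lf (nat_lit 0) (nat_lit 405330145013) (nat_lit 152) (nat_lit 353488740329) (nat_lit 0) (nat_lit 404789008600) (nat_lit 1) (nat_lit 5) (nat_lit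 3) (nat_lit 4) (nat_lit 1) (nat_lit 4) (nat_lit 434) (nat_lit 304) (nat_lit 282)) (XT.lf (nat_lit 0) (nat_lit 439026000876) (nat_lit 152) (nat_lit 379088789365) (nat_lit 0) (nat_lit 438475829455) (nat_lit 1) (nat_lit 5) (nat_lit 3) (nat_lit 4) (nat_lit 1) (nat_lit 4) (nat_lit 435) (nat_lit 304) (nat_lit 281)))) (XT.nd (nat_lit 156) (nat_lit 0) (nat_lit 0) (XT.nd (nat_lit 78) (nat_lit 0) (nat_lit 0) (XT.lf (nat_lit 0) (nat_lit 475391899500) (nat_lit 152) (nat_lit 406788753796) (nat_lit 0) (nat_lit 474833362331) (nat_lit 1) (nat_lit 5) (nat_lit 3) (nat_lit 4) (nat_lit 1) (nat_lit 4) (nat_lit 436) (nat_lit 304) (nat_lit 280)) (XT.lf (nat_lit 0) (nat_lit 514643342507) (nat_lit 152) (nat_lit 436752781559) (nat_lit 0) (nat_lit 514077059275) (nat_lit 1) (nat_lit 5) (nat_lit 3) (nat_lit 4) (nat_lit 1) (nat_lit 4) (nat_lit 437) (nat_lit 304) (nat_lit 279))) (XT.nd (nat_lit 78) (nat_lit 0) (nat_lit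 0) (XT.lf (nat_lit 0) (nat_lit 557012931041) (nat_lit 152) (nat_lit 469158437262) (nat_lit 0) (nat_lit 556439475528) (nat_lit 1) (nat_lit 5) (nat_lit 3) (nat_lit 4) (nat_lit 1) (nat_lit 4) (nat_lit 438) (nat_lit 304) (nat_lit 278)) (XT.nd (nat_lit 78) (nat_lit 0) (nat_lit 0) (XT.lf (nat_lit 0) (nat_lit 602751744145) (nat_lit 152) (nat_lit 504197754421) (nat_lit 0) (nat_lit 602171647631) (nat_lit 1) (nat_lit 5) (nat_lit 3) (nat_lit 4) (nat_lit 1) (nat_lit 4) (nat_lit 439) (nat_lit 304) (nat_lit 277)) (XT.lf (nat_lit 0) (nat_lit 652130826637) (nat_lit 152) (nat_lit 542078373434) (nat_lit 0) (nat_lit 651544581049) (nat_lit 1) (nat_lit 5) (nat_lit 3) (nat_lit 4) (nat_lit 1) (nat_lit 4) (nat_lit 440) (nat_lit 304) (nat_lit 276)))))) (XT.nd (nat_lit 390) (nat_lit 0) (nat_lit 0) (XT.nd (nat_lit 156) (nat_lit 0) (nat_lit 0) (XT.nd (nat_lit 78) (nat_lit 0) (nat_lit 0) (XT.lf (nat_lit 0) (nat_lit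 705442795303) (nat_lit 152) (nat_lit 583024772043) (nat_lit 0) (nat_lit 704850856127) (nat_lit 1) (nat_lit 5) (nat_lit 3) (nat_lit 4) (nat_lit 1) (nat_lit 4) (nat_lit 441) (nat_lit 304) (nat_lit 275)) (XT.lf (nat_lit 0) (nat_lit 763003572919) (nat_lit 152) (nat_lit 627279595573) (nat_lit 0) (nat_lit 762406361903) (nat_lit 1) (nat_lit 5) (nat_lit 3) (nat_lit 4) (nat_lit 1) (nat_lit 4) (nat_lit 442) (nat_lit 304) (nat_lit 274))) (XT.nd (nat_lit 78) (nat_lit 0) (nat_lit 0) (XT.lf (nat_lit 0) (nat_lit 825154260391) (nat_lit 152) (nat_lit 675105094831) (nat_lit 0) (nat_lit 824552168040) (nat_lit 1) (nat_lit 5) (nat_lit 3) (nat_lit 4) (nat_lit 1) (nat_lit 4) (nat_lit 443) (nat_lit 304) (nat_lit 273)) (XT.nd (nat_lit 78) (nat_lit 0) (nat_lit 0) (XT.lf (nat_lit 0) (nat_lit 892263158087) (nat_lit 152) (nat_lit 726784680182) (nat_lit 0) (nat_lit 891656545983) (nat_lit 1) (nat_lit 5) (nat_lit 3)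 (nat_lit 4) (nat_lit 1) (nat_lit 4) (nat_lit 444) (nat_lit 304) (nat_lit 272)) (XT.lf (nat_lit 0) (nat_lit 964727948366) (nat_lit 152) (nat_lit 782624601021) (nat_lit 0) (nat_lit 964117151305) (nat_lit 1) (nat_lit 5) (nat_lit 3) (nat_lit 4) (nat_lit 1) (nat_lit 4) (nat_lit 445) (nat_lit 304) (nat_lit 271))))) (XT.nd (nat_lit 156) (nat_lit 0) (nat_lit 0) (XT.nd (nat_lit 78) (nat_lit 0) (nat_lit 0) (XT.lf (nat_lit 0) (nat_lit 1042978052206) (nat_lit 152) (nat_lit 842955760583) (nat_lit 0) (nat_lit 1042363380185) (nat_lit 1) (nat_lit 5) (nat_lit 3) (nat_lit 4) (nat_lit 1) (nat_lit 4) (nat_lit 446) (nat_lit 304) (nat_lit 270)) (XT.lf (nat_lit 0) (nat_lit 1127477173927) (nat_lit 152) (nat_lit 908135676850) (nat_lit 0) (nat_lit 1126858913980) (nat_lit 1) (nat_lit 5) (nat_lit 3) (nat_lit 4) (nat_lit 1) (nat_lit 4) (nat_lit 447) (nat_lit 304) (nat_lit 269))) (XT.nd (nat_lit 78) (nat_lit 0) (nat_lit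 0) (XT.lf (nat_lit 0) (nat_lit 1218726049064) (nat_lit 152) (nat_lit 978550601178) (nat_lit 0) (nat_lit 1218104466963) (nat_lit 1) (nat_lit 5) (nat_lit 3) (nat_lit 4) (nat_lit 1) (nat_lit 4) (nat_lit 448) (nat_lit 304) (nat_lit 268)) (XT.nd (nat_lit 78) (nat_lit 0) (nat_lit 0) (XT.lf (nat_lit 0) (nat_lit 1317265411692) (nat_lit 152) (nat_lit 1054617807193) (nat_lit 0) (nat_lit 1316640753523) (nat_lit 1) (nat_lit 5) (nat_lit 3) (nat_lit 4) (nat_lit 1) (nat_lit 4) (nat_lit 449) (nat_lit 304) (nat_lit 267)) (XT.lf (nat_lit 0) (nat_lit 1423679198776) (nat_lit 152) (nat_lit 1136788063522) (nat_lit 0) (nat_lit 1423051692396) (nat_lit 1) (nat_lit 5) (nat_lit 3) (nat_lit 4) (nat_lit 1) (nat_lit 4) (nat_lit 450) (nat_lit 304) (nat_lit 266))))))) (XT.nd (nat_lit 702) (nat_lit 0) (nat_lit 0) (XT.nd (nat_lit 312) (nat_lit 0) (nat_lit 0) (XT.nd (nat_lit 156) (nat_lit 0) (nat_lit 0) (XT.nd (nat_lit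 78) (nat_lit 0) (nat_lit 0) (XT.lf (nat_lit 0) (nat_lit 1538598010535) (nat_lit 152) (nat_lit 1225548305018) (nat_lit 0) (nat_lit 1537967866922) (nat_lit 1) (nat_lit 5) (nat_lit 3) (nat_lit 4) (nat_lit 1) (nat_lit 4) (nat_lit 451) (nat_lit 304) (nat_lit 265)) (XT.lf (nat_lit 0) (nat_lit 1662702847335) (nat_lit 152) (nat_lit 1321424518298) (nat_lit 0) (nat_lit 1662070261840) (nat_lit 1) (nat_lit 5) (nat_lit 3) (nat_lit 4) (nat_lit 1) (nat_lit 4) (nat_lit 452) (nat_lit 304) (nat_lit 264))) (XT.nd (nat_lit 78) (nat_lit 0) (nat_lit 0) (XT.lf (nat_lit 0) (nat_lit 1796729145246) (nat_lit 152) (nat_lit 1424984858698) (nat_lit 0) (nat_lit 1796094298748) (nat_lit 1) (nat_lit 5) (nat_lit 3) (nat_lit 4) (nat_lit 1) (nat_lit 4) (nat_lit 453) (nat_lit 304) (nat_lit 263)) (XT.lf (nat_lit 0) (nat_lit 1941471134181) (nat_lit 152) (nat_lit 1536843017127) (nat_lit 0) (nat_lit 1940834194163) (nat_lit 1)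 (nat_lit 5) (nat_lit 3) (nat_lit 4) (nat_lit 1) (nat_lit 4) (nat_lit 454) (nat_lit 304) (nat_lit 262)))) (XT.nd (nat_lit 156) (nat_lit 0) (nat_lit 0) (XT.nd (nat_lit 78) (nat_lit 0) (nat_lit 0) (XT.lf (nat_lit 0) (nat_lit 2097786544445) (nat_lit 152) (nat_lit 1657661856743) (nat_lit 0) (nat_lit 2097147665982) (nat_lit 1) (nat_lit 5) (nat_lit 3) (nat_lit 4) (nat_lit 1) (nat_lit 4) (nat_lit 455) (nat_lit 304) (nat_lit 261)) (XT.lf (nat_lit 0) (nat_lit 2266601689581) (nat_lit 152) (nat_lit 1788157341043) (nat_lit 0) (nat_lit 2265961016262) (nat_lit 1) (nat_lit 5) (nat_lit 3) (nat_lit 4) (nat_lit 1) (nat_lit 4) (nat_lit 456) (nat_lit 304) (nat_lit 260))) (XT.nd (nat_lit 78) (nat_lit 0) (nat_lit 0) (XT.lf (nat_lit 0) (nat_lit 2448916955633) (nat_lit 152) (nat_lit 1929102776598) (nat_lit 0) (nat_lit 2448274620411) (nat_lit 1) (nat_lit 5) (nat_lit 3) (nat_lit 4) (nat_lit 1) (nat_lit 4) (nat_lit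 457) (nat_lit 304) (nat_lit 259)) (XT.nd (nat_lit 78) (nat_lit 0) (nat_lit 0) (XT.lf (nat_lit 0) (nat_lit 2645812729365) (nat_lit 152) (nat_lit 2081333395620) (nat_lit 0) (nat_lit 2645168855342) (nat_lit 1) (nat_lit 5) (nat_lit 3) (nat_lit 4) (nat_lit 1) (nat_lit 4) (nat_lit 458) (nat_lit 304) (nat_lit 258)) (XT.lf (nat_lit 0) (nat_lit 2858455800545) (nat_lit 152) (nat_lit 2245751305481) (nat_lit 0) (nat_lit 2857810501707) (nat_lit 1) (nat_lit 5) (nat_lit 3) (nat_lit 4) (nat_lit 1) (nat_lit 4) (nat_lit 459) (nat_lit 304) (nat_lit 257)))))) (XT.nd (nat_lit 49452) (nat_lit 0) (nat_lit 0) (XT.nd (nat_lit 49218) (nat_lit 0) (nat_lit 0) (XT.nd (nat_lit 78) (nat_lit 0) (nat_lit 0) (XT.lf (nat_lit 0) (nat_lit 3088106276262) (nat_lit 152) (nat_lit 2423330834535) (nat_lit 0) (nat_lit 3087459658151) (nat_lit 1) (nat_lit 5) (nat_lit 3) (nat_lit 4) (nat_lit 1) (nat_lit 4) (nat_lit 460) (nat_lit 304)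 (nat_lit 256)) (XT.lf (nat_lit 0) (nat_lit 3336125048225) (nat_lit 152) (nat_lit 2615124305918) (nat_lit 0) (nat_lit 3335477208565) (nat_lit 1) (nat_lit 5) (nat_lit 3) (nat_lit 4) (nat_lit 1) (nat_lit 4) (nat_lit 461) (nat_lit 304) (nat_lit 255))) (XT.nd (nat_lit 78) (nat_lit 0) (nat_lit 0) (XT.lf (nat_lit 0) (nat_lit 20222118015) (nat_lit 152) (nat_lit 52270334921) (nat_lit 0) (nat_lit 20222118015) (nat_lit 1) (nat_lit 5) (nat_lit 3) (nat_lit 4) (nat_lit 1) (nat_lit 4) (nat_lit 410) (nat_lit 305) (nat_lit 305)) (XT.nd (nat_lit 78) (nat_lit 0) (nat_lit 0) (XT.lf (nat_lit 0) (nat_lit 46708367439) (nat_lit 152) (nat_lit 106652668200) (nat_lit 0) (nat_lit 46655318717) (nat_lit 1) (nat_lit 5) (nat_lit 3) (nat_lit 4) (nat_lit 1) (nat_lit 4) (nat_lit 411) (nat_lit 305) (nat_lit 304)) (XT.lf (nat_lit 0) (nat_lit 53323168949) (nat_lit 152) (nat_lit 109238422741) (nat_lit 0) (nat_lit 53221001040)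 (nat_lit 1) (nat_lit 5) (nat_lit 3) (nat_lit 4) (nat_lit 1) (nat_lit 4) (nat_lit 412) (nat_lit 305) (nat_lit 303))))) (XT.nd (nat_lit 156) (nat_lit 0) (nat_lit 0) (XT.nd (nat_lit 78) (nat_lit 0) (nat_lit 0) (XT.lf (nat_lit 0) (nat_lit 60327839385) (nat_lit 152) (nat_lit 112313256459) (nat_lit 0) (nat_lit 60180190747) (nat_lit 1) (nat_lit 5) (nat_lit 3) (nat_lit 4) (nat_lit 1) (nat_lit 4) (nat_lit 413) (nat_lit 305) (nat_lit 302)) (XT.lf (nat_lit 0) (nat_lit 67763887905) (nat_lit 152) (nat_lit 115895390588) (nat_lit 0) (nat_lit 67574127482) (nat_lit 1) (nat_lit 5) (nat_lit 3) (nat_lit 4) (nat_lit 1) (nat_lit 4) (nat_lit 414) (nat_lit 305) (nat_lit 301))) (XT.nd (nat_lit 78) (nat_lit 0) (nat_lit 0) (XT.lf (nat_lit 0) (nat_lit 75675379982) (nat_lit 152) (nat_lit 120006052591) (nat_lit 0) (nat_lit 75446627165) (nat_lit 1) (nat_lit 5) (nat_lit 3) (nat_lit 4) (nat_lit 1) (nat_lit 4) (nat_lit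 415) (nat_lit 305) (nat_lit 300)) (XT.nd (nat_lit 78) (nat_lit 0) (nat_lit 0) (XT.lf (nat_lit 0) (nat_lit 84109198532) (nat_lit 152) (nat_lit 124669601947) (nat_lit 0) (nat_lit 83844341646) (nat_lit 1) (nat_lit 5) (nat_lit 3) (nat_lit 4) (nat_lit 1) (nat_lit 4) (nat_lit 416) (nat_lit 305) (nat_lit 299)) (XT.lf (nat_lit 0) (nat_lit 93115321739) (nat_lit 152) (nat_lit 129913674502) (nat_lit 0) (nat_lit 92817035160) (nat_lit 1) (nat_lit 5) (nat_lit 3) (nat_lit 4) (nat_lit 1) (nat_lit 4) (nat_lit 417) (nat_lit 305) (nat_lit 298))))))))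
noncomputable def xc17 : XT := (XT.nd (nat_lit 1482) (nat_lit 0) (nat_lit 0) (XT.nd (nat_lit 702) (nat_lit 0) (nat_lit 0) (XT.nd (nat_lit 312) (nat_lit 0) (nat_lit 0) (XT.nd (nat_lit 156) (nat_lit 0) (nat_lit 0) (XT.nd (nat_lit 78) (nat_lit 0) (nat_lit 0) (XT.lf (nat_lit 0) (nat_lit 102747119223) (nat_lit 152) (nat_lit 135769346244) (nat_lit 0) (nat_lit 102417879224) (nat_lit 1) (nat_lit 5) (nat_lit 3) (nat_lit 4) (nat_lit 1) (nat_lit 4) (nat_lit 418) (nat_lit 305) (nat_lit 297)) (XT.lf (nat_lit 0) (nat_lit 113061668300) (nat_lit 152) (nat_lit 142271317448) (nat_lit 0) (nat_lit 112703767728) (nat_lit 1) (nat_lit 5) (nat_lit 3) (nat_lit 4) (nat_lit 1) (nat_lit 4) (nat_lit 419) (nat_lit 305) (nat_lit 296))) (XT.nd (nat_lit 78) (nat_lit 0) (nat_lit 0) (XT.lf (nat_lit 0) (nat_lit 124120092226) (nat_lit 152) (nat_lit 149458118314) (nat_lit 0) (nat_lit 123735654085) (nat_lit 1) (nat_lit 5) (nat_lit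 3) (nat_lit 4) (nat_lit 1) (nat_lit 4) (nat_lit 420) (nat_lit 305) (nat_lit 295)) (XT.lf (nat_lit 0) (nat_lit 135987922401) (nat_lit 152) (nat_lit 157372337293) (nat_lit 0) (nat_lit 135578912438) (nat_lit 1) (nat_lit 5) (nat_lit 3) (nat_lit 4) (nat_lit 1) (nat_lit 4) (nat_lit 421) (nat_lit 305) (nat_lit 294)))) (XT.nd (nat_lit 156) (nat_lit 0) (nat_lit 0) (XT.nd (nat_lit 78) (nat_lit 0) (nat_lit 0) (XT.lf (nat_lit 0) (nat_lit 148735486708) (nat_lit 152) (nat_lit 166060873459) (nat_lit 0) (nat_lit 148303725057) (nat_lit 1) (nat_lit 5) (nat_lit 3) (nat_lit 4) (nat_lit 1) (nat_lit 4) (nat_lit 422) (nat_lit 305) (nat_lit 293)) (XT.lf (nat_lit 0) (nat_lit 162438326268) (nat_lit 152) (nat_lit 175575214435) (nat_lit 0) (nat_lit 161985498240) (nat_lit 1) (nat_lit 5) (nat_lit 3) (nat_lit 4) (nat_lit 1) (nat_lit 4) (nat_lit 423) (nat_lit 305) (nat_lit 292))) (XT.nd (nat_lit 78) (nat_lit 0) (nat_lit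 0) (XT.lf (nat_lit 0) (nat_lit 177177643095) (nat_lit 152) (nat_lit 185971741499) (nat_lit 0) (nat_lit 176705309162) (nat_lit 1) (nat_lit 5) (nat_lit 3) (nat_lit 4) (nat_lit 1) (nat_lit 4) (nat_lit 424) (nat_lit 305) (nat_lit 291)) (XT.nd (nat_lit 78) (nat_lit 0) (nat_lit 0) (XT.lf (nat_lit 0) (nat_lit 193040781286) (nat_lit 152) (nat_lit 197312063702) (nat_lit 0) (nat_lit 192550386331) (nat_lit 1) (nat_lit 5) (nat_lit 3) (nat_lit 4) (nat_lit 1) (nat_lit 4) (nat_lit 425) (nat_lit 305) (nat_lit 290)) (XT.lf (nat_lit 0) (nat_lit 210121744626) (nat_lit 152) (nat_lit 209663382952) (nat_lit 0) (nat_lit 209614626500) (nat_lit 1) (nat_lit 5) (nat_lit 3) (nat_lit 4) (nat_lit 1) (nat_lit 4) (nat_lit 426) (nat_lit 305) (nat_lit 289)))))) (XT.nd (nat_lit 390) (nat_lit 0) (nat_lit 0) (XT.nd (nat_lit 156) (nat_lit 0) (nat_lit 0) (XT.nd (nat_lit 78) (nat_lit 0) (nat_lit 0) (XT.lf (nat_lit 0) (nat_lit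 228521753636) (nat_lit 152) (nat_lit 223098892254) (nat_lit 0) (nat_lit 227999151094) (nat_lit 1) (nat_lit 5) (nat_lit 3) (nat_lit 4) (nat_lit 1) (nat_lit 4) (nat_lit 427) (nat_lit 305) (nat_lit 288)) (XT.lf (nat_lit 0) (nat_lit 248349845407) (nat_lit 152) (nat_lit 237698209438) (nat_lit 0) (nat_lit 247812905443) (nat_lit 1) (nat_lit 5) (nat_lit 3) (nat_lit 4) (nat_lit 1) (nat_lit 4) (nat_lit 428) (nat_lit 305) (nat_lit 287))) (XT.nd (nat_lit 78) (nat_lit 0) (nat_lit 0) (XT.lf (nat_lit 0) (nat_lit 269723519743) (nat_lit 152) (nat_lit 253547848979) (nat_lit 0) (nat_lit 269173304388) (nat_lit 1) (nat_lit 5) (nat_lit 3) (nat_lit 4) (nat_lit 1) (nat_lit 4) (nat_lit 429) (nat_lit 305) (nat_lit 286)) (XT.nd (nat_lit 78) (nat_lit 0) (nat_lit 0) (XT.lf (nat_lit 0) (nat_lit 292769435454) (nat_lit 152) (nat_lit 270741734665) (nat_lit 0) (nat_lit 292206928070) (nat_lit 1) (nat_lit 5) (nat_lit 3)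 (nat_lit 4) (nat_lit 1) (nat_lit 4) (nat_lit 430) (nat_lit 305) (nat_lit 285)) (XT.lf (nat_lit 0) (nat_lit 317624160929) (nat_lit 152) (nat_lit 289381756190) (nat_lit 0) (nat_lit 317050272037) (nat_lit 1) (nat_lit 5) (nat_lit 3) (nat_lit 4) (nat_lit 1) (nat_lit 4) (nat_lit 431) (nat_lit 305) (nat_lit 284))))) (XT.nd (nat_lit 156) (nat_lit 0) (nat_lit 0) (XT.nd (nat_lit 78) (nat_lit 0) (nat_lit 0) (XT.lf (nat_lit 0) (nat_lit 344434983432) (nat_lit 152) (nat_lit 309578372940) (nat_lit 0) (nat_lit 343850556106) (nat_lit 1) (nat_lit 5) (nat_lit 3) (nat_lit 4) (nat_lit 1) (nat_lit 4) (nat_lit 432) (nat_lit 305) (nat_lit 283)) (XT.lf (nat_lit 0) (nat_lit 373360781909) (nat_lit 152) (nat_lit 331451268570) (nat_lit 0) (nat_lit 372766596775) (nat_lit 1) (nat_lit 5) (nat_lit 3) (nat_lit 4) (nat_lit 1) (nat_lit 4) (nat_lit 433) (nat_lit 305) (nat_lit 282))) (XT.nd (nat_lit 78) (nat_lit 0) (nat_lit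 0) (XT.lf (nat_lit 0) (nat_lit 404572968501) (nat_lit 152) (nat_lit 355130060240) (nat_lit 0) (nat_lit 403969748358) (nat_lit 1) (nat_lit 5) (nat_lit 3) (nat_lit 4) (nat_lit 1) (nat_lit 4) (nat_lit 434) (nat_lit 305) (nat_lit 281)) (XT.nd (nat_lit 78) (nat_lit 0) (nat_lit 0) (XT.lf (nat_lit 0) (nat_lit 438256504312) (nat_lit 152) (nat_lit 380755066714) (nat_lit 0) (nat_lit 437644918421) (nat_lit 1) (nat_lit 5) (nat_lit 3) (nat_lit 4) (nat_lit 1) (nat_lit 4) (nat_lit 435) (nat_lit 305) (nat_lit 280)) (XT.lf (nat_lit 0) (nat_lit 474610995481) (nat_lit 152) (nat_lit 408478139884) (nat_lit 0) (nat_lit 473991663527) (nat_lit 1) (nat_lit 5) (nat_lit 3) (nat_lit 4) (nat_lit 1) (nat_lit 4) (nat_lit 436) (nat_lit 305) (nat_lit 279))))))) (XT.nd (nat_lit 780) (nat_lit 0) (nat_lit 0) (XT.nd (nat_lit 390) (nat_lit 0) (nat_lit 0) (XT.nd (nat_lit 156) (nat_lit 0) (nat_lit 0) (XT.nd (nat_lit 78) (nat_lit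 0) (nat_lit 0) (XT.lf (nat_lit 0) (nat_lit 513851876030) (nat_lit 152) (nat_lit 438463564627) (nat_lit 0) (nat_lit 513225371795) (nat_lit 1) (nat_lit 5) (nat_lit 3) (nat_lit 4) (nat_lit 1) (nat_lit 4) (nat_lit 437) (nat_lit 305) (nat_lit 278)) (XT.lf (nat_lit 0) (nat_lit 556211684509) (nat_lit 152) (nat_lit 470889032350) (nat_lit 0) (nat_lit 555578539274) (nat_lit 1) (nat_lit 5) (nat_lit 3) (nat_lit 4) (nat_lit 1) (nat_lit 4) (nat_lit 438) (nat_lit 305) (nat_lit 277))) (XT.nd (nat_lit 78) (nat_lit 0) (nat_lit 0) (XT.lf (nat_lit 0) (nat_lit 601941442008) (nat_lit 152) (nat_lit 505946693971) (nat_lit 0) (nat_lit 601302147697) (nat_lit 1) (nat_lit 5) (nat_lit 3) (nat_lit 4) (nat_lit 1) (nat_lit 4) (nat_lit 439) (nat_lit 305) (nat_lit 276)) (XT.nd (nat_lit 78) (nat_lit 0) (nat_lit 0) (XT.lf (nat_lit 0) (nat_lit 651312139680) (nat_lit 152) (nat_lit 543844298597) (nat_lit 0) (nat_lit 650667151782)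 (nat_lit 1) (nat_lit 5) (nat_lit 3) (nat_lit 4) (nat_lit 1) (nat_lit 4) (nat_lit 440) (nat_lit 305) (nat_lit 275)) (XT.lf (nat_lit 0) (nat_lit 704616344623) (nat_lit 152) (nat_lit 584806424626) (nat_lit 0) (nat_lit 703966084884) (nat_lit 1) (nat_lit 5) (nat_lit 3) (nat_lit 4) (nat_lit 1) (nat_lit 4) (nat_lit 441) (nat_lit 305) (nat_lit 274))))) (XT.nd (nat_lit 156) (nat_lit 0) (nat_lit 0) (XT.nd (nat_lit 78) (nat_lit 0) (nat_lit 0) (XT.lf (nat_lit 0) (nat_lit 762169933607) (nat_lit 152) (nat_lit 629075810581) (nat_lit 0) (nat_lit 761514792535) (nat_lit 1) (nat_lit 5) (nat_lit 3) (nat_lit 4) (nat_lit 1) (nat_lit 4) (nat_lit 442) (nat_lit 305) (nat_lit 273)) (XT.lf (nat_lit 0) (nat_lit 824313964938) (nat_lit 152) (nat_lit 676914793566) (nat_lit 0) (nat_lit 823654304112) (nat_lit 1) (nat_lit 5) (nat_lit 3) (nat_lit 4) (nat_lit 1) (nat_lit 4) (nat_lit 443) (nat_lit 305) (nat_lit 272))) (XT.nd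 (nat_lit 78) (nat_lit 0) (nat_lit 0) (XT.lf (nat_lit 0) (nat_lit 891416699541) (nat_lit 152) (nat_lit 728606863850) (nat_lit 0) (nat_lit 890752853759) (nat_lit 1) (nat_lit 5) (nat_lit 3) (nat_lit 4) (nat_lit 1) (nat_lit 4) (nat_lit 444) (nat_lit 305) (nat_lit 271)) (XT.nd (nat_lit 78) (nat_lit 0) (nat_lit 0) (XT.lf (nat_lit 0) (nat_lit 963875783252) (nat_lit 152) (nat_lit 784458344812) (nat_lit 0) (nat_lit 963208062510) (nat_lit 1) (nat_lit 5) (nat_lit 3) (nat_lit 4) (nat_lit 1) (nat_lit 4) (nat_lit 445) (nat_lit 305) (nat_lit 270)) (XT.lf (nat_lit 0) (nat_lit 1042120603234) (nat_lit 152) (nat_lit 844800208191) (nat_lit 0) (nat_lit 1041449294565) (nat_lit 1) (nat_lit 5) (nat_lit 3) (nat_lit 4) (nat_lit 1) (nat_lit 4) (nat_lit 446) (nat_lit 305) (nat_lit 269)))))) (XT.nd (nat_lit 390) (nat_lit 0) (nat_lit 0) (XT.nd (nat_lit 156) (nat_lit 0) (nat_lit 0) (XT.nd (nat_lit 78) (nat_lit 0) (nat_lit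 0) (XT.lf (nat_lit 0) (nat_lit 1126614832492) (nat_lit 152) (nat_lit 909990035401) (nat_lit 0) (nat_lit 1125940201670) (nat_lit 1) (nat_lit 5) (nat_lit 3) (nat_lit 4) (nat_lit 1) (nat_lit 4) (nat_lit 447) (nat_lit 305) (nat_lit 268)) (XT.lf (nat_lit 0) (nat_lit 1217859177572) (nat_lit 152) (nat_lit 980414136527) (nat_lit 0) (nat_lit 1217181470681) (nat_lit 1) (nat_lit 5) (nat_lit 3) (nat_lit 4) (nat_lit 1) (nat_lit 4) (nat_lit 448) (nat_lit 305) (nat_lit 267))) (XT.nd (nat_lit 78) (nat_lit 0) (nat_lit 0) (XT.lf (nat_lit 0) (nat_lit 1316394345703) (nat_lit 152) (nat_lit 1056489839576) (nat_lit 0) (nat_lit 1315713790601) (nat_lit 1) (nat_lit 5) (nat_lit 3) (nat_lit 4) (nat_lit 1) (nat_lit 4) (nat_lit 449) (nat_lit 305) (nat_lit 266)) (XT.nd (nat_lit 78) (nat_lit 0) (nat_lit 0) (XT.lf (nat_lit 0) (nat_lit 1422804248993) (nat_lit 152) (nat_lit 1138667963531) (nat_lit 0) (nat_lit 1422121056658)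 (nat_lit 1) (nat_lit 5) (nat_lit 3) (nat_lit 4) (nat_lit 1) (nat_lit 4) (nat_lit 450) (nat_lit 305) (nat_lit 265)) (XT.lf (nat_lit 0) (nat_lit 1537719464646) (nat_lit 152) (nat_lit 1227435489866) (nat_lit 0) (nat_lit 1537033830429) (nat_lit 1) (nat_lit 5) (nat_lit 3) (nat_lit 4) (nat_lit 1) (nat_lit 4) (nat_lit 451) (nat_lit 305) (nat_lit 264))))) (XT.nd (nat_lit 156) (nat_lit 0) (nat_lit 0) (XT.nd (nat_lit 78) (nat_lit 0) (nat_lit 0) (XT.lf (nat_lit 0) (nat_lit 1661820971718) (nat_lit 152) (nat_lit 1323318448366) (nat_lit 0) (nat_lit 1661133076499) (nat_lit 1) (nat_lit 5) (nat_lit 3) (nat_lit 4) (nat_lit 1) (nat_lit 4) (nat_lit 452) (nat_lit 305) (nat_lit 263)) (XT.lf (nat_lit 0) (nat_lit 1795844186548) (nat_lit 152) (nat_lit 1426885034341) (nat_lit 0) (nat_lit 1795154197808) (nat_lit 1) (nat_lit 5) (nat_lit 3) (nat_lit 4) (nat_lit 1) (nat_lit 4) (nat_lit 453) (nat_lit 305) (nat_lit 262)))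 (XT.nd (nat_lit 78) (nat_lit 0) (nat_lit 0) (XT.lf (nat_lit 0) (nat_lit 1940583320778) (nat_lit 152) (nat_lit 1538748975709) (nat_lit 0) (nat_lit 1939891393594) (nat_lit 1) (nat_lit 5) (nat_lit 3) (nat_lit 4) (nat_lit 1) (nat_lit 4) (nat_lit 454) (nat_lit 305) (nat_lit 261)) (XT.nd (nat_lit 78) (nat_lit 0) (nat_lit 0) (XT.lf (nat_lit 0) (nat_lit 2096896087798) (nat_lit 152) (nat_lit 1659573169899) (nat_lit 0) (nat_lit 2096202365757) (nat_lit 1) (nat_lit 5) (nat_lit 3) (nat_lit 4) (nat_lit 1) (nat_lit 4) (nat_lit 455) (nat_lit 305) (nat_lit 260)) (XT.lf (nat_lit 0) (nat_lit 2265708785484) (nat_lit 152) (nat_lit 1790073612137) (nat_lit 0) (nat_lit 2265013401540) (nat_lit 1) (nat_lit 5) (nat_lit 3) (nat_lit 4) (nat_lit 1) (nat_lit 4) (nat_lit 456) (nat_lit 305) (nat_lit 259))))))))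
noncomputable def xc18 : XT := (XT.nd (nat_lit 50388) (nat_lit 0) (nat_lit 0) (XT.nd (nat_lit 49608) (nat_lit 0) (nat_lit 0) (XT.nd (nat_lit 312) (nat_lit 0) (nat_lit 0) (XT.nd (nat_lit 156) (nat_lit 0) (nat_lit 0) (XT.nd (nat_lit 78) (nat_lit 0) (nat_lit 0) (XT.lf (nat_lit 0) (nat_lit 2448021785380) (nat_lit 152) (nat_lit 1931023638376) (nat_lit 0) (nat_lit 2447324862636) (nat_lit 1) (nat_lit 5) (nat_lit 3) (nat_lit 4) (nat_lit 1) (nat_lit 4) (nat_lit 457) (nat_lit 305) (nat_lit 258)) (XT.lf (nat_lit 0) (nat_lit 2644915460818) (nat_lit 152) (nat_lit 2083258508032) (nat_lit 0) (nat_lit 2644217113259) (nat_lit 1) (nat_lit 5) (nat_lit 3) (nat_lit 4) (nat_lit 1) (nat_lit 4) (nat_lit 458) (nat_lit 305) (nat_lit 257))) (XT.nd (nat_lit 78) (nat_lit 0) (nat_lit 0) (XT.lf (nat_lit 0) (nat_lit 2857556589134) (nat_lit 152) (nat_lit 2247680353664) (nat_lit 0) (nat_lit 2856856922302) (nat_lit 1) (nat_lit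 5) (nat_lit 3) (nat_lit 4) (nat_lit 1) (nat_lit 4) (nat_lit 459) (nat_lit 305) (nat_lit 256)) (XT.lf (nat_lit 0) (nat_lit 3087205265904) (nat_lit 152) (nat_lit 2425263526951) (nat_lit 0) (nat_lit 3086504377522) (nat_lit 1) (nat_lit 5) (nat_lit 3) (nat_lit 4) (nat_lit 1) (nat_lit 4) (nat_lit 460) (nat_lit 305) (nat_lit 255)))) (XT.nd (nat_lit 49062) (nat_lit 0) (nat_lit 0) (XT.nd (nat_lit 48984) (nat_lit 0) (nat_lit 0) (XT.lf (nat_lit 0) (nat_lit 3335222372174) (nat_lit 152) (nat_lit 2617060372624) (nat_lit 0) (nat_lit 3334520352728) (nat_lit 1) (nat_lit 5) (nat_lit 3) (nat_lit 4) (nat_lit 1) (nat_lit 4) (nat_lit 461) (nat_lit 305) (nat_lit 254)) (XT.lf (nat_lit 0) (nat_lit 14481512333) (nat_lit 152) (nat_lit 50759846192) (nat_lit 0) (nat_lit 14481512333) (nat_lit 1) (nat_lit 5) (nat_lit 3) (nat_lit 4) (nat_lit 1) (nat_lit 4) (nat_lit 408) (nat_lit 306) (nat_lit 306))) (XT.nd (nat_lit 78)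 (nat_lit 0) (nat_lit 0) (XT.lf (nat_lit 0) (nat_lit 34550946567) (nat_lit 152) (nat_lit 102889912126) (nat_lit 0) (nat_lit 34493653947) (nat_lit 1) (nat_lit 5) (nat_lit 3) (nat_lit 4) (nat_lit 1) (nat_lit 4) (nat_lit 409) (nat_lit 306) (nat_lit 305)) (XT.nd (nat_lit 78) (nat_lit 0) (nat_lit 0) (XT.lf (nat_lit 0) (nat_lit 40423404976) (nat_lit 152) (nat_lit 104698929469) (nat_lit 0) (nat_lit 40313063635) (nat_lit 1) (nat_lit 5) (nat_lit 3) (nat_lit 4) (nat_lit 1) (nat_lit 4) (nat_lit 410) (nat_lit 306) (nat_lit 304)) (XT.lf (nat_lit 0) (nat_lit 46615199648) (nat_lit 152) (nat_lit 106957464516) (nat_lit 0) (nat_lit 46455739120) (nat_lit 1) (nat_lit 5) (nat_lit 3) (nat_lit 4) (nat_lit 1) (nat_lit 4) (nat_lit 411) (nat_lit 306) (nat_lit 303)))))) (XT.nd (nat_lit 390) (nat_lit 0) (nat_lit 0) (XT.nd (nat_lit 156) (nat_lit 0) (nat_lit 0) (XT.nd (nat_lit 78) (nat_lit 0) (nat_lit 0) (XT.lf (nat_lit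 0) (nat_lit 53163022699) (nat_lit 152) (nat_lit 109678901180) (nat_lit 0) (nat_lit 52958081442) (nat_lit 1) (nat_lit 5) (nat_lit 3) (nat_lit 4) (nat_lit 1) (nat_lit 4) (nat_lit 412) (nat_lit 306) (nat_lit 302)) (XT.lf (nat_lit 0) (nat_lit 60105676043) (nat_lit 152) (nat_lit 112879366490) (nat_lit 0) (nat_lit 59858623001) (nat_lit 1) (nat_lit 5) (nat_lit 3) (nat_lit 4) (nat_lit 1) (nat_lit 4) (nat_lit 413) (nat_lit 306) (nat_lit 301))) (XT.nd (nat_lit 78) (nat_lit 0) (nat_lit 0) (XT.lf (nat_lit 0) (nat_lit 67484301331) (nat_lit 152) (nat_lit 116577826170) (nat_lit 0) (nat_lit 67198255894) (nat_lit 1) (nat_lit 5) (nat_lit 3) (nat_lit 4) (nat_lit 1) (nat_lit 4) (nat_lit 414) (nat_lit 306) (nat_lit 300)) (XT.nd (nat_lit 78) (nat_lit 0) (nat_lit 0) (XT.lf (nat_lit 0) (nat_lit 75342623748) (nat_lit 152) (nat_lit 120796197015) (nat_lit 0) (nat_lit 75020474242) (nat_lit 1) (nat_lit 5) (nat_lit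 3) (nat_lit 4) (nat_lit 1) (nat_lit 4) (nat_lit 415) (nat_lit 306) (nat_lit 299)) (XT.lf (nat_lit 0) (nat_lit 83727211131) (nat_lit 152) (nat_lit 125559476780) (nat_lit 0) (nat_lit 83371631932) (nat_lit 1) (nat_lit 5) (nat_lit 3) (nat_lit 4) (nat_lit 1) (nat_lit 4) (nat_lit 416) (nat_lit 306) (nat_lit 298))))) (XT.nd (nat_lit 156) (nat_lit 0) (nat_lit 0) (XT.nd (nat_lit 78) (nat_lit 0) (nat_lit 0) (XT.lf (nat_lit 0) (nat_lit 92687749924) (nat_lit 152) (nat_lit 130895892307) (nat_lit 0) (nat_lit 92301217306) (nat_lit 1) (nat_lit 5) (nat_lit 3) (nat_lit 4) (nat_lit 1) (nat_lit 4) (nat_lit 417) (nat_lit 306) (nat_lit 297)) (XT.lf (nat_lit 0) (nat_lit 102277339617) (nat_lit 152) (nat_lit 136837066800) (nat_lit 0) (nat_lit 101862146425) (nat_lit 1) (nat_lit 5) (nat_lit 3) (nat_lit 4) (nat_lit 1) (nat_lit 4) (nat_lit 418) (nat_lit 306) (nat_lit 296))) (XT.nd (nat_lit 78) (nat_lit 0) (nat_lit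 0) (XT.lf (nat_lit 0) (nat_lit 112552807407) (nat_lit 152) (nat_lit 143418207219) (nat_lit 0) (nat_lit 112111076647) (nat_lit 1) (nat_lit 5) (nat_lit 3) (nat_lit 4) (nat_lit 1) (nat_lit 4) (nat_lit 419) (nat_lit 306) (nat_lit 295)) (XT.nd (nat_lit 78) (nat_lit 0) (nat_lit 0) (XT.lf (nat_lit 0) (nat_lit 123575044956) (nat_lit 152) (nat_lit 150678312914) (nat_lit 0) (nat_lit 123108742373) (nat_lit 1) (nat_lit 5) (nat_lit 3) (nat_lit 4) (nat_lit 1) (nat_lit 4) (nat_lit 420) (nat_lit 306) (nat_lit 294)) (XT.lf (nat_lit 0) (nat_lit 135409369226) (nat_lit 152) (nat_lit 158660406734) (nat_lit 0) (nat_lit 134920314956) (nat_lit 1) (nat_lit 5) (nat_lit 3) (nat_lit 4) (nat_lit 1) (nat_lit 4) (nat_lit 421) (nat_lit 306) (nat_lit 293))))))) (XT.nd (nat_lit 780) (nat_lit 0) (nat_lit 0) (XT.nd (nat_lit 390) (nat_lit 0) (nat_lit 0) (XT.nd (nat_lit 156) (nat_lit 0) (nat_lit 0) (XT.nd (nat_lit 78) (nat_lit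 0) (nat_lit 0) (XT.lf (nat_lit 0) (nat_lit 148125909547) (nat_lit 152) (nat_lit 167411789975) (nat_lit 0) (nat_lit 147615788899) (nat_lit 1) (nat_lit 5) (nat_lit 3) (nat_lit 4) (nat_lit 1) (nat_lit 4) (nat_lit 422) (nat_lit 306) (nat_lit 292)) (XT.lf (nat_lit 0) (nat_lit 161800023194) (nat_lit 152) (nat_lit 176984322686) (nat_lit 0) (nat_lit 161270396642) (nat_lit 1) (nat_lit 5) (nat_lit 3) (nat_lit 4) (nat_lit 1) (nat_lit 4) (nat_lit 423) (nat_lit 306) (nat_lit 291))) (XT.nd (nat_lit 78) (nat_lit 0) (nat_lit 0) (XT.lf (nat_lit 0) (nat_lit 176512741953) (nat_lit 152) (nat_lit 187434730988) (nat_lit 0) (nat_lit 175965054377) (nat_lit 1) (nat_lit 5) (nat_lit 3) (nat_lit 4) (nat_lit 1) (nat_lit 4) (nat_lit 424) (nat_lit 306) (nat_lit 290)) (XT.nd (nat_lit 78) (nat_lit 0) (nat_lit 0) (XT.lf (nat_lit 0) (nat_lit 192351252304) (nat_lit 152) (nat_lit 198824943225) (nat_lit 0) (nat_lit 191786841559)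 (nat_lit 1) (nat_lit 5) (nat_lit 3) (nat_lit 4) (nat_lit 1) (nat_lit 4) (nat_lit 425) (nat_lit 306) (nat_lit 289)) (XT.lf (nat_lit 0) (nat_lit 209409412087) (nat_lit 152) (nat_lit 211222456952) (nat_lit 0) (nat_lit 208829516926) (nat_lit 1) (nat_lit 5) (nat_lit 3) (nat_lit 4) (nat_lit 1) (nat_lit 4) (nat_lit 426) (nat_lit 306) (nat_lit 288))))) (XT.nd (nat_lit 156) (nat_lit 0) (nat_lit 0) (XT.nd (nat_lit 78) (nat_lit 0) (nat_lit 0) (XT.lf (nat_lit 0) (nat_lit 227788306694) (nat_lit 152) (nat_lit 224700738916) (nat_lit 0) (nat_lit 227194074110) (nat_lit 1) (nat_lit 5) (nat_lit 3) (nat_lit 4) (nat_lit 1) (nat_lit 4) (nat_lit 427) (nat_lit 306) (nat_lit 287)) (XT.lf (nat_lit 0) (nat_lit 247596848091) (nat_lit 152) (nat_lit 239339660418) (nat_lit 0) (nat_lit 246989340117) (nat_lit 1) (nat_lit 5) (nat_lit 3) (nat_lit 4) (nat_lit 1) (nat_lit 4) (nat_lit 428) (nat_lit 306) (nat_lit 286))) (XT.nd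 (nat_lit 78) (nat_lit 0) (nat_lit 0) (XT.lf (nat_lit 0) (nat_lit 268952420229) (nat_lit 152) (nat_lit 255225970624) (nat_lit 0) (nat_lit 268332620226) (nat_lit 1) (nat_lit 5) (nat_lit 3) (nat_lit 4) (nat_lit 1) (nat_lit 4) (nat_lit 429) (nat_lit 306) (nat_lit 285)) (XT.nd (nat_lit 78) (nat_lit 0) (nat_lit 0) (XT.lf (nat_lit 0) (nat_lit 291981574646) (nat_lit 152) (nat_lit 272453810629) (nat_lit 0) (nat_lit 291350393134) (nat_lit 1) (nat_lit 5) (nat_lit 3) (nat_lit 4) (nat_lit 1) (nat_lit 4) (nat_lit 430) (nat_lit 306) (nat_lit 284)) (XT.lf (nat_lit 0) (nat_lit 316820780405) (nat_lit 152) (nat_lit 291125271338) (nat_lit 0) (nat_lit 316179060460) (nat_lit 1) (nat_lit 5) (nat_lit 3) (nat_lit 4) (nat_lit 1) (nat_lit 4) (nat_lit 431) (nat_lit 306) (nat_lit 283)))))) (XT.nd (nat_lit 390) (nat_lit 0) (nat_lit 0) (XT.nd (nat_lit 156) (nat_lit 0) (nat_lit 0) (XT.nd (nat_lit 78) (nat_lit 0) (nat_lit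 0) (XT.lf (nat_lit 0) (nat_lit 343617232799) (nat_lit 152) (nat_lit 311350998444) (nat_lit 0) (nat_lit 342965755045) (nat_lit 1) (nat_lit 5) (nat_lit 3) (nat_lit 4) (nat_lit 1) (nat_lit 4) (nat_lit 432) (nat_lit 306) (nat_lit 282)) (XT.lf (nat_lit 0) (nat_lit 372529725620) (nat_lit 152) (nat_lit 333250848107) (nat_lit 0) (nat_lit 371869212858) (nat_lit 1) (nat_lit 5) (nat_lit 3) (nat_lit 4) (nat_lit 1) (nat_lit 4) (nat_lit 433) (nat_lit 306) (nat_lit 281))) (XT.nd (nat_lit 78) (nat_lit 0) (nat_lit 0) (XT.lf (nat_lit 0) (nat_lit 403729592160) (nat_lit 152) (nat_lit 356954597215) (nat_lit 0) (nat_lit 403060713650) (nat_lit 1) (nat_lit 5) (nat_lit 3) (nat_lit 4) (nat_lit 1) (nat_lit 4) (nat_lit 434) (nat_lit 306) (nat_lit 280)) (XT.nd (nat_lit 78) (nat_lit 0) (nat_lit 0) (XT.lf (nat_lit 0) (nat_lit 437401720516) (nat_lit 152) (nat_lit 382602712429) (nat_lit 0) (nat_lit 436725095942) (nat_lit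 1) (nat_lit 5) (nat_lit 3) (nat_lit 4) (nat_lit 1) (nat_lit 4) (nat_lit 435) (nat_lit 306) (nat_lit 279)) (XT.lf (nat_lit 0) (nat_lit 473745649227) (nat_lit 152) (nat_lit 410347182579) (nat_lit 0) (nat_lit 473061852372) (nat_lit 1) (nat_lit 5) (nat_lit 3) (nat_lit 4) (nat_lit 1) (nat_lit 4) (nat_lit 436) (nat_lit 306) (nat_lit 278))))) (XT.nd (nat_lit 156) (nat_lit 0) (nat_lit 0) (XT.nd (nat_lit 78) (nat_lit 0) (nat_lit 0) (XT.lf (nat_lit 0) (nat_lit 512976749721) (nat_lit 152) (nat_lit 440352419342) (nat_lit 0) (nat_lit 512286311866) (nat_lit 1) (nat_lit 5) (nat_lit 3) (nat_lit 4) (nat_lit 1) (nat_lit 4) (nat_lit 437) (nat_lit 306) (nat_lit 277)) (XT.lf (nat_lit 0) (nat_lit 555327502595) (nat_lit 152) (nat_lit 472796231526) (nat_lit 0) (nat_lit 554630915665) (nat_lit 1) (nat_lit 5) (nat_lit 3) (nat_lit 4) (nat_lit 1) (nat_lit 4) (nat_lit 438) (nat_lit 306) (nat_lit 276))) (XT.nd (nat_lit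 78) (nat_lit 0) (nat_lit 0) (XT.lf (nat_lit 0) (nat_lit 601048875273) (nat_lit 152) (nat_lit 507870878760) (nat_lit 0) (nat_lit 600346594755) (nat_lit 1) (nat_lit 5) (nat_lit 3) (nat_lit 4) (nat_lit 1) (nat_lit 4) (nat_lit 439) (nat_lit 306) (nat_lit 275)) (XT.nd (nat_lit 78) (nat_lit 0) (nat_lit 0) (XT.lf (nat_lit 0) (nat_lit 650411809223) (nat_lit 152) (nat_lit 545784210806) (nat_lit 0) (nat_lit 649704256865) (nat_lit 1) (nat_lit 5) (nat_lit 3) (nat_lit 4) (nat_lit 1) (nat_lit 4) (nat_lit 440) (nat_lit 306) (nat_lit 274)) (XT.lf (nat_lit 0) (nat_lit 703708825534) (nat_lit 152) (nat_lit 586760899260) (nat_lit 0) (nat_lit 702996391842) (nat_lit 1) (nat_lit 5) (nat_lit 3) (nat_lit 4) (nat_lit 1) (nat_lit 4) (nat_lit 441) (nat_lit 306) (nat_lit 273))))))))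
noncomputable def xc19 : XT := (XT.nd (nat_lit 1482) (nat_lit 0) (nat_lit 0) (XT.nd (nat_lit 702) (nat_lit 0) (nat_lit 0) (XT.nd (nat_lit 312) (nat_lit 0) (nat_lit 0) (XT.nd (nat_lit 156) (nat_lit 0) (nat_lit 0) (XT.nd (nat_lit 78) (nat_lit 0) (nat_lit 0) (XT.lf (nat_lit 0) (nat_lit 761255758378) (nat_lit 152) (nat_lit 631043768943) (nat_lit 0) (nat_lit 760538804933) (nat_lit 1) (nat_lit 5) (nat_lit 3) (nat_lit 4) (nat_lit 1) (nat_lit 4) (nat_lit 442) (nat_lit 306) (nat_lit 272)) (XT.lf (nat_lit 0) (nat_lit 823393626615) (nat_lit 152) (nat_lit 678895236861) (nat_lit 0) (nat_lit 822672488213) (nat_lit 1) (nat_lit 5) (nat_lit 3) (nat_lit 4) (nat_lit 1) (nat_lit 4) (nat_lit 443) (nat_lit 306) (nat_lit 271))) (XT.nd (nat_lit 78) (nat_lit 0) (nat_lit 0) (XT.lf (nat_lit 0) (nat_lit 890490654651) (nat_lit 152) (nat_lit 730598867267) (nat_lit 0) (nat_lit 889765641289) (nat_lit 1) (nat_lit 5) (nat_lit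 3) (nat_lit 4) (nat_lit 1) (nat_lit 4) (nat_lit 444) (nat_lit 306) (nat_lit 270)) (XT.lf (nat_lit 0) (nat_lit 962944454503) (nat_lit 152) (nat_lit 786461052047) (nat_lit 0) (nat_lit 962215853215) (nat_lit 1) (nat_lit 5) (nat_lit 3) (nat_lit 4) (nat_lit 1) (nat_lit 4) (nat_lit 445) (nat_lit 306) (nat_lit 269)))) (XT.nd (nat_lit 156) (nat_lit 0) (nat_lit 0) (XT.nd (nat_lit 78) (nat_lit 0) (nat_lit 0) (XT.lf (nat_lit 0) (nat_lit 1041184382022) (nat_lit 152) (nat_lit 846812826368) (nat_lit 0) (nat_lit 1040452458580) (nat_lit 1) (nat_lit 5) (nat_lit 3) (nat_lit 4) (nat_lit 1) (nat_lit 4) (nat_lit 446) (nat_lit 306) (nat_lit 268)) (XT.lf (nat_lit 0) (nat_lit 1125674081223) (nat_lit 152) (nat_lit 912011830375) (nat_lit 0) (nat_lit 1124939081713) (nat_lit 1) (nat_lit 5) (nat_lit 3) (nat_lit 4) (nat_lit 1) (nat_lit 4) (nat_lit 447) (nat_lit 306) (nat_lit 267))) (XT.nd (nat_lit 78) (nat_lit 0) (nat_lit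 0) (XT.lf (nat_lit 0) (nat_lit 1216914231805) (nat_lit 152) (nat_lit 982444428537) (nat_lit 0) (nat_lit 1216176384084) (nat_lit 1) (nat_lit 5) (nat_lit 3) (nat_lit 4) (nat_lit 1) (nat_lit 4) (nat_lit 448) (nat_lit 306) (nat_lit 266)) (XT.nd (nat_lit 78) (nat_lit 0) (nat_lit 0) (XT.lf (nat_lit 0) (nat_lit 1315445516142) (nat_lit 152) (nat_lit 1058527999212) (nat_lit 0) (nat_lit 1314705031188) (nat_lit 1) (nat_lit 5) (nat_lit 3) (nat_lit 4) (nat_lit 1) (nat_lit 4) (nat_lit 449) (nat_lit 306) (nat_lit 265)) (XT.lf (nat_lit 0) (nat_lit 1421851823326) (nat_lit 152) (nat_lit 1140713408005) (nat_lit 0) (nat_lit 1421108896490) (nat_lit 1) (nat_lit 5) (nat_lit 3) (nat_lit 4) (nat_lit 1) (nat_lit 4) (nat_lit 450) (nat_lit 306) (nat_lit 264)))))) (XT.nd (nat_lit 390) (nat_lit 0) (nat_lit 0) (XT.nd (nat_lit 156) (nat_lit 0) (nat_lit 0) (XT.nd (nat_lit 78) (nat_lit 0) (nat_lit 0) (XT.lf (nat_lit 0)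 (nat_lit 1536763709252) (nat_lit 152) (nat_lit 1229487679560) (nat_lit 0) (nat_lit 1536018521413) (nat_lit 1) (nat_lit 5) (nat_lit 3) (nat_lit 4) (nat_lit 1) (nat_lit 4) (nat_lit 451) (nat_lit 306) (nat_lit 263)) (XT.lf (nat_lit 0) (nat_lit 1660862133243) (nat_lit 152) (nat_lit 1325376883635) (nat_lit 0) (nat_lit 1660114851884) (nat_lit 1) (nat_lit 5) (nat_lit 3) (nat_lit 4) (nat_lit 1) (nat_lit 4) (nat_lit 452) (nat_lit 306) (nat_lit 262))) (XT.nd (nat_lit 78) (nat_lit 0) (nat_lit 0) (XT.lf (nat_lit 0) (nat_lit 1794882493369) (nat_lit 152) (nat_lit 1428949252550) (nat_lit 0) (nat_lit 1794133273565) (nat_lit 1) (nat_lit 5) (nat_lit 3) (nat_lit 4) (nat_lit 1) (nat_lit 4) (nat_lit 453) (nat_lit 306) (nat_lit 261)) (XT.nd (nat_lit 78) (nat_lit 0) (nat_lit 0) (XT.lf (nat_lit 0) (nat_lit 1939618984354) (nat_lit 152) (nat_lit 1540818548491) (nat_lit 0) (nat_lit 1938867969694) (nat_lit 1) (nat_lit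 5) (nat_lit 3) (nat_lit 4) (nat_lit 1) (nat_lit 4) (nat_lit 454) (nat_lit 306) (nat_lit 260)) (XT.lf (nat_lit 0) (nat_lit 2095929303924) (nat_lit 152) (nat_lit 1661647700620) (nat_lit 0) (nat_lit 2095176627360) (nat_lit 1) (nat_lit 5) (nat_lit 3) (nat_lit 4) (nat_lit 1) (nat_lit 4) (nat_lit 455) (nat_lit 306) (nat_lit 259))))) (XT.nd (nat_lit 156) (nat_lit 0) (nat_lit 0) (XT.nd (nat_lit 78) (nat_lit 0) (nat_lit 0) (XT.lf (nat_lit 0) (nat_lit 2264739735454) (nat_lit 152) (nat_lit 1792152733542) (nat_lit 0) (nat_lit 2263985520090) (nat_lit 1) (nat_lit 5) (nat_lit 3) (nat_lit 4) (nat_lit 1) (nat_lit 4) (nat_lit 456) (nat_lit 306) (nat_lit 258)) (XT.lf (nat_lit 0) (nat_lit 2447050637057) (nat_lit 152) (nat_lit 1933107010414) (nat_lit 0) (nat_lit 2446294996879) (nat_lit 1) (nat_lit 5) (nat_lit 3) (nat_lit 4) (nat_lit 1) (nat_lit 4) (nat_lit 457) (nat_lit 306) (nat_lit 257))) (XT.nd (nat_lit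 78) (nat_lit 0) (nat_lit 0) (XT.lf (nat_lit 0) (nat_lit 2643942369632) (nat_lit 152) (nat_lit 2085345815841) (nat_lit 0) (nat_lit 2643185410180) (nat_lit 1) (nat_lit 5) (nat_lit 3) (nat_lit 4) (nat_lit 1) (nat_lit 4) (nat_lit 458) (nat_lit 306) (nat_lit 256)) (XT.nd (nat_lit 78) (nat_lit 0) (nat_lit 0) (XT.lf (nat_lit 0) (nat_lit 2856581698999) (nat_lit 152) (nat_lit 2249771305706) (nat_lit 0) (nat_lit 2855823517999) (nat_lit 1) (nat_lit 5) (nat_lit 3) (nat_lit 4) (nat_lit 1) (nat_lit 4) (nat_lit 459) (nat_lit 306) (nat_lit 255)) (XT.lf (nat_lit 0) (nat_lit 3086228710076) (nat_lit 152) (nat_lit 2427357853283) (nat_lit 0) (nat_lit 3085469398011) (nat_lit 1) (nat_lit 5) (nat_lit 3) (nat_lit 4) (nat_lit 1) (nat_lit 4) (nat_lit 460) (nat_lit 306) (nat_lit 254))))))) (XT.nd (nat_lit 49530) (nat_lit 0) (nat_lit 0) (XT.nd (nat_lit 49140) (nat_lit 0) (nat_lit 0) (XT.nd (nat_lit 48906) (nat_lit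 0) (nat_lit 0) (XT.nd (nat_lit 48828) (nat_lit 0) (nat_lit 0) (XT.lf (nat_lit 0) (nat_lit 3334244274038) (nat_lit 152) (nat_lit 2619157823297) (nat_lit 0) (nat_lit 3333483914691) (nat_lit 1) (nat_lit 5) (nat_lit 3) (nat_lit 4) (nat_lit 1) (nat_lit 4) (nat_lit 461) (nat_lit 306) (nat_lit 253)) (XT.lf (nat_lit 0) (nat_lit 9331412672) (nat_lit 152) (nat_lit 49940562280) (nat_lit 0) (nat_lit 9331412672) (nat_lit 1) (nat_lit 5) (nat_lit 3) (nat_lit 4) (nat_lit 1) (nat_lit 4) (nat_lit 406) (nat_lit 307) (nat_lit 307))) (XT.nd (nat_lit 78) (nat_lit 0) (nat_lit 0) (XT.lf (nat_lit 0) (nat_lit 23688401693) (nat_lit 152) (nat_lit 100580150424) (nat_lit 0) (nat_lit 23626525664) (nat_lit 1) (nat_lit 5) (nat_lit 3) (nat_lit 4) (nat_lit 1) (nat_lit 4) (nat_lit 407) (nat_lit 307) (nat_lit 306)) (XT.nd (nat_lit 78) (nat_lit 0) (nat_lit 0) (XT.lf (nat_lit 0) (nat_lit 28940527127) (nat_lit 152) (nat_lit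 101690612781) (nat_lit 0) (nat_lit 28821358479) (nat_lit 1) (nat_lit 5) (nat_lit 3) (nat_lit 4) (nat_lit 1) (nat_lit 4) (nat_lit 408) (nat_lit 307) (nat_lit 305)) (XT.lf (nat_lit 0) (nat_lit 34450325353) (nat_lit 152) (nat_lit 103219092148) (nat_lit 0) (nat_lit 34278107983) (nat_lit 1) (nat_lit 5) (nat_lit 3) (nat_lit 4) (nat_lit 1) (nat_lit 4) (nat_lit 409) (nat_lit 307) (nat_lit 304))))) (XT.nd (nat_lit 156) (nat_lit 0) (nat_lit 0) (XT.nd (nat_lit 78) (nat_lit 0) (nat_lit 0) (XT.lf (nat_lit 0) (nat_lit 40250447027) (nat_lit 152) (nat_lit 105174646182) (nat_lit 0) (nat_lit 40029110469) (nat_lit 1) (nat_lit 5) (nat_lit 3) (nat_lit 4) (nat_lit 1) (nat_lit 4) (nat_lit 410) (nat_lit 307) (nat_lit 303)) (XT.lf (nat_lit 0) (nat_lit 46375263239) (nat_lit 152) (nat_lit 107568863351) (nat_lit 0) (nat_lit 46108445954) (nat_lit 1) (nat_lit 5) (nat_lit 3) (nat_lit 4) (nat_lit 1) (nat_lit 4) (nat_lit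 411) (nat_lit 307) (nat_lit 302))) (XT.nd (nat_lit 78) (nat_lit 0) (nat_lit 0) (XT.lf (nat_lit 0) (nat_lit 52861069199) (nat_lit 152) (nat_lit 110415931607) (nat_lit 0) (nat_lit 52552140127) (nat_lit 1) (nat_lit 5) (nat_lit 3) (nat_lit 4) (nat_lit 1) (nat_lit 4) (nat_lit 412) (nat_lit 307) (nat_lit 301)) (XT.nd (nat_lit 78) (nat_lit 0) (nat_lit 0) (XT.lf (nat_lit 0) (nat_lit 59746299310) (nat_lit 152) (nat_lit 113732722468) (nat_lit 0) (nat_lit 59398377844) (nat_lit 1) (nat_lit 5) (nat_lit 3) (nat_lit 4) (nat_lit 1) (nat_lit 4) (nat_lit 413) (nat_lit 307) (nat_lit 300)) (XT.lf (nat_lit 0) (nat_lit 67071754937) (nat_lit 152) (nat_lit 117538890989) (nat_lit 0) (nat_lit 66687729403) (nat_lit 1) (nat_lit 5) (nat_lit 3) (nat_lit 4) (nat_lit 1) (nat_lit 4) (nat_lit 414) (nat_lit 307) (nat_lit 299)))))) (XT.nd (nat_lit 390) (nat_lit 0) (nat_lit 0) (XT.nd (nat_lit 156) (nat_lit 0) (nat_lit 0)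 (XT.nd (nat_lit 78) (nat_lit 0) (nat_lit 0) (XT.lf (nat_lit 0) (nat_lit 74880846187) (nat_lit 152) (nat_lit 121856992244) (nat_lit 0) (nat_lit 74463390960) (nat_lit 1) (nat_lit 5) (nat_lit 3) (nat_lit 4) (nat_lit 1) (nat_lit 4) (nat_lit 415) (nat_lit 307) (nat_lit 298)) (XT.lf (nat_lit 0) (nat_lit 83219849157) (nat_lit 152) (nat_lit 126712614981) (nat_lit 0) (nat_lit 82771440510) (nat_lit 1) (nat_lit 5) (nat_lit 3) (nat_lit 4) (nat_lit 1) (nat_lit 4) (nat_lit 416) (nat_lit 307) (nat_lit 297))) (XT.nd (nat_lit 78) (nat_lit 0) (nat_lit 0) (XT.lf (nat_lit 0) (nat_lit 92138180160) (nat_lit 152) (nat_lit 132134533260) (nat_lit 0) (nat_lit 91661110939) (nat_lit 1) (nat_lit 5) (nat_lit 3) (nat_lit 4) (nat_lit 1) (nat_lit 4) (nat_lit 417) (nat_lit 307) (nat_lit 296)) (XT.nd (nat_lit 78) (nat_lit 0) (nat_lit 0) (XT.lf (nat_lit 0) (nat_lit 101688688565) (nat_lit 152) (nat_lit 138154876968) (nat_lit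 0) (nat_lit 101185081776) (nat_lit 1) (nat_lit 5) (nat_lit 3) (nat_lit 4) (nat_lit 1) (nat_lit 4) (nat_lit 418) (nat_lit 307) (nat_lit 295)) (XT.lf (nat_lit 0) (nat_lit 111927969978) (nat_lit 152) (nat_lit 144809322215) (nat_lit 0) (nat_lit 111399791366) (nat_lit 1) (nat_lit 5) (nat_lit 3) (nat_lit 4) (nat_lit 1) (nat_lit 4) (nat_lit 419) (nat_lit 307) (nat_lit 294))))) (XT.nd (nat_lit 156) (nat_lit 0) (nat_lit 0) (XT.nd (nat_lit 78) (nat_lit 0) (nat_lit 0) (XT.lf (nat_lit 0) (nat_lit 122916701621) (nat_lit 152) (nat_lit 152137302750) (nat_lit 0) (nat_lit 122365771322) (nat_lit 1) (nat_lit 5) (nat_lit 3) (nat_lit 4) (nat_lit 1) (nat_lit 4) (nat_lit 420) (nat_lit 307) (nat_lit 293)) (XT.lf (nat_lit 0) (nat_lit 134720001906) (nat_lit 152) (nat_lit 160182243645) (nat_lit 0) (nat_lit 134148005229) (nat_lit 1) (nat_lit 5) (nat_lit 3) (nat_lit 4) (nat_lit 1) (nat_lit 4) (nat_lit 421) (nat_lit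 307) (nat_lit 292))) (XT.nd (nat_lit 78) (nat_lit 0) (nat_lit 0) (XT.lf (nat_lit 0) (nat_lit 147407816313) (nat_lit 152) (nat_lit 168991818622) (nat_lit 0) (nat_lit 146816313732) (nat_lit 1) (nat_lit 5) (nat_lit 3) (nat_lit 4) (nat_lit 1) (nat_lit 4) (nat_lit 422) (nat_lit 307) (nat_lit 291)) (XT.nd (nat_lit 78) (nat_lit 0) (nat_lit 0) (XT.lf (nat_lit 0) (nat_lit 161055331893) (nat_lit 152) (nat_lit 178618232571) (nat_lit 0) (nat_lit 160445768289) (nat_lit 1) (nat_lit 5) (nat_lit 3) (nat_lit 4) (nat_lit 1) (nat_lit 4) (nat_lit 423) (nat_lit 307) (nat_lit 290)) (XT.lf (nat_lit 0) (nat_lit 175743422812) (nat_lit 152) (nat_lit 189118530907) (nat_lit 0) (nat_lit 175117136037) (nat_lit 1) (nat_lit 5) (nat_lit 3) (nat_lit 4) (nat_lit 1) (nat_lit 4) (nat_lit 424) (nat_lit 307) (nat_lit 289))))))))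
noncomputable def xc20 : XT := (XT.nd (nat_lit 1482) (nat_lit 0) (nat_lit 0) (XT.nd (nat_lit 702) (nat_lit 0) (nat_lit 0) (XT.nd (nat_lit 312) (nat_lit 0) (nat_lit 0) (XT.nd (nat_lit 156) (nat_lit 0) (nat_lit 0) (XT.nd (nat_lit 78) (nat_lit 0) (nat_lit 0) (XT.lf (nat_lit 0) (nat_lit 191559129607) (nat_lit 152) (nat_lit 200554937620) (nat_lit 0) (nat_lit 190917358417) (nat_lit 1) (nat_lit 5) (nat_lit 3) (nat_lit 4) (nat_lit 1) (nat_lit 4) (nat_lit 425) (nat_lit 307) (nat_lit 288)) (XT.lf (nat_lit 0) (nat_lit 208596174987) (nat_lit 152) (nat_lit 212995224010) (nat_lit 0) (nat_lit 207940066374) (nat_lit 1) (nat_lit 5) (nat_lit 3) (nat_lit 4) (nat_lit 1) (nat_lit 4) (nat_lit 426) (nat_lit 307) (nat_lit 287))) (XT.nd (nat_lit 78) (nat_lit 0) (nat_lit 0) (XT.lf (nat_lit 0) (nat_lit 226955519219) (nat_lit 152) (nat_lit 226513110292) (nat_lit 0) (nat_lit 226286135216) (nat_lit 1) (nat_lit 5) (nat_lit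 3) (nat_lit 4) (nat_lit 1) (nat_lit 4) (nat_lit 427) (nat_lit 307) (nat_lit 286)) (XT.lf (nat_lit 0) (nat_lit 246745958419) (nat_lit 152) (nat_lit 241188702459) (nat_lit 0) (nat_lit 246064282387) (nat_lit 1) (nat_lit 5) (nat_lit 3) (nat_lit 4) (nat_lit 1) (nat_lit 4) (nat_lit 428) (nat_lit 307) (nat_lit 285)))) (XT.nd (nat_lit 156) (nat_lit 0) (nat_lit 0) (XT.nd (nat_lit 78) (nat_lit 0) (nat_lit 0) (XT.lf (nat_lit 0) (nat_lit 268084769263) (nat_lit 152) (nat_lit 257108966984) (nat_lit 0) (nat_lit 267391711722) (nat_lit 1) (nat_lit 5) (nat_lit 3) (nat_lit 4) (nat_lit 1) (nat_lit 4) (nat_lit 429) (nat_lit 307) (nat_lit 284)) (XT.lf (nat_lit 0) (nat_lit 291098403962) (nat_lit 152) (nat_lit 274368246173) (nat_lit 0) (nat_lit 290394807988) (nat_lit 1) (nat_lit 5) (nat_lit 3) (nat_lit 4) (nat_lit 1) (nat_lit 4) (nat_lit 430) (nat_lit 307) (nat_lit 283))) (XT.nd (nat_lit 78) (nat_lit 0) (nat_lit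 0) (XT.lf (nat_lit 0) (nat_lit 315923239613) (nat_lit 152) (nat_lit 293068817238) (nat_lit 0) (nat_lit 315209885830) (nat_lit 1) (nat_lit 5) (nat_lit 3) (nat_lit 4) (nat_lit 1) (nat_lit 4) (nat_lit 431) (nat_lit 307) (nat_lit 282)) (XT.nd (nat_lit 78) (nat_lit 0) (nat_lit 0) (XT.lf (nat_lit 0) (nat_lit 342706386351) (nat_lit 152) (nat_lit 313321498377) (nat_lit 0) (nat_lit 341983997560) (nat_lit 1) (nat_lit 5) (nat_lit 3) (nat_lit 4) (nat_lit 1) (nat_lit 4) (nat_lit 432) (nat_lit 307) (nat_lit 281)) (XT.lf (nat_lit 0) (nat_lit 371606559121) (nat_lit 152) (nat_lit 335246305479) (nat_lit 0) (nat_lit 370875804581) (nat_lit 1) (nat_lit 5) (nat_lit 3) (nat_lit 4) (nat_lit 1) (nat_lit 4) (nat_lit 433) (nat_lit 307) (nat_lit 280)))))) (XT.nd (nat_lit 390) (nat_lit 0) (nat_lit 0) (XT.nd (nat_lit 156) (nat_lit 0) (nat_lit 0) (XT.nd (nat_lit 78) (nat_lit 0) (nat_lit 0) (XT.lf (nat_lit 0) (nat_lit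 402795018205) (nat_lit 152) (nat_lit 358973163326) (nat_lit 0) (nat_lit 402056517603) (nat_lit 1) (nat_lit 5) (nat_lit 3) (nat_lit 4) (nat_lit 1) (nat_lit 4) (nat_lit 434) (nat_lit 307) (nat_lit 279)) (XT.lf (nat_lit 0) (nat_lit 436456584103) (nat_lit 152) (nat_lit 384642675520) (nat_lit 0) (nat_lit 435710911219) (nat_lit 1) (nat_lit 5) (nat_lit 3) (nat_lit 4) (nat_lit 1) (nat_lit 4) (nat_lit 435) (nat_lit 307) (nat_lit 278))) (XT.nd (nat_lit 78) (nat_lit 0) (nat_lit 0) (XT.lf (nat_lit 0) (nat_lit 472790732759) (nat_lit 152) (nat_lit 412406957690) (nat_lit 0) (nat_lit 472038418875) (nat_lit 1) (nat_lit 5) (nat_lit 3) (nat_lit 4) (nat_lit 1) (nat_lit 4) (nat_lit 436) (nat_lit 307) (nat_lit 277)) (XT.nd (nat_lit 78) (nat_lit 0) (nat_lit 0) (XT.lf (nat_lit 0) (nat_lit 512012777648) (nat_lit 152) (nat_lit 442430538914) (nat_lit 0) (nat_lit 511254314689) (nat_lit 1) (nat_lit 5) (nat_lit 3)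 (nat_lit 4) (nat_lit 1) (nat_lit 4) (nat_lit 437) (nat_lit 307) (nat_lit 276)) (XT.lf (nat_lit 0) (nat_lit 554355145701) (nat_lit 152) (nat_lit 474891336711) (nat_lit 0) (nat_lit 553590989155) (nat_lit 1) (nat_lit 5) (nat_lit 3) (nat_lit 4) (nat_lit 1) (nat_lit 4) (nat_lit 438) (nat_lit 307) (nat_lit 275))))) (XT.nd (nat_lit 156) (nat_lit 0) (nat_lit 0) (XT.nd (nat_lit 78) (nat_lit 0) (nat_lit 0) (XT.lf (nat_lit 0) (nat_lit 600068754657) (nat_lit 152) (nat_lit 509981711365) (nat_lit 0) (nat_lit 599299326270) (nat_lit 1) (nat_lit 5) (nat_lit 3) (nat_lit 4) (nat_lit 1) (nat_lit 4) (nat_lit 439) (nat_lit 307) (nat_lit 274)) (XT.lf (nat_lit 0) (nat_lit 649424499975) (nat_lit 152) (nat_lit 547909605836) (nat_lit 0) (nat_lit 648650190254) (nat_lit 1) (nat_lit 5) (nat_lit 3) (nat_lit 4) (nat_lit 1) (nat_lit 4) (nat_lit 440) (nat_lit 307) (nat_lit 273))) (XT.nd (nat_lit 78) (nat_lit 0) (nat_lit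 0) (XT.lf (nat_lit 0) (nat_lit 702714860146) (nat_lit 152) (nat_lit 588899778017) (nat_lit 0) (nat_lit 701936030671) (nat_lit 1) (nat_lit 5) (nat_lit 3) (nat_lit 4) (nat_lit 1) (nat_lit 4) (nat_lit 441) (nat_lit 307) (nat_lit 272)) (XT.nd (nat_lit 78) (nat_lit 0) (nat_lit 0) (XT.lf (nat_lit 0) (nat_lit 760255629896) (nat_lit 152) (nat_lit 633195132633) (nat_lit 0) (nat_lit 759472615465) (nat_lit 1) (nat_lit 5) (nat_lit 3) (nat_lit 4) (nat_lit 1) (nat_lit 4) (nat_lit 442) (nat_lit 307) (nat_lit 271)) (XT.lf (nat_lit 0) (nat_lit 822387791566) (nat_lit 152) (nat_lit 681058160674) (nat_lit 0) (nat_lit 821600902175) (nat_lit 1) (nat_lit 5) (nat_lit 3) (nat_lit 4) (nat_lit 1) (nat_lit 4) (nat_lit 443) (nat_lit 307) (nat_lit 270))))))) (XT.nd (nat_lit 702) (nat_lit 0) (nat_lit 0) (XT.nd (nat_lit 312) (nat_lit 0) (nat_lit 0) (XT.nd (nat_lit 156) (nat_lit 0) (nat_lit 0) (XT.nd (nat_lit 78) (nat_lit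 0) (nat_lit 0) (XT.lf (nat_lit 0) (nat_lit 889479535743) (nat_lit 152) (nat_lit 732772494898) (nat_lit 0) (nat_lit 888689058426) (nat_lit 1) (nat_lit 5) (nat_lit 3) (nat_lit 4) (nat_lit 1) (nat_lit 4) (nat_lit 444) (nat_lit 307) (nat_lit 269)) (XT.lf (nat_lit 0) (nat_lit 961928443133) (nat_lit 152) (nat_lit 788644590619) (nat_lit 0) (nat_lit 961134643662) (nat_lit 1) (nat_lit 5) (nat_lit 3) (nat_lit 4) (nat_lit 1) (nat_lit 4) (nat_lit 445) (nat_lit 307) (nat_lit 268))) (XT.nd (nat_lit 78) (nat_lit 0) (nat_lit 0) (XT.lf (nat_lit 0) (nat_lit 1040163840594) (nat_lit 152) (nat_lit 849005541739) (nat_lit 0) (nat_lit 1039366965055) (nat_lit 1) (nat_lit 5) (nat_lit 3) (nat_lit 4) (nat_lit 1) (nat_lit 4) (nat_lit 446) (nat_lit 307) (nat_lit 267)) (XT.lf (nat_lit 0) (nat_lit 1124649345298) (nat_lit 152) (nat_lit 914213042781) (nat_lit 0) (nat_lit 1123849621547) (nat_lit 1) (nat_lit 5) (nat_lit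 3) (nat_lit 4) (nat_lit 1) (nat_lit 4) (nat_lit 447) (nat_lit 307) (nat_lit 266)))) (XT.nd (nat_lit 156) (nat_lit 0) (nat_lit 0) (XT.nd (nat_lit 78) (nat_lit 0) (nat_lit 0) (XT.lf (nat_lit 0) (nat_lit 1215885612086) (nat_lit 152) (nat_lit 984653508568) (nat_lit 0) (nat_lit 1215083251102) (nat_lit 1) (nat_lit 5) (nat_lit 3) (nat_lit 4) (nat_lit 1) (nat_lit 4) (nat_lit 448) (nat_lit 307) (nat_lit 265)) (XT.lf (nat_lit 0) (nat_lit 1314413300317) (nat_lit 152) (nat_lit 1060744364082) (nat_lit 0) (nat_lit 1313608497451) (nat_lit 1) (nat_lit 5) (nat_lit 3) (nat_lit 4) (nat_lit 1) (nat_lit 4) (nat_lit 449) (nat_lit 307) (nat_lit 264))) (XT.nd (nat_lit 78) (nat_lit 0) (nat_lit 0) (XT.lf (nat_lit 0) (nat_lit 1420816277774) (nat_lit 152) (nat_lit 1142936518095) (nat_lit 0) (nat_lit 1420009213906) (nat_lit 1) (nat_lit 5) (nat_lit 3) (nat_lit 4) (nat_lit 1) (nat_lit 4) (nat_lit 450) (nat_lit 307)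 (nat_lit 263)) (XT.nd (nat_lit 78) (nat_lit 0) (nat_lit 0) (XT.lf (nat_lit 0) (nat_lit 1535725080619) (nat_lit 152) (nat_lit 1231717035225) (nat_lit 0) (nat_lit 1534915923230) (nat_lit 1) (nat_lit 5) (nat_lit 3) (nat_lit 4) (nat_lit 1) (nat_lit 4) (nat_lit 451) (nat_lit 307) (nat_lit 262)) (XT.lf (nat_lit 0) (nat_lit 1659820649905) (nat_lit 152) (nat_lit 1327612022239) (nat_lit 0) (nat_lit 1659009554072) (nat_lit 1) (nat_lit 5) (nat_lit 3) (nat_lit 4) (nat_lit 1) (nat_lit 4) (nat_lit 452) (nat_lit 307) (nat_lit 261)))))) (XT.nd (nat_lit 390) (nat_lit 0) (nat_lit 0) (XT.nd (nat_lit 156) (nat_lit 0) (nat_lit 0) (XT.nd (nat_lit 78) (nat_lit 0) (nat_lit 0) (XT.lf (nat_lit 0) (nat_lit 1793838366785) (nat_lit 152) (nat_lit 1431189745728) (nat_lit 0) (nat_lit 1793025476096) (nat_lit 1) (nat_lit 5) (nat_lit 3) (nat_lit 4) (nat_lit 1) (nat_lit 4) (nat_lit 453) (nat_lit 307) (nat_lit 260)) (XT.lf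 (nat_lit 0) (nat_lit 1938572410322) (nat_lit 152) (nat_lit 1543063999608) (nat_lit 0) (nat_lit 1937757857729) (nat_lit 1) (nat_lit 5) (nat_lit 3) (nat_lit 4) (nat_lit 1) (nat_lit 4) (nat_lit 454) (nat_lit 307) (nat_lit 259))) (XT.nd (nat_lit 78) (nat_lit 0) (nat_lit 0) (XT.lf (nat_lit 0) (nat_lit 2094880463735) (nat_lit 152) (nat_lit 1663897742421) (nat_lit 0) (nat_lit 2094064372342) (nat_lit 1) (nat_lit 5) (nat_lit 3) (nat_lit 4) (nat_lit 1) (nat_lit 4) (nat_lit 455) (nat_lit 307) (nat_lit 258)) (XT.nd (nat_lit 78) (nat_lit 0) (nat_lit 0) (XT.lf (nat_lit 0) (nat_lit 2263688796973) (nat_lit 152) (nat_lit 1794407025976) (nat_lit 0) (nat_lit 2262871280765) (nat_lit 1) (nat_lit 5) (nat_lit 3) (nat_lit 4) (nat_lit 1) (nat_lit 4) (nat_lit 456) (nat_lit 307) (nat_lit 257)) (XT.lf (nat_lit 0) (nat_lit 2445997755712) (nat_lit 152) (nat_lit 1935365238619) (nat_lit 0) (nat_lit 2445178920231) (nat_lit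 1) (nat_lit 5) (nat_lit 3) (nat_lit 4) (nat_lit 1) (nat_lit 4) (nat_lit 457) (nat_lit 307) (nat_lit 256))))) (XT.nd (nat_lit 156) (nat_lit 0) (nat_lit 0) (XT.nd (nat_lit 78) (nat_lit 0) (nat_lit 0) (XT.lf (nat_lit 0) (nat_lit 2642887689338) (nat_lit 152) (nat_lit 2087607688279) (nat_lit 0) (nat_lit 2642067632308) (nat_lit 1) (nat_lit 5) (nat_lit 3) (nat_lit 4) (nat_lit 1) (nat_lit 4) (nat_lit 458) (nat_lit 307) (nat_lit 255)) (XT.lf (nat_lit 0) (nat_lit 2855525353013) (nat_lit 152) (nat_lit 2252036552434) (nat_lit 0) (nat_lit 2854704164919) (nat_lit 1) (nat_lit 5) (nat_lit 3) (nat_lit 4) (nat_lit 1) (nat_lit 4) (nat_lit 459) (nat_lit 307) (nat_lit 254))) (XT.nd (nat_lit 78) (nat_lit 0) (nat_lit 0) (XT.lf (nat_lit 0) (nat_lit 3085170821781) (nat_lit 152) (nat_lit 2429626224353) (nat_lit 0) (nat_lit 3084348586406) (nat_lit 1) (nat_lit 5) (nat_lit 3) (nat_lit 4) (nat_lit 1) (nat_lit 4) (nat_lit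 460) (nat_lit 307) (nat_lit 253)) (XT.nd (nat_lit 48672) (nat_lit 0) (nat_lit 0) (XT.lf (nat_lit 0) (nat_lit 3333184957680) (nat_lit 152) (nat_lit 2621429087277) (nat_lit 0) (nat_lit 3332361752600) (nat_lit 1) (nat_lit 5) (nat_lit 3) (nat_lit 4) (nat_lit 1) (nat_lit 4) (nat_lit 461) (nat_lit 307) (nat_lit 252)) (XT.lf (nat_lit 0) (nat_lit 4669300302) (nat_lit 152) (nat_lit 49751932428) (nat_lit 0) (nat_lit 4669300302) (nat_lit 1) (nat_lit 5) (nat_lit 3) (nat_lit 4) (nat_lit 1) (nat_lit 4) (nat_lit 404) (nat_lit 308) (nat_lit 308))))))))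
noncomputable def xc21 : XT := (XT.nd (nat_lit 1482) (nat_lit 0) (nat_lit 0) (XT.nd (nat_lit 702) (nat_lit 0) (nat_lit 0) (XT.nd (nat_lit 312) (nat_lit 0) (nat_lit 0) (XT.nd (nat_lit 156) (nat_lit 0) (nat_lit 0) (XT.nd (nat_lit 78) (nat_lit 0) (nat_lit 0) (XT.lf (nat_lit 0) (nat_lit 13900843000) (nat_lit 152) (nat_lit 99589392815) (nat_lit 0) (nat_lit 13834016888) (nat_lit 1) (nat_lit 5) (nat_lit 3) (nat_lit 4) (nat_lit 1) (nat_lit 4) (nat_lit 405) (nat_lit 308) (nat_lit 307)) (XT.lf (nat_lit 0) (nat_lit 18638528002) (nat_lit 152) (nat_lit 100065718589) (nat_lit 0) (nat_lit 18509825861) (nat_lit 1) (nat_lit 5) (nat_lit 3) (nat_lit 4) (nat_lit 1) (nat_lit 4) (nat_lit 406) (nat_lit 308) (nat_lit 306))) (XT.nd (nat_lit 78) (nat_lit 0) (nat_lit 0) (XT.lf (nat_lit 0) (nat_lit 23579730782) (nat_lit 152) (nat_lit 100935664848) (nat_lit 0) (nat_lit 23393736022) (nat_lit 1) (nat_lit 5) (nat_lit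 3) (nat_lit 4) (nat_lit 1) (nat_lit 4) (nat_lit 407) (nat_lit 308) (nat_lit 305)) (XT.lf (nat_lit 0) (nat_lit 28753732542) (nat_lit 152) (nat_lit 102204386831) (nat_lit 0) (nat_lit 28514689060) (nat_lit 1) (nat_lit 5) (nat_lit 3) (nat_lit 4) (nat_lit 1) (nat_lit 4) (nat_lit 408) (nat_lit 308) (nat_lit 304)))) (XT.nd (nat_lit 156) (nat_lit 0) (nat_lit 0) (XT.nd (nat_lit 78) (nat_lit 0) (nat_lit 0) (XT.lf (nat_lit 0) (nat_lit 34191194032) (nat_lit 152) (nat_lit 103879402889) (nat_lit 0) (nat_lit 33903031363) (nat_lit 1) (nat_lit 5) (nat_lit 3) (nat_lit 4) (nat_lit 1) (nat_lit 4) (nat_lit 409) (nat_lit 308) (nat_lit 303)) (XT.lf (nat_lit 0) (nat_lit 39924337246) (nat_lit 152) (nat_lit 105970639044) (nat_lit 0) (nat_lit 39590693849) (nat_lit 1) (nat_lit 5) (nat_lit 3) (nat_lit 4) (nat_lit 1) (nat_lit 4) (nat_lit 410) (nat_lit 308) (nat_lit 302))) (XT.nd (nat_lit 78) (nat_lit 0) (nat_lit 0)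 (XT.lf (nat_lit 0) (nat_lit 45987136368) (nat_lit 152) (nat_lit 108490487807) (nat_lit 0) (nat_lit 45611381185) (nat_lit 1) (nat_lit 5) (nat_lit 3) (nat_lit 4) (nat_lit 1) (nat_lit 4) (nat_lit 411) (nat_lit 308) (nat_lit 301)) (XT.nd (nat_lit 78) (nat_lit 0) (nat_lit 0) (XT.lf (nat_lit 0) (nat_lit 52415519094) (nat_lit 152) (nat_lit 111453881613) (nat_lit 0) (nat_lit 52000771517) (nat_lit 1) (nat_lit 5) (nat_lit 3) (nat_lit 4) (nat_lit 1) (nat_lit 4) (nat_lit 412) (nat_lit 308) (nat_lit 300)) (XT.lf (nat_lit 0) (nat_lit 59247579545) (nat_lit 152) (nat_lit 114878381316) (nat_lit 0) (nat_lit 58796727899) (nat_lit 1) (nat_lit 5) (nat_lit 3) (nat_lit 4) (nat_lit 1) (nat_lit 4) (nat_lit 413) (nat_lit 308) (nat_lit 299)))))) (XT.nd (nat_lit 390) (nat_lit 0) (nat_lit 0) (XT.nd (nat_lit 156) (nat_lit 0) (nat_lit 0) (XT.nd (nat_lit 78) (nat_lit 0) (nat_lit 0) (XT.lf (nat_lit 0) (nat_lit 66523804005)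 (nat_lit 152) (nat_lit 118784280247) (nat_lit 0) (nat_lit 66039522666) (nat_lit 1) (nat_lit 5) (nat_lit 3) (nat_lit 4) (nat_lit 1) (nat_lit 4) (nat_lit 414) (nat_lit 308) (nat_lit 298)) (XT.lf (nat_lit 0) (nat_lit 74287310842) (nat_lit 152) (nat_lit 123194724474) (nat_lit 0) (nat_lit 73772076083) (nat_lit 1) (nat_lit 5) (nat_lit 3) (nat_lit 4) (nat_lit 1) (nat_lit 4) (nat_lit 415) (nat_lit 308) (nat_lit 297))) (XT.nd (nat_lit 78) (nat_lit 0) (nat_lit 0) (XT.lf (nat_lit 0) (nat_lit 82584106021) (nat_lit 152) (nat_lit 128135849962) (nat_lit 0) (nat_lit 82040210688) (nat_lit 1) (nat_lit 5) (nat_lit 3) (nat_lit 4) (nat_lit 1) (nat_lit 4) (nat_lit 416) (nat_lit 308) (nat_lit 296)) (XT.nd (nat_lit 78) (nat_lit 0) (nat_lit 0) (XT.lf (nat_lit 0) (nat_lit 91463355736) (nat_lit 152) (nat_lit 133636937455) (nat_lit 0) (nat_lit 90892922835) (nat_lit 1) (nat_lit 5) (nat_lit 3) (nat_lit 4) (nat_lit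 1) (nat_lit 4) (nat_lit 417) (nat_lit 308) (nat_lit 295)) (XT.lf (nat_lit 0) (nat_lit 100977677764) (nat_lit 152) (nat_lit 139730585991) (nat_lit 0) (nat_lit 100382673041) (nat_lit 1) (nat_lit 5) (nat_lit 3) (nat_lit 4) (nat_lit 1) (nat_lit 4) (nat_lit 418) (nat_lit 308) (nat_lit 294))))) (XT.nd (nat_lit 156) (nat_lit 0) (nat_lit 0) (XT.nd (nat_lit 78) (nat_lit 0) (nat_lit 0) (XT.lf (nat_lit 0) (nat_lit 111183453272) (nat_lit 152) (nat_lit 146452906079) (nat_lit 0) (nat_lit 110565696861) (nat_lit 1) (nat_lit 5) (nat_lit 3) (nat_lit 4) (nat_lit 1) (nat_lit 4) (nat_lit 419) (nat_lit 308) (nat_lit 293)) (XT.lf (nat_lit 0) (nat_lit 122141160930) (nat_lit 152) (nat_lit 153843733690) (nat_lit 0) (nat_lit 121502338141) (nat_lit 1) (nat_lit 5) (nat_lit 3) (nat_lit 4) (nat_lit 1) (nat_lit 4) (nat_lit 420) (nat_lit 308) (nat_lit 292))) (XT.nd (nat_lit 78) (nat_lit 0) (nat_lit 0) (XT.lf (nat_lit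 0) (nat_lit 133915735301) (nat_lit 152) (nat_lit 161946866321) (nat_lit 0) (nat_lit 133257406608) (nat_lit 1) (nat_lit 5) (nat_lit 3) (nat_lit 4) (nat_lit 1) (nat_lit 4) (nat_lit 421) (nat_lit 308) (nat_lit 291)) (XT.nd (nat_lit 78) (nat_lit 0) (nat_lit 0) (XT.lf (nat_lit 0) (nat_lit 146576951641) (nat_lit 152) (nat_lit 170810322535) (nat_lit 0) (nat_lit 145900561925) (nat_lit 1) (nat_lit 5) (nat_lit 3) (nat_lit 4) (nat_lit 1) (nat_lit 4) (nat_lit 422) (nat_lit 308) (nat_lit 290)) (XT.lf (nat_lit 0) (nat_lit 160199839380) (nat_lit 152) (nat_lit 180486626518) (nat_lit 0) (nat_lit 159506726495) (nat_lit 1) (nat_lit 5) (nat_lit 3) (nat_lit 4) (nat_lit 1) (nat_lit 4) (nat_lit 423) (nat_lit 308) (nat_lit 289))))))) (XT.nd (nat_lit 780) (nat_lit 0) (nat_lit 0) (XT.nd (nat_lit 390) (nat_lit 0) (nat_lit 0) (XT.nd (nat_lit 156) (nat_lit 0) (nat_lit 0) (XT.nd (nat_lit 78) (nat_lit 0) (nat_lit 0)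 (XT.lf (nat_lit 0) (nat_lit 174865126743) (nat_lit 152) (nat_lit 191033119330) (nat_lit 0) (nat_lit 174156529441) (nat_lit 1) (nat_lit 5) (nat_lit 3) (nat_lit 4) (nat_lit 1) (nat_lit 4) (nat_lit 424) (nat_lit 308) (nat_lit 288)) (XT.lf (nat_lit 0) (nat_lit 190659719135) (nat_lit 152) (nat_lit 202512298707) (nat_lit 0) (nat_lit 189936784411) (nat_lit 1) (nat_lit 5) (nat_lit 3) (nat_lit 4) (nat_lit 1) (nat_lit 4) (nat_lit 425) (nat_lit 308) (nat_lit 287))) (XT.nd (nat_lit 78) (nat_lit 0) (nat_lit 0) (XT.lf (nat_lit 0) (nat_lit 207677214141) (nat_lit 152) (nat_lit 214992189414) (nat_lit 0) (nat_lit 206941004025) (nat_lit 1) (nat_lit 5) (nat_lit 3) (nat_lit 4) (nat_lit 1) (nat_lit 4) (nat_lit 426) (nat_lit 308) (nat_lit 286)) (XT.nd (nat_lit 78) (nat_lit 0) (nat_lit 0) (XT.lf (nat_lit 0) (nat_lit 226018456175) (nat_lit 152) (nat_lit 228546746361) (nat_lit 0) (nat_lit 225269954031) (nat_lit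 1) (nat_lit 5) (nat_lit 3) (nat_lit 4) (nat_lit 1) (nat_lit 4) (nat_lit 427) (nat_lit 308) (nat_lit 285)) (XT.lf (nat_lit 0) (nat_lit 245792134081) (nat_lit 152) (nat_lit 243256292847) (nat_lit 0) (nat_lit 245032250429) (nat_lit 1) (nat_lit 5) (nat_lit 3) (nat_lit 4) (nat_lit 1) (nat_lit 4) (nat_lit 428) (nat_lit 308) (nat_lit 284))))) (XT.nd (nat_lit 156) (nat_lit 0) (nat_lit 0) (XT.nd (nat_lit 78) (nat_lit 0) (nat_lit 0) (XT.lf (nat_lit 0) (nat_lit 267115425207) (nat_lit 152) (nat_lit 259207996556) (nat_lit 0) (nat_lit 266345003122) (nat_lit 1) (nat_lit 5) (nat_lit 3) (nat_lit 4) (nat_lit 1) (nat_lit 4) (nat_lit 429) (nat_lit 308) (nat_lit 283)) (XT.lf (nat_lit 0) (nat_lit 290114689799) (nat_lit 152) (nat_lit 276496386101) (nat_lit 0) (nat_lit 289334509904) (nat_lit 1) (nat_lit 5) (nat_lit 3) (nat_lit 4) (nat_lit 1) (nat_lit 4) (nat_lit 430) (nat_lit 308) (nat_lit 282))) (XT.nd (nat_lit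 78) (nat_lit 0) (nat_lit 0) (XT.lf (nat_lit 0) (nat_lit 314926219793) (nat_lit 152) (nat_lit 295223911199) (nat_lit 0) (nat_lit 314137004891) (nat_lit 1) (nat_lit 5) (nat_lit 3) (nat_lit 4) (nat_lit 1) (nat_lit 4) (nat_lit 431) (nat_lit 308) (nat_lit 281)) (XT.nd (nat_lit 78) (nat_lit 0) (nat_lit 0) (XT.lf (nat_lit 0) (nat_lit 341697046480) (nat_lit 152) (nat_lit 315501549777) (nat_lit 0) (nat_lit 340899465829) (nat_lit 1) (nat_lit 5) (nat_lit 3) (nat_lit 4) (nat_lit 1) (nat_lit 4) (nat_lit 432) (nat_lit 308) (nat_lit 280)) (XT.lf (nat_lit 0) (nat_lit 370585811795) (nat_lit 152) (nat_lit 337449465617) (nat_lit 0) (nat_lit 369780485080) (nat_lit 1) (nat_lit 5) (nat_lit 3) (nat_lit 4) (nat_lit 1) (nat_lit 4) (nat_lit 433) (nat_lit 308) (nat_lit 279)))))) (XT.nd (nat_lit 390) (nat_lit 0) (nat_lit 0) (XT.nd (nat_lit 156) (nat_lit 0) (nat_lit 0) (XT.nd (nat_lit 78) (nat_lit 0) (nat_lit 0) (XT.lf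 (nat_lit 0) (nat_lit 401763708420) (nat_lit 152) (nat_lit 361197720445) (nat_lit 0) (nat_lit 400951209425) (nat_lit 1) (nat_lit 5) (nat_lit 3) (nat_lit 4) (nat_lit 1) (nat_lit 4) (nat_lit 434) (nat_lit 308) (nat_lit 278)) (XT.lf (nat_lit 0) (nat_lit 435415494263) (nat_lit 152) (nat_lit 386887044658) (nat_lit 0) (nat_lit 434596354268) (nat_lit 1) (nat_lit 5) (nat_lit 3) (nat_lit 4) (nat_lit 1) (nat_lit 4) (nat_lit 435) (nat_lit 308) (nat_lit 277))) (XT.nd (nat_lit 78) (nat_lit 0) (nat_lit 0) (XT.lf (nat_lit 0) (nat_lit 471740587314) (nat_lit 152) (nat_lit 414669671290) (nat_lit 0) (nat_lit 470915298244) (nat_lit 1) (nat_lit 5) (nat_lit 3) (nat_lit 4) (nat_lit 1) (nat_lit 4) (nat_lit 436) (nat_lit 308) (nat_lit 276)) (XT.nd (nat_lit 78) (nat_lit 0) (nat_lit 0) (XT.lf (nat_lit 0) (nat_lit 510954247382) (nat_lit 152) (nat_lit 444710238127) (nat_lit 0) (nat_lit 510123264724) (nat_lit 1) (nat_lit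 5) (nat_lit 3) (nat_lit 4) (nat_lit 1) (nat_lit 4) (nat_lit 437) (nat_lit 308) (nat_lit 275)) (XT.lf (nat_lit 0) (nat_lit 553288851714) (nat_lit 152) (nat_lit 477186763344) (nat_lit 0) (nat_lit 552452597215) (nat_lit 1) (nat_lit 5) (nat_lit 3) (nat_lit 4) (nat_lit 1) (nat_lit 4) (nat_lit 438) (nat_lit 308) (nat_lit 274))))) (XT.nd (nat_lit 156) (nat_lit 0) (nat_lit 0) (XT.nd (nat_lit 78) (nat_lit 0) (nat_lit 0) (XT.lf (nat_lit 0) (nat_lit 598995272038) (nat_lit 152) (nat_lit 512291700423) (nat_lit 0) (nat_lit 598154136205) (nat_lit 1) (nat_lit 5) (nat_lit 3) (nat_lit 4) (nat_lit 1) (nat_lit 4) (nat_lit 439) (nat_lit 308) (nat_lit 273)) (XT.lf (nat_lit 0) (nat_lit 648344361215) (nat_lit 152) (nat_lit 550233078621) (nat_lit 0) (nat_lit 647498705629) (nat_lit 1) (nat_lit 5) (nat_lit 3) (nat_lit 4) (nat_lit 1) (nat_lit 4) (nat_lit 440) (nat_lit 308) (nat_lit 272))) (XT.nd (nat_lit 78) (nat_lit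 0) (nat_lit 0) (XT.lf (nat_lit 0) (nat_lit 701628558292) (nat_lit 152) (nat_lit 591235735735) (nat_lit 0) (nat_lit 700778717750) (nat_lit 1) (nat_lit 5) (nat_lit 3) (nat_lit 4) (nat_lit 1) (nat_lit 4) (nat_lit 441) (nat_lit 308) (nat_lit 271)) (XT.nd (nat_lit 78) (nat_lit 0) (nat_lit 0) (XT.lf (nat_lit 0) (nat_lit 759163621475) (nat_lit 152) (nat_lit 635542650474) (nat_lit 0) (nat_lit 758309905973) (nat_lit 1) (nat_lit 5) (nat_lit 3) (nat_lit 4) (nat_lit 1) (nat_lit 4) (nat_lit 442) (nat_lit 308) (nat_lit 270)) (XT.lf (nat_lit 0) (nat_lit 821290499286) (nat_lit 152) (nat_lit 683416382332) (nat_lit 0) (nat_lit 820433195857) (nat_lit 1) (nat_lit 5) (nat_lit 3) (nat_lit 4) (nat_lit 1) (nat_lit 4) (nat_lit 443) (nat_lit 308) (nat_lit 269))))))))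
noncomputable def xc22 : XT := (XT.nd (nat_lit 49920) (nat_lit 0) (nat_lit 0) (XT.nd (nat_lit 702) (nat_lit 0) (nat_lit 0) (XT.nd (nat_lit 312) (nat_lit 0) (nat_lit 0) (XT.nd (nat_lit 156) (nat_lit 0) (nat_lit 0) (XT.nd (nat_lit 78) (nat_lit 0) (nat_lit 0) (XT.lf (nat_lit 0) (nat_lit 888377351001) (nat_lit 152) (nat_lit 735140627498) (nat_lit 0) (nat_lit 887516725418) (nat_lit 1) (nat_lit 5) (nat_lit 3) (nat_lit 4) (nat_lit 1) (nat_lit 4) (nat_lit 444) (nat_lit 308) (nat_lit 268)) (XT.lf (nat_lit 0) (nat_lit 960821728334) (nat_lit 152) (nat_lit 791021900018) (nat_lit 0) (nat_lit 959958026683) (nat_lit 1) (nat_lit 5) (nat_lit 3) (nat_lit 4) (nat_lit 1) (nat_lit 4) (nat_lit 445) (nat_lit 308) (nat_lit 267))) (XT.nd (nat_lit 78) (nat_lit 0) (nat_lit 0) (XT.lf (nat_lit 0) (nat_lit 1039052931297) (nat_lit 152) (nat_lit 851391348173) (nat_lit 0) (nat_lit 1038186381435) (nat_lit 1) (nat_lit 5)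 (nat_lit 3) (nat_lit 4) (nat_lit 1) (nat_lit 4) (nat_lit 446) (nat_lit 308) (nat_lit 266)) (XT.lf (nat_lit 0) (nat_lit 1123534552207) (nat_lit 152) (nat_lit 916606716841) (nat_lit 0) (nat_lit 1122665365112) (nat_lit 1) (nat_lit 5) (nat_lit 3) (nat_lit 4) (nat_lit 1) (nat_lit 4) (nat_lit 447) (nat_lit 308) (nat_lit 265)))) (XT.nd (nat_lit 156) (nat_lit 0) (nat_lit 0) (XT.nd (nat_lit 78) (nat_lit 0) (nat_lit 0) (XT.lf (nat_lit 0) (nat_lit 1214767222889) (nat_lit 152) (nat_lit 987054467466) (nat_lit 0) (nat_lit 1213895593912) (nat_lit 1) (nat_lit 5) (nat_lit 3) (nat_lit 4) (nat_lit 1) (nat_lit 4) (nat_lit 448) (nat_lit 308) (nat_lit 264)) (XT.lf (nat_lit 0) (nat_lit 1313291581393) (nat_lit 152) (nat_lit 1063152068200) (nat_lit 0) (nat_lit 1312417691414) (nat_lit 1) (nat_lit 5) (nat_lit 3) (nat_lit 4) (nat_lit 1) (nat_lit 4) (nat_lit 449) (nat_lit 308) (nat_lit 263))) (XT.nd (nat_lit 78) (nat_lit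 0) (nat_lit 0) (XT.lf (nat_lit 0) (nat_lit 1419691475769) (nat_lit 152) (nat_lit 1145350467788) (nat_lit 0) (nat_lit 1418815492269) (nat_lit 1) (nat_lit 5) (nat_lit 3) (nat_lit 4) (nat_lit 1) (nat_lit 4) (nat_lit 450) (nat_lit 308) (nat_lit 262)) (XT.nd (nat_lit 78) (nat_lit 0) (nat_lit 0) (XT.lf (nat_lit 0) (nat_lit 1534597423909) (nat_lit 152) (nat_lit 1234136767858) (nat_lit 0) (nat_lit 1533719501964) (nat_lit 1) (nat_lit 5) (nat_lit 3) (nat_lit 4) (nat_lit 1) (nat_lit 4) (nat_lit 451) (nat_lit 308) (nat_lit 261)) (XT.lf (nat_lit 0) (nat_lit 1658690349951) (nat_lit 152) (nat_lit 1330037109446) (nat_lit 0) (nat_lit 1657810633150) (nat_lit 1) (nat_lit 5) (nat_lit 3) (nat_lit 4) (nat_lit 1) (nat_lit 4) (nat_lit 452) (nat_lit 308) (nat_lit 260)))))) (XT.nd (nat_lit 390) (nat_lit 0) (nat_lit 0) (XT.nd (nat_lit 156) (nat_lit 0) (nat_lit 0) (XT.nd (nat_lit 78) (nat_lit 0) (nat_lit 0) (XT.lf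 (nat_lit 0) (nat_lit 1792705619382) (nat_lit 152) (nat_lit 1433619790873) (nat_lit 0) (nat_lit 1791824240677) (nat_lit 1) (nat_lit 5) (nat_lit 3) (nat_lit 4) (nat_lit 1) (nat_lit 4) (nat_lit 453) (nat_lit 308) (nat_lit 259)) (XT.lf (nat_lit 0) (nat_lit 1937437396761) (nat_lit 152) (nat_lit 1545498635437) (nat_lit 0) (nat_lit 1936554479257) (nat_lit 1) (nat_lit 5) (nat_lit 3) (nat_lit 4) (nat_lit 1) (nat_lit 4) (nat_lit 454) (nat_lit 308) (nat_lit 258))) (XT.nd (nat_lit 78) (nat_lit 0) (nat_lit 0) (XT.lf (nat_lit 0) (nat_lit 2093743351882) (nat_lit 152) (nat_lit 1666336628883) (nat_lit 0) (nat_lit 2092859009563) (nat_lit 1) (nat_lit 5) (nat_lit 3) (nat_lit 4) (nat_lit 1) (nat_lit 4) (nat_lit 455) (nat_lit 308) (nat_lit 257)) (XT.nd (nat_lit 78) (nat_lit 0) (nat_lit 0) (XT.lf (nat_lit 0) (nat_lit 2262549742255) (nat_lit 152) (nat_lit 1796849848209) (nat_lit 0) (nat_lit 2261664080663) (nat_lit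 1) (nat_lit 5) (nat_lit 3) (nat_lit 4) (nat_lit 1) (nat_lit 4) (nat_lit 456) (nat_lit 308) (nat_lit 256)) (XT.lf (nat_lit 0) (nat_lit 2444856902046) (nat_lit 152) (nat_lit 1937811705085) (nat_lit 0) (nat_lit 2443970018904) (nat_lit 1) (nat_lit 5) (nat_lit 3) (nat_lit 4) (nat_lit 1) (nat_lit 4) (nat_lit 457) (nat_lit 308) (nat_lit 255))))) (XT.nd (nat_lit 156) (nat_lit 0) (nat_lit 0) (XT.nd (nat_lit 78) (nat_lit 0) (nat_lit 0) (XT.lf (nat_lit 0) (nat_lit 2641745169979) (nat_lit 152) (nat_lit 2090057529035) (nat_lit 0) (nat_lit 2640857155774) (nat_lit 1) (nat_lit 5) (nat_lit 3) (nat_lit 4) (nat_lit 1) (nat_lit 4) (nat_lit 458) (nat_lit 308) (nat_lit 254)) (XT.lf (nat_lit 0) (nat_lit 2854381291346) (nat_lit 152) (nat_lit 2254489517532) (nat_lit 0) (nat_lit 2853492229859) (nat_lit 1) (nat_lit 5) (nat_lit 3) (nat_lit 4) (nat_lit 1) (nat_lit 4) (nat_lit 459) (nat_lit 308) (nat_lit 253))) (XT.nd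 (nat_lit 78) (nat_lit 0) (nat_lit 0) (XT.lf (nat_lit 0) (nat_lit 3084025332052) (nat_lit 152) (nat_lit 2432082082360) (nat_lit 0) (nat_lit 3083135300860) (nat_lit 1) (nat_lit 5) (nat_lit 3) (nat_lit 4) (nat_lit 1) (nat_lit 4) (nat_lit 460) (nat_lit 308) (nat_lit 252)) (XT.nd (nat_lit 48516) (nat_lit 0) (nat_lit 0) (XT.lf (nat_lit 0) (nat_lit 3332038145670) (nat_lit 152) (nat_lit 2623887623904) (nat_lit 0) (nat_lit 3331147216603) (nat_lit 1) (nat_lit 5) (nat_lit 3) (nat_lit 4) (nat_lit 1) (nat_lit 4) (nat_lit 461) (nat_lit 308) (nat_lit 251)) (XT.lf (nat_lit 0) (nat_lit 405819820) (nat_lit 152) (nat_lit 50145088707) (nat_lit 0) (nat_lit 405819820) (nat_lit 1) (nat_lit 5) (nat_lit 3) (nat_lit 4) (nat_lit 1) (nat_lit 4) (nat_lit 402) (nat_lit 309) (nat_lit 309))))))) (XT.nd (nat_lit 780) (nat_lit 0) (nat_lit 0) (XT.nd (nat_lit 390) (nat_lit 0) (nat_lit 0) (XT.nd (nat_lit 156) (nat_lit 0)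 (nat_lit 0) (XT.nd (nat_lit 78) (nat_lit 0) (nat_lit 0) (XT.lf (nat_lit 0) (nat_lit 4996937506) (nat_lit 152) (nat_lit 99808627879) (nat_lit 0) (nat_lit 4924765306) (nat_lit 1) (nat_lit 5) (nat_lit 3) (nat_lit 4) (nat_lit 1) (nat_lit 4) (nat_lit 403) (nat_lit 309) (nat_lit 308)) (XT.lf (nat_lit 0) (nat_lit 9312359474) (nat_lit 152) (nat_lit 99703226406) (nat_lit 0) (nat_lit 9173361163) (nat_lit 1) (nat_lit 5) (nat_lit 3) (nat_lit 4) (nat_lit 1) (nat_lit 4) (nat_lit 404) (nat_lit 309) (nat_lit 307))) (XT.nd (nat_lit 78) (nat_lit 0) (nat_lit 0) (XT.lf (nat_lit 0) (nat_lit 13783478416) (nat_lit 152) (nat_lit 99973348393) (nat_lit 0) (nat_lit 13582604075) (nat_lit 1) (nat_lit 5) (nat_lit 3) (nat_lit 4) (nat_lit 1) (nat_lit 4) (nat_lit 405) (nat_lit 309) (nat_lit 306)) (XT.nd (nat_lit 78) (nat_lit 0) (nat_lit 0) (XT.lf (nat_lit 0) (nat_lit 18436789850) (nat_lit 152) (nat_lit 100620594563) (nat_lit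 0) (nat_lit 18178622889) (nat_lit 1) (nat_lit 5) (nat_lit 3) (nat_lit 4) (nat_lit 1) (nat_lit 4) (nat_lit 406) (nat_lit 309) (nat_lit 305)) (XT.lf (nat_lit 0) (nat_lit 23299868955) (nat_lit 152) (nat_lit 101648800449) (nat_lit 0) (nat_lit 22988653273) (nat_lit 1) (nat_lit 5) (nat_lit 3) (nat_lit 4) (nat_lit 1) (nat_lit 4) (nat_lit 407) (nat_lit 309) (nat_lit 304))))) (XT.nd (nat_lit 156) (nat_lit 0) (nat_lit 0) (XT.nd (nat_lit 78) (nat_lit 0) (nat_lit 0) (XT.lf (nat_lit 0) (nat_lit 28401533979) (nat_lit 152) (nat_lit 103064059122) (nat_lit 0) (nat_lit 28041199110) (nat_lit 1) (nat_lit 5) (nat_lit 3) (nat_lit 4) (nat_lit 1) (nat_lit 4) (nat_lit 408) (nat_lit 309) (nat_lit 303)) (XT.lf (nat_lit 0) (nat_lit 33772017010) (nat_lit 152) (nat_lit 104874757302) (nat_lit 0) (nat_lit 33366201412) (nat_lit 1) (nat_lit 5) (nat_lit 3) (nat_lit 4) (nat_lit 1) (nat_lit 4) (nat_lit 409) (nat_lit 309)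 (nat_lit 302))) (XT.nd (nat_lit 78) (nat_lit 0) (nat_lit 0) (XT.lf (nat_lit 0) (nat_lit 39443143133) (nat_lit 152) (nat_lit 107091625050) (nat_lit 0) (nat_lit 38995215750) (nat_lit 1) (nat_lit 5) (nat_lit 3) (nat_lit 4) (nat_lit 1) (nat_lit 4) (nat_lit 410) (nat_lit 309) (nat_lit 301)) (XT.nd (nat_lit 78) (nat_lit 0) (nat_lit 0) (XT.lf (nat_lit 0) (nat_lit 45448519021) (nat_lit 152) (nat_lit 109727799362) (nat_lit 0) (nat_lit 44961599244) (nat_lit 1) (nat_lit 5) (nat_lit 3) (nat_lit 4) (nat_lit 1) (nat_lit 4) (nat_lit 411) (nat_lit 309) (nat_lit 300)) (XT.lf (nat_lit 0) (nat_lit 51823732087) (nat_lit 152) (nat_lit 112798902011) (nat_lit 0) (nat_lit 51300708241) (nat_lit 1) (nat_lit 5) (nat_lit 3) (nat_lit 4) (nat_lit 1) (nat_lit 4) (nat_lit 412) (nat_lit 309) (nat_lit 299)))))) (XT.nd (nat_lit 390) (nat_lit 0) (nat_lit 0) (XT.nd (nat_lit 156) (nat_lit 0) (nat_lit 0) (XT.nd (nat_lit 78)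 (nat_lit 0) (nat_lit 0) (XT.lf (nat_lit 0) (nat_lit 58606561372) (nat_lit 152) (nat_lit 116323132123) (nat_lit 0) (nat_lit 58050107832) (nat_lit 1) (nat_lit 5) (nat_lit 3) (nat_lit 4) (nat_lit 1) (nat_lit 4) (nat_lit 413) (nat_lit 309) (nat_lit 298)) (XT.lf (nat_lit 0) (nat_lit 65837201418) (nat_lit 152) (nat_lit 120321374026) (nat_lit 0) (nat_lit 65249794459) (nat_lit 1) (nat_lit 5) (nat_lit 3) (nat_lit 4) (nat_lit 1) (nat_lit 4) (nat_lit 414) (nat_lit 309) (nat_lit 297))) (XT.nd (nat_lit 78) (nat_lit 0) (nat_lit 0) (XT.lf (nat_lit 0) (nat_lit 73558500464) (nat_lit 152) (nat_lit 124817321004) (nat_lit 0) (nat_lit 72942432931) (nat_lit 1) (nat_lit 5) (nat_lit 3) (nat_lit 4) (nat_lit 1) (nat_lit 4) (nat_lit 415) (nat_lit 309) (nat_lit 296)) (XT.nd (nat_lit 78) (nat_lit 0) (nat_lit 0) (XT.lf (nat_lit 0) (nat_lit 81816214356) (nat_lit 152) (nat_lit 129837615707) (nat_lit 0) (nat_lit 81173609255)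 (nat_lit 1) (nat_lit 5) (nat_lit 3) (nat_lit 4) (nat_lit 1) (nat_lit 4) (nat_lit 416) (nat_lit 309) (nat_lit 295)) (XT.lf (nat_lit 0) (nat_lit 90659277694) (nat_lit 152) (nat_lit 135412008029) (nat_lit 0) (nat_lit 89992100770) (nat_lit 1) (nat_lit 5) (nat_lit 3) (nat_lit 4) (nat_lit 1) (nat_lit 4) (nat_lit 417) (nat_lit 309) (nat_lit 294))))) (XT.nd (nat_lit 156) (nat_lit 0) (nat_lit 0) (XT.nd (nat_lit 78) (nat_lit 0) (nat_lit 0) (XT.lf (nat_lit 0) (nat_lit 100140093817) (nat_lit 152) (nat_lit 141573531406) (nat_lit 0) (nat_lit 99450165206) (nat_lit 1) (nat_lit 5) (nat_lit 3) (nat_lit 4) (nat_lit 1) (nat_lit 4) (nat_lit 418) (nat_lit 309) (nat_lit 293)) (XT.lf (nat_lit 0) (nat_lit 110314845339) (nat_lit 152) (nat_lit 148358698569) (nat_lit 0) (nat_lit 109603850350) (nat_lit 1) (nat_lit 5) (nat_lit 3) (nat_lit 4) (nat_lit 1) (nat_lit 4) (nat_lit 419) (nat_lit 309) (nat_lit 292))) (XT.nd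 (nat_lit 78) (nat_lit 0) (nat_lit 0) (XT.lf (nat_lit 0) (nat_lit 121243827083) (nat_lit 152) (nat_lit 155807717915) (nat_lit 0) (nat_lit 120513326190) (nat_lit 1) (nat_lit 5) (nat_lit 3) (nat_lit 4) (nat_lit 1) (nat_lit 4) (nat_lit 420) (nat_lit 309) (nat_lit 291)) (XT.nd (nat_lit 78) (nat_lit 0) (nat_lit 0) (XT.lf (nat_lit 0) (nat_lit 132991803387) (nat_lit 152) (nat_lit 163964731783) (nat_lit 0) (nat_lit 132243241470) (nat_lit 1) (nat_lit 5) (nat_lit 3) (nat_lit 4) (nat_lit 1) (nat_lit 4) (nat_lit 421) (nat_lit 309) (nat_lit 290)) (XT.lf (nat_lit 0) (nat_lit 145628391887) (nat_lit 152) (nat_lit 172878078032) (nat_lit 0) (nat_lit 144863106801) (nat_lit 1) (nat_lit 5) (nat_lit 3) (nat_lit 4) (nat_lit 1) (nat_lit 4) (nat_lit 422) (nat_lit 309) (nat_lit 289))))))))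
noncomputable def xc23 : XT := (XT.nd (nat_lit 1482) (nat_lit 0) (nat_lit 0) (XT.nd (nat_lit 702) (nat_lit 0) (nat_lit 0) (XT.nd (nat_lit 312) (nat_lit 0) (nat_lit 0) (XT.nd (nat_lit 156) (nat_lit 0) (nat_lit 0) (XT.nd (nat_lit 78) (nat_lit 0) (nat_lit 0) (XT.lf (nat_lit 0) (nat_lit 159228476070) (nat_lit 152) (nat_lit 182600576491) (nat_lit 0) (nat_lit 158447706568) (nat_lit 1) (nat_lit 5) (nat_lit 3) (nat_lit 4) (nat_lit 1) (nat_lit 4) (nat_lit 423) (nat_lit 309) (nat_lit 288)) (XT.lf (nat_lit 0) (nat_lit 173872649029) (nat_lit 152) (nat_lit 193189841966) (nat_lit 0) (nat_lit 173077542105) (nat_lit 1) (nat_lit 5) (nat_lit 3) (nat_lit 4) (nat_lit 1) (nat_lit 4) (nat_lit 424) (nat_lit 309) (nat_lit 287))) (XT.nd (nat_lit 78) (nat_lit 0) (nat_lit 0) (XT.lf (nat_lit 0) (nat_lit 189647691047) (nat_lit 152) (nat_lit 204708625661) (nat_lit 0) (nat_lit 188839308732) (nat_lit 1) (nat_lit 5) (nat_lit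 3) (nat_lit 4) (nat_lit 1) (nat_lit 4) (nat_lit 425) (nat_lit 309) (nat_lit 286)) (XT.lf (nat_lit 0) (nat_lit 206647083855) (nat_lit 152) (nat_lit 217225187033) (nat_lit 0) (nat_lit 205826409511) (nat_lit 1) (nat_lit 5) (nat_lit 3) (nat_lit 4) (nat_lit 1) (nat_lit 4) (nat_lit 426) (nat_lit 309) (nat_lit 285)))) (XT.nd (nat_lit 156) (nat_lit 0) (nat_lit 0) (XT.nd (nat_lit 78) (nat_lit 0) (nat_lit 0) (XT.lf (nat_lit 0) (nat_lit 224971564596) (nat_lit 152) (nat_lit 230813698299) (nat_lit 0) (nat_lit 224139508743) (nat_lit 1) (nat_lit 5) (nat_lit 3) (nat_lit 4) (nat_lit 1) (nat_lit 4) (nat_lit 427) (nat_lit 309) (nat_lit 284)) (XT.lf (nat_lit 0) (nat_lit 244729722784) (nat_lit 152) (nat_lit 245554683970) (nat_lit 0) (nat_lit 243887128498) (nat_lit 1) (nat_lit 5) (nat_lit 3) (nat_lit 4) (nat_lit 1) (nat_lit 4) (nat_lit 428) (nat_lit 309) (nat_lit 283))) (XT.nd (nat_lit 78) (nat_lit 0) (nat_lit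 0) (XT.lf (nat_lit 0) (nat_lit 266038643803) (nat_lit 152) (nat_lit 261535498034) (nat_lit 0) (nat_lit 265186291708) (nat_lit 1) (nat_lit 5) (nat_lit 3) (nat_lit 4) (nat_lit 1) (nat_lit 4) (nat_lit 429) (nat_lit 309) (nat_lit 282)) (XT.nd (nat_lit 78) (nat_lit 0) (nat_lit 0) (XT.lf (nat_lit 0) (nat_lit 289024602738) (nat_lit 152) (nat_lit 278850841613) (nat_lit 0) (nat_lit 288163215635) (nat_lit 1) (nat_lit 5) (nat_lit 3) (nat_lit 4) (nat_lit 1) (nat_lit 4) (nat_lit 430) (nat_lit 309) (nat_lit 281)) (XT.lf (nat_lit 0) (nat_lit 313823812681) (nat_lit 152) (nat_lit 297603324149) (nat_lit 0) (nat_lit 312954059830) (nat_lit 1) (nat_lit 5) (nat_lit 3) (nat_lit 4) (nat_lit 1) (nat_lit 4) (nat_lit 431) (nat_lit 309) (nat_lit 280)))))) (XT.nd (nat_lit 390) (nat_lit 0) (nat_lit 0) (XT.nd (nat_lit 156) (nat_lit 0) (nat_lit 0) (XT.nd (nat_lit 78) (nat_lit 0) (nat_lit 0) (XT.lf (nat_lit 0) (nat_lit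 340583231912) (nat_lit 152) (nat_lit 317904071465) (nat_lit 0) (nat_lit 339705732998) (nat_lit 1) (nat_lit 5) (nat_lit 3) (nat_lit 4) (nat_lit 1) (nat_lit 4) (nat_lit 432) (nat_lit 309) (nat_lit 279)) (XT.lf (nat_lit 0) (nat_lit 369461434768) (nat_lit 152) (nat_lit 339873384286) (nat_lit 0) (nat_lit 368576763573) (nat_lit 1) (nat_lit 5) (nat_lit 3) (nat_lit 4) (nat_lit 1) (nat_lit 4) (nat_lit 433) (nat_lit 309) (nat_lit 278))) (XT.nd (nat_lit 78) (nat_lit 0) (nat_lit 0) (XT.lf (nat_lit 0) (nat_lit 400629551340) (nat_lit 152) (nat_lit 363641451133) (nat_lit 0) (nat_lit 399738239144) (nat_lit 1) (nat_lit 5) (nat_lit 3) (nat_lit 4) (nat_lit 1) (nat_lit 4) (nat_lit 434) (nat_lit 309) (nat_lit 277)) (XT.nd (nat_lit 78) (nat_lit 0) (nat_lit 0) (XT.lf (nat_lit 0) (nat_lit 434272281577) (nat_lit 152) (nat_lit 389349119809) (nat_lit 0) (nat_lit 433374820306) (nat_lit 1) (nat_lit 5) (nat_lit 3)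 (nat_lit 4) (nat_lit 1) (nat_lit 4) (nat_lit 435) (nat_lit 309) (nat_lit 276)) (XT.lf (nat_lit 0) (nat_lit 470588989807) (nat_lit 152) (nat_lit 417148732053) (nat_lit 0) (nat_lit 469685834949) (nat_lit 1) (nat_lit 5) (nat_lit 3) (nat_lit 4) (nat_lit 1) (nat_lit 4) (nat_lit 436) (nat_lit 309) (nat_lit 275))))) (XT.nd (nat_lit 156) (nat_lit 0) (nat_lit 0) (XT.nd (nat_lit 78) (nat_lit 0) (nat_lit 0) (XT.lf (nat_lit 0) (nat_lit 509794886153) (nat_lit 152) (nat_lit 447205026310) (nat_lit 0) (nat_lit 508886459455) (nat_lit 1) (nat_lit 5) (nat_lit 3) (nat_lit 4) (nat_lit 1) (nat_lit 4) (nat_lit 437) (nat_lit 309) (nat_lit 274)) (XT.lf (nat_lit 0) (nat_lit 552122301853) (nat_lit 152) (nat_lit 479696113952) (nat_lit 0) (nat_lit 551208993820) (nat_lit 1) (nat_lit 5) (nat_lit 3) (nat_lit 4) (nat_lit 1) (nat_lit 4) (nat_lit 438) (nat_lit 309) (nat_lit 273))) (XT.nd (nat_lit 78) (nat_lit 0) (nat_lit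 0) (XT.lf (nat_lit 0) (nat_lit 597822066036) (nat_lit 152) (nat_lit 514814534759) (nat_lit 0) (nat_lit 596904238250) (nat_lit 1) (nat_lit 5) (nat_lit 3) (nat_lit 4) (nat_lit 1) (nat_lit 4) (nat_lit 439) (nat_lit 309) (nat_lit 272)) (XT.nd (nat_lit 78) (nat_lit 0) (nat_lit 0) (XT.lf (nat_lit 0) (nat_lit 647164992120) (nat_lit 152) (nat_lit 552768397890) (nat_lit 0) (nat_lit 646242979377) (nat_lit 1) (nat_lit 5) (nat_lit 3) (nat_lit 4) (nat_lit 1) (nat_lit 4) (nat_lit 440) (nat_lit 309) (nat_lit 271)) (XT.lf (nat_lit 0) (nat_lit 700443482630) (nat_lit 152) (nat_lit 593782615127) (nat_lit 0) (nat_lit 699517594927) (nat_lit 1) (nat_lit 5) (nat_lit 3) (nat_lit 4) (nat_lit 1) (nat_lit 4) (nat_lit 441) (nat_lit 309) (nat_lit 270))))))) (XT.nd (nat_lit 780) (nat_lit 0) (nat_lit 0) (XT.nd (nat_lit 390) (nat_lit 0) (nat_lit 0) (XT.nd (nat_lit 156) (nat_lit 0) (nat_lit 0) (XT.nd (nat_lit 78) (nat_lit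 0) (nat_lit 0) (XT.lf (nat_lit 0) (nat_lit 757973261954) (nat_lit 152) (nat_lit 638100233683) (nat_lit 0) (nat_lit 757043786325) (nat_lit 1) (nat_lit 5) (nat_lit 3) (nat_lit 4) (nat_lit 1) (nat_lit 4) (nat_lit 442) (nat_lit 309) (nat_lit 269)) (XT.lf (nat_lit 0) (nat_lit 820095247303) (nat_lit 152) (nat_lit 685983876483) (nat_lit 0) (nat_lit 819162449520) (nat_lit 1) (nat_lit 5) (nat_lit 3) (nat_lit 4) (nat_lit 1) (nat_lit 4) (nat_lit 443) (nat_lit 309) (nat_lit 268))) (XT.nd (nat_lit 78) (nat_lit 0) (nat_lit 0) (XT.lf (nat_lit 0) (nat_lit 887177568960) (nat_lit 152) (nat_lit 737717298447) (nat_lit 0) (nat_lit 886241695109) (nat_lit 1) (nat_lit 5) (nat_lit 3) (nat_lit 4) (nat_lit 1) (nat_lit 4) (nat_lit 444) (nat_lit 309) (nat_lit 267)) (XT.nd (nat_lit 78) (nat_lit 0) (nat_lit 0) (XT.lf (nat_lit 0) (nat_lit 959617751795) (nat_lit 152) (nat_lit 793607068002) (nat_lit 0) (nat_lit 958679029733)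 (nat_lit 1) (nat_lit 5) (nat_lit 3) (nat_lit 4) (nat_lit 1) (nat_lit 4) (nat_lit 445) (nat_lit 309) (nat_lit 266)) (XT.lf (nat_lit 0) (nat_lit 1037845070965) (nat_lit 152) (nat_lit 853984383783) (nat_lit 0) (nat_lit 1036903711670) (nat_lit 1) (nat_lit 5) (nat_lit 3) (nat_lit 4) (nat_lit 1) (nat_lit 4) (nat_lit 446) (nat_lit 309) (nat_lit 265))))) (XT.nd (nat_lit 156) (nat_lit 0) (nat_lit 0) (XT.nd (nat_lit 78) (nat_lit 0) (nat_lit 0) (XT.lf (nat_lit 0) (nat_lit 1122323095769) (nat_lit 152) (nat_lit 919207037289) (nat_lit 0) (nat_lit 1121379294591) (nat_lit 1) (nat_lit 5) (nat_lit 3) (nat_lit 4) (nat_lit 1) (nat_lit 4) (nat_lit 447) (nat_lit 309) (nat_lit 264)) (XT.lf (nat_lit 0) (nat_lit 1213552436724) (nat_lit 152) (nat_lit 989661533135) (nat_lit 0) (nat_lit 1212606374544) (nat_lit 1) (nat_lit 5) (nat_lit 3) (nat_lit 4) (nat_lit 1) (nat_lit 4) (nat_lit 448) (nat_lit 309) (nat_lit 263)))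 (XT.nd (nat_lit 78) (nat_lit 0) (nat_lit 0) (XT.lf (nat_lit 0) (nat_lit 1312073712146) (nat_lit 152) (nat_lit 1065765379443) (nat_lit 0) (nat_lit 1311125556446) (nat_lit 1) (nat_lit 5) (nat_lit 3) (nat_lit 4) (nat_lit 1) (nat_lit 4) (nat_lit 449) (nat_lit 309) (nat_lit 262)) (XT.nd (nat_lit 78) (nat_lit 0) (nat_lit 0) (XT.lf (nat_lit 0) (nat_lit 1418470751817) (nat_lit 152) (nat_lit 1147969561971) (nat_lit 0) (nat_lit 1417520657673) (nat_lit 1) (nat_lit 5) (nat_lit 3) (nat_lit 4) (nat_lit 1) (nat_lit 4) (nat_lit 450) (nat_lit 309) (nat_lit 261)) (XT.lf (nat_lit 0) (nat_lit 1533374056713) (nat_lit 152) (nat_lit 1236761216614) (nat_lit 0) (nat_lit 1532422167712) (nat_lit 1) (nat_lit 5) (nat_lit 3) (nat_lit 4) (nat_lit 1) (nat_lit 4) (nat_lit 451) (nat_lit 309) (nat_lit 260)))))) (XT.nd (nat_lit 390) (nat_lit 0) (nat_lit 0) (XT.nd (nat_lit 156) (nat_lit 0) (nat_lit 0) (XT.nd (nat_lit 78)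 (nat_lit 0) (nat_lit 0) (XT.lf (nat_lit 0) (nat_lit 1657464535305) (nat_lit 152) (nat_lit 1332666516141) (nat_lit 0) (nat_lit 1656510984400) (nat_lit 1) (nat_lit 5) (nat_lit 3) (nat_lit 4) (nat_lit 1) (nat_lit 4) (nat_lit 452) (nat_lit 309) (nat_lit 259)) (XT.lf (nat_lit 0) (nat_lit 1791477538580) (nat_lit 152) (nat_lit 1436253788252) (nat_lit 0) (nat_lit 1790522448875) (nat_lit 1) (nat_lit 5) (nat_lit 3) (nat_lit 4) (nat_lit 1) (nat_lit 4) (nat_lit 453) (nat_lit 309) (nat_lit 258))) (XT.nd (nat_lit 78) (nat_lit 0) (nat_lit 0) (XT.lf (nat_lit 0) (nat_lit 1936207217666) (nat_lit 152) (nat_lit 1548136883449) (nat_lit 0) (nat_lit 1935250703147) (nat_lit 1) (nat_lit 5) (nat_lit 3) (nat_lit 4) (nat_lit 1) (nat_lit 4) (nat_lit 454) (nat_lit 309) (nat_lit 257)) (XT.nd (nat_lit 78) (nat_lit 0) (nat_lit 0) (XT.lf (nat_lit 0) (nat_lit 2092511229923) (nat_lit 152) (nat_lit 1668978812666) (nat_lit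 0) (nat_lit 2091553396130) (nat_lit 1) (nat_lit 5) (nat_lit 3) (nat_lit 4) (nat_lit 1) (nat_lit 4) (nat_lit 455) (nat_lit 309) (nat_lit 256)) (XT.lf (nat_lit 0) (nat_lit 2261315821348) (nat_lit 152) (nat_lit 1799495676225) (nat_lit 0) (nat_lit 2260356766006) (nat_lit 1) (nat_lit 5) (nat_lit 3) (nat_lit 4) (nat_lit 1) (nat_lit 4) (nat_lit 456) (nat_lit 309) (nat_lit 255))))) (XT.nd (nat_lit 156) (nat_lit 0) (nat_lit 0) (XT.nd (nat_lit 78) (nat_lit 0) (nat_lit 0) (XT.lf (nat_lit 0) (nat_lit 2443621315446) (nat_lit 152) (nat_lit 1940460907391) (nat_lit 0) (nat_lit 2442661129040) (nat_lit 1) (nat_lit 5) (nat_lit 3) (nat_lit 4) (nat_lit 1) (nat_lit 4) (nat_lit 457) (nat_lit 309) (nat_lit 254)) (XT.lf (nat_lit 0) (nat_lit 2640508041071) (nat_lit 152) (nat_lit 2092709855683) (nat_lit 0) (nat_lit 2639546807384) (nat_lit 1) (nat_lit 5) (nat_lit 3) (nat_lit 4) (nat_lit 1) (nat_lit 4) (nat_lit 458)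 (nat_lit 309) (nat_lit 253))) (XT.nd (nat_lit 78) (nat_lit 0) (nat_lit 0) (XT.lf (nat_lit 0) (nat_lit 2853142734375) (nat_lit 152) (nat_lit 2257144737089) (nat_lit 0) (nat_lit 2852180530983) (nat_lit 1) (nat_lit 5) (nat_lit 3) (nat_lit 4) (nat_lit 1) (nat_lit 4) (nat_lit 459) (nat_lit 309) (nat_lit 252)) (XT.nd (nat_lit 78) (nat_lit 0) (nat_lit 0) (XT.lf (nat_lit 0) (nat_lit 3082785452800) (nat_lit 152) (nat_lit 2434739980538) (nat_lit 0) (nat_lit 3081822351533) (nat_lit 1) (nat_lit 5) (nat_lit 3) (nat_lit 4) (nat_lit 1) (nat_lit 4) (nat_lit 460) (nat_lit 309) (nat_lit 251)) (XT.lf (nat_lit 0) (nat_lit 3330797042084) (nat_lit 152) (nat_lit 2626548002286) (nat_lit 0) (nat_lit 3329833109452) (nat_lit 1) (nat_lit 5) (nat_lit 3) (nat_lit 4) (nat_lit 1) (nat_lit 4) (nat_lit 461) (nat_lit 309) (nat_lit 250))))))))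
noncomputable def xc24 : XT := (XT.nd (nat_lit 1482) (nat_lit 0) (nat_lit 0) (XT.nd (nat_lit 702) (nat_lit 0) (nat_lit 0) (XT.nd (nat_lit 312) (nat_lit 0) (nat_lit 0) (XT.nd (nat_lit 156) (nat_lit 152) (nat_lit 0) (XT.nd (nat_lit 78) (nat_lit 0) (nat_lit 0) (XT.lf (nat_lit 0) (nat_lit 37084064981) (nat_lit 76) (nat_lit 3447665948) (nat_lit 76) (nat_lit 3447665948) (nat_lit 3) (nat_lit 4) (nat_lit 4) (nat_lit 5) (nat_lit 4) (nat_lit 4) (nat_lit 400) (nat_lit 310) (nat_lit 310)) (XT.lf (nat_lit 0) (nat_lit 88371596118) (nat_lit 76) (nat_lit 3189697703) (nat_lit 76) (nat_lit 3105516049) (nat_lit 3) (nat_lit 4) (nat_lit 4) (nat_lit 5) (nat_lit 4) (nat_lit 4) (nat_lit 401) (nat_lit 310) (nat_lit 309))) (XT.nd (nat_lit 78) (nat_lit 0) (nat_lit 0) (XT.lf (nat_lit 0) (nat_lit 783299220) (nat_lit 152) (nat_lit 100505487888) (nat_lit 0) (nat_lit 633181044) (nat_lit 1) (nat_lit 5) (nat_lit 3) (nat_lit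 4) (nat_lit 1) (nat_lit 4) (nat_lit 402) (nat_lit 310) (nat_lit 308)) (XT.lf (nat_lit 0) (nat_lit 4870183756) (nat_lit 152) (nat_lit 100223299904) (nat_lit 0) (nat_lit 4653239468) (nat_lit 1) (nat_lit 5) (nat_lit 3) (nat_lit 4) (nat_lit 1) (nat_lit 4) (nat_lit 403) (nat_lit 310) (nat_lit 307)))) (XT.nd (nat_lit 156) (nat_lit 0) (nat_lit 0) (XT.nd (nat_lit 78) (nat_lit 0) (nat_lit 0) (XT.lf (nat_lit 0) (nat_lit 9094482270) (nat_lit 152) (nat_lit 100302492458) (nat_lit 0) (nat_lit 8815661953) (nat_lit 1) (nat_lit 5) (nat_lit 3) (nat_lit 4) (nat_lit 1) (nat_lit 4) (nat_lit 404) (nat_lit 310) (nat_lit 306)) (XT.lf (nat_lit 0) (nat_lit 13481227642) (nat_lit 152) (nat_lit 100743534841) (nat_lit 0) (nat_lit 13145114706) (nat_lit 1) (nat_lit 5) (nat_lit 3) (nat_lit 4) (nat_lit 1) (nat_lit 4) (nat_lit 405) (nat_lit 310) (nat_lit 305))) (XT.nd (nat_lit 78) (nat_lit 0) (nat_lit 0) (XT.lf (nat_lit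 0) (nat_lit 18056415402) (nat_lit 152) (nat_lit 101549040637) (nat_lit 0) (nat_lit 17667253743) (nat_lit 1) (nat_lit 5) (nat_lit 3) (nat_lit 4) (nat_lit 1) (nat_lit 4) (nat_lit 406) (nat_lit 310) (nat_lit 304)) (XT.nd (nat_lit 78) (nat_lit 0) (nat_lit 0) (XT.lf (nat_lit 0) (nat_lit 22847157772) (nat_lit 152) (nat_lit 102723783214) (nat_lit 0) (nat_lit 22408876926) (nat_lit 1) (nat_lit 5) (nat_lit 3) (nat_lit 4) (nat_lit 1) (nat_lit 4) (nat_lit 407) (nat_lit 310) (nat_lit 303)) (XT.lf (nat_lit 0) (nat_lit 27881844337) (nat_lit 152) (nat_lit 104274724009) (nat_lit 0) (nat_lit 27398082763) (nat_lit 1) (nat_lit 5) (nat_lit 3) (nat_lit 4) (nat_lit 1) (nat_lit 4) (nat_lit 408) (nat_lit 310) (nat_lit 302)))))) (XT.nd (nat_lit 390) (nat_lit 0) (nat_lit 0) (XT.nd (nat_lit 156) (nat_lit 0) (nat_lit 0) (XT.nd (nat_lit 78) (nat_lit 0) (nat_lit 0) (XT.lf (nat_lit 0) (nat_lit 33190310276) (nat_lit 152)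 (nat_lit 106211053782) (nat_lit 0) (nat_lit 32664436916) (nat_lit 1) (nat_lit 5) (nat_lit 3) (nat_lit 4) (nat_lit 1) (nat_lit 4) (nat_lit 409) (nat_lit 310) (nat_lit 301)) (XT.lf (nat_lit 0) (nat_lit 38804013166) (nat_lit 152) (nat_lit 108544247080) (nat_lit 0) (nat_lit 38239147412) (nat_lit 1) (nat_lit 5) (nat_lit 3) (nat_lit 4) (nat_lit 1) (nat_lit 4) (nat_lit 410) (nat_lit 310) (nat_lit 300))) (XT.nd (nat_lit 78) (nat_lit 0) (nat_lit 0) (XT.lf (nat_lit 0) (nat_lit 44756219394) (nat_lit 152) (nat_lit 111288130234) (nat_lit 0) (nat_lit 44155249572) (nat_lit 1) (nat_lit 5) (nat_lit 3) (nat_lit 4) (nat_lit 1) (nat_lit 4) (nat_lit 411) (nat_lit 310) (nat_lit 299)) (XT.nd (nat_lit 78) (nat_lit 0) (nat_lit 0) (XT.lf (nat_lit 0) (nat_lit 51082201293) (nat_lit 152) (nat_lit 114458963292) (nat_lit 0) (nat_lit 50447801778) (nat_lit 1) (nat_lit 5) (nat_lit 3) (nat_lit 4) (nat_lit 1) (nat_lit 4)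 (nat_lit 412) (nat_lit 310) (nat_lit 298)) (XT.lf (nat_lit 0) (nat_lit 57819446164) (nat_lit 152) (nat_lit 118075536377) (nat_lit 0) (nat_lit 57154093228) (nat_lit 1) (nat_lit 5) (nat_lit 3) (nat_lit 4) (nat_lit 1) (nat_lit 4) (nat_lit 413) (nat_lit 310) (nat_lit 297))))) (XT.nd (nat_lit 156) (nat_lit 0) (nat_lit 0) (XT.nd (nat_lit 78) (nat_lit 0) (nat_lit 0) (XT.lf (nat_lit 0) (nat_lit 65007878420) (nat_lit 152) (nat_lit 122159281031) (nat_lit 0) (nat_lit 64313864911) (nat_lit 1) (nat_lit 5) (nat_lit 3) (nat_lit 4) (nat_lit 1) (nat_lit 4) (nat_lit 414) (nat_lit 310) (nat_lit 296)) (XT.lf (nat_lit 0) (nat_lit 72690096178) (nat_lit 152) (nat_lit 126734397224) (nat_lit 0) (nat_lit 71969545101) (nat_lit 1) (nat_lit 5) (nat_lit 3) (nat_lit 4) (nat_lit 1) (nat_lit 4) (nat_lit 415) (nat_lit 310) (nat_lit 295))) (XT.nd (nat_lit 78) (nat_lit 0) (nat_lit 0) (XT.lf (nat_lit 0) (nat_lit 80911623693)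 (nat_lit 152) (nat_lit 131827996755) (nat_lit 0) (nat_lit 80166500793) (nat_lit 1) (nat_lit 5) (nat_lit 3) (nat_lit 4) (nat_lit 1) (nat_lit 4) (nat_lit 416) (nat_lit 310) (nat_lit 294)) (XT.nd (nat_lit 78) (nat_lit 0) (nat_lit 0) (XT.lf (nat_lit 0) (nat_lit 89721181126) (nat_lit 152) (nat_lit 137470263918) (nat_lit 0) (nat_lit 88953306538) (nat_lit 1) (nat_lit 5) (nat_lit 3) (nat_lit 4) (nat_lit 1) (nat_lit 4) (nat_lit 417) (nat_lit 310) (nat_lit 293)) (XT.lf (nat_lit 0) (nat_lit 99170973263) (nat_lit 152) (nat_lit 143694634369) (nat_lit 0) (nat_lit 98382032298) (nat_lit 1) (nat_lit 5) (nat_lit 3) (nat_lit 4) (nat_lit 1) (nat_lit 4) (nat_lit 418) (nat_lit 310) (nat_lit 292))))))) (XT.nd (nat_lit 702) (nat_lit 0) (nat_lit 0) (XT.nd (nat_lit 312) (nat_lit 0) (nat_lit 0) (XT.nd (nat_lit 156) (nat_lit 0) (nat_lit 0) (XT.nd (nat_lit 78) (nat_lit 0) (nat_lit 0) (XT.lf (nat_lit 0) (nat_lit 109316998872)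 (nat_lit 152) (nat_lit 150537993268) (nat_lit 0) (nat_lit 108508552002) (nat_lit 1) (nat_lit 5) (nat_lit 3) (nat_lit 4) (nat_lit 1) (nat_lit 4) (nat_lit 419) (nat_lit 310) (nat_lit 291)) (XT.lf (nat_lit 0) (nat_lit 120219382549) (nat_lit 152) (nat_lit 158040893852) (nat_lit 0) (nat_lit 119392874656) (nat_lit 1) (nat_lit 5) (nat_lit 3) (nat_lit 4) (nat_lit 1) (nat_lit 4) (nat_lit 420) (nat_lit 310) (nat_lit 290))) (XT.nd (nat_lit 78) (nat_lit 0) (nat_lit 0) (XT.lf (nat_lit 0) (nat_lit 131942731012) (nat_lit 152) (nat_lit 166247797754) (nat_lit 0) (nat_lit 131099499950) (nat_lit 1) (nat_lit 5) (nat_lit 3) (nat_lit 4) (nat_lit 1) (nat_lit 4) (nat_lit 421) (nat_lit 310) (nat_lit 289)) (XT.lf (nat_lit 0) (nat_lit 144556515956) (nat_lit 152) (nat_lit 175207338479) (nat_lit 0) (nat_lit 143697800477) (nat_lit 1) (nat_lit 5) (nat_lit 3) (nat_lit 4) (nat_lit 1) (nat_lit 4) (nat_lit 422) (nat_lit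 310) (nat_lit 288)))) (XT.nd (nat_lit 156) (nat_lit 0) (nat_lit 0) (XT.nd (nat_lit 78) (nat_lit 0) (nat_lit 0) (XT.lf (nat_lit 0) (nat_lit 158135485736) (nat_lit 152) (nat_lit 184972609602) (nat_lit 0) (nat_lit 157262432835) (nat_lit 1) (nat_lit 5) (nat_lit 3) (nat_lit 4) (nat_lit 1) (nat_lit 4) (nat_lit 423) (nat_lit 310) (nat_lit 287)) (XT.lf (nat_lit 0) (nat_lit 172760108321) (nat_lit 152) (nat_lit 195601479395) (nat_lit 0) (nat_lit 171873780029) (nat_lit 1) (nat_lit 5) (nat_lit 3) (nat_lit 4) (nat_lit 1) (nat_lit 4) (nat_lit 424) (nat_lit 310) (nat_lit 286))) (XT.nd (nat_lit 78) (nat_lit 0) (nat_lit 0) (XT.lf (nat_lit 0) (nat_lit 188517048141) (nat_lit 152) (nat_lit 207156933754) (nat_lit 0) (nat_lit 187618427820) (nat_lit 1) (nat_lit 5) (nat_lit 3) (nat_lit 4) (nat_lit 1) (nat_lit 4) (nat_lit 425) (nat_lit 310) (nat_lit 285)) (XT.nd (nat_lit 78) (nat_lit 0) (nat_lit 0) (XT.lf (nat_lit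 0) (nat_lit 205499679655) (nat_lit 152) (nat_lit 219707449445) (nat_lit 0) (nat_lit 204589677826) (nat_lit 1) (nat_lit 5) (nat_lit 3) (nat_lit 4) (nat_lit 1) (nat_lit 4) (nat_lit 426) (nat_lit 310) (nat_lit 284)) (XT.lf (nat_lit 0) (nat_lit 223808640678) (nat_lit 152) (nat_lit 233327399896) (nat_lit 0) (nat_lit 222888100416) (nat_lit 1) (nat_lit 5) (nat_lit 3) (nat_lit 4) (nat_lit 1) (nat_lit 4) (nat_lit 427) (nat_lit 310) (nat_lit 283)))))) (XT.nd (nat_lit 390) (nat_lit 0) (nat_lit 0) (XT.nd (nat_lit 156) (nat_lit 0) (nat_lit 0) (XT.nd (nat_lit 78) (nat_lit 0) (nat_lit 0) (XT.lf (nat_lit 0) (nat_lit 243552428759) (nat_lit 152) (nat_lit 248097495922) (nat_lit 0) (nat_lit 242622130687) (nat_lit 1) (nat_lit 5) (nat_lit 3) (nat_lit 4) (nat_lit 1) (nat_lit 4) (nat_lit 428) (nat_lit 310) (nat_lit 282)) (XT.lf (nat_lit 0) (nat_lit 264848044121) (nat_lit 152) (nat_lit 264105264019) (nat_lit 0)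 (nat_lit 263908711042) (nat_lit 1) (nat_lit 5) (nat_lit 3) (nat_lit 4) (nat_lit 1) (nat_lit 4) (nat_lit 429) (nat_lit 310) (nat_lit 281))) (XT.nd (nat_lit 78) (nat_lit 0) (nat_lit 0) (XT.lf (nat_lit 0) (nat_lit 287821683005) (nat_lit 152) (nat_lit 281445565036) (nat_lit 0) (nat_lit 286873984177) (nat_lit 1) (nat_lit 5) (nat_lit 3) (nat_lit 4) (nat_lit 1) (nat_lit 4) (nat_lit 430) (nat_lit 310) (nat_lit 280)) (XT.nd (nat_lit 78) (nat_lit 0) (nat_lit 0) (XT.lf (nat_lit 0) (nat_lit 312609485492) (nat_lit 152) (nat_lit 300221156312) (nat_lit 0) (nat_lit 311654040602) (nat_lit 1) (nat_lit 5) (nat_lit 3) (nat_lit 4) (nat_lit 1) (nat_lit 4) (nat_lit 431) (nat_lit 310) (nat_lit 279)) (XT.lf (nat_lit 0) (nat_lit 339358342265) (nat_lit 152) (nat_lit 320543300608) (nat_lit 0) (nat_lit 338395725094) (nat_lit 1) (nat_lit 5) (nat_lit 3) (nat_lit 4) (nat_lit 1) (nat_lit 4) (nat_lit 432) (nat_lit 310)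 (nat_lit 278))))) (XT.nd (nat_lit 156) (nat_lit 0) (nat_lit 0) (XT.nd (nat_lit 78) (nat_lit 0) (nat_lit 0) (XT.lf (nat_lit 0) (nat_lit 368226765067) (nat_lit 152) (nat_lit 342532425449) (nat_lit 0) (nat_lit 367257506895) (nat_lit 1) (nat_lit 5) (nat_lit 3) (nat_lit 4) (nat_lit 1) (nat_lit 4) (nat_lit 433) (nat_lit 310) (nat_lit 277)) (XT.lf (nat_lit 0) (nat_lit 399385826033) (nat_lit 152) (nat_lit 366318836758) (nat_lit 0) (nat_lit 398410418786) (nat_lit 1) (nat_lit 5) (nat_lit 3) (nat_lit 4) (nat_lit 1) (nat_lit 4) (nat_lit 434) (nat_lit 310) (nat_lit 276))) (XT.nd (nat_lit 78) (nat_lit 0) (nat_lit 0) (XT.lf (nat_lit 0) (nat_lit 433020171450) (nat_lit 152) (nat_lit 392043491046) (nat_lit 0) (nat_lit 432039070615) (nat_lit 1) (nat_lit 5) (nat_lit 3) (nat_lit 4) (nat_lit 1) (nat_lit 4) (nat_lit 435) (nat_lit 310) (nat_lit 275)) (XT.nd (nat_lit 78) (nat_lit 0) (nat_lit 0) (XT.lf (nat_lit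 0) (nat_lit 469329115958) (nat_lit 152) (nat_lit 419858830710) (nat_lit 0) (nat_lit 468342743282) (nat_lit 1) (nat_lit 5) (nat_lit 3) (nat_lit 4) (nat_lit 1) (nat_lit 4) (nat_lit 436) (nat_lit 310) (nat_lit 274)) (XT.lf (nat_lit 0) (nat_lit 508527823672) (nat_lit 152) (nat_lit 449929687393) (nat_lit 0) (nat_lit 507536569663) (nat_lit 1) (nat_lit 5) (nat_lit 3) (nat_lit 4) (nat_lit 1) (nat_lit 4) (nat_lit 437) (nat_lit 310) (nat_lit 273))))))))
noncomputable def xc25 : XT := (XT.nd (nat_lit 1482) (nat_lit 0) (nat_lit 0) (XT.nd (nat_lit 702) (nat_lit 0) (nat_lit 0) (XT.nd (nat_lit 312) (nat_lit 0) (nat_lit 0) (XT.nd (nat_lit 156) (nat_lit 0) (nat_lit 0) (XT.nd (nat_lit 78) (nat_lit 0) (nat_lit 0) (XT.lf (nat_lit 0) (nat_lit 550848583231) (nat_lit 152) (nat_lit 482434258762) (nat_lit 0) (nat_lit 549852809468) (nat_lit 1) (nat_lit 5) (nat_lit 3) (nat_lit 4) (nat_lit 1) (nat_lit 4) (nat_lit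 438) (nat_lit 310) (nat_lit 272)) (XT.lf (nat_lit 0) (nat_lit 596542184321) (nat_lit 152) (nat_lit 517565164501) (nat_lit 0) (nat_lit 595542225602) (nat_lit 1) (nat_lit 5) (nat_lit 3) (nat_lit 4) (nat_lit 1) (nat_lit 4) (nat_lit 439) (nat_lit 310) (nat_lit 271))) (XT.nd (nat_lit 78) (nat_lit 0) (nat_lit 0) (XT.lf (nat_lit 0) (nat_lit 645879403837) (nat_lit 152) (nat_lit 555530587755) (nat_lit 0) (nat_lit 644875570158) (nat_lit 1) (nat_lit 5) (nat_lit 3) (nat_lit 4) (nat_lit 1) (nat_lit 4) (nat_lit 440) (nat_lit 310) (nat_lit 270)) (XT.lf (nat_lit 0) (nat_lit 699152610488) (nat_lit 152) (nat_lit 596555508809) (nat_lit 0) (nat_lit 698145188883) (nat_lit 1) (nat_lit 5) (nat_lit 3) (nat_lit 4) (nat_lit 1) (nat_lit 4) (nat_lit 441) (nat_lit 310) (nat_lit 269)))) (XT.nd (nat_lit 156) (nat_lit 0) (nat_lit 0) (XT.nd (nat_lit 78) (nat_lit 0) (nat_lit 0) (XT.lf (nat_lit 0) (nat_lit 756677497350)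 (nat_lit 152) (nat_lit 640883038307) (nat_lit 0) (nat_lit 755666753591) (nat_lit 1) (nat_lit 5) (nat_lit 3) (nat_lit 4) (nat_lit 1) (nat_lit 4) (nat_lit 442) (nat_lit 310) (nat_lit 268)) (XT.lf (nat_lit 0) (nat_lit 818794952642) (nat_lit 152) (nat_lit 688775857906) (nat_lit 0) (nat_lit 817781132814) (nat_lit 1) (nat_lit 5) (nat_lit 3) (nat_lit 4) (nat_lit 1) (nat_lit 4) (nat_lit 443) (nat_lit 310) (nat_lit 267))) (XT.nd (nat_lit 78) (nat_lit 0) (nat_lit 0) (XT.lf (nat_lit 0) (nat_lit 885873079801) (nat_lit 152) (nat_lit 740517776905) (nat_lit 0) (nat_lit 884856411762) (nat_lit 1) (nat_lit 5) (nat_lit 3) (nat_lit 4) (nat_lit 1) (nat_lit 4) (nat_lit 444) (nat_lit 310) (nat_lit 266)) (XT.nd (nat_lit 78) (nat_lit 0) (nat_lit 0) (XT.lf (nat_lit 0) (nat_lit 958309378842) (nat_lit 152) (nat_lit 796415414086) (nat_lit 0) (nat_lit 957290073570) (nat_lit 1) (nat_lit 5) (nat_lit 3) (nat_lit 4) (nat_lit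 1) (nat_lit 4) (nat_lit 445) (nat_lit 310) (nat_lit 265)) (XT.lf (nat_lit 0) (nat_lit 1036533101906) (nat_lit 152) (nat_lit 856800014705) (nat_lit 0) (nat_lit 1035511354752) (nat_lit 1) (nat_lit 5) (nat_lit 3) (nat_lit 4) (nat_lit 1) (nat_lit 4) (nat_lit 446) (nat_lit 310) (nat_lit 264)))))) (XT.nd (nat_lit 390) (nat_lit 0) (nat_lit 0) (XT.nd (nat_lit 156) (nat_lit 0) (nat_lit 0) (XT.nd (nat_lit 78) (nat_lit 0) (nat_lit 0) (XT.lf (nat_lit 0) (nat_lit 1121007796982) (nat_lit 152) (nat_lit 922029413431) (nat_lit 0) (nat_lit 1119983788826) (nat_lit 1) (nat_lit 5) (nat_lit 3) (nat_lit 4) (nat_lit 1) (nat_lit 4) (nat_lit 447) (nat_lit 310) (nat_lit 263)) (XT.lf (nat_lit 0) (nat_lit 1212234054856) (nat_lit 152) (nat_lit 992490154852) (nat_lit 0) (nat_lit 1211207953180) (nat_lit 1) (nat_lit 5) (nat_lit 3) (nat_lit 4) (nat_lit 1) (nat_lit 4) (nat_lit 448) (nat_lit 310) (nat_lit 262))) (XT.nd (nat_lit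 78) (nat_lit 0) (nat_lit 0) (XT.lf (nat_lit 0) (nat_lit 1310752475575) (nat_lit 152) (nat_lit 1068599784100) (nat_lit 0) (nat_lit 1309724435453) (nat_lit 1) (nat_lit 5) (nat_lit 3) (nat_lit 4) (nat_lit 1) (nat_lit 4) (nat_lit 449) (nat_lit 310) (nat_lit 261)) (XT.nd (nat_lit 78) (nat_lit 0) (nat_lit 0) (XT.lf (nat_lit 0) (nat_lit 1417146872001) (nat_lit 152) (nat_lit 1150809321201) (nat_lit 0) (nat_lit 1416117037023) (nat_lit 1) (nat_lit 5) (nat_lit 3) (nat_lit 4) (nat_lit 1) (nat_lit 4) (nat_lit 450) (nat_lit 310) (nat_lit 260)) (XT.lf (nat_lit 0) (nat_lit 1532047729447) (nat_lit 152) (nat_lit 1239605933783) (nat_lit 0) (nat_lit 1531016232565) (nat_lit 1) (nat_lit 5) (nat_lit 3) (nat_lit 4) (nat_lit 1) (nat_lit 4) (nat_lit 451) (nat_lit 310) (nat_lit 259))))) (XT.nd (nat_lit 156) (nat_lit 0) (nat_lit 0) (XT.nd (nat_lit 78) (nat_lit 0) (nat_lit 0) (XT.lf (nat_lit 0) (nat_lit 1656135941883)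 (nat_lit 152) (nat_lit 1335515823993) (nat_lit 0) (nat_lit 1655102906201) (nat_lit 1) (nat_lit 5) (nat_lit 3) (nat_lit 4) (nat_lit 1) (nat_lit 4) (nat_lit 452) (nat_lit 310) (nat_lit 258)) (XT.lf (nat_lit 0) (nat_lit 1790146846864) (nat_lit 152) (nat_lit 1439107346738) (nat_lit 0) (nat_lit 1789112386368) (nat_lit 1) (nat_lit 5) (nat_lit 3) (nat_lit 4) (nat_lit 1) (nat_lit 4) (nat_lit 453) (nat_lit 310) (nat_lit 257))) (XT.nd (nat_lit 78) (nat_lit 0) (nat_lit 0) (XT.lf (nat_lit 0) (nat_lit 1934874583087) (nat_lit 152) (nat_lit 1550994377706) (nat_lit 0) (nat_lit 1933838803318) (nat_lit 1) (nat_lit 5) (nat_lit 3) (nat_lit 4) (nat_lit 1) (nat_lit 4) (nat_lit 454) (nat_lit 310) (nat_lit 256)) (XT.nd (nat_lit 78) (nat_lit 0) (nat_lit 0) (XT.lf (nat_lit 0) (nat_lit 2091176796395) (nat_lit 152) (nat_lit 1671839951156) (nat_lit 0) (nat_lit 2090139795077) (nat_lit 1) (nat_lit 5) (nat_lit 3) (nat_lit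 4) (nat_lit 1) (nat_lit 4) (nat_lit 455) (nat_lit 310) (nat_lit 255)) (XT.lf (nat_lit 0) (nat_lit 2259979722128) (nat_lit 152) (nat_lit 1802360189005) (nat_lit 0) (nat_lit 2258941589745) (nat_lit 1) (nat_lit 5) (nat_lit 3) (nat_lit 4) (nat_lit 1) (nat_lit 4) (nat_lit 456) (nat_lit 310) (nat_lit 254))))))) (XT.nd (nat_lit 48906) (nat_lit 0) (nat_lit 0) (XT.nd (nat_lit 48516) (nat_lit 0) (nat_lit 0) (XT.nd (nat_lit 156) (nat_lit 0) (nat_lit 0) (XT.nd (nat_lit 78) (nat_lit 0) (nat_lit 0) (XT.lf (nat_lit 0) (nat_lit 2442283673918) (nat_lit 152) (nat_lit 1943328544513) (nat_lit 0) (nat_lit 2441244494254) (nat_lit 1) (nat_lit 5) (nat_lit 3) (nat_lit 4) (nat_lit 1) (nat_lit 4) (nat_lit 457) (nat_lit 310) (nat_lit 253)) (XT.lf (nat_lit 0) (nat_lit 2639168971480) (nat_lit 152) (nat_lit 2095580385714) (nat_lit 0) (nat_lit 2638128822111) (nat_lit 1) (nat_lit 5) (nat_lit 3) (nat_lit 4) (nat_lit 1)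 (nat_lit 4) (nat_lit 458) (nat_lit 310) (nat_lit 252))) (XT.nd (nat_lit 78) (nat_lit 0) (nat_lit 0) (XT.lf (nat_lit 0) (nat_lit 2851802342503) (nat_lit 152) (nat_lit 2260017945741) (nat_lit 0) (nat_lit 2850761295260) (nat_lit 1) (nat_lit 5) (nat_lit 3) (nat_lit 4) (nat_lit 1) (nat_lit 4) (nat_lit 459) (nat_lit 310) (nat_lit 251)) (XT.nd (nat_lit 78) (nat_lit 0) (nat_lit 0) (XT.lf (nat_lit 0) (nat_lit 3081443836594) (nat_lit 152) (nat_lit 2437615669393) (nat_lit 0) (nat_lit 3080401957985) (nat_lit 1) (nat_lit 5) (nat_lit 3) (nat_lit 4) (nat_lit 1) (nat_lit 4) (nat_lit 460) (nat_lit 310) (nat_lit 250)) (XT.lf (nat_lit 0) (nat_lit 3329454292236) (nat_lit 152) (nat_lit 2629425987626) (nat_lit 0) (nat_lit 3328411643844) (nat_lit 1) (nat_lit 5) (nat_lit 3) (nat_lit 4) (nat_lit 1) (nat_lit 4) (nat_lit 461) (nat_lit 310) (nat_lit 249))))) (XT.nd (nat_lit 156) (nat_lit 152) (nat_lit 0) (XT.nd (nat_lit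 78) (nat_lit 0) (nat_lit 0) (XT.lf (nat_lit 0) (nat_lit 23926819036) (nat_lit 76) (nat_lit 7045543286) (nat_lit 76) (nat_lit 7045543286) (nat_lit 3) (nat_lit 4) (nat_lit 4) (nat_lit 5) (nat_lit 4) (nat_lit 4) (nat_lit 398) (nat_lit 311) (nat_lit 311)) (XT.lf (nat_lit 0) (nat_lit 60613546138) (nat_lit 76) (nat_lit 10620531893) (nat_lit 76) (nat_lit 10529615706) (nat_lit 3) (nat_lit 4) (nat_lit 4) (nat_lit 5) (nat_lit 4) (nat_lit 4) (nat_lit 399) (nat_lit 311) (nat_lit 310))) (XT.nd (nat_lit 78) (nat_lit 152) (nat_lit 0) (XT.lf (nat_lit 0) (nat_lit 73958762475) (nat_lit 76) (nat_lit 7091725161) (nat_lit 76) (nat_lit 6916627320) (nat_lit 3) (nat_lit 4) (nat_lit 4) (nat_lit 5) (nat_lit 4) (nat_lit 4) (nat_lit 400) (nat_lit 311) (nat_lit 309)) (XT.nd (nat_lit 78) (nat_lit 152) (nat_lit 0) (XT.lf (nat_lit 0) (nat_lit 87968369846) (nat_lit 76) (nat_lit 3483754928) (nat_lit 76) (nat_lit 3230711111)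 (nat_lit 3) (nat_lit 4) (nat_lit 4) (nat_lit 5) (nat_lit 4) (nat_lit 4) (nat_lit 401) (nat_lit 311) (nat_lit 308)) (XT.lf (nat_lit 0) (nat_lit 547991839) (nat_lit 152) (nat_lit 101152695225) (nat_lit 0) (nat_lit 246865897) (nat_lit 1) (nat_lit 5) (nat_lit 3) (nat_lit 4) (nat_lit 1) (nat_lit 4) (nat_lit 402) (nat_lit 311) (nat_lit 307)))))) (XT.nd (nat_lit 390) (nat_lit 0) (nat_lit 0) (XT.nd (nat_lit 156) (nat_lit 0) (nat_lit 0) (XT.nd (nat_lit 78) (nat_lit 0) (nat_lit 0) (XT.lf (nat_lit 0) (nat_lit 4543752921) (nat_lit 152) (nat_lit 101055101268) (nat_lit 0) (nat_lit 4180750949) (nat_lit 1) (nat_lit 5) (nat_lit 3) (nat_lit 4) (nat_lit 1) (nat_lit 4) (nat_lit 403) (nat_lit 311) (nat_lit 306)) (XT.lf (nat_lit 0) (nat_lit 8683677866) (nat_lit 152) (nat_lit 101305214219) (nat_lit 0) (nat_lit 8263383275) (nat_lit 1) (nat_lit 5) (nat_lit 3) (nat_lit 4) (nat_lit 1) (nat_lit 4) (nat_lit 404) (nat_lit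 311) (nat_lit 305))) (XT.nd (nat_lit 78) (nat_lit 0) (nat_lit 0) (XT.lf (nat_lit 0) (nat_lit 12992299564) (nat_lit 152) (nat_lit 101904516228) (nat_lit 0) (nat_lit 12518956251) (nat_lit 1) (nat_lit 5) (nat_lit 3) (nat_lit 4) (nat_lit 1) (nat_lit 4) (nat_lit 405) (nat_lit 311) (nat_lit 304)) (XT.nd (nat_lit 78) (nat_lit 0) (nat_lit 0) (XT.lf (nat_lit 0) (nat_lit 17495150588) (nat_lit 152) (nat_lit 102856558715) (nat_lit 0) (nat_lit 16972688088) (nat_lit 1) (nat_lit 5) (nat_lit 3) (nat_lit 4) (nat_lit 1) (nat_lit 4) (nat_lit 406) (nat_lit 311) (nat_lit 303)) (XT.lf (nat_lit 0) (nat_lit 22218914499) (nat_lit 152) (nat_lit 104166983412) (nat_lit 0) (nat_lit 21650971271) (nat_lit 1) (nat_lit 5) (nat_lit 3) (nat_lit 4) (nat_lit 1) (nat_lit 4) (nat_lit 407) (nat_lit 311) (nat_lit 302))))) (XT.nd (nat_lit 156) (nat_lit 0) (nat_lit 0) (XT.nd (nat_lit 78) (nat_lit 0) (nat_lit 0) (XT.lf (nat_lit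 0) (nat_lit 27191583972) (nat_lit 152) (nat_lit 105843555801) (nat_lit 0) (nat_lit 26581528958) (nat_lit 1) (nat_lit 5) (nat_lit 3) (nat_lit 4) (nat_lit 1) (nat_lit 4) (nat_lit 408) (nat_lit 311) (nat_lit 301)) (XT.lf (nat_lit 0) (nat_lit 32442626679) (nat_lit 152) (nat_lit 107896211124) (nat_lit 0) (nat_lit 31793579270) (nat_lit 1) (nat_lit 5) (nat_lit 3) (nat_lit 4) (nat_lit 1) (nat_lit 4) (nat_lit 409) (nat_lit 311) (nat_lit 300))) (XT.nd (nat_lit 78) (nat_lit 0) (nat_lit 0) (XT.lf (nat_lit 0) (nat_lit 38003159909) (nat_lit 152) (nat_lit 110337113264) (nat_lit 0) (nat_lit 37318008432) (nat_lit 1) (nat_lit 5) (nat_lit 3) (nat_lit 4) (nat_lit 1) (nat_lit 4) (nat_lit 410) (nat_lit 311) (nat_lit 299)) (XT.nd (nat_lit 78) (nat_lit 0) (nat_lit 0) (XT.lf (nat_lit 0) (nat_lit 43906134970) (nat_lit 152) (nat_lit 113180726828) (nat_lit 0) (nat_lit 43187553799) (nat_lit 1) (nat_lit 5) (nat_lit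 3) (nat_lit 4) (nat_lit 1) (nat_lit 4) (nat_lit 411) (nat_lit 311) (nat_lit 298)) (XT.lf (nat_lit 0) (nat_lit 50186532455) (nat_lit 152) (nat_lit 116443902858) (nat_lit 0) (nat_lit 49436997865) (nat_lit 1) (nat_lit 5) (nat_lit 3) (nat_lit 4) (nat_lit 1) (nat_lit 4) (nat_lit 412) (nat_lit 311) (nat_lit 297))))))))
noncomputable def xc26 : XT := (XT.nd (nat_lit 1482) (nat_lit 0) (nat_lit 0) (XT.nd (nat_lit 702) (nat_lit 0) (nat_lit 0) (XT.nd (nat_lit 312) (nat_lit 0) (nat_lit 0) (XT.nd (nat_lit 156) (nat_lit 0) (nat_lit 0) (XT.nd (nat_lit 78) (nat_lit 0) (nat_lit 0) (XT.lf (nat_lit 0) (nat_lit 56881569535) (nat_lit 152) (nat_lit 120145978694) (nat_lit 0) (nat_lit 56103374372) (nat_lit 1) (nat_lit 5) (nat_lit 3) (nat_lit 4) (nat_lit 1) (nat_lit 4) (nat_lit 413) (nat_lit 311) (nat_lit 296)) (XT.lf (nat_lit 0) (nat_lit 64030920504) (nat_lit 152) (nat_lit 124308892563) (nat_lit 0) (nat_lit 63226187772)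 (nat_lit 1) (nat_lit 5) (nat_lit 3) (nat_lit 4) (nat_lit 1) (nat_lit 4) (nat_lit 414) (nat_lit 311) (nat_lit 295))) (XT.nd (nat_lit 78) (nat_lit 0) (nat_lit 0) (XT.lf (nat_lit 0) (nat_lit 71676951885) (nat_lit 152) (nat_lit 128957313584) (nat_lit 0) (nat_lit 70847647330) (nat_lit 1) (nat_lit 5) (nat_lit 3) (nat_lit 4) (nat_lit 1) (nat_lit 4) (nat_lit 415) (nat_lit 311) (nat_lit 294)) (XT.lf (nat_lit 0) (nat_lit 79864973494) (nat_lit 152) (nat_lit 134118787956) (nat_lit 0) (nat_lit 79012917252) (nat_lit 1) (nat_lit 5) (nat_lit 3) (nat_lit 4) (nat_lit 1) (nat_lit 4) (nat_lit 416) (nat_lit 311) (nat_lit 293)))) (XT.nd (nat_lit 156) (nat_lit 0) (nat_lit 0) (XT.nd (nat_lit 78) (nat_lit 0) (nat_lit 0) (XT.lf (nat_lit 0) (nat_lit 88643506941) (nat_lit 152) (nat_lit 139823902193) (nat_lit 0) (nat_lit 87770384322) (nat_lit 1) (nat_lit 5) (nat_lit 3) (nat_lit 4) (nat_lit 1) (nat_lit 4) (nat_lit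 417) (nat_lit 311) (nat_lit 292)) (XT.lf (nat_lit 0) (nat_lit 98064573165) (nat_lit 152) (nat_lit 146106464381) (nat_lit 0) (nat_lit 97171944641) (nat_lit 1) (nat_lit 5) (nat_lit 3) (nat_lit 4) (nat_lit 1) (nat_lit 4) (nat_lit 418) (nat_lit 311) (nat_lit 291))) (XT.nd (nat_lit 78) (nat_lit 0) (nat_lit 0) (XT.lf (nat_lit 0) (nat_lit 108184000707) (nat_lit 152) (nat_lit 153003704517) (nat_lit 0) (nat_lit 107273311159) (nat_lit 1) (nat_lit 5) (nat_lit 3) (nat_lit 4) (nat_lit 1) (nat_lit 4) (nat_lit 419) (nat_lit 311) (nat_lit 290)) (XT.nd (nat_lit 78) (nat_lit 0) (nat_lit 0) (XT.lf (nat_lit 0) (nat_lit 119061756543) (nat_lit 152) (nat_lit 160556495135) (nat_lit 0) (nat_lit 118134343827) (nat_lit 1) (nat_lit 5) (nat_lit 3) (nat_lit 4) (nat_lit 1) (nat_lit 4) (nat_lit 420) (nat_lit 311) (nat_lit 289)) (XT.lf (nat_lit 0) (nat_lit 130762301451) (nat_lit 152) (nat_lit 168809593514) (nat_lit 0)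 (nat_lit 129819404318) (nat_lit 1) (nat_lit 5) (nat_lit 3) (nat_lit 4) (nat_lit 1) (nat_lit 4) (nat_lit 421) (nat_lit 311) (nat_lit 288)))))) (XT.nd (nat_lit 390) (nat_lit 0) (nat_lit 0) (XT.nd (nat_lit 156) (nat_lit 0) (nat_lit 0) (XT.nd (nat_lit 78) (nat_lit 0) (nat_lit 0) (XT.lf (nat_lit 0) (nat_lit 143354971991) (nat_lit 152) (nat_lit 177811906902) (nat_lit 0) (nat_lit 142397737436) (nat_lit 1) (nat_lit 5) (nat_lit 3) (nat_lit 4) (nat_lit 1) (nat_lit 4) (nat_lit 422) (nat_lit 311) (nat_lit 287)) (XT.lf (nat_lit 0) (nat_lit 156914391397) (nat_lit 152) (nat_lit 187616782342) (nat_lit 0) (nat_lit 155943881451) (nat_lit 1) (nat_lit 5) (nat_lit 3) (nat_lit 4) (nat_lit 1) (nat_lit 4) (nat_lit 423) (nat_lit 311) (nat_lit 286))) (XT.nd (nat_lit 78) (nat_lit 0) (nat_lit 0) (XT.lf (nat_lit 0) (nat_lit 171520911784) (nat_lit 152) (nat_lit 198282322800) (nat_lit 0) (nat_lit 170538109809) (nat_lit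 1) (nat_lit 5) (nat_lit 3) (nat_lit 4) (nat_lit 1) (nat_lit 4) (nat_lit 424) (nat_lit 311) (nat_lit 285)) (XT.nd (nat_lit 78) (nat_lit 0) (nat_lit 0) (XT.lf (nat_lit 0) (nat_lit 187261090310) (nat_lit 152) (nat_lit 209871731478) (nat_lit 0) (nat_lit 186266906827) (nat_lit 1) (nat_lit 5) (nat_lit 3) (nat_lit 4) (nat_lit 1) (nat_lit 4) (nat_lit 425) (nat_lit 311) (nat_lit 284)) (XT.lf (nat_lit 0) (nat_lit 204228202107) (nat_lit 152) (nat_lit 222453686354) (nat_lit 0) (nat_lit 203223480190) (nat_lit 1) (nat_lit 5) (nat_lit 3) (nat_lit 4) (nat_lit 1) (nat_lit 4) (nat_lit 426) (nat_lit 311) (nat_lit 283))))) (XT.nd (nat_lit 156) (nat_lit 0) (nat_lit 0) (XT.nd (nat_lit 78) (nat_lit 0) (nat_lit 0) (XT.lf (nat_lit 0) (nat_lit 222522793022) (nat_lit 152) (nat_lit 236102747160) (nat_lit 0) (nat_lit 221508313297) (nat_lit 1) (nat_lit 5) (nat_lit 3) (nat_lit 4) (nat_lit 1) (nat_lit 4) (nat_lit 427)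 (nat_lit 311) (nat_lit 282)) (XT.lf (nat_lit 0) (nat_lit 242253275447) (nat_lit 152) (nat_lit 250899797219) (nat_lit 0) (nat_lit 241229760713) (nat_lit 1) (nat_lit 5) (nat_lit 3) (nat_lit 4) (nat_lit 1) (nat_lit 4) (nat_lit 428) (nat_lit 311) (nat_lit 281))) (XT.nd (nat_lit 78) (nat_lit 0) (nat_lit 0) (XT.lf (nat_lit 0) (nat_lit 263536570757) (nat_lit 152) (nat_lit 266932522755) (nat_lit 0) (nat_lit 262504690275) (nat_lit 1) (nat_lit 5) (nat_lit 3) (nat_lit 4) (nat_lit 1) (nat_lit 4) (nat_lit 429) (nat_lit 311) (nat_lit 280)) (XT.nd (nat_lit 78) (nat_lit 0) (nat_lit 0) (XT.lf (nat_lit 0) (nat_lit 286498802186) (nat_lit 152) (nat_lit 284295932511) (nat_lit 0) (nat_lit 285459175641) (nat_lit 1) (nat_lit 5) (nat_lit 3) (nat_lit 4) (nat_lit 1) (nat_lit 4) (nat_lit 430) (nat_lit 311) (nat_lit 279)) (XT.lf (nat_lit 0) (nat_lit 311276042215) (nat_lit 152) (nat_lit 303092920767) (nat_lit 0) (nat_lit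 310229243389) (nat_lit 1) (nat_lit 5) (nat_lit 3) (nat_lit 4) (nat_lit 1) (nat_lit 4) (nat_lit 431) (nat_lit 311) (nat_lit 278))))))) (XT.nd (nat_lit 780) (nat_lit 0) (nat_lit 0) (XT.nd (nat_lit 390) (nat_lit 0) (nat_lit 0) (XT.nd (nat_lit 156) (nat_lit 0) (nat_lit 0) (XT.nd (nat_lit 78) (nat_lit 0) (nat_lit 0) (XT.lf (nat_lit 0) (nat_lit 338015118934) (nat_lit 152) (nat_lit 323434877083) (nat_lit 0) (nat_lit 336961679107) (nat_lit 1) (nat_lit 5) (nat_lit 3) (nat_lit 4) (nat_lit 1) (nat_lit 4) (nat_lit 432) (nat_lit 311) (nat_lit 277)) (XT.lf (nat_lit 0) (nat_lit 366874486129) (nat_lit 152) (nat_lit 345442346385) (nat_lit 0) (nat_lit 365814897228) (nat_lit 1) (nat_lit 5) (nat_lit 3) (nat_lit 4) (nat_lit 1) (nat_lit 4) (nat_lit 433) (nat_lit 311) (nat_lit 276))) (XT.nd (nat_lit 78) (nat_lit 0) (nat_lit 0) (XT.lf (nat_lit 0) (nat_lit 398025162275) (nat_lit 152) (nat_lit 369245743307) (nat_lit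 0) (nat_lit 396959879786) (nat_lit 1) (nat_lit 5) (nat_lit 3) (nat_lit 4) (nat_lit 1) (nat_lit 4) (nat_lit 434) (nat_lit 311) (nat_lit 275)) (XT.nd (nat_lit 78) (nat_lit 0) (nat_lit 0) (XT.lf (nat_lit 0) (nat_lit 431651743970) (nat_lit 152) (nat_lit 394986125015) (nat_lit 0) (nat_lit 430581189640) (nat_lit 1) (nat_lit 5) (nat_lit 3) (nat_lit 4) (nat_lit 1) (nat_lit 4) (nat_lit 435) (nat_lit 311) (nat_lit 274)) (XT.lf (nat_lit 0) (nat_lit 467953499846) (nat_lit 152) (nat_lit 422816027105) (nat_lit 0) (nat_lit 466878064182) (nat_lit 1) (nat_lit 5) (nat_lit 3) (nat_lit 4) (nat_lit 1) (nat_lit 4) (nat_lit 436) (nat_lit 311) (nat_lit 273))))) (XT.nd (nat_lit 156) (nat_lit 0) (nat_lit 0) (XT.nd (nat_lit 78) (nat_lit 0) (nat_lit 0) (XT.lf (nat_lit 0) (nat_lit 507145551419) (nat_lit 152) (nat_lit 452900367514) (nat_lit 0) (nat_lit 506065596002) (nat_lit 1) (nat_lit 5) (nat_lit 3) (nat_lit 4) (nat_lit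 1) (nat_lit 4) (nat_lit 437) (nat_lit 311) (nat_lit 272)) (XT.lf (nat_lit 0) (nat_lit 549460147885) (nat_lit 152) (nat_lit 485417423817) (nat_lit 0) (nat_lit 548376007511) (nat_lit 1) (nat_lit 5) (nat_lit 3) (nat_lit 4) (nat_lit 1) (nat_lit 4) (nat_lit 438) (nat_lit 311) (nat_lit 271))) (XT.nd (nat_lit 78) (nat_lit 0) (nat_lit 0) (XT.lf (nat_lit 0) (nat_lit 595148042408) (nat_lit 152) (nat_lit 520559889679) (nat_lit 0) (nat_lit 594060027074) (nat_lit 1) (nat_lit 5) (nat_lit 3) (nat_lit 4) (nat_lit 1) (nat_lit 4) (nat_lit 439) (nat_lit 311) (nat_lit 270)) (XT.nd (nat_lit 78) (nat_lit 0) (nat_lit 0) (XT.lf (nat_lit 0) (nat_lit 644479978065) (nat_lit 152) (nat_lit 558536016750) (nat_lit 0) (nat_lit 643388374805) (nat_lit 1) (nat_lit 5) (nat_lit 3) (nat_lit 4) (nat_lit 1) (nat_lit 4) (nat_lit 440) (nat_lit 311) (nat_lit 269)) (XT.lf (nat_lit 0) (nat_lit 697748292254) (nat_lit 152) (nat_lit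 599570848746) (nat_lit 0) (nat_lit 696653366840) (nat_lit 1) (nat_lit 5) (nat_lit 3) (nat_lit 4) (nat_lit 1) (nat_lit 4) (nat_lit 441) (nat_lit 311) (nat_lit 268)))))) (XT.nd (nat_lit 390) (nat_lit 0) (nat_lit 0) (XT.nd (nat_lit 156) (nat_lit 0) (nat_lit 0) (XT.nd (nat_lit 78) (nat_lit 0) (nat_lit 0) (XT.lf (nat_lit 0) (nat_lit 755268649058) (nat_lit 152) (nat_lit 643907555042) (nat_lit 0) (nat_lit 754170647576) (nat_lit 1) (nat_lit 5) (nat_lit 3) (nat_lit 4) (nat_lit 1) (nat_lit 4) (nat_lit 442) (nat_lit 311) (nat_lit 267)) (XT.lf (nat_lit 0) (nat_lit 817381909852) (nat_lit 152) (nat_lit 691808871676) (nat_lit 0) (nat_lit 816281060159) (nat_lit 1) (nat_lit 5) (nat_lit 3) (nat_lit 4) (nat_lit 1) (nat_lit 4) (nat_lit 443) (nat_lit 311) (nat_lit 266))) (XT.nd (nat_lit 78) (nat_lit 0) (nat_lit 0) (XT.lf (nat_lit 0) (nat_lit 884456153218) (nat_lit 152) (nat_lit 743558658301) (nat_lit 0) (nat_lit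 883352666292) (nat_lit 1) (nat_lit 5) (nat_lit 3) (nat_lit 4) (nat_lit 1) (nat_lit 4) (nat_lit 444) (nat_lit 311) (nat_lit 265)) (XT.nd (nat_lit 78) (nat_lit 0) (nat_lit 0) (XT.lf (nat_lit 0) (nat_lit 956888856153) (nat_lit 152) (nat_lit 799463580320) (nat_lit 0) (nat_lit 955782927344) (nat_lit 1) (nat_lit 5) (nat_lit 3) (nat_lit 4) (nat_lit 1) (nat_lit 4) (nat_lit 445) (nat_lit 311) (nat_lit 264)) (XT.lf (nat_lit 0) (nat_lit 1035109249490) (nat_lit 152) (nat_lit 859854926159) (nat_lit 0) (nat_lit 1034001059679) (nat_lit 1) (nat_lit 5) (nat_lit 3) (nat_lit 4) (nat_lit 1) (nat_lit 4) (nat_lit 446) (nat_lit 311) (nat_lit 263))))) (XT.nd (nat_lit 156) (nat_lit 0) (nat_lit 0) (XT.nd (nat_lit 78) (nat_lit 0) (nat_lit 0) (XT.lf (nat_lit 0) (nat_lit 1119580861485) (nat_lit 152) (nat_lit 925090570461) (nat_lit 0) (nat_lit 1118470578154) (nat_lit 1) (nat_lit 5) (nat_lit 3) (nat_lit 4) (nat_lit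 1) (nat_lit 4) (nat_lit 447) (nat_lit 311) (nat_lit 262)) (XT.lf (nat_lit 0) (nat_lit 1210804264654) (nat_lit 152) (nat_lit 995557094821) (nat_lit 0) (nat_lit 1209692042878) (nat_lit 1) (nat_lit 5) (nat_lit 3) (nat_lit 4) (nat_lit 1) (nat_lit 4) (nat_lit 448) (nat_lit 311) (nat_lit 261))) (XT.nd (nat_lit 78) (nat_lit 0) (nat_lit 0) (XT.lf (nat_lit 0) (nat_lit 1309320042127) (nat_lit 152) (nat_lit 1071672078643) (nat_lit 0) (nat_lit 1308206025495) (nat_lit 1) (nat_lit 5) (nat_lit 3) (nat_lit 4) (nat_lit 1) (nat_lit 4) (nat_lit 449) (nat_lit 311) (nat_lit 260)) (XT.nd (nat_lit 78) (nat_lit 0) (nat_lit 0) (XT.lf (nat_lit 0) (nat_lit 1415711991104) (nat_lit 152) (nat_lit 1153886573683) (nat_lit 0) (nat_lit 1414596312568) (nat_lit 1) (nat_lit 5) (nat_lit 3) (nat_lit 4) (nat_lit 1) (nat_lit 4) (nat_lit 450) (nat_lit 311) (nat_lit 259)) (XT.lf (nat_lit 0) (nat_lit 1530610582394) (nat_lit 152)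 (nat_lit 1242687776948) (nat_lit 0) (nat_lit 1529493365058) (nat_lit 1) (nat_lit 5) (nat_lit 3) (nat_lit 4) (nat_lit 1) (nat_lit 4) (nat_lit 451) (nat_lit 311) (nat_lit 258))))))))
noncomputable def xc27 : XT := (XT.nd (nat_lit 49452) (nat_lit 0) (nat_lit 0) (XT.nd (nat_lit 702) (nat_lit 0) (nat_lit 0) (XT.nd (nat_lit 312) (nat_lit 0) (nat_lit 0) (XT.nd (nat_lit 156) (nat_lit 0) (nat_lit 0) (XT.nd (nat_lit 78) (nat_lit 0) (nat_lit 0) (XT.lf (nat_lit 0) (nat_lit 1654696696537) (nat_lit 152) (nat_lit 1338601917791) (nat_lit 0) (nat_lit 1653578054386) (nat_lit 1) (nat_lit 5) (nat_lit 3) (nat_lit 4) (nat_lit 1) (nat_lit 4) (nat_lit 452) (nat_lit 311) (nat_lit 257)) (XT.lf (nat_lit 0) (nat_lit 1788705658654) (nat_lit 152) (nat_lit 1442197376307) (nat_lit 0) (nat_lit 1787585697231) (nat_lit 1) (nat_lit 5) (nat_lit 3) (nat_lit 4) (nat_lit 1) (nat_lit 4) (nat_lit 453) (nat_lit 311) (nat_lit 256)))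 (XT.nd (nat_lit 78) (nat_lit 0) (nat_lit 0) (XT.lf (nat_lit 0) (nat_lit 1933431595929) (nat_lit 152) (nat_lit 1554088051508) (nat_lit 0) (nat_lit 1932310412956) (nat_lit 1) (nat_lit 5) (nat_lit 3) (nat_lit 4) (nat_lit 1) (nat_lit 4) (nat_lit 454) (nat_lit 311) (nat_lit 255)) (XT.lf (nat_lit 0) (nat_lit 2089732143544) (nat_lit 152) (nat_lit 1674936999248) (nat_lit 0) (nat_lit 2088609829508) (nat_lit 1) (nat_lit 5) (nat_lit 3) (nat_lit 4) (nat_lit 1) (nat_lit 4) (nat_lit 455) (nat_lit 311) (nat_lit 254)))) (XT.nd (nat_lit 156) (nat_lit 0) (nat_lit 0) (XT.nd (nat_lit 78) (nat_lit 0) (nat_lit 0) (XT.lf (nat_lit 0) (nat_lit 2258533526969) (nat_lit 152) (nat_lit 1805460361439) (nat_lit 0) (nat_lit 2257410165651) (nat_lit 1) (nat_lit 5) (nat_lit 3) (nat_lit 4) (nat_lit 1) (nat_lit 4) (nat_lit 456) (nat_lit 311) (nat_lit 253)) (XT.lf (nat_lit 0) (nat_lit 2440836050696) (nat_lit 152) (nat_lit 1946431609857)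 (nat_lit 0) (nat_lit 2439711719673) (nat_lit 1) (nat_lit 5) (nat_lit 3) (nat_lit 4) (nat_lit 1) (nat_lit 4) (nat_lit 457) (nat_lit 311) (nat_lit 252))) (XT.nd (nat_lit 78) (nat_lit 0) (nat_lit 0) (XT.lf (nat_lit 0) (nat_lit 2637720025977) (nat_lit 152) (nat_lit 2098686129678) (nat_lit 0) (nat_lit 2636594797079) (nat_lit 1) (nat_lit 5) (nat_lit 3) (nat_lit 4) (nat_lit 1) (nat_lit 4) (nat_lit 458) (nat_lit 311) (nat_lit 251)) (XT.nd (nat_lit 78) (nat_lit 0) (nat_lit 0) (XT.lf (nat_lit 0) (nat_lit 2850352172667) (nat_lit 152) (nat_lit 2263126169908) (nat_lit 0) (nat_lit 2849226112403) (nat_lit 1) (nat_lit 5) (nat_lit 3) (nat_lit 4) (nat_lit 1) (nat_lit 4) (nat_lit 459) (nat_lit 311) (nat_lit 250)) (XT.lf (nat_lit 0) (nat_lit 3079992533115) (nat_lit 152) (nat_lit 2440726190045) (nat_lit 0) (nat_lit 3078865703068) (nat_lit 1) (nat_lit 5) (nat_lit 3) (nat_lit 4) (nat_lit 1) (nat_lit 4) (nat_lit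 460) (nat_lit 311) (nat_lit 249)))))) (XT.nd (nat_lit 48360) (nat_lit 0) (nat_lit 0) (XT.nd (nat_lit 48126) (nat_lit 0) (nat_lit 152) (XT.nd (nat_lit 48048) (nat_lit 0) (nat_lit 152) (XT.lf (nat_lit 0) (nat_lit 3328001939088) (nat_lit 152) (nat_lit 2632538634653) (nat_lit 0) (nat_lit 3326874396279) (nat_lit 1) (nat_lit 5) (nat_lit 3) (nat_lit 4) (nat_lit 1) (nat_lit 4) (nat_lit 461) (nat_lit 311) (nat_lit 248)) (XT.lf (nat_lit 0) (nat_lit 12017258160) (nat_lit 76) (nat_lit 10457321233) (nat_lit 76) (nat_lit 10457321233) (nat_lit 3) (nat_lit 4) (nat_lit 4) (nat_lit 5) (nat_lit 4) (nat_lit 4) (nat_lit 396) (nat_lit 312) (nat_lit 312))) (XT.nd (nat_lit 78) (nat_lit 0) (nat_lit 0) (XT.lf (nat_lit 0) (nat_lit 35603424008) (nat_lit 76) (nat_lit 17622144930) (nat_lit 76) (nat_lit 17523955448) (nat_lit 3) (nat_lit 4) (nat_lit 4) (nat_lit 5) (nat_lit 4) (nat_lit 4) (nat_lit 397) (nat_lit 312) (nat_lit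 311)) (XT.nd (nat_lit 78) (nat_lit 0) (nat_lit 0) (XT.lf (nat_lit 0) (nat_lit 47627521186) (nat_lit 76) (nat_lit 14303191298) (nat_lit 76) (nat_lit 14114085629) (nat_lit 3) (nat_lit 4) (nat_lit 4) (nat_lit 5) (nat_lit 4) (nat_lit 4) (nat_lit 398) (nat_lit 312) (nat_lit 310)) (XT.lf (nat_lit 0) (nat_lit 60178061764) (nat_lit 76) (nat_lit 10938113696) (nat_lit 76) (nat_lit 10664826373) (nat_lit 3) (nat_lit 4) (nat_lit 4) (nat_lit 5) (nat_lit 4) (nat_lit 4) (nat_lit 399) (nat_lit 312) (nat_lit 309))))) (XT.nd (nat_lit 156) (nat_lit 152) (nat_lit 0) (XT.nd (nat_lit 78) (nat_lit 0) (nat_lit 0) (XT.lf (nat_lit 0) (nat_lit 73329419316) (nat_lit 76) (nat_lit 7506970924) (nat_lit 76) (nat_lit 7155737625) (nat_lit 3) (nat_lit 4) (nat_lit 4) (nat_lit 5) (nat_lit 4) (nat_lit 4) (nat_lit 400) (nat_lit 312) (nat_lit 308)) (XT.lf (nat_lit 0) (nat_lit 87159527812) (nat_lit 76) (nat_lit 3989430285) (nat_lit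 76) (nat_lit 3566024785) (nat_lit 3) (nat_lit 4) (nat_lit 4) (nat_lit 5) (nat_lit 4) (nat_lit 4) (nat_lit 401) (nat_lit 312) (nat_lit 307))) (XT.nd (nat_lit 78) (nat_lit 76) (nat_lit 0) (XT.lf (nat_lit 0) (nat_lit 119302272) (nat_lit 152) (nat_lit 242082883) (nat_lit 76) (nat_lit 101627779243) (nat_lit 2) (nat_lit 5) (nat_lit 4) (nat_lit 5) (nat_lit 3) (nat_lit 4) (nat_lit 402) (nat_lit 312) (nat_lit 306)) (XT.nd (nat_lit 78) (nat_lit 0) (nat_lit 0) (XT.lf (nat_lit 0) (nat_lit 4015710596) (nat_lit 152) (nat_lit 102308961165) (nat_lit 0) (nat_lit 3504499818) (nat_lit 1) (nat_lit 5) (nat_lit 3) (nat_lit 4) (nat_lit 1) (nat_lit 4) (nat_lit 403) (nat_lit 312) (nat_lit 305)) (XT.lf (nat_lit 0) (nat_lit 8077511867) (nat_lit 152) (nat_lit 102717333742) (nat_lit 0) (nat_lit 7513252367) (nat_lit 1) (nat_lit 5) (nat_lit 3) (nat_lit 4) (nat_lit 1) (nat_lit 4) (nat_lit 404) (nat_lit 312) (nat_lit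 304))))))) (XT.nd (nat_lit 780) (nat_lit 0) (nat_lit 0) (XT.nd (nat_lit 390) (nat_lit 0) (nat_lit 0) (XT.nd (nat_lit 156) (nat_lit 0) (nat_lit 0) (XT.nd (nat_lit 78) (nat_lit 0) (nat_lit 0) (XT.lf (nat_lit 0) (nat_lit 12313796830) (nat_lit 152) (nat_lit 103463172442) (nat_lit 0) (nat_lit 11700418143) (nat_lit 1) (nat_lit 5) (nat_lit 3) (nat_lit 4) (nat_lit 1) (nat_lit 4) (nat_lit 405) (nat_lit 312) (nat_lit 303)) (XT.lf (nat_lit 0) (nat_lit 16749669395) (nat_lit 152) (nat_lit 104550897050) (nat_lit 0) (nat_lit 16090809979) (nat_lit 1) (nat_lit 5) (nat_lit 3) (nat_lit 4) (nat_lit 1) (nat_lit 4) (nat_lit 406) (nat_lit 312) (nat_lit 302))) (XT.nd (nat_lit 78) (nat_lit 0) (nat_lit 0) (XT.lf (nat_lit 0) (nat_lit 21411416214) (nat_lit 152) (nat_lit 105986953342) (nat_lit 0) (nat_lit 20710445013) (nat_lit 1) (nat_lit 5) (nat_lit 3) (nat_lit 4) (nat_lit 1) (nat_lit 4) (nat_lit 407) (nat_lit 312)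 (nat_lit 301)) (XT.nd (nat_lit 78) (nat_lit 0) (nat_lit 0) (XT.lf (nat_lit 0) (nat_lit 26326662454) (nat_lit 152) (nat_lit 107779851280) (nat_lit 0) (nat_lit 25586698859) (nat_lit 1) (nat_lit 5) (nat_lit 3) (nat_lit 4) (nat_lit 1) (nat_lit 4) (nat_lit 408) (nat_lit 312) (nat_lit 300)) (XT.lf (nat_lit 0) (nat_lit 31524535500) (nat_lit 152) (nat_lit 109940215445) (nat_lit 0) (nat_lit 30748467837) (nat_lit 1) (nat_lit 5) (nat_lit 3) (nat_lit 4) (nat_lit 1) (nat_lit 4) (nat_lit 409) (nat_lit 312) (nat_lit 299))))) (XT.nd (nat_lit 156) (nat_lit 0) (nat_lit 0) (XT.nd (nat_lit 78) (nat_lit 0) (nat_lit 0) (XT.lf (nat_lit 0) (nat_lit 37035837563) (nat_lit 152) (nat_lit 112480847995) (nat_lit 0) (nat_lit 36226340206) (nat_lit 1) (nat_lit 5) (nat_lit 3) (nat_lit 4) (nat_lit 1) (nat_lit 4) (nat_lit 410) (nat_lit 312) (nat_lit 298)) (XT.lf (nat_lit 0) (nat_lit 42893228211) (nat_lit 152) (nat_lit 115416804530)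 (nat_lit 0) (nat_lit 42052777434) (nat_lit 1) (nat_lit 5) (nat_lit 3) (nat_lit 4) (nat_lit 1) (nat_lit 4) (nat_lit 411) (nat_lit 312) (nat_lit 297))) (XT.nd (nat_lit 78) (nat_lit 0) (nat_lit 0) (XT.lf (nat_lit 0) (nat_lit 49131417906) (nat_lit 152) (nat_lit 118765483312) (nat_lit 0) (nat_lit 48262306555) (nat_lit 1) (nat_lit 5) (nat_lit 3) (nat_lit 4) (nat_lit 1) (nat_lit 4) (nat_lit 412) (nat_lit 312) (nat_lit 296)) (XT.nd (nat_lit 78) (nat_lit 0) (nat_lit 0) (XT.lf (nat_lit 0) (nat_lit 55787373698) (nat_lit 152) (nat_lit 122546728362) (nat_lit 0) (nat_lit 54891724780) (nat_lit 1) (nat_lit 5) (nat_lit 3) (nat_lit 4) (nat_lit 1) (nat_lit 4) (nat_lit 413) (nat_lit 312) (nat_lit 295)) (XT.lf (nat_lit 0) (nat_lit 62900538290) (nat_lit 152) (nat_lit 126782947059) (nat_lit 0) (nat_lit 61980317548) (nat_lit 1) (nat_lit 5) (nat_lit 3) (nat_lit 4) (nat_lit 1) (nat_lit 4) (nat_lit 414) (nat_lit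 312) (nat_lit 294)))))) (XT.nd (nat_lit 390) (nat_lit 0) (nat_lit 0) (XT.nd (nat_lit 156) (nat_lit 0) (nat_lit 0) (XT.nd (nat_lit 78) (nat_lit 0) (nat_lit 0) (XT.lf (nat_lit 0) (nat_lit 70513063766) (nat_lit 152) (nat_lit 131499242921) (nat_lit 0) (nat_lit 69570091337) (nat_lit 1) (nat_lit 5) (nat_lit 3) (nat_lit 4) (nat_lit 1) (nat_lit 4) (nat_lit 415) (nat_lit 312) (nat_lit 293)) (XT.lf (nat_lit 0) (nat_lit 78670061389) (nat_lit 152) (nat_lit 136723564368) (nat_lit 0) (nat_lit 77706022583) (nat_lit 1) (nat_lit 5) (nat_lit 3) (nat_lit 4) (nat_lit 1) (nat_lit 4) (nat_lit 416) (nat_lit 312) (nat_lit 292))) (XT.nd (nat_lit 78) (nat_lit 0) (nat_lit 0) (XT.lf (nat_lit 0) (nat_lit 87419868923) (nat_lit 152) (nat_lit 142486870342) (nat_lit 0) (nat_lit 86436324212) (nat_lit 1) (nat_lit 5) (nat_lit 3) (nat_lit 4) (nat_lit 1) (nat_lit 4) (nat_lit 417) (nat_lit 312) (nat_lit 291)) (XT.nd (nat_lit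 78) (nat_lit 0) (nat_lit 0) (XT.lf (nat_lit 0) (nat_lit 96814337080) (nat_lit 152) (nat_lit 148823313767) (nat_lit 0) (nat_lit 95812731346) (nat_lit 1) (nat_lit 5) (nat_lit 3) (nat_lit 4) (nat_lit 1) (nat_lit 4) (nat_lit 418) (nat_lit 312) (nat_lit 290)) (XT.lf (nat_lit 0) (nat_lit 106909136781) (nat_lit 152) (nat_lit 155770443937) (nat_lit 0) (nat_lit 105890807877) (nat_lit 1) (nat_lit 5) (nat_lit 3) (nat_lit 4) (nat_lit 1) (nat_lit 4) (nat_lit 419) (nat_lit 312) (nat_lit 289))))) (XT.nd (nat_lit 156) (nat_lit 0) (nat_lit 0) (XT.nd (nat_lit 78) (nat_lit 0) (nat_lit 0) (XT.lf (nat_lit 0) (nat_lit 117764089061) (nat_lit 152) (nat_lit 163369429032) (nat_lit 0) (nat_lit 116730275741) (nat_lit 1) (nat_lit 5) (nat_lit 3) (nat_lit 4) (nat_lit 1) (nat_lit 4) (nat_lit 420) (nat_lit 312) (nat_lit 288)) (XT.lf (nat_lit 0) (nat_lit 129443519565) (nat_lit 152) (nat_lit 171665300074) (nat_lit 0) (nat_lit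 128395368823) (nat_lit 1) (nat_lit 5) (nat_lit 3) (nat_lit 4) (nat_lit 1) (nat_lit 4) (nat_lit 421) (nat_lit 312) (nat_lit 287))) (XT.nd (nat_lit 78) (nat_lit 0) (nat_lit 0) (XT.lf (nat_lit 0) (nat_lit 142016639732) (nat_lit 152) (nat_lit 180707217780) (nat_lit 0) (nat_lit 140955213598) (nat_lit 1) (nat_lit 5) (nat_lit 3) (nat_lit 4) (nat_lit 1) (nat_lit 4) (nat_lit 422) (nat_lit 312) (nat_lit 286)) (XT.nd (nat_lit 78) (nat_lit 0) (nat_lit 0) (XT.lf (nat_lit 0) (nat_lit 155557956940) (nat_lit 152) (nat_lit 190548763884) (nat_lit 0) (nat_lit 154484238778) (nat_lit 1) (nat_lit 5) (nat_lit 3) (nat_lit 4) (nat_lit 1) (nat_lit 4) (nat_lit 423) (nat_lit 312) (nat_lit 285)) (XT.lf (nat_lit 0) (nat_lit 170147716033) (nat_lit 152) (nat_lit 201248258661) (nat_lit 0) (nat_lit 169062616363) (nat_lit 1) (nat_lit 5) (nat_lit 3) (nat_lit 4) (nat_lit 1) (nat_lit 4) (nat_lit 424) (nat_lit 312) (nat_lit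 284))))))))
noncomputable def xc28 : XT := (XT.nd (nat_lit 1482) (nat_lit 0) (nat_lit 0) (XT.nd (nat_lit 702) (nat_lit 0) (nat_lit 0) (XT.nd (nat_lit 312) (nat_lit 0) (nat_lit 0) (XT.nd (nat_lit 156) (nat_lit 0) (nat_lit 0) (XT.nd (nat_lit 78) (nat_lit 0) (nat_lit 0) (XT.lf (nat_lit 0) (nat_lit 185872374842) (nat_lit 152) (nat_lit 212869106524) (nat_lit 0) (nat_lit 184776736738) (nat_lit 1) (nat_lit 5) (nat_lit 3) (nat_lit 4) (nat_lit 1) (nat_lit 4) (nat_lit 425) (nat_lit 312) (nat_lit 283)) (XT.lf (nat_lit 0) (nat_lit 202825116530) (nat_lit 152) (nat_lit 225480171755) (nat_lit 0) (nat_lit 201719720618) (nat_lit 1) (nat_lit 5) (nat_lit 3) (nat_lit 4) (nat_lit 1) (nat_lit 4) (nat_lit 426) (nat_lit 312) (nat_lit 282))) (XT.nd (nat_lit 78) (nat_lit 0) (nat_lit 0) (XT.lf (nat_lit 0) (nat_lit 221106401790) (nat_lit 152) (nat_lit 239156186594) (nat_lit 0) (nat_lit 219991970869) (nat_lit 1) (nat_lit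 5) (nat_lit 3) (nat_lit 4) (nat_lit 1) (nat_lit 4) (nat_lit 427) (nat_lit 312) (nat_lit 281)) (XT.lf (nat_lit 0) (nat_lit 240824564162) (nat_lit 152) (nat_lit 253978194092) (nat_lit 0) (nat_lit 239701767493) (nat_lit 1) (nat_lit 5) (nat_lit 3) (nat_lit 4) (nat_lit 1) (nat_lit 4) (nat_lit 428) (nat_lit 312) (nat_lit 280)))) (XT.nd (nat_lit 156) (nat_lit 0) (nat_lit 0) (XT.nd (nat_lit 78) (nat_lit 0) (nat_lit 0) (XT.lf (nat_lit 0) (nat_lit 262096452018) (nat_lit 152) (nat_lit 270034028367) (nat_lit 0) (nat_lit 260965909286) (nat_lit 1) (nat_lit 5) (nat_lit 3) (nat_lit 4) (nat_lit 1) (nat_lit 4) (nat_lit 429) (nat_lit 312) (nat_lit 279)) (XT.lf (nat_lit 0) (nat_lit 285048120988) (nat_lit 152) (nat_lit 287418835103) (nat_lit 0) (nat_lit 283910405975) (nat_lit 1) (nat_lit 5) (nat_lit 3) (nat_lit 4) (nat_lit 1) (nat_lit 4) (nat_lit 430) (nat_lit 312) (nat_lit 278))) (XT.nd (nat_lit 78) (nat_lit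 0) (nat_lit 0) (XT.lf (nat_lit 0) (nat_lit 309815580963) (nat_lit 152) (nat_lit 306235635378) (nat_lit 0) (nat_lit 308671224949) (nat_lit 1) (nat_lit 5) (nat_lit 3) (nat_lit 4) (nat_lit 1) (nat_lit 4) (nat_lit 431) (nat_lit 312) (nat_lit 277)) (XT.nd (nat_lit 78) (nat_lit 0) (nat_lit 0) (XT.lf (nat_lit 0) (nat_lit 336545602075) (nat_lit 152) (nat_lit 326595936156) (nat_lit 0) (nat_lit 335395096987) (nat_lit 1) (nat_lit 5) (nat_lit 3) (nat_lit 4) (nat_lit 1) (nat_lit 4) (nat_lit 432) (nat_lit 312) (nat_lit 276)) (XT.lf (nat_lit 0) (nat_lit 365396584451) (nat_lit 152) (nat_lit 348620391072) (nat_lit 0) (nat_lit 364240385775) (nat_lit 1) (nat_lit 5) (nat_lit 3) (nat_lit 4) (nat_lit 1) (nat_lit 4) (nat_lit 433) (nat_lit 312) (nat_lit 275)))))) (XT.nd (nat_lit 390) (nat_lit 0) (nat_lit 0) (XT.nd (nat_lit 156) (nat_lit 0) (nat_lit 0) (XT.nd (nat_lit 78) (nat_lit 0) (nat_lit 0) (XT.lf (nat_lit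 0) (nat_lit 396539496874) (nat_lit 152) (nat_lit 372439515413) (nat_lit 0) (nat_lit 395378026358) (nat_lit 1) (nat_lit 5) (nat_lit 3) (nat_lit 4) (nat_lit 1) (nat_lit 4) (nat_lit 434) (nat_lit 312) (nat_lit 274)) (XT.lf (nat_lit 0) (nat_lit 430158889937) (nat_lit 152) (nat_lit 398194459547) (nat_lit 0) (nat_lit 428992538087) (nat_lit 1) (nat_lit 5) (nat_lit 3) (nat_lit 4) (nat_lit 1) (nat_lit 4) (nat_lit 435) (nat_lit 312) (nat_lit 273))) (XT.nd (nat_lit 78) (nat_lit 0) (nat_lit 0) (XT.lf (nat_lit 0) (nat_lit 466453989673) (nat_lit 152) (nat_lit 426037845364) (nat_lit 0) (nat_lit 465283118069) (nat_lit 1) (nat_lit 5) (nat_lit 3) (nat_lit 4) (nat_lit 1) (nat_lit 4) (nat_lit 436) (nat_lit 312) (nat_lit 272)) (XT.nd (nat_lit 78) (nat_lit 0) (nat_lit 0) (XT.lf (nat_lit 0) (nat_lit 505639878153) (nat_lit 152) (nat_lit 456134670706) (nat_lit 0) (nat_lit 504464821592) (nat_lit 1) (nat_lit 5)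 (nat_lit 3) (nat_lit 4) (nat_lit 1) (nat_lit 4) (nat_lit 437) (nat_lit 312) (nat_lit 271)) (XT.lf (nat_lit 0) (nat_lit 547948768051) (nat_lit 152) (nat_lit 488663287131) (nat_lit 0) (nat_lit 546769836530) (nat_lit 1) (nat_lit 5) (nat_lit 3) (nat_lit 4) (nat_lit 1) (nat_lit 4) (nat_lit 438) (nat_lit 312) (nat_lit 270))))) (XT.nd (nat_lit 156) (nat_lit 0) (nat_lit 0) (XT.nd (nat_lit 78) (nat_lit 0) (nat_lit 0) (XT.lf (nat_lit 0) (nat_lit 593631378714) (nat_lit 152) (nat_lit 523816456810) (nat_lit 0) (nat_lit 592448859268) (nat_lit 1) (nat_lit 5) (nat_lit 3) (nat_lit 4) (nat_lit 1) (nat_lit 4) (nat_lit 439) (nat_lit 312) (nat_lit 269)) (XT.lf (nat_lit 0) (nat_lit 642958421910) (nat_lit 152) (nat_lit 561802494824) (nat_lit 0) (nat_lit 641772580309) (nat_lit 1) (nat_lit 5) (nat_lit 3) (nat_lit 4) (nat_lit 1) (nat_lit 4) (nat_lit 440) (nat_lit 312) (nat_lit 268))) (XT.nd (nat_lit 78) (nat_lit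 0) (nat_lit 0) (XT.lf (nat_lit 0) (nat_lit 696222206041) (nat_lit 152) (nat_lit 602846503618) (nat_lit 0) (nat_lit 695033288372) (nat_lit 1) (nat_lit 5) (nat_lit 3) (nat_lit 4) (nat_lit 1) (nat_lit 4) (nat_lit 441) (nat_lit 312) (nat_lit 267)) (XT.nd (nat_lit 78) (nat_lit 0) (nat_lit 0) (XT.lf (nat_lit 0) (nat_lit 753738368348) (nat_lit 152) (nat_lit 647191706950) (nat_lit 0) (nat_lit 752546602468) (nat_lit 1) (nat_lit 5) (nat_lit 3) (nat_lit 4) (nat_lit 1) (nat_lit 4) (nat_lit 442) (nat_lit 312) (nat_lit 266)) (XT.lf (nat_lit 0) (nat_lit 815847745348) (nat_lit 152) (nat_lit 695100891209) (nat_lit 0) (nat_lit 814653342235) (nat_lit 1) (nat_lit 5) (nat_lit 3) (nat_lit 4) (nat_lit 1) (nat_lit 4) (nat_lit 443) (nat_lit 312) (nat_lit 265))))))) (XT.nd (nat_lit 702) (nat_lit 0) (nat_lit 0) (XT.nd (nat_lit 312) (nat_lit 0) (nat_lit 0) (XT.nd (nat_lit 156) (nat_lit 0) (nat_lit 0) (XT.nd (nat_lit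 78) (nat_lit 0) (nat_lit 0) (XT.lf (nat_lit 0) (nat_lit 882918392608) (nat_lit 152) (nat_lit 746857962672) (nat_lit 0) (nat_lit 881721547612) (nat_lit 1) (nat_lit 5) (nat_lit 3) (nat_lit 4) (nat_lit 1) (nat_lit 4) (nat_lit 444) (nat_lit 312) (nat_lit 264)) (XT.lf (nat_lit 0) (nat_lit 955347765815) (nat_lit 152) (nat_lit 802769629912) (nat_lit 0) (nat_lit 954148659818) (nat_lit 1) (nat_lit 5) (nat_lit 3) (nat_lit 4) (nat_lit 1) (nat_lit 4) (nat_lit 445) (nat_lit 312) (nat_lit 263))) (XT.nd (nat_lit 78) (nat_lit 0) (nat_lit 0) (XT.lf (nat_lit 0) (nat_lit 1033565076071) (nat_lit 152) (nat_lit 863167221326) (nat_lit 0) (nat_lit 1032363876553) (nat_lit 1) (nat_lit 5) (nat_lit 3) (nat_lit 4) (nat_lit 1) (nat_lit 4) (nat_lit 446) (nat_lit 312) (nat_lit 262)) (XT.lf (nat_lit 0) (nat_lit 1118033833362) (nat_lit 152) (nat_lit 928408648567) (nat_lit 0) (nat_lit 1116830695399) (nat_lit 1) (nat_lit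 5) (nat_lit 3) (nat_lit 4) (nat_lit 1) (nat_lit 4) (nat_lit 447) (nat_lit 312) (nat_lit 261)))) (XT.nd (nat_lit 156) (nat_lit 0) (nat_lit 0) (XT.nd (nat_lit 78) (nat_lit 0) (nat_lit 0) (XT.lf (nat_lit 0) (nat_lit 1209254593286) (nat_lit 152) (nat_lit 998880527500) (nat_lit 0) (nat_lit 1208049660467) (nat_lit 1) (nat_lit 5) (nat_lit 3) (nat_lit 4) (nat_lit 1) (nat_lit 4) (nat_lit 448) (nat_lit 312) (nat_lit 260)) (XT.lf (nat_lit 0) (nat_lit 1307767923310) (nat_lit 152) (nat_lit 1075000469261) (nat_lit 0) (nat_lit 1306561328587) (nat_lit 1) (nat_lit 5) (nat_lit 3) (nat_lit 4) (nat_lit 1) (nat_lit 4) (nat_lit 449) (nat_lit 312) (nat_lit 259))) (XT.nd (nat_lit 78) (nat_lit 0) (nat_lit 0) (XT.lf (nat_lit 0) (nat_lit 1414157606131) (nat_lit 152) (nat_lit 1157219554984) (nat_lit 0) (nat_lit 1412949472608) (nat_lit 1) (nat_lit 5) (nat_lit 3) (nat_lit 4) (nat_lit 1) (nat_lit 4) (nat_lit 450) (nat_lit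 312) (nat_lit 258)) (XT.nd (nat_lit 78) (nat_lit 0) (nat_lit 0) (XT.lf (nat_lit 0) (nat_lit 1529054099127) (nat_lit 152) (nat_lit 1246025008883) (nat_lit 0) (nat_lit 1527844540789) (nat_lit 1) (nat_lit 5) (nat_lit 3) (nat_lit 4) (nat_lit 1) (nat_lit 4) (nat_lit 451) (nat_lit 312) (nat_lit 257)) (XT.lf (nat_lit 0) (nat_lit 1653138270406) (nat_lit 152) (nat_lit 1341943085498) (nat_lit 0) (nat_lit 1651927392796) (nat_lit 1) (nat_lit 5) (nat_lit 3) (nat_lit 4) (nat_lit 1) (nat_lit 4) (nat_lit 452) (nat_lit 312) (nat_lit 256)))))) (XT.nd (nat_lit 390) (nat_lit 0) (nat_lit 0) (XT.nd (nat_lit 156) (nat_lit 0) (nat_lit 0) (XT.nd (nat_lit 78) (nat_lit 0) (nat_lit 0) (XT.lf (nat_lit 0) (nat_lit 1787145433575) (nat_lit 152) (nat_lit 1445542188246) (nat_lit 0) (nat_lit 1785933334416) (nat_lit 1) (nat_lit 5) (nat_lit 3) (nat_lit 4) (nat_lit 1) (nat_lit 4) (nat_lit 453) (nat_lit 312) (nat_lit 255))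 (XT.lf (nat_lit 0) (nat_lit 1931869705157) (nat_lit 152) (nat_lit 1557436237737) (nat_lit 0) (nat_lit 1930656474934) (nat_lit 1) (nat_lit 5) (nat_lit 3) (nat_lit 4) (nat_lit 1) (nat_lit 4) (nat_lit 454) (nat_lit 312) (nat_lit 254))) (XT.nd (nat_lit 78) (nat_lit 0) (nat_lit 0) (XT.lf (nat_lit 0) (nat_lit 2088168710465) (nat_lit 152) (nat_lit 1678288309819) (nat_lit 0) (nat_lit 2086954432960) (nat_lit 1) (nat_lit 5) (nat_lit 3) (nat_lit 4) (nat_lit 1) (nat_lit 4) (nat_lit 455) (nat_lit 312) (nat_lit 253)) (XT.nd (nat_lit 78) (nat_lit 0) (nat_lit 0) (XT.lf (nat_lit 0) (nat_lit 2256968665826) (nat_lit 152) (nat_lit 1808814564920) (nat_lit 0) (nat_lit 2255753418616) (nat_lit 1) (nat_lit 5) (nat_lit 3) (nat_lit 4) (nat_lit 1) (nat_lit 4) (nat_lit 456) (nat_lit 312) (nat_lit 252)) (XT.lf (nat_lit 0) (nat_lit 2439269867272) (nat_lit 152) (nat_lit 1949788491958) (nat_lit 0) (nat_lit 2438053722187)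 (nat_lit 1) (nat_lit 5) (nat_lit 3) (nat_lit 4) (nat_lit 1) (nat_lit 4) (nat_lit 457) (nat_lit 312) (nat_lit 251))))) (XT.nd (nat_lit 156) (nat_lit 0) (nat_lit 0) (XT.nd (nat_lit 78) (nat_lit 0) (nat_lit 0) (XT.lf (nat_lit 0) (nat_lit 2636152618220) (nat_lit 152) (nat_lit 2102045491982) (nat_lit 0) (nat_lit 2634935641769) (nat_lit 1) (nat_lit 5) (nat_lit 3) (nat_lit 4) (nat_lit 1) (nat_lit 4) (nat_lit 458) (nat_lit 312) (nat_lit 250)) (XT.lf (nat_lit 0) (nat_lit 2848783631267) (nat_lit 152) (nat_lit 2266487828697) (nat_lit 0) (nat_lit 2847565885033) (nat_lit 1) (nat_lit 5) (nat_lit 3) (nat_lit 4) (nat_lit 1) (nat_lit 4) (nat_lit 459) (nat_lit 312) (nat_lit 249))) (XT.nd (nat_lit 78) (nat_lit 0) (nat_lit 0) (XT.lf (nat_lit 0) (nat_lit 3078422942047) (nat_lit 152) (nat_lit 2444089975209) (nat_lit 0) (nat_lit 3077204483051) (nat_lit 1) (nat_lit 5) (nat_lit 3) (nat_lit 4) (nat_lit 1) (nat_lit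 4) (nat_lit 460) (nat_lit 312) (nat_lit 248)) (XT.nd (nat_lit 47892) (nat_lit 0) (nat_lit 152) (XT.lf (nat_lit 0) (nat_lit 3326431376104) (nat_lit 152) (nat_lit 2635904388682) (nat_lit 0) (nat_lit 3325212257143) (nat_lit 1) (nat_lit 5) (nat_lit 3) (nat_lit 4) (nat_lit 1) (nat_lit 4) (nat_lit 461) (nat_lit 312) (nat_lit 247)) (XT.lf (nat_lit 0) (nat_lit 1127038677) (nat_lit 76) (nat_lit 13735723190) (nat_lit 76) (nat_lit 13735723190) (nat_lit 3) (nat_lit 4) (nat_lit 4) (nat_lit 5) (nat_lit 4) (nat_lit 4) (nat_lit 394) (nat_lit 313) (nat_lit 313))))))))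
noncomputable def xc29 : XT := (XT.nd (nat_lit 1482) (nat_lit 0) (nat_lit 0) (XT.nd (nat_lit 702) (nat_lit 0) (nat_lit 0) (XT.nd (nat_lit 312) (nat_lit 152) (nat_lit 0) (XT.nd (nat_lit 156) (nat_lit 0) (nat_lit 0) (XT.nd (nat_lit 78) (nat_lit 0) (nat_lit 0) (XT.lf (nat_lit 0) (nat_lit 12852241635) (nat_lit 76) (nat_lit 24306239642) (nat_lit 76) (nat_lit 24200195002) (nat_lit 3) (nat_lit 4) (nat_lit 4) (nat_lit 5) (nat_lit 4) (nat_lit 4) (nat_lit 395) (nat_lit 313) (nat_lit 312)) (XT.lf (nat_lit 0) (nat_lit 23790310083) (nat_lit 76) (nat_lit 21143715569) (nat_lit 76) (nat_lit 20939481447) (nat_lit 3) (nat_lit 4) (nat_lit 4) (nat_lit 5) (nat_lit 4) (nat_lit 4) (nat_lit 396) (nat_lit 313) (nat_lit 311))) (XT.nd (nat_lit 78) (nat_lit 0) (nat_lit 0) (XT.lf (nat_lit 0) (nat_lit 35133100884) (nat_lit 76) (nat_lit 17965133277) (nat_lit 76) (nat_lit 17669982968) (nat_lit 3) (nat_lit 4) (nat_lit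 4) (nat_lit 5) (nat_lit 4) (nat_lit 4) (nat_lit 397) (nat_lit 313) (nat_lit 310)) (XT.lf (nat_lit 0) (nat_lit 46947830574) (nat_lit 76) (nat_lit 14751656722) (nat_lit 76) (nat_lit 14372324759) (nat_lit 3) (nat_lit 4) (nat_lit 4) (nat_lit 5) (nat_lit 4) (nat_lit 4) (nat_lit 398) (nat_lit 313) (nat_lit 309)))) (XT.nd (nat_lit 156) (nat_lit 152) (nat_lit 0) (XT.nd (nat_lit 78) (nat_lit 0) (nat_lit 0) (XT.lf (nat_lit 0) (nat_lit 59304512367) (nat_lit 76) (nat_lit 11484243081) (nat_lit 76) (nat_lit 11026965141) (nat_lit 3) (nat_lit 4) (nat_lit 4) (nat_lit 5) (nat_lit 4) (nat_lit 4) (nat_lit 399) (nat_lit 313) (nat_lit 308)) (XT.lf (nat_lit 0) (nat_lit 72276371044) (nat_lit 76) (nat_lit 8143529903) (nat_lit 76) (nat_lit 7614079763) (nat_lit 3) (nat_lit 4) (nat_lit 4) (nat_lit 5) (nat_lit 4) (nat_lit 4) (nat_lit 400) (nat_lit 313) (nat_lit 307))) (XT.nd (nat_lit 78) (nat_lit 152) (nat_lit 0)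 (XT.lf (nat_lit 0) (nat_lit 85940276879) (nat_lit 76) (nat_lit 4709720368) (nat_lit 76) (nat_lit 4113444116) (nat_lit 3) (nat_lit 4) (nat_lit 4) (nat_lit 5) (nat_lit 4) (nat_lit 4) (nat_lit 401) (nat_lit 313) (nat_lit 306)) (XT.nd (nat_lit 78) (nat_lit 152) (nat_lit 0) (XT.lf (nat_lit 0) (nat_lit 100377201165) (nat_lit 76) (nat_lit 1162465975) (nat_lit 76) (nat_lit 504313695) (nat_lit 3) (nat_lit 4) (nat_lit 4) (nat_lit 5) (nat_lit 4) (nat_lit 4) (nat_lit 402) (nat_lit 313) (nat_lit 305)) (XT.lf (nat_lit 0) (nat_lit 3282927643) (nat_lit 152) (nat_lit 103992309877) (nat_lit 0) (nat_lit 2620478661) (nat_lit 1) (nat_lit 5) (nat_lit 3) (nat_lit 4) (nat_lit 1) (nat_lit 4) (nat_lit 403) (nat_lit 313) (nat_lit 304)))))) (XT.nd (nat_lit 390) (nat_lit 0) (nat_lit 0) (XT.nd (nat_lit 156) (nat_lit 0) (nat_lit 0) (XT.nd (nat_lit 78) (nat_lit 0) (nat_lit 0) (XT.lf (nat_lit 0) (nat_lit 7272392178) (nat_lit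 152) (nat_lit 104547219144) (nat_lit 0) (nat_lit 6560824010) (nat_lit 1) (nat_lit 5) (nat_lit 3) (nat_lit 4) (nat_lit 1) (nat_lit 4) (nat_lit 404) (nat_lit 313) (nat_lit 303)) (XT.lf (nat_lit 0) (nat_lit 11441698682) (nat_lit 152) (nat_lit 105428739966) (nat_lit 0) (nat_lit 10684649785) (nat_lit 1) (nat_lit 5) (nat_lit 3) (nat_lit 4) (nat_lit 1) (nat_lit 4) (nat_lit 405) (nat_lit 313) (nat_lit 302))) (XT.nd (nat_lit 78) (nat_lit 0) (nat_lit 0) (XT.lf (nat_lit 0) (nat_lit 15815554155) (nat_lit 152) (nat_lit 106642096167) (nat_lit 0) (nat_lit 15016393472) (nat_lit 1) (nat_lit 5) (nat_lit 3) (nat_lit 4) (nat_lit 1) (nat_lit 4) (nat_lit 406) (nat_lit 313) (nat_lit 301)) (XT.nd (nat_lit 78) (nat_lit 0) (nat_lit 0) (XT.lf (nat_lit 0) (nat_lit 20419877741) (nat_lit 152) (nat_lit 108194478008) (nat_lit 0) (nat_lit 19581724664) (nat_lit 1) (nat_lit 5) (nat_lit 3) (nat_lit 4) (nat_lit 1) (nat_lit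 4) (nat_lit 407) (nat_lit 313) (nat_lit 300)) (XT.lf (nat_lit 0) (nat_lit 25281954321) (nat_lit 152) (nat_lit 110095084789) (nat_lit 0) (nat_lit 24407697176) (nat_lit 1) (nat_lit 5) (nat_lit 3) (nat_lit 4) (nat_lit 1) (nat_lit 4) (nat_lit 408) (nat_lit 313) (nat_lit 299))))) (XT.nd (nat_lit 156) (nat_lit 0) (nat_lit 0) (XT.nd (nat_lit 78) (nat_lit 0) (nat_lit 0) (XT.lf (nat_lit 0) (nat_lit 30430596201) (nat_lit 152) (nat_lit 112355179363) (nat_lit 0) (nat_lit 29522909362) (nat_lit 1) (nat_lit 5) (nat_lit 3) (nat_lit 4) (nat_lit 1) (nat_lit 4) (nat_lit 409) (nat_lit 313) (nat_lit 298)) (XT.lf (nat_lit 0) (nat_lit 35896313850) (nat_lit 152) (nat_lit 114988154885) (nat_lit 0) (nat_lit 34957673591) (nat_lit 1) (nat_lit 5) (nat_lit 3) (nat_lit 4) (nat_lit 1) (nat_lit 4) (nat_lit 410) (nat_lit 313) (nat_lit 297))) (XT.nd (nat_lit 78) (nat_lit 0) (nat_lit 0) (XT.lf (nat_lit 0) (nat_lit 41711496707)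 (nat_lit 152) (nat_lit 118009614172) (nat_lit 0) (nat_lit 40744195875) (nat_lit 1) (nat_lit 5) (nat_lit 3) (nat_lit 4) (nat_lit 1) (nat_lit 4) (nat_lit 411) (nat_lit 313) (nat_lit 296)) (XT.nd (nat_lit 78) (nat_lit 0) (nat_lit 0) (XT.lf (nat_lit 0) (nat_lit 47910605114) (nat_lit 152) (nat_lit 121437462168) (nat_lit 0) (nat_lit 46916766714) (nat_lit 1) (nat_lit 5) (nat_lit 3) (nat_lit 4) (nat_lit 1) (nat_lit 4) (nat_lit 412) (nat_lit 313) (nat_lit 295)) (XT.lf (nat_lit 0) (nat_lit 54530374530) (nat_lit 152) (nat_lit 125292012047) (nat_lit 0) (nat_lit 53511964307) (nat_lit 1) (nat_lit 5) (nat_lit 3) (nat_lit 4) (nat_lit 1) (nat_lit 4) (nat_lit 413) (nat_lit 313) (nat_lit 294))))))) (XT.nd (nat_lit 780) (nat_lit 0) (nat_lit 0) (XT.nd (nat_lit 390) (nat_lit 0) (nat_lit 0) (XT.nd (nat_lit 156) (nat_lit 0) (nat_lit 0) (XT.nd (nat_lit 78) (nat_lit 0) (nat_lit 0) (XT.lf (nat_lit 0) (nat_lit 61610033216)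 (nat_lit 152) (nat_lit 129596105585) (nat_lit 0) (nat_lit 60568871305) (nat_lit 1) (nat_lit 5) (nat_lit 3) (nat_lit 4) (nat_lit 1) (nat_lit 4) (nat_lit 414) (nat_lit 313) (nat_lit 293)) (XT.lf (nat_lit 0) (nat_lit 69191534706) (nat_lit 152) (nat_lit 134375248522) (nat_lit 0) (nat_lit 68129306418) (nat_lit 1) (nat_lit 5) (nat_lit 3) (nat_lit 4) (nat_lit 1) (nat_lit 4) (nat_lit 415) (nat_lit 313) (nat_lit 292))) (XT.nd (nat_lit 78) (nat_lit 0) (nat_lit 0) (XT.lf (nat_lit 0) (nat_lit 77319806416) (nat_lit 152) (nat_lit 139657761705) (nat_lit 0) (nat_lit 76238072224) (nat_lit 1) (nat_lit 5) (nat_lit 3) (nat_lit 4) (nat_lit 1) (nat_lit 4) (nat_lit 416) (nat_lit 313) (nat_lit 291)) (XT.nd (nat_lit 78) (nat_lit 0) (nat_lit 0) (XT.lf (nat_lit 0) (nat_lit 86043015883) (nat_lit 152) (nat_lit 145474948916) (nat_lit 0) (nat_lit 84943220667) (nat_lit 1) (nat_lit 5) (nat_lit 3) (nat_lit 4) (nat_lit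 1) (nat_lit 4) (nat_lit 417) (nat_lit 313) (nat_lit 290)) (XT.lf (nat_lit 0) (nat_lit 95412856199) (nat_lit 152) (nat_lit 151861282375) (nat_lit 0) (nat_lit 94296337814) (nat_lit 1) (nat_lit 5) (nat_lit 3) (nat_lit 4) (nat_lit 1) (nat_lit 4) (nat_lit 418) (nat_lit 313) (nat_lit 289))))) (XT.nd (nat_lit 156) (nat_lit 0) (nat_lit 0) (XT.nd (nat_lit 78) (nat_lit 0) (nat_lit 0) (XT.lf (nat_lit 0) (nat_lit 105484852344) (nat_lit 152) (nat_lit 158854607022) (nat_lit 0) (nat_lit 104352849542) (nat_lit 1) (nat_lit 5) (nat_lit 3) (nat_lit 4) (nat_lit 1) (nat_lit 4) (nat_lit 419) (nat_lit 313) (nat_lit 288)) (XT.lf (nat_lit 0) (nat_lit 116318690221) (nat_lit 152) (nat_lit 166496364780) (nat_lit 0) (nat_lit 115172349997) (nat_lit 1) (nat_lit 5) (nat_lit 3) (nat_lit 4) (nat_lit 1) (nat_lit 4) (nat_lit 420) (nat_lit 313) (nat_lit 287))) (XT.nd (nat_lit 78) (nat_lit 0) (nat_lit 0) (XT.lf (nat_lit 0)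 (nat_lit 127978570351) (nat_lit 152) (nat_lit 174831840139) (nat_lit 0) (nat_lit 126818954736) (nat_lit 1) (nat_lit 5) (nat_lit 3) (nat_lit 4) (nat_lit 1) (nat_lit 4) (nat_lit 421) (nat_lit 313) (nat_lit 286)) (XT.nd (nat_lit 78) (nat_lit 0) (nat_lit 0) (XT.lf (nat_lit 0) (nat_lit 140533588320) (nat_lit 152) (nat_lit 183910428510) (nat_lit 0) (nat_lit 139361680676) (nat_lit 1) (nat_lit 5) (nat_lit 3) (nat_lit 4) (nat_lit 1) (nat_lit 4) (nat_lit 422) (nat_lit 313) (nat_lit 285)) (XT.lf (nat_lit 0) (nat_lit 154058144234) (nat_lit 152) (nat_lit 193785928933) (nat_lit 0) (nat_lit 152874855082) (nat_lit 1) (nat_lit 5) (nat_lit 3) (nat_lit 4) (nat_lit 1) (nat_lit 4) (nat_lit 423) (nat_lit 313) (nat_lit 284)))))) (XT.nd (nat_lit 390) (nat_lit 0) (nat_lit 0) (XT.nd (nat_lit 156) (nat_lit 0) (nat_lit 0) (XT.nd (nat_lit 78) (nat_lit 0) (nat_lit 0) (XT.lf (nat_lit 0) (nat_lit 168632383610) (nat_lit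 152) (nat_lit 204516862895) (nat_lit 0) (nat_lit 167438556024) (nat_lit 1) (nat_lit 5) (nat_lit 3) (nat_lit 4) (nat_lit 1) (nat_lit 4) (nat_lit 424) (nat_lit 313) (nat_lit 283)) (XT.lf (nat_lit 0) (nat_lit 184342672311) (nat_lit 152) (nat_lit 216166821113) (nat_lit 0) (nat_lit 183139086916) (nat_lit 1) (nat_lit 5) (nat_lit 3) (nat_lit 4) (nat_lit 1) (nat_lit 4) (nat_lit 425) (nat_lit 313) (nat_lit 282))) (XT.nd (nat_lit 78) (nat_lit 0) (nat_lit 0) (XT.lf (nat_lit 0) (nat_lit 201282108343) (nat_lit 152) (nat_lit 228804840378) (nat_lit 0) (nat_lit 200069487941) (nat_lit 1) (nat_lit 5) (nat_lit 3) (nat_lit 4) (nat_lit 1) (nat_lit 4) (nat_lit 426) (nat_lit 313) (nat_lit 281)) (XT.nd (nat_lit 78) (nat_lit 0) (nat_lit 0) (XT.lf (nat_lit 0) (nat_lit 219551073551) (nat_lit 152) (nat_lit 242505812655) (nat_lit 0) (nat_lit 218330087400) (nat_lit 1) (nat_lit 5) (nat_lit 3) (nat_lit 4) (nat_lit 1)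 (nat_lit 4) (nat_lit 427) (nat_lit 313) (nat_lit 280)) (XT.lf (nat_lit 0) (nat_lit 239257828468) (nat_lit 152) (nat_lit 257350928892) (nat_lit 0) (nat_lit 238029096254) (nat_lit 1) (nat_lit 5) (nat_lit 3) (nat_lit 4) (nat_lit 1) (nat_lit 4) (nat_lit 428) (nat_lit 313) (nat_lit 279))))) (XT.nd (nat_lit 156) (nat_lit 0) (nat_lit 0) (XT.nd (nat_lit 78) (nat_lit 0) (nat_lit 0) (XT.lf (nat_lit 0) (nat_lit 260519153865) (nat_lit 152) (nat_lit 273428160147) (nat_lit 0) (nat_lit 259283249370) (nat_lit 1) (nat_lit 5) (nat_lit 3) (nat_lit 4) (nat_lit 1) (nat_lit 4) (nat_lit 429) (nat_lit 313) (nat_lit 278)) (XT.lf (nat_lit 0) (nat_lit 283461042781) (nat_lit 152) (nat_lit 290832778903) (nat_lit 0) (nat_lit 282218497285) (nat_lit 1) (nat_lit 5) (nat_lit 3) (nat_lit 4) (nat_lit 1) (nat_lit 4) (nat_lit 430) (nat_lit 313) (nat_lit 277))) (XT.nd (nat_lit 78) (nat_lit 0) (nat_lit 0) (XT.lf (nat_lit 0)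 (nat_lit 308219447150) (nat_lit 152) (nat_lit 309667923640) (nat_lit 0) (nat_lit 306970752580) (nat_lit 1) (nat_lit 5) (nat_lit 3) (nat_lit 4) (nat_lit 1) (nat_lit 4) (nat_lit 431) (nat_lit 313) (nat_lit 276)) (XT.nd (nat_lit 78) (nat_lit 0) (nat_lit 0) (XT.lf (nat_lit 0) (nat_lit 334941083442) (nat_lit 152) (nat_lit 330045210031) (nat_lit 0) (nat_lit 333686695284) (nat_lit 1) (nat_lit 5) (nat_lit 3) (nat_lit 4) (nat_lit 1) (nat_lit 4) (nat_lit 432) (nat_lit 313) (nat_lit 275)) (XT.lf (nat_lit 0) (nat_lit 363784302096) (nat_lit 152) (nat_lit 352085392366) (nat_lit 0) (nat_lit 362524642097) (nat_lit 1) (nat_lit 5) (nat_lit 3) (nat_lit 4) (nat_lit 1) (nat_lit 4) (nat_lit 433) (nat_lit 313) (nat_lit 274))))))))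
noncomputable def xc30 : XT := (XT.nd (nat_lit 1482) (nat_lit 0) (nat_lit 0) (XT.nd (nat_lit 702) (nat_lit 0) (nat_lit 0) (XT.nd (nat_lit 312) (nat_lit 0) (nat_lit 0) (XT.nd (nat_lit 156) (nat_lit 0) (nat_lit 0) (XT.nd (nat_lit 78) (nat_lit 0) (nat_lit 0) (XT.lf (nat_lit 0) (nat_lit 394920025887) (nat_lit 152) (nat_lit 375919079133) (nat_lit 0) (nat_lit 393655484555) (nat_lit 1) (nat_lit 5) (nat_lit 3) (nat_lit 4) (nat_lit 1) (nat_lit 4) (nat_lit 434) (nat_lit 313) (nat_lit 273)) (XT.lf (nat_lit 0) (nat_lit 428532762809) (nat_lit 152) (nat_lit 401687506994) (nat_lit 0) (nat_lit 427263701724) (nat_lit 1) (nat_lit 5) (nat_lit 3) (nat_lit 4) (nat_lit 1) (nat_lit 4) (nat_lit 435) (nat_lit 313) (nat_lit 272))) (XT.nd (nat_lit 78) (nat_lit 0) (nat_lit 0) (XT.lf (nat_lit 0) (nat_lit 464821699452) (nat_lit 152) (nat_lit 429543377743) (nat_lit 0) (nat_lit 463548453409) (nat_lit 1) (nat_lit 5) (nat_lit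 3) (nat_lit 4) (nat_lit 1) (nat_lit 4) (nat_lit 436) (nat_lit 313) (nat_lit 271)) (XT.lf (nat_lit 0) (nat_lit 504001881365) (nat_lit 152) (nat_lit 459651763208) (nat_lit 0) (nat_lit 502724760362) (nat_lit 1) (nat_lit 5) (nat_lit 3) (nat_lit 4) (nat_lit 1) (nat_lit 4) (nat_lit 437) (nat_lit 313) (nat_lit 270)))) (XT.nd (nat_lit 156) (nat_lit 0) (nat_lit 0) (XT.nd (nat_lit 78) (nat_lit 0) (nat_lit 0) (XT.lf (nat_lit 0) (nat_lit 546305487404) (nat_lit 152) (nat_lit 492191083451) (nat_lit 0) (nat_lit 545024778475) (nat_lit 1) (nat_lit 5) (nat_lit 3) (nat_lit 4) (nat_lit 1) (nat_lit 4) (nat_lit 438) (nat_lit 313) (nat_lit 269)) (XT.lf (nat_lit 0) (nat_lit 591983205605) (nat_lit 152) (nat_lit 527354164072) (nat_lit 0) (nat_lit 590699174522) (nat_lit 1) (nat_lit 5) (nat_lit 3) (nat_lit 4) (nat_lit 1) (nat_lit 4) (nat_lit 439) (nat_lit 313) (nat_lit 268))) (XT.nd (nat_lit 78) (nat_lit 0) (nat_lit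 0) (XT.lf (nat_lit 0) (nat_lit 641305718743) (nat_lit 152) (nat_lit 565349378884) (nat_lit 0) (nat_lit 640018611592) (nat_lit 1) (nat_lit 5) (nat_lit 3) (nat_lit 4) (nat_lit 1) (nat_lit 4) (nat_lit 440) (nat_lit 313) (nat_lit 267)) (XT.nd (nat_lit 78) (nat_lit 0) (nat_lit 0) (XT.lf (nat_lit 0) (nat_lit 694565308377) (nat_lit 152) (nat_lit 606401884714) (nat_lit 0) (nat_lit 693275353014) (nat_lit 1) (nat_lit 5) (nat_lit 3) (nat_lit 4) (nat_lit 1) (nat_lit 4) (nat_lit 441) (nat_lit 313) (nat_lit 266)) (XT.lf (nat_lit 0) (nat_lit 752077586889) (nat_lit 152) (nat_lit 650754955671) (nat_lit 0) (nat_lit 750784994294) (nat_lit 1) (nat_lit 5) (nat_lit 3) (nat_lit 4) (nat_lit 1) (nat_lit 4) (nat_lit 442) (nat_lit 313) (nat_lit 265)))))) (XT.nd (nat_lit 390) (nat_lit 0) (nat_lit 0) (XT.nd (nat_lit 156) (nat_lit 0) (nat_lit 0) (XT.nd (nat_lit 78) (nat_lit 0) (nat_lit 0) (XT.lf (nat_lit 0) (nat_lit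 814183367783) (nat_lit 152) (nat_lit 698671424768) (nat_lit 0) (nat_lit 812888333306) (nat_lit 1) (nat_lit 5) (nat_lit 3) (nat_lit 4) (nat_lit 1) (nat_lit 4) (nat_lit 443) (nat_lit 313) (nat_lit 264)) (XT.lf (nat_lit 0) (nat_lit 881250685316) (nat_lit 152) (nat_lit 750435241452) (nat_lit 0) (nat_lit 879953389837) (nat_lit 1) (nat_lit 5) (nat_lit 3) (nat_lit 4) (nat_lit 1) (nat_lit 4) (nat_lit 444) (nat_lit 313) (nat_lit 263))) (XT.nd (nat_lit 78) (nat_lit 0) (nat_lit 0) (XT.lf (nat_lit 0) (nat_lit 953676975442) (nat_lit 152) (nat_lit 806353154266) (nat_lit 0) (nat_lit 952377586443) (nat_lit 1) (nat_lit 5) (nat_lit 3) (nat_lit 4) (nat_lit 1) (nat_lit 4) (nat_lit 445) (nat_lit 313) (nat_lit 262)) (XT.nd (nat_lit 78) (nat_lit 0) (nat_lit 0) (XT.lf (nat_lit 0) (nat_lit 1031891430994) (nat_lit 152) (nat_lit 866756528619) (nat_lit 0) (nat_lit 1030590103549) (nat_lit 1) (nat_lit 5) (nat_lit 3)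 (nat_lit 4) (nat_lit 1) (nat_lit 4) (nat_lit 446) (nat_lit 313) (nat_lit 261)) (XT.lf (nat_lit 0) (nat_lit 1116357545039) (nat_lit 152) (nat_lit 932003310434) (nat_lit 0) (nat_lit 1115054422739) (nat_lit 1) (nat_lit 5) (nat_lit 3) (nat_lit 4) (nat_lit 1) (nat_lit 4) (nat_lit 447) (nat_lit 313) (nat_lit 260))))) (XT.nd (nat_lit 156) (nat_lit 0) (nat_lit 0) (XT.nd (nat_lit 78) (nat_lit 0) (nat_lit 0) (XT.lf (nat_lit 0) (nat_lit 1207575857514) (nat_lit 152) (nat_lit 1002480147306) (nat_lit 0) (nat_lit 1206271073310) (nat_lit 1) (nat_lit 5) (nat_lit 3) (nat_lit 4) (nat_lit 1) (nat_lit 4) (nat_lit 448) (nat_lit 313) (nat_lit 259)) (XT.lf (nat_lit 0) (nat_lit 1306086921382) (nat_lit 152) (nat_lit 1078604679751) (nat_lit 0) (nat_lit 1304780598378) (nat_lit 1) (nat_lit 5) (nat_lit 3) (nat_lit 4) (nat_lit 1) (nat_lit 4) (nat_lit 449) (nat_lit 313) (nat_lit 258))) (XT.nd (nat_lit 78) (nat_lit 0)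 (nat_lit 0) (XT.lf (nat_lit 0) (nat_lit 1412474505909) (nat_lit 152) (nat_lit 1160828016107) (nat_lit 0) (nat_lit 1411166758090) (nat_lit 1) (nat_lit 5) (nat_lit 3) (nat_lit 4) (nat_lit 1) (nat_lit 4) (nat_lit 450) (nat_lit 313) (nat_lit 257)) (XT.nd (nat_lit 78) (nat_lit 0) (nat_lit 0) (XT.lf (nat_lit 0) (nat_lit 1527369056042) (nat_lit 152) (nat_lit 1249637405777) (nat_lit 0) (nat_lit 1526059988950) (nat_lit 1) (nat_lit 5) (nat_lit 3) (nat_lit 4) (nat_lit 1) (nat_lit 4) (nat_lit 451) (nat_lit 313) (nat_lit 256)) (XT.lf (nat_lit 0) (nat_lit 1651451428373) (nat_lit 152) (nat_lit 1345559126625) (nat_lit 0) (nat_lit 1650141139731) (nat_lit 1) (nat_lit 5) (nat_lit 3) (nat_lit 4) (nat_lit 1) (nat_lit 4) (nat_lit 452) (nat_lit 313) (nat_lit 255))))))) (XT.nd (nat_lit 48438) (nat_lit 0) (nat_lit 152) (XT.nd (nat_lit 390) (nat_lit 0) (nat_lit 0) (XT.nd (nat_lit 156) (nat_lit 0) (nat_lit 0) (XT.nd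 (nat_lit 78) (nat_lit 0) (nat_lit 0) (XT.lf (nat_lit 0) (nat_lit 1785456925849) (nat_lit 152) (nat_lit 1449161603663) (nat_lit 0) (nat_lit 1784145506144) (nat_lit 1) (nat_lit 5) (nat_lit 3) (nat_lit 4) (nat_lit 1) (nat_lit 4) (nat_lit 453) (nat_lit 313) (nat_lit 254)) (XT.lf (nat_lit 0) (nat_lit 1930179655123) (nat_lit 152) (nat_lit 1561058777497) (nat_lit 0) (nat_lit 1928867188136) (nat_lit 1) (nat_lit 5) (nat_lit 3) (nat_lit 4) (nat_lit 1) (nat_lit 4) (nat_lit 454) (nat_lit 313) (nat_lit 253))) (XT.nd (nat_lit 78) (nat_lit 0) (nat_lit 0) (XT.lf (nat_lit 0) (nat_lit 2086477232368) (nat_lit 152) (nat_lit 1681913742488) (nat_lit 0) (nat_lit 2085163795676) (nat_lit 1) (nat_lit 5) (nat_lit 3) (nat_lit 4) (nat_lit 1) (nat_lit 4) (nat_lit 455) (nat_lit 313) (nat_lit 252)) (XT.nd (nat_lit 78) (nat_lit 0) (nat_lit 0) (XT.lf (nat_lit 0) (nat_lit 2255275865448) (nat_lit 152) (nat_lit 1812442676209)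 (nat_lit 0) (nat_lit 2253961530881) (nat_lit 1) (nat_lit 5) (nat_lit 3) (nat_lit 4) (nat_lit 1) (nat_lit 4) (nat_lit 456) (nat_lit 313) (nat_lit 251)) (XT.lf (nat_lit 0) (nat_lit 2437575842561) (nat_lit 152) (nat_lit 1953419083450) (nat_lit 0) (nat_lit 2436260676628) (nat_lit 1) (nat_lit 5) (nat_lit 3) (nat_lit 4) (nat_lit 1) (nat_lit 4) (nat_lit 457) (nat_lit 313) (nat_lit 250))))) (XT.nd (nat_lit 156) (nat_lit 0) (nat_lit 0) (XT.nd (nat_lit 78) (nat_lit 0) (nat_lit 0) (XT.lf (nat_lit 0) (nat_lit 2634457459866) (nat_lit 152) (nat_lit 2105678379960) (nat_lit 0) (nat_lit 2633141524150) (nat_lit 1) (nat_lit 5) (nat_lit 3) (nat_lit 4) (nat_lit 1) (nat_lit 4) (nat_lit 458) (nat_lit 313) (nat_lit 249)) (XT.lf (nat_lit 0) (nat_lit 2847087423244) (nat_lit 152) (nat_lit 2270122843049) (nat_lit 0) (nat_lit 2845770774766) (nat_lit 1) (nat_lit 5) (nat_lit 3) (nat_lit 4) (nat_lit 1) (nat_lit 4) (nat_lit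 459) (nat_lit 313) (nat_lit 248))) (XT.nd (nat_lit 78) (nat_lit 0) (nat_lit 0) (XT.lf (nat_lit 0) (nat_lit 3076725762108) (nat_lit 152) (nat_lit 2447726958427) (nat_lit 0) (nat_lit 3075408453665) (nat_lit 1) (nat_lit 5) (nat_lit 3) (nat_lit 4) (nat_lit 1) (nat_lit 4) (nat_lit 460) (nat_lit 313) (nat_lit 247)) (XT.nd (nat_lit 47736) (nat_lit 0) (nat_lit 228) (XT.lf (nat_lit 0) (nat_lit 3324733296243) (nat_lit 152) (nat_lit 2639543194924) (nat_lit 0) (nat_lit 3323415376722) (nat_lit 1) (nat_lit 5) (nat_lit 3) (nat_lit 4) (nat_lit 1) (nat_lit 4) (nat_lit 461) (nat_lit 313) (nat_lit 246)) (XT.lf (nat_lit 0) (nat_lit 8199504447) (nat_lit 152) (nat_lit 8496238257) (nat_lit 0) (nat_lit 8199504447) (nat_lit 4) (nat_lit 5) (nat_lit 6) (nat_lit 4) (nat_lit 4) (nat_lit 4) (nat_lit 392) (nat_lit 314) (nat_lit 314)))))) (XT.nd (nat_lit 390) (nat_lit 0) (nat_lit 0) (XT.nd (nat_lit 156) (nat_lit 0) (nat_lit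 0) (XT.nd (nat_lit 78) (nat_lit 76) (nat_lit 0) (XT.lf (nat_lit 0) (nat_lit 22899645304) (nat_lit 152) (nat_lit 7663443347) (nat_lit 0) (nat_lit 22785117093) (nat_lit 4) (nat_lit 5) (nat_lit 6) (nat_lit 4) (nat_lit 4) (nat_lit 4) (nat_lit 393) (nat_lit 314) (nat_lit 313)) (XT.lf (nat_lit 0) (nat_lit 1990334618) (nat_lit 76) (nat_lit 27718845332) (nat_lit 76) (nat_lit 27498272480) (nat_lit 3) (nat_lit 4) (nat_lit 4) (nat_lit 5) (nat_lit 4) (nat_lit 4) (nat_lit 394) (nat_lit 314) (nat_lit 312))) (XT.nd (nat_lit 78) (nat_lit 0) (nat_lit 0) (XT.lf (nat_lit 0) (nat_lit 12344292661) (nat_lit 76) (nat_lit 24676667057) (nat_lit 76) (nat_lit 24357904724) (nat_lit 3) (nat_lit 4) (nat_lit 4) (nat_lit 5) (nat_lit 4) (nat_lit 4) (nat_lit 395) (nat_lit 314) (nat_lit 311)) (XT.nd (nat_lit 78) (nat_lit 0) (nat_lit 0) (XT.lf (nat_lit 0) (nat_lit 23056244223) (nat_lit 76) (nat_lit 21628058228) (nat_lit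 76) (nat_lit 21218379707) (nat_lit 3) (nat_lit 4) (nat_lit 4) (nat_lit 5) (nat_lit 4) (nat_lit 4) (nat_lit 396) (nat_lit 314) (nat_lit 310)) (XT.lf (nat_lit 0) (nat_lit 34189667536) (nat_lit 76) (nat_lit 18554953013) (nat_lit 76) (nat_lit 18061092838) (nat_lit 3) (nat_lit 4) (nat_lit 4) (nat_lit 5) (nat_lit 4) (nat_lit 4) (nat_lit 397) (nat_lit 314) (nat_lit 309))))) (XT.nd (nat_lit 156) (nat_lit 0) (nat_lit 0) (XT.nd (nat_lit 78) (nat_lit 0) (nat_lit 0) (XT.lf (nat_lit 0) (nat_lit 45810538441) (nat_lit 76) (nat_lit 15439140419) (nat_lit 76) (nat_lit 14867334267) (nat_lit 3) (nat_lit 4) (nat_lit 4) (nat_lit 5) (nat_lit 4) (nat_lit 4) (nat_lit 398) (nat_lit 314) (nat_lit 308)) (XT.lf (nat_lit 0) (nat_lit 57987721360) (nat_lit 76) (nat_lit 12262156371) (nat_lit 76) (nat_lit 11618178019) (nat_lit 3) (nat_lit 4) (nat_lit 4) (nat_lit 5) (nat_lit 4) (nat_lit 4) (nat_lit 399) (nat_lit 314) (nat_lit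 307))) (XT.nd (nat_lit 78) (nat_lit 0) (nat_lit 0) (XT.lf (nat_lit 0) (nat_lit 70793377375) (nat_lit 76) (nat_lit 9005174297) (nat_lit 76) (nat_lit 8294369834) (nat_lit 3) (nat_lit 4) (nat_lit 4) (nat_lit 5) (nat_lit 4) (nat_lit 4) (nat_lit 400) (nat_lit 314) (nat_lit 306)) (XT.nd (nat_lit 78) (nat_lit 0) (nat_lit 0) (XT.lf (nat_lit 0) (nat_lit 84303391856) (nat_lit 76) (nat_lit 5648893563) (nat_lit 76) (nat_lit 4876213070) (nat_lit 3) (nat_lit 4) (nat_lit 4) (nat_lit 5) (nat_lit 4) (nat_lit 4) (nat_lit 401) (nat_lit 314) (nat_lit 305)) (XT.lf (nat_lit 0) (nat_lit 98597824148) (nat_lit 76) (nat_lit 2173425097) (nat_lit 76) (nat_lit 1343451985) (nat_lit 3) (nat_lit 4) (nat_lit 4) (nat_lit 5) (nat_lit 4) (nat_lit 4) (nat_lit 402) (nat_lit 314) (nat_lit 304))))))))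
noncomputable def xc31 : XT := (XT.nd (nat_lit 1482) (nat_lit 0) (nat_lit 0) (XT.nd (nat_lit 702) (nat_lit 0) (nat_lit 0) (XT.nd (nat_lit 312) (nat_lit 0) (nat_lit 0) (XT.nd (nat_lit 156) (nat_lit 0) (nat_lit 0) (XT.nd (nat_lit 78) (nat_lit 0) (nat_lit 0) (XT.lf (nat_lit 0) (nat_lit 2341061643) (nat_lit 152) (nat_lit 106115122802) (nat_lit 0) (nat_lit 1523448834) (nat_lit 1) (nat_lit 5) (nat_lit 3) (nat_lit 4) (nat_lit 1) (nat_lit 4) (nat_lit 403) (nat_lit 314) (nat_lit 303)) (XT.lf (nat_lit 0) (nat_lit 6263547720) (nat_lit 152) (nat_lit 106805714191) (nat_lit 0) (nat_lit 5400454182) (nat_lit 1) (nat_lit 5) (nat_lit 3) (nat_lit 4) (nat_lit 1) (nat_lit 4) (nat_lit 404) (nat_lit 314) (nat_lit 302))) (XT.nd (nat_lit 78) (nat_lit 0) (nat_lit 0) (XT.lf (nat_lit 0) (nat_lit 10370837131) (nat_lit 152) (nat_lit 107812866606) (nat_lit 0) (nat_lit 9465631808) (nat_lit 1) (nat_lit 5) (nat_lit 3)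 (nat_lit 4) (nat_lit 1) (nat_lit 4) (nat_lit 405) (nat_lit 314) (nat_lit 301)) (XT.lf (nat_lit 0) (nat_lit 14687269372) (nat_lit 152) (nat_lit 109142548357) (nat_lit 0) (nat_lit 13743071654) (nat_lit 1) (nat_lit 5) (nat_lit 3) (nat_lit 4) (nat_lit 1) (nat_lit 4) (nat_lit 406) (nat_lit 314) (nat_lit 300)))) (XT.nd (nat_lit 156) (nat_lit 0) (nat_lit 0) (XT.nd (nat_lit 78) (nat_lit 0) (nat_lit 0) (XT.lf (nat_lit 0) (nat_lit 19238423298) (nat_lit 152) (nat_lit 110802639040) (nat_lit 0) (nat_lit 18258121512) (nat_lit 1) (nat_lit 5) (nat_lit 3) (nat_lit 4) (nat_lit 1) (nat_lit 4) (nat_lit 407) (nat_lit 314) (nat_lit 299)) (XT.lf (nat_lit 0) (nat_lit 24051268711) (nat_lit 152) (nat_lit 112802976230) (nat_lit 0) (nat_lit 23037537232) (nat_lit 1) (nat_lit 5) (nat_lit 3) (nat_lit 4) (nat_lit 1) (nat_lit 4) (nat_lit 408) (nat_lit 314) (nat_lit 298))) (XT.nd (nat_lit 78) (nat_lit 0) (nat_lit 0) (XT.lf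 (nat_lit 0) (nat_lit 29154326177) (nat_lit 152) (nat_lit 115155413777) (nat_lit 0) (nat_lit 28109641278) (nat_lit 1) (nat_lit 5) (nat_lit 3) (nat_lit 4) (nat_lit 1) (nat_lit 4) (nat_lit 409) (nat_lit 314) (nat_lit 297)) (XT.nd (nat_lit 78) (nat_lit 0) (nat_lit 0) (XT.lf (nat_lit 0) (nat_lit 34577836035) (nat_lit 152) (nat_lit 117873892050) (nat_lit 0) (nat_lit 33504490563) (nat_lit 1) (nat_lit 5) (nat_lit 3) (nat_lit 4) (nat_lit 1) (nat_lit 4) (nat_lit 410) (nat_lit 314) (nat_lit 296)) (XT.lf (nat_lit 0) (nat_lit 40353937605) (nat_lit 152) (nat_lit 120974520552) (nat_lit 0) (nat_lit 39254054564) (nat_lit 1) (nat_lit 5) (nat_lit 3) (nat_lit 4) (nat_lit 1) (nat_lit 4) (nat_lit 411) (nat_lit 314) (nat_lit 295)))))) (XT.nd (nat_lit 390) (nat_lit 0) (nat_lit 0) (XT.nd (nat_lit 156) (nat_lit 0) (nat_lit 0) (XT.nd (nat_lit 78) (nat_lit 0) (nat_lit 0) (XT.lf (nat_lit 0) (nat_lit 46516859635) (nat_lit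 152) (nat_lit 124475673376) (nat_lit 0) (nat_lit 45392404772) (nat_lit 1) (nat_lit 5) (nat_lit 3) (nat_lit 4) (nat_lit 1) (nat_lit 4) (nat_lit 412) (nat_lit 314) (nat_lit 294)) (XT.lf (nat_lit 0) (nat_lit 53103123145) (nat_lit 152) (nat_lit 128398098096) (nat_lit 0) (nat_lit 51955916594) (nat_lit 1) (nat_lit 5) (nat_lit 3) (nat_lit 4) (nat_lit 1) (nat_lit 4) (nat_lit 413) (nat_lit 314) (nat_lit 293))) (XT.nd (nat_lit 78) (nat_lit 0) (nat_lit 0) (XT.lf (nat_lit 0) (nat_lit 60151757845) (nat_lit 152) (nat_lit 132765038709) (nat_lit 0) (nat_lit 58983484917) (nat_lit 1) (nat_lit 5) (nat_lit 3) (nat_lit 4) (nat_lit 1) (nat_lit 4) (nat_lit 414) (nat_lit 314) (nat_lit 292)) (XT.nd (nat_lit 78) (nat_lit 0) (nat_lit 0) (XT.lf (nat_lit 0) (nat_lit 67704533423) (nat_lit 152) (nat_lit 137602373382) (nat_lit 0) (nat_lit 66516754590) (nat_lit 1) (nat_lit 5) (nat_lit 3) (nat_lit 4) (nat_lit 1) (nat_lit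 4) (nat_lit 415) (nat_lit 314) (nat_lit 291)) (XT.lf (nat_lit 0) (nat_lit 75806207065) (nat_lit 152) (nat_lit 142938767802) (nat_lit 0) (nat_lit 74600367209) (nat_lit 1) (nat_lit 5) (nat_lit 3) (nat_lit 4) (nat_lit 1) (nat_lit 4) (nat_lit 416) (nat_lit 314) (nat_lit 290))))) (XT.nd (nat_lit 156) (nat_lit 0) (nat_lit 0) (XT.nd (nat_lit 78) (nat_lit 0) (nat_lit 0) (XT.lf (nat_lit 0) (nat_lit 84504788692) (nat_lit 152) (nat_lit 148805845047) (nat_lit 0) (nat_lit 83282225666) (nat_lit 1) (nat_lit 5) (nat_lit 3) (nat_lit 4) (nat_lit 1) (nat_lit 4) (nat_lit 417) (nat_lit 314) (nat_lit 289)) (XT.lf (nat_lit 0) (nat_lit 93851825452) (nat_lit 152) (nat_lit 155238372983) (nat_lit 0) (nat_lit 92613778010) (nat_lit 1) (nat_lit 5) (nat_lit 3) (nat_lit 4) (nat_lit 1) (nat_lit 4) (nat_lit 418) (nat_lit 314) (nat_lit 288))) (XT.nd (nat_lit 78) (nat_lit 0) (nat_lit 0) (XT.lf (nat_lit 0) (nat_lit 103902707193)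 (nat_lit 152) (nat_lit 162274470293) (nat_lit 0) (nat_lit 102650322329) (nat_lit 1) (nat_lit 5) (nat_lit 3) (nat_lit 4) (nat_lit 1) (nat_lit 4) (nat_lit 419) (nat_lit 314) (nat_lit 287)) (XT.nd (nat_lit 78) (nat_lit 0) (nat_lit 0) (XT.lf (nat_lit 0) (nat_lit 114716994697) (nat_lit 152) (nat_lit 169955832368) (nat_lit 0) (nat_lit 113451334441) (nat_lit 1) (nat_lit 5) (nat_lit 3) (nat_lit 4) (nat_lit 1) (nat_lit 4) (nat_lit 420) (nat_lit 314) (nat_lit 286)) (XT.lf (nat_lit 0) (nat_lit 126358772629) (nat_lit 152) (nat_lit 178327978392) (nat_lit 0) (nat_lit 125080820344) (nat_lit 1) (nat_lit 5) (nat_lit 3) (nat_lit 4) (nat_lit 1) (nat_lit 4) (nat_lit 421) (nat_lit 314) (nat_lit 285))))))) (XT.nd (nat_lit 780) (nat_lit 0) (nat_lit 0) (XT.nd (nat_lit 390) (nat_lit 0) (nat_lit 0) (XT.nd (nat_lit 156) (nat_lit 0) (nat_lit 0) (XT.nd (nat_lit 78) (nat_lit 0) (nat_lit 0) (XT.lf (nat_lit 0) (nat_lit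 138897029303) (nat_lit 152) (nat_lit 187440521082) (nat_lit 0) (nat_lit 137607695511) (nat_lit 1) (nat_lit 5) (nat_lit 3) (nat_lit 4) (nat_lit 1) (nat_lit 4) (nat_lit 422) (nat_lit 314) (nat_lit 284)) (XT.lf (nat_lit 0) (nat_lit 152406065500) (nat_lit 152) (nat_lit 197347460690) (nat_lit 0) (nat_lit 151106193274) (nat_lit 1) (nat_lit 5) (nat_lit 3) (nat_lit 4) (nat_lit 1) (nat_lit 4) (nat_lit 423) (nat_lit 314) (nat_lit 283))) (XT.nd (nat_lit 78) (nat_lit 0) (nat_lit 0) (XT.lf (nat_lit 0) (nat_lit 166965934768) (nat_lit 152) (nat_lit 208107505007) (nat_lit 0) (nat_lit 165656304733) (nat_lit 1) (nat_lit 5) (nat_lit 3) (nat_lit 4) (nat_lit 1) (nat_lit 4) (nat_lit 424) (nat_lit 314) (nat_lit 282)) (XT.nd (nat_lit 78) (nat_lit 0) (nat_lit 0) (XT.lf (nat_lit 0) (nat_lit 182662917813) (nat_lit 152) (nat_lit 219784417259) (nat_lit 0) (nat_lit 181344252770) (nat_lit 1) (nat_lit 5) (nat_lit 3)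 (nat_lit 4) (nat_lit 1) (nat_lit 4) (nat_lit 425) (nat_lit 314) (nat_lit 281)) (XT.lf (nat_lit 0) (nat_lit 199590033794) (nat_lit 152) (nat_lit 232447393962) (nat_lit 0) (nat_lit 198263003003) (nat_lit 1) (nat_lit 5) (nat_lit 3) (nat_lit 4) (nat_lit 1) (nat_lit 4) (nat_lit 426) (nat_lit 314) (nat_lit 280))))) (XT.nd (nat_lit 156) (nat_lit 0) (nat_lit 0) (XT.nd (nat_lit 78) (nat_lit 0) (nat_lit 0) (XT.lf (nat_lit 0) (nat_lit 217847591546) (nat_lit 152) (nat_lit 246171474978) (nat_lit 0) (nat_lit 216512814692) (nat_lit 1) (nat_lit 5) (nat_lit 3) (nat_lit 4) (nat_lit 1) (nat_lit 4) (nat_lit 427) (nat_lit 314) (nat_lit 279)) (XT.lf (nat_lit 0) (nat_lit 237543784005) (nat_lit 152) (nat_lit 261037988195) (nat_lit 0) (nat_lit 236201834870) (nat_lit 1) (nat_lit 5) (nat_lit 3) (nat_lit 4) (nat_lit 1) (nat_lit 4) (nat_lit 428) (nat_lit 314) (nat_lit 278))) (XT.nd (nat_lit 78) (nat_lit 0) (nat_lit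 0) (XT.lf (nat_lit 0) (nat_lit 258795329347) (nat_lit 152) (nat_lit 277135031470) (nat_lit 0) (nat_lit 257446739212) (nat_lit 1) (nat_lit 5) (nat_lit 3) (nat_lit 4) (nat_lit 1) (nat_lit 4) (nat_lit 429) (nat_lit 314) (nat_lit 277)) (XT.nd (nat_lit 78) (nat_lit 0) (nat_lit 0) (XT.lf (nat_lit 0) (nat_lit 281728162657) (nat_lit 152) (nat_lit 294557994687) (nat_lit 0) (nat_lit 280373423447) (nat_lit 1) (nat_lit 5) (nat_lit 3) (nat_lit 4) (nat_lit 1) (nat_lit 4) (nat_lit 430) (nat_lit 314) (nat_lit 276)) (XT.lf (nat_lit 0) (nat_lit 306478182206) (nat_lit 152) (nat_lit 313410125037) (nat_lit 0) (nat_lit 305117749408) (nat_lit 1) (nat_lit 5) (nat_lit 3) (nat_lit 4) (nat_lit 1) (nat_lit 4) (nat_lit 431) (nat_lit 314) (nat_lit 275)))))) (XT.nd (nat_lit 390) (nat_lit 0) (nat_lit 0) (XT.nd (nat_lit 156) (nat_lit 0) (nat_lit 0) (XT.nd (nat_lit 78) (nat_lit 0) (nat_lit 0) (XT.lf (nat_lit 0) (nat_lit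 333192054776) (nat_lit 152) (nat_lit 333803138848) (nat_lit 0) (nat_lit 331826350138) (nat_lit 1) (nat_lit 5) (nat_lit 3) (nat_lit 4) (nat_lit 1) (nat_lit 4) (nat_lit 432) (nat_lit 314) (nat_lit 274)) (XT.lf (nat_lit 0) (nat_lit 362028084798) (nat_lit 152) (nat_lit 355857883609) (nat_lit 0) (nat_lit 360657498825) (nat_lit 1) (nat_lit 5) (nat_lit 3) (nat_lit 4) (nat_lit 1) (nat_lit 4) (nat_lit 433) (nat_lit 314) (nat_lit 273))) (XT.nd (nat_lit 78) (nat_lit 0) (nat_lit 0) (XT.lf (nat_lit 0) (nat_lit 393157152449) (nat_lit 152) (nat_lit 379705054103) (nat_lit 0) (nat_lit 391782046723) (nat_lit 1) (nat_lit 5) (nat_lit 3) (nat_lit 4) (nat_lit 1) (nat_lit 4) (nat_lit 434) (nat_lit 314) (nat_lit 272)) (XT.nd (nat_lit 78) (nat_lit 0) (nat_lit 0) (XT.lf (nat_lit 0) (nat_lit 426763726278) (nat_lit 152) (nat_lit 405485966896) (nat_lit 0) (nat_lit 425384435595) (nat_lit 1) (nat_lit 5) (nat_lit 3)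 (nat_lit 4) (nat_lit 1) (nat_lit 4) (nat_lit 435) (nat_lit 314) (nat_lit 271)) (XT.lf (nat_lit 0) (nat_lit 463046956352) (nat_lit 152) (nat_lit 433353397768) (nat_lit 0) (nat_lit 461663790709) (nat_lit 1) (nat_lit 5) (nat_lit 3) (nat_lit 4) (nat_lit 1) (nat_lit 4) (nat_lit 436) (nat_lit 314) (nat_lit 270))))) (XT.nd (nat_lit 156) (nat_lit 0) (nat_lit 0) (XT.nd (nat_lit 78) (nat_lit 0) (nat_lit 0) (XT.lf (nat_lit 0) (nat_lit 502221854406) (nat_lit 152) (nat_lit 463472487051) (nat_lit 0) (nat_lit 500835100837) (nat_lit 1) (nat_lit 5) (nat_lit 3) (nat_lit 4) (nat_lit 1) (nat_lit 4) (nat_lit 437) (nat_lit 314) (nat_lit 269)) (XT.lf (nat_lit 0) (nat_lit 544520567983) (nat_lit 152) (nat_lit 496021718236) (nat_lit 0) (nat_lit 543130492260) (nat_lit 1) (nat_lit 5) (nat_lit 3) (nat_lit 4) (nat_lit 1) (nat_lit 4) (nat_lit 438) (nat_lit 314) (nat_lit 268))) (XT.nd (nat_lit 78) (nat_lit 0) (nat_lit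 0) (XT.lf (nat_lit 0) (nat_lit 590193756127) (nat_lit 152) (nat_lit 531193975655) (nat_lit 0) (nat_lit 588800604336) (nat_lit 1) (nat_lit 5) (nat_lit 3) (nat_lit 4) (nat_lit 1) (nat_lit 4) (nat_lit 439) (nat_lit 314) (nat_lit 267)) (XT.nd (nat_lit 78) (nat_lit 0) (nat_lit 0) (XT.lf (nat_lit 0) (nat_lit 639512074767) (nat_lit 152) (nat_lit 569197687502) (nat_lit 0) (nat_lit 638116074765) (nat_lit 1) (nat_lit 5) (nat_lit 3) (nat_lit 4) (nat_lit 1) (nat_lit 4) (nat_lit 440) (nat_lit 314) (nat_lit 266)) (XT.lf (nat_lit 0) (nat_lit 692767780607) (nat_lit 152) (nat_lit 610258060957) (nat_lit 0) (nat_lit 691369143372) (nat_lit 1) (nat_lit 5) (nat_lit 3) (nat_lit 4) (nat_lit 1) (nat_lit 4) (nat_lit 441) (nat_lit 314) (nat_lit 265))))))))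
noncomputable def xc32 : XT := (XT.nd (nat_lit 49062) (nat_lit 0) (nat_lit 0) (XT.nd (nat_lit 702) (nat_lit 0) (nat_lit 0) (XT.nd (nat_lit 312) (nat_lit 0) (nat_lit 0) (XT.nd (nat_lit 156) (nat_lit 0) (nat_lit 0) (XT.nd (nat_lit 78) (nat_lit 0) (nat_lit 0) (XT.lf (nat_lit 0) (nat_lit 750276463014) (nat_lit 152) (nat_lit 654618416753) (nat_lit 0) (nat_lit 748875383897) (nat_lit 1) (nat_lit 5) (nat_lit 3) (nat_lit 4) (nat_lit 1) (nat_lit 4) (nat_lit 442) (nat_lit 314) (nat_lit 264)) (XT.lf (nat_lit 0) (nat_lit 812378914181) (nat_lit 152) (nat_lit 702541631071) (nat_lit 0) (nat_lit 810975574061) (nat_lit 1) (nat_lit 5) (nat_lit 3) (nat_lit 4) (nat_lit 1) (nat_lit 4) (nat_lit 443) (nat_lit 314) (nat_lit 263))) (XT.nd (nat_lit 78) (nat_lit 0) (nat_lit 0) (XT.lf (nat_lit 0) (nat_lit 879443148632) (nat_lit 152) (nat_lit 754311693329) (nat_lit 0) (nat_lit 878037714992) (nat_lit 1) (nat_lit 5)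 (nat_lit 3) (nat_lit 4) (nat_lit 1) (nat_lit 4) (nat_lit 444) (nat_lit 314) (nat_lit 262)) (XT.lf (nat_lit 0) (nat_lit 951866584054) (nat_lit 152) (nat_lit 810235389083) (nat_lit 0) (nat_lit 950459211970) (nat_lit 1) (nat_lit 5) (nat_lit 3) (nat_lit 4) (nat_lit 1) (nat_lit 4) (nat_lit 445) (nat_lit 314) (nat_lit 261)))) (XT.nd (nat_lit 156) (nat_lit 0) (nat_lit 0) (XT.nd (nat_lit 78) (nat_lit 0) (nat_lit 0) (XT.lf (nat_lit 0) (nat_lit 1030078396360) (nat_lit 152) (nat_lit 870644118010) (nat_lit 0) (nat_lit 1028669229419) (nat_lit 1) (nat_lit 5) (nat_lit 3) (nat_lit 4) (nat_lit 1) (nat_lit 4) (nat_lit 446) (nat_lit 314) (nat_lit 260)) (XT.lf (nat_lit 0) (nat_lit 1114542062957) (nat_lit 152) (nat_lit 935895857763) (nat_lit 0) (nat_lit 1113131234112) (nat_lit 1) (nat_lit 5) (nat_lit 3) (nat_lit 4) (nat_lit 1) (nat_lit 4) (nat_lit 447) (nat_lit 314) (nat_lit 259))) (XT.nd (nat_lit 78) (nat_lit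 0) (nat_lit 0) (XT.lf (nat_lit 0) (nat_lit 1205758109276) (nat_lit 152) (nat_lit 1006377285319) (nat_lit 0) (nat_lit 1204345741631) (nat_lit 1) (nat_lit 5) (nat_lit 3) (nat_lit 4) (nat_lit 1) (nat_lit 4) (nat_lit 448) (nat_lit 314) (nat_lit 258)) (XT.nd (nat_lit 78) (nat_lit 0) (nat_lit 0) (XT.lf (nat_lit 0) (nat_lit 1304267074850) (nat_lit 152) (nat_lit 1082506068397) (nat_lit 0) (nat_lit 1302853282390) (nat_lit 1) (nat_lit 5) (nat_lit 3) (nat_lit 4) (nat_lit 1) (nat_lit 4) (nat_lit 449) (nat_lit 314) (nat_lit 257)) (XT.lf (nat_lit 0) (nat_lit 1410652716513) (nat_lit 152) (nat_lit 1164733340525) (nat_lit 0) (nat_lit 1409237604781) (nat_lit 1) (nat_lit 5) (nat_lit 3) (nat_lit 4) (nat_lit 1) (nat_lit 4) (nat_lit 450) (nat_lit 314) (nat_lit 256)))))) (XT.nd (nat_lit 390) (nat_lit 0) (nat_lit 0) (XT.nd (nat_lit 156) (nat_lit 0) (nat_lit 0) (XT.nd (nat_lit 78) (nat_lit 0) (nat_lit 0) (XT.lf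 (nat_lit 0) (nat_lit 1525545467698) (nat_lit 152) (nat_lit 1253546374428) (nat_lit 0) (nat_lit 1524129134416) (nat_lit 1) (nat_lit 5) (nat_lit 3) (nat_lit 4) (nat_lit 1) (nat_lit 4) (nat_lit 451) (nat_lit 314) (nat_lit 255)) (XT.lf (nat_lit 0) (nat_lit 1649626174336) (nat_lit 152) (nat_lit 1349471469565) (nat_lit 0) (nat_lit 1648208709990) (nat_lit 1) (nat_lit 5) (nat_lit 3) (nat_lit 4) (nat_lit 1) (nat_lit 4) (nat_lit 452) (nat_lit 314) (nat_lit 254))) (XT.nd (nat_lit 78) (nat_lit 0) (nat_lit 0) (XT.lf (nat_lit 0) (nat_lit 1783630129504) (nat_lit 152) (nat_lit 1453077070946) (nat_lit 0) (nat_lit 1782211617877) (nat_lit 1) (nat_lit 5) (nat_lit 3) (nat_lit 4) (nat_lit 1) (nat_lit 4) (nat_lit 453) (nat_lit 314) (nat_lit 253)) (XT.nd (nat_lit 78) (nat_lit 0) (nat_lit 0) (XT.lf (nat_lit 0) (nat_lit 1928351430715) (nat_lit 152) (nat_lit 1564977137688) (nat_lit 0) (nat_lit 1926931949383) (nat_lit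 1) (nat_lit 5) (nat_lit 3) (nat_lit 4) (nat_lit 1) (nat_lit 4) (nat_lit 454) (nat_lit 314) (nat_lit 252)) (XT.lf (nat_lit 0) (nat_lit 2084647685679) (nat_lit 152) (nat_lit 1685834781300) (nat_lit 0) (nat_lit 2083227306472) (nat_lit 1) (nat_lit 5) (nat_lit 3) (nat_lit 4) (nat_lit 1) (nat_lit 4) (nat_lit 455) (nat_lit 314) (nat_lit 251))))) (XT.nd (nat_lit 156) (nat_lit 0) (nat_lit 0) (XT.nd (nat_lit 78) (nat_lit 0) (nat_lit 0) (XT.lf (nat_lit 0) (nat_lit 2253445094426) (nat_lit 152) (nat_lit 1816366195224) (nat_lit 0) (nat_lit 2252023883853) (nat_lit 1) (nat_lit 5) (nat_lit 3) (nat_lit 4) (nat_lit 1) (nat_lit 4) (nat_lit 456) (nat_lit 314) (nat_lit 250)) (XT.lf (nat_lit 0) (nat_lit 2435743937896) (nat_lit 152) (nat_lit 1957344898950) (nat_lit 0) (nat_lit 2434321957540) (nat_lit 1) (nat_lit 5) (nat_lit 3) (nat_lit 4) (nat_lit 1) (nat_lit 4) (nat_lit 457) (nat_lit 314) (nat_lit 249))) (XT.nd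 (nat_lit 78) (nat_lit 0) (nat_lit 0) (XT.lf (nat_lit 0) (nat_lit 2632624505532) (nat_lit 152) (nat_lit 2109606321835) (nat_lit 0) (nat_lit 2631201812414) (nat_lit 1) (nat_lit 5) (nat_lit 3) (nat_lit 4) (nat_lit 1) (nat_lit 4) (nat_lit 458) (nat_lit 314) (nat_lit 248)) (XT.nd (nat_lit 78) (nat_lit 0) (nat_lit 0) (XT.lf (nat_lit 0) (nat_lit 2845253496994) (nat_lit 152) (nat_lit 2274052753790) (nat_lit 0) (nat_lit 2843830143912) (nat_lit 1) (nat_lit 5) (nat_lit 3) (nat_lit 4) (nat_lit 1) (nat_lit 4) (nat_lit 459) (nat_lit 314) (nat_lit 247)) (XT.lf (nat_lit 0) (nat_lit 3074890935936) (nat_lit 152) (nat_lit 2451658692191) (nat_lit 0) (nat_lit 3073466971775) (nat_lit 1) (nat_lit 5) (nat_lit 3) (nat_lit 4) (nat_lit 1) (nat_lit 4) (nat_lit 460) (nat_lit 314) (nat_lit 246))))))) (XT.nd (nat_lit 702) (nat_lit 152) (nat_lit 0) (XT.nd (nat_lit 312) (nat_lit 76) (nat_lit 0) (XT.nd (nat_lit 156) (nat_lit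 0) (nat_lit 0) (XT.nd (nat_lit 78) (nat_lit 0) (nat_lit 0) (XT.lf (nat_lit 0) (nat_lit 2148499235) (nat_lit 152) (nat_lit 17451443720) (nat_lit 0) (nat_lit 2148499235) (nat_lit 4) (nat_lit 5) (nat_lit 6) (nat_lit 4) (nat_lit 4) (nat_lit 4) (nat_lit 390) (nat_lit 315) (nat_lit 315)) (XT.lf (nat_lit 0) (nat_lit 10244571303) (nat_lit 152) (nat_lit 26151612643) (nat_lit 0) (nat_lit 10120880835) (nat_lit 4) (nat_lit 5) (nat_lit 6) (nat_lit 4) (nat_lit 4) (nat_lit 4) (nat_lit 391) (nat_lit 315) (nat_lit 314))) (XT.nd (nat_lit 78) (nat_lit 0) (nat_lit 0) (XT.lf (nat_lit 0) (nat_lit 16388208068) (nat_lit 152) (nat_lit 17263069712) (nat_lit 0) (nat_lit 16149989387) (nat_lit 4) (nat_lit 5) (nat_lit 6) (nat_lit 4) (nat_lit 4) (nat_lit 4) (nat_lit 392) (nat_lit 315) (nat_lit 313)) (XT.lf (nat_lit 0) (nat_lit 22764315500) (nat_lit 152) (nat_lit 8184585801) (nat_lit 0) (nat_lit 22420052180) (nat_lit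 4) (nat_lit 5) (nat_lit 6) (nat_lit 4) (nat_lit 4) (nat_lit 4) (nat_lit 393) (nat_lit 315) (nat_lit 312)))) (XT.nd (nat_lit 156) (nat_lit 0) (nat_lit 0) (XT.nd (nat_lit 78) (nat_lit 0) (nat_lit 0) (XT.lf (nat_lit 0) (nat_lit 1197543488) (nat_lit 76) (nat_lit 28241935403) (nat_lit 76) (nat_lit 27799482601) (nat_lit 3) (nat_lit 4) (nat_lit 4) (nat_lit 5) (nat_lit 4) (nat_lit 4) (nat_lit 394) (nat_lit 315) (nat_lit 311)) (XT.lf (nat_lit 0) (nat_lit 11325384645) (nat_lit 76) (nat_lit 25313672372) (nat_lit 76) (nat_lit 24780303383) (nat_lit 3) (nat_lit 4) (nat_lit 4) (nat_lit 5) (nat_lit 4) (nat_lit 4) (nat_lit 395) (nat_lit 315) (nat_lit 310))) (XT.nd (nat_lit 78) (nat_lit 0) (nat_lit 0) (XT.lf (nat_lit 0) (nat_lit 21827968719) (nat_lit 76) (nat_lit 22370540620) (nat_lit 76) (nat_lit 21752989976) (nat_lit 3) (nat_lit 4) (nat_lit 4) (nat_lit 5) (nat_lit 4) (nat_lit 4) (nat_lit 396) (nat_lit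 315) (nat_lit 309)) (XT.nd (nat_lit 78) (nat_lit 0) (nat_lit 0) (XT.lf (nat_lit 0) (nat_lit 32767533247) (nat_lit 76) (nat_lit 19395099366) (nat_lit 76) (nat_lit 18699602746) (nat_lit 3) (nat_lit 4) (nat_lit 4) (nat_lit 5) (nat_lit 4) (nat_lit 4) (nat_lit 397) (nat_lit 315) (nat_lit 308)) (XT.lf (nat_lit 0) (nat_lit 44208905278) (nat_lit 76) (nat_lit 16369716365) (nat_lit 76) (nat_lit 15602047544) (nat_lit 3) (nat_lit 4) (nat_lit 4) (nat_lit 5) (nat_lit 4) (nat_lit 4) (nat_lit 398) (nat_lit 315) (nat_lit 307)))))) (XT.nd (nat_lit 390) (nat_lit 0) (nat_lit 0) (XT.nd (nat_lit 156) (nat_lit 152) (nat_lit 0) (XT.nd (nat_lit 78) (nat_lit 0) (nat_lit 0) (XT.lf (nat_lit 0) (nat_lit 56219885535) (nat_lit 76) (nat_lit 13276463421) (nat_lit 76) (nat_lit 12441968490) (nat_lit 3) (nat_lit 4) (nat_lit 4) (nat_lit 5) (nat_lit 4) (nat_lit 4) (nat_lit 399) (nat_lit 315) (nat_lit 306)) (XT.lf (nat_lit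 0) (nat_lit 68871650196) (nat_lit 76) (nat_lit 10097010148) (nat_lit 76) (nat_lit 9200639188) (nat_lit 3) (nat_lit 4) (nat_lit 4) (nat_lit 5) (nat_lit 4) (nat_lit 4) (nat_lit 400) (nat_lit 315) (nat_lit 305))) (XT.nd (nat_lit 78) (nat_lit 152) (nat_lit 0) (XT.lf (nat_lit 0) (nat_lit 82239172683) (nat_lit 76) (nat_lit 6812515341) (nat_lit 76) (nat_lit 5858851760) (nat_lit 3) (nat_lit 4) (nat_lit 4) (nat_lit 5) (nat_lit 4) (nat_lit 4) (nat_lit 401) (nat_lit 315) (nat_lit 304)) (XT.nd (nat_lit 78) (nat_lit 152) (nat_lit 0) (XT.lf (nat_lit 0) (nat_lit 96401667944) (nat_lit 76) (nat_lit 3403515325) (nat_lit 76) (nat_lit 2396803023) (nat_lit 3) (nat_lit 4) (nat_lit 4) (nat_lit 5) (nat_lit 4) (nat_lit 4) (nat_lit 402) (nat_lit 315) (nat_lit 303)) (XT.lf (nat_lit 0) (nat_lit 1184531169) (nat_lit 152) (nat_lit 108689979573) (nat_lit 0) (nat_lit 206909420) (nat_lit 1) (nat_lit 5) (nat_lit 3) (nat_lit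 4) (nat_lit 1) (nat_lit 4) (nat_lit 403) (nat_lit 315) (nat_lit 302))))) (XT.nd (nat_lit 156) (nat_lit 0) (nat_lit 0) (XT.nd (nat_lit 78) (nat_lit 0) (nat_lit 0) (XT.lf (nat_lit 0) (nat_lit 5045000154) (nat_lit 152) (nat_lit 109506202556) (nat_lit 0) (nat_lit 4025266619) (nat_lit 1) (nat_lit 5) (nat_lit 3) (nat_lit 4) (nat_lit 1) (nat_lit 4) (nat_lit 404) (nat_lit 315) (nat_lit 301)) (XT.lf (nat_lit 0) (nat_lit 9094866332) (nat_lit 152) (nat_lit 110629680520) (nat_lit 0) (nat_lit 8036140403) (nat_lit 1) (nat_lit 5) (nat_lit 3) (nat_lit 4) (nat_lit 1) (nat_lit 4) (nat_lit 405) (nat_lit 315) (nat_lit 300))) (XT.nd (nat_lit 78) (nat_lit 0) (nat_lit 0) (XT.lf (nat_lit 0) (nat_lit 13358128912) (nat_lit 152) (nat_lit 112067071114) (nat_lit 0) (nat_lit 12263298915) (nat_lit 1) (nat_lit 5) (nat_lit 3) (nat_lit 4) (nat_lit 1) (nat_lit 4) (nat_lit 406) (nat_lit 315) (nat_lit 299)) (XT.nd (nat_lit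 78) (nat_lit 0) (nat_lit 0) (XT.lf (nat_lit 0) (nat_lit 17860051672) (nat_lit 152) (nat_lit 113826892207) (nat_lit 0) (nat_lit 16731791981) (nat_lit 1) (nat_lit 5) (nat_lit 3) (nat_lit 4) (nat_lit 1) (nat_lit 4) (nat_lit 407) (nat_lit 315) (nat_lit 298)) (XT.lf (nat_lit 0) (nat_lit 22627312671) (nat_lit 152) (nat_lit 115919572368) (nat_lit 0) (nat_lit 21468099561) (nat_lit 1) (nat_lit 5) (nat_lit 3) (nat_lit 4) (nat_lit 1) (nat_lit 4) (nat_lit 408) (nat_lit 315) (nat_lit 297))))))))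
noncomputable def xc33 : XT := (XT.nd (nat_lit 1482) (nat_lit 0) (nat_lit 0) (XT.nd (nat_lit 702) (nat_lit 0) (nat_lit 0) (XT.nd (nat_lit 312) (nat_lit 0) (nat_lit 0) (XT.nd (nat_lit 156) (nat_lit 0) (nat_lit 0) (XT.nd (nat_lit 78) (nat_lit 0) (nat_lit 0) (XT.lf (nat_lit 0) (nat_lit 27688162346) (nat_lit 152) (nat_lit 118357512667) (nat_lit 0) (nat_lit 26500288662) (nat_lit 1) (nat_lit 5) (nat_lit 3) (nat_lit 4) (nat_lit 1) (nat_lit 4) (nat_lit 409) (nat_lit 315) (nat_lit 296)) (XT.lf (nat_lit 0) (nat_lit 33072590918) (nat_lit 152) (nat_lit 121155160155) (nat_lit 0) (nat_lit 31858179665) (nat_lit 1) (nat_lit 5) (nat_lit 3) (nat_lit 4) (nat_lit 1) (nat_lit 4) (nat_lit 410) (nat_lit 315) (nat_lit 295))) (XT.nd (nat_lit 78) (nat_lit 0) (nat_lit 0) (XT.lf (nat_lit 0) (nat_lit 38812506110) (nat_lit 152) (nat_lit 124329093484) (nat_lit 0) (nat_lit 37573523035) (nat_lit 1) (nat_lit 5) (nat_lit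 3) (nat_lit 4) (nat_lit 1) (nat_lit 4) (nat_lit 411) (nat_lit 315) (nat_lit 294)) (XT.lf (nat_lit 0) (nat_lit 44941922235) (nat_lit 152) (nat_lit 127898121150) (nat_lit 0) (nat_lit 43680187472) (nat_lit 1) (nat_lit 5) (nat_lit 3) (nat_lit 4) (nat_lit 1) (nat_lit 4) (nat_lit 412) (nat_lit 315) (nat_lit 293)))) (XT.nd (nat_lit 156) (nat_lit 0) (nat_lit 0) (XT.nd (nat_lit 78) (nat_lit 0) (nat_lit 0) (XT.lf (nat_lit 0) (nat_lit 51497161759) (nat_lit 152) (nat_lit 131883392944) (nat_lit 0) (nat_lit 50214360619) (nat_lit 1) (nat_lit 5) (nat_lit 3) (nat_lit 4) (nat_lit 1) (nat_lit 4) (nat_lit 413) (nat_lit 315) (nat_lit 292)) (XT.lf (nat_lit 0) (nat_lit 58517070546) (nat_lit 152) (nat_lit 136308525293) (nat_lit 0) (nat_lit 57214763502) (nat_lit 1) (nat_lit 5) (nat_lit 3) (nat_lit 4) (nat_lit 1) (nat_lit 4) (nat_lit 414) (nat_lit 315) (nat_lit 291))) (XT.nd (nat_lit 78) (nat_lit 0) (nat_lit 0)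 (XT.lf (nat_lit 0) (nat_lit 66043248056) (nat_lit 152) (nat_lit 141199741204) (nat_lit 0) (nat_lit 64722879988) (nat_lit 1) (nat_lit 5) (nat_lit 3) (nat_lit 4) (nat_lit 1) (nat_lit 4) (nat_lit 415) (nat_lit 315) (nat_lit 290)) (XT.nd (nat_lit 78) (nat_lit 0) (nat_lit 0) (XT.lf (nat_lit 0) (nat_lit 74120293858) (nat_lit 152) (nat_lit 146586025658) (nat_lit 0) (nat_lit 72783202621) (nat_lit 1) (nat_lit 5) (nat_lit 3) (nat_lit 4) (nat_lit 1) (nat_lit 4) (nat_lit 416) (nat_lit 315) (nat_lit 289)) (XT.lf (nat_lit 0) (nat_lit 82796071929) (nat_lit 152) (nat_lit 152499297380) (nat_lit 0) (nat_lit 81443496275) (nat_lit 1) (nat_lit 5) (nat_lit 3) (nat_lit 4) (nat_lit 1) (nat_lit 4) (nat_lit 417) (nat_lit 315) (nat_lit 288)))))) (XT.nd (nat_lit 390) (nat_lit 0) (nat_lit 0) (XT.nd (nat_lit 156) (nat_lit 0) (nat_lit 0) (XT.nd (nat_lit 78) (nat_lit 0) (nat_lit 0) (XT.lf (nat_lit 0) (nat_lit 92121994285)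 (nat_lit 152) (nat_lit 158974597978) (nat_lit 0) (nat_lit 90755081209) (nat_lit 1) (nat_lit 5) (nat_lit 3) (nat_lit 4) (nat_lit 1) (nat_lit 4) (nat_lit 418) (nat_lit 315) (nat_lit 287)) (XT.lf (nat_lit 0) (nat_lit 102153325653) (nat_lit 152) (nat_lit 166050299606) (nat_lit 0) (nat_lit 100773137186) (nat_lit 1) (nat_lit 5) (nat_lit 3) (nat_lit 4) (nat_lit 1) (nat_lit 4) (nat_lit 419) (nat_lit 315) (nat_lit 286))) (XT.nd (nat_lit 78) (nat_lit 0) (nat_lit 0) (XT.lf (nat_lit 0) (nat_lit 112949510958) (nat_lit 152) (nat_lit 173768332346) (nat_lit 0) (nat_lit 111557030463) (nat_lit 1) (nat_lit 5) (nat_lit 3) (nat_lit 4) (nat_lit 1) (nat_lit 4) (nat_lit 420) (nat_lit 315) (nat_lit 285)) (XT.nd (nat_lit 78) (nat_lit 0) (nat_lit 0) (XT.lf (nat_lit 0) (nat_lit 124574527596) (nat_lit 152) (nat_lit 182174432689) (nat_lit 0) (nat_lit 123170665592) (nat_lit 1) (nat_lit 5) (nat_lit 3) (nat_lit 4) (nat_lit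 1) (nat_lit 4) (nat_lit 421) (nat_lit 315) (nat_lit 284)) (XT.lf (nat_lit 0) (nat_lit 137097264554) (nat_lit 152) (nat_lit 191318414563) (nat_lit 0) (nat_lit 135682864116) (nat_lit 1) (nat_lit 5) (nat_lit 3) (nat_lit 4) (nat_lit 1) (nat_lit 4) (nat_lit 422) (nat_lit 315) (nat_lit 283))))) (XT.nd (nat_lit 156) (nat_lit 0) (nat_lit 0) (XT.nd (nat_lit 78) (nat_lit 0) (nat_lit 0) (XT.lf (nat_lit 0) (nat_lit 150591930643) (nat_lit 152) (nat_lit 201254464527) (nat_lit 0) (nat_lit 149167772396) (nat_lit 1) (nat_lit 5) (nat_lit 3) (nat_lit 4) (nat_lit 1) (nat_lit 4) (nat_lit 423) (nat_lit 315) (nat_lit 282)) (XT.lf (nat_lit 0) (nat_lit 165138494254) (nat_lit 152) (nat_lit 212041462878) (nat_lit 0) (nat_lit 163705301000) (nat_lit 1) (nat_lit 5) (nat_lit 3) (nat_lit 4) (nat_lit 1) (nat_lit 4) (nat_lit 424) (nat_lit 315) (nat_lit 281))) (XT.nd (nat_lit 78) (nat_lit 0) (nat_lit 0) (XT.lf (nat_lit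 0) (nat_lit 180823157247) (nat_lit 152) (nat_lit 223743332567) (nat_lit 0) (nat_lit 179381598245) (nat_lit 1) (nat_lit 5) (nat_lit 3) (nat_lit 4) (nat_lit 1) (nat_lit 4) (nat_lit 425) (nat_lit 315) (nat_lit 280)) (XT.nd (nat_lit 78) (nat_lit 0) (nat_lit 0) (XT.lf (nat_lit 0) (nat_lit 197738865773) (nat_lit 152) (nat_lit 236429418009) (nat_lit 0) (nat_lit 196289560707) (nat_lit 1) (nat_lit 5) (nat_lit 3) (nat_lit 4) (nat_lit 1) (nat_lit 4) (nat_lit 426) (nat_lit 315) (nat_lit 279)) (XT.lf (nat_lit 0) (nat_lit 215985861067) (nat_lit 152) (nat_lit 250174896006) (nat_lit 0) (nat_lit 214529383720) (nat_lit 1) (nat_lit 5) (nat_lit 3) (nat_lit 4) (nat_lit 1) (nat_lit 4) (nat_lit 427) (nat_lit 315) (nat_lit 278))))))) (XT.nd (nat_lit 780) (nat_lit 0) (nat_lit 0) (XT.nd (nat_lit 390) (nat_lit 0) (nat_lit 0) (XT.nd (nat_lit 156) (nat_lit 0) (nat_lit 0) (XT.nd (nat_lit 78) (nat_lit 0) (nat_lit 0)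 (XT.lf (nat_lit 0) (nat_lit 235672273471) (nat_lit 152) (nat_lit 265061221243) (nat_lit 0) (nat_lit 234209155124) (nat_lit 1) (nat_lit 5) (nat_lit 3) (nat_lit 4) (nat_lit 1) (nat_lit 4) (nat_lit 428) (nat_lit 315) (nat_lit 277)) (XT.lf (nat_lit 0) (nat_lit 256914763208) (nat_lit 152) (nat_lit 281176608979) (nat_lit 0) (nat_lit 255445495786) (nat_lit 1) (nat_lit 5) (nat_lit 3) (nat_lit 4) (nat_lit 1) (nat_lit 4) (nat_lit 429) (nat_lit 315) (nat_lit 276))) (XT.nd (nat_lit 78) (nat_lit 0) (nat_lit 0) (XT.lf (nat_lit 0) (nat_lit 279839211698) (nat_lit 152) (nat_lit 298616557810) (nat_lit 0) (nat_lit 278364250688) (nat_lit 1) (nat_lit 5) (nat_lit 3) (nat_lit 4) (nat_lit 1) (nat_lit 4) (nat_lit 430) (nat_lit 315) (nat_lit 275)) (XT.nd (nat_lit 78) (nat_lit 0) (nat_lit 0) (XT.lf (nat_lit 0) (nat_lit 304581467524) (nat_lit 152) (nat_lit 317484415579) (nat_lit 0) (nat_lit 303101234674) (nat_lit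 1) (nat_lit 5) (nat_lit 3) (nat_lit 4) (nat_lit 1) (nat_lit 4) (nat_lit 431) (nat_lit 315) (nat_lit 274)) (XT.lf (nat_lit 0) (nat_lit 331288151463) (nat_lit 152) (nat_lit 337891991816) (nat_lit 0) (nat_lit 329803037279) (nat_lit 1) (nat_lit 5) (nat_lit 3) (nat_lit 4) (nat_lit 1) (nat_lit 4) (nat_lit 432) (nat_lit 315) (nat_lit 273))))) (XT.nd (nat_lit 156) (nat_lit 0) (nat_lit 0) (XT.nd (nat_lit 78) (nat_lit 0) (nat_lit 0) (XT.lf (nat_lit 0) (nat_lit 360117525344) (nat_lit 152) (nat_lit 359960220303) (nat_lit 0) (nat_lit 358627891406) (nat_lit 1) (nat_lit 5) (nat_lit 3) (nat_lit 4) (nat_lit 1) (nat_lit 4) (nat_lit 433) (nat_lit 315) (nat_lit 272)) (XT.lf (nat_lit 0) (nat_lit 391240429901) (nat_lit 152) (nat_lit 383819875730) (nat_lit 0) (nat_lit 389746611007) (nat_lit 1) (nat_lit 5) (nat_lit 3) (nat_lit 4) (nat_lit 1) (nat_lit 4) (nat_lit 434) (nat_lit 315) (nat_lit 271))) (XT.nd (nat_lit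 78) (nat_lit 0) (nat_lit 0) (XT.lf (nat_lit 0) (nat_lit 424841297163) (nat_lit 152) (nat_lit 409612348646) (nat_lit 0) (nat_lit 423343603308) (nat_lit 1) (nat_lit 5) (nat_lit 3) (nat_lit 4) (nat_lit 1) (nat_lit 4) (nat_lit 435) (nat_lit 315) (nat_lit 270)) (XT.nd (nat_lit 78) (nat_lit 0) (nat_lit 0) (XT.lf (nat_lit 0) (nat_lit 461119243378) (nat_lit 152) (nat_lit 437490483336) (nat_lit 0) (nat_lit 459617961598) (nat_lit 1) (nat_lit 5) (nat_lit 3) (nat_lit 4) (nat_lit 1) (nat_lit 4) (nat_lit 436) (nat_lit 315) (nat_lit 269)) (XT.lf (nat_lit 0) (nat_lit 500289248970) (nat_lit 152) (nat_lit 467619483561) (nat_lit 0) (nat_lit 498784645036) (nat_lit 1) (nat_lit 5) (nat_lit 3) (nat_lit 4) (nat_lit 1) (nat_lit 4) (nat_lit 437) (nat_lit 315) (nat_lit 268)))))) (XT.nd (nat_lit 390) (nat_lit 0) (nat_lit 0) (XT.nd (nat_lit 156) (nat_lit 0) (nat_lit 0) (XT.nd (nat_lit 78) (nat_lit 0) (nat_lit 0) (XT.lf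 (nat_lit 0) (nat_lit 542583432490) (nat_lit 152) (nat_lit 500177891543) (nat_lit 0) (nat_lit 541075752487) (nat_lit 1) (nat_lit 5) (nat_lit 3) (nat_lit 4) (nat_lit 1) (nat_lit 4) (nat_lit 438) (nat_lit 315) (nat_lit 267)) (XT.lf (nat_lit 0) (nat_lit 588252426136) (nat_lit 152) (nat_lit 535358645998) (nat_lit 0) (nat_lit 586741897922) (nat_lit 1) (nat_lit 5) (nat_lit 3) (nat_lit 4) (nat_lit 1) (nat_lit 4) (nat_lit 439) (nat_lit 315) (nat_lit 266))) (XT.nd (nat_lit 78) (nat_lit 0) (nat_lit 0) (XT.lf (nat_lit 0) (nat_lit 637566860982) (nat_lit 152) (nat_lit 573370225471) (nat_lit 0) (nat_lit 636053695535) (nat_lit 1) (nat_lit 5) (nat_lit 3) (nat_lit 4) (nat_lit 1) (nat_lit 4) (nat_lit 440) (nat_lit 315) (nat_lit 265)) (XT.nd (nat_lit 78) (nat_lit 0) (nat_lit 0) (XT.lf (nat_lit 0) (nat_lit 690818970716) (nat_lit 152) (nat_lit 614437883764) (nat_lit 0) (nat_lit 689303363387) (nat_lit 1) (nat_lit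 5) (nat_lit 3) (nat_lit 4) (nat_lit 1) (nat_lit 4) (nat_lit 441) (nat_lit 315) (nat_lit 264)) (XT.lf (nat_lit 0) (nat_lit 748324323396) (nat_lit 152) (nat_lit 658804984780) (nat_lit 0) (nat_lit 746806455065) (nat_lit 1) (nat_lit 5) (nat_lit 3) (nat_lit 4) (nat_lit 1) (nat_lit 4) (nat_lit 442) (nat_lit 315) (nat_lit 263))))) (XT.nd (nat_lit 156) (nat_lit 0) (nat_lit 0) (XT.nd (nat_lit 78) (nat_lit 0) (nat_lit 0) (XT.lf (nat_lit 0) (nat_lit 810423691481) (nat_lit 152) (nat_lit 706734444673) (nat_lit 0) (nat_lit 808903729630) (nat_lit 1) (nat_lit 5) (nat_lit 3) (nat_lit 4) (nat_lit 1) (nat_lit 4) (nat_lit 443) (nat_lit 315) (nat_lit 262)) (XT.lf (nat_lit 0) (nat_lit 877485071228) (nat_lit 152) (nat_lit 758510289871) (nat_lit 0) (nat_lit 875963170932) (nat_lit 1) (nat_lit 5) (nat_lit 3) (nat_lit 4) (nat_lit 1) (nat_lit 4) (nat_lit 444) (nat_lit 315) (nat_lit 261))) (XT.nd (nat_lit 78) (nat_lit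 0) (nat_lit 0) (XT.lf (nat_lit 0) (nat_lit 949905863405) (nat_lit 152) (nat_lit 814439340198) (nat_lit 0) (nat_lit 948382168253) (nat_lit 1) (nat_lit 5) (nat_lit 3) (nat_lit 4) (nat_lit 1) (nat_lit 4) (nat_lit 445) (nat_lit 315) (nat_lit 260)) (XT.nd (nat_lit 78) (nat_lit 0) (nat_lit 0) (XT.lf (nat_lit 0) (nat_lit 1028115228262) (nat_lit 152) (nat_lit 874853027064) (nat_lit 0) (nat_lit 1026589871206) (nat_lit 1) (nat_lit 5) (nat_lit 3) (nat_lit 4) (nat_lit 1) (nat_lit 4) (nat_lit 446) (nat_lit 315) (nat_lit 259)) (XT.lf (nat_lit 0) (nat_lit 1112576628702) (nat_lit 152) (nat_lit 940109357501) (nat_lit 0) (nat_lit 1111049732846) (nat_lit 1) (nat_lit 5) (nat_lit 3) (nat_lit 4) (nat_lit 1) (nat_lit 4) (nat_lit 447) (nat_lit 315) (nat_lit 258))))))))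
noncomputable def xc34 : XT := (XT.nd (nat_lit 48906) (nat_lit 0) (nat_lit 0) (XT.nd (nat_lit 702) (nat_lit 0) (nat_lit 0) (XT.nd (nat_lit 312) (nat_lit 0) (nat_lit 0) (XT.nd (nat_lit 156) (nat_lit 0) (nat_lit 0) (XT.nd (nat_lit 78) (nat_lit 0) (nat_lit 0) (XT.lf (nat_lit 0) (nat_lit 1203790576728) (nat_lit 152) (nat_lit 1010595035690) (nat_lit 0) (nat_lit 1202262256057) (nat_lit 1) (nat_lit 5) (nat_lit 3) (nat_lit 4) (nat_lit 1) (nat_lit 4) (nat_lit 448) (nat_lit 315) (nat_lit 257)) (XT.lf (nat_lit 0) (nat_lit 1302297599438) (nat_lit 152) (nat_lit 1086727754539) (nat_lit 0) (nat_lit 1300767959494) (nat_lit 1) (nat_lit 5) (nat_lit 3) (nat_lit 4) (nat_lit 1) (nat_lit 4) (nat_lit 449) (nat_lit 315) (nat_lit 256))) (XT.nd (nat_lit 78) (nat_lit 0) (nat_lit 0) (XT.lf (nat_lit 0) (nat_lit 1408681442153) (nat_lit 152) (nat_lit 1168958670900) (nat_lit 0) (nat_lit 1407150580660) (nat_lit 1) (nat_lit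 5) (nat_lit 3) (nat_lit 4) (nat_lit 1) (nat_lit 4) (nat_lit 450) (nat_lit 315) (nat_lit 255)) (XT.lf (nat_lit 0) (nat_lit 1523572527645) (nat_lit 152) (nat_lit 1257775079093) (nat_lit 0) (nat_lit 1522040535088) (nat_lit 1) (nat_lit 5) (nat_lit 3) (nat_lit 4) (nat_lit 1) (nat_lit 4) (nat_lit 451) (nat_lit 315) (nat_lit 254)))) (XT.nd (nat_lit 156) (nat_lit 0) (nat_lit 0) (XT.nd (nat_lit 78) (nat_lit 0) (nat_lit 0) (XT.lf (nat_lit 0) (nat_lit 1647651691975) (nat_lit 152) (nat_lit 1353703298572) (nat_lit 0) (nat_lit 1646118652137) (nat_lit 1) (nat_lit 5) (nat_lit 3) (nat_lit 4) (nat_lit 1) (nat_lit 4) (nat_lit 452) (nat_lit 315) (nat_lit 253)) (XT.lf (nat_lit 0) (nat_lit 1781654219080) (nat_lit 152) (nat_lit 1457311792862) (nat_lit 0) (nat_lit 1780120209537) (nat_lit 1) (nat_lit 5) (nat_lit 3) (nat_lit 4) (nat_lit 1) (nat_lit 4) (nat_lit 453) (nat_lit 315) (nat_lit 252))) (XT.nd (nat_lit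 78) (nat_lit 0) (nat_lit 0) (XT.lf (nat_lit 0) (nat_lit 1926374198011) (nat_lit 152) (nat_lit 1569214538225) (nat_lit 0) (nat_lit 1924839290592) (nat_lit 1) (nat_lit 5) (nat_lit 3) (nat_lit 4) (nat_lit 1) (nat_lit 4) (nat_lit 454) (nat_lit 315) (nat_lit 251)) (XT.nd (nat_lit 78) (nat_lit 0) (nat_lit 0) (XT.lf (nat_lit 0) (nat_lit 2082669228641) (nat_lit 152) (nat_lit 1690074662040) (nat_lit 0) (nat_lit 2081133489857) (nat_lit 1) (nat_lit 5) (nat_lit 3) (nat_lit 4) (nat_lit 1) (nat_lit 4) (nat_lit 455) (nat_lit 315) (nat_lit 250)) (XT.lf (nat_lit 0) (nat_lit 2251465503745) (nat_lit 152) (nat_lit 1820608372449) (nat_lit 0) (nat_lit 2249928995178) (nat_lit 1) (nat_lit 5) (nat_lit 3) (nat_lit 4) (nat_lit 1) (nat_lit 4) (nat_lit 456) (nat_lit 315) (nat_lit 249)))))) (XT.nd (nat_lit 47814) (nat_lit 0) (nat_lit 228) (XT.nd (nat_lit 156) (nat_lit 0) (nat_lit 0) (XT.nd (nat_lit 78) (nat_lit 0)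 (nat_lit 0) (XT.lf (nat_lit 0) (nat_lit 2433763297546) (nat_lit 152) (nat_lit 1961589202550) (nat_lit 0) (nat_lit 2432226076217) (nat_lit 1) (nat_lit 5) (nat_lit 3) (nat_lit 4) (nat_lit 1) (nat_lit 4) (nat_lit 457) (nat_lit 315) (nat_lit 248)) (XT.lf (nat_lit 0) (nat_lit 2630642893267) (nat_lit 152) (nat_lit 2113852594300) (nat_lit 0) (nat_lit 2629105011972) (nat_lit 1) (nat_lit 5) (nat_lit 3) (nat_lit 4) (nat_lit 1) (nat_lit 4) (nat_lit 458) (nat_lit 315) (nat_lit 247))) (XT.nd (nat_lit 78) (nat_lit 0) (nat_lit 0) (XT.lf (nat_lit 0) (nat_lit 2843270984807) (nat_lit 152) (nat_lit 2278300849279) (nat_lit 0) (nat_lit 2841732492434) (nat_lit 1) (nat_lit 5) (nat_lit 3) (nat_lit 4) (nat_lit 1) (nat_lit 4) (nat_lit 459) (nat_lit 315) (nat_lit 246)) (XT.nd (nat_lit 47502) (nat_lit 0) (nat_lit 380) (XT.lf (nat_lit 0) (nat_lit 3072907590488) (nat_lit 152) (nat_lit 2455908475665) (nat_lit 0) (nat_lit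 3071368532301) (nat_lit 1) (nat_lit 5) (nat_lit 3) (nat_lit 4) (nat_lit 1) (nat_lit 4) (nat_lit 460) (nat_lit 315) (nat_lit 245)) (XT.lf (nat_lit 0) (nat_lit 12370323568) (nat_lit 76) (nat_lit 3342933335) (nat_lit 76) (nat_lit 3342933335) (nat_lit 6) (nat_lit 4) (nat_lit 7) (nat_lit 5) (nat_lit 7) (nat_lit 4) (nat_lit 388) (nat_lit 316) (nat_lit 316))))) (XT.nd (nat_lit 156) (nat_lit 0) (nat_lit 0) (XT.nd (nat_lit 78) (nat_lit 152) (nat_lit 0) (XT.lf (nat_lit 0) (nat_lit 37937851596) (nat_lit 76) (nat_lit 1459074366) (nat_lit 76) (nat_lit 1314801803) (nat_lit 6) (nat_lit 4) (nat_lit 7) (nat_lit 5) (nat_lit 7) (nat_lit 4) (nat_lit 389) (nat_lit 316) (nat_lit 315)) (XT.lf (nat_lit 0) (nat_lit 4285333578) (nat_lit 152) (nat_lit 35195128093) (nat_lit 0) (nat_lit 4028057404) (nat_lit 4) (nat_lit 5) (nat_lit 6) (nat_lit 4) (nat_lit 4) (nat_lit 4) (nat_lit 390) (nat_lit 316) (nat_lit 314))) (XT.nd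 (nat_lit 78) (nat_lit 0) (nat_lit 0) (XT.lf (nat_lit 0) (nat_lit 10098415115) (nat_lit 152) (nat_lit 26714446493) (nat_lit 0) (nat_lit 9726610729) (nat_lit 4) (nat_lit 5) (nat_lit 6) (nat_lit 4) (nat_lit 4) (nat_lit 4) (nat_lit 391) (nat_lit 316) (nat_lit 313)) (XT.nd (nat_lit 78) (nat_lit 0) (nat_lit 0) (XT.lf (nat_lit 0) (nat_lit 16117522902) (nat_lit 152) (nat_lit 18076452819) (nat_lit 0) (nat_lit 15639673876) (nat_lit 4) (nat_lit 5) (nat_lit 6) (nat_lit 4) (nat_lit 4) (nat_lit 4) (nat_lit 392) (nat_lit 316) (nat_lit 312)) (XT.lf (nat_lit 0) (nat_lit 22378325726) (nat_lit 152) (nat_lit 9229958960) (nat_lit 0) (nat_lit 21802287218) (nat_lit 4) (nat_lit 5) (nat_lit 6) (nat_lit 4) (nat_lit 4) (nat_lit 4) (nat_lit 393) (nat_lit 316) (nat_lit 311))))))) (XT.nd (nat_lit 780) (nat_lit 152) (nat_lit 0) (XT.nd (nat_lit 390) (nat_lit 0) (nat_lit 0) (XT.nd (nat_lit 156) (nat_lit 0) (nat_lit 0)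 (XT.nd (nat_lit 78) (nat_lit 76) (nat_lit 0) (XT.lf (nat_lit 0) (nat_lit 28917924641) (nat_lit 152) (nat_lit 122541249) (nat_lit 0) (nat_lit 28250969946) (nat_lit 4) (nat_lit 5) (nat_lit 6) (nat_lit 4) (nat_lit 4) (nat_lit 4) (nat_lit 394) (nat_lit 316) (nat_lit 310)) (XT.lf (nat_lit 0) (nat_lit 9789479613) (nat_lit 76) (nat_lit 26221030433) (nat_lit 76) (nat_lit 25469894083) (nat_lit 3) (nat_lit 4) (nat_lit 4) (nat_lit 5) (nat_lit 4) (nat_lit 4) (nat_lit 395) (nat_lit 316) (nat_lit 309))) (XT.nd (nat_lit 78) (nat_lit 0) (nat_lit 0) (XT.lf (nat_lit 0) (nat_lit 20098204903) (nat_lit 76) (nat_lit 23375562641) (nat_lit 76) (nat_lit 22546480316) (nat_lit 3) (nat_lit 4) (nat_lit 4) (nat_lit 5) (nat_lit 4) (nat_lit 4) (nat_lit 396) (nat_lit 316) (nat_lit 308)) (XT.nd (nat_lit 78) (nat_lit 0) (nat_lit 0) (XT.lf (nat_lit 0) (nat_lit 30858270556) (nat_lit 76) (nat_lit 20490550980) (nat_lit 76)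 (nat_lit 19589296454) (nat_lit 3) (nat_lit 4) (nat_lit 4) (nat_lit 5) (nat_lit 4) (nat_lit 4) (nat_lit 397) (nat_lit 316) (nat_lit 307)) (XT.lf (nat_lit 0) (nat_lit 42133439925) (nat_lit 76) (nat_lit 17548899084) (nat_lit 76) (nat_lit 16580818446) (nat_lit 3) (nat_lit 4) (nat_lit 4) (nat_lit 5) (nat_lit 4) (nat_lit 4) (nat_lit 398) (nat_lit 316) (nat_lit 306))))) (XT.nd (nat_lit 156) (nat_lit 0) (nat_lit 0) (XT.nd (nat_lit 78) (nat_lit 0) (nat_lit 0) (XT.lf (nat_lit 0) (nat_lit 53990528828) (nat_lit 76) (nat_lit 14533174942) (nat_lit 76) (nat_lit 13503218275) (nat_lit 3) (nat_lit 4) (nat_lit 4) (nat_lit 5) (nat_lit 4) (nat_lit 4) (nat_lit 399) (nat_lit 316) (nat_lit 305)) (XT.lf (nat_lit 0) (nat_lit 66499801496) (nat_lit 76) (nat_lit 11425507595) (nat_lit 76) (nat_lit 10338258309) (nat_lit 3) (nat_lit 4) (nat_lit 4) (nat_lit 5) (nat_lit 4) (nat_lit 4) (nat_lit 400) (nat_lit 316) (nat_lit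 304))) (XT.nd (nat_lit 78) (nat_lit 0) (nat_lit 0) (XT.lf (nat_lit 0) (nat_lit 79735386951) (nat_lit 76) (nat_lit 8207481238) (nat_lit 76) (nat_lit 7067183230) (nat_lit 3) (nat_lit 4) (nat_lit 4) (nat_lit 5) (nat_lit 4) (nat_lit 4) (nat_lit 401) (nat_lit 316) (nat_lit 303)) (XT.nd (nat_lit 78) (nat_lit 0) (nat_lit 0) (XT.lf (nat_lit 0) (nat_lit 93775718293) (nat_lit 76) (nat_lit 4860026084) (nat_lit 76) (nat_lit 3670608889) (nat_lit 3) (nat_lit 4) (nat_lit 4) (nat_lit 5) (nat_lit 4) (nat_lit 4) (nat_lit 402) (nat_lit 316) (nat_lit 302)) (XT.lf (nat_lit 0) (nat_lit 108703997486) (nat_lit 76) (nat_lit 1363305363) (nat_lit 76) (nat_lit 128407439) (nat_lit 3) (nat_lit 4) (nat_lit 4) (nat_lit 5) (nat_lit 4) (nat_lit 4) (nat_lit 403) (nat_lit 316) (nat_lit 301)))))) (XT.nd (nat_lit 390) (nat_lit 0) (nat_lit 0) (XT.nd (nat_lit 156) (nat_lit 0) (nat_lit 0) (XT.nd (nat_lit 78) (nat_lit 0) (nat_lit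 0) (XT.lf (nat_lit 0) (nat_lit 3609528458) (nat_lit 152) (nat_lit 112664687133) (nat_lit 0) (nat_lit 2427112060) (nat_lit 1) (nat_lit 5) (nat_lit 3) (nat_lit 4) (nat_lit 1) (nat_lit 4) (nat_lit 404) (nat_lit 316) (nat_lit 300)) (XT.lf (nat_lit 0) (nat_lit 7606224976) (nat_lit 152) (nat_lit 113895873940) (nat_lit 0) (nat_lit 6387704510) (nat_lit 1) (nat_lit 5) (nat_lit 3) (nat_lit 4) (nat_lit 1) (nat_lit 4) (nat_lit 405) (nat_lit 316) (nat_lit 299))) (XT.nd (nat_lit 78) (nat_lit 0) (nat_lit 0) (XT.lf (nat_lit 0) (nat_lit 11820256389) (nat_lit 152) (nat_lit 115432994943) (nat_lit 0) (nat_lit 10568306230) (nat_lit 1) (nat_lit 5) (nat_lit 3) (nat_lit 4) (nat_lit 1) (nat_lit 4) (nat_lit 406) (nat_lit 316) (nat_lit 298)) (XT.nd (nat_lit 78) (nat_lit 0) (nat_lit 0) (XT.lf (nat_lit 0) (nat_lit 16276594735) (nat_lit 152) (nat_lit 117285159008) (nat_lit 0) (nat_lit 14993691156) (nat_lit 1) (nat_lit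 5) (nat_lit 3) (nat_lit 4) (nat_lit 1) (nat_lit 4) (nat_lit 407) (nat_lit 316) (nat_lit 297)) (XT.lf (nat_lit 0) (nat_lit 21001647944) (nat_lit 152) (nat_lit 119463341921) (nat_lit 0) (nat_lit 19690083791) (nat_lit 1) (nat_lit 5) (nat_lit 3) (nat_lit 4) (nat_lit 1) (nat_lit 4) (nat_lit 408) (nat_lit 316) (nat_lit 296))))) (XT.nd (nat_lit 156) (nat_lit 0) (nat_lit 0) (XT.nd (nat_lit 78) (nat_lit 0) (nat_lit 0) (XT.lf (nat_lit 0) (nat_lit 26023416332) (nat_lit 152) (nat_lit 121980451434) (nat_lit 0) (nat_lit 24685314611) (nat_lit 1) (nat_lit 5) (nat_lit 3) (nat_lit 4) (nat_lit 1) (nat_lit 4) (nat_lit 409) (nat_lit 316) (nat_lit 295)) (XT.lf (nat_lit 0) (nat_lit 31371658525) (nat_lit 152) (nat_lit 124851403750) (nat_lit 0) (nat_lit 30008984982) (nat_lit 1) (nat_lit 5) (nat_lit 3) (nat_lit 4) (nat_lit 1) (nat_lit 4) (nat_lit 410) (nat_lit 316) (nat_lit 294))) (XT.nd (nat_lit 78) (nat_lit 0)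 (nat_lit 0) (XT.lf (nat_lit 0) (nat_lit 37078067813) (nat_lit 152) (nat_lit 128093211921) (nat_lit 0) (nat_lit 35692642582) (nat_lit 1) (nat_lit 5) (nat_lit 3) (nat_lit 4) (nat_lit 1) (nat_lit 4) (nat_lit 411) (nat_lit 316) (nat_lit 293)) (XT.nd (nat_lit 78) (nat_lit 0) (nat_lit 0) (XT.lf (nat_lit 0) (nat_lit 43176459952) (nat_lit 152) (nat_lit 131725086661) (nat_lit 0) (nat_lit 41769968344) (nat_lit 1) (nat_lit 5) (nat_lit 3) (nat_lit 4) (nat_lit 1) (nat_lit 4) (nat_lit 412) (nat_lit 316) (nat_lit 292)) (XT.lf (nat_lit 0) (nat_lit 49702973563) (nat_lit 152) (nat_lit 135768550192) (nat_lit 0) (nat_lit 48276976050) (nat_lit 1) (nat_lit 5) (nat_lit 3) (nat_lit 4) (nat_lit 1) (nat_lit 4) (nat_lit 413) (nat_lit 316) (nat_lit 291))))))))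
noncomputable def xc35 : XT := (XT.nd (nat_lit 1482) (nat_lit 0) (nat_lit 0) (XT.nd (nat_lit 702) (nat_lit 0) (nat_lit 0) (XT.nd (nat_lit 312) (nat_lit 0) (nat_lit 0) (XT.nd (nat_lit 156) (nat_lit 0) (nat_lit 0) (XT.nd (nat_lit 78) (nat_lit 0) (nat_lit 0) (XT.lf (nat_lit 0) (nat_lit 56696284283) (nat_lit 152) (nat_lit 140247563778) (nat_lit 0) (nat_lit 55252225747) (nat_lit 1) (nat_lit 5) (nat_lit 3) (nat_lit 4) (nat_lit 1) (nat_lit 4) (nat_lit 414) (nat_lit 316) (nat_lit 290)) (XT.lf (nat_lit 0) (nat_lit 64197833952) (nat_lit 152) (nat_lit 145188669723) (nat_lit 0) (nat_lit 62737052246) (nat_lit 1) (nat_lit 5) (nat_lit 3) (nat_lit 4) (nat_lit 1) (nat_lit 4) (nat_lit 415) (nat_lit 316) (nat_lit 289))) (XT.nd (nat_lit 78) (nat_lit 0) (nat_lit 0) (XT.lf (nat_lit 0) (nat_lit 72252076199) (nat_lit 152) (nat_lit 150621148653) (nat_lit 0) (nat_lit 70775810077) (nat_lit 1) (nat_lit 5) (nat_lit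 3) (nat_lit 4) (nat_lit 1) (nat_lit 4) (nat_lit 416) (nat_lit 316) (nat_lit 288)) (XT.lf (nat_lit 0) (nat_lit 80906739865) (nat_lit 152) (nat_lit 156577193038) (nat_lit 0) (nat_lit 79416136321) (nat_lit 1) (nat_lit 5) (nat_lit 3) (nat_lit 4) (nat_lit 1) (nat_lit 4) (nat_lit 417) (nat_lit 316) (nat_lit 287)))) (XT.nd (nat_lit 156) (nat_lit 0) (nat_lit 0) (XT.nd (nat_lit 78) (nat_lit 0) (nat_lit 0) (XT.lf (nat_lit 0) (nat_lit 90213111848) (nat_lit 152) (nat_lit 163092097955) (nat_lit 0) (nat_lit 88709232913) (nat_lit 1) (nat_lit 5) (nat_lit 3) (nat_lit 4) (nat_lit 1) (nat_lit 4) (nat_lit 418) (nat_lit 316) (nat_lit 286)) (XT.lf (nat_lit 0) (nat_lit 100226341018) (nat_lit 152) (nat_lit 170204470247) (nat_lit 0) (nat_lit 98710170054) (nat_lit 1) (nat_lit 5) (nat_lit 3) (nat_lit 4) (nat_lit 1) (nat_lit 4) (nat_lit 419) (nat_lit 316) (nat_lit 285))) (XT.nd (nat_lit 78) (nat_lit 0) (nat_lit 0)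 (XT.lf (nat_lit 0) (nat_lit 111005765029) (nat_lit 152) (nat_lit 177956457306) (nat_lit 0) (nat_lit 109478212557) (nat_lit 1) (nat_lit 5) (nat_lit 3) (nat_lit 4) (nat_lit 1) (nat_lit 4) (nat_lit 420) (nat_lit 316) (nat_lit 284)) (XT.nd (nat_lit 78) (nat_lit 0) (nat_lit 0) (XT.lf (nat_lit 0) (nat_lit 122615261950) (nat_lit 152) (nat_lit 186393996833) (nat_lit 0) (nat_lit 121077171044) (nat_lit 1) (nat_lit 5) (nat_lit 3) (nat_lit 4) (nat_lit 1) (nat_lit 4) (nat_lit 421) (nat_lit 316) (nat_lit 283)) (XT.lf (nat_lit 0) (nat_lit 135123628799) (nat_lit 152) (nat_lit 195567089063) (nat_lit 0) (nat_lit 133575780084) (nat_lit 1) (nat_lit 5) (nat_lit 3) (nat_lit 4) (nat_lit 1) (nat_lit 4) (nat_lit 422) (nat_lit 316) (nat_lit 282)))))) (XT.nd (nat_lit 390) (nat_lit 0) (nat_lit 0) (XT.nd (nat_lit 156) (nat_lit 0) (nat_lit 0) (XT.nd (nat_lit 78) (nat_lit 0) (nat_lit 0) (XT.lf (nat_lit 0) (nat_lit 148604989232)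 (nat_lit 152) (nat_lit 205530093061) (nat_lit 0) (nat_lit 147048105509) (nat_lit 1) (nat_lit 5) (nat_lit 3) (nat_lit 4) (nat_lit 1) (nat_lit 4) (nat_lit 423) (nat_lit 316) (nat_lit 281)) (XT.lf (nat_lit 0) (nat_lit 163139232792) (nat_lit 152) (nat_lit 216342048849) (nat_lit 0) (nat_lit 161573983321) (nat_lit 1) (nat_lit 5) (nat_lit 3) (nat_lit 4) (nat_lit 1) (nat_lit 4) (nat_lit 424) (nat_lit 316) (nat_lit 280))) (XT.nd (nat_lit 78) (nat_lit 0) (nat_lit 0) (XT.lf (nat_lit 0) (nat_lit 178812488330) (nat_lit 152) (nat_lit 228067027278) (nat_lit 0) (nat_lit 177239492796) (nat_lit 1) (nat_lit 5) (nat_lit 3) (nat_lit 4) (nat_lit 1) (nat_lit 4) (nat_lit 425) (nat_lit 316) (nat_lit 279)) (XT.nd (nat_lit 78) (nat_lit 0) (nat_lit 0) (XT.lf (nat_lit 0) (nat_lit 195717634397) (nat_lit 152) (nat_lit 240774509700) (nat_lit 0) (nat_lit 194137466582) (nat_lit 1) (nat_lit 5) (nat_lit 3) (nat_lit 4) (nat_lit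 1) (nat_lit 4) (nat_lit 426) (nat_lit 316) (nat_lit 278)) (XT.lf (nat_lit 0) (nat_lit 213954849637) (nat_lit 152) (nat_lit 254539799716) (nat_lit 0) (nat_lit 212368040821) (nat_lit 1) (nat_lit 5) (nat_lit 3) (nat_lit 4) (nat_lit 1) (nat_lit 4) (nat_lit 427) (nat_lit 316) (nat_lit 277))))) (XT.nd (nat_lit 156) (nat_lit 0) (nat_lit 0) (XT.nd (nat_lit 78) (nat_lit 0) (nat_lit 0) (XT.lf (nat_lit 0) (nat_lit 233632206435) (nat_lit 152) (nat_lit 269444469415) (nat_lit 0) (nat_lit 232039248545) (nat_lit 1) (nat_lit 5) (nat_lit 3) (nat_lit 4) (nat_lit 1) (nat_lit 4) (nat_lit 428) (nat_lit 316) (nat_lit 276)) (XT.lf (nat_lit 0) (nat_lit 254866311352) (nat_lit 152) (nat_lit 285576842765) (nat_lit 0) (nat_lit 253267659874) (nat_lit 1) (nat_lit 5) (nat_lit 3) (nat_lit 4) (nat_lit 1) (nat_lit 4) (nat_lit 429) (nat_lit 316) (nat_lit 275))) (XT.nd (nat_lit 78) (nat_lit 0) (nat_lit 0) (XT.lf (nat_lit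 0) (nat_lit 277782996119) (nat_lit 152) (nat_lit 303032519015) (nat_lit 0) (nat_lit 276179072801) (nat_lit 1) (nat_lit 5) (nat_lit 3) (nat_lit 4) (nat_lit 1) (nat_lit 4) (nat_lit 430) (nat_lit 316) (nat_lit 274)) (XT.nd (nat_lit 78) (nat_lit 0) (nat_lit 0) (XT.lf (nat_lit 0) (nat_lit 302518063314) (nat_lit 152) (nat_lit 321914939210) (nat_lit 0) (nat_lit 300909258661) (nat_lit 1) (nat_lit 5) (nat_lit 3) (nat_lit 4) (nat_lit 1) (nat_lit 4) (nat_lit 431) (nat_lit 316) (nat_lit 273)) (XT.lf (nat_lit 0) (nat_lit 329218091112) (nat_lit 152) (nat_lit 342335999173) (nat_lit 0) (nat_lit 327604766706) (nat_lit 1) (nat_lit 5) (nat_lit 3) (nat_lit 4) (nat_lit 1) (nat_lit 4) (nat_lit 432) (nat_lit 316) (nat_lit 272))))))) (XT.nd (nat_lit 780) (nat_lit 0) (nat_lit 0) (XT.nd (nat_lit 390) (nat_lit 0) (nat_lit 0) (XT.nd (nat_lit 156) (nat_lit 0) (nat_lit 0) (XT.nd (nat_lit 78) (nat_lit 0) (nat_lit 0)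 (XT.lf (nat_lit 0) (nat_lit 358041301899) (nat_lit 152) (nat_lit 364416712593) (nat_lit 0) (nat_lit 356423792536) (nat_lit 1) (nat_lit 5) (nat_lit 3) (nat_lit 4) (nat_lit 1) (nat_lit 4) (nat_lit 433) (nat_lit 316) (nat_lit 271)) (XT.lf (nat_lit 0) (nat_lit 389158499889) (nat_lit 152) (nat_lit 388287928143) (nat_lit 0) (nat_lit 387537115566) (nat_lit 1) (nat_lit 5) (nat_lit 3) (nat_lit 4) (nat_lit 1) (nat_lit 4) (nat_lit 434) (nat_lit 316) (nat_lit 270))) (XT.nd (nat_lit 78) (nat_lit 0) (nat_lit 0) (XT.lf (nat_lit 0) (nat_lit 422754083292) (nat_lit 152) (nat_lit 414091104877) (nat_lit 0) (nat_lit 421129111043) (nat_lit 1) (nat_lit 5) (nat_lit 3) (nat_lit 4) (nat_lit 1) (nat_lit 4) (nat_lit 435) (nat_lit 316) (nat_lit 269)) (XT.nd (nat_lit 78) (nat_lit 0) (nat_lit 0) (XT.lf (nat_lit 0) (nat_lit 459027137045) (nat_lit 152) (nat_lit 441979150509) (nat_lit 0) (nat_lit 457398842642) (nat_lit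 1) (nat_lit 5) (nat_lit 3) (nat_lit 4) (nat_lit 1) (nat_lit 4) (nat_lit 436) (nat_lit 316) (nat_lit 268)) (XT.lf (nat_lit 0) (nat_lit 498192612580) (nat_lit 152) (nat_lit 472117327531) (nat_lit 0) (nat_lit 496561242108) (nat_lit 1) (nat_lit 5) (nat_lit 3) (nat_lit 4) (nat_lit 1) (nat_lit 4) (nat_lit 437) (nat_lit 316) (nat_lit 267))))) (XT.nd (nat_lit 156) (nat_lit 0) (nat_lit 0) (XT.nd (nat_lit 78) (nat_lit 0) (nat_lit 0) (XT.lf (nat_lit 0) (nat_lit 540482601602) (nat_lit 152) (nat_lit 504684232550) (nat_lit 0) (nat_lit 538848382919) (nat_lit 1) (nat_lit 5) (nat_lit 3) (nat_lit 4) (nat_lit 1) (nat_lit 4) (nat_lit 438) (nat_lit 316) (nat_lit 266)) (XT.lf (nat_lit 0) (nat_lit 586147711454) (nat_lit 152) (nat_lit 539872854630) (nat_lit 0) (nat_lit 584510855538) (nat_lit 1) (nat_lit 5) (nat_lit 3) (nat_lit 4) (nat_lit 1) (nat_lit 4) (nat_lit 439) (nat_lit 316) (nat_lit 265))) (XT.nd (nat_lit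 78) (nat_lit 0) (nat_lit 0) (XT.lf (nat_lit 0) (nat_lit 635458550194) (nat_lit 152) (nat_lit 577891718940) (nat_lit 0) (nat_lit 633819252397) (nat_lit 1) (nat_lit 5) (nat_lit 3) (nat_lit 4) (nat_lit 1) (nat_lit 4) (nat_lit 440) (nat_lit 316) (nat_lit 264)) (XT.nd (nat_lit 78) (nat_lit 0) (nat_lit 0) (XT.lf (nat_lit 0) (nat_lit 688707330201) (nat_lit 152) (nat_lit 618966122455) (nat_lit 0) (nat_lit 687065771401) (nat_lit 1) (nat_lit 5) (nat_lit 3) (nat_lit 4) (nat_lit 1) (nat_lit 4) (nat_lit 441) (nat_lit 316) (nat_lit 263)) (XT.lf (nat_lit 0) (nat_lit 746209599799) (nat_lit 152) (nat_lit 663339469045) (nat_lit 0) (nat_lit 744565947480) (nat_lit 1) (nat_lit 5) (nat_lit 3) (nat_lit 4) (nat_lit 1) (nat_lit 4) (nat_lit 442) (nat_lit 316) (nat_lit 262)))))) (XT.nd (nat_lit 390) (nat_lit 0) (nat_lit 0) (XT.nd (nat_lit 156) (nat_lit 0) (nat_lit 0) (XT.nd (nat_lit 78) (nat_lit 0) (nat_lit 0) (XT.lf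 (nat_lit 0) (nat_lit 808306113180) (nat_lit 152) (nat_lit 711274711878) (nat_lit 0) (nat_lit 806660522416) (nat_lit 1) (nat_lit 5) (nat_lit 3) (nat_lit 4) (nat_lit 1) (nat_lit 4) (nat_lit 443) (nat_lit 316) (nat_lit 261)) (XT.lf (nat_lit 0) (nat_lit 875364849682) (nat_lit 152) (nat_lit 763055911649) (nat_lit 0) (nat_lit 873717464061) (nat_lit 1) (nat_lit 5) (nat_lit 3) (nat_lit 4) (nat_lit 1) (nat_lit 4) (nat_lit 444) (nat_lit 316) (nat_lit 260))) (XT.nd (nat_lit 78) (nat_lit 0) (nat_lit 0) (XT.lf (nat_lit 0) (nat_lit 947783194410) (nat_lit 152) (nat_lit 818989919915) (nat_lit 0) (nat_lit 946134146885) (nat_lit 1) (nat_lit 5) (nat_lit 3) (nat_lit 4) (nat_lit 1) (nat_lit 4) (nat_lit 445) (nat_lit 316) (nat_lit 259)) (XT.nd (nat_lit 78) (nat_lit 0) (nat_lit 0) (XT.lf (nat_lit 0) (nat_lit 1025990293111) (nat_lit 152) (nat_lit 879408197464) (nat_lit 0) (nat_lit 1024339706786) (nat_lit 1) (nat_lit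 5) (nat_lit 3) (nat_lit 4) (nat_lit 1) (nat_lit 4) (nat_lit 446) (nat_lit 316) (nat_lit 258)) (XT.lf (nat_lit 0) (nat_lit 1110449595258) (nat_lit 152) (nat_lit 944668778535) (nat_lit 0) (nat_lit 1108797584118) (nat_lit 1) (nat_lit 5) (nat_lit 3) (nat_lit 4) (nat_lit 1) (nat_lit 4) (nat_lit 447) (nat_lit 316) (nat_lit 257))))) (XT.nd (nat_lit 156) (nat_lit 0) (nat_lit 0) (XT.nd (nat_lit 78) (nat_lit 0) (nat_lit 0) (XT.lf (nat_lit 0) (nat_lit 1201661600419) (nat_lit 152) (nat_lit 1015158392495) (nat_lit 0) (nat_lit 1200008270007) (nat_lit 1) (nat_lit 5) (nat_lit 3) (nat_lit 4) (nat_lit 1) (nat_lit 4) (nat_lit 448) (nat_lit 316) (nat_lit 256)) (XT.lf (nat_lit 0) (nat_lit 1300166824181) (nat_lit 152) (nat_lit 1091294755577) (nat_lit 0) (nat_lit 1298512272220) (nat_lit 1) (nat_lit 5) (nat_lit 3) (nat_lit 4) (nat_lit 1) (nat_lit 4) (nat_lit 449) (nat_lit 316) (nat_lit 255))) (XT.nd (nat_lit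 78) (nat_lit 0) (nat_lit 0) (XT.lf (nat_lit 0) (nat_lit 1406549001204) (nat_lit 152) (nat_lit 1173529046228) (nat_lit 0) (nat_lit 1404893318178) (nat_lit 1) (nat_lit 5) (nat_lit 3) (nat_lit 4) (nat_lit 1) (nat_lit 4) (nat_lit 450) (nat_lit 316) (nat_lit 254)) (XT.nd (nat_lit 78) (nat_lit 0) (nat_lit 0) (XT.lf (nat_lit 0) (nat_lit 1521438544387) (nat_lit 152) (nat_lit 1262348578763) (nat_lit 0) (nat_lit 1519781814080) (nat_lit 1) (nat_lit 5) (nat_lit 3) (nat_lit 4) (nat_lit 1) (nat_lit 4) (nat_lit 451) (nat_lit 316) (nat_lit 253)) (XT.lf (nat_lit 0) (nat_lit 1645516280654) (nat_lit 152) (nat_lit 1358279691152) (nat_lit 0) (nat_lit 1643858580643) (nat_lit 1) (nat_lit 5) (nat_lit 3) (nat_lit 4) (nat_lit 1) (nat_lit 4) (nat_lit 452) (nat_lit 316) (nat_lit 252))))))))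
noncomputable def xc36 : XT := (XT.nd (nat_lit 48750) (nat_lit 0) (nat_lit 0) (XT.nd (nat_lit 47970) (nat_lit 0) (nat_lit 152) (XT.nd (nat_lit 312) (nat_lit 0) (nat_lit 0) (XT.nd (nat_lit 156) (nat_lit 0) (nat_lit 0) (XT.nd (nat_lit 78) (nat_lit 0) (nat_lit 0) (XT.lf (nat_lit 0) (nat_lit 1779517485479) (nat_lit 152) (nat_lit 1461890864062) (nat_lit 0) (nat_lit 1777858887592) (nat_lit 1) (nat_lit 5) (nat_lit 3) (nat_lit 4) (nat_lit 1) (nat_lit 4) (nat_lit 453) (nat_lit 316) (nat_lit 251)) (XT.lf (nat_lit 0) (nat_lit 1924236240076) (nat_lit 152) (nat_lit 1573796089628) (nat_lit 0) (nat_lit 1922576810823) (nat_lit 1) (nat_lit 5) (nat_lit 3) (nat_lit 4) (nat_lit 1) (nat_lit 4) (nat_lit 454) (nat_lit 316) (nat_lit 250))) (XT.nd (nat_lit 78) (nat_lit 0) (nat_lit 0) (XT.lf (nat_lit 0) (nat_lit 2080530137063) (nat_lit 152) (nat_lit 1694658509928) (nat_lit 0) (nat_lit 2078869938027) (nat_lit 1)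 (nat_lit 5) (nat_lit 3) (nat_lit 4) (nat_lit 1) (nat_lit 4) (nat_lit 455) (nat_lit 316) (nat_lit 249)) (XT.lf (nat_lit 0) (nat_lit 2249325362498) (nat_lit 152) (nat_lit 1825194346712) (nat_lit 0) (nat_lit 2247664450701) (nat_lit 1) (nat_lit 5) (nat_lit 3) (nat_lit 4) (nat_lit 1) (nat_lit 4) (nat_lit 456) (nat_lit 316) (nat_lit 248)))) (XT.nd (nat_lit 156) (nat_lit 0) (nat_lit 0) (XT.nd (nat_lit 78) (nat_lit 0) (nat_lit 0) (XT.lf (nat_lit 0) (nat_lit 2431622184384) (nat_lit 152) (nat_lit 1966177145679) (nat_lit 0) (nat_lit 2429960612621) (nat_lit 1) (nat_lit 5) (nat_lit 3) (nat_lit 4) (nat_lit 1) (nat_lit 4) (nat_lit 457) (nat_lit 316) (nat_lit 247)) (XT.lf (nat_lit 0) (nat_lit 2628500880182) (nat_lit 152) (nat_lit 2118442360452) (nat_lit 0) (nat_lit 2626838697341) (nat_lit 1) (nat_lit 5) (nat_lit 3) (nat_lit 4) (nat_lit 1) (nat_lit 4) (nat_lit 458) (nat_lit 316) (nat_lit 246))) (XT.nd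 (nat_lit 78) (nat_lit 0) (nat_lit 0) (XT.lf (nat_lit 0) (nat_lit 2841128138462) (nat_lit 152) (nat_lit 2282892303416) (nat_lit 0) (nat_lit 2839465389807) (nat_lit 1) (nat_lit 5) (nat_lit 3) (nat_lit 4) (nat_lit 1) (nat_lit 4) (nat_lit 459) (nat_lit 316) (nat_lit 245)) (XT.nd (nat_lit 47346) (nat_lit 0) (nat_lit 456) (XT.lf (nat_lit 0) (nat_lit 3070763972605) (nat_lit 152) (nat_lit 2460501492751) (nat_lit 0) (nat_lit 3069100700048) (nat_lit 1) (nat_lit 5) (nat_lit 3) (nat_lit 4) (nat_lit 1) (nat_lit 4) (nat_lit 460) (nat_lit 316) (nat_lit 244)) (XT.lf (nat_lit 0) (nat_lit 8351522605) (nat_lit 152) (nat_lit 62160173) (nat_lit 0) (nat_lit 8351522605) (nat_lit 7) (nat_lit 5) (nat_lit 9) (nat_lit 4) (nat_lit 7) (nat_lit 4) (nat_lit 386) (nat_lit 317) (nat_lit 317)))))) (XT.nd (nat_lit 390) (nat_lit 76) (nat_lit 0) (XT.nd (nat_lit 156) (nat_lit 152) (nat_lit 0) (XT.nd (nat_lit 78) (nat_lit 0)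 (nat_lit 0) (XT.lf (nat_lit 0) (nat_lit 11974052721) (nat_lit 76) (nat_lit 11954631303) (nat_lit 76) (nat_lit 11798816935) (nat_lit 6) (nat_lit 4) (nat_lit 7) (nat_lit 5) (nat_lit 7) (nat_lit 4) (nat_lit 387) (nat_lit 317) (nat_lit 316)) (XT.lf (nat_lit 0) (nat_lit 24456648334) (nat_lit 76) (nat_lit 6983601221) (nat_lit 76) (nat_lit 6683514291) (nat_lit 6) (nat_lit 4) (nat_lit 7) (nat_lit 5) (nat_lit 7) (nat_lit 4) (nat_lit 388) (nat_lit 317) (nat_lit 315))) (XT.nd (nat_lit 78) (nat_lit 152) (nat_lit 0) (XT.lf (nat_lit 0) (nat_lit 37390890940) (nat_lit 76) (nat_lit 1888216495) (nat_lit 76) (nat_lit 1454543859) (nat_lit 6) (nat_lit 4) (nat_lit 7) (nat_lit 5) (nat_lit 7) (nat_lit 4) (nat_lit 389) (nat_lit 317) (nat_lit 314)) (XT.nd (nat_lit 78) (nat_lit 0) (nat_lit 0) (XT.lf (nat_lit 0) (nat_lit 3992993600) (nat_lit 152) (nat_lit 36073581848) (nat_lit 0) (nat_lit 3476916651) (nat_lit 4)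 (nat_lit 5) (nat_lit 6) (nat_lit 4) (nat_lit 4) (nat_lit 4) (nat_lit 390) (nat_lit 317) (nat_lit 313)) (XT.lf (nat_lit 0) (nat_lit 9681546159) (nat_lit 152) (nat_lit 27843449505) (nat_lit 0) (nat_lit 9059424570) (nat_lit 4) (nat_lit 5) (nat_lit 6) (nat_lit 4) (nat_lit 4) (nat_lit 4) (nat_lit 391) (nat_lit 317) (nat_lit 312))))) (XT.nd (nat_lit 156) (nat_lit 76) (nat_lit 0) (XT.nd (nat_lit 78) (nat_lit 0) (nat_lit 0) (XT.lf (nat_lit 0) (nat_lit 15585349337) (nat_lit 152) (nat_lit 19437445883) (nat_lit 0) (nat_lit 14865038267) (nat_lit 4) (nat_lit 5) (nat_lit 6) (nat_lit 4) (nat_lit 4) (nat_lit 4) (nat_lit 392) (nat_lit 317) (nat_lit 311)) (XT.lf (nat_lit 0) (nat_lit 21739388635) (nat_lit 152) (nat_lit 10805757629) (nat_lit 0) (nat_lit 20928161378) (nat_lit 4) (nat_lit 5) (nat_lit 6) (nat_lit 4) (nat_lit 4) (nat_lit 4) (nat_lit 393) (nat_lit 317) (nat_lit 310))) (XT.nd (nat_lit 78) (nat_lit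 76) (nat_lit 0) (XT.lf (nat_lit 0) (nat_lit 28180132433) (nat_lit 152) (nat_lit 1897233996) (nat_lit 0) (nat_lit 27284723522) (nat_lit 4) (nat_lit 5) (nat_lit 6) (nat_lit 4) (nat_lit 4) (nat_lit 4) (nat_lit 394) (nat_lit 317) (nat_lit 309)) (XT.nd (nat_lit 78) (nat_lit 0) (nat_lit 0) (XT.lf (nat_lit 0) (nat_lit 7727475907) (nat_lit 76) (nat_lit 27404118177) (nat_lit 76) (nat_lit 26430763289) (nat_lit 3) (nat_lit 4) (nat_lit 4) (nat_lit 5) (nat_lit 4) (nat_lit 4) (nat_lit 395) (nat_lit 317) (nat_lit 308)) (XT.lf (nat_lit 0) (nat_lit 17856702322) (nat_lit 76) (nat_lit 24649079978) (nat_lit 76) (nat_lit 23603552890) (nat_lit 3) (nat_lit 4) (nat_lit 4) (nat_lit 5) (nat_lit 4) (nat_lit 4) (nat_lit 396) (nat_lit 317) (nat_lit 307))))))) (XT.nd (nat_lit 702) (nat_lit 0) (nat_lit 0) (XT.nd (nat_lit 312) (nat_lit 152) (nat_lit 0) (XT.nd (nat_lit 156) (nat_lit 0) (nat_lit 0) (XT.nd (nat_lit 78)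 (nat_lit 0) (nat_lit 0) (XT.lf (nat_lit 0) (nat_lit 28450565313) (nat_lit 76) (nat_lit 21847799422) (nat_lit 76) (nat_lit 20735446222) (nat_lit 3) (nat_lit 4) (nat_lit 4) (nat_lit 5) (nat_lit 4) (nat_lit 4) (nat_lit 397) (nat_lit 317) (nat_lit 306)) (XT.lf (nat_lit 0) (nat_lit 39571843329) (nat_lit 76) (nat_lit 18983676327) (nat_lit 76) (nat_lit 17809447097) (nat_lit 3) (nat_lit 4) (nat_lit 4) (nat_lit 5) (nat_lit 4) (nat_lit 4) (nat_lit 398) (nat_lit 317) (nat_lit 305))) (XT.nd (nat_lit 78) (nat_lit 0) (nat_lit 0) (XT.lf (nat_lit 0) (nat_lit 51286440238) (nat_lit 76) (nat_lit 16039738111) (nat_lit 76) (nat_lit 14808216262) (nat_lit 3) (nat_lit 4) (nat_lit 4) (nat_lit 5) (nat_lit 4) (nat_lit 4) (nat_lit 399) (nat_lit 317) (nat_lit 304)) (XT.lf (nat_lit 0) (nat_lit 63663775874) (nat_lit 76) (nat_lit 12998539215) (nat_lit 76) (nat_lit 11713968644) (nat_lit 3) (nat_lit 4) (nat_lit 4) (nat_lit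 5) (nat_lit 4) (nat_lit 4) (nat_lit 400) (nat_lit 317) (nat_lit 303)))) (XT.nd (nat_lit 156) (nat_lit 152) (nat_lit 0) (XT.nd (nat_lit 78) (nat_lit 0) (nat_lit 0) (XT.lf (nat_lit 0) (nat_lit 76777197411) (nat_lit 76) (nat_lit 9842057719) (nat_lit 76) (nat_lit 8508367962) (nat_lit 3) (nat_lit 4) (nat_lit 4) (nat_lit 5) (nat_lit 4) (nat_lit 4) (nat_lit 401) (nat_lit 317) (nat_lit 302)) (XT.lf (nat_lit 0) (nat_lit 90704414014) (nat_lit 76) (nat_lit 6551588548) (nat_lit 76) (nat_lit 5172418062) (nat_lit 3) (nat_lit 4) (nat_lit 4) (nat_lit 5) (nat_lit 4) (nat_lit 4) (nat_lit 402) (nat_lit 317) (nat_lit 301))) (XT.nd (nat_lit 78) (nat_lit 152) (nat_lit 0) (XT.lf (nat_lit 0) (nat_lit 105527957338) (nat_lit 76) (nat_lit 3107632626) (nat_lit 76) (nat_lit 1686350354) (nat_lit 3) (nat_lit 4) (nat_lit 4) (nat_lit 5) (nat_lit 4) (nat_lit 4) (nat_lit 403) (nat_lit 317) (nat_lit 300)) (XT.nd (nat_lit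 78) (nat_lit 0) (nat_lit 0) (XT.lf (nat_lit 0) (nat_lit 1948626133) (nat_lit 152) (nat_lit 116299884869) (nat_lit 0) (nat_lit 596519961) (nat_lit 1) (nat_lit 5) (nat_lit 3) (nat_lit 4) (nat_lit 1) (nat_lit 4) (nat_lit 404) (nat_lit 317) (nat_lit 299)) (XT.lf (nat_lit 0) (nat_lit 5896091485) (nat_lit 152) (nat_lit 117630802085) (nat_lit 0) (nat_lit 4510555619) (nat_lit 1) (nat_lit 5) (nat_lit 3) (nat_lit 4) (nat_lit 1) (nat_lit 4) (nat_lit 405) (nat_lit 317) (nat_lit 298)))))) (XT.nd (nat_lit 390) (nat_lit 0) (nat_lit 0) (XT.nd (nat_lit 156) (nat_lit 0) (nat_lit 0) (XT.nd (nat_lit 78) (nat_lit 0) (nat_lit 0) (XT.lf (nat_lit 0) (nat_lit 10064538484) (nat_lit 152) (nat_lit 119260266060) (nat_lit 0) (nat_lit 8648049199) (nat_lit 1) (nat_lit 5) (nat_lit 3) (nat_lit 4) (nat_lit 1) (nat_lit 4) (nat_lit 406) (nat_lit 317) (nat_lit 297)) (XT.lf (nat_lit 0) (nat_lit 14478669039) (nat_lit 152) (nat_lit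 121197932877) (nat_lit 0) (nat_lit 13033519180) (nat_lit 1) (nat_lit 5) (nat_lit 3) (nat_lit 4) (nat_lit 1) (nat_lit 4) (nat_lit 407) (nat_lit 317) (nat_lit 296))) (XT.nd (nat_lit 78) (nat_lit 0) (nat_lit 0) (XT.lf (nat_lit 0) (nat_lit 19164640960) (nat_lit 152) (nat_lit 123455285004) (nat_lit 0) (nat_lit 17692953533) (nat_lit 1) (nat_lit 5) (nat_lit 3) (nat_lit 4) (nat_lit 1) (nat_lit 4) (nat_lit 408) (nat_lit 317) (nat_lit 295)) (XT.nd (nat_lit 78) (nat_lit 0) (nat_lit 0) (XT.lf (nat_lit 0) (nat_lit 24150222971) (nat_lit 152) (nat_lit 126045699345) (nat_lit 0) (nat_lit 22653963721) (nat_lit 1) (nat_lit 5) (nat_lit 3) (nat_lit 4) (nat_lit 1) (nat_lit 4) (nat_lit 409) (nat_lit 317) (nat_lit 294)) (XT.lf (nat_lit 0) (nat_lit 29464959260) (nat_lit 152) (nat_lit 128984526502) (nat_lit 0) (nat_lit 27945948323) (nat_lit 1) (nat_lit 5) (nat_lit 3) (nat_lit 4) (nat_lit 1) (nat_lit 4) (nat_lit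 410) (nat_lit 317) (nat_lit 293))))) (XT.nd (nat_lit 156) (nat_lit 0) (nat_lit 0) (XT.nd (nat_lit 78) (nat_lit 0) (nat_lit 0) (XT.lf (nat_lit 0) (nat_lit 35140344561) (nat_lit 152) (nat_lit 132289181748) (nat_lit 0) (nat_lit 33600267247) (nat_lit 1) (nat_lit 5) (nat_lit 3) (nat_lit 4) (nat_lit 1) (nat_lit 4) (nat_lit 411) (nat_lit 317) (nat_lit 292)) (XT.lf (nat_lit 0) (nat_lit 41210010787) (nat_lit 152) (nat_lit 135979248225) (nat_lit 0) (nat_lit 39650427568) (nat_lit 1) (nat_lit 5) (nat_lit 3) (nat_lit 4) (nat_lit 1) (nat_lit 4) (nat_lit 412) (nat_lit 317) (nat_lit 291))) (XT.nd (nat_lit 78) (nat_lit 0) (nat_lit 0) (XT.lf (nat_lit 0) (nat_lit 47709926331) (nat_lit 152) (nat_lit 140076592992) (nat_lit 0) (nat_lit 46132282089) (nat_lit 1) (nat_lit 5) (nat_lit 3) (nat_lit 4) (nat_lit 1) (nat_lit 4) (nat_lit 413) (nat_lit 317) (nat_lit 290)) (XT.nd (nat_lit 78) (nat_lit 0) (nat_lit 0) (XT.lf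 (nat_lit 0) (nat_lit 54678609210) (nat_lit 152) (nat_lit 144605496613) (nat_lit 0) (nat_lit 53084241798) (nat_lit 1) (nat_lit 5) (nat_lit 3) (nat_lit 4) (nat_lit 1) (nat_lit 4) (nat_lit 414) (nat_lit 317) (nat_lit 289)) (XT.lf (nat_lit 0) (nat_lit 62157355323) (nat_lit 152) (nat_lit 149592797034) (nat_lit 0) (nat_lit 60547503496) (nat_lit 1) (nat_lit 5) (nat_lit 3) (nat_lit 4) (nat_lit 1) (nat_lit 4) (nat_lit 415) (nat_lit 317) (nat_lit 288))))))))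
noncomputable def xc37 : XT := (XT.nd (nat_lit 1482) (nat_lit 0) (nat_lit 0) (XT.nd (nat_lit 702) (nat_lit 0) (nat_lit 0) (XT.nd (nat_lit 312) (nat_lit 0) (nat_lit 0) (XT.nd (nat_lit 156) (nat_lit 0) (nat_lit 0) (XT.nd (nat_lit 78) (nat_lit 0) (nat_lit 0) (XT.lf (nat_lit 0) (nat_lit 70190483166) (nat_lit 152) (nat_lit 155068048628) (nat_lit 0) (nat_lit 68566293916) (nat_lit 1) (nat_lit 5) (nat_lit 3) (nat_lit 4) (nat_lit 1) (nat_lit 4) (nat_lit 416) (nat_lit 317) (nat_lit 287)) (XT.lf (nat_lit 0) (nat_lit 78825596459) (nat_lit 152) (nat_lit 161063697330) (nat_lit 0) (nat_lit 77188131818) (nat_lit 1) (nat_lit 5) (nat_lit 3) (nat_lit 4) (nat_lit 1) (nat_lit 4) (nat_lit 417) (nat_lit 317) (nat_lit 286))) (XT.nd (nat_lit 78) (nat_lit 0) (nat_lit 0) (XT.lf (nat_lit 0) (nat_lit 88113866244) (nat_lit 152) (nat_lit 167615272911) (nat_lit 0) (nat_lit 86464109574) (nat_lit 1) (nat_lit 5) (nat_lit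 3) (nat_lit 4) (nat_lit 1) (nat_lit 4) (nat_lit 418) (nat_lit 317) (nat_lit 285)) (XT.lf (nat_lit 0) (nat_lit 98110334120) (nat_lit 152) (nat_lit 174761599523) (nat_lit 0) (nat_lit 96449195941) (nat_lit 1) (nat_lit 5) (nat_lit 3) (nat_lit 4) (nat_lit 1) (nat_lit 4) (nat_lit 419) (nat_lit 317) (nat_lit 284)))) (XT.nd (nat_lit 156) (nat_lit 0) (nat_lit 0) (XT.nd (nat_lit 78) (nat_lit 0) (nat_lit 0) (XT.lf (nat_lit 0) (nat_lit 108874238414) (nat_lit 152) (nat_lit 182545025766) (nat_lit 0) (nat_lit 107202561802) (nat_lit 1) (nat_lit 5) (nat_lit 3) (nat_lit 4) (nat_lit 1) (nat_lit 4) (nat_lit 420) (nat_lit 317) (nat_lit 283)) (XT.lf (nat_lit 0) (nat_lit 120469365227) (nat_lit 152) (nat_lit 191011675649) (nat_lit 0) (nat_lit 118787930806) (nat_lit 1) (nat_lit 5) (nat_lit 3) (nat_lit 4) (nat_lit 1) (nat_lit 4) (nat_lit 421) (nat_lit 317) (nat_lit 282))) (XT.nd (nat_lit 78) (nat_lit 0) (nat_lit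 0) (XT.lf (nat_lit 0) (nat_lit 132964426420) (nat_lit 152) (nat_lit 200211721912) (nat_lit 0) (nat_lit 131273956991) (nat_lit 1) (nat_lit 5) (nat_lit 3) (nat_lit 4) (nat_lit 1) (nat_lit 4) (nat_lit 422) (nat_lit 317) (nat_lit 281)) (XT.nd (nat_lit 78) (nat_lit 0) (nat_lit 0) (XT.lf (nat_lit 0) (nat_lit 146433466801) (nat_lit 152) (nat_lit 210199683348) (nat_lit 0) (nat_lit 144734631624) (nat_lit 1) (nat_lit 5) (nat_lit 3) (nat_lit 4) (nat_lit 1) (nat_lit 4) (nat_lit 423) (nat_lit 317) (nat_lit 280)) (XT.lf (nat_lit 0) (nat_lit 160956302906) (nat_lit 152) (nat_lit 221034747875) (nat_lit 0) (nat_lit 159249721666) (nat_lit 1) (nat_lit 5) (nat_lit 3) (nat_lit 4) (nat_lit 1) (nat_lit 4) (nat_lit 424) (nat_lit 317) (nat_lit 279)))))) (XT.nd (nat_lit 390) (nat_lit 0) (nat_lit 0) (XT.nd (nat_lit 156) (nat_lit 0) (nat_lit 0) (XT.nd (nat_lit 78) (nat_lit 0) (nat_lit 0) (XT.lf (nat_lit 0) (nat_lit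 176618995985) (nat_lit 152) (nat_lit 232781123285) (nat_lit 0) (nat_lit 174905242464) (nat_lit 1) (nat_lit 5) (nat_lit 3) (nat_lit 4) (nat_lit 1) (nat_lit 4) (nat_lit 425) (nat_lit 317) (nat_lit 278)) (XT.lf (nat_lit 0) (nat_lit 193514361998) (nat_lit 152) (nat_lit 245508417726) (nat_lit 0) (nat_lit 191793967476) (nat_lit 1) (nat_lit 5) (nat_lit 3) (nat_lit 4) (nat_lit 1) (nat_lit 4) (nat_lit 426) (nat_lit 317) (nat_lit 277))) (XT.nd (nat_lit 78) (nat_lit 0) (nat_lit 0) (XT.lf (nat_lit 0) (nat_lit 211742521632) (nat_lit 152) (nat_lit 259292052205) (nat_lit 0) (nat_lit 210015978035) (nat_lit 1) (nat_lit 5) (nat_lit 3) (nat_lit 4) (nat_lit 1) (nat_lit 4) (nat_lit 427) (nat_lit 317) (nat_lit 276)) (XT.nd (nat_lit 78) (nat_lit 0) (nat_lit 0) (XT.lf (nat_lit 0) (nat_lit 231411493610) (nat_lit 152) (nat_lit 274213707516) (nat_lit 0) (nat_lit 229679256426) (nat_lit 1) (nat_lit 5) (nat_lit 3)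 (nat_lit 4) (nat_lit 1) (nat_lit 4) (nat_lit 428) (nat_lit 317) (nat_lit 275)) (XT.lf (nat_lit 0) (nat_lit 252637834805) (nat_lit 152) (nat_lit 290361808285) (nat_lit 0) (nat_lit 250900325780) (nat_lit 1) (nat_lit 5) (nat_lit 3) (nat_lit 4) (nat_lit 1) (nat_lit 4) (nat_lit 429) (nat_lit 317) (nat_lit 274))))) (XT.nd (nat_lit 156) (nat_lit 0) (nat_lit 0) (XT.nd (nat_lit 78) (nat_lit 0) (nat_lit 0) (XT.lf (nat_lit 0) (nat_lit 275547330940) (nat_lit 152) (nat_lit 307832046961) (nat_lit 0) (nat_lit 273804940582) (nat_lit 1) (nat_lit 5) (nat_lit 3) (nat_lit 4) (nat_lit 1) (nat_lit 4) (nat_lit 430) (nat_lit 317) (nat_lit 273)) (XT.lf (nat_lit 0) (nat_lit 300275741994) (nat_lit 152) (nat_lit 326727950883) (nat_lit 0) (nat_lit 298528831882) (nat_lit 1) (nat_lit 5) (nat_lit 3) (nat_lit 4) (nat_lit 1) (nat_lit 4) (nat_lit 431) (nat_lit 317) (nat_lit 272))) (XT.nd (nat_lit 78) (nat_lit 0) (nat_lit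 0) (XT.lf (nat_lit 0) (nat_lit 326969606699) (nat_lit 152) (nat_lit 347161495779) (nat_lit 0) (nat_lit 325218511630) (nat_lit 1) (nat_lit 5) (nat_lit 3) (nat_lit 4) (nat_lit 1) (nat_lit 4) (nat_lit 432) (nat_lit 317) (nat_lit 271)) (XT.nd (nat_lit 78) (nat_lit 0) (nat_lit 0) (XT.lf (nat_lit 0) (nat_lit 355787110919) (nat_lit 152) (nat_lit 369253769322) (nat_lit 0) (nat_lit 354032140890) (nat_lit 1) (nat_lit 5) (nat_lit 3) (nat_lit 4) (nat_lit 1) (nat_lit 4) (nat_lit 433) (nat_lit 317) (nat_lit 270)) (XT.lf (nat_lit 0) (nat_lit 386899025050) (nat_lit 152) (nat_lit 393135688689) (nat_lit 0) (nat_lit 385140467095) (nat_lit 1) (nat_lit 5) (nat_lit 3) (nat_lit 4) (nat_lit 1) (nat_lit 4) (nat_lit 434) (nat_lit 317) (nat_lit 269))))))) (XT.nd (nat_lit 780) (nat_lit 0) (nat_lit 0) (XT.nd (nat_lit 390) (nat_lit 0) (nat_lit 0) (XT.nd (nat_lit 156) (nat_lit 0) (nat_lit 0) (XT.nd (nat_lit 78) (nat_lit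 0) (nat_lit 0) (XT.lf (nat_lit 0) (nat_lit 420489715990) (nat_lit 152) (nat_lit 418948776365) (nat_lit 0) (nat_lit 418727835881) (nat_lit 1) (nat_lit 5) (nat_lit 3) (nat_lit 4) (nat_lit 1) (nat_lit 4) (nat_lit 435) (nat_lit 317) (nat_lit 268)) (XT.lf (nat_lit 0) (nat_lit 456758239686) (nat_lit 152) (nat_lit 446845998795) (nat_lit 0) (nat_lit 454993283509) (nat_lit 1) (nat_lit 5) (nat_lit 3) (nat_lit 4) (nat_lit 1) (nat_lit 4) (nat_lit 436) (nat_lit 317) (nat_lit 267))) (XT.nd (nat_lit 78) (nat_lit 0) (nat_lit 0) (XT.lf (nat_lit 0) (nat_lit 495919520723) (nat_lit 152) (nat_lit 476992672853) (nat_lit 0) (nat_lit 494151716334) (nat_lit 1) (nat_lit 5) (nat_lit 3) (nat_lit 4) (nat_lit 1) (nat_lit 4) (nat_lit 437) (nat_lit 317) (nat_lit 266)) (XT.nd (nat_lit 78) (nat_lit 0) (nat_lit 0) (XT.lf (nat_lit 0) (nat_lit 538205625951) (nat_lit 152) (nat_lit 509567445497) (nat_lit 0) (nat_lit 536435184330)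 (nat_lit 1) (nat_lit 5) (nat_lit 3) (nat_lit 4) (nat_lit 1) (nat_lit 4) (nat_lit 438) (nat_lit 317) (nat_lit 265)) (XT.lf (nat_lit 0) (nat_lit 583867139697) (nat_lit 152) (nat_lit 544763352416) (nat_lit 0) (nat_lit 582094256194) (nat_lit 1) (nat_lit 5) (nat_lit 3) (nat_lit 4) (nat_lit 1) (nat_lit 4) (nat_lit 439) (nat_lit 317) (nat_lit 264))))) (XT.nd (nat_lit 156) (nat_lit 0) (nat_lit 0) (XT.nd (nat_lit 78) (nat_lit 0) (nat_lit 0) (XT.lf (nat_lit 0) (nat_lit 633174648710) (nat_lit 152) (nat_lit 582788961947) (nat_lit 0) (nat_lit 631399504205) (nat_lit 1) (nat_lit 5) (nat_lit 3) (nat_lit 4) (nat_lit 1) (nat_lit 4) (nat_lit 440) (nat_lit 317) (nat_lit 263)) (XT.lf (nat_lit 0) (nat_lit 686420345636) (nat_lit 152) (nat_lit 623869611036) (nat_lit 0) (nat_lit 684643107610) (nat_lit 1) (nat_lit 5) (nat_lit 3) (nat_lit 4) (nat_lit 1) (nat_lit 4) (nat_lit 441) (nat_lit 317) (nat_lit 262))) (XT.nd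 (nat_lit 78) (nat_lit 0) (nat_lit 0) (XT.lf (nat_lit 0) (nat_lit 743919760530) (nat_lit 152) (nat_lit 668248740566) (nat_lit 0) (nat_lit 742140584059) (nat_lit 1) (nat_lit 5) (nat_lit 3) (nat_lit 4) (nat_lit 1) (nat_lit 4) (nat_lit 442) (nat_lit 317) (nat_lit 261)) (XT.nd (nat_lit 78) (nat_lit 0) (nat_lit 0) (XT.lf (nat_lit 0) (nat_lit 806013630666) (nat_lit 152) (nat_lit 716189337972) (nat_lit 0) (nat_lit 804232659339) (nat_lit 1) (nat_lit 5) (nat_lit 3) (nat_lit 4) (nat_lit 1) (nat_lit 4) (nat_lit 443) (nat_lit 317) (nat_lit 260)) (XT.lf (nat_lit 0) (nat_lit 873069919719) (nat_lit 152) (nat_lit 767975495682) (nat_lit 0) (nat_lit 871287286488) (nat_lit 1) (nat_lit 5) (nat_lit 3) (nat_lit 4) (nat_lit 1) (nat_lit 4) (nat_lit 444) (nat_lit 317) (nat_lit 259)))))) (XT.nd (nat_lit 390) (nat_lit 0) (nat_lit 0) (XT.nd (nat_lit 156) (nat_lit 0) (nat_lit 0) (XT.nd (nat_lit 78) (nat_lit 0) (nat_lit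 0) (XT.lf (nat_lit 0) (nat_lit 945485998290) (nat_lit 152) (nat_lit 823914094632) (nat_lit 0) (nat_lit 943701826259) (nat_lit 1) (nat_lit 5) (nat_lit 3) (nat_lit 4) (nat_lit 1) (nat_lit 4) (nat_lit 445) (nat_lit 317) (nat_lit 258)) (XT.lf (nat_lit 0) (nat_lit 1023690998697) (nat_lit 152) (nat_lit 884336622814) (nat_lit 0) (nat_lit 1021905401852) (nat_lit 1) (nat_lit 5) (nat_lit 3) (nat_lit 4) (nat_lit 1) (nat_lit 4) (nat_lit 446) (nat_lit 317) (nat_lit 257))) (XT.nd (nat_lit 78) (nat_lit 0) (nat_lit 0) (XT.lf (nat_lit 0) (nat_lit 1108148357980) (nat_lit 152) (nat_lit 949601139656) (nat_lit 0) (nat_lit 1106361441862) (nat_lit 1) (nat_lit 5) (nat_lit 3) (nat_lit 4) (nat_lit 1) (nat_lit 4) (nat_lit 447) (nat_lit 317) (nat_lit 256)) (XT.nd (nat_lit 78) (nat_lit 0) (nat_lit 0) (XT.lf (nat_lit 0) (nat_lit 1199358564194) (nat_lit 152) (nat_lit 1020094397849) (nat_lit 0) (nat_lit 1197570426526)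 (nat_lit 1) (nat_lit 5) (nat_lit 3) (nat_lit 4) (nat_lit 1) (nat_lit 4) (nat_lit 448) (nat_lit 317) (nat_lit 255)) (XT.lf (nat_lit 0) (nat_lit 1297862122263) (nat_lit 152) (nat_lit 1096234135221) (nat_lit 0) (nat_lit 1296072853532) (nat_lit 1) (nat_lit 5) (nat_lit 3) (nat_lit 4) (nat_lit 1) (nat_lit 4) (nat_lit 449) (nat_lit 317) (nat_lit 254))))) (XT.nd (nat_lit 156) (nat_lit 0) (nat_lit 0) (XT.nd (nat_lit 78) (nat_lit 0) (nat_lit 0) (XT.lf (nat_lit 0) (nat_lit 1404242756978) (nat_lit 152) (nat_lit 1178471550214) (nat_lit 0) (nat_lit 1402452440965) (nat_lit 1) (nat_lit 5) (nat_lit 3) (nat_lit 4) (nat_lit 1) (nat_lit 4) (nat_lit 450) (nat_lit 317) (nat_lit 253)) (XT.lf (nat_lit 0) (nat_lit 1519130872098) (nat_lit 152) (nat_lit 1267293975658) (nat_lit 0) (nat_lit 1517339586380) (nat_lit 1) (nat_lit 5) (nat_lit 3) (nat_lit 4) (nat_lit 1) (nat_lit 4) (nat_lit 451) (nat_lit 317) (nat_lit 252)))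 (XT.nd (nat_lit 78) (nat_lit 0) (nat_lit 0) (XT.lf (nat_lit 0) (nat_lit 1643207286085) (nat_lit 152) (nat_lit 1363227766667) (nat_lit 0) (nat_lit 1641415102492) (nat_lit 1) (nat_lit 5) (nat_lit 3) (nat_lit 4) (nat_lit 1) (nat_lit 4) (nat_lit 452) (nat_lit 317) (nat_lit 251)) (XT.nd (nat_lit 78) (nat_lit 0) (nat_lit 0) (XT.lf (nat_lit 0) (nat_lit 1777207266576) (nat_lit 152) (nat_lit 1466841419781) (nat_lit 0) (nat_lit 1775414251617) (nat_lit 1) (nat_lit 5) (nat_lit 3) (nat_lit 4) (nat_lit 1) (nat_lit 4) (nat_lit 453) (nat_lit 317) (nat_lit 250)) (XT.lf (nat_lit 0) (nat_lit 1921924887529) (nat_lit 152) (nat_lit 1578748941832) (nat_lit 0) (nat_lit 1920131102788) (nat_lit 1) (nat_lit 5) (nat_lit 3) (nat_lit 4) (nat_lit 1) (nat_lit 4) (nat_lit 454) (nat_lit 317) (nat_lit 249))))))))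
noncomputable def xc38 : XT := (XT.nd (nat_lit 48594) (nat_lit 0) (nat_lit 0) (XT.nd (nat_lit 47814) (nat_lit 0) (nat_lit 152) (XT.nd (nat_lit 312) (nat_lit 0) (nat_lit 0) (XT.nd (nat_lit 156) (nat_lit 0) (nat_lit 0) (XT.nd (nat_lit 78) (nat_lit 0) (nat_lit 0) (XT.lf (nat_lit 0) (nat_lit 2078217734848) (nat_lit 152) (nat_lit 1699613488507) (nat_lit 0) (nat_lit 2076423237344) (nat_lit 1) (nat_lit 5) (nat_lit 3) (nat_lit 4) (nat_lit 1) (nat_lit 4) (nat_lit 455) (nat_lit 317) (nat_lit 248)) (XT.lf (nat_lit 0) (nat_lit 2247011988368) (nat_lit 152) (nat_lit 1830151294156) (nat_lit 0) (nat_lit 2245216830899) (nat_lit 1) (nat_lit 5) (nat_lit 3) (nat_lit 4) (nat_lit 1) (nat_lit 4) (nat_lit 456) (nat_lit 317) (nat_lit 247))) (XT.nd (nat_lit 78) (nat_lit 0) (nat_lit 0) (XT.lf (nat_lit 0) (nat_lit 2429307910331) (nat_lit 152) (nat_lit 1971135916147) (nat_lit 0) (nat_lit 2427512141784) (nat_lit 1)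 (nat_lit 5) (nat_lit 3) (nat_lit 4) (nat_lit 1) (nat_lit 4) (nat_lit 457) (nat_lit 317) (nat_lit 246)) (XT.lf (nat_lit 0) (nat_lit 2626185772869) (nat_lit 152) (nat_lit 2123402818905) (nat_lit 0) (nat_lit 2624389438508) (nat_lit 1) (nat_lit 5) (nat_lit 3) (nat_lit 4) (nat_lit 1) (nat_lit 4) (nat_lit 458) (nat_lit 317) (nat_lit 245)))) (XT.nd (nat_lit 47268) (nat_lit 0) (nat_lit 456) (XT.nd (nat_lit 78) (nat_lit 0) (nat_lit 0) (XT.lf (nat_lit 0) (nat_lit 2838812259610) (nat_lit 152) (nat_lit 2287854324818) (nat_lit 0) (nat_lit 2837015401348) (nat_lit 1) (nat_lit 5) (nat_lit 3) (nat_lit 4) (nat_lit 1) (nat_lit 4) (nat_lit 459) (nat_lit 317) (nat_lit 244)) (XT.lf (nat_lit 0) (nat_lit 3068447379366) (nat_lit 152) (nat_lit 2465464961328) (nat_lit 0) (nat_lit 3066650036009) (nat_lit 1) (nat_lit 5) (nat_lit 3) (nat_lit 4) (nat_lit 1) (nat_lit 4) (nat_lit 460) (nat_lit 317) (nat_lit 243))) (XT.nd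 (nat_lit 78) (nat_lit 0) (nat_lit 0) (XT.lf (nat_lit 0) (nat_lit 1905886059) (nat_lit 152) (nat_lit 11001452986) (nat_lit 0) (nat_lit 1905886059) (nat_lit 7) (nat_lit 5) (nat_lit 9) (nat_lit 4) (nat_lit 7) (nat_lit 4) (nat_lit 384) (nat_lit 318) (nat_lit 318)) (XT.nd (nat_lit 78) (nat_lit 0) (nat_lit 0) (XT.lf (nat_lit 0) (nat_lit 10166246344) (nat_lit 152) (nat_lit 11333064121) (nat_lit 0) (nat_lit 9997966827) (nat_lit 7) (nat_lit 5) (nat_lit 9) (nat_lit 4) (nat_lit 7) (nat_lit 4) (nat_lit 385) (nat_lit 318) (nat_lit 317)) (XT.lf (nat_lit 0) (nat_lit 16725256412) (nat_lit 152) (nat_lit 415695741) (nat_lit 0) (nat_lit 16401162527) (nat_lit 7) (nat_lit 5) (nat_lit 9) (nat_lit 4) (nat_lit 7) (nat_lit 4) (nat_lit 386) (nat_lit 318) (nat_lit 316)))))) (XT.nd (nat_lit 390) (nat_lit 76) (nat_lit 0) (XT.nd (nat_lit 156) (nat_lit 152) (nat_lit 0) (XT.nd (nat_lit 78) (nat_lit 0) (nat_lit 0) (XT.lf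 (nat_lit 0) (nat_lit 11383335212) (nat_lit 76) (nat_lit 12418104802) (nat_lit 76) (nat_lit 11949738356) (nat_lit 6) (nat_lit 4) (nat_lit 7) (nat_lit 5) (nat_lit 7) (nat_lit 4) (nat_lit 387) (nat_lit 318) (nat_lit 315)) (XT.lf (nat_lit 0) (nat_lit 23602968971) (nat_lit 76) (nat_lit 7578482299) (nat_lit 76) (nat_lit 6976530146) (nat_lit 6) (nat_lit 4) (nat_lit 7) (nat_lit 5) (nat_lit 7) (nat_lit 4) (nat_lit 388) (nat_lit 318) (nat_lit 314))) (XT.nd (nat_lit 78) (nat_lit 152) (nat_lit 0) (XT.lf (nat_lit 0) (nat_lit 36293728379) (nat_lit 76) (nat_lit 2604771256) (nat_lit 76) (nat_lit 1879128634) (nat_lit 6) (nat_lit 4) (nat_lit 7) (nat_lit 5) (nat_lit 7) (nat_lit 4) (nat_lit 389) (nat_lit 318) (nat_lit 313)) (XT.nd (nat_lit 78) (nat_lit 0) (nat_lit 0) (XT.lf (nat_lit 0) (nat_lit 3418246150) (nat_lit 152) (nat_lit 37543454358) (nat_lit 0) (nat_lit 2640310194) (nat_lit 4) (nat_lit 5) (nat_lit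 6) (nat_lit 4) (nat_lit 4) (nat_lit 4) (nat_lit 390) (nat_lit 318) (nat_lit 312)) (XT.lf (nat_lit 0) (nat_lit 8991494101) (nat_lit 152) (nat_lit 29545312067) (nat_lit 0) (nat_lit 8115368663) (nat_lit 4) (nat_lit 5) (nat_lit 6) (nat_lit 4) (nat_lit 4) (nat_lit 4) (nat_lit 391) (nat_lit 318) (nat_lit 311))))) (XT.nd (nat_lit 156) (nat_lit 76) (nat_lit 0) (XT.nd (nat_lit 78) (nat_lit 0) (nat_lit 0) (XT.lf (nat_lit 0) (nat_lit 14788533753) (nat_lit 152) (nat_lit 21354114050) (nat_lit 0) (nat_lit 13821492128) (nat_lit 4) (nat_lit 5) (nat_lit 6) (nat_lit 4) (nat_lit 4) (nat_lit 4) (nat_lit 392) (nat_lit 318) (nat_lit 310)) (XT.lf (nat_lit 0) (nat_lit 20843717934) (nat_lit 152) (nat_lit 12921319873) (nat_lit 0) (nat_lit 19792494654) (nat_lit 4) (nat_lit 5) (nat_lit 6) (nat_lit 4) (nat_lit 4) (nat_lit 4) (nat_lit 393) (nat_lit 318) (nat_lit 309))) (XT.nd (nat_lit 78) (nat_lit 76) (nat_lit 0) (XT.lf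 (nat_lit 0) (nat_lit 27192929216) (nat_lit 152) (nat_lit 4196957423) (nat_lit 0) (nat_lit 26063759960) (nat_lit 4) (nat_lit 5) (nat_lit 6) (nat_lit 4) (nat_lit 4) (nat_lit 4) (nat_lit 394) (nat_lit 318) (nat_lit 308)) (XT.nd (nat_lit 78) (nat_lit 0) (nat_lit 0) (XT.lf (nat_lit 0) (nat_lit 5127154244) (nat_lit 76) (nat_lit 28869946494) (nat_lit 76) (nat_lit 27668605038) (nat_lit 3) (nat_lit 4) (nat_lit 4) (nat_lit 5) (nat_lit 4) (nat_lit 4) (nat_lit 395) (nat_lit 318) (nat_lit 307)) (XT.lf (nat_lit 0) (nat_lit 15090177998) (nat_lit 76) (nat_lit 26198639400) (nat_lit 76) (nat_lit 24930471833) (nat_lit 3) (nat_lit 4) (nat_lit 4) (nat_lit 5) (nat_lit 4) (nat_lit 4) (nat_lit 396) (nat_lit 318) (nat_lit 306))))))) (XT.nd (nat_lit 780) (nat_lit 0) (nat_lit 0) (XT.nd (nat_lit 390) (nat_lit 152) (nat_lit 0) (XT.nd (nat_lit 156) (nat_lit 0) (nat_lit 0) (XT.nd (nat_lit 78) (nat_lit 0) (nat_lit 0)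 (XT.lf (nat_lit 0) (nat_lit 25530149635) (nat_lit 76) (nat_lit 23474887645) (nat_lit 76) (nat_lit 22144844048) (nat_lit 3) (nat_lit 4) (nat_lit 4) (nat_lit 5) (nat_lit 4) (nat_lit 4) (nat_lit 397) (nat_lit 318) (nat_lit 305)) (XT.lf (nat_lit 0) (nat_lit 36508935657) (nat_lit 76) (nat_lit 20682550476) (nat_lit 76) (nat_lit 19295214259) (nat_lit 3) (nat_lit 4) (nat_lit 4) (nat_lit 5) (nat_lit 4) (nat_lit 4) (nat_lit 398) (nat_lit 318) (nat_lit 304))) (XT.nd (nat_lit 78) (nat_lit 0) (nat_lit 0) (XT.lf (nat_lit 0) (nat_lit 48091595534) (nat_lit 76) (nat_lit 17805080710) (nat_lit 76) (nat_lit 16364695772) (nat_lit 3) (nat_lit 4) (nat_lit 4) (nat_lit 5) (nat_lit 4) (nat_lit 4) (nat_lit 399) (nat_lit 318) (nat_lit 303)) (XT.nd (nat_lit 78) (nat_lit 0) (nat_lit 0) (XT.lf (nat_lit 0) (nat_lit 60346767252) (nat_lit 76) (nat_lit 14825426676) (nat_lit 76) (nat_lit 13335922551) (nat_lit 3) (nat_lit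 4) (nat_lit 4) (nat_lit 5) (nat_lit 4) (nat_lit 4) (nat_lit 400) (nat_lit 318) (nat_lit 302)) (XT.lf (nat_lit 0) (nat_lit 73347074051) (nat_lit 76) (nat_lit 11725931163) (nat_lit 76) (nat_lit 10190946310) (nat_lit 3) (nat_lit 4) (nat_lit 4) (nat_lit 5) (nat_lit 4) (nat_lit 4) (nat_lit 401) (nat_lit 318) (nat_lit 301))))) (XT.nd (nat_lit 156) (nat_lit 152) (nat_lit 0) (XT.nd (nat_lit 78) (nat_lit 0) (nat_lit 0) (XT.lf (nat_lit 0) (nat_lit 87169554785) (nat_lit 76) (nat_lit 8488226792) (nat_lit 76) (nat_lit 6911130153) (nat_lit 3) (nat_lit 4) (nat_lit 4) (nat_lit 5) (nat_lit 4) (nat_lit 4) (nat_lit 402) (nat_lit 318) (nat_lit 300)) (XT.lf (nat_lit 0) (nat_lit 101896120451) (nat_lit 76) (nat_lit 5093127165) (nat_lit 76) (nat_lit 3477038131) (nat_lit 3) (nat_lit 4) (nat_lit 4) (nat_lit 5) (nat_lit 4) (nat_lit 4) (nat_lit 403) (nat_lit 318) (nat_lit 299))) (XT.nd (nat_lit 78) (nat_lit 76) (nat_lit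 0) (XT.lf (nat_lit 0) (nat_lit 125092764) (nat_lit 152) (nat_lit 1392000151) (nat_lit 76) (nat_lit 117485526565) (nat_lit 2) (nat_lit 5) (nat_lit 4) (nat_lit 5) (nat_lit 3) (nat_lit 4) (nat_lit 404) (nat_lit 318) (nat_lit 298)) (XT.nd (nat_lit 78) (nat_lit 0) (nat_lit 0) (XT.lf (nat_lit 0) (nat_lit 3954331733) (nat_lit 152) (nat_lit 121856597863) (nat_lit 0) (nat_lit 2393569886) (nat_lit 1) (nat_lit 5) (nat_lit 3) (nat_lit 4) (nat_lit 1) (nat_lit 4) (nat_lit 405) (nat_lit 318) (nat_lit 297)) (XT.lf (nat_lit 0) (nat_lit 8080570942) (nat_lit 152) (nat_lit 123571564590) (nat_lit 0) (nat_lit 6491148521) (nat_lit 1) (nat_lit 5) (nat_lit 3) (nat_lit 4) (nat_lit 1) (nat_lit 4) (nat_lit 406) (nat_lit 318) (nat_lit 296)))))) (XT.nd (nat_lit 390) (nat_lit 0) (nat_lit 0) (XT.nd (nat_lit 156) (nat_lit 0) (nat_lit 0) (XT.nd (nat_lit 78) (nat_lit 0) (nat_lit 0) (XT.lf (nat_lit 0) (nat_lit 12455620209)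 (nat_lit 152) (nat_lit 125588400621) (nat_lit 0) (nat_lit 10839660220) (nat_lit 1) (nat_lit 5) (nat_lit 3) (nat_lit 4) (nat_lit 1) (nat_lit 4) (nat_lit 407) (nat_lit 318) (nat_lit 295)) (XT.lf (nat_lit 0) (nat_lit 17105405753) (nat_lit 152) (nat_lit 127919057577) (nat_lit 0) (nat_lit 15464873942) (nat_lit 1) (nat_lit 5) (nat_lit 3) (nat_lit 4) (nat_lit 1) (nat_lit 4) (nat_lit 408) (nat_lit 318) (nat_lit 294))) (XT.nd (nat_lit 78) (nat_lit 0) (nat_lit 0) (XT.lf (nat_lit 0) (nat_lit 22057481859) (nat_lit 152) (nat_lit 130577346759) (nat_lit 0) (nat_lit 20394198360) (nat_lit 1) (nat_lit 5) (nat_lit 3) (nat_lit 4) (nat_lit 1) (nat_lit 4) (nat_lit 409) (nat_lit 318) (nat_lit 293)) (XT.nd (nat_lit 78) (nat_lit 0) (nat_lit 0) (XT.lf (nat_lit 0) (nat_lit 27341194162) (nat_lit 152) (nat_lit 133579020991) (nat_lit 0) (nat_lit 25656844285) (nat_lit 1) (nat_lit 5) (nat_lit 3) (nat_lit 4) (nat_lit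 1) (nat_lit 4) (nat_lit 410) (nat_lit 318) (nat_lit 292)) (XT.lf (nat_lit 0) (nat_lit 32987853550) (nat_lit 152) (nat_lit 136941867973) (nat_lit 0) (nat_lit 31283997768) (nat_lit 1) (nat_lit 5) (nat_lit 3) (nat_lit 4) (nat_lit 1) (nat_lit 4) (nat_lit 411) (nat_lit 318) (nat_lit 291))))) (XT.nd (nat_lit 156) (nat_lit 0) (nat_lit 0) (XT.nd (nat_lit 78) (nat_lit 0) (nat_lit 0) (XT.lf (nat_lit 0) (nat_lit 39030921709) (nat_lit 152) (nat_lit 140685815686) (nat_lit 0) (nat_lit 37309004904) (nat_lit 1) (nat_lit 5) (nat_lit 3) (nat_lit 4) (nat_lit 1) (nat_lit 4) (nat_lit 412) (nat_lit 318) (nat_lit 290)) (XT.lf (nat_lit 0) (nat_lit 45506209412) (nat_lit 152) (nat_lit 144833050488) (nat_lit 0) (nat_lit 43767569438) (nat_lit 1) (nat_lit 5) (nat_lit 3) (nat_lit 4) (nat_lit 1) (nat_lit 4) (nat_lit 413) (nat_lit 318) (nat_lit 289))) (XT.nd (nat_lit 78) (nat_lit 0) (nat_lit 0) (XT.lf (nat_lit 0) (nat_lit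 52452088735) (nat_lit 152) (nat_lit 149408148585) (nat_lit 0) (nat_lit 50697964345) (nat_lit 1) (nat_lit 5) (nat_lit 3) (nat_lit 4) (nat_lit 1) (nat_lit 4) (nat_lit 414) (nat_lit 318) (nat_lit 288)) (XT.nd (nat_lit 78) (nat_lit 0) (nat_lit 0) (XT.lf (nat_lit 0) (nat_lit 59909720445) (nat_lit 152) (nat_lit 154438221669) (nat_lit 0) (nat_lit 58141258632) (nat_lit 1) (nat_lit 5) (nat_lit 3) (nat_lit 4) (nat_lit 1) (nat_lit 4) (nat_lit 415) (nat_lit 318) (nat_lit 287)) (XT.lf (nat_lit 0) (nat_lit 67923297914) (nat_lit 152) (nat_lit 159953077581) (nat_lit 0) (nat_lit 66141560710) (nat_lit 1) (nat_lit 5) (nat_lit 3) (nat_lit 4) (nat_lit 1) (nat_lit 4) (nat_lit 416) (nat_lit 318) (nat_lit 286))))))))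
noncomputable def xc39 : XT := (XT.nd (nat_lit 1482) (nat_lit 0) (nat_lit 0) (XT.nd (nat_lit 702) (nat_lit 0) (nat_lit 0) (XT.nd (nat_lit 312) (nat_lit 0) (nat_lit 0) (XT.nd (nat_lit 156) (nat_lit 0) (nat_lit 0) (XT.nd (nat_lit 78) (nat_lit 0) (nat_lit 0) (XT.lf (nat_lit 0) (nat_lit 76540309010) (nat_lit 152) (nat_lit 165985396948) (nat_lit 0) (nat_lit 74746279777) (nat_lit 1) (nat_lit 5) (nat_lit 3) (nat_lit 4) (nat_lit 1) (nat_lit 4) (nat_lit 417) (nat_lit 318) (nat_lit 285)) (XT.lf (nat_lit 0) (nat_lit 85811817500) (nat_lit 152) (nat_lit 172570926848) (nat_lit 0) (nat_lit 84006406759) (nat_lit 1) (nat_lit 5) (nat_lit 3) (nat_lit 4) (nat_lit 1) (nat_lit 4) (nat_lit 418) (nat_lit 318) (nat_lit 284))) (XT.nd (nat_lit 78) (nat_lit 0) (nat_lit 0) (XT.lf (nat_lit 0) (nat_lit 95792765659) (nat_lit 152) (nat_lit 179748692644) (nat_lit 0) (nat_lit 93976816484) (nat_lit 1) (nat_lit 5) (nat_lit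 3) (nat_lit 4) (nat_lit 1) (nat_lit 4) (nat_lit 419) (nat_lit 318) (nat_lit 283)) (XT.lf (nat_lit 0) (nat_lit 106542299845) (nat_lit 152) (nat_lit 187561229243) (nat_lit 0) (nat_lit 104716592861) (nat_lit 1) (nat_lit 5) (nat_lit 3) (nat_lit 4) (nat_lit 1) (nat_lit 4) (nat_lit 420) (nat_lit 318) (nat_lit 282)))) (XT.nd (nat_lit 156) (nat_lit 0) (nat_lit 0) (XT.nd (nat_lit 78) (nat_lit 0) (nat_lit 0) (XT.lf (nat_lit 0) (nat_lit 118124121001) (nat_lit 152) (nat_lit 196054833160) (nat_lit 0) (nat_lit 116289379010) (nat_lit 1) (nat_lit 5) (nat_lit 3) (nat_lit 4) (nat_lit 1) (nat_lit 4) (nat_lit 421) (nat_lit 318) (nat_lit 281)) (XT.lf (nat_lit 0) (nat_lit 130606862143) (nat_lit 152) (nat_lit 205279836861) (nat_lit 0) (nat_lit 128763754403) (nat_lit 1) (nat_lit 5) (nat_lit 3) (nat_lit 4) (nat_lit 1) (nat_lit 4) (nat_lit 422) (nat_lit 318) (nat_lit 280))) (XT.nd (nat_lit 78) (nat_lit 0) (nat_lit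 0) (XT.lf (nat_lit 0) (nat_lit 144064495069) (nat_lit 152) (nat_lit 215290907035) (nat_lit 0) (nat_lit 142213641266) (nat_lit 1) (nat_lit 5) (nat_lit 3) (nat_lit 4) (nat_lit 1) (nat_lit 4) (nat_lit 423) (nat_lit 318) (nat_lit 279)) (XT.nd (nat_lit 78) (nat_lit 0) (nat_lit 0) (XT.lf (nat_lit 0) (nat_lit 158576768715) (nat_lit 152) (nat_lit 226147368544) (nat_lit 0) (nat_lit 156718742631) (nat_lit 1) (nat_lit 5) (nat_lit 3) (nat_lit 4) (nat_lit 1) (nat_lit 4) (nat_lit 424) (nat_lit 318) (nat_lit 278)) (XT.lf (nat_lit 0) (nat_lit 174229681740) (nat_lit 152) (nat_lit 237913555972) (nat_lit 0) (nat_lit 172365014656) (nat_lit 1) (nat_lit 5) (nat_lit 3) (nat_lit 4) (nat_lit 1) (nat_lit 4) (nat_lit 425) (nat_lit 318) (nat_lit 277)))))) (XT.nd (nat_lit 390) (nat_lit 0) (nat_lit 0) (XT.nd (nat_lit 156) (nat_lit 0) (nat_lit 0) (XT.nd (nat_lit 78) (nat_lit 0) (nat_lit 0) (XT.lf (nat_lit 0) (nat_lit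 191115992147) (nat_lit 152) (nat_lit 250659194876) (nat_lit 0) (nat_lit 189245175988) (nat_lit 1) (nat_lit 5) (nat_lit 3) (nat_lit 4) (nat_lit 1) (nat_lit 4) (nat_lit 426) (nat_lit 318) (nat_lit 276)) (XT.lf (nat_lit 0) (nat_lit 209335766961) (nat_lit 152) (nat_lit 264459814967) (nat_lit 0) (nat_lit 207459257214) (nat_lit 1) (nat_lit 5) (nat_lit 3) (nat_lit 4) (nat_lit 1) (nat_lit 4) (nat_lit 427) (nat_lit 318) (nat_lit 275))) (XT.nd (nat_lit 78) (nat_lit 0) (nat_lit 0) (XT.lf (nat_lit 0) (nat_lit 228996975217) (nat_lit 152) (nat_lit 279397197698) (nat_lit 0) (nat_lit 227115193630) (nat_lit 1) (nat_lit 5) (nat_lit 3) (nat_lit 4) (nat_lit 1) (nat_lit 4) (nat_lit 428) (nat_lit 318) (nat_lit 274)) (XT.nd (nat_lit 78) (nat_lit 0) (nat_lit 0) (XT.lf (nat_lit 0) (nat_lit 250216127779) (nat_lit 152) (nat_lit 295559860893) (nat_lit 0) (nat_lit 248329464858) (nat_lit 1) (nat_lit 5) (nat_lit 3)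 (nat_lit 4) (nat_lit 1) (nat_lit 4) (nat_lit 429) (nat_lit 318) (nat_lit 273)) (XT.lf (nat_lit 0) (nat_lit 273118967774) (nat_lit 152) (nat_lit 313043583295) (nat_lit 0) (nat_lit 271227785100) (nat_lit 1) (nat_lit 5) (nat_lit 3) (nat_lit 4) (nat_lit 1) (nat_lit 4) (nat_lit 430) (nat_lit 318) (nat_lit 272))))) (XT.nd (nat_lit 156) (nat_lit 0) (nat_lit 0) (XT.nd (nat_lit 78) (nat_lit 0) (nat_lit 0) (XT.lf (nat_lit 0) (nat_lit 297841215735) (nat_lit 152) (nat_lit 331951972150) (nat_lit 0) (nat_lit 295945848104) (nat_lit 1) (nat_lit 5) (nat_lit 3) (nat_lit 4) (nat_lit 1) (nat_lit 4) (nat_lit 431) (nat_lit 318) (nat_lit 271)) (XT.lf (nat_lit 0) (nat_lit 324529373872) (nat_lit 152) (nat_lit 352397077169) (nat_lit 0) (nat_lit 322630131280) (nat_lit 1) (nat_lit 5) (nat_lit 3) (nat_lit 4) (nat_lit 1) (nat_lit 4) (nat_lit 432) (nat_lit 318) (nat_lit 270))) (XT.nd (nat_lit 78) (nat_lit 0) (nat_lit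 0) (XT.lf (nat_lit 0) (nat_lit 353341594233) (nat_lit 152) (nat_lit 374500054530) (nat_lit 0) (nat_lit 351438763715) (nat_lit 1) (nat_lit 5) (nat_lit 3) (nat_lit 4) (nat_lit 1) (nat_lit 4) (nat_lit 433) (nat_lit 318) (nat_lit 269)) (XT.nd (nat_lit 78) (nat_lit 0) (nat_lit 0) (XT.lf (nat_lit 0) (nat_lit 384448615902) (nat_lit 152) (nat_lit 398391884839) (nat_lit 0) (nat_lit 382542463230) (nat_lit 1) (nat_lit 5) (nat_lit 3) (nat_lit 4) (nat_lit 1) (nat_lit 4) (nat_lit 434) (nat_lit 318) (nat_lit 268)) (XT.lf (nat_lit 0) (nat_lit 418034776785) (nat_lit 152) (nat_lit 424214149313) (nat_lit 0) (nat_lit 416125548045) (nat_lit 1) (nat_lit 5) (nat_lit 3) (nat_lit 4) (nat_lit 1) (nat_lit 4) (nat_lit 435) (nat_lit 318) (nat_lit 267))))))) (XT.nd (nat_lit 780) (nat_lit 0) (nat_lit 0) (XT.nd (nat_lit 390) (nat_lit 0) (nat_lit 0) (XT.nd (nat_lit 156) (nat_lit 0) (nat_lit 0) (XT.nd (nat_lit 78) (nat_lit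 0) (nat_lit 0) (XT.lf (nat_lit 0) (nat_lit 454299105983) (nat_lit 152) (nat_lit 452119868778) (nat_lit 0) (nat_lit 452387029032) (nat_lit 1) (nat_lit 5) (nat_lit 3) (nat_lit 4) (nat_lit 1) (nat_lit 4) (nat_lit 436) (nat_lit 318) (nat_lit 266)) (XT.lf (nat_lit 0) (nat_lit 493456503226) (nat_lit 152) (nat_lit 482274410462) (nat_lit 0) (nat_lit 491541789042) (nat_lit 1) (nat_lit 5) (nat_lit 3) (nat_lit 4) (nat_lit 1) (nat_lit 4) (nat_lit 437) (nat_lit 318) (nat_lit 265))) (XT.nd (nat_lit 78) (nat_lit 0) (nat_lit 0) (XT.lf (nat_lit 0) (nat_lit 535739012348) (nat_lit 152) (nat_lit 514856467944) (nat_lit 0) (nat_lit 533821856282) (nat_lit 1) (nat_lit 5) (nat_lit 3) (nat_lit 4) (nat_lit 1) (nat_lit 4) (nat_lit 438) (nat_lit 318) (nat_lit 264)) (XT.nd (nat_lit 78) (nat_lit 0) (nat_lit 0) (XT.lf (nat_lit 0) (nat_lit 581397196367) (nat_lit 152) (nat_lit 550059120083) (nat_lit 0) (nat_lit 579477779299)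 (nat_lit 1) (nat_lit 5) (nat_lit 3) (nat_lit 4) (nat_lit 1) (nat_lit 4) (nat_lit 439) (nat_lit 318) (nat_lit 263)) (XT.lf (nat_lit 0) (nat_lit 630701622299) (nat_lit 152) (nat_lit 588090975189) (nat_lit 0) (nat_lit 628780111711) (nat_lit 1) (nat_lit 5) (nat_lit 3) (nat_lit 4) (nat_lit 1) (nat_lit 4) (nat_lit 440) (nat_lit 318) (nat_lit 262))))) (XT.nd (nat_lit 156) (nat_lit 0) (nat_lit 0) (XT.nd (nat_lit 78) (nat_lit 0) (nat_lit 0) (XT.lf (nat_lit 0) (nat_lit 683944464520) (nat_lit 152) (nat_lit 629177407217) (nat_lit 0) (nat_lit 682021015487) (nat_lit 1) (nat_lit 5) (nat_lit 3) (nat_lit 4) (nat_lit 1) (nat_lit 4) (nat_lit 441) (nat_lit 318) (nat_lit 261)) (XT.lf (nat_lit 0) (nat_lit 741441236169) (nat_lit 152) (nat_lit 673561891321) (nat_lit 0) (nat_lit 739515992280) (nat_lit 1) (nat_lit 5) (nat_lit 3) (nat_lit 4) (nat_lit 1) (nat_lit 4) (nat_lit 442) (nat_lit 318) (nat_lit 260))) (XT.nd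 (nat_lit 78) (nat_lit 0) (nat_lit 0) (XT.lf (nat_lit 0) (nat_lit 803532658856) (nat_lit 152) (nat_lit 721507446665) (nat_lit 0) (nat_lit 801605753063) (nat_lit 1) (nat_lit 5) (nat_lit 3) (nat_lit 4) (nat_lit 1) (nat_lit 4) (nat_lit 443) (nat_lit 318) (nat_lit 259)) (XT.nd (nat_lit 78) (nat_lit 0) (nat_lit 0) (XT.lf (nat_lit 0) (nat_lit 870586681752) (nat_lit 152) (nat_lit 773298195060) (nat_lit 0) (nat_lit 868658237159) (nat_lit 1) (nat_lit 5) (nat_lit 3) (nat_lit 4) (nat_lit 1) (nat_lit 4) (nat_lit 444) (nat_lit 318) (nat_lit 258)) (XT.lf (nat_lit 0) (nat_lit 943000662030) (nat_lit 152) (nat_lit 829241044642) (nat_lit 0) (nat_lit 941070792622) (nat_lit 1) (nat_lit 5) (nat_lit 3) (nat_lit 4) (nat_lit 1) (nat_lit 4) (nat_lit 445) (nat_lit 318) (nat_lit 257)))))) (XT.nd (nat_lit 390) (nat_lit 0) (nat_lit 0) (XT.nd (nat_lit 156) (nat_lit 0) (nat_lit 0) (XT.nd (nat_lit 78) (nat_lit 0) (nat_lit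 0) (XT.lf (nat_lit 0) (nat_lit 1021203719574) (nat_lit 152) (nat_lit 889667508596) (nat_lit 0) (nat_lit 1019272530893) (nat_lit 1) (nat_lit 5) (nat_lit 3) (nat_lit 4) (nat_lit 1) (nat_lit 4) (nat_lit 446) (nat_lit 318) (nat_lit 256)) (XT.lf (nat_lit 0) (nat_lit 1105659279909) (nat_lit 152) (nat_lit 954935669671) (nat_lit 0) (nat_lit 1103726869679) (nat_lit 1) (nat_lit 5) (nat_lit 3) (nat_lit 4) (nat_lit 1) (nat_lit 4) (nat_lit 447) (nat_lit 318) (nat_lit 255))) (XT.nd (nat_lit 78) (nat_lit 0) (nat_lit 0) (XT.lf (nat_lit 0) (nat_lit 1196867820429) (nat_lit 152) (nat_lit 1025432302154) (nat_lit 0) (nat_lit 1194934279135) (nat_lit 1) (nat_lit 5) (nat_lit 3) (nat_lit 4) (nat_lit 1) (nat_lit 4) (nat_lit 448) (nat_lit 318) (nat_lit 254)) (XT.nd (nat_lit 78) (nat_lit 0) (nat_lit 0) (XT.lf (nat_lit 0) (nat_lit 1295369836191) (nat_lit 152) (nat_lit 1101575163868) (nat_lit 0) (nat_lit 1293435247616)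 (nat_lit 1) (nat_lit 5) (nat_lit 3) (nat_lit 4) (nat_lit 1) (nat_lit 4) (nat_lit 449) (nat_lit 318) (nat_lit 253)) (XT.lf (nat_lit 0) (nat_lit 1401749042842) (nat_lit 152) (nat_lit 1183815471770) (nat_lit 0) (nat_lit 1399813484562) (nat_lit 1) (nat_lit 5) (nat_lit 3) (nat_lit 4) (nat_lit 1) (nat_lit 4) (nat_lit 450) (nat_lit 318) (nat_lit 252))))) (XT.nd (nat_lit 156) (nat_lit 0) (nat_lit 0) (XT.nd (nat_lit 78) (nat_lit 0) (nat_lit 0) (XT.lf (nat_lit 0) (nat_lit 1516635835682) (nat_lit 152) (nat_lit 1272640575834) (nat_lit 0) (nat_lit 1514699379527) (nat_lit 1) (nat_lit 5) (nat_lit 3) (nat_lit 4) (nat_lit 1) (nat_lit 4) (nat_lit 451) (nat_lit 318) (nat_lit 251)) (XT.lf (nat_lit 0) (nat_lit 1640711025335) (nat_lit 152) (nat_lit 1368576847047) (nat_lit 0) (nat_lit 1638773737814) (nat_lit 1) (nat_lit 5) (nat_lit 3) (nat_lit 4) (nat_lit 1) (nat_lit 4) (nat_lit 452) (nat_lit 318) (nat_lit 250)))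 (XT.nd (nat_lit 78) (nat_lit 0) (nat_lit 0) (XT.lf (nat_lit 0) (nat_lit 1774709872183) (nat_lit 152) (nat_lit 1472192796646) (nat_lit 0) (nat_lit 1772771814879) (nat_lit 1) (nat_lit 5) (nat_lit 3) (nat_lit 4) (nat_lit 1) (nat_lit 4) (nat_lit 453) (nat_lit 318) (nat_lit 249)) (XT.nd (nat_lit 78) (nat_lit 0) (nat_lit 0) (XT.lf (nat_lit 0) (nat_lit 1919426443468) (nat_lit 152) (nat_lit 1584102445072) (nat_lit 0) (nat_lit 1917487673402) (nat_lit 1) (nat_lit 5) (nat_lit 3) (nat_lit 4) (nat_lit 1) (nat_lit 4) (nat_lit 454) (nat_lit 318) (nat_lit 248)) (XT.lf (nat_lit 0) (nat_lit 2075718318871) (nat_lit 152) (nat_lit 1704968960612) (nat_lit 0) (nat_lit 2073778888840) (nat_lit 1) (nat_lit 5) (nat_lit 3) (nat_lit 4) (nat_lit 1) (nat_lit 4) (nat_lit 455) (nat_lit 318) (nat_lit 247))))))))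
noncomputable def xc40 : XT := (XT.nd (nat_lit 48438) (nat_lit 0) (nat_lit 0) (XT.nd (nat_lit 47658) (nat_lit 0) (nat_lit 152) (XT.nd (nat_lit 312) (nat_lit 0) (nat_lit 0) (XT.nd (nat_lit 156) (nat_lit 0) (nat_lit 0) (XT.nd (nat_lit 78) (nat_lit 0) (nat_lit 0) (XT.lf (nat_lit 0) (nat_lit 2244511672469) (nat_lit 152) (nat_lit 1835508589285) (nat_lit 0) (nat_lit 2242571631359) (nat_lit 1) (nat_lit 5) (nat_lit 3) (nat_lit 4) (nat_lit 1) (nat_lit 4) (nat_lit 456) (nat_lit 318) (nat_lit 246)) (XT.lf (nat_lit 0) (nat_lit 2426806761171) (nat_lit 152) (nat_lit 1976494899261) (nat_lit 0) (nat_lit 2424866154247) (nat_lit 1) (nat_lit 5) (nat_lit 3) (nat_lit 4) (nat_lit 1) (nat_lit 4) (nat_lit 457) (nat_lit 318) (nat_lit 245))) (XT.nd (nat_lit 78) (nat_lit 0) (nat_lit 0) (XT.lf (nat_lit 0) (nat_lit 2623683852170) (nat_lit 152) (nat_lit 2128763364968) (nat_lit 0) (nat_lit 2621742721346) (nat_lit 1)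 (nat_lit 5) (nat_lit 3) (nat_lit 4) (nat_lit 1) (nat_lit 4) (nat_lit 458) (nat_lit 318) (nat_lit 244)) (XT.lf (nat_lit 0) (nat_lit 2836309624525) (nat_lit 152) (nat_lit 2293216318056) (nat_lit 0) (nat_lit 2834368008606) (nat_lit 1) (nat_lit 5) (nat_lit 3) (nat_lit 4) (nat_lit 1) (nat_lit 4) (nat_lit 459) (nat_lit 318) (nat_lit 243)))) (XT.nd (nat_lit 47112) (nat_lit 0) (nat_lit 456) (XT.nd (nat_lit 47034) (nat_lit 0) (nat_lit 608) (XT.lf (nat_lit 0) (nat_lit 3065944082811) (nat_lit 152) (nat_lit 2470828294543) (nat_lit 0) (nat_lit 3064002017731) (nat_lit 1) (nat_lit 5) (nat_lit 3) (nat_lit 4) (nat_lit 1) (nat_lit 4) (nat_lit 460) (nat_lit 318) (nat_lit 242)) (XT.lf (nat_lit 0) (nat_lit 5266872577) (nat_lit 76) (nat_lit 3938251991) (nat_lit 76) (nat_lit 3938251991) (nat_lit 9) (nat_lit 4) (nat_lit 10) (nat_lit 5) (nat_lit 10) (nat_lit 4) (nat_lit 382) (nat_lit 319) (nat_lit 319))) (XT.nd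 (nat_lit 78) (nat_lit 152) (nat_lit 0) (XT.lf (nat_lit 0) (nat_lit 23446512451) (nat_lit 76) (nat_lit 2325245211) (nat_lit 76) (nat_lit 2128963982) (nat_lit 9) (nat_lit 4) (nat_lit 10) (nat_lit 5) (nat_lit 10) (nat_lit 4) (nat_lit 383) (nat_lit 319) (nat_lit 318)) (XT.nd (nat_lit 78) (nat_lit 0) (nat_lit 0) (XT.lf (nat_lit 0) (nat_lit 3835760216) (nat_lit 152) (nat_lit 22317591399) (nat_lit 0) (nat_lit 3485738821) (nat_lit 7) (nat_lit 5) (nat_lit 9) (nat_lit 4) (nat_lit 7) (nat_lit 4) (nat_lit 384) (nat_lit 319) (nat_lit 317)) (XT.lf (nat_lit 0) (nat_lit 10044166126) (nat_lit 152) (nat_lit 11939124941) (nat_lit 0) (nat_lit 9538330364) (nat_lit 7) (nat_lit 5) (nat_lit 9) (nat_lit 4) (nat_lit 7) (nat_lit 4) (nat_lit 385) (nat_lit 319) (nat_lit 316)))))) (XT.nd (nat_lit 390) (nat_lit 76) (nat_lit 0) (XT.nd (nat_lit 156) (nat_lit 152) (nat_lit 0) (XT.nd (nat_lit 78) (nat_lit 76) (nat_lit 0)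 (XT.lf (nat_lit 0) (nat_lit 16467927754) (nat_lit 152) (nat_lit 1291548593) (nat_lit 0) (nat_lit 15817819429) (nat_lit 7) (nat_lit 5) (nat_lit 9) (nat_lit 4) (nat_lit 7) (nat_lit 4) (nat_lit 386) (nat_lit 319) (nat_lit 315)) (XT.lf (nat_lit 0) (nat_lit 10198399646) (nat_lit 76) (nat_lit 13191983944) (nat_lit 76) (nat_lit 12408289913) (nat_lit 6) (nat_lit 4) (nat_lit 7) (nat_lit 5) (nat_lit 7) (nat_lit 4) (nat_lit 387) (nat_lit 319) (nat_lit 314))) (XT.nd (nat_lit 78) (nat_lit 152) (nat_lit 0) (XT.lf (nat_lit 0) (nat_lit 22174550208) (nat_lit 76) (nat_lit 8474035123) (nat_lit 76) (nat_lit 7566650624) (nat_lit 6) (nat_lit 4) (nat_lit 7) (nat_lit 5) (nat_lit 7) (nat_lit 4) (nat_lit 388) (nat_lit 319) (nat_lit 313)) (XT.nd (nat_lit 78) (nat_lit 152) (nat_lit 0) (XT.lf (nat_lit 0) (nat_lit 34639862210) (nat_lit 76) (nat_lit 3612984898) (nat_lit 76) (nat_lit 2591072187) (nat_lit 6) (nat_lit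 4) (nat_lit 7) (nat_lit 5) (nat_lit 7) (nat_lit 4) (nat_lit 389) (nat_lit 319) (nat_lit 312)) (XT.lf (nat_lit 0) (nat_lit 2557685319) (nat_lit 152) (nat_lit 39613455977) (nat_lit 0) (nat_lit 1513280364) (nat_lit 4) (nat_lit 5) (nat_lit 6) (nat_lit 4) (nat_lit 4) (nat_lit 4) (nat_lit 390) (nat_lit 319) (nat_lit 311))))) (XT.nd (nat_lit 156) (nat_lit 76) (nat_lit 0) (XT.nd (nat_lit 78) (nat_lit 0) (nat_lit 0) (XT.lf (nat_lit 0) (nat_lit 8024169743) (nat_lit 152) (nat_lit 31830119291) (nat_lit 0) (nat_lit 6888848601) (nat_lit 4) (nat_lit 5) (nat_lit 6) (nat_lit 4) (nat_lit 4) (nat_lit 4) (nat_lit 391) (nat_lit 319) (nat_lit 310)) (XT.lf (nat_lit 0) (nat_lit 13722354278) (nat_lit 152) (nat_lit 23837815351) (nat_lit 0) (nat_lit 12502851482) (nat_lit 4) (nat_lit 5) (nat_lit 6) (nat_lit 4) (nat_lit 4) (nat_lit 4) (nat_lit 392) (nat_lit 319) (nat_lit 309))) (XT.nd (nat_lit 78) (nat_lit 76) (nat_lit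 0) (XT.lf (nat_lit 0) (nat_lit 19686005943) (nat_lit 152) (nat_lit 15589182358) (nat_lit 0) (nat_lit 18388557171) (nat_lit 4) (nat_lit 5) (nat_lit 6) (nat_lit 4) (nat_lit 4) (nat_lit 4) (nat_lit 393) (nat_lit 319) (nat_lit 308)) (XT.nd (nat_lit 78) (nat_lit 76) (nat_lit 0) (XT.lf (nat_lit 0) (nat_lit 25950464896) (nat_lit 152) (nat_lit 7035339522) (nat_lit 0) (nat_lit 24580843923) (nat_lit 4) (nat_lit 5) (nat_lit 6) (nat_lit 4) (nat_lit 4) (nat_lit 4) (nat_lit 394) (nat_lit 319) (nat_lit 307)) (XT.lf (nat_lit 0) (nat_lit 1973105312) (nat_lit 76) (nat_lit 30627201774) (nat_lit 76) (nat_lit 29190754690) (nat_lit 3) (nat_lit 4) (nat_lit 4) (nat_lit 5) (nat_lit 4) (nat_lit 4) (nat_lit 395) (nat_lit 319) (nat_lit 306))))))) (XT.nd (nat_lit 702) (nat_lit 152) (nat_lit 0) (XT.nd (nat_lit 312) (nat_lit 0) (nat_lit 0) (XT.nd (nat_lit 156) (nat_lit 0) (nat_lit 0) (XT.nd (nat_lit 78) (nat_lit 0)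 (nat_lit 0) (XT.lf (nat_lit 0) (nat_lit 11782237712) (nat_lit 76) (nat_lit 28033423481) (nat_lit 76) (nat_lit 26535100368) (nat_lit 3) (nat_lit 4) (nat_lit 4) (nat_lit 5) (nat_lit 4) (nat_lit 4) (nat_lit 396) (nat_lit 319) (nat_lit 305)) (XT.lf (nat_lit 0) (nat_lit 22079717356) (nat_lit 76) (nat_lit 25381457652) (nat_lit 76) (nat_lit 23825841919) (nat_lit 3) (nat_lit 4) (nat_lit 4) (nat_lit 5) (nat_lit 4) (nat_lit 4) (nat_lit 397) (nat_lit 319) (nat_lit 304))) (XT.nd (nat_lit 78) (nat_lit 0) (nat_lit 0) (XT.lf (nat_lit 0) (nat_lit 32926566345) (nat_lit 76) (nat_lit 22655588934) (nat_lit 76) (nat_lit 21046924479) (nat_lit 3) (nat_lit 4) (nat_lit 4) (nat_lit 5) (nat_lit 4) (nat_lit 4) (nat_lit 398) (nat_lit 319) (nat_lit 303)) (XT.lf (nat_lit 0) (nat_lit 44387062305) (nat_lit 76) (nat_lit 19839664030) (nat_lit 76) (nat_lit 18181880388) (nat_lit 3) (nat_lit 4) (nat_lit 4) (nat_lit 5) (nat_lit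 4) (nat_lit 4) (nat_lit 399) (nat_lit 319) (nat_lit 302)))) (XT.nd (nat_lit 156) (nat_lit 0) (nat_lit 0) (XT.nd (nat_lit 78) (nat_lit 0) (nat_lit 0) (XT.lf (nat_lit 0) (nat_lit 56529119284) (nat_lit 76) (nat_lit 16916995979) (nat_lit 76) (nat_lit 15213731608) (nat_lit 3) (nat_lit 4) (nat_lit 4) (nat_lit 5) (nat_lit 4) (nat_lit 4) (nat_lit 400) (nat_lit 319) (nat_lit 301)) (XT.lf (nat_lit 0) (nat_lit 69424690213) (nat_lit 76) (nat_lit 13870265265) (nat_lit 76) (nat_lit 12124889109) (nat_lit 3) (nat_lit 4) (nat_lit 4) (nat_lit 5) (nat_lit 4) (nat_lit 4) (nat_lit 401) (nat_lit 319) (nat_lit 300))) (XT.nd (nat_lit 78) (nat_lit 0) (nat_lit 0) (XT.lf (nat_lit 0) (nat_lit 83150193290) (nat_lit 76) (nat_lit 10681417189) (nat_lit 76) (nat_lit 8897048639) (nat_lit 3) (nat_lit 4) (nat_lit 4) (nat_lit 5) (nat_lit 4) (nat_lit 4) (nat_lit 402) (nat_lit 319) (nat_lit 299)) (XT.nd (nat_lit 78) (nat_lit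 0) (nat_lit 0) (XT.lf (nat_lit 0) (nat_lit 97786964830) (nat_lit 76) (nat_lit 7331554872) (nat_lit 76) (nat_lit 5511082254) (nat_lit 3) (nat_lit 4) (nat_lit 4) (nat_lit 5) (nat_lit 4) (nat_lit 4) (nat_lit 403) (nat_lit 319) (nat_lit 298)) (XT.lf (nat_lit 0) (nat_lit 113421741256) (nat_lit 76) (nat_lit 3800827280) (nat_lit 76) (nat_lit 1946924968) (nat_lit 3) (nat_lit 4) (nat_lit 4) (nat_lit 5) (nat_lit 4) (nat_lit 4) (nat_lit 404) (nat_lit 319) (nat_lit 297)))))) (XT.nd (nat_lit 390) (nat_lit 0) (nat_lit 0) (XT.nd (nat_lit 156) (nat_lit 0) (nat_lit 0) (XT.nd (nat_lit 78) (nat_lit 0) (nat_lit 0) (XT.lf (nat_lit 0) (nat_lit 1769438997) (nat_lit 152) (nat_lit 126598303027) (nat_lit 0) (nat_lit 24202208) (nat_lit 1) (nat_lit 5) (nat_lit 3) (nat_lit 4) (nat_lit 1) (nat_lit 4) (nat_lit 405) (nat_lit 319) (nat_lit 296)) (XT.lf (nat_lit 0) (nat_lit 5856596918) (nat_lit 152) (nat_lit 128392438968)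 (nat_lit 0) (nat_lit 4084822561) (nat_lit 1) (nat_lit 5) (nat_lit 3) (nat_lit 4) (nat_lit 1) (nat_lit 4) (nat_lit 406) (nat_lit 319) (nat_lit 295))) (XT.nd (nat_lit 78) (nat_lit 0) (nat_lit 0) (XT.lf (nat_lit 0) (nat_lit 10195459809) (nat_lit 152) (nat_lit 130482579827) (nat_lit 0) (nat_lit 8399113629) (nat_lit 1) (nat_lit 5) (nat_lit 3) (nat_lit 4) (nat_lit 1) (nat_lit 4) (nat_lit 407) (nat_lit 319) (nat_lit 294)) (XT.nd (nat_lit 78) (nat_lit 0) (nat_lit 0) (XT.lf (nat_lit 0) (nat_lit 14811739448) (nat_lit 152) (nat_lit 132881111624) (nat_lit 0) (nat_lit 12992641581) (nat_lit 1) (nat_lit 5) (nat_lit 3) (nat_lit 4) (nat_lit 1) (nat_lit 4) (nat_lit 408) (nat_lit 319) (nat_lit 293)) (XT.lf (nat_lit 0) (nat_lit 19732791567) (nat_lit 152) (nat_lit 135602247881) (nat_lit 0) (nat_lit 17892627323) (nat_lit 1) (nat_lit 5) (nat_lit 3) (nat_lit 4) (nat_lit 1) (nat_lit 4) (nat_lit 409) (nat_lit 319)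 (nat_lit 292))))) (XT.nd (nat_lit 156) (nat_lit 0) (nat_lit 0) (XT.nd (nat_lit 78) (nat_lit 0) (nat_lit 0) (XT.lf (nat_lit 0) (nat_lit 24987777957) (nat_lit 152) (nat_lit 138662113849) (nat_lit 0) (nat_lit 23128107808) (nat_lit 1) (nat_lit 5) (nat_lit 3) (nat_lit 4) (nat_lit 1) (nat_lit 4) (nat_lit 410) (nat_lit 319) (nat_lit 291)) (XT.lf (nat_lit 0) (nat_lit 30607839278) (nat_lit 152) (nat_lit 142078842068) (nat_lit 0) (nat_lit 28730108106) (nat_lit 1) (nat_lit 5) (nat_lit 3) (nat_lit 4) (nat_lit 1) (nat_lit 4) (nat_lit 411) (nat_lit 319) (nat_lit 290))) (XT.nd (nat_lit 78) (nat_lit 0) (nat_lit 0) (XT.lf (nat_lit 0) (nat_lit 36626279596) (nat_lit 152) (nat_lit 145872679816) (nat_lit 0) (nat_lit 34731825254) (nat_lit 1) (nat_lit 5) (nat_lit 3) (nat_lit 4) (nat_lit 1) (nat_lit 4) (nat_lit 412) (nat_lit 319) (nat_lit 289)) (XT.nd (nat_lit 78) (nat_lit 0) (nat_lit 0) (XT.lf (nat_lit 0) (nat_lit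 43078763743) (nat_lit 152) (nat_lit 150066109094) (nat_lit 0) (nat_lit 41168824986) (nat_lit 1) (nat_lit 5) (nat_lit 3) (nat_lit 4) (nat_lit 1) (nat_lit 4) (nat_lit 413) (nat_lit 319) (nat_lit 288)) (XT.lf (nat_lit 0) (nat_lit 50003528663) (nat_lit 152) (nat_lit 154683979855) (nat_lit 0) (nat_lit 48079252483) (nat_lit 1) (nat_lit 5) (nat_lit 3) (nat_lit 4) (nat_lit 1) (nat_lit 4) (nat_lit 414) (nat_lit 319) (nat_lit 287))))))))
noncomputable def xc41 : XT := (XT.nd (nat_lit 1482) (nat_lit 0) (nat_lit 0) (XT.nd (nat_lit 702) (nat_lit 0) (nat_lit 0) (XT.nd (nat_lit 312) (nat_lit 0) (nat_lit 0) (XT.nd (nat_lit 156) (nat_lit 0) (nat_lit 0) (XT.nd (nat_lit 78) (nat_lit 0) (nat_lit 0) (XT.lf (nat_lit 0) (nat_lit 57441609999) (nat_lit 152) (nat_lit 159753657256) (nat_lit 0) (nat_lit 55504058428) (nat_lit 1) (nat_lit 5) (nat_lit 3) (nat_lit 4) (nat_lit 1) (nat_lit 4) (nat_lit 415) (nat_lit 319)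 (nat_lit 286)) (XT.lf (nat_lit 0) (nat_lit 65437085271) (nat_lit 152) (nat_lit 165305183833) (nat_lit 0) (nat_lit 63487241670) (nat_lit 1) (nat_lit 5) (nat_lit 3) (nat_lit 4) (nat_lit 1) (nat_lit 4) (nat_lit 416) (nat_lit 319) (nat_lit 285))) (XT.nd (nat_lit 78) (nat_lit 0) (nat_lit 0) (XT.lf (nat_lit 0) (nat_lit 74037335071) (nat_lit 152) (nat_lit 171371457519) (nat_lit 0) (nat_lit 72076109963) (nat_lit 1) (nat_lit 5) (nat_lit 3) (nat_lit 4) (nat_lit 1) (nat_lit 4) (nat_lit 417) (nat_lit 319) (nat_lit 284)) (XT.lf (nat_lit 0) (nat_lit 83293323845) (nat_lit 152) (nat_lit 177988426603) (nat_lit 0) (nat_lit 81321560303) (nat_lit 1) (nat_lit 5) (nat_lit 3) (nat_lit 4) (nat_lit 1) (nat_lit 4) (nat_lit 418) (nat_lit 319) (nat_lit 283)))) (XT.nd (nat_lit 156) (nat_lit 0) (nat_lit 0) (XT.nd (nat_lit 78) (nat_lit 0) (nat_lit 0) (XT.lf (nat_lit 0) (nat_lit 93259901895) (nat_lit 152) (nat_lit 185195302755)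 (nat_lit 0) (nat_lit 91278380545) (nat_lit 1) (nat_lit 5) (nat_lit 3) (nat_lit 4) (nat_lit 1) (nat_lit 4) (nat_lit 419) (nat_lit 319) (nat_lit 282)) (XT.lf (nat_lit 0) (nat_lit 103996130425) (nat_lit 152) (nat_lit 193034793388) (nat_lit 0) (nat_lit 102005574067) (nat_lit 1) (nat_lit 5) (nat_lit 3) (nat_lit 4) (nat_lit 1) (nat_lit 4) (nat_lit 420) (nat_lit 319) (nat_lit 281))) (XT.nd (nat_lit 78) (nat_lit 0) (nat_lit 0) (XT.lf (nat_lit 0) (nat_lit 115565631530) (nat_lit 152) (nat_lit 201553354742) (nat_lit 0) (nat_lit 113566709423) (nat_lit 1) (nat_lit 5) (nat_lit 3) (nat_lit 4) (nat_lit 1) (nat_lit 4) (nat_lit 421) (nat_lit 319) (nat_lit 280)) (XT.nd (nat_lit 78) (nat_lit 0) (nat_lit 0) (XT.lf (nat_lit 0) (nat_lit 128036965217) (nat_lit 152) (nat_lit 210801467183) (nat_lit 0) (nat_lit 126030297046) (nat_lit 1) (nat_lit 5) (nat_lit 3) (nat_lit 4) (nat_lit 1) (nat_lit 4) (nat_lit 422) (nat_lit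 319) (nat_lit 279)) (XT.lf (nat_lit 0) (nat_lit 141484035684) (nat_lit 152) (nat_lit 220833934338) (nat_lit 0) (nat_lit 139470195233) (nat_lit 1) (nat_lit 5) (nat_lit 3) (nat_lit 4) (nat_lit 1) (nat_lit 4) (nat_lit 423) (nat_lit 319) (nat_lit 278)))))) (XT.nd (nat_lit 390) (nat_lit 0) (nat_lit 0) (XT.nd (nat_lit 156) (nat_lit 0) (nat_lit 0) (XT.nd (nat_lit 78) (nat_lit 0) (nat_lit 0) (XT.lf (nat_lit 0) (nat_lit 155986529276) (nat_lit 152) (nat_lit 231710207865) (nat_lit 0) (nat_lit 153966047824) (nat_lit 1) (nat_lit 5) (nat_lit 3) (nat_lit 4) (nat_lit 1) (nat_lit 4) (nat_lit 424) (nat_lit 319) (nat_lit 277)) (XT.lf (nat_lit 0) (nat_lit 171630386695) (nat_lit 152) (nat_lit 243494739755) (nat_lit 0) (nat_lit 169603756169) (nat_lit 1) (nat_lit 5) (nat_lit 3) (nat_lit 4) (nat_lit 1) (nat_lit 4) (nat_lit 425) (nat_lit 319) (nat_lit 276))) (XT.nd (nat_lit 78) (nat_lit 0) (nat_lit 0) (XT.lf (nat_lit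 0) (nat_lit 188508312282) (nat_lit 152) (nat_lit 256257364272) (nat_lit 0) (nat_lit 186475988168) (nat_lit 1) (nat_lit 5) (nat_lit 3) (nat_lit 4) (nat_lit 1) (nat_lit 4) (nat_lit 426) (nat_lit 319) (nat_lit 275)) (XT.nd (nat_lit 78) (nat_lit 0) (nat_lit 0) (XT.lf (nat_lit 0) (nat_lit 206720323373) (nat_lit 152) (nat_lit 270073711783) (nat_lit 0) (nat_lit 204682727419) (nat_lit 1) (nat_lit 5) (nat_lit 3) (nat_lit 4) (nat_lit 1) (nat_lit 4) (nat_lit 427) (nat_lit 319) (nat_lit 274)) (XT.lf (nat_lit 0) (nat_lit 226374342998) (nat_lit 152) (nat_lit 285025656939) (nat_lit 0) (nat_lit 224331865709) (nat_lit 1) (nat_lit 5) (nat_lit 3) (nat_lit 4) (nat_lit 1) (nat_lit 4) (nat_lit 428) (nat_lit 319) (nat_lit 273))))) (XT.nd (nat_lit 156) (nat_lit 0) (nat_lit 0) (XT.nd (nat_lit 78) (nat_lit 0) (nat_lit 0) (XT.lf (nat_lit 0) (nat_lit 247586839419) (nat_lit 152) (nat_lit 301201803861) (nat_lit 0)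 (nat_lit 245539842377) (nat_lit 1) (nat_lit 5) (nat_lit 3) (nat_lit 4) (nat_lit 1) (nat_lit 4) (nat_lit 429) (nat_lit 319) (nat_lit 272)) (XT.lf (nat_lit 0) (nat_lit 270483516321) (nat_lit 152) (nat_lit 318698011197) (nat_lit 0) (nat_lit 268432334322) (nat_lit 1) (nat_lit 5) (nat_lit 3) (nat_lit 4) (nat_lit 1) (nat_lit 4) (nat_lit 430) (nat_lit 319) (nat_lit 271))) (XT.nd (nat_lit 78) (nat_lit 0) (nat_lit 0) (XT.lf (nat_lit 0) (nat_lit 295200057714) (nat_lit 152) (nat_lit 337617960174) (nat_lit 0) (nat_lit 293145000755) (nat_lit 1) (nat_lit 5) (nat_lit 3) (nat_lit 4) (nat_lit 1) (nat_lit 4) (nat_lit 431) (nat_lit 319) (nat_lit 270)) (XT.nd (nat_lit 78) (nat_lit 0) (nat_lit 0) (XT.lf (nat_lit 0) (nat_lit 321882931992) (nat_lit 152) (nat_lit 358073769011) (nat_lit 0) (nat_lit 319824287107) (nat_lit 1) (nat_lit 5) (nat_lit 3) (nat_lit 4) (nat_lit 1) (nat_lit 4) (nat_lit 432) (nat_lit 319)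 (nat_lit 269)) (XT.lf (nat_lit 0) (nat_lit 350690259891) (nat_lit 152) (nat_lit 380186657313) (nat_lit 0) (nat_lit 348628292852) (nat_lit 1) (nat_lit 5) (nat_lit 3) (nat_lit 4) (nat_lit 1) (nat_lit 4) (nat_lit 433) (nat_lit 319) (nat_lit 268))))))) (XT.nd (nat_lit 780) (nat_lit 0) (nat_lit 0) (XT.nd (nat_lit 390) (nat_lit 0) (nat_lit 0) (XT.nd (nat_lit 156) (nat_lit 0) (nat_lit 0) (XT.nd (nat_lit 78) (nat_lit 0) (nat_lit 0) (XT.lf (nat_lit 0) (nat_lit 381792751503) (nat_lit 152) (nat_lit 404087664421) (nat_lit 0) (nat_lit 379727708396) (nat_lit 1) (nat_lit 5) (nat_lit 3) (nat_lit 4) (nat_lit 1) (nat_lit 4) (nat_lit 434) (nat_lit 319) (nat_lit 267)) (XT.lf (nat_lit 0) (nat_lit 415374717888) (nat_lit 152) (nat_lit 429918425930) (nat_lit 0) (nat_lit 413306826570) (nat_lit 1) (nat_lit 5) (nat_lit 3) (nat_lit 4) (nat_lit 1) (nat_lit 4) (nat_lit 435) (nat_lit 319) (nat_lit 266))) (XT.nd (nat_lit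 78) (nat_lit 0) (nat_lit 0) (XT.lf (nat_lit 0) (nat_lit 451635163292) (nat_lit 152) (nat_lit 457832013021) (nat_lit 0) (nat_lit 449564634741) (nat_lit 1) (nat_lit 5) (nat_lit 3) (nat_lit 4) (nat_lit 1) (nat_lit 4) (nat_lit 436) (nat_lit 319) (nat_lit 265)) (XT.nd (nat_lit 78) (nat_lit 0) (nat_lit 0) (XT.lf (nat_lit 0) (nat_lit 490788964429) (nat_lit 152) (nat_lit 487993839543) (nat_lit 0) (nat_lit 488715993996) (nat_lit 1) (nat_lit 5) (nat_lit 3) (nat_lit 4) (nat_lit 1) (nat_lit 4) (nat_lit 437) (nat_lit 319) (nat_lit 264)) (XT.lf (nat_lit 0) (nat_lit 533068143824) (nat_lit 152) (nat_lit 520582642245) (nat_lit 0) (nat_lit 530992912389) (nat_lit 1) (nat_lit 5) (nat_lit 3) (nat_lit 4) (nat_lit 1) (nat_lit 4) (nat_lit 438) (nat_lit 319) (nat_lit 263))))) (XT.nd (nat_lit 156) (nat_lit 0) (nat_lit 0) (XT.nd (nat_lit 78) (nat_lit 0) (nat_lit 0) (XT.lf (nat_lit 0) (nat_lit 578723244762) (nat_lit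 152) (nat_lit 555791539959) (nat_lit 0) (nat_lit 576645919806) (nat_lit 1) (nat_lit 5) (nat_lit 3) (nat_lit 4) (nat_lit 1) (nat_lit 4) (nat_lit 439) (nat_lit 319) (nat_lit 262)) (XT.lf (nat_lit 0) (nat_lit 628024815989) (nat_lit 152) (nat_lit 593829178005) (nat_lit 0) (nat_lit 625945552589) (nat_lit 1) (nat_lit 5) (nat_lit 3) (nat_lit 4) (nat_lit 1) (nat_lit 4) (nat_lit 440) (nat_lit 319) (nat_lit 261))) (XT.nd (nat_lit 78) (nat_lit 0) (nat_lit 0) (XT.lf (nat_lit 0) (nat_lit 681265014965) (nat_lit 152) (nat_lit 634920964607) (nat_lit 0) (nat_lit 679183956709) (nat_lit 1) (nat_lit 5) (nat_lit 3) (nat_lit 4) (nat_lit 1) (nat_lit 4) (nat_lit 441) (nat_lit 319) (nat_lit 260)) (XT.nd (nat_lit 78) (nat_lit 0) (nat_lit 0) (XT.lf (nat_lit 0) (nat_lit 738759339165) (nat_lit 152) (nat_lit 679310406649) (nat_lit 0) (nat_lit 736676619005) (nat_lit 1) (nat_lit 5) (nat_lit 3) (nat_lit 4) (nat_lit 1)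 (nat_lit 4) (nat_lit 442) (nat_lit 319) (nat_lit 259)) (XT.lf (nat_lit 0) (nat_lit 800848495696) (nat_lit 152) (nat_lit 727260552677) (nat_lit 0) (nat_lit 798764236735) (nat_lit 1) (nat_lit 5) (nat_lit 3) (nat_lit 4) (nat_lit 1) (nat_lit 4) (nat_lit 443) (nat_lit 319) (nat_lit 258)))))) (XT.nd (nat_lit 390) (nat_lit 0) (nat_lit 0) (XT.nd (nat_lit 156) (nat_lit 0) (nat_lit 0) (XT.nd (nat_lit 78) (nat_lit 0) (nat_lit 0) (XT.lf (nat_lit 0) (nat_lit 867900420299) (nat_lit 152) (nat_lit 779055551704) (nat_lit 0) (nat_lit 865814736523) (nat_lit 1) (nat_lit 5) (nat_lit 3) (nat_lit 4) (nat_lit 1) (nat_lit 4) (nat_lit 444) (nat_lit 319) (nat_lit 257)) (XT.lf (nat_lit 0) (nat_lit 940312457713) (nat_lit 152) (nat_lit 835002337059) (nat_lit 0) (nat_lit 938225454665) (nat_lit 1) (nat_lit 5) (nat_lit 3) (nat_lit 4) (nat_lit 1) (nat_lit 4) (nat_lit 445) (nat_lit 319) (nat_lit 256))) (XT.nd (nat_lit 78)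 (nat_lit 0) (nat_lit 0) (XT.lf (nat_lit 0) (nat_lit 1018513716308) (nat_lit 152) (nat_lit 895432445245) (nat_lit 0) (nat_lit 1016425491711) (nat_lit 1) (nat_lit 5) (nat_lit 3) (nat_lit 4) (nat_lit 1) (nat_lit 4) (nat_lit 446) (nat_lit 319) (nat_lit 255)) (XT.nd (nat_lit 78) (nat_lit 0) (nat_lit 0) (XT.lf (nat_lit 0) (nat_lit 1102967610950) (nat_lit 152) (nat_lit 960703980610) (nat_lit 0) (nat_lit 1100878255289) (nat_lit 1) (nat_lit 5) (nat_lit 3) (nat_lit 4) (nat_lit 1) (nat_lit 4) (nat_lit 447) (nat_lit 319) (nat_lit 254)) (XT.lf (nat_lit 0) (nat_lit 1194174609163) (nat_lit 152) (nat_lit 1031203737435) (nat_lit 0) (nat_lit 1192084206220) (nat_lit 1) (nat_lit 5) (nat_lit 3) (nat_lit 4) (nat_lit 1) (nat_lit 4) (nat_lit 448) (nat_lit 319) (nat_lit 253))))) (XT.nd (nat_lit 156) (nat_lit 0) (nat_lit 0) (XT.nd (nat_lit 78) (nat_lit 0) (nat_lit 0) (XT.lf (nat_lit 0) (nat_lit 1292675196862) (nat_lit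 152) (nat_lit 1107349492058) (nat_lit 0) (nat_lit 1290583824214) (nat_lit 1) (nat_lit 5) (nat_lit 3) (nat_lit 4) (nat_lit 1) (nat_lit 4) (nat_lit 449) (nat_lit 319) (nat_lit 252)) (XT.lf (nat_lit 0) (nat_lit 1399053081232) (nat_lit 152) (nat_lit 1189592478581) (nat_lit 0) (nat_lit 1396960810710) (nat_lit 1) (nat_lit 5) (nat_lit 3) (nat_lit 4) (nat_lit 1) (nat_lit 4) (nat_lit 450) (nat_lit 319) (nat_lit 251))) (XT.nd (nat_lit 78) (nat_lit 0) (nat_lit 0) (XT.lf (nat_lit 0) (nat_lit 1513938649738) (nat_lit 152) (nat_lit 1278420062849) (nat_lit 0) (nat_lit 1511845547850) (nat_lit 1) (nat_lit 5) (nat_lit 3) (nat_lit 4) (nat_lit 1) (nat_lit 4) (nat_lit 451) (nat_lit 319) (nat_lit 250)) (XT.nd (nat_lit 78) (nat_lit 0) (nat_lit 0) (XT.lf (nat_lit 0) (nat_lit 1638012705748) (nat_lit 152) (nat_lit 1374358630546) (nat_lit 0) (nat_lit 1635918834077) (nat_lit 1) (nat_lit 5) (nat_lit 3) (nat_lit 4)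 (nat_lit 1) (nat_lit 4) (nat_lit 452) (nat_lit 319) (nat_lit 249)) (XT.lf (nat_lit 0) (nat_lit 1772010502928) (nat_lit 152) (nat_lit 1477976706519) (nat_lit 0) (nat_lit 1769915918494) (nat_lit 1) (nat_lit 5) (nat_lit 3) (nat_lit 4) (nat_lit 1) (nat_lit 4) (nat_lit 453) (nat_lit 319) (nat_lit 248))))))))
noncomputable def xc42 : XT := (XT.nd (nat_lit 48282) (nat_lit 0) (nat_lit 0) (XT.nd (nat_lit 47502) (nat_lit 0) (nat_lit 228) (XT.nd (nat_lit 312) (nat_lit 0) (nat_lit 0) (XT.nd (nat_lit 156) (nat_lit 0) (nat_lit 0) (XT.nd (nat_lit 78) (nat_lit 0) (nat_lit 0) (XT.lf (nat_lit 0) (nat_lit 1916726102297) (nat_lit 152) (nat_lit 1589888323811) (nat_lit 0) (nat_lit 1914630857898) (nat_lit 1) (nat_lit 5) (nat_lit 3) (nat_lit 4) (nat_lit 1) (nat_lit 4) (nat_lit 454) (nat_lit 319) (nat_lit 247)) (XT.lf (nat_lit 0) (nat_lit 2073017077778) (nat_lit 152) (nat_lit 1710756662375) (nat_lit 0) (nat_lit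 2070921222301) (nat_lit 1) (nat_lit 5) (nat_lit 3) (nat_lit 4) (nat_lit 1) (nat_lit 4) (nat_lit 455) (nat_lit 319) (nat_lit 246))) (XT.nd (nat_lit 78) (nat_lit 0) (nat_lit 0) (XT.lf (nat_lit 0) (nat_lit 2241809598115) (nat_lit 152) (nat_lit 1841297979033) (nat_lit 0) (nat_lit 2239713176824) (nat_lit 1) (nat_lit 5) (nat_lit 3) (nat_lit 4) (nat_lit 1) (nat_lit 4) (nat_lit 456) (nat_lit 319) (nat_lit 245)) (XT.lf (nat_lit 0) (nat_lit 2424103915279) (nat_lit 152) (nat_lit 1982285851958) (nat_lit 0) (nat_lit 2422006970087) (nat_lit 1) (nat_lit 5) (nat_lit 3) (nat_lit 4) (nat_lit 1) (nat_lit 4) (nat_lit 457) (nat_lit 319) (nat_lit 244)))) (XT.nd (nat_lit 156) (nat_lit 0) (nat_lit 0) (XT.nd (nat_lit 78) (nat_lit 0) (nat_lit 0) (XT.lf (nat_lit 0) (nat_lit 2620980291891) (nat_lit 152) (nat_lit 2134555764840) (nat_lit 0) (nat_lit 2618882861605) (nat_lit 1) (nat_lit 5) (nat_lit 3) (nat_lit 4) (nat_lit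 1) (nat_lit 4) (nat_lit 458) (nat_lit 319) (nat_lit 243)) (XT.lf (nat_lit 0) (nat_lit 2833605402776) (nat_lit 152) (nat_lit 2299010057905) (nat_lit 0) (nat_lit 2831507523329) (nat_lit 1) (nat_lit 5) (nat_lit 3) (nat_lit 4) (nat_lit 1) (nat_lit 4) (nat_lit 459) (nat_lit 319) (nat_lit 242))) (XT.nd (nat_lit 46878) (nat_lit 0) (nat_lit 684) (XT.lf (nat_lit 0) (nat_lit 3063239248591) (nat_lit 152) (nat_lit 2476623275111) (nat_lit 0) (nat_lit 3061140953254) (nat_lit 1) (nat_lit 5) (nat_lit 3) (nat_lit 4) (nat_lit 1) (nat_lit 4) (nat_lit 460) (nat_lit 319) (nat_lit 241)) (XT.nd (nat_lit 78) (nat_lit 0) (nat_lit 0) (XT.lf (nat_lit 0) (nat_lit 2551230035) (nat_lit 152) (nat_lit 6617594792) (nat_lit 0) (nat_lit 2551230035) (nat_lit 10) (nat_lit 5) (nat_lit 12) (nat_lit 4) (nat_lit 10) (nat_lit 4) (nat_lit 380) (nat_lit 320) (nat_lit 320)) (XT.lf (nat_lit 0) (nat_lit 11556932304) (nat_lit 152) (nat_lit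 1910428817) (nat_lit 0) (nat_lit 11344948577) (nat_lit 10) (nat_lit 5) (nat_lit 12) (nat_lit 4) (nat_lit 10) (nat_lit 4) (nat_lit 381) (nat_lit 320) (nat_lit 319)))))) (XT.nd (nat_lit 390) (nat_lit 228) (nat_lit 0) (XT.nd (nat_lit 156) (nat_lit 152) (nat_lit 0) (XT.nd (nat_lit 78) (nat_lit 0) (nat_lit 0) (XT.lf (nat_lit 0) (nat_lit 10228173821) (nat_lit 76) (nat_lit 8239611643) (nat_lit 76) (nat_lit 7831346688) (nat_lit 9) (nat_lit 4) (nat_lit 10) (nat_lit 5) (nat_lit 10) (nat_lit 4) (nat_lit 382) (nat_lit 320) (nat_lit 318)) (XT.lf (nat_lit 0) (nat_lit 22858004697) (nat_lit 76) (nat_lit 2828282438) (nat_lit 76) (nat_lit 2238275605) (nat_lit 9) (nat_lit 4) (nat_lit 10) (nat_lit 5) (nat_lit 10) (nat_lit 4) (nat_lit 383) (nat_lit 320) (nat_lit 317))) (XT.nd (nat_lit 78) (nat_lit 0) (nat_lit 0) (XT.lf (nat_lit 0) (nat_lit 3557845265) (nat_lit 152) (nat_lit 23263512480) (nat_lit 0) (nat_lit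 2855728274) (nat_lit 7) (nat_lit 5) (nat_lit 9) (nat_lit 4) (nat_lit 7) (nat_lit 4) (nat_lit 384) (nat_lit 320) (nat_lit 316)) (XT.nd (nat_lit 78) (nat_lit 0) (nat_lit 0) (XT.lf (nat_lit 0) (nat_lit 9631002735) (nat_lit 152) (nat_lit 13154838054) (nat_lit 0) (nat_lit 8784613182) (nat_lit 7) (nat_lit 5) (nat_lit 9) (nat_lit 4) (nat_lit 7) (nat_lit 4) (nat_lit 385) (nat_lit 320) (nat_lit 315)) (XT.lf (nat_lit 0) (nat_lit 15929534326) (nat_lit 152) (nat_lit 2757069143) (nat_lit 0) (nat_lit 14949559066) (nat_lit 7) (nat_lit 5) (nat_lit 9) (nat_lit 4) (nat_lit 7) (nat_lit 4) (nat_lit 386) (nat_lit 320) (nat_lit 314))))) (XT.nd (nat_lit 156) (nat_lit 152) (nat_lit 0) (XT.nd (nat_lit 78) (nat_lit 0) (nat_lit 0) (XT.lf (nat_lit 0) (nat_lit 8412224184) (nat_lit 76) (nat_lit 14280854678) (nat_lit 76) (nat_lit 13177188950) (nat_lit 6) (nat_lit 4) (nat_lit 7) (nat_lit 5) (nat_lit 7) (nat_lit 4) (nat_lit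 387) (nat_lit 320) (nat_lit 313)) (XT.lf (nat_lit 0) (nat_lit 20162927339) (nat_lit 76) (nat_lit 9675566675) (nat_lit 76) (nat_lit 8457372736) (nat_lit 6) (nat_lit 4) (nat_lit 7) (nat_lit 5) (nat_lit 7) (nat_lit 4) (nat_lit 388) (nat_lit 320) (nat_lit 312))) (XT.nd (nat_lit 78) (nat_lit 152) (nat_lit 0) (XT.lf (nat_lit 0) (nat_lit 32419491744) (nat_lit 76) (nat_lit 4918832022) (nat_lit 76) (nat_lit 3594593442) (nat_lit 6) (nat_lit 4) (nat_lit 7) (nat_lit 5) (nat_lit 7) (nat_lit 4) (nat_lit 389) (nat_lit 320) (nat_lit 311)) (XT.nd (nat_lit 78) (nat_lit 0) (nat_lit 0) (XT.lf (nat_lit 0) (nat_lit 1406211486) (nat_lit 152) (nat_lit 42295853383) (nat_lit 0) (nat_lit 89148466) (nat_lit 4) (nat_lit 5) (nat_lit 6) (nat_lit 4) (nat_lit 4) (nat_lit 4) (nat_lit 390) (nat_lit 320) (nat_lit 310)) (XT.lf (nat_lit 0) (nat_lit 6773840793) (nat_lit 152) (nat_lit 34711410774) (nat_lit 0) (nat_lit 5372596119)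 (nat_lit 4) (nat_lit 5) (nat_lit 6) (nat_lit 4) (nat_lit 4) (nat_lit 4) (nat_lit 391) (nat_lit 320) (nat_lit 309))))))) (XT.nd (nat_lit 780) (nat_lit 152) (nat_lit 0) (XT.nd (nat_lit 390) (nat_lit 0) (nat_lit 0) (XT.nd (nat_lit 156) (nat_lit 76) (nat_lit 0) (XT.nd (nat_lit 78) (nat_lit 0) (nat_lit 0) (XT.lf (nat_lit 0) (nat_lit 12380492813) (nat_lit 152) (nat_lit 26903268018) (nat_lit 0) (nat_lit 10901302162) (nat_lit 4) (nat_lit 5) (nat_lit 6) (nat_lit 4) (nat_lit 4) (nat_lit 4) (nat_lit 392) (nat_lit 320) (nat_lit 308)) (XT.lf (nat_lit 0) (nat_lit 18259392148) (nat_lit 152) (nat_lit 18825154639) (nat_lit 0) (nat_lit 16708029297) (nat_lit 4) (nat_lit 5) (nat_lit 6) (nat_lit 4) (nat_lit 4) (nat_lit 4) (nat_lit 393) (nat_lit 320) (nat_lit 307))) (XT.nd (nat_lit 78) (nat_lit 76) (nat_lit 0) (XT.lf (nat_lit 0) (nat_lit 24445376722) (nat_lit 152) (nat_lit 10429200335) (nat_lit 0) (nat_lit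 22827187760) (nat_lit 4) (nat_lit 5) (nat_lit 6) (nat_lit 4) (nat_lit 4) (nat_lit 4) (nat_lit 394) (nat_lit 320) (nat_lit 306)) (XT.nd (nat_lit 78) (nat_lit 76) (nat_lit 0) (XT.lf (nat_lit 0) (nat_lit 30975104221) (nat_lit 152) (nat_lit 1665651303) (nat_lit 0) (nat_lit 29295039229) (nat_lit 4) (nat_lit 5) (nat_lit 6) (nat_lit 4) (nat_lit 4) (nat_lit 4) (nat_lit 395) (nat_lit 320) (nat_lit 305)) (XT.lf (nat_lit 0) (nat_lit 7913278856) (nat_lit 76) (nat_lit 30164305016) (nat_lit 76) (nat_lit 28426947405) (nat_lit 3) (nat_lit 4) (nat_lit 4) (nat_lit 5) (nat_lit 4) (nat_lit 4) (nat_lit 396) (nat_lit 320) (nat_lit 304))))) (XT.nd (nat_lit 156) (nat_lit 0) (nat_lit 0) (XT.nd (nat_lit 78) (nat_lit 0) (nat_lit 0) (XT.lf (nat_lit 0) (nat_lit 18078821468) (nat_lit 76) (nat_lit 27578807637) (nat_lit 76) (nat_lit 25788401304) (nat_lit 3) (nat_lit 4) (nat_lit 4) (nat_lit 5) (nat_lit 4) (nat_lit 4)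 (nat_lit 397) (nat_lit 320) (nat_lit 303)) (XT.lf (nat_lit 0) (nat_lit 28803506540) (nat_lit 76) (nat_lit 24914483781) (nat_lit 76) (nat_lit 23074958261) (nat_lit 3) (nat_lit 4) (nat_lit 4) (nat_lit 5) (nat_lit 4) (nat_lit 4) (nat_lit 398) (nat_lit 320) (nat_lit 302))) (XT.nd (nat_lit 78) (nat_lit 0) (nat_lit 0) (XT.lf (nat_lit 0) (nat_lit 40150887760) (nat_lit 76) (nat_lit 22155544860) (nat_lit 76) (nat_lit 20270538611) (nat_lit 3) (nat_lit 4) (nat_lit 4) (nat_lit 5) (nat_lit 4) (nat_lit 4) (nat_lit 399) (nat_lit 320) (nat_lit 301)) (XT.nd (nat_lit 78) (nat_lit 0) (nat_lit 0) (XT.lf (nat_lit 0) (nat_lit 52188208870) (nat_lit 76) (nat_lit 19285641607) (nat_lit 76) (nat_lit 17358523573) (nat_lit 3) (nat_lit 4) (nat_lit 4) (nat_lit 5) (nat_lit 4) (nat_lit 4) (nat_lit 400) (nat_lit 320) (nat_lit 300)) (XT.lf (nat_lit 0) (nat_lit 64986802142) (nat_lit 76) (nat_lit 16287767189) (nat_lit 76)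 (nat_lit 14321656761) (nat_lit 3) (nat_lit 4) (nat_lit 4) (nat_lit 5) (nat_lit 4) (nat_lit 4) (nat_lit 401) (nat_lit 320) (nat_lit 299)))))) (XT.nd (nat_lit 390) (nat_lit 0) (nat_lit 0) (XT.nd (nat_lit 156) (nat_lit 152) (nat_lit 0) (XT.nd (nat_lit 78) (nat_lit 0) (nat_lit 0) (XT.lf (nat_lit 0) (nat_lit 78622511092) (nat_lit 76) (nat_lit 13144156424) (nat_lit 76) (nat_lit 11141941927) (nat_lit 3) (nat_lit 4) (nat_lit 4) (nat_lit 5) (nat_lit 4) (nat_lit 4) (nat_lit 402) (nat_lit 320) (nat_lit 298)) (XT.lf (nat_lit 0) (nat_lit 93176139922) (nat_lit 76) (nat_lit 9836180506) (nat_lit 76) (nat_lit 7800536316) (nat_lit 3) (nat_lit 4) (nat_lit 4) (nat_lit 5) (nat_lit 4) (nat_lit 4) (nat_lit 403) (nat_lit 320) (nat_lit 297))) (XT.nd (nat_lit 78) (nat_lit 152) (nat_lit 0) (XT.lf (nat_lit 0) (nat_lit 108733932358) (nat_lit 76) (nat_lit 6344236616) (nat_lit 76) (nat_lit 4277639006) (nat_lit 3) (nat_lit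 4) (nat_lit 4) (nat_lit 5) (nat_lit 4) (nat_lit 4) (nat_lit 404) (nat_lit 320) (nat_lit 296)) (XT.nd (nat_lit 78) (nat_lit 152) (nat_lit 0) (XT.lf (nat_lit 0) (nat_lit 125388082724) (nat_lit 76) (nat_lit 2647631753) (nat_lit 76) (nat_lit 552373569) (nat_lit 3) (nat_lit 4) (nat_lit 4) (nat_lit 5) (nat_lit 4) (nat_lit 4) (nat_lit 405) (nat_lit 320) (nat_lit 295)) (XT.lf (nat_lit 0) (nat_lit 3379437308) (nat_lit 152) (nat_lit 133751457340) (nat_lit 0) (nat_lit 1414811612) (nat_lit 1) (nat_lit 5) (nat_lit 3) (nat_lit 4) (nat_lit 1) (nat_lit 4) (nat_lit 406) (nat_lit 320) (nat_lit 294))))) (XT.nd (nat_lit 156) (nat_lit 0) (nat_lit 0) (XT.nd (nat_lit 78) (nat_lit 0) (nat_lit 0) (XT.lf (nat_lit 0) (nat_lit 7684794293) (nat_lit 152) (nat_lit 135909473040) (nat_lit 0) (nat_lit 5697416910) (nat_lit 1) (nat_lit 5) (nat_lit 3) (nat_lit 4) (nat_lit 1) (nat_lit 4) (nat_lit 407) (nat_lit 320) (nat_lit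 293)) (XT.lf (nat_lit 0) (nat_lit 12270049947) (nat_lit 152) (nat_lit 138370851912) (nat_lit 0) (nat_lit 10261606186) (nat_lit 1) (nat_lit 5) (nat_lit 3) (nat_lit 4) (nat_lit 1) (nat_lit 4) (nat_lit 408) (nat_lit 320) (nat_lit 292))) (XT.nd (nat_lit 78) (nat_lit 0) (nat_lit 0) (XT.lf (nat_lit 0) (nat_lit 17162376153) (nat_lit 152) (nat_lit 141150179904) (nat_lit 0) (nat_lit 15134426487) (nat_lit 1) (nat_lit 5) (nat_lit 3) (nat_lit 4) (nat_lit 1) (nat_lit 4) (nat_lit 409) (nat_lit 320) (nat_lit 291)) (XT.nd (nat_lit 78) (nat_lit 0) (nat_lit 0) (XT.lf (nat_lit 0) (nat_lit 22390764475) (nat_lit 152) (nat_lit 144263927110) (nat_lit 0) (nat_lit 20344753786) (nat_lit 1) (nat_lit 5) (nat_lit 3) (nat_lit 4) (nat_lit 1) (nat_lit 4) (nat_lit 410) (nat_lit 320) (nat_lit 290)) (XT.lf (nat_lit 0) (nat_lit 27986197956) (nat_lit 152) (nat_lit 147730545363) (nat_lit 0) (nat_lit 25923464097) (nat_lit 1)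 (nat_lit 5) (nat_lit 3) (nat_lit 4) (nat_lit 1) (nat_lit 4) (nat_lit 411) (nat_lit 320) (nat_lit 289))))))))
noncomputable def xc43 : XT := (XT.nd (nat_lit 1482) (nat_lit 0) (nat_lit 0) (XT.nd (nat_lit 702) (nat_lit 0) (nat_lit 0) (XT.nd (nat_lit 312) (nat_lit 0) (nat_lit 0) (XT.nd (nat_lit 156) (nat_lit 0) (nat_lit 0) (XT.nd (nat_lit 78) (nat_lit 0) (nat_lit 0) (XT.lf (nat_lit 0) (nat_lit 33981834718) (nat_lit 152) (nat_lit 151570577587) (nat_lit 0) (nat_lit 31903616443) (nat_lit 1) (nat_lit 5) (nat_lit 3) (nat_lit 4) (nat_lit 1) (nat_lit 4) (nat_lit 412) (nat_lit 320) (nat_lit 288)) (XT.lf (nat_lit 0) (nat_lit 40413204462) (nat_lit 152) (nat_lit 155806779529) (nat_lit 0) (nat_lit 38320648765) (nat_lit 1) (nat_lit 5) (nat_lit 3) (nat_lit 4) (nat_lit 1) (nat_lit 4) (nat_lit 413) (nat_lit 320) (nat_lit 287))) (XT.nd (nat_lit 78) (nat_lit 0) (nat_lit 0) (XT.lf (nat_lit 0) (nat_lit 47318419008)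 (nat_lit 152) (nat_lit 160464254607) (nat_lit 0) (nat_lit 45212587920) (nat_lit 1) (nat_lit 5) (nat_lit 3) (nat_lit 4) (nat_lit 1) (nat_lit 4) (nat_lit 414) (nat_lit 320) (nat_lit 286)) (XT.lf (nat_lit 0) (nat_lit 54738398146) (nat_lit 152) (nat_lit 165570602673) (nat_lit 0) (nat_lit 52620275029) (nat_lit 1) (nat_lit 5) (nat_lit 3) (nat_lit 4) (nat_lit 1) (nat_lit 4) (nat_lit 415) (nat_lit 320) (nat_lit 285)))) (XT.nd (nat_lit 156) (nat_lit 0) (nat_lit 0) (XT.nd (nat_lit 78) (nat_lit 0) (nat_lit 0) (XT.lf (nat_lit 0) (nat_lit 62717112123) (nat_lit 152) (nat_lit 171156083569) (nat_lit 0) (nat_lit 60587607498) (nat_lit 1) (nat_lit 5) (nat_lit 3) (nat_lit 4) (nat_lit 1) (nat_lit 4) (nat_lit 416) (nat_lit 320) (nat_lit 284)) (XT.lf (nat_lit 0) (nat_lit 71301842207) (nat_lit 152) (nat_lit 177253796439) (nat_lit 0) (nat_lit 69161799148) (nat_lit 1) (nat_lit 5) (nat_lit 3) (nat_lit 4) (nat_lit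 1) (nat_lit 4) (nat_lit 417) (nat_lit 320) (nat_lit 283))) (XT.nd (nat_lit 78) (nat_lit 0) (nat_lit 0) (XT.lf (nat_lit 0) (nat_lit 80543460872) (nat_lit 152) (nat_lit 183899875879) (nat_lit 0) (nat_lit 78393660005) (nat_lit 1) (nat_lit 5) (nat_lit 3) (nat_lit 4) (nat_lit 1) (nat_lit 4) (nat_lit 418) (nat_lit 320) (nat_lit 282)) (XT.nd (nat_lit 78) (nat_lit 0) (nat_lit 0) (XT.lf (nat_lit 0) (nat_lit 90496733267) (nat_lit 152) (nat_lit 191133706064) (nat_lit 0) (nat_lit 88337897391) (nat_lit 1) (nat_lit 5) (nat_lit 3) (nat_lit 4) (nat_lit 1) (nat_lit 4) (nat_lit 419) (nat_lit 320) (nat_lit 281)) (XT.lf (nat_lit 0) (nat_lit 101220641745) (nat_lit 152) (nat_lit 198998154135) (nat_lit 0) (nat_lit 99053440121) (nat_lit 1) (nat_lit 5) (nat_lit 3) (nat_lit 4) (nat_lit 1) (nat_lit 4) (nat_lit 420) (nat_lit 320) (nat_lit 280)))))) (XT.nd (nat_lit 390) (nat_lit 0) (nat_lit 0) (XT.nd (nat_lit 156)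 (nat_lit 0) (nat_lit 0) (XT.nd (nat_lit 78) (nat_lit 0) (nat_lit 0) (XT.lf (nat_lit 0) (nat_lit 112778735395) (nat_lit 152) (nat_lit 207539824229) (nat_lit 0) (nat_lit 110603787708) (nat_lit 1) (nat_lit 5) (nat_lit 3) (nat_lit 4) (nat_lit 1) (nat_lit 4) (nat_lit 421) (nat_lit 320) (nat_lit 279)) (XT.lf (nat_lit 0) (nat_lit 125239506622) (nat_lit 152) (nat_lit 216809333649) (nat_lit 0) (nat_lit 123057386655) (nat_lit 1) (nat_lit 5) (nat_lit 3) (nat_lit 4) (nat_lit 1) (nat_lit 4) (nat_lit 422) (nat_lit 320) (nat_lit 278))) (XT.nd (nat_lit 78) (nat_lit 0) (nat_lit 0) (XT.lf (nat_lit 0) (nat_lit 138676797036) (nat_lit 152) (nat_lit 226861612824) (nat_lit 0) (nat_lit 136488036067) (nat_lit 1) (nat_lit 5) (nat_lit 3) (nat_lit 4) (nat_lit 1) (nat_lit 4) (nat_lit 423) (nat_lit 320) (nat_lit 277)) (XT.nd (nat_lit 78) (nat_lit 0) (nat_lit 0) (XT.lf (nat_lit 0) (nat_lit 153170235022) (nat_lit 152)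 (nat_lit 237756230813) (nat_lit 0) (nat_lit 150975324978) (nat_lit 1) (nat_lit 5) (nat_lit 3) (nat_lit 4) (nat_lit 1) (nat_lit 4) (nat_lit 424) (nat_lit 320) (nat_lit 276)) (XT.lf (nat_lit 0) (nat_lit 168805707621) (nat_lit 152) (nat_lit 249557748316) (nat_lit 0) (nat_lit 166605103990) (nat_lit 1) (nat_lit 5) (nat_lit 3) (nat_lit 4) (nat_lit 1) (nat_lit 4) (nat_lit 425) (nat_lit 320) (nat_lit 275))))) (XT.nd (nat_lit 156) (nat_lit 0) (nat_lit 0) (XT.nd (nat_lit 78) (nat_lit 0) (nat_lit 0) (XT.lf (nat_lit 0) (nat_lit 185675869485) (nat_lit 152) (nat_lit 262336100253) (nat_lit 0) (nat_lit 183469994014) (nat_lit 1) (nat_lit 5) (nat_lit 3) (nat_lit 4) (nat_lit 1) (nat_lit 4) (nat_lit 426) (nat_lit 320) (nat_lit 274)) (XT.lf (nat_lit 0) (nat_lit 203880691945) (nat_lit 152) (nat_lit 276167010189) (nat_lit 0) (nat_lit 201669935139) (nat_lit 1) (nat_lit 5) (nat_lit 3) (nat_lit 4) (nat_lit 1) (nat_lit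 4) (nat_lit 427) (nat_lit 320) (nat_lit 273))) (XT.nd (nat_lit 78) (nat_lit 0) (nat_lit 0) (XT.lf (nat_lit 0) (nat_lit 223528055428) (nat_lit 152) (nat_lit 291132439073) (nat_lit 0) (nat_lit 221312778870) (nat_lit 1) (nat_lit 5) (nat_lit 3) (nat_lit 4) (nat_lit 1) (nat_lit 4) (nat_lit 428) (nat_lit 320) (nat_lit 272)) (XT.nd (nat_lit 78) (nat_lit 0) (nat_lit 0) (XT.lf (nat_lit 0) (nat_lit 244734388757) (nat_lit 152) (nat_lit 307321070927) (nat_lit 0) (nat_lit 242514927241) (nat_lit 1) (nat_lit 5) (nat_lit 3) (nat_lit 4) (nat_lit 1) (nat_lit 4) (nat_lit 429) (nat_lit 320) (nat_lit 271)) (XT.lf (nat_lit 0) (nat_lit 267625359091) (nat_lit 152) (nat_lit 324828838385) (nat_lit 0) (nat_lit 265402022615) (nat_lit 1) (nat_lit 5) (nat_lit 3) (nat_lit 4) (nat_lit 1) (nat_lit 4) (nat_lit 430) (nat_lit 320) (nat_lit 270))))))) (XT.nd (nat_lit 780) (nat_lit 0) (nat_lit 0) (XT.nd (nat_lit 390) (nat_lit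 0) (nat_lit 0) (XT.nd (nat_lit 156) (nat_lit 0) (nat_lit 0) (XT.nd (nat_lit 78) (nat_lit 0) (nat_lit 0) (XT.lf (nat_lit 0) (nat_lit 292336616625) (nat_lit 152) (nat_lit 343759491181) (nat_lit 0) (nat_lit 290109692223) (nat_lit 1) (nat_lit 5) (nat_lit 3) (nat_lit 4) (nat_lit 1) (nat_lit 4) (nat_lit 431) (nat_lit 320) (nat_lit 269)) (XT.lf (nat_lit 0) (nat_lit 319014598441) (nat_lit 152) (nat_lit 364225210959) (nat_lit 0) (nat_lit 316784351885) (nat_lit 1) (nat_lit 5) (nat_lit 3) (nat_lit 4) (nat_lit 1) (nat_lit 4) (nat_lit 432) (nat_lit 320) (nat_lit 268))) (XT.nd (nat_lit 78) (nat_lit 0) (nat_lit 0) (XT.lf (nat_lit 0) (nat_lit 347817396283) (nat_lit 152) (nat_lit 386347276060) (nat_lit 0) (nat_lit 345584073659) (nat_lit 1) (nat_lit 5) (nat_lit 3) (nat_lit 4) (nat_lit 1) (nat_lit 4) (nat_lit 433) (nat_lit 320) (nat_lit 267)) (XT.nd (nat_lit 78) (nat_lit 0) (nat_lit 0) (XT.lf (nat_lit 0)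 (nat_lit 378915693396) (nat_lit 152) (nat_lit 410256780203) (nat_lit 0) (nat_lit 376679522561) (nat_lit 1) (nat_lit 5) (nat_lit 3) (nat_lit 4) (nat_lit 1) (nat_lit 4) (nat_lit 434) (nat_lit 320) (nat_lit 266)) (XT.lf (nat_lit 0) (nat_lit 412493775988) (nat_lit 152) (nat_lit 436095409337) (nat_lit 0) (nat_lit 410254967920) (nat_lit 1) (nat_lit 5) (nat_lit 3) (nat_lit 4) (nat_lit 1) (nat_lit 4) (nat_lit 435) (nat_lit 320) (nat_lit 265))))) (XT.nd (nat_lit 156) (nat_lit 0) (nat_lit 0) (XT.nd (nat_lit 78) (nat_lit 0) (nat_lit 0) (XT.lf (nat_lit 0) (nat_lit 448750625286) (nat_lit 152) (nat_lit 464016281267) (nat_lit 0) (nat_lit 446509375336) (nat_lit 1) (nat_lit 5) (nat_lit 3) (nat_lit 4) (nat_lit 1) (nat_lit 4) (nat_lit 436) (nat_lit 320) (nat_lit 264)) (XT.lf (nat_lit 0) (nat_lit 487901096696) (nat_lit 152) (nat_lit 494184853009) (nat_lit 0) (nat_lit 485657585744) (nat_lit 1) (nat_lit 5)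 (nat_lit 3) (nat_lit 4) (nat_lit 1) (nat_lit 4) (nat_lit 437) (nat_lit 320) (nat_lit 263))) (XT.nd (nat_lit 78) (nat_lit 0) (nat_lit 0) (XT.lf (nat_lit 0) (nat_lit 530177193010) (nat_lit 152) (nat_lit 526779901286) (nat_lit 0) (nat_lit 527931588537) (nat_lit 1) (nat_lit 5) (nat_lit 3) (nat_lit 4) (nat_lit 1) (nat_lit 4) (nat_lit 438) (nat_lit 320) (nat_lit 262)) (XT.nd (nat_lit 78) (nat_lit 0) (nat_lit 0) (XT.lf (nat_lit 0) (nat_lit 575829439243) (nat_lit 152) (nat_lit 561994581940) (nat_lit 0) (nat_lit 573581896326) (nat_lit 1) (nat_lit 5) (nat_lit 3) (nat_lit 4) (nat_lit 1) (nat_lit 4) (nat_lit 439) (nat_lit 320) (nat_lit 261)) (XT.lf (nat_lit 0) (nat_lit 625128367225) (nat_lit 152) (nat_lit 600037574559) (nat_lit 0) (nat_lit 622879029452) (nat_lit 1) (nat_lit 5) (nat_lit 3) (nat_lit 4) (nat_lit 1) (nat_lit 4) (nat_lit 440) (nat_lit 320) (nat_lit 260)))))) (XT.nd (nat_lit 390) (nat_lit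 0) (nat_lit 0) (XT.nd (nat_lit 156) (nat_lit 0) (nat_lit 0) (XT.nd (nat_lit 78) (nat_lit 0) (nat_lit 0) (XT.lf (nat_lit 0) (nat_lit 678366118752) (nat_lit 152) (nat_lit 641134319099) (nat_lit 0) (nat_lit 676115119075) (nat_lit 1) (nat_lit 5) (nat_lit 3) (nat_lit 4) (nat_lit 1) (nat_lit 4) (nat_lit 441) (nat_lit 320) (nat_lit 259)) (XT.lf (nat_lit 0) (nat_lit 735858176796) (nat_lit 152) (nat_lit 685528351825) (nat_lit 0) (nat_lit 733605638318) (nat_lit 1) (nat_lit 5) (nat_lit 3) (nat_lit 4) (nat_lit 1) (nat_lit 4) (nat_lit 442) (nat_lit 320) (nat_lit 258))) (XT.nd (nat_lit 78) (nat_lit 0) (nat_lit 0) (XT.lf (nat_lit 0) (nat_lit 797945235033) (nat_lit 152) (nat_lit 733482748487) (nat_lit 0) (nat_lit 795691271741) (nat_lit 1) (nat_lit 5) (nat_lit 3) (nat_lit 4) (nat_lit 1) (nat_lit 4) (nat_lit 443) (nat_lit 320) (nat_lit 257)) (XT.nd (nat_lit 78) (nat_lit 0) (nat_lit 0) (XT.lf (nat_lit 0)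 (nat_lit 864995216772) (nat_lit 152) (nat_lit 785281683286) (nat_lit 0) (nat_lit 862739934207) (nat_lit 1) (nat_lit 5) (nat_lit 3) (nat_lit 4) (nat_lit 1) (nat_lit 4) (nat_lit 444) (nat_lit 320) (nat_lit 256)) (XT.lf (nat_lit 0) (nat_lit 937405455238) (nat_lit 152) (nat_lit 841232112873) (nat_lit 0) (nat_lit 935148951124) (nat_lit 1) (nat_lit 5) (nat_lit 3) (nat_lit 4) (nat_lit 1) (nat_lit 4) (nat_lit 445) (nat_lit 320) (nat_lit 255))))) (XT.nd (nat_lit 156) (nat_lit 0) (nat_lit 0) (XT.nd (nat_lit 78) (nat_lit 0) (nat_lit 0) (XT.lf (nat_lit 0) (nat_lit 1015605048141) (nat_lit 152) (nat_lit 901665595349) (nat_lit 0) (nat_lit 1013347412963) (nat_lit 1) (nat_lit 5) (nat_lit 3) (nat_lit 4) (nat_lit 1) (nat_lit 4) (nat_lit 446) (nat_lit 320) (nat_lit 254)) (XT.lf (nat_lit 0) (nat_lit 1100057400475) (nat_lit 152) (nat_lit 966940255056) (nat_lit 0) (nat_lit 1097798718015) (nat_lit 1) (nat_lit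 5) (nat_lit 3) (nat_lit 4) (nat_lit 1) (nat_lit 4) (nat_lit 447) (nat_lit 320) (nat_lit 253))) (XT.nd (nat_lit 78) (nat_lit 0) (nat_lit 0) (XT.lf (nat_lit 0) (nat_lit 1191262970624) (nat_lit 152) (nat_lit 1037442904790) (nat_lit 0) (nat_lit 1189003318460) (nat_lit 1) (nat_lit 5) (nat_lit 3) (nat_lit 4) (nat_lit 1) (nat_lit 4) (nat_lit 448) (nat_lit 320) (nat_lit 252)) (XT.nd (nat_lit 78) (nat_lit 0) (nat_lit 0) (XT.lf (nat_lit 0) (nat_lit 1289762236042) (nat_lit 152) (nat_lit 1113591338034) (nat_lit 0) (nat_lit 1287501686003) (nat_lit 1) (nat_lit 5) (nat_lit 3) (nat_lit 4) (nat_lit 1) (nat_lit 4) (nat_lit 449) (nat_lit 320) (nat_lit 251)) (XT.lf (nat_lit 0) (nat_lit 1396138896079) (nat_lit 152) (nat_lit 1195836804760) (nat_lit 0) (nat_lit 1393877514674) (nat_lit 1) (nat_lit 5) (nat_lit 3) (nat_lit 4) (nat_lit 1) (nat_lit 4) (nat_lit 450) (nat_lit 320) (nat_lit 250))))))))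
noncomputable def xc44 : XT := (XT.nd (nat_lit 48126) (nat_lit 0) (nat_lit 152) (XT.nd (nat_lit 702) (nat_lit 0) (nat_lit 0) (XT.nd (nat_lit 312) (nat_lit 0) (nat_lit 0) (XT.nd (nat_lit 156) (nat_lit 0) (nat_lit 0) (XT.nd (nat_lit 78) (nat_lit 0) (nat_lit 0) (XT.lf (nat_lit 0) (nat_lit 1511023330943) (nat_lit 152) (nat_lit 1284666685512) (nat_lit 0) (nat_lit 1508761179754) (nat_lit 1) (nat_lit 5) (nat_lit 3) (nat_lit 4) (nat_lit 1) (nat_lit 4) (nat_lit 451) (nat_lit 320) (nat_lit 249)) (XT.lf (nat_lit 0) (nat_lit 1635096337284) (nat_lit 152) (nat_lit 1380607379585) (nat_lit 0) (nat_lit 1632833473333) (nat_lit 1) (nat_lit 5) (nat_lit 3) (nat_lit 4) (nat_lit 1) (nat_lit 4) (nat_lit 452) (nat_lit 320) (nat_lit 248))) (XT.nd (nat_lit 78) (nat_lit 0) (nat_lit 0) (XT.lf (nat_lit 0) (nat_lit 1769093162548) (nat_lit 152) (nat_lit 1484227424424) (nat_lit 0) (nat_lit 1766829638632) (nat_lit 1) (nat_lit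 5) (nat_lit 3) (nat_lit 4) (nat_lit 1) (nat_lit 4) (nat_lit 453) (nat_lit 320) (nat_lit 247)) (XT.lf (nat_lit 0) (nat_lit 1913807861995) (nat_lit 152) (nat_lit 1596140864739) (nat_lit 0) (nat_lit 1911543727001) (nat_lit 1) (nat_lit 5) (nat_lit 3) (nat_lit 4) (nat_lit 1) (nat_lit 4) (nat_lit 454) (nat_lit 320) (nat_lit 246)))) (XT.nd (nat_lit 156) (nat_lit 0) (nat_lit 0) (XT.nd (nat_lit 78) (nat_lit 0) (nat_lit 0) (XT.lf (nat_lit 0) (nat_lit 2070098004215) (nat_lit 152) (nat_lit 1717010891288) (nat_lit 0) (nat_lit 2067833303407) (nat_lit 1) (nat_lit 5) (nat_lit 3) (nat_lit 4) (nat_lit 1) (nat_lit 4) (nat_lit 455) (nat_lit 320) (nat_lit 245)) (XT.lf (nat_lit 0) (nat_lit 2238889753013) (nat_lit 152) (nat_lit 1847553770895) (nat_lit 0) (nat_lit 2236624528304) (nat_lit 1) (nat_lit 5) (nat_lit 3) (nat_lit 4) (nat_lit 1) (nat_lit 4) (nat_lit 456) (nat_lit 320) (nat_lit 244))) (XT.nd (nat_lit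 78) (nat_lit 0) (nat_lit 0) (XT.lf (nat_lit 0) (nat_lit 2421183355791) (nat_lit 152) (nat_lit 1988543090994) (nat_lit 0) (nat_lit 2418917645987) (nat_lit 1) (nat_lit 5) (nat_lit 3) (nat_lit 4) (nat_lit 1) (nat_lit 4) (nat_lit 457) (nat_lit 320) (nat_lit 243)) (XT.nd (nat_lit 78) (nat_lit 0) (nat_lit 0) (XT.lf (nat_lit 0) (nat_lit 2618059070934) (nat_lit 152) (nat_lit 2140814343854) (nat_lit 0) (nat_lit 2615792911969) (nat_lit 1) (nat_lit 5) (nat_lit 3) (nat_lit 4) (nat_lit 1) (nat_lit 4) (nat_lit 458) (nat_lit 320) (nat_lit 242)) (XT.lf (nat_lit 0) (nat_lit 2830683569347) (nat_lit 152) (nat_lit 2305269877638) (nat_lit 0) (nat_lit 2828416994493) (nat_lit 1) (nat_lit 5) (nat_lit 3) (nat_lit 4) (nat_lit 1) (nat_lit 4) (nat_lit 459) (nat_lit 320) (nat_lit 241)))))) (XT.nd (nat_lit 47034) (nat_lit 0) (nat_lit 456) (XT.nd (nat_lit 46800) (nat_lit 0) (nat_lit 684) (XT.nd (nat_lit 46722) (nat_lit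 0) (nat_lit 836) (XT.lf (nat_lit 0) (nat_lit 3060316848058) (nat_lit 152) (nat_lit 2482884243658) (nat_lit 0) (nat_lit 3058049888120) (nat_lit 1) (nat_lit 5) (nat_lit 3) (nat_lit 4) (nat_lit 1) (nat_lit 4) (nat_lit 460) (nat_lit 320) (nat_lit 240)) (XT.lf (nat_lit 0) (nat_lit 3748121899) (nat_lit 76) (nat_lit 3375700406) (nat_lit 76) (nat_lit 3375700406) (nat_lit 12) (nat_lit 4) (nat_lit 13) (nat_lit 5) (nat_lit 13) (nat_lit 4) (nat_lit 378) (nat_lit 321) (nat_lit 321))) (XT.nd (nat_lit 78) (nat_lit 152) (nat_lit 0) (XT.lf (nat_lit 0) (nat_lit 20108919301) (nat_lit 76) (nat_lit 1162053417) (nat_lit 76) (nat_lit 914795598) (nat_lit 12) (nat_lit 4) (nat_lit 13) (nat_lit 5) (nat_lit 13) (nat_lit 4) (nat_lit 379) (nat_lit 321) (nat_lit 320)) (XT.nd (nat_lit 78) (nat_lit 0) (nat_lit 0) (XT.lf (nat_lit 0) (nat_lit 5172536221) (nat_lit 152) (nat_lit 13548697836) (nat_lit 0) (nat_lit 4731610069)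 (nat_lit 10) (nat_lit 5) (nat_lit 12) (nat_lit 4) (nat_lit 10) (nat_lit 4) (nat_lit 380) (nat_lit 321) (nat_lit 319)) (XT.lf (nat_lit 0) (nat_lit 11479910051) (nat_lit 152) (nat_lit 2514222486) (nat_lit 0) (nat_lit 10842702671) (nat_lit 10) (nat_lit 5) (nat_lit 12) (nat_lit 4) (nat_lit 10) (nat_lit 4) (nat_lit 381) (nat_lit 321) (nat_lit 318))))) (XT.nd (nat_lit 156) (nat_lit 152) (nat_lit 0) (XT.nd (nat_lit 78) (nat_lit 0) (nat_lit 0) (XT.lf (nat_lit 0) (nat_lit 9309649027) (nat_lit 76) (nat_lit 8922821417) (nat_lit 76) (nat_lit 8103872159) (nat_lit 9) (nat_lit 4) (nat_lit 10) (nat_lit 5) (nat_lit 10) (nat_lit 4) (nat_lit 382) (nat_lit 321) (nat_lit 317)) (XT.lf (nat_lit 0) (nat_lit 21677501736) (nat_lit 76) (nat_lit 3641056627) (nat_lit 76) (nat_lit 2653827852) (nat_lit 9) (nat_lit 4) (nat_lit 10) (nat_lit 5) (nat_lit 10) (nat_lit 4) (nat_lit 383) (nat_lit 321) (nat_lit 316))) (XT.nd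 (nat_lit 78) (nat_lit 0) (nat_lit 0) (XT.lf (nat_lit 0) (nat_lit 2976380363) (nat_lit 152) (nat_lit 24846274674) (nat_lit 0) (nat_lit 1918007083) (nat_lit 7) (nat_lit 5) (nat_lit 9) (nat_lit 4) (nat_lit 7) (nat_lit 4) (nat_lit 384) (nat_lit 321) (nat_lit 315)) (XT.nd (nat_lit 78) (nat_lit 0) (nat_lit 0) (XT.lf (nat_lit 0) (nat_lit 8924307796) (nat_lit 152) (nat_lit 14987407685) (nat_lit 0) (nat_lit 7732348810) (nat_lit 7) (nat_lit 5) (nat_lit 9) (nat_lit 4) (nat_lit 7) (nat_lit 4) (nat_lit 385) (nat_lit 321) (nat_lit 314)) (XT.lf (nat_lit 0) (nat_lit 15106885648) (nat_lit 152) (nat_lit 4820941956) (nat_lit 0) (nat_lit 13791236194) (nat_lit 7) (nat_lit 5) (nat_lit 9) (nat_lit 4) (nat_lit 7) (nat_lit 4) (nat_lit 386) (nat_lit 321) (nat_lit 313))))))) (XT.nd (nat_lit 702) (nat_lit 76) (nat_lit 0) (XT.nd (nat_lit 312) (nat_lit 76) (nat_lit 0) (XT.nd (nat_lit 156) (nat_lit 76) (nat_lit 0) (XT.nd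 (nat_lit 78) (nat_lit 0) (nat_lit 0) (XT.lf (nat_lit 0) (nat_lit 6014224080) (nat_lit 76) (nat_lit 15691169571) (nat_lit 76) (nat_lit 14260991905) (nat_lit 6) (nat_lit 4) (nat_lit 7) (nat_lit 5) (nat_lit 7) (nat_lit 4) (nat_lit 387) (nat_lit 321) (nat_lit 312)) (XT.lf (nat_lit 0) (nat_lit 17556179638) (nat_lit 76) (nat_lit 11190197140) (nat_lit 76) (nat_lit 9653974834) (nat_lit 6) (nat_lit 4) (nat_lit 7) (nat_lit 5) (nat_lit 7) (nat_lit 4) (nat_lit 388) (nat_lit 321) (nat_lit 311))) (XT.nd (nat_lit 78) (nat_lit 76) (nat_lit 0) (XT.lf (nat_lit 0) (nat_lit 29619459229) (nat_lit 76) (nat_lit 6530050980) (nat_lit 76) (nat_lit 4895639192) (nat_lit 6) (nat_lit 4) (nat_lit 7) (nat_lit 5) (nat_lit 7) (nat_lit 4) (nat_lit 389) (nat_lit 321) (nat_lit 310)) (XT.lf (nat_lit 0) (nat_lit 40100922) (nat_lit 152) (nat_lit 1641918055) (nat_lit 76) (nat_lit 42234351603) (nat_lit 5) (nat_lit 5) (nat_lit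 7) (nat_lit 5) (nat_lit 6) (nat_lit 4) (nat_lit 390) (nat_lit 321) (nat_lit 309)))) (XT.nd (nat_lit 156) (nat_lit 0) (nat_lit 0) (XT.nd (nat_lit 78) (nat_lit 0) (nat_lit 0) (XT.lf (nat_lit 0) (nat_lit 5233097895) (nat_lit 152) (nat_lit 38206260838) (nat_lit 0) (nat_lit 3557626016) (nat_lit 4) (nat_lit 5) (nat_lit 6) (nat_lit 4) (nat_lit 4) (nat_lit 4) (nat_lit 391) (nat_lit 321) (nat_lit 308)) (XT.lf (nat_lit 0) (nat_lit 10754997585) (nat_lit 152) (nat_lit 30568637695) (nat_lit 0) (nat_lit 9007353505) (nat_lit 4) (nat_lit 5) (nat_lit 6) (nat_lit 4) (nat_lit 4) (nat_lit 4) (nat_lit 392) (nat_lit 321) (nat_lit 307))) (XT.nd (nat_lit 78) (nat_lit 0) (nat_lit 0) (XT.lf (nat_lit 0) (nat_lit 16555422541) (nat_lit 152) (nat_lit 22648412848) (nat_lit 0) (nat_lit 14740952350) (nat_lit 4) (nat_lit 5) (nat_lit 6) (nat_lit 4) (nat_lit 4) (nat_lit 4) (nat_lit 393) (nat_lit 321) (nat_lit 306)) (XT.nd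 (nat_lit 78) (nat_lit 0) (nat_lit 0) (XT.lf (nat_lit 0) (nat_lit 22668745653) (nat_lit 152) (nat_lit 14398651629) (nat_lit 0) (nat_lit 20792399433) (nat_lit 4) (nat_lit 5) (nat_lit 6) (nat_lit 4) (nat_lit 4) (nat_lit 4) (nat_lit 394) (nat_lit 321) (nat_lit 305)) (XT.lf (nat_lit 0) (nat_lit 29131194020) (nat_lit 152) (nat_lit 5770466564) (nat_lit 0) (nat_lit 27197555180) (nat_lit 4) (nat_lit 5) (nat_lit 6) (nat_lit 4) (nat_lit 4) (nat_lit 4) (nat_lit 395) (nat_lit 321) (nat_lit 304)))))) (XT.nd (nat_lit 390) (nat_lit 0) (nat_lit 0) (XT.nd (nat_lit 156) (nat_lit 0) (nat_lit 0) (XT.nd (nat_lit 78) (nat_lit 0) (nat_lit 0) (XT.lf (nat_lit 0) (nat_lit 3460374266) (nat_lit 76) (nat_lit 32603911451) (nat_lit 76) (nat_lit 30617223889) (nat_lit 3) (nat_lit 4) (nat_lit 4) (nat_lit 5) (nat_lit 4) (nat_lit 4) (nat_lit 396) (nat_lit 321) (nat_lit 303)) (XT.lf (nat_lit 0) (nat_lit 13503752960) (nat_lit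 76) (nat_lit 30079958934) (nat_lit 76) (nat_lit 28044152185) (nat_lit 3) (nat_lit 4) (nat_lit 4) (nat_lit 5) (nat_lit 4) (nat_lit 4) (nat_lit 397) (nat_lit 321) (nat_lit 302))) (XT.nd (nat_lit 78) (nat_lit 0) (nat_lit 0) (XT.lf (nat_lit 0) (nat_lit 24115323293) (nat_lit 76) (nat_lit 27472621060) (nat_lit 76) (nat_lit 25391333583) (nat_lit 3) (nat_lit 4) (nat_lit 4) (nat_lit 5) (nat_lit 4) (nat_lit 4) (nat_lit 398) (nat_lit 321) (nat_lit 301)) (XT.nd (nat_lit 78) (nat_lit 0) (nat_lit 0) (XT.lf (nat_lit 0) (nat_lit 35357968644) (nat_lit 76) (nat_lit 24766446938) (nat_lit 76) (nat_lit 22643047676) (nat_lit 3) (nat_lit 4) (nat_lit 4) (nat_lit 5) (nat_lit 4) (nat_lit 4) (nat_lit 399) (nat_lit 321) (nat_lit 300)) (XT.lf (nat_lit 0) (nat_lit 47298312096) (nat_lit 76) (nat_lit 21945399981) (nat_lit 76) (nat_lit 19783008324) (nat_lit 3) (nat_lit 4) (nat_lit 4) (nat_lit 5) (nat_lit 4) (nat_lit 4)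 (nat_lit 400) (nat_lit 321) (nat_lit 299))))) (XT.nd (nat_lit 156) (nat_lit 0) (nat_lit 0) (XT.nd (nat_lit 78) (nat_lit 0) (nat_lit 0) (XT.lf (nat_lit 0) (nat_lit 60007111242) (nat_lit 76) (nat_lit 18992762873) (nat_lit 76) (nat_lit 16794267148) (nat_lit 3) (nat_lit 4) (nat_lit 4) (nat_lit 5) (nat_lit 4) (nat_lit 4) (nat_lit 401) (nat_lit 321) (nat_lit 298)) (XT.lf (nat_lit 0) (nat_lit 73559677482) (nat_lit 76) (nat_lit 15891038506) (nat_lit 76) (nat_lit 13659113088) (nat_lit 3) (nat_lit 4) (nat_lit 4) (nat_lit 5) (nat_lit 4) (nat_lit 4) (nat_lit 402) (nat_lit 321) (nat_lit 297))) (XT.nd (nat_lit 78) (nat_lit 0) (nat_lit 0) (XT.lf (nat_lit 0) (nat_lit 88036322321) (nat_lit 76) (nat_lit 12621846291) (nat_lit 76) (nat_lit 10358967453) (nat_lit 3) (nat_lit 4) (nat_lit 4) (nat_lit 5) (nat_lit 4) (nat_lit 4) (nat_lit 403) (nat_lit 321) (nat_lit 296)) (XT.nd (nat_lit 78) (nat_lit 0) (nat_lit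 0) (XT.lf (nat_lit 0) (nat_lit 103522833284) (nat_lit 76) (nat_lit 9165813237) (nat_lit 76) (nat_lit 6874273825) (nat_lit 3) (nat_lit 4) (nat_lit 4) (nat_lit 5) (nat_lit 4) (nat_lit 4) (nat_lit 404) (nat_lit 321) (nat_lit 295)) (XT.lf (nat_lit 0) (nat_lit 120110982287) (nat_lit 76) (nat_lit 5502459148) (nat_lit 76) (nat_lit 3184382167) (nat_lit 3) (nat_lit 4) (nat_lit 4) (nat_lit 5) (nat_lit 4) (nat_lit 4) (nat_lit 405) (nat_lit 321) (nat_lit 294))))))))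
noncomputable def xc45 : XT := (XT.nd (nat_lit 1482) (nat_lit 0) (nat_lit 0) (XT.nd (nat_lit 702) (nat_lit 0) (nat_lit 0) (XT.nd (nat_lit 312) (nat_lit 0) (nat_lit 0) (XT.nd (nat_lit 156) (nat_lit 0) (nat_lit 0) (XT.nd (nat_lit 78) (nat_lit 76) (nat_lit 0) (XT.lf (nat_lit 0) (nat_lit 695927248) (nat_lit 152) (nat_lit 895120126) (nat_lit 76) (nat_lit 137184114340) (nat_lit 2) (nat_lit 5) (nat_lit 4) (nat_lit 5) (nat_lit 3) (nat_lit 4) (nat_lit 406) (nat_lit 321) (nat_lit 293)) (XT.lf (nat_lit 0) (nat_lit 4908745646) (nat_lit 152) (nat_lit 141901239625) (nat_lit 0) (nat_lit 2718560007) (nat_lit 1) (nat_lit 5) (nat_lit 3) (nat_lit 4) (nat_lit 1) (nat_lit 4) (nat_lit 407) (nat_lit 321) (nat_lit 292))) (XT.nd (nat_lit 78) (nat_lit 0) (nat_lit 0) (XT.lf (nat_lit 0) (nat_lit 9465275386) (nat_lit 152) (nat_lit 144420810233) (nat_lit 0) (nat_lit 7255583842) (nat_lit 1) (nat_lit 5) (nat_lit 3) (nat_lit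 4) (nat_lit 1) (nat_lit 4) (nat_lit 408) (nat_lit 321) (nat_lit 291)) (XT.lf (nat_lit 0) (nat_lit 14331003525) (nat_lit 152) (nat_lit 147254019463) (nat_lit 0) (nat_lit 12103250958) (nat_lit 1) (nat_lit 5) (nat_lit 3) (nat_lit 4) (nat_lit 1) (nat_lit 4) (nat_lit 409) (nat_lit 321) (nat_lit 290)))) (XT.nd (nat_lit 156) (nat_lit 0) (nat_lit 0) (XT.nd (nat_lit 78) (nat_lit 0) (nat_lit 0) (XT.lf (nat_lit 0) (nat_lit 19534764007) (nat_lit 152) (nat_lit 150417656703) (nat_lit 0) (nat_lit 17290288271) (nat_lit 1) (nat_lit 5) (nat_lit 3) (nat_lit 4) (nat_lit 1) (nat_lit 4) (nat_lit 410) (nat_lit 321) (nat_lit 289)) (XT.lf (nat_lit 0) (nat_lit 25107393932) (nat_lit 152) (nat_lit 153930469432) (nat_lit 0) (nat_lit 22847433779) (nat_lit 1) (nat_lit 5) (nat_lit 3) (nat_lit 4) (nat_lit 1) (nat_lit 4) (nat_lit 411) (nat_lit 321) (nat_lit 288))) (XT.nd (nat_lit 78) (nat_lit 0) (nat_lit 0) (XT.lf (nat_lit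 0) (nat_lit 31081916290) (nat_lit 152) (nat_lit 157813274319) (nat_lit 0) (nat_lit 28807618715) (nat_lit 1) (nat_lit 5) (nat_lit 3) (nat_lit 4) (nat_lit 1) (nat_lit 4) (nat_lit 412) (nat_lit 321) (nat_lit 287)) (XT.nd (nat_lit 78) (nat_lit 0) (nat_lit 0) (XT.lf (nat_lit 0) (nat_lit 37493735660) (nat_lit 152) (nat_lit 162089080579) (nat_lit 0) (nat_lit 35206162694) (nat_lit 1) (nat_lit 5) (nat_lit 3) (nat_lit 4) (nat_lit 1) (nat_lit 4) (nat_lit 413) (nat_lit 321) (nat_lit 286)) (XT.lf (nat_lit 0) (nat_lit 44380848009) (nat_lit 152) (nat_lit 166783226321) (nat_lit 0) (nat_lit 42080983013) (nat_lit 1) (nat_lit 5) (nat_lit 3) (nat_lit 4) (nat_lit 1) (nat_lit 4) (nat_lit 414) (nat_lit 321) (nat_lit 285)))))) (XT.nd (nat_lit 390) (nat_lit 0) (nat_lit 0) (XT.nd (nat_lit 156) (nat_lit 0) (nat_lit 0) (XT.nd (nat_lit 78) (nat_lit 0) (nat_lit 0) (XT.lf (nat_lit 0) (nat_lit 51784065852) (nat_lit 152)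 (nat_lit 171923528707) (nat_lit 0) (nat_lit 49472819349) (nat_lit 1) (nat_lit 5) (nat_lit 3) (nat_lit 4) (nat_lit 1) (nat_lit 4) (nat_lit 415) (nat_lit 321) (nat_lit 284)) (XT.lf (nat_lit 0) (nat_lit 59747260112) (nat_lit 152) (nat_lit 177540448787) (nat_lit 0) (nat_lit 57425475176) (nat_lit 1) (nat_lit 5) (nat_lit 3) (nat_lit 4) (nat_lit 1) (nat_lit 4) (nat_lit 416) (nat_lit 321) (nat_lit 283))) (XT.nd (nat_lit 78) (nat_lit 0) (nat_lit 0) (XT.lf (nat_lit 0) (nat_lit 68317620088) (nat_lit 152) (nat_lit 183667272013) (nat_lit 0) (nat_lit 65986077342) (nat_lit 1) (nat_lit 5) (nat_lit 3) (nat_lit 4) (nat_lit 1) (nat_lit 4) (nat_lit 417) (nat_lit 321) (nat_lit 282)) (XT.nd (nat_lit 78) (nat_lit 0) (nat_lit 0) (XT.lf (nat_lit 0) (nat_lit 77545933098) (nat_lit 152) (nat_lit 190340305486) (nat_lit 0) (nat_lit 75205355344) (nat_lit 1) (nat_lit 5) (nat_lit 3) (nat_lit 4) (nat_lit 1) (nat_lit 4)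 (nat_lit 418) (nat_lit 321) (nat_lit 281)) (XT.lf (nat_lit 0) (nat_lit 87486885440) (nat_lit 152) (nat_lit 197599093109) (nat_lit 0) (nat_lit 85137941938) (nat_lit 1) (nat_lit 5) (nat_lit 3) (nat_lit 4) (nat_lit 1) (nat_lit 4) (nat_lit 419) (nat_lit 321) (nat_lit 280))))) (XT.nd (nat_lit 156) (nat_lit 0) (nat_lit 0) (XT.nd (nat_lit 78) (nat_lit 0) (nat_lit 0) (XT.lf (nat_lit 0) (nat_lit 98199386463) (nat_lit 152) (nat_lit 205486649919) (nat_lit 0) (nat_lit 95842696898) (nat_lit 1) (nat_lit 5) (nat_lit 3) (nat_lit 4) (nat_lit 1) (nat_lit 4) (nat_lit 420) (nat_lit 321) (nat_lit 279)) (XT.lf (nat_lit 0) (nat_lit 109746917654) (nat_lit 152) (nat_lit 214049716994) (nat_lit 0) (nat_lit 107383055808) (nat_lit 1) (nat_lit 5) (nat_lit 3) (nat_lit 4) (nat_lit 1) (nat_lit 4) (nat_lit 421) (nat_lit 321) (nat_lit 278))) (XT.nd (nat_lit 78) (nat_lit 0) (nat_lit 0) (XT.lf (nat_lit 0) (nat_lit 122197908828)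 (nat_lit 152) (nat_lit 223339038433) (nat_lit 0) (nat_lit 119827405981) (nat_lit 1) (nat_lit 5) (nat_lit 3) (nat_lit 4) (nat_lit 1) (nat_lit 4) (nat_lit 422) (nat_lit 321) (nat_lit 277)) (XT.nd (nat_lit 78) (nat_lit 0) (nat_lit 0) (XT.lf (nat_lit 0) (nat_lit 135626143635) (nat_lit 152) (nat_lit 233409662070) (nat_lit 0) (nat_lit 133249491714) (nat_lit 1) (nat_lit 5) (nat_lit 3) (nat_lit 4) (nat_lit 1) (nat_lit 4) (nat_lit 423) (nat_lit 321) (nat_lit 276)) (XT.lf (nat_lit 0) (nat_lit 150111196801) (nat_lit 152) (nat_lit 244321265672) (nat_lit 0) (nat_lit 147728851292) (nat_lit 1) (nat_lit 5) (nat_lit 3) (nat_lit 4) (nat_lit 1) (nat_lit 4) (nat_lit 424) (nat_lit 321) (nat_lit 275))))))) (XT.nd (nat_lit 780) (nat_lit 0) (nat_lit 0) (XT.nd (nat_lit 390) (nat_lit 0) (nat_lit 0) (XT.nd (nat_lit 156) (nat_lit 0) (nat_lit 0) (XT.nd (nat_lit 78) (nat_lit 0) (nat_lit 0) (XT.lf (nat_lit 0) (nat_lit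 165738905678) (nat_lit 152) (nat_lit 256138510595) (nat_lit 0) (nat_lit 163351288328) (nat_lit 1) (nat_lit 5) (nat_lit 3) (nat_lit 4) (nat_lit 1) (nat_lit 4) (nat_lit 425) (nat_lit 321) (nat_lit 274)) (XT.lf (nat_lit 0) (nat_lit 182601878911) (nat_lit 152) (nat_lit 268931424957) (nat_lit 0) (nat_lit 180209380227) (nat_lit 1) (nat_lit 5) (nat_lit 3) (nat_lit 4) (nat_lit 1) (nat_lit 4) (nat_lit 426) (nat_lit 321) (nat_lit 273))) (XT.nd (nat_lit 78) (nat_lit 0) (nat_lit 0) (XT.lf (nat_lit 0) (nat_lit 200800045229) (nat_lit 152) (nat_lit 282775818620) (nat_lit 0) (nat_lit 198403026792) (nat_lit 1) (nat_lit 5) (nat_lit 3) (nat_lit 4) (nat_lit 1) (nat_lit 4) (nat_lit 427) (nat_lit 321) (nat_lit 272)) (XT.nd (nat_lit 78) (nat_lit 0) (nat_lit 0) (XT.lf (nat_lit 0) (nat_lit 220441245620) (nat_lit 152) (nat_lit 297753732437) (nat_lit 0) (nat_lit 218040042226) (nat_lit 1) (nat_lit 5) (nat_lit 3)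 (nat_lit 4) (nat_lit 1) (nat_lit 4) (nat_lit 428) (nat_lit 321) (nat_lit 271)) (XT.lf (nat_lit 0) (nat_lit 241641872381) (nat_lit 152) (nat_lit 313953924414) (nat_lit 0) (nat_lit 239236794027) (nat_lit 1) (nat_lit 5) (nat_lit 3) (nat_lit 4) (nat_lit 1) (nat_lit 4) (nat_lit 429) (nat_lit 321) (nat_lit 270))))) (XT.nd (nat_lit 156) (nat_lit 0) (nat_lit 0) (XT.nd (nat_lit 78) (nat_lit 0) (nat_lit 0) (XT.lf (nat_lit 0) (nat_lit 264527558856) (nat_lit 152) (nat_lit 331472395690) (nat_lit 0) (nat_lit 262118892576) (nat_lit 1) (nat_lit 5) (nat_lit 3) (nat_lit 4) (nat_lit 1) (nat_lit 4) (nat_lit 430) (nat_lit 321) (nat_lit 269)) (XT.lf (nat_lit 0) (nat_lit 289233923928) (nat_lit 152) (nat_lit 350412959427) (nat_lit 0) (nat_lit 286821935494) (nat_lit 1) (nat_lit 5) (nat_lit 3) (nat_lit 4) (nat_lit 1) (nat_lit 4) (nat_lit 431) (nat_lit 321) (nat_lit 268))) (XT.nd (nat_lit 78) (nat_lit 0) (nat_lit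 0) (XT.lf (nat_lit 0) (nat_lit 315907375686) (nat_lit 152) (nat_lit 370887856004) (nat_lit 0) (nat_lit 313492311184) (nat_lit 1) (nat_lit 5) (nat_lit 3) (nat_lit 4) (nat_lit 1) (nat_lit 4) (nat_lit 432) (nat_lit 321) (nat_lit 267)) (XT.nd (nat_lit 78) (nat_lit 0) (nat_lit 0) (XT.lf (nat_lit 0) (nat_lit 344705979030) (nat_lit 152) (nat_lit 393018418140) (nat_lit 0) (nat_lit 342288066317) (nat_lit 1) (nat_lit 5) (nat_lit 3) (nat_lit 4) (nat_lit 1) (nat_lit 4) (nat_lit 433) (nat_lit 321) (nat_lit 266)) (XT.lf (nat_lit 0) (nat_lit 375800392350) (nat_lit 152) (nat_lit 416935789908) (nat_lit 0) (nat_lit 373379842404) (nat_lit 1) (nat_lit 5) (nat_lit 3) (nat_lit 4) (nat_lit 1) (nat_lit 4) (nat_lit 434) (nat_lit 321) (nat_lit 265)))))) (XT.nd (nat_lit 390) (nat_lit 0) (nat_lit 0) (XT.nd (nat_lit 156) (nat_lit 0) (nat_lit 0) (XT.nd (nat_lit 78) (nat_lit 0) (nat_lit 0) (XT.lf (nat_lit 0) (nat_lit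 409374878835) (nat_lit 152) (nat_lit 442781703881) (nat_lit 0) (nat_lit 406951887007) (nat_lit 1) (nat_lit 5) (nat_lit 3) (nat_lit 4) (nat_lit 1) (nat_lit 4) (nat_lit 435) (nat_lit 321) (nat_lit 264)) (XT.lf (nat_lit 0) (nat_lit 445628398407) (nat_lit 152) (nat_lit 470709321031) (nat_lit 0) (nat_lit 443203145576) (nat_lit 1) (nat_lit 5) (nat_lit 3) (nat_lit 4) (nat_lit 1) (nat_lit 4) (nat_lit 436) (nat_lit 321) (nat_lit 263))) (XT.nd (nat_lit 78) (nat_lit 0) (nat_lit 0) (XT.lf (nat_lit 0) (nat_lit 484775786735) (nat_lit 152) (nat_lit 500884138348) (nat_lit 0) (nat_lit 482348440385) (nat_lit 1) (nat_lit 5) (nat_lit 3) (nat_lit 4) (nat_lit 1) (nat_lit 4) (nat_lit 437) (nat_lit 321) (nat_lit 262)) (XT.nd (nat_lit 78) (nat_lit 0) (nat_lit 0) (XT.lf (nat_lit 0) (nat_lit 527049028345) (nat_lit 152) (nat_lit 533484969565) (nat_lit 0) (nat_lit 524619743549) (nat_lit 1) (nat_lit 5) (nat_lit 3)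 (nat_lit 4) (nat_lit 1) (nat_lit 4) (nat_lit 438) (nat_lit 321) (nat_lit 261)) (XT.lf (nat_lit 0) (nat_lit 572698631333) (nat_lit 152) (nat_lit 568705004792) (nat_lit 0) (nat_lit 570267551681) (nat_lit 1) (nat_lit 5) (nat_lit 3) (nat_lit 4) (nat_lit 1) (nat_lit 4) (nat_lit 439) (nat_lit 321) (nat_lit 260))))) (XT.nd (nat_lit 156) (nat_lit 0) (nat_lit 0) (XT.nd (nat_lit 78) (nat_lit 0) (nat_lit 0) (XT.lf (nat_lit 0) (nat_lit 621995111866) (nat_lit 152) (nat_lit 606752955349) (nat_lit 0) (nat_lit 619562370310) (nat_lit 1) (nat_lit 5) (nat_lit 3) (nat_lit 4) (nat_lit 1) (nat_lit 4) (nat_lit 440) (nat_lit 321) (nat_lit 259)) (XT.lf (nat_lit 0) (nat_lit 675230597237) (nat_lit 152) (nat_lit 647854290574) (nat_lit 0) (nat_lit 672796316881) (nat_lit 1) (nat_lit 5) (nat_lit 3) (nat_lit 4) (nat_lit 1) (nat_lit 4) (nat_lit 441) (nat_lit 321) (nat_lit 258))) (XT.nd (nat_lit 78) (nat_lit 0) (nat_lit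 0) (XT.lf (nat_lit 0) (nat_lit 732720556987) (nat_lit 152) (nat_lit 692252573933) (nat_lit 0) (nat_lit 730284851816) (nat_lit 1) (nat_lit 5) (nat_lit 3) (nat_lit 4) (nat_lit 1) (nat_lit 4) (nat_lit 442) (nat_lit 321) (nat_lit 257)) (XT.nd (nat_lit 78) (nat_lit 0) (nat_lit 0) (XT.lf (nat_lit 0) (nat_lit 794805672360) (nat_lit 152) (nat_lit 740210906366) (nat_lit 0) (nat_lit 792368647917) (nat_lit 1) (nat_lit 5) (nat_lit 3) (nat_lit 4) (nat_lit 1) (nat_lit 4) (nat_lit 443) (nat_lit 321) (nat_lit 256)) (XT.lf (nat_lit 0) (nat_lit 861853855151) (nat_lit 152) (nat_lit 792013485397) (nat_lit 0) (nat_lit 859415609159) (nat_lit 1) (nat_lit 5) (nat_lit 3) (nat_lit 4) (nat_lit 1) (nat_lit 4) (nat_lit 444) (nat_lit 321) (nat_lit 255))))))))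
noncomputable def xc46 : XT := (XT.nd (nat_lit 47970) (nat_lit 0) (nat_lit 152) (XT.nd (nat_lit 702) (nat_lit 0) (nat_lit 0) (XT.nd (nat_lit 312) (nat_lit 0) (nat_lit 0) (XT.nd (nat_lit 156) (nat_lit 0) (nat_lit 0) (XT.nd (nat_lit 78) (nat_lit 0) (nat_lit 0) (XT.lf (nat_lit 0) (nat_lit 934262427925) (nat_lit 152) (nat_lit 847967289274) (nat_lit 0) (nat_lit 931823050868) (nat_lit 1) (nat_lit 5) (nat_lit 3) (nat_lit 4) (nat_lit 1) (nat_lit 4) (nat_lit 445) (nat_lit 321) (nat_lit 254)) (XT.lf (nat_lit 0) (nat_lit 1012460478519) (nat_lit 152) (nat_lit 908403896093) (nat_lit 0) (nat_lit 1010020054181) (nat_lit 1) (nat_lit 5) (nat_lit 3) (nat_lit 4) (nat_lit 1) (nat_lit 4) (nat_lit 446) (nat_lit 321) (nat_lit 253))) (XT.nd (nat_lit 78) (nat_lit 0) (nat_lit 0) (XT.lf (nat_lit 0) (nat_lit 1096911402790) (nat_lit 152) (nat_lit 973681448709) (nat_lit 0) (nat_lit 1094470008747) (nat_lit 1) (nat_lit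 5) (nat_lit 3) (nat_lit 4) (nat_lit 1) (nat_lit 4) (nat_lit 447) (nat_lit 321) (nat_lit 252)) (XT.lf (nat_lit 0) (nat_lit 1188115650659) (nat_lit 152) (nat_lit 1044186777064) (nat_lit 0) (nat_lit 1185673358741) (nat_lit 1) (nat_lit 5) (nat_lit 3) (nat_lit 4) (nat_lit 1) (nat_lit 4) (nat_lit 448) (nat_lit 321) (nat_lit 251)))) (XT.nd (nat_lit 156) (nat_lit 0) (nat_lit 0) (XT.nd (nat_lit 78) (nat_lit 0) (nat_lit 0) (XT.lf (nat_lit 0) (nat_lit 1286613691743) (nat_lit 152) (nat_lit 1120337690510) (nat_lit 0) (nat_lit 1284170568459) (nat_lit 1) (nat_lit 5) (nat_lit 3) (nat_lit 4) (nat_lit 1) (nat_lit 4) (nat_lit 449) (nat_lit 321) (nat_lit 250)) (XT.lf (nat_lit 0) (nat_lit 1392989218137) (nat_lit 152) (nat_lit 1202585453721) (nat_lit 0) (nat_lit 1390545325071) (nat_lit 1) (nat_lit 5) (nat_lit 3) (nat_lit 4) (nat_lit 1) (nat_lit 4) (nat_lit 450) (nat_lit 321) (nat_lit 249))) (XT.nd (nat_lit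 78) (nat_lit 0) (nat_lit 0) (XT.lf (nat_lit 0) (nat_lit 1507872603332) (nat_lit 152) (nat_lit 1291417460849) (nat_lit 0) (nat_lit 1505427997503) (nat_lit 1) (nat_lit 5) (nat_lit 3) (nat_lit 4) (nat_lit 1) (nat_lit 4) (nat_lit 451) (nat_lit 321) (nat_lit 248)) (XT.nd (nat_lit 78) (nat_lit 0) (nat_lit 0) (XT.lf (nat_lit 0) (nat_lit 1631944637757) (nat_lit 152) (nat_lit 1387360123787) (nat_lit 0) (nat_lit 1629499371964) (nat_lit 1) (nat_lit 5) (nat_lit 3) (nat_lit 4) (nat_lit 1) (nat_lit 4) (nat_lit 452) (nat_lit 321) (nat_lit 247)) (XT.lf (nat_lit 0) (nat_lit 1765940563099) (nat_lit 152) (nat_lit 1490981991650) (nat_lit 0) (nat_lit 1763494686227) (nat_lit 1) (nat_lit 5) (nat_lit 3) (nat_lit 4) (nat_lit 1) (nat_lit 4) (nat_lit 453) (nat_lit 321) (nat_lit 246)))))) (XT.nd (nat_lit 390) (nat_lit 0) (nat_lit 0) (XT.nd (nat_lit 156) (nat_lit 0) (nat_lit 0) (XT.nd (nat_lit 78) (nat_lit 0) (nat_lit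 0) (XT.lf (nat_lit 0) (nat_lit 1910654429285) (nat_lit 152) (nat_lit 1602897119950) (nat_lit 0) (nat_lit 1908207986599) (nat_lit 1) (nat_lit 5) (nat_lit 3) (nat_lit 4) (nat_lit 1) (nat_lit 4) (nat_lit 454) (nat_lit 321) (nat_lit 245)) (XT.lf (nat_lit 0) (nat_lit 2066943799967) (nat_lit 152) (nat_lit 1723768709448) (nat_lit 0) (nat_lit 2064496833380) (nat_lit 1) (nat_lit 5) (nat_lit 3) (nat_lit 4) (nat_lit 1) (nat_lit 4) (nat_lit 455) (nat_lit 321) (nat_lit 244))) (XT.nd (nat_lit 78) (nat_lit 0) (nat_lit 0) (XT.lf (nat_lit 0) (nat_lit 2235734834379) (nat_lit 152) (nat_lit 1854313036230) (nat_lit 0) (nat_lit 2233287382697) (nat_lit 1) (nat_lit 5) (nat_lit 3) (nat_lit 4) (nat_lit 1) (nat_lit 4) (nat_lit 456) (nat_lit 321) (nat_lit 243)) (XT.nd (nat_lit 78) (nat_lit 0) (nat_lit 0) (XT.lf (nat_lit 0) (nat_lit 2418027775687) (nat_lit 152) (nat_lit 1995303696306) (nat_lit 0) (nat_lit 2415579874844)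 (nat_lit 1) (nat_lit 5) (nat_lit 3) (nat_lit 4) (nat_lit 1) (nat_lit 4) (nat_lit 457) (nat_lit 321) (nat_lit 242)) (XT.lf (nat_lit 0) (nat_lit 2614902878358) (nat_lit 152) (nat_lit 2147576189885) (nat_lit 0) (nat_lit 2612454561626) (nat_lit 1) (nat_lit 5) (nat_lit 3) (nat_lit 4) (nat_lit 1) (nat_lit 4) (nat_lit 458) (nat_lit 321) (nat_lit 241))))) (XT.nd (nat_lit 46644) (nat_lit 0) (nat_lit 836) (XT.nd (nat_lit 78) (nat_lit 0) (nat_lit 0) (XT.lf (nat_lit 0) (nat_lit 2827526809667) (nat_lit 152) (nat_lit 2312032872483) (nat_lit 0) (nat_lit 2825078107852) (nat_lit 1) (nat_lit 5) (nat_lit 3) (nat_lit 4) (nat_lit 1) (nat_lit 4) (nat_lit 459) (nat_lit 321) (nat_lit 240)) (XT.lf (nat_lit 0) (nat_lit 3057159563283) (nat_lit 152) (nat_lit 2489648302220) (nat_lit 0) (nat_lit 3054710504909) (nat_lit 1) (nat_lit 5) (nat_lit 3) (nat_lit 4) (nat_lit 1) (nat_lit 4) (nat_lit 460) (nat_lit 321) (nat_lit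 239))) (XT.nd (nat_lit 78) (nat_lit 76) (nat_lit 0) (XT.lf (nat_lit 0) (nat_lit 826023272) (nat_lit 152) (nat_lit 7802951872) (nat_lit 0) (nat_lit 826023272) (nat_lit 13) (nat_lit 5) (nat_lit 15) (nat_lit 4) (nat_lit 13) (nat_lit 4) (nat_lit 376) (nat_lit 322) (nat_lit 322)) (XT.nd (nat_lit 78) (nat_lit 76) (nat_lit 0) (XT.lf (nat_lit 0) (nat_lit 7826382777) (nat_lit 152) (nat_lit 4529374697) (nat_lit 0) (nat_lit 7559344333) (nat_lit 13) (nat_lit 5) (nat_lit 15) (nat_lit 4) (nat_lit 13) (nat_lit 4) (nat_lit 377) (nat_lit 322) (nat_lit 321)) (XT.lf (nat_lit 0) (nat_lit 7192117824) (nat_lit 76) (nat_lit 7166854978) (nat_lit 76) (nat_lit 6652558715) (nat_lit 12) (nat_lit 4) (nat_lit 13) (nat_lit 5) (nat_lit 13) (nat_lit 4) (nat_lit 378) (nat_lit 322) (nat_lit 320))))))) (XT.nd (nat_lit 780) (nat_lit 228) (nat_lit 0) (XT.nd (nat_lit 390) (nat_lit 228) (nat_lit 0) (XT.nd (nat_lit 156) (nat_lit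 76) (nat_lit 0) (XT.nd (nat_lit 78) (nat_lit 152) (nat_lit 0) (XT.lf (nat_lit 0) (nat_lit 19523195202) (nat_lit 76) (nat_lit 1714929548) (nat_lit 76) (nat_lit 971690860) (nat_lit 12) (nat_lit 4) (nat_lit 13) (nat_lit 5) (nat_lit 13) (nat_lit 4) (nat_lit 379) (nat_lit 322) (nat_lit 319)) (XT.lf (nat_lit 0) (nat_lit 4942253785) (nat_lit 152) (nat_lit 14491080418) (nat_lit 0) (nat_lit 4057788587) (nat_lit 10) (nat_lit 5) (nat_lit 12) (nat_lit 4) (nat_lit 10) (nat_lit 4) (nat_lit 380) (nat_lit 322) (nat_lit 318))) (XT.nd (nat_lit 78) (nat_lit 76) (nat_lit 0) (XT.lf (nat_lit 0) (nat_lit 11113425392) (nat_lit 152) (nat_lit 3725387862) (nat_lit 0) (nat_lit 10047218315) (nat_lit 10) (nat_lit 5) (nat_lit 12) (nat_lit 4) (nat_lit 10) (nat_lit 4) (nat_lit 381) (nat_lit 322) (nat_lit 317)) (XT.nd (nat_lit 78) (nat_lit 0) (nat_lit 0) (XT.lf (nat_lit 0) (nat_lit 7772727662) (nat_lit 76) (nat_lit 9930181956)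 (nat_lit 76) (nat_lit 8695695362) (nat_lit 9) (nat_lit 4) (nat_lit 10) (nat_lit 5) (nat_lit 10) (nat_lit 4) (nat_lit 382) (nat_lit 322) (nat_lit 316)) (XT.lf (nat_lit 0) (nat_lit 19898007994) (nat_lit 76) (nat_lit 4768384216) (nat_lit 76) (nat_lit 3378083255) (nat_lit 9) (nat_lit 4) (nat_lit 10) (nat_lit 5) (nat_lit 10) (nat_lit 4) (nat_lit 383) (nat_lit 322) (nat_lit 315))))) (XT.nd (nat_lit 156) (nat_lit 76) (nat_lit 0) (XT.nd (nat_lit 78) (nat_lit 0) (nat_lit 0) (XT.lf (nat_lit 0) (nat_lit 2087919791) (nat_lit 152) (nat_lit 27075257312) (nat_lit 0) (nat_lit 667018380) (nat_lit 7) (nat_lit 5) (nat_lit 9) (nat_lit 4) (nat_lit 7) (nat_lit 4) (nat_lit 384) (nat_lit 322) (nat_lit 314)) (XT.lf (nat_lit 0) (nat_lit 7919893486) (nat_lit 152) (nat_lit 17447693505) (nat_lit 0) (nat_lit 6375301606) (nat_lit 7) (nat_lit 5) (nat_lit 9) (nat_lit 4) (nat_lit 7) (nat_lit 4) (nat_lit 385) (nat_lit 322)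 (nat_lit 313))) (XT.nd (nat_lit 78) (nat_lit 76) (nat_lit 0) (XT.lf (nat_lit 0) (nat_lit 13995106766) (nat_lit 152) (nat_lit 7495397390) (nat_lit 0) (nat_lit 12335986675) (nat_lit 7) (nat_lit 5) (nat_lit 9) (nat_lit 4) (nat_lit 7) (nat_lit 4) (nat_lit 386) (nat_lit 322) (nat_lit 312)) (XT.nd (nat_lit 78) (nat_lit 0) (nat_lit 0) (XT.lf (nat_lit 0) (nat_lit 2990188965) (nat_lit 76) (nat_lit 17431286046) (nat_lit 76) (nat_lit 15666121315) (nat_lit 6) (nat_lit 4) (nat_lit 7) (nat_lit 5) (nat_lit 7) (nat_lit 4) (nat_lit 387) (nat_lit 322) (nat_lit 311)) (XT.lf (nat_lit 0) (nat_lit 14338859710) (nat_lit 76) (nat_lit 13026902108) (nat_lit 76) (nat_lit 11163547895) (nat_lit 6) (nat_lit 4) (nat_lit 7) (nat_lit 5) (nat_lit 7) (nat_lit 4) (nat_lit 388) (nat_lit 322) (nat_lit 310)))))) (XT.nd (nat_lit 390) (nat_lit 76) (nat_lit 0) (XT.nd (nat_lit 156) (nat_lit 152) (nat_lit 0) (XT.nd (nat_lit 78)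 (nat_lit 0) (nat_lit 0) (XT.lf (nat_lit 0) (nat_lit 26223171882) (nat_lit 76) (nat_lit 8456189737) (nat_lit 76) (nat_lit 6501919337) (nat_lit 6) (nat_lit 4) (nat_lit 7) (nat_lit 5) (nat_lit 7) (nat_lit 4) (nat_lit 389) (nat_lit 322) (nat_lit 309)) (XT.lf (nat_lit 0) (nat_lit 38713551036) (nat_lit 76) (nat_lit 3692063229) (nat_lit 76) (nat_lit 1653611175) (nat_lit 6) (nat_lit 4) (nat_lit 7) (nat_lit 5) (nat_lit 7) (nat_lit 4) (nat_lit 390) (nat_lit 322) (nat_lit 308))) (XT.nd (nat_lit 78) (nat_lit 0) (nat_lit 0) (XT.lf (nat_lit 0) (nat_lit 3392810719) (nat_lit 152) (nat_lit 42335379703) (nat_lit 0) (nat_lit 1433182913) (nat_lit 4) (nat_lit 5) (nat_lit 6) (nat_lit 4) (nat_lit 4) (nat_lit 4) (nat_lit 391) (nat_lit 322) (nat_lit 307)) (XT.nd (nat_lit 78) (nat_lit 0) (nat_lit 0) (XT.lf (nat_lit 0) (nat_lit 8836236030) (nat_lit 152) (nat_lit 34855645093) (nat_lit 0) (nat_lit 6809782112) (nat_lit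 4) (nat_lit 5) (nat_lit 6) (nat_lit 4) (nat_lit 4) (nat_lit 4) (nat_lit 392) (nat_lit 322) (nat_lit 306)) (XT.lf (nat_lit 0) (nat_lit 14563999524) (nat_lit 152) (nat_lit 27081613330) (nat_lit 0) (nat_lit 12475669577) (nat_lit 4) (nat_lit 5) (nat_lit 6) (nat_lit 4) (nat_lit 4) (nat_lit 4) (nat_lit 393) (nat_lit 322) (nat_lit 305))))) (XT.nd (nat_lit 156) (nat_lit 76) (nat_lit 0) (XT.nd (nat_lit 78) (nat_lit 0) (nat_lit 0) (XT.lf (nat_lit 0) (nat_lit 20610043504) (nat_lit 152) (nat_lit 18967216078) (nat_lit 0) (nat_lit 18464420938) (nat_lit 4) (nat_lit 5) (nat_lit 6) (nat_lit 4) (nat_lit 4) (nat_lit 4) (nat_lit 394) (nat_lit 322) (nat_lit 304)) (XT.lf (nat_lit 0) (nat_lit 27010196379) (nat_lit 152) (nat_lit 10464368021) (nat_lit 0) (nat_lit 24811525091) (nat_lit 4) (nat_lit 5) (nat_lit 6) (nat_lit 4) (nat_lit 4) (nat_lit 4) (nat_lit 395) (nat_lit 322) (nat_lit 303))) (XT.nd (nat_lit 78)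 (nat_lit 76) (nat_lit 0) (XT.lf (nat_lit 0) (nat_lit 33802384981) (nat_lit 152) (nat_lit 1522681909) (nat_lit 0) (nat_lit 31554594506) (nat_lit 4) (nat_lit 5) (nat_lit 6) (nat_lit 4) (nat_lit 4) (nat_lit 4) (nat_lit 396) (nat_lit 322) (nat_lit 302)) (XT.nd (nat_lit 78) (nat_lit 0) (nat_lit 0) (XT.lf (nat_lit 0) (nat_lit 8327400314) (nat_lit 76) (nat_lit 32899733178) (nat_lit 76) (nat_lit 30606461975) (nat_lit 3) (nat_lit 4) (nat_lit 4) (nat_lit 5) (nat_lit 4) (nat_lit 4) (nat_lit 397) (nat_lit 322) (nat_lit 301)) (XT.lf (nat_lit 0) (nat_lit 18834234777) (nat_lit 76) (nat_lit 30345160103) (nat_lit 76) (nat_lit 28009777114) (nat_lit 3) (nat_lit 4) (nat_lit 4) (nat_lit 5) (nat_lit 4) (nat_lit 4) (nat_lit 398) (nat_lit 322) (nat_lit 300))))))))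
noncomputable def xc47 : XT := (XT.nd (nat_lit 1482) (nat_lit 0) (nat_lit 0) (XT.nd (nat_lit 702) (nat_lit 0) (nat_lit 0) (XT.nd (nat_lit 312) (nat_lit 152) (nat_lit 0) (XT.nd (nat_lit 156) (nat_lit 0) (nat_lit 0) (XT.nd (nat_lit 78) (nat_lit 0) (nat_lit 0) (XT.lf (nat_lit 0) (nat_lit 29979902471) (nat_lit 76) (nat_lit 27687842277) (nat_lit 76) (nat_lit 25313466894) (nat_lit 3) (nat_lit 4) (nat_lit 4) (nat_lit 5) (nat_lit 4) (nat_lit 4) (nat_lit 399) (nat_lit 322) (nat_lit 299)) (XT.lf (nat_lit 0) (nat_lit 41830451798) (nat_lit 76) (nat_lit 24912032631) (nat_lit 76) (nat_lit 22501553179) (nat_lit 3) (nat_lit 4) (nat_lit 4) (nat_lit 5) (nat_lit 4) (nat_lit 4) (nat_lit 400) (nat_lit 322) (nat_lit 298))) (XT.nd (nat_lit 78) (nat_lit 0) (nat_lit 0) (XT.lf (nat_lit 0) (nat_lit 54456108233) (nat_lit 76) (nat_lit 22001281922) (nat_lit 76) (nat_lit 19557372776) (nat_lit 3) (nat_lit 4) (nat_lit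 4) (nat_lit 5) (nat_lit 4) (nat_lit 4) (nat_lit 401) (nat_lit 322) (nat_lit 297)) (XT.lf (nat_lit 0) (nat_lit 67931690483) (nat_lit 76) (nat_lit 18938341257) (nat_lit 76) (nat_lit 16463478692) (nat_lit 3) (nat_lit 4) (nat_lit 4) (nat_lit 5) (nat_lit 4) (nat_lit 4) (nat_lit 402) (nat_lit 322) (nat_lit 296)))) (XT.nd (nat_lit 156) (nat_lit 152) (nat_lit 0) (XT.nd (nat_lit 78) (nat_lit 0) (nat_lit 0) (XT.lf (nat_lit 0) (nat_lit 82337053849) (nat_lit 76) (nat_lit 15705059878) (nat_lit 76) (nat_lit 13201536739) (nat_lit 3) (nat_lit 4) (nat_lit 4) (nat_lit 5) (nat_lit 4) (nat_lit 4) (nat_lit 403) (nat_lit 322) (nat_lit 295)) (XT.lf (nat_lit 0) (nat_lit 97757563448) (nat_lit 76) (nat_lit 12282277597) (nat_lit 76) (nat_lit 9752216890) (nat_lit 3) (nat_lit 4) (nat_lit 4) (nat_lit 5) (nat_lit 4) (nat_lit 4) (nat_lit 404) (nat_lit 322) (nat_lit 294))) (XT.nd (nat_lit 78) (nat_lit 152) (nat_lit 0)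 (XT.lf (nat_lit 0) (nat_lit 114284600077) (nat_lit 76) (nat_lit 8649711261) (nat_lit 76) (nat_lit 6095078732) (nat_lit 3) (nat_lit 4) (nat_lit 4) (nat_lit 5) (nat_lit 4) (nat_lit 4) (nat_lit 405) (nat_lit 322) (nat_lit 293)) (XT.nd (nat_lit 78) (nat_lit 152) (nat_lit 0) (XT.lf (nat_lit 0) (nat_lit 132016101732) (nat_lit 76) (nat_lit 4785834551) (nat_lit 76) (nat_lit 2208450334) (nat_lit 3) (nat_lit 4) (nat_lit 4) (nat_lit 5) (nat_lit 4) (nat_lit 4) (nat_lit 406) (nat_lit 322) (nat_lit 292)) (XT.lf (nat_lit 0) (nat_lit 1280575965) (nat_lit 76) (nat_lit 584340649) (nat_lit 152) (nat_lit 147923099105) (nat_lit 1) (nat_lit 5) (nat_lit 2) (nat_lit 5) (nat_lit 3) (nat_lit 4) (nat_lit 407) (nat_lit 322) (nat_lit 291)))))) (XT.nd (nat_lit 390) (nat_lit 0) (nat_lit 0) (XT.nd (nat_lit 156) (nat_lit 0) (nat_lit 0) (XT.nd (nat_lit 78) (nat_lit 0) (nat_lit 0) (XT.lf (nat_lit 0) (nat_lit 6380794881)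 (nat_lit 152) (nat_lit 151066838193) (nat_lit 0) (nat_lit 3956761085) (nat_lit 1) (nat_lit 5) (nat_lit 3) (nat_lit 4) (nat_lit 1) (nat_lit 4) (nat_lit 408) (nat_lit 322) (nat_lit 290)) (XT.lf (nat_lit 0) (nat_lit 11221895179) (nat_lit 152) (nat_lit 153949937457) (nat_lit 0) (nat_lit 8781138214) (nat_lit 1) (nat_lit 5) (nat_lit 3) (nat_lit 4) (nat_lit 1) (nat_lit 4) (nat_lit 409) (nat_lit 322) (nat_lit 289))) (XT.nd (nat_lit 78) (nat_lit 0) (nat_lit 0) (XT.lf (nat_lit 0) (nat_lit 16402852105) (nat_lit 152) (nat_lit 157159769173) (nat_lit 0) (nat_lit 13946610724) (nat_lit 1) (nat_lit 5) (nat_lit 3) (nat_lit 4) (nat_lit 1) (nat_lit 4) (nat_lit 410) (nat_lit 322) (nat_lit 288)) (XT.nd (nat_lit 78) (nat_lit 0) (nat_lit 0) (XT.lf (nat_lit 0) (nat_lit 21954367626) (nat_lit 152) (nat_lit 160715354566) (nat_lit 0) (nat_lit 19483788822) (nat_lit 1) (nat_lit 5) (nat_lit 3) (nat_lit 4) (nat_lit 1)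 (nat_lit 4) (nat_lit 411) (nat_lit 322) (nat_lit 287)) (XT.lf (nat_lit 0) (nat_lit 27909339611) (nat_lit 152) (nat_lit 164637763771) (nat_lit 0) (nat_lit 25425485416) (nat_lit 1) (nat_lit 5) (nat_lit 3) (nat_lit 4) (nat_lit 1) (nat_lit 4) (nat_lit 412) (nat_lit 322) (nat_lit 286))))) (XT.nd (nat_lit 156) (nat_lit 0) (nat_lit 0) (XT.nd (nat_lit 78) (nat_lit 0) (nat_lit 0) (XT.lf (nat_lit 0) (nat_lit 34303056783) (nat_lit 152) (nat_lit 168950240695) (nat_lit 0) (nat_lit 31806910560) (nat_lit 1) (nat_lit 5) (nat_lit 3) (nat_lit 4) (nat_lit 1) (nat_lit 4) (nat_lit 413) (nat_lit 322) (nat_lit 285)) (XT.lf (nat_lit 0) (nat_lit 41173407837) (nat_lit 152) (nat_lit 173678340757) (nat_lit 0) (nat_lit 38665880105) (nat_lit 1) (nat_lit 5) (nat_lit 3) (nat_lit 4) (nat_lit 1) (nat_lit 4) (nat_lit 414) (nat_lit 322) (nat_lit 284))) (XT.nd (nat_lit 78) (nat_lit 0) (nat_lit 0) (XT.lf (nat_lit 0) (nat_lit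 48561105964) (nat_lit 152) (nat_lit 178850082326) (nat_lit 0) (nat_lit 46043039799) (nat_lit 1) (nat_lit 5) (nat_lit 3) (nat_lit 4) (nat_lit 1) (nat_lit 4) (nat_lit 415) (nat_lit 322) (nat_lit 283)) (XT.nd (nat_lit 78) (nat_lit 0) (nat_lit 0) (XT.lf (nat_lit 0) (nat_lit 56509930116) (nat_lit 152) (nat_lit 184496112762) (nat_lit 0) (nat_lit 53982106142) (nat_lit 1) (nat_lit 5) (nat_lit 3) (nat_lit 4) (nat_lit 1) (nat_lit 4) (nat_lit 416) (nat_lit 322) (nat_lit 282)) (XT.lf (nat_lit 0) (nat_lit 65066984436) (nat_lit 152) (nat_lit 190649890022) (nat_lit 0) (nat_lit 62530125453) (nat_lit 1) (nat_lit 5) (nat_lit 3) (nat_lit 4) (nat_lit 1) (nat_lit 4) (nat_lit 417) (nat_lit 322) (nat_lit 281))))))) (XT.nd (nat_lit 780) (nat_lit 0) (nat_lit 0) (XT.nd (nat_lit 390) (nat_lit 0) (nat_lit 0) (XT.nd (nat_lit 156) (nat_lit 0) (nat_lit 0) (XT.nd (nat_lit 78) (nat_lit 0) (nat_lit 0) (XT.lf (nat_lit 0)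 (nat_lit 74282977393) (nat_lit 152) (nat_lit 197347880934) (nat_lit 0) (nat_lit 71737752663) (nat_lit 1) (nat_lit 5) (nat_lit 3) (nat_lit 4) (nat_lit 1) (nat_lit 4) (nat_lit 418) (nat_lit 322) (nat_lit 280)) (XT.lf (nat_lit 0) (nat_lit 84212522281) (nat_lit 152) (nat_lit 204629777295) (nat_lit 0) (nat_lit 81659551487) (nat_lit 1) (nat_lit 5) (nat_lit 3) (nat_lit 4) (nat_lit 1) (nat_lit 4) (nat_lit 419) (nat_lit 322) (nat_lit 279))) (XT.nd (nat_lit 78) (nat_lit 0) (nat_lit 0) (XT.lf (nat_lit 0) (nat_lit 94914460845) (nat_lit 152) (nat_lit 212538731086) (nat_lit 0) (nat_lit 92354317771) (nat_lit 1) (nat_lit 5) (nat_lit 3) (nat_lit 4) (nat_lit 1) (nat_lit 4) (nat_lit 420) (nat_lit 322) (nat_lit 278)) (XT.nd (nat_lit 78) (nat_lit 0) (nat_lit 0) (XT.lf (nat_lit 0) (nat_lit 106452211982) (nat_lit 152) (nat_lit 221121610179) (nat_lit 0) (nat_lit 103885427907) (nat_lit 1) (nat_lit 5) (nat_lit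 3) (nat_lit 4) (nat_lit 1) (nat_lit 4) (nat_lit 421) (nat_lit 322) (nat_lit 277)) (XT.lf (nat_lit 0) (nat_lit 118894147550) (nat_lit 152) (nat_lit 230429276081) (nat_lit 0) (nat_lit 116321214400) (nat_lit 1) (nat_lit 5) (nat_lit 3) (nat_lit 4) (nat_lit 1) (nat_lit 4) (nat_lit 422) (nat_lit 322) (nat_lit 276))))) (XT.nd (nat_lit 156) (nat_lit 0) (nat_lit 0) (XT.nd (nat_lit 78) (nat_lit 0) (nat_lit 0) (XT.lf (nat_lit 0) (nat_lit 132313997537) (nat_lit 152) (nat_lit 240516885330) (nat_lit 0) (nat_lit 129735370799) (nat_lit 1) (nat_lit 5) (nat_lit 3) (nat_lit 4) (nat_lit 1) (nat_lit 4) (nat_lit 423) (nat_lit 322) (nat_lit 275)) (XT.lf (nat_lit 0) (nat_lit 146791286980) (nat_lit 152) (nat_lit 251444216352) (nat_lit 0) (nat_lit 144207388402) (nat_lit 1) (nat_lit 5) (nat_lit 3) (nat_lit 4) (nat_lit 1) (nat_lit 4) (nat_lit 424) (nat_lit 322) (nat_lit 274))) (XT.nd (nat_lit 78) (nat_lit 0) (nat_lit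 0) (XT.lf (nat_lit 0) (nat_lit 162411807225) (nat_lit 152) (nat_lit 263276023701) (nat_lit 0) (nat_lit 159823027314) (nat_lit 1) (nat_lit 5) (nat_lit 3) (nat_lit 4) (nat_lit 1) (nat_lit 4) (nat_lit 425) (nat_lit 322) (nat_lit 273)) (XT.nd (nat_lit 78) (nat_lit 0) (nat_lit 0) (XT.lf (nat_lit 0) (nat_lit 179268124317) (nat_lit 152) (nat_lit 276082421790) (nat_lit 0) (nat_lit 176674824652) (nat_lit 1) (nat_lit 5) (nat_lit 3) (nat_lit 4) (nat_lit 1) (nat_lit 4) (nat_lit 426) (nat_lit 322) (nat_lit 272)) (XT.lf (nat_lit 0) (nat_lit 197460127543) (nat_lit 152) (nat_lit 289939300386) (nat_lit 0) (nat_lit 194862642921) (nat_lit 1) (nat_lit 5) (nat_lit 3) (nat_lit 4) (nat_lit 1) (nat_lit 4) (nat_lit 427) (nat_lit 322) (nat_lit 271)))))) (XT.nd (nat_lit 390) (nat_lit 0) (nat_lit 0) (XT.nd (nat_lit 156) (nat_lit 0) (nat_lit 0) (XT.nd (nat_lit 78) (nat_lit 0) (nat_lit 0) (XT.lf (nat_lit 0) (nat_lit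 217095621366) (nat_lit 152) (nat_lit 304928774325) (nat_lit 0) (nat_lit 214494261783) (nat_lit 1) (nat_lit 5) (nat_lit 3) (nat_lit 4) (nat_lit 1) (nat_lit 4) (nat_lit 428) (nat_lit 322) (nat_lit 270)) (XT.lf (nat_lit 0) (nat_lit 238290964268) (nat_lit 152) (nat_lit 321139670120) (nat_lit 0) (nat_lit 235686016759) (nat_lit 1) (nat_lit 5) (nat_lit 3) (nat_lit 4) (nat_lit 1) (nat_lit 4) (nat_lit 429) (nat_lit 322) (nat_lit 269))) (XT.nd (nat_lit 78) (nat_lit 0) (nat_lit 0) (XT.lf (nat_lit 0) (nat_lit 261171758281) (nat_lit 152) (nat_lit 338668052338) (nat_lit 0) (nat_lit 258563488619) (nat_lit 1) (nat_lit 5) (nat_lit 3) (nat_lit 4) (nat_lit 1) (nat_lit 4) (nat_lit 430) (nat_lit 322) (nat_lit 268)) (XT.nd (nat_lit 78) (nat_lit 0) (nat_lit 0) (XT.lf (nat_lit 0) (nat_lit 285873593295) (nat_lit 152) (nat_lit 357617792873) (nat_lit 0) (nat_lit 283262247565) (nat_lit 1) (nat_lit 5) (nat_lit 3)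 (nat_lit 4) (nat_lit 1) (nat_lit 4) (nat_lit 431) (nat_lit 322) (nat_lit 267)) (XT.lf (nat_lit 0) (nat_lit 312542850556) (nat_lit 152) (nat_lit 378101186485) (nat_lit 0) (nat_lit 309928656614) (nat_lit 1) (nat_lit 5) (nat_lit 3) (nat_lit 4) (nat_lit 1) (nat_lit 4) (nat_lit 432) (nat_lit 322) (nat_lit 266))))) (XT.nd (nat_lit 156) (nat_lit 0) (nat_lit 0) (XT.nd (nat_lit 78) (nat_lit 0) (nat_lit 0) (XT.lf (nat_lit 0) (nat_lit 341337570106) (nat_lit 152) (nat_lit 400239616247) (nat_lit 0) (nat_lit 338720738931) (nat_lit 1) (nat_lit 5) (nat_lit 3) (nat_lit 4) (nat_lit 1) (nat_lit 4) (nat_lit 433) (nat_lit 322) (nat_lit 265)) (XT.lf (nat_lit 0) (nat_lit 372428387320) (nat_lit 152) (nat_lit 424164272853) (nat_lit 0) (nat_lit 369809114263) (nat_lit 1) (nat_lit 5) (nat_lit 3) (nat_lit 4) (nat_lit 1) (nat_lit 4) (nat_lit 434) (nat_lit 322) (nat_lit 264))) (XT.nd (nat_lit 78) (nat_lit 0) (nat_lit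 0) (XT.lf (nat_lit 0) (nat_lit 405999544078) (nat_lit 152) (nat_lit 450016932047) (nat_lit 0) (nat_lit 403378010019) (nat_lit 1) (nat_lit 5) (nat_lit 3) (nat_lit 4) (nat_lit 1) (nat_lit 4) (nat_lit 435) (nat_lit 322) (nat_lit 263)) (XT.nd (nat_lit 78) (nat_lit 0) (nat_lit 0) (XT.lf (nat_lit 0) (nat_lit 442249980568) (nat_lit 152) (nat_lit 477950794771) (nat_lit 0) (nat_lit 439626352989) (nat_lit 1) (nat_lit 5) (nat_lit 3) (nat_lit 4) (nat_lit 1) (nat_lit 4) (nat_lit 436) (nat_lit 322) (nat_lit 262)) (XT.lf (nat_lit 0) (nat_lit 481394514192) (nat_lit 152) (nat_lit 508131395028) (nat_lit 0) (nat_lit 478768948168) (nat_lit 1) (nat_lit 5) (nat_lit 3) (nat_lit 4) (nat_lit 1) (nat_lit 4) (nat_lit 437) (nat_lit 322) (nat_lit 261))))))))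
noncomputable def xc48 : XT := (XT.nd (nat_lit 1482) (nat_lit 0) (nat_lit 0) (XT.nd (nat_lit 702) (nat_lit 0) (nat_lit 0) (XT.nd (nat_lit 312) (nat_lit 0) (nat_lit 0) (XT.nd (nat_lit 156) (nat_lit 0) (nat_lit 0) (XT.nd (nat_lit 78) (nat_lit 0) (nat_lit 0) (XT.lf (nat_lit 0) (nat_lit 523665112557) (nat_lit 152) (nat_lit 540737580818) (nat_lit 0) (nat_lit 521037751676) (nat_lit 1) (nat_lit 5) (nat_lit 3) (nat_lit 4) (nat_lit 1) (nat_lit 4) (nat_lit 438) (nat_lit 322) (nat_lit 260)) (XT.lf (nat_lit 0) (nat_lit 569312268096) (nat_lit 152) (nat_lit 575962573984) (nat_lit 0) (nat_lit 566683245312) (nat_lit 1) (nat_lit 5) (nat_lit 3) (nat_lit 4) (nat_lit 1) (nat_lit 4) (nat_lit 439) (nat_lit 322) (nat_lit 259))) (XT.nd (nat_lit 78) (nat_lit 0) (nat_lit 0) (XT.lf (nat_lit 0) (nat_lit 618606482473) (nat_lit 152) (nat_lit 614015115225) (nat_lit 0) (nat_lit 615975920888) (nat_lit 1) (nat_lit 5) (nat_lit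 3) (nat_lit 4) (nat_lit 1) (nat_lit 4) (nat_lit 440) (nat_lit 322) (nat_lit 258)) (XT.lf (nat_lit 0) (nat_lit 671839869550) (nat_lit 152) (nat_lit 655120701083) (nat_lit 0) (nat_lit 669207883151) (nat_lit 1) (nat_lit 5) (nat_lit 3) (nat_lit 4) (nat_lit 1) (nat_lit 4) (nat_lit 441) (nat_lit 322) (nat_lit 257)))) (XT.nd (nat_lit 156) (nat_lit 0) (nat_lit 0) (XT.nd (nat_lit 78) (nat_lit 0) (nat_lit 0) (XT.lf (nat_lit 0) (nat_lit 729327886436) (nat_lit 152) (nat_lit 699522920214) (nat_lit 0) (nat_lit 726694580764) (nat_lit 1) (nat_lit 5) (nat_lit 3) (nat_lit 4) (nat_lit 1) (nat_lit 4) (nat_lit 442) (nat_lit 322) (nat_lit 256)) (XT.lf (nat_lit 0) (nat_lit 791411202861) (nat_lit 152) (nat_lit 747484896879) (nat_lit 0) (nat_lit 788776675640) (nat_lit 1) (nat_lit 5) (nat_lit 3) (nat_lit 4) (nat_lit 1) (nat_lit 4) (nat_lit 443) (nat_lit 322) (nat_lit 255))) (XT.nd (nat_lit 78) (nat_lit 0) (nat_lit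 0) (XT.lf (nat_lit 0) (nat_lit 858457719960) (nat_lit 152) (nat_lit 799290850201) (nat_lit 0) (nat_lit 855822061675) (nat_lit 1) (nat_lit 5) (nat_lit 3) (nat_lit 4) (nat_lit 1) (nat_lit 4) (nat_lit 444) (nat_lit 322) (nat_lit 254)) (XT.nd (nat_lit 78) (nat_lit 0) (nat_lit 0) (XT.lf (nat_lit 0) (nat_lit 930864750425) (nat_lit 152) (nat_lit 855247778420) (nat_lit 0) (nat_lit 928228044859) (nat_lit 1) (nat_lit 5) (nat_lit 3) (nat_lit 4) (nat_lit 1) (nat_lit 4) (nat_lit 445) (nat_lit 322) (nat_lit 253)) (XT.lf (nat_lit 0) (nat_lit 1009061372956) (nat_lit 152) (nat_lit 915687278148) (nat_lit 0) (nat_lit 1006423697685) (nat_lit 1) (nat_lit 5) (nat_lit 3) (nat_lit 4) (nat_lit 1) (nat_lit 4) (nat_lit 446) (nat_lit 322) (nat_lit 252)))))) (XT.nd (nat_lit 390) (nat_lit 0) (nat_lit 0) (XT.nd (nat_lit 156) (nat_lit 0) (nat_lit 0) (XT.nd (nat_lit 78) (nat_lit 0) (nat_lit 0) (XT.lf (nat_lit 0) (nat_lit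 1093510974947) (nat_lit 152) (nat_lit 980967509384) (nat_lit 0) (nat_lit 1090872401800) (nat_lit 1) (nat_lit 5) (nat_lit 3) (nat_lit 4) (nat_lit 1) (nat_lit 4) (nat_lit 447) (nat_lit 322) (nat_lit 251)) (XT.lf (nat_lit 0) (nat_lit 1184713998482) (nat_lit 152) (nat_lit 1051475317942) (nat_lit 0) (nat_lit 1182074593970) (nat_lit 1) (nat_lit 5) (nat_lit 3) (nat_lit 4) (nat_lit 1) (nat_lit 4) (nat_lit 448) (nat_lit 322) (nat_lit 250))) (XT.nd (nat_lit 78) (nat_lit 0) (nat_lit 0) (XT.lf (nat_lit 0) (nat_lit 1283210905923) (nat_lit 152) (nat_lit 1127628527874) (nat_lit 0) (nat_lit 1280570731628) (nat_lit 1) (nat_lit 5) (nat_lit 3) (nat_lit 4) (nat_lit 1) (nat_lit 4) (nat_lit 449) (nat_lit 322) (nat_lit 249)) (XT.nd (nat_lit 78) (nat_lit 0) (nat_lit 0) (XT.lf (nat_lit 0) (nat_lit 1389585382649) (nat_lit 152) (nat_lit 1209878417460) (nat_lit 0) (nat_lit 1386944495592) (nat_lit 1) (nat_lit 5) (nat_lit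 3) (nat_lit 4) (nat_lit 1) (nat_lit 4) (nat_lit 450) (nat_lit 322) (nat_lit 248)) (XT.lf (nat_lit 0) (nat_lit 1504467795928) (nat_lit 152) (nat_lit 1298712393453) (nat_lit 0) (nat_lit 1501826248906) (nat_lit 1) (nat_lit 5) (nat_lit 3) (nat_lit 4) (nat_lit 1) (nat_lit 4) (nat_lit 451) (nat_lit 322) (nat_lit 247))))) (XT.nd (nat_lit 156) (nat_lit 0) (nat_lit 0) (XT.nd (nat_lit 78) (nat_lit 0) (nat_lit 0) (XT.lf (nat_lit 0) (nat_lit 1628538930431) (nat_lit 152) (nat_lit 1394656879415) (nat_lit 0) (nat_lit 1625896772330) (nat_lit 1) (nat_lit 5) (nat_lit 3) (nat_lit 4) (nat_lit 1) (nat_lit 4) (nat_lit 452) (nat_lit 322) (nat_lit 246)) (XT.lf (nat_lit 0) (nat_lit 1762534022512) (nat_lit 152) (nat_lit 1498280435262) (nat_lit 0) (nat_lit 1759891298598) (nat_lit 1) (nat_lit 5) (nat_lit 3) (nat_lit 4) (nat_lit 1) (nat_lit 4) (nat_lit 453) (nat_lit 322) (nat_lit 245))) (XT.nd (nat_lit 78) (nat_lit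 0) (nat_lit 0) (XT.lf (nat_lit 0) (nat_lit 1907247117160) (nat_lit 152) (nat_lit 1610197126511) (nat_lit 0) (nat_lit 1904603869344) (nat_lit 1) (nat_lit 5) (nat_lit 3) (nat_lit 4) (nat_lit 1) (nat_lit 4) (nat_lit 454) (nat_lit 322) (nat_lit 244)) (XT.nd (nat_lit 78) (nat_lit 0) (nat_lit 0) (XT.lf (nat_lit 0) (nat_lit 2063535773455) (nat_lit 152) (nat_lit 1731070163184) (nat_lit 0) (nat_lit 2060892040545) (nat_lit 1) (nat_lit 5) (nat_lit 3) (nat_lit 4) (nat_lit 1) (nat_lit 4) (nat_lit 455) (nat_lit 322) (nat_lit 243)) (XT.lf (nat_lit 0) (nat_lit 2232326146397) (nat_lit 152) (nat_lit 1861615829943) (nat_lit 0) (nat_lit 2229681964326) (nat_lit 1) (nat_lit 5) (nat_lit 3) (nat_lit 4) (nat_lit 1) (nat_lit 4) (nat_lit 456) (nat_lit 322) (nat_lit 242))))))) (XT.nd (nat_lit 47034) (nat_lit 0) (nat_lit 380) (XT.nd (nat_lit 46644) (nat_lit 0) (nat_lit 836) (XT.nd (nat_lit 156) (nat_lit 0) (nat_lit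 0) (XT.nd (nat_lit 78) (nat_lit 0) (nat_lit 0) (XT.lf (nat_lit 0) (nat_lit 2414618475233) (nat_lit 152) (nat_lit 2002607730739) (nat_lit 0) (nat_lit 2411973877272) (nat_lit 1) (nat_lit 5) (nat_lit 3) (nat_lit 4) (nat_lit 1) (nat_lit 4) (nat_lit 457) (nat_lit 322) (nat_lit 241)) (XT.lf (nat_lit 0) (nat_lit 2611493010801) (nat_lit 152) (nat_lit 2154881373132) (nat_lit 0) (nat_lit 2608848027757) (nat_lit 1) (nat_lit 5) (nat_lit 3) (nat_lit 4) (nat_lit 1) (nat_lit 4) (nat_lit 458) (nat_lit 322) (nat_lit 240))) (XT.nd (nat_lit 78) (nat_lit 0) (nat_lit 0) (XT.lf (nat_lit 0) (nat_lit 2824116417015) (nat_lit 152) (nat_lit 2319339119447) (nat_lit 0) (nat_lit 2821471077412) (nat_lit 1) (nat_lit 5) (nat_lit 3) (nat_lit 4) (nat_lit 1) (nat_lit 4) (nat_lit 459) (nat_lit 322) (nat_lit 239)) (XT.lf (nat_lit 0) (nat_lit 3053748684430) (nat_lit 152) (nat_lit 2496955534107) (nat_lit 0) (nat_lit 3051103014681)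 (nat_lit 1) (nat_lit 5) (nat_lit 3) (nat_lit 4) (nat_lit 1) (nat_lit 4) (nat_lit 460) (nat_lit 322) (nat_lit 238)))) (XT.nd (nat_lit 156) (nat_lit 228) (nat_lit 0) (XT.nd (nat_lit 78) (nat_lit 76) (nat_lit 0) (XT.lf (nat_lit 0) (nat_lit 3787397763) (nat_lit 152) (nat_lit 973987265) (nat_lit 0) (nat_lit 3787397763) (nat_lit 16) (nat_lit 5) (nat_lit 18) (nat_lit 4) (nat_lit 16) (nat_lit 4) (nat_lit 374) (nat_lit 323) (nat_lit 323)) (XT.lf (nat_lit 0) (nat_lit 9726461385) (nat_lit 76) (nat_lit 4278057946) (nat_lit 76) (nat_lit 3966584305) (nat_lit 15) (nat_lit 4) (nat_lit 16) (nat_lit 5) (nat_lit 16) (nat_lit 4) (nat_lit 375) (nat_lit 323) (nat_lit 322))) (XT.nd (nat_lit 78) (nat_lit 76) (nat_lit 0) (XT.lf (nat_lit 0) (nat_lit 1780180367) (nat_lit 152) (nat_lit 15917929096) (nat_lit 0) (nat_lit 1224740403) (nat_lit 13) (nat_lit 5) (nat_lit 15) (nat_lit 4) (nat_lit 13) (nat_lit 4) (nat_lit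 376) (nat_lit 323) (nat_lit 321)) (XT.nd (nat_lit 78) (nat_lit 76) (nat_lit 0) (XT.lf (nat_lit 0) (nat_lit 7806120585) (nat_lit 152) (nat_lit 5130312409) (nat_lit 0) (nat_lit 7003422801) (nat_lit 13) (nat_lit 5) (nat_lit 15) (nat_lit 4) (nat_lit 13) (nat_lit 4) (nat_lit 377) (nat_lit 323) (nat_lit 320)) (XT.lf (nat_lit 0) (nat_lit 6277937673) (nat_lit 76) (nat_lit 7901383165) (nat_lit 76) (nat_lit 6869742957) (nat_lit 12) (nat_lit 4) (nat_lit 13) (nat_lit 5) (nat_lit 13) (nat_lit 4) (nat_lit 378) (nat_lit 323) (nat_lit 319)))))) (XT.nd (nat_lit 390) (nat_lit 228) (nat_lit 0) (XT.nd (nat_lit 156) (nat_lit 76) (nat_lit 0) (XT.nd (nat_lit 78) (nat_lit 152) (nat_lit 0) (XT.lf (nat_lit 0) (nat_lit 18348276045) (nat_lit 76) (nat_lit 2576700294) (nat_lit 76) (nat_lit 1333076359) (nat_lit 12) (nat_lit 4) (nat_lit 13) (nat_lit 5) (nat_lit 13) (nat_lit 4) (nat_lit 379) (nat_lit 323) (nat_lit 318))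 (XT.lf (nat_lit 0) (nat_lit 4410248128) (nat_lit 152) (nat_lit 16067921818) (nat_lit 0) (nat_lit 3077002607) (nat_lit 10) (nat_lit 5) (nat_lit 12) (nat_lit 4) (nat_lit 10) (nat_lit 4) (nat_lit 380) (nat_lit 323) (nat_lit 317))) (XT.nd (nat_lit 78) (nat_lit 76) (nat_lit 0) (XT.lf (nat_lit 0) (nat_lit 10455306564) (nat_lit 152) (nat_lit 5551102220) (nat_lit 0) (nat_lit 8953781525) (nat_lit 10) (nat_lit 5) (nat_lit 12) (nat_lit 4) (nat_lit 10) (nat_lit 4) (nat_lit 381) (nat_lit 323) (nat_lit 316)) (XT.nd (nat_lit 78) (nat_lit 0) (nat_lit 0) (XT.lf (nat_lit 0) (nat_lit 5608302044) (nat_lit 76) (nat_lit 11267662803) (nat_lit 76) (nat_lit 9610323397) (nat_lit 9) (nat_lit 4) (nat_lit 10) (nat_lit 5) (nat_lit 10) (nat_lit 4) (nat_lit 382) (nat_lit 323) (nat_lit 315)) (XT.lf (nat_lit 0) (nat_lit 17508978324) (nat_lit 76) (nat_lit 6216945665) (nat_lit 76) (nat_lit 4415333697) (nat_lit 9) (nat_lit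 4) (nat_lit 10) (nat_lit 5) (nat_lit 10) (nat_lit 4) (nat_lit 383) (nat_lit 323) (nat_lit 314))))) (XT.nd (nat_lit 156) (nat_lit 76) (nat_lit 0) (XT.nd (nat_lit 78) (nat_lit 76) (nat_lit 0) (XT.lf (nat_lit 0) (nat_lit 911115762) (nat_lit 152) (nat_lit 40076887) (nat_lit 76) (nat_lit 28993110656) (nat_lit 8) (nat_lit 5) (nat_lit 10) (nat_lit 5) (nat_lit 9) (nat_lit 4) (nat_lit 384) (nat_lit 323) (nat_lit 313)) (XT.lf (nat_lit 0) (nat_lit 6611807721) (nat_lit 152) (nat_lit 20550274987) (nat_lit 0) (nat_lit 4705429811) (nat_lit 7) (nat_lit 5) (nat_lit 9) (nat_lit 4) (nat_lit 7) (nat_lit 4) (nat_lit 385) (nat_lit 323) (nat_lit 312))) (XT.nd (nat_lit 78) (nat_lit 76) (nat_lit 0) (XT.lf (nat_lit 0) (nat_lit 12587609359) (nat_lit 152) (nat_lit 10796284070) (nat_lit 0) (nat_lit 10575186809) (nat_lit 7) (nat_lit 5) (nat_lit 9) (nat_lit 4) (nat_lit 7) (nat_lit 4) (nat_lit 386) (nat_lit 323) (nat_lit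 311)) (XT.nd (nat_lit 78) (nat_lit 76) (nat_lit 0) (XT.lf (nat_lit 0) (nat_lit 18850015673) (nat_lit 152) (nat_lit 643895000) (nat_lit 0) (nat_lit 16739403641) (nat_lit 7) (nat_lit 5) (nat_lit 9) (nat_lit 4) (nat_lit 7) (nat_lit 4) (nat_lit 387) (nat_lit 323) (nat_lit 310)) (XT.lf (nat_lit 0) (nat_lit 10491901955) (nat_lit 76) (nat_lit 15196565754) (nat_lit 76) (nat_lit 12995037536) (nat_lit 6) (nat_lit 4) (nat_lit 7) (nat_lit 5) (nat_lit 7) (nat_lit 4) (nat_lit 388) (nat_lit 323) (nat_lit 309))))))))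
noncomputable def xc49 : XT := (XT.nd (nat_lit 1482) (nat_lit 152) (nat_lit 0) (XT.nd (nat_lit 702) (nat_lit 0) (nat_lit 0) (XT.nd (nat_lit 312) (nat_lit 76) (nat_lit 0) (XT.nd (nat_lit 156) (nat_lit 152) (nat_lit 0) (XT.nd (nat_lit 78) (nat_lit 0) (nat_lit 0) (XT.lf (nat_lit 0) (nat_lit 22210503554) (nat_lit 76) (nat_lit 10708662448) (nat_lit 76) (nat_lit 8422952574) (nat_lit 6) (nat_lit 4) (nat_lit 7) (nat_lit 5) (nat_lit 7) (nat_lit 4) (nat_lit 389) (nat_lit 323) (nat_lit 308)) (XT.lf (nat_lit 0) (nat_lit 34547446992) (nat_lit 76) (nat_lit 6021211000) (nat_lit 76) (nat_lit 3657555150) (nat_lit 6) (nat_lit 4) (nat_lit 7) (nat_lit 5) (nat_lit 7) (nat_lit 4) (nat_lit 390) (nat_lit 323) (nat_lit 307))) (XT.nd (nat_lit 78) (nat_lit 0) (nat_lit 0) (XT.lf (nat_lit 0) (nat_lit 201045347) (nat_lit 76) (nat_lit 1066682247) (nat_lit 152) (nat_lit 46082207711) (nat_lit 4) (nat_lit 5) (nat_lit 5)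 (nat_lit 5) (nat_lit 6) (nat_lit 4) (nat_lit 391) (nat_lit 323) (nat_lit 306)) (XT.lf (nat_lit 0) (nat_lit 6612837710) (nat_lit 152) (nat_lit 39789694699) (nat_lit 0) (nat_lit 4295565338) (nat_lit 4) (nat_lit 5) (nat_lit 6) (nat_lit 4) (nat_lit 4) (nat_lit 4) (nat_lit 392) (nat_lit 323) (nat_lit 305)))) (XT.nd (nat_lit 156) (nat_lit 76) (nat_lit 0) (XT.nd (nat_lit 78) (nat_lit 0) (nat_lit 0) (XT.lf (nat_lit 0) (nat_lit 12273322072) (nat_lit 152) (nat_lit 32151026903) (nat_lit 0) (nat_lit 9898757081) (nat_lit 4) (nat_lit 5) (nat_lit 6) (nat_lit 4) (nat_lit 4) (nat_lit 4) (nat_lit 393) (nat_lit 323) (nat_lit 304)) (XT.lf (nat_lit 0) (nat_lit 18257070560) (nat_lit 152) (nat_lit 24161966658) (nat_lit 0) (nat_lit 15829456847) (nat_lit 4) (nat_lit 5) (nat_lit 6) (nat_lit 4) (nat_lit 4) (nat_lit 4) (nat_lit 394) (nat_lit 323) (nat_lit 303))) (XT.nd (nat_lit 78) (nat_lit 76) (nat_lit 0) (XT.lf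 (nat_lit 0) (nat_lit 24599542424) (nat_lit 152) (nat_lit 15775171385) (nat_lit 0) (nat_lit 22122809524) (nat_lit 4) (nat_lit 5) (nat_lit 6) (nat_lit 4) (nat_lit 4) (nat_lit 4) (nat_lit 395) (nat_lit 323) (nat_lit 302)) (XT.nd (nat_lit 78) (nat_lit 76) (nat_lit 0) (XT.lf (nat_lit 0) (nat_lit 31338322681) (nat_lit 152) (nat_lit 6940941555) (nat_lit 0) (nat_lit 28816109053) (nat_lit 4) (nat_lit 5) (nat_lit 6) (nat_lit 4) (nat_lit 4) (nat_lit 4) (nat_lit 396) (nat_lit 323) (nat_lit 301)) (XT.lf (nat_lit 0) (nat_lit 2519088848) (nat_lit 76) (nat_lit 36054840144) (nat_lit 76) (nat_lit 33490514730) (nat_lit 3) (nat_lit 4) (nat_lit 4) (nat_lit 5) (nat_lit 4) (nat_lit 4) (nat_lit 397) (nat_lit 323) (nat_lit 300)))))) (XT.nd (nat_lit 390) (nat_lit 0) (nat_lit 0) (XT.nd (nat_lit 156) (nat_lit 0) (nat_lit 0) (XT.nd (nat_lit 78) (nat_lit 0) (nat_lit 0) (XT.lf (nat_lit 0) (nat_lit 12928945654) (nat_lit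 76) (nat_lit 33549123365) (nat_lit 76) (nat_lit 30945805557) (nat_lit 3) (nat_lit 4) (nat_lit 4) (nat_lit 5) (nat_lit 4) (nat_lit 4) (nat_lit 398) (nat_lit 323) (nat_lit 299)) (XT.lf (nat_lit 0) (nat_lit 23984819222) (nat_lit 76) (nat_lit 30937042849) (nat_lit 76) (nat_lit 28297620972) (nat_lit 3) (nat_lit 4) (nat_lit 4) (nat_lit 5) (nat_lit 4) (nat_lit 4) (nat_lit 399) (nat_lit 323) (nat_lit 298))) (XT.nd (nat_lit 78) (nat_lit 0) (nat_lit 0) (XT.lf (nat_lit 0) (nat_lit 35752225838) (nat_lit 76) (nat_lit 28203119601) (nat_lit 76) (nat_lit 25530268031) (nat_lit 3) (nat_lit 4) (nat_lit 4) (nat_lit 5) (nat_lit 4) (nat_lit 4) (nat_lit 400) (nat_lit 323) (nat_lit 297)) (XT.nd (nat_lit 78) (nat_lit 0) (nat_lit 0) (XT.lf (nat_lit 0) (nat_lit 48300898283) (nat_lit 76) (nat_lit 25331152595) (nat_lit 76) (nat_lit 22627347605) (nat_lit 3) (nat_lit 4) (nat_lit 4) (nat_lit 5) (nat_lit 4) (nat_lit 4)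 (nat_lit 401) (nat_lit 323) (nat_lit 296)) (XT.lf (nat_lit 0) (nat_lit 61705199060) (nat_lit 76) (nat_lit 22304122766) (nat_lit 76) (nat_lit 19571657202) (nat_lit 3) (nat_lit 4) (nat_lit 4) (nat_lit 5) (nat_lit 4) (nat_lit 4) (nat_lit 402) (nat_lit 323) (nat_lit 295))))) (XT.nd (nat_lit 156) (nat_lit 0) (nat_lit 0) (XT.nd (nat_lit 78) (nat_lit 0) (nat_lit 0) (XT.lf (nat_lit 0) (nat_lit 76044561062) (nat_lit 76) (nat_lit 19104092160) (nat_lit 76) (nat_lit 16345089028) (nat_lit 3) (nat_lit 4) (nat_lit 4) (nat_lit 5) (nat_lit 4) (nat_lit 4) (nat_lit 403) (nat_lit 323) (nat_lit 294)) (XT.lf (nat_lit 0) (nat_lit 91403958287) (nat_lit 76) (nat_lit 15712097633) (nat_lit 76) (nat_lit 12928522679) (nat_lit 3) (nat_lit 4) (nat_lit 4) (nat_lit 5) (nat_lit 4) (nat_lit 4) (nat_lit 404) (nat_lit 323) (nat_lit 293))) (XT.nd (nat_lit 78) (nat_lit 0) (nat_lit 0) (XT.lf (nat_lit 0) (nat_lit 107874409385)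 (nat_lit 76) (nat_lit 12108038476) (nat_lit 76) (nat_lit 9301711834) (nat_lit 3) (nat_lit 4) (nat_lit 4) (nat_lit 5) (nat_lit 4) (nat_lit 4) (nat_lit 405) (nat_lit 323) (nat_lit 292)) (XT.nd (nat_lit 78) (nat_lit 0) (nat_lit 0) (XT.lf (nat_lit 0) (nat_lit 125553517029) (nat_lit 76) (nat_lit 8270557302) (nat_lit 76) (nat_lit 5443164283) (nat_lit 3) (nat_lit 4) (nat_lit 4) (nat_lit 5) (nat_lit 4) (nat_lit 4) (nat_lit 406) (nat_lit 323) (nat_lit 291)) (XT.lf (nat_lit 0) (nat_lit 144546046301) (nat_lit 76) (nat_lit 4176913482) (nat_lit 76) (nat_lit 1330014558) (nat_lit 3) (nat_lit 4) (nat_lit 4) (nat_lit 5) (nat_lit 4) (nat_lit 4) (nat_lit 407) (nat_lit 323) (nat_lit 290))))))) (XT.nd (nat_lit 780) (nat_lit 0) (nat_lit 0) (XT.nd (nat_lit 390) (nat_lit 0) (nat_lit 0) (XT.nd (nat_lit 156) (nat_lit 0) (nat_lit 0) (XT.nd (nat_lit 78) (nat_lit 0) (nat_lit 0) (XT.lf (nat_lit 0) (nat_lit 2998330027)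 (nat_lit 152) (nat_lit 158348319661) (nat_lit 0) (nat_lit 345589335) (nat_lit 1) (nat_lit 5) (nat_lit 3) (nat_lit 4) (nat_lit 1) (nat_lit 4) (nat_lit 408) (nat_lit 323) (nat_lit 289)) (XT.lf (nat_lit 0) (nat_lit 7816626769) (nat_lit 152) (nat_lit 161277613402) (nat_lit 0) (nat_lit 5148401661) (nat_lit 1) (nat_lit 5) (nat_lit 3) (nat_lit 4) (nat_lit 1) (nat_lit 4) (nat_lit 409) (nat_lit 323) (nat_lit 288))) (XT.nd (nat_lit 78) (nat_lit 0) (nat_lit 0) (XT.lf (nat_lit 0) (nat_lit 12976469292) (nat_lit 152) (nat_lit 164530217781) (nat_lit 0) (nat_lit 10293906761) (nat_lit 1) (nat_lit 5) (nat_lit 3) (nat_lit 4) (nat_lit 1) (nat_lit 4) (nat_lit 410) (nat_lit 323) (nat_lit 287)) (XT.nd (nat_lit 78) (nat_lit 0) (nat_lit 0) (XT.lf (nat_lit 0) (nat_lit 18508434439) (nat_lit 152) (nat_lit 168125407492) (nat_lit 0) (nat_lit 15812596517) (nat_lit 1) (nat_lit 5) (nat_lit 3) (nat_lit 4) (nat_lit 1) (nat_lit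 4) (nat_lit 411) (nat_lit 323) (nat_lit 286)) (XT.lf (nat_lit 0) (nat_lit 24445304226) (nat_lit 152) (nat_lit 172084487361) (nat_lit 0) (nat_lit 21737174276) (nat_lit 1) (nat_lit 5) (nat_lit 3) (nat_lit 4) (nat_lit 1) (nat_lit 4) (nat_lit 412) (nat_lit 323) (nat_lit 285))))) (XT.nd (nat_lit 156) (nat_lit 0) (nat_lit 0) (XT.nd (nat_lit 78) (nat_lit 0) (nat_lit 0) (XT.lf (nat_lit 0) (nat_lit 30822260104) (nat_lit 152) (nat_lit 176430918604) (nat_lit 0) (nat_lit 28102748645) (nat_lit 1) (nat_lit 5) (nat_lit 3) (nat_lit 4) (nat_lit 1) (nat_lit 4) (nat_lit 413) (nat_lit 323) (nat_lit 284)) (XT.lf (nat_lit 0) (nat_lit 37677091441) (nat_lit 152) (nat_lit 181190457850) (nat_lit 0) (nat_lit 34947041549) (nat_lit 1) (nat_lit 5) (nat_lit 3) (nat_lit 4) (nat_lit 1) (nat_lit 4) (nat_lit 414) (nat_lit 323) (nat_lit 283))) (XT.nd (nat_lit 78) (nat_lit 0) (nat_lit 0) (XT.lf (nat_lit 0) (nat_lit 45050419459)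 (nat_lit 152) (nat_lit 186391309776) (nat_lit 0) (nat_lit 42310611759) (nat_lit 1) (nat_lit 5) (nat_lit 3) (nat_lit 4) (nat_lit 1) (nat_lit 4) (nat_lit 415) (nat_lit 323) (nat_lit 282)) (XT.nd (nat_lit 78) (nat_lit 0) (nat_lit 0) (XT.lf (nat_lit 0) (nat_lit 52985937955) (nat_lit 152) (nat_lit 192064294245) (nat_lit 0) (nat_lit 50237095246) (nat_lit 1) (nat_lit 5) (nat_lit 3) (nat_lit 4) (nat_lit 1) (nat_lit 4) (nat_lit 416) (nat_lit 323) (nat_lit 281)) (XT.lf (nat_lit 0) (nat_lit 61530672223) (nat_lit 152) (nat_lit 198243028943) (nat_lit 0) (nat_lit 58773463766) (nat_lit 1) (nat_lit 5) (nat_lit 3) (nat_lit 4) (nat_lit 1) (nat_lit 4) (nat_lit 417) (nat_lit 323) (nat_lit 280)))))) (XT.nd (nat_lit 390) (nat_lit 0) (nat_lit 0) (XT.nd (nat_lit 156) (nat_lit 0) (nat_lit 0) (XT.nd (nat_lit 78) (nat_lit 0) (nat_lit 0) (XT.lf (nat_lit 0) (nat_lit 70735257726) (nat_lit 152) (nat_lit 204964128593)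 (nat_lit 0) (nat_lit 67970303205) (nat_lit 1) (nat_lit 5) (nat_lit 3) (nat_lit 4) (nat_lit 1) (nat_lit 4) (nat_lit 418) (nat_lit 323) (nat_lit 279)) (XT.lf (nat_lit 0) (nat_lit 80654240154) (nat_lit 152) (nat_lit 212267421936) (nat_lit 0) (nat_lit 77882113353) (nat_lit 1) (nat_lit 5) (nat_lit 3) (nat_lit 4) (nat_lit 1) (nat_lit 4) (nat_lit 419) (nat_lit 323) (nat_lit 278))) (XT.nd (nat_lit 78) (nat_lit 0) (nat_lit 0) (XT.lf (nat_lit 0) (nat_lit 91346398665) (nat_lit 152) (nat_lit 220196187745) (nat_lit 0) (nat_lit 88567630863) (nat_lit 1) (nat_lit 5) (nat_lit 3) (nat_lit 4) (nat_lit 1) (nat_lit 4) (nat_lit 420) (nat_lit 323) (nat_lit 277)) (XT.nd (nat_lit 78) (nat_lit 0) (nat_lit 0) (XT.lf (nat_lit 0) (nat_lit 102875094196) (nat_lit 152) (nat_lit 228797411301) (nat_lit 0) (nat_lit 100090177319) (nat_lit 1) (nat_lit 5) (nat_lit 3) (nat_lit 4) (nat_lit 1) (nat_lit 4) (nat_lit 421) (nat_lit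 323) (nat_lit 276)) (XT.lf (nat_lit 0) (nat_lit 115308644943) (nat_lit 152) (nat_lit 238122062816) (nat_lit 0) (nat_lit 112518034479) (nat_lit 1) (nat_lit 5) (nat_lit 3) (nat_lit 4) (nat_lit 1) (nat_lit 4) (nat_lit 422) (nat_lit 323) (nat_lit 275))))) (XT.nd (nat_lit 156) (nat_lit 0) (nat_lit 0) (XT.nd (nat_lit 78) (nat_lit 0) (nat_lit 0) (XT.lf (nat_lit 0) (nat_lit 128720731208) (nat_lit 152) (nat_lit 248225399485) (nat_lit 0) (nat_lit 125924848903) (nat_lit 1) (nat_lit 5) (nat_lit 3) (nat_lit 4) (nat_lit 1) (nat_lit 4) (nat_lit 423) (nat_lit 323) (nat_lit 274)) (XT.lf (nat_lit 0) (nat_lit 143190832020) (nat_lit 152) (nat_lit 259167292932) (nat_lit 0) (nat_lit 140390068381) (nat_lit 1) (nat_lit 5) (nat_lit 3) (nat_lit 4) (nat_lit 1) (nat_lit 4) (nat_lit 424) (nat_lit 323) (nat_lit 273))) (XT.nd (nat_lit 78) (nat_lit 0) (nat_lit 0) (XT.lf (nat_lit 0) (nat_lit 158804696124) (nat_lit 152)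 (nat_lit 271012584008) (nat_lit 0) (nat_lit 155999412732) (nat_lit 1) (nat_lit 5) (nat_lit 3) (nat_lit 4) (nat_lit 1) (nat_lit 4) (nat_lit 425) (nat_lit 323) (nat_lit 272)) (XT.nd (nat_lit 78) (nat_lit 0) (nat_lit 0) (XT.lf (nat_lit 0) (nat_lit 175654850123) (nat_lit 152) (nat_lit 283831467029) (nat_lit 0) (nat_lit 172845381774) (nat_lit 1) (nat_lit 5) (nat_lit 3) (nat_lit 4) (nat_lit 1) (nat_lit 4) (nat_lit 426) (nat_lit 323) (nat_lit 271)) (XT.lf (nat_lit 0) (nat_lit 193841146781) (nat_lit 152) (nat_lit 297699905748) (nat_lit 0) (nat_lit 191027803472) (nat_lit 1) (nat_lit 5) (nat_lit 3) (nat_lit 4) (nat_lit 1) (nat_lit 4) (nat_lit 427) (nat_lit 323) (nat_lit 270))))))))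
noncomputable def xc50 : XT := (XT.nd (nat_lit 1482) (nat_lit 0) (nat_lit 0) (XT.nd (nat_lit 702) (nat_lit 0) (nat_lit 0) (XT.nd (nat_lit 312) (nat_lit 0) (nat_lit 0) (XT.nd (nat_lit 156) (nat_lit 0) (nat_lit 0) (XT.nd (nat_lit 78) (nat_lit 0) (nat_lit 0) (XT.lf (nat_lit 0) (nat_lit 213471356745) (nat_lit 152) (nat_lit 312700083505) (nat_lit 0) (nat_lit 210654425510) (nat_lit 1) (nat_lit 5) (nat_lit 3) (nat_lit 4) (nat_lit 1) (nat_lit 4) (nat_lit 428) (nat_lit 323) (nat_lit 269)) (XT.lf (nat_lit 0) (nat_lit 234661807185) (nat_lit 152) (nat_lit 328920890242) (nat_lit 0) (nat_lit 231841553796) (nat_lit 1) (nat_lit 5) (nat_lit 3) (nat_lit 4) (nat_lit 1) (nat_lit 4) (nat_lit 429) (nat_lit 323) (nat_lit 268))) (XT.nd (nat_lit 78) (nat_lit 0) (nat_lit 0) (XT.lf (nat_lit 0) (nat_lit 257538071140) (nat_lit 152) (nat_lit 346458449258) (nat_lit 0) (nat_lit 254714741683) (nat_lit 1) (nat_lit 5) (nat_lit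 3) (nat_lit 4) (nat_lit 1) (nat_lit 4) (nat_lit 430) (nat_lit 323) (nat_lit 267)) (XT.lf (nat_lit 0) (nat_lit 282235711657) (nat_lit 152) (nat_lit 365416686829) (nat_lit 0) (nat_lit 279409533989) (nat_lit 1) (nat_lit 5) (nat_lit 3) (nat_lit 4) (nat_lit 1) (nat_lit 4) (nat_lit 431) (nat_lit 323) (nat_lit 266)))) (XT.nd (nat_lit 156) (nat_lit 0) (nat_lit 0) (XT.nd (nat_lit 78) (nat_lit 0) (nat_lit 0) (XT.lf (nat_lit 0) (nat_lit 308901085124) (nat_lit 152) (nat_lit 385907948066) (nat_lit 0) (nat_lit 306072270223) (nat_lit 1) (nat_lit 5) (nat_lit 3) (nat_lit 4) (nat_lit 1) (nat_lit 4) (nat_lit 432) (nat_lit 323) (nat_lit 265)) (XT.lf (nat_lit 0) (nat_lit 337692208568) (nat_lit 152) (nat_lit 408053662666) (nat_lit 0) (nat_lit 334860951785) (nat_lit 1) (nat_lit 5) (nat_lit 3) (nat_lit 4) (nat_lit 1) (nat_lit 4) (nat_lit 433) (nat_lit 323) (nat_lit 264))) (XT.nd (nat_lit 78) (nat_lit 0) (nat_lit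 0) (XT.lf (nat_lit 0) (nat_lit 368779696055) (nat_lit 152) (nat_lit 431985064493) (nat_lit 0) (nat_lit 365946178269) (nat_lit 1) (nat_lit 5) (nat_lit 3) (nat_lit 4) (nat_lit 1) (nat_lit 4) (nat_lit 434) (nat_lit 323) (nat_lit 263)) (XT.nd (nat_lit 78) (nat_lit 0) (nat_lit 0) (XT.lf (nat_lit 0) (nat_lit 402347769732) (nat_lit 152) (nat_lit 457843969261) (nat_lit 0) (nat_lit 399512158426) (nat_lit 1) (nat_lit 5) (nat_lit 3) (nat_lit 4) (nat_lit 1) (nat_lit 4) (nat_lit 435) (nat_lit 323) (nat_lit 262)) (XT.lf (nat_lit 0) (nat_lit 438595351517) (nat_lit 152) (nat_lit 485783614925) (nat_lit 0) (nat_lit 435757801767) (nat_lit 1) (nat_lit 5) (nat_lit 3) (nat_lit 4) (nat_lit 1) (nat_lit 4) (nat_lit 436) (nat_lit 323) (nat_lit 261)))))) (XT.nd (nat_lit 390) (nat_lit 0) (nat_lit 0) (XT.nd (nat_lit 156) (nat_lit 0) (nat_lit 0) (XT.nd (nat_lit 78) (nat_lit 0) (nat_lit 0) (XT.lf (nat_lit 0) (nat_lit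 477737241896) (nat_lit 152) (nat_lit 515969569756) (nat_lit 0) (nat_lit 474897897289) (nat_lit 1) (nat_lit 5) (nat_lit 3) (nat_lit 4) (nat_lit 1) (nat_lit 4) (nat_lit 437) (nat_lit 323) (nat_lit 260)) (XT.lf (nat_lit 0) (nat_lit 520005392811) (nat_lit 152) (nat_lit 548580713484) (nat_lit 0) (nat_lit 517164386301) (nat_lit 1) (nat_lit 5) (nat_lit 3) (nat_lit 4) (nat_lit 1) (nat_lit 4) (nat_lit 438) (nat_lit 323) (nat_lit 259))) (XT.nd (nat_lit 78) (nat_lit 0) (nat_lit 0) (XT.lf (nat_lit 0) (nat_lit 565650282194) (nat_lit 152) (nat_lit 583810297334) (nat_lit 0) (nat_lit 562807736883) (nat_lit 1) (nat_lit 5) (nat_lit 3) (nat_lit 4) (nat_lit 1) (nat_lit 4) (nat_lit 439) (nat_lit 323) (nat_lit 258)) (XT.nd (nat_lit 78) (nat_lit 0) (nat_lit 0) (XT.lf (nat_lit 0) (nat_lit 614942398278) (nat_lit 152) (nat_lit 621867089208) (nat_lit 0) (nat_lit 612098428152) (nat_lit 1) (nat_lit 5) (nat_lit 3)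 (nat_lit 4) (nat_lit 1) (nat_lit 4) (nat_lit 440) (nat_lit 323) (nat_lit 257)) (XT.lf (nat_lit 0) (nat_lit 668173842491) (nat_lit 152) (nat_lit 662976610837) (nat_lit 0) (nat_lit 665328553093) (nat_lit 1) (nat_lit 5) (nat_lit 3) (nat_lit 4) (nat_lit 1) (nat_lit 4) (nat_lit 441) (nat_lit 323) (nat_lit 256))))) (XT.nd (nat_lit 156) (nat_lit 0) (nat_lit 0) (XT.nd (nat_lit 78) (nat_lit 0) (nat_lit 0) (XT.lf (nat_lit 0) (nat_lit 725660060429) (nat_lit 152) (nat_lit 707382474201) (nat_lit 0) (nat_lit 722813549482) (nat_lit 1) (nat_lit 5) (nat_lit 3) (nat_lit 4) (nat_lit 1) (nat_lit 4) (nat_lit 442) (nat_lit 323) (nat_lit 255)) (XT.lf (nat_lit 0) (nat_lit 787741711162) (nat_lit 152) (nat_lit 755347825156) (nat_lit 0) (nat_lit 784894069150) (nat_lit 1) (nat_lit 5) (nat_lit 3) (nat_lit 4) (nat_lit 1) (nat_lit 4) (nat_lit 443) (nat_lit 323) (nat_lit 254))) (XT.nd (nat_lit 78) (nat_lit 0) (nat_lit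 0) (XT.lf (nat_lit 0) (nat_lit 854786685952) (nat_lit 152) (nat_lit 807156902820) (nat_lit 0) (nat_lit 851937996659) (nat_lit 1) (nat_lit 5) (nat_lit 3) (nat_lit 4) (nat_lit 1) (nat_lit 4) (nat_lit 444) (nat_lit 323) (nat_lit 253)) (XT.nd (nat_lit 78) (nat_lit 0) (nat_lit 0) (XT.lf (nat_lit 0) (nat_lit 927192288354) (nat_lit 152) (nat_lit 863116723949) (nat_lit 0) (nat_lit 924342629356) (nat_lit 1) (nat_lit 5) (nat_lit 3) (nat_lit 4) (nat_lit 1) (nat_lit 4) (nat_lit 445) (nat_lit 323) (nat_lit 252)) (XT.lf (nat_lit 0) (nat_lit 1005387588605) (nat_lit 152) (nat_lit 923558902297) (nat_lit 0) (nat_lit 1002537031732) (nat_lit 1) (nat_lit 5) (nat_lit 3) (nat_lit 4) (nat_lit 1) (nat_lit 4) (nat_lit 446) (nat_lit 323) (nat_lit 251))))))) (XT.nd (nat_lit 780) (nat_lit 0) (nat_lit 0) (XT.nd (nat_lit 390) (nat_lit 0) (nat_lit 0) (XT.nd (nat_lit 156) (nat_lit 0) (nat_lit 0) (XT.nd (nat_lit 78) (nat_lit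 0) (nat_lit 0) (XT.lf (nat_lit 0) (nat_lit 1089835966262) (nat_lit 152) (nat_lit 988841613736) (nat_lit 0) (nat_lit 1086984578023) (nat_lit 1) (nat_lit 5) (nat_lit 3) (nat_lit 4) (nat_lit 1) (nat_lit 4) (nat_lit 447) (nat_lit 323) (nat_lit 250)) (XT.lf (nat_lit 0) (nat_lit 1181037856154) (nat_lit 152) (nat_lit 1059351718780) (nat_lit 0) (nat_lit 1178185698132) (nat_lit 1) (nat_lit 5) (nat_lit 3) (nat_lit 4) (nat_lit 1) (nat_lit 4) (nat_lit 448) (nat_lit 323) (nat_lit 249))) (XT.nd (nat_lit 78) (nat_lit 0) (nat_lit 0) (XT.lf (nat_lit 0) (nat_lit 1279533713927) (nat_lit 152) (nat_lit 1135507055086) (nat_lit 0) (nat_lit 1276680843143) (nat_lit 1) (nat_lit 5) (nat_lit 3) (nat_lit 4) (nat_lit 1) (nat_lit 4) (nat_lit 449) (nat_lit 323) (nat_lit 248)) (XT.nd (nat_lit 78) (nat_lit 0) (nat_lit 0) (XT.lf (nat_lit 0) (nat_lit 1385907218737) (nat_lit 152) (nat_lit 1217758913537) (nat_lit 0) (nat_lit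 1383053687988) (nat_lit 1) (nat_lit 5) (nat_lit 3) (nat_lit 4) (nat_lit 1) (nat_lit 4) (nat_lit 450) (nat_lit 323) (nat_lit 247)) (XT.lf (nat_lit 0) (nat_lit 1500788732093) (nat_lit 152) (nat_lit 1306594712554) (nat_lit 0) (nat_lit 1497934590266) (nat_lit 1) (nat_lit 5) (nat_lit 3) (nat_lit 4) (nat_lit 1) (nat_lit 4) (nat_lit 451) (nat_lit 323) (nat_lit 246))))) (XT.nd (nat_lit 156) (nat_lit 0) (nat_lit 0) (XT.nd (nat_lit 78) (nat_lit 0) (nat_lit 0) (XT.lf (nat_lit 0) (nat_lit 1624859033336) (nat_lit 152) (nat_lit 1402540886501) (nat_lit 0) (nat_lit 1622004325695) (nat_lit 1) (nat_lit 5) (nat_lit 3) (nat_lit 4) (nat_lit 1) (nat_lit 4) (nat_lit 452) (nat_lit 323) (nat_lit 245)) (XT.lf (nat_lit 0) (nat_lit 1758853353879) (nat_lit 152) (nat_lit 1506166005297) (nat_lit 0) (nat_lit 1755998122336) (nat_lit 1) (nat_lit 5) (nat_lit 3) (nat_lit 4) (nat_lit 1) (nat_lit 4) (nat_lit 453) (nat_lit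 323) (nat_lit 244))) (XT.nd (nat_lit 78) (nat_lit 0) (nat_lit 0) (XT.lf (nat_lit 0) (nat_lit 1903565734140) (nat_lit 152) (nat_lit 1618084143722) (nat_lit 0) (nat_lit 1900710017503) (nat_lit 1) (nat_lit 5) (nat_lit 3) (nat_lit 4) (nat_lit 1) (nat_lit 4) (nat_lit 454) (nat_lit 323) (nat_lit 243)) (XT.nd (nat_lit 78) (nat_lit 0) (nat_lit 0) (XT.lf (nat_lit 0) (nat_lit 2059853728965) (nat_lit 152) (nat_lit 1738958520372) (nat_lit 0) (nat_lit 2056997563168) (nat_lit 1) (nat_lit 5) (nat_lit 3) (nat_lit 4) (nat_lit 1) (nat_lit 4) (nat_lit 455) (nat_lit 323) (nat_lit 242)) (XT.lf (nat_lit 0) (nat_lit 2228643489435) (nat_lit 152) (nat_lit 1869505427850) (nat_lit 0) (nat_lit 2225786907748) (nat_lit 1) (nat_lit 5) (nat_lit 3) (nat_lit 4) (nat_lit 1) (nat_lit 4) (nat_lit 456) (nat_lit 323) (nat_lit 241)))))) (XT.nd (nat_lit 46566) (nat_lit 0) (nat_lit 912) (XT.nd (nat_lit 156) (nat_lit 0) (nat_lit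 0) (XT.nd (nat_lit 78) (nat_lit 0) (nat_lit 0) (XT.lf (nat_lit 0) (nat_lit 2410935251168) (nat_lit 152) (nat_lit 2010498477460) (nat_lit 0) (nat_lit 2408078284397) (nat_lit 1) (nat_lit 5) (nat_lit 3) (nat_lit 4) (nat_lit 1) (nat_lit 4) (nat_lit 457) (nat_lit 323) (nat_lit 240)) (XT.lf (nat_lit 0) (nat_lit 2607809261640) (nat_lit 152) (nat_lit 2162773183569) (nat_lit 0) (nat_lit 2604951938311) (nat_lit 1) (nat_lit 5) (nat_lit 3) (nat_lit 4) (nat_lit 1) (nat_lit 4) (nat_lit 458) (nat_lit 323) (nat_lit 239))) (XT.nd (nat_lit 78) (nat_lit 0) (nat_lit 0) (XT.lf (nat_lit 0) (nat_lit 2820432181654) (nat_lit 152) (nat_lit 2327231914807) (nat_lit 0) (nat_lit 2817574528178) (nat_lit 1) (nat_lit 5) (nat_lit 3) (nat_lit 4) (nat_lit 1) (nat_lit 4) (nat_lit 459) (nat_lit 323) (nat_lit 238)) (XT.nd (nat_lit 46254) (nat_lit 0) (nat_lit 1292) (XT.lf (nat_lit 0) (nat_lit 3050063998884) (nat_lit 152) (nat_lit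 2504849241433) (nat_lit 0) (nat_lit 3047206039717) (nat_lit 1) (nat_lit 5) (nat_lit 3) (nat_lit 4) (nat_lit 1) (nat_lit 4) (nat_lit 460) (nat_lit 323) (nat_lit 237)) (XT.lf (nat_lit 0) (nat_lit 4019803038) (nat_lit 76) (nat_lit 1873386313) (nat_lit 76) (nat_lit 1873386313) (nat_lit 18) (nat_lit 4) (nat_lit 19) (nat_lit 5) (nat_lit 19) (nat_lit 4) (nat_lit 372) (nat_lit 324) (nat_lit 324))))) (XT.nd (nat_lit 156) (nat_lit 228) (nat_lit 0) (XT.nd (nat_lit 78) (nat_lit 0) (nat_lit 0) (XT.lf (nat_lit 0) (nat_lit 1885385306) (nat_lit 152) (nat_lit 12860214303) (nat_lit 0) (nat_lit 1548993773) (nat_lit 16) (nat_lit 5) (nat_lit 18) (nat_lit 4) (nat_lit 16) (nat_lit 4) (nat_lit 373) (nat_lit 324) (nat_lit 323)) (XT.lf (nat_lit 0) (nat_lit 7761156425) (nat_lit 152) (nat_lit 2235157236) (nat_lit 0) (nat_lit 7113291251) (nat_lit 16) (nat_lit 5) (nat_lit 18) (nat_lit 4) (nat_lit 16) (nat_lit 4) (nat_lit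 374) (nat_lit 324) (nat_lit 322))) (XT.nd (nat_lit 78) (nat_lit 152) (nat_lit 0) (XT.lf (nat_lit 0) (nat_lit 9144243889) (nat_lit 76) (nat_lit 4893716742) (nat_lit 76) (nat_lit 3957450048) (nat_lit 15) (nat_lit 4) (nat_lit 16) (nat_lit 5) (nat_lit 16) (nat_lit 4) (nat_lit 375) (nat_lit 324) (nat_lit 321)) (XT.nd (nat_lit 78) (nat_lit 0) (nat_lit 0) (XT.lf (nat_lit 0) (nat_lit 1609901183) (nat_lit 152) (nat_lit 16855854187) (nat_lit 0) (nat_lit 495729758) (nat_lit 13) (nat_lit 5) (nat_lit 15) (nat_lit 4) (nat_lit 13) (nat_lit 4) (nat_lit 376) (nat_lit 324) (nat_lit 320)) (XT.lf (nat_lit 0) (nat_lit 7498437682) (nat_lit 152) (nat_lit 6335748946) (nat_lit 0) (nat_lit 6155323833) (nat_lit 13) (nat_lit 5) (nat_lit 15) (nat_lit 4) (nat_lit 13) (nat_lit 4) (nat_lit 377) (nat_lit 324) (nat_lit 319))))))))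
noncomputable def xc51 : XT := (XT.nd (nat_lit 1482) (nat_lit 228) (nat_lit 0) (XT.nd (nat_lit 702) (nat_lit 228) (nat_lit 0) (XT.nd (nat_lit 312) (nat_lit 228) (nat_lit 0) (XT.nd (nat_lit 156) (nat_lit 152) (nat_lit 0) (XT.nd (nat_lit 78) (nat_lit 0) (nat_lit 0) (XT.lf (nat_lit 0) (nat_lit 4748285980) (nat_lit 76) (nat_lit 8959338130) (nat_lit 76) (nat_lit 7404240554) (nat_lit 12) (nat_lit 4) (nat_lit 13) (nat_lit 5) (nat_lit 13) (nat_lit 4) (nat_lit 378) (nat_lit 324) (nat_lit 318)) (XT.lf (nat_lit 0) (nat_lit 16577199348) (nat_lit 76) (nat_lit 3752472445) (nat_lit 76) (nat_lit 2001093640) (nat_lit 12) (nat_lit 4) (nat_lit 13) (nat_lit 5) (nat_lit 13) (nat_lit 4) (nat_lit 379) (nat_lit 324) (nat_lit 317))) (XT.nd (nat_lit 78) (nat_lit 0) (nat_lit 0) (XT.lf (nat_lit 0) (nat_lit 3573366623) (nat_lit 152) (nat_lit 18288566283) (nat_lit 0) (nat_lit 1783440065) (nat_lit 10) (nat_lit 5) (nat_lit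 12) (nat_lit 4) (nat_lit 10) (nat_lit 4) (nat_lit 380) (nat_lit 324) (nat_lit 316)) (XT.lf (nat_lit 0) (nat_lit 9501653604) (nat_lit 152) (nat_lit 8002184609) (nat_lit 0) (nat_lit 7555912678) (nat_lit 10) (nat_lit 5) (nat_lit 12) (nat_lit 4) (nat_lit 10) (nat_lit 4) (nat_lit 381) (nat_lit 324) (nat_lit 315)))) (XT.nd (nat_lit 156) (nat_lit 152) (nat_lit 0) (XT.nd (nat_lit 78) (nat_lit 0) (nat_lit 0) (XT.lf (nat_lit 0) (nat_lit 2803545948) (nat_lit 76) (nat_lit 12943189770) (nat_lit 76) (nat_lit 10853176282) (nat_lit 9) (nat_lit 4) (nat_lit 10) (nat_lit 5) (nat_lit 10) (nat_lit 4) (nat_lit 382) (nat_lit 324) (nat_lit 314)) (XT.lf (nat_lit 0) (nat_lit 14496255513) (nat_lit 76) (nat_lit 7995325043) (nat_lit 76) (nat_lit 5771725849) (nat_lit 9) (nat_lit 4) (nat_lit 10) (nat_lit 5) (nat_lit 10) (nat_lit 4) (nat_lit 383) (nat_lit 324) (nat_lit 313))) (XT.nd (nat_lit 78) (nat_lit 152) (nat_lit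 0) (XT.lf (nat_lit 0) (nat_lit 26723853354) (nat_lit 76) (nat_lit 2849717259) (nat_lit 76) (nat_lit 502427597) (nat_lit 9) (nat_lit 4) (nat_lit 10) (nat_lit 5) (nat_lit 10) (nat_lit 4) (nat_lit 384) (nat_lit 324) (nat_lit 312)) (XT.nd (nat_lit 78) (nat_lit 0) (nat_lit 0) (XT.lf (nat_lit 0) (nat_lit 4992298881) (nat_lit 152) (nat_lit 24313537799) (nat_lit 0) (nat_lit 2712837886) (nat_lit 7) (nat_lit 5) (nat_lit 9) (nat_lit 4) (nat_lit 7) (nat_lit 4) (nat_lit 385) (nat_lit 324) (nat_lit 311)) (XT.lf (nat_lit 0) (nat_lit 10876052704) (nat_lit 152) (nat_lit 14743162805) (nat_lit 0) (nat_lit 8498402228) (nat_lit 7) (nat_lit 5) (nat_lit 9) (nat_lit 4) (nat_lit 7) (nat_lit 4) (nat_lit 386) (nat_lit 324) (nat_lit 310)))))) (XT.nd (nat_lit 390) (nat_lit 152) (nat_lit 0) (XT.nd (nat_lit 156) (nat_lit 0) (nat_lit 0) (XT.nd (nat_lit 78) (nat_lit 76) (nat_lit 0) (XT.lf (nat_lit 0) (nat_lit 17053229558)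 (nat_lit 152) (nat_lit 4760788479) (nat_lit 0) (nat_lit 14584662895) (nat_lit 7) (nat_lit 5) (nat_lit 9) (nat_lit 4) (nat_lit 7) (nat_lit 4) (nat_lit 387) (nat_lit 324) (nat_lit 309)) (XT.lf (nat_lit 0) (nat_lit 5992509588) (nat_lit 76) (nat_lit 17712045347) (nat_lit 76) (nat_lit 15159297029) (nat_lit 6) (nat_lit 4) (nat_lit 7) (nat_lit 5) (nat_lit 7) (nat_lit 4) (nat_lit 388) (nat_lit 324) (nat_lit 308))) (XT.nd (nat_lit 78) (nat_lit 0) (nat_lit 0) (XT.lf (nat_lit 0) (nat_lit 17557675471) (nat_lit 76) (nat_lit 13300817099) (nat_lit 76) (nat_lit 10670122805) (nat_lit 6) (nat_lit 4) (nat_lit 7) (nat_lit 5) (nat_lit 7) (nat_lit 4) (nat_lit 389) (nat_lit 324) (nat_lit 307)) (XT.nd (nat_lit 78) (nat_lit 0) (nat_lit 0) (XT.lf (nat_lit 0) (nat_lit 29752548801) (nat_lit 76) (nat_lit 8684361077) (nat_lit 76) (nat_lit 5981494583) (nat_lit 6) (nat_lit 4) (nat_lit 7) (nat_lit 5) (nat_lit 7) (nat_lit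 4) (nat_lit 390) (nat_lit 324) (nat_lit 306)) (XT.lf (nat_lit 0) (nat_lit 42649395494) (nat_lit 76) (nat_lit 3835320504) (nat_lit 76) (nat_lit 1065627898) (nat_lit 6) (nat_lit 4) (nat_lit 7) (nat_lit 5) (nat_lit 7) (nat_lit 4) (nat_lit 391) (nat_lit 324) (nat_lit 305))))) (XT.nd (nat_lit 156) (nat_lit 0) (nat_lit 0) (XT.nd (nat_lit 78) (nat_lit 0) (nat_lit 0) (XT.lf (nat_lit 0) (nat_lit 4071626930) (nat_lit 152) (nat_lit 45400025325) (nat_lit 0) (nat_lit 1449804120) (nat_lit 4) (nat_lit 5) (nat_lit 6) (nat_lit 4) (nat_lit 4) (nat_lit 4) (nat_lit 392) (nat_lit 324) (nat_lit 304)) (XT.lf (nat_lit 0) (nat_lit 9669815800) (nat_lit 152) (nat_lit 37886694536) (nat_lit 0) (nat_lit 6994944269) (nat_lit 4) (nat_lit 5) (nat_lit 6) (nat_lit 4) (nat_lit 4) (nat_lit 4) (nat_lit 393) (nat_lit 324) (nat_lit 303))) (XT.nd (nat_lit 78) (nat_lit 0) (nat_lit 0) (XT.lf (nat_lit 0) (nat_lit 15595883277) (nat_lit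 152) (nat_lit 30013687075) (nat_lit 0) (nat_lit 12871892558) (nat_lit 4) (nat_lit 5) (nat_lit 6) (nat_lit 4) (nat_lit 4) (nat_lit 4) (nat_lit 394) (nat_lit 324) (nat_lit 302)) (XT.nd (nat_lit 78) (nat_lit 0) (nat_lit 0) (XT.lf (nat_lit 0) (nat_lit 21884946797) (nat_lit 152) (nat_lit 21734348083) (nat_lit 0) (nat_lit 19115475350) (nat_lit 4) (nat_lit 5) (nat_lit 6) (nat_lit 4) (nat_lit 4) (nat_lit 4) (nat_lit 395) (nat_lit 324) (nat_lit 301)) (XT.lf (nat_lit 0) (nat_lit 28574274884) (nat_lit 152) (nat_lit 12999614811) (nat_lit 0) (nat_lit 25762691651) (nat_lit 4) (nat_lit 5) (nat_lit 6) (nat_lit 4) (nat_lit 4) (nat_lit 4) (nat_lit 396) (nat_lit 324) (nat_lit 300))))))) (XT.nd (nat_lit 780) (nat_lit 152) (nat_lit 0) (XT.nd (nat_lit 390) (nat_lit 0) (nat_lit 0) (XT.nd (nat_lit 156) (nat_lit 0) (nat_lit 0) (XT.nd (nat_lit 78) (nat_lit 76) (nat_lit 0) (XT.lf (nat_lit 0) (nat_lit 35703508002)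 (nat_lit 152) (nat_lit 3757725875) (nat_lit 0) (nat_lit 32852932375) (nat_lit 4) (nat_lit 5) (nat_lit 6) (nat_lit 4) (nat_lit 4) (nat_lit 4) (nat_lit 397) (nat_lit 324) (nat_lit 299)) (XT.lf (nat_lit 0) (nat_lit 6364461618) (nat_lit 76) (nat_lit 37103497293) (nat_lit 76) (nat_lit 34216817597) (nat_lit 3) (nat_lit 4) (nat_lit 4) (nat_lit 5) (nat_lit 4) (nat_lit 4) (nat_lit 398) (nat_lit 324) (nat_lit 298))) (XT.nd (nat_lit 78) (nat_lit 0) (nat_lit 0) (XT.lf (nat_lit 0) (nat_lit 17337192476) (nat_lit 76) (nat_lit 34533303176) (nat_lit 76) (nat_lit 31613193787) (nat_lit 3) (nat_lit 4) (nat_lit 4) (nat_lit 5) (nat_lit 4) (nat_lit 4) (nat_lit 399) (nat_lit 324) (nat_lit 297)) (XT.nd (nat_lit 78) (nat_lit 0) (nat_lit 0) (XT.lf (nat_lit 0) (nat_lit 29027615101) (nat_lit 76) (nat_lit 31838163631) (nat_lit 76) (nat_lit 28887100822) (nat_lit 3) (nat_lit 4) (nat_lit 4) (nat_lit 5) (nat_lit 4) (nat_lit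 4) (nat_lit 400) (nat_lit 324) (nat_lit 296)) (XT.lf (nat_lit 0) (nat_lit 41505006073) (nat_lit 76) (nat_lit 29002107460) (nat_lit 76) (nat_lit 26022384078) (nat_lit 3) (nat_lit 4) (nat_lit 4) (nat_lit 5) (nat_lit 4) (nat_lit 4) (nat_lit 401) (nat_lit 324) (nat_lit 295))))) (XT.nd (nat_lit 156) (nat_lit 0) (nat_lit 0) (XT.nd (nat_lit 78) (nat_lit 0) (nat_lit 0) (XT.lf (nat_lit 0) (nat_lit 54843305486) (nat_lit 76) (nat_lit 26008328405) (nat_lit 76) (nat_lit 23002067454) (nat_lit 3) (nat_lit 4) (nat_lit 4) (nat_lit 5) (nat_lit 4) (nat_lit 4) (nat_lit 402) (nat_lit 324) (nat_lit 294)) (XT.lf (nat_lit 0) (nat_lit 69121555115) (nat_lit 76) (nat_lit 22839085552) (nat_lit 76) (nat_lit 19808252779) (nat_lit 3) (nat_lit 4) (nat_lit 4) (nat_lit 5) (nat_lit 4) (nat_lit 4) (nat_lit 403) (nat_lit 324) (nat_lit 293))) (XT.nd (nat_lit 78) (nat_lit 0) (nat_lit 0) (XT.lf (nat_lit 0) (nat_lit 84424366809)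 (nat_lit 76) (nat_lit 19475598204) (nat_lit 76) (nat_lit 16422013744) (nat_lit 3) (nat_lit 4) (nat_lit 4) (nat_lit 5) (nat_lit 4) (nat_lit 4) (nat_lit 404) (nat_lit 324) (nat_lit 292)) (XT.nd (nat_lit 78) (nat_lit 0) (nat_lit 0) (XT.lf (nat_lit 0) (nat_lit 100842423896) (nat_lit 76) (nat_lit 15897934584) (nat_lit 76) (nat_lit 12823283746) (nat_lit 3) (nat_lit 4) (nat_lit 4) (nat_lit 5) (nat_lit 4) (nat_lit 4) (nat_lit 405) (nat_lit 324) (nat_lit 291)) (XT.lf (nat_lit 0) (nat_lit 118473018567) (nat_lit 76) (nat_lit 12084893721) (nat_lit 76) (nat_lit 8990736978) (nat_lit 3) (nat_lit 4) (nat_lit 4) (nat_lit 5) (nat_lit 4) (nat_lit 4) (nat_lit 406) (nat_lit 324) (nat_lit 290)))))) (XT.nd (nat_lit 390) (nat_lit 0) (nat_lit 0) (XT.nd (nat_lit 156) (nat_lit 152) (nat_lit 0) (XT.nd (nat_lit 78) (nat_lit 0) (nat_lit 0) (XT.lf (nat_lit 0) (nat_lit 137420628421) (nat_lit 76) (nat_lit 8013879819)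 (nat_lit 76) (nat_lit 4901662053) (nat_lit 3) (nat_lit 4) (nat_lit 4) (nat_lit 5) (nat_lit 4) (nat_lit 4) (nat_lit 407) (nat_lit 324) (nat_lit 289)) (XT.lf (nat_lit 0) (nat_lit 157797535588) (nat_lit 76) (nat_lit 3660768350) (nat_lit 76) (nat_lit 531827414) (nat_lit 3) (nat_lit 4) (nat_lit 4) (nat_lit 5) (nat_lit 4) (nat_lit 4) (nat_lit 408) (nat_lit 324) (nat_lit 288))) (XT.nd (nat_lit 78) (nat_lit 0) (nat_lit 0) (XT.lf (nat_lit 0) (nat_lit 4095018927) (nat_lit 152) (nat_lit 169280470562) (nat_lit 0) (nat_lit 1183513972) (nat_lit 1) (nat_lit 5) (nat_lit 3) (nat_lit 4) (nat_lit 1) (nat_lit 4) (nat_lit 409) (nat_lit 324) (nat_lit 287)) (XT.nd (nat_lit 78) (nat_lit 0) (nat_lit 0) (XT.lf (nat_lit 0) (nat_lit 9235311076) (nat_lit 152) (nat_lit 172572679259) (nat_lit 0) (nat_lit 6310530729) (nat_lit 1) (nat_lit 5) (nat_lit 3) (nat_lit 4) (nat_lit 1) (nat_lit 4) (nat_lit 410) (nat_lit 324) (nat_lit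 286)) (XT.lf (nat_lit 0) (nat_lit 14749174025) (nat_lit 152) (nat_lit 176204539634) (nat_lit 0) (nat_lit 11812101650) (nat_lit 1) (nat_lit 5) (nat_lit 3) (nat_lit 4) (nat_lit 1) (nat_lit 4) (nat_lit 411) (nat_lit 324) (nat_lit 285))))) (XT.nd (nat_lit 156) (nat_lit 0) (nat_lit 0) (XT.nd (nat_lit 78) (nat_lit 0) (nat_lit 0) (XT.lf (nat_lit 0) (nat_lit 20669282518) (nat_lit 152) (nat_lit 180197573823) (nat_lit 0) (nat_lit 17720828634) (nat_lit 1) (nat_lit 5) (nat_lit 3) (nat_lit 4) (nat_lit 1) (nat_lit 4) (nat_lit 412) (nat_lit 324) (nat_lit 284)) (XT.lf (nat_lit 0) (nat_lit 27030718679) (nat_lit 152) (nat_lit 184575444250) (nat_lit 0) (nat_lit 24071726362) (nat_lit 1) (nat_lit 5) (nat_lit 3) (nat_lit 4) (nat_lit 1) (nat_lit 4) (nat_lit 413) (nat_lit 324) (nat_lit 283))) (XT.nd (nat_lit 78) (nat_lit 0) (nat_lit 0) (XT.lf (nat_lit 0) (nat_lit 33871179907) (nat_lit 152) (nat_lit 189364093852)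 (nat_lit 0) (nat_lit 30902429782) (nat_lit 1) (nat_lit 5) (nat_lit 3) (nat_lit 4) (nat_lit 1) (nat_lit 4) (nat_lit 414) (nat_lit 324) (nat_lit 282)) (XT.nd (nat_lit 78) (nat_lit 0) (nat_lit 0) (XT.lf (nat_lit 0) (nat_lit 41231202270) (nat_lit 152) (nat_lit 194591899811) (nat_lit 0) (nat_lit 38253417136) (nat_lit 1) (nat_lit 5) (nat_lit 3) (nat_lit 4) (nat_lit 1) (nat_lit 4) (nat_lit 415) (nat_lit 324) (nat_lit 281)) (XT.lf (nat_lit 0) (nat_lit 49154400714) (nat_lit 152) (nat_lit 200289841718) (nat_lit 0) (nat_lit 46168249832) (nat_lit 1) (nat_lit 5) (nat_lit 3) (nat_lit 4) (nat_lit 1) (nat_lit 4) (nat_lit 416) (nat_lit 324) (nat_lit 280))))))))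
noncomputable def xc52 : XT := (XT.nd (nat_lit 1482) (nat_lit 0) (nat_lit 0) (XT.nd (nat_lit 702) (nat_lit 0) (nat_lit 0) (XT.nd (nat_lit 312) (nat_lit 0) (nat_lit 0) (XT.nd (nat_lit 156) (nat_lit 0) (nat_lit 0) (XT.nd (nat_lit 78) (nat_lit 0) (nat_lit 0) (XT.lf (nat_lit 0) (nat_lit 57687727527) (nat_lit 152) (nat_lit 206491685154) (nat_lit 0) (nat_lit 54693830582) (nat_lit 1) (nat_lit 5) (nat_lit 3) (nat_lit 4) (nat_lit 1) (nat_lit 4) (nat_lit 417) (nat_lit 324) (nat_lit 279)) (XT.lf (nat_lit 0) (nat_lit 66881750571) (nat_lit 152) (nat_lit 213234181786) (nat_lit 0) (nat_lit 63880681345) (nat_lit 1) (nat_lit 5) (nat_lit 3) (nat_lit 4) (nat_lit 1) (nat_lit 4) (nat_lit 418) (nat_lit 324) (nat_lit 278))) (XT.nd (nat_lit 78) (nat_lit 0) (nat_lit 0) (XT.lf (nat_lit 0) (nat_lit 76790952945) (nat_lit 152) (nat_lit 220557287147) (nat_lit 0) (nat_lit 73783242719) (nat_lit 1) (nat_lit 5) (nat_lit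 3) (nat_lit 4) (nat_lit 1) (nat_lit 4) (nat_lit 419) (nat_lit 324) (nat_lit 277)) (XT.lf (nat_lit 0) (nat_lit 87474055850) (nat_lit 152) (nat_lit 228504397419) (nat_lit 0) (nat_lit 84460196548) (nat_lit 1) (nat_lit 5) (nat_lit 3) (nat_lit 4) (nat_lit 1) (nat_lit 4) (nat_lit 420) (nat_lit 324) (nat_lit 276)))) (XT.nd (nat_lit 156) (nat_lit 0) (nat_lit 0) (XT.nd (nat_lit 78) (nat_lit 0) (nat_lit 0) (XT.lf (nat_lit 0) (nat_lit 98994366561) (nat_lit 152) (nat_lit 237122606588) (nat_lit 0) (nat_lit 95974813672) (nat_lit 1) (nat_lit 5) (nat_lit 3) (nat_lit 4) (nat_lit 1) (nat_lit 4) (nat_lit 421) (nat_lit 324) (nat_lit 275)) (XT.lf (nat_lit 0) (nat_lit 111420153586) (nat_lit 152) (nat_lit 246462985522) (nat_lit 0) (nat_lit 108395328856) (nat_lit 1) (nat_lit 5) (nat_lit 3) (nat_lit 4) (nat_lit 1) (nat_lit 4) (nat_lit 422) (nat_lit 324) (nat_lit 274))) (XT.nd (nat_lit 78) (nat_lit 0) (nat_lit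 0) (XT.lf (nat_lit 0) (nat_lit 124825051219) (nat_lit 152) (nat_lit 256580884616) (nat_lit 0) (nat_lit 121795345155) (nat_lit 1) (nat_lit 5) (nat_lit 3) (nat_lit 4) (nat_lit 1) (nat_lit 4) (nat_lit 423) (nat_lit 324) (nat_lit 273)) (XT.nd (nat_lit 78) (nat_lit 0) (nat_lit 0) (XT.lf (nat_lit 0) (nat_lit 139288495890) (nat_lit 152) (nat_lit 267536261791) (nat_lit 0) (nat_lit 136254270073) (nat_lit 1) (nat_lit 5) (nat_lit 3) (nat_lit 4) (nat_lit 1) (nat_lit 4) (nat_lit 424) (nat_lit 324) (nat_lit 272)) (XT.lf (nat_lit 0) (nat_lit 154896196901) (nat_lit 152) (nat_lit 279394037799) (nat_lit 0) (nat_lit 151857786127) (nat_lit 1) (nat_lit 5) (nat_lit 3) (nat_lit 4) (nat_lit 1) (nat_lit 4) (nat_lit 425) (nat_lit 324) (nat_lit 271)))))) (XT.nd (nat_lit 390) (nat_lit 0) (nat_lit 0) (XT.nd (nat_lit 156) (nat_lit 0) (nat_lit 0) (XT.nd (nat_lit 78) (nat_lit 0) (nat_lit 0) (XT.lf (nat_lit 0) (nat_lit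 171740644332) (nat_lit 152) (nat_lit 292224480944) (nat_lit 0) (nat_lit 168698358598) (nat_lit 1) (nat_lit 5) (nat_lit 3) (nat_lit 4) (nat_lit 1) (nat_lit 4) (nat_lit 426) (nat_lit 324) (nat_lit 270)) (XT.lf (nat_lit 0) (nat_lit 189921657131) (nat_lit 152) (nat_lit 306103623480) (nat_lit 0) (nat_lit 186875783471) (nat_lit 1) (nat_lit 5) (nat_lit 3) (nat_lit 4) (nat_lit 1) (nat_lit 4) (nat_lit 427) (nat_lit 324) (nat_lit 269))) (XT.nd (nat_lit 78) (nat_lit 0) (nat_lit 0) (XT.lf (nat_lit 0) (nat_lit 209546974633) (nat_lit 152) (nat_lit 321113712179) (nat_lit 0) (nat_lit 206497778819) (nat_lit 1) (nat_lit 5) (nat_lit 3) (nat_lit 4) (nat_lit 1) (nat_lit 4) (nat_lit 428) (nat_lit 324) (nat_lit 268)) (XT.nd (nat_lit 78) (nat_lit 0) (nat_lit 0) (XT.lf (nat_lit 0) (nat_lit 230732895015) (nat_lit 152) (nat_lit 337343695714) (nat_lit 0) (nat_lit 227680623133) (nat_lit 1) (nat_lit 5) (nat_lit 3)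 (nat_lit 4) (nat_lit 1) (nat_lit 4) (nat_lit 429) (nat_lit 324) (nat_lit 267)) (XT.lf (nat_lit 0) (nat_lit 253604964473) (nat_lit 152) (nat_lit 354889751765) (nat_lit 0) (nat_lit 250549844380) (nat_lit 1) (nat_lit 5) (nat_lit 3) (nat_lit 4) (nat_lit 1) (nat_lit 4) (nat_lit 430) (nat_lit 324) (nat_lit 266))))) (XT.nd (nat_lit 156) (nat_lit 0) (nat_lit 0) (XT.nd (nat_lit 78) (nat_lit 0) (nat_lit 0) (XT.lf (nat_lit 0) (nat_lit 278298721196) (nat_lit 152) (nat_lit 373855856962) (nat_lit 0) (nat_lit 275240963870) (nat_lit 1) (nat_lit 5) (nat_lit 3) (nat_lit 4) (nat_lit 1) (nat_lit 4) (nat_lit 431) (nat_lit 324) (nat_lit 265)) (XT.lf (nat_lit 0) (nat_lit 304960498557) (nat_lit 152) (nat_lit 394354403037) (nat_lit 0) (nat_lit 301900299349) (nat_lit 1) (nat_lit 5) (nat_lit 3) (nat_lit 4) (nat_lit 1) (nat_lit 4) (nat_lit 432) (nat_lit 324) (nat_lit 264))) (XT.nd (nat_lit 78) (nat_lit 0) (nat_lit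 0) (XT.lf (nat_lit 0) (nat_lit 333748292274) (nat_lit 152) (nat_lit 416506862858) (nat_lit 0) (nat_lit 330685832064) (nat_lit 1) (nat_lit 5) (nat_lit 3) (nat_lit 4) (nat_lit 1) (nat_lit 4) (nat_lit 433) (nat_lit 324) (nat_lit 263)) (XT.nd (nat_lit 78) (nat_lit 0) (nat_lit 0) (XT.lf (nat_lit 0) (nat_lit 364832696680) (nat_lit 152) (nat_lit 440444510259) (nat_lit 0) (nat_lit 361768142949) (nat_lit 1) (nat_lit 5) (nat_lit 3) (nat_lit 4) (nat_lit 1) (nat_lit 4) (nat_lit 434) (nat_lit 324) (nat_lit 262)) (XT.lf (nat_lit 0) (nat_lit 398397915652) (nat_lit 152) (nat_lit 466309197967) (nat_lit 0) (nat_lit 395331423477) (nat_lit 1) (nat_lit 5) (nat_lit 3) (nat_lit 4) (nat_lit 1) (nat_lit 4) (nat_lit 435) (nat_lit 324) (nat_lit 261))))))) (XT.nd (nat_lit 702) (nat_lit 0) (nat_lit 0) (XT.nd (nat_lit 312) (nat_lit 0) (nat_lit 0) (XT.nd (nat_lit 156) (nat_lit 0) (nat_lit 0) (XT.nd (nat_lit 78) (nat_lit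 0) (nat_lit 0) (XT.lf (nat_lit 0) (nat_lit 434642854193) (nat_lit 152) (nat_lit 494254198205) (nat_lit 0) (nat_lit 431574567161) (nat_lit 1) (nat_lit 5) (nat_lit 3) (nat_lit 4) (nat_lit 1) (nat_lit 4) (nat_lit 436) (nat_lit 324) (nat_lit 260)) (XT.lf (nat_lit 0) (nat_lit 473782297123) (nat_lit 152) (nat_lit 524445110974) (nat_lit 0) (nat_lit 470712348187) (nat_lit 1) (nat_lit 5) (nat_lit 3) (nat_lit 4) (nat_lit 1) (nat_lit 4) (nat_lit 437) (nat_lit 324) (nat_lit 259))) (XT.nd (nat_lit 78) (nat_lit 0) (nat_lit 0) (XT.lf (nat_lit 0) (nat_lit 516048181881) (nat_lit 152) (nat_lit 557060845386) (nat_lit 0) (nat_lit 512976694145) (nat_lit 1) (nat_lit 5) (nat_lit 3) (nat_lit 4) (nat_lit 1) (nat_lit 4) (nat_lit 438) (nat_lit 324) (nat_lit 258)) (XT.lf (nat_lit 0) (nat_lit 561690972971) (nat_lit 152) (nat_lit 592294679869) (nat_lit 0) (nat_lit 558618060420) (nat_lit 1) (nat_lit 5) (nat_lit 3) (nat_lit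 4) (nat_lit 1) (nat_lit 4) (nat_lit 439) (nat_lit 324) (nat_lit 257)))) (XT.nd (nat_lit 156) (nat_lit 0) (nat_lit 0) (XT.nd (nat_lit 78) (nat_lit 0) (nat_lit 0) (XT.lf (nat_lit 0) (nat_lit 610981146190) (nat_lit 152) (nat_lit 630355407515) (nat_lit 0) (nat_lit 607906914367) (nat_lit 1) (nat_lit 5) (nat_lit 3) (nat_lit 4) (nat_lit 1) (nat_lit 4) (nat_lit 440) (nat_lit 324) (nat_lit 256)) (XT.lf (nat_lit 0) (nat_lit 664210791456) (nat_lit 152) (nat_lit 671468573377) (nat_lit 0) (nat_lit 661135338083) (nat_lit 1) (nat_lit 5) (nat_lit 3) (nat_lit 4) (nat_lit 1) (nat_lit 4) (nat_lit 441) (nat_lit 324) (nat_lit 255))) (XT.nd (nat_lit 78) (nat_lit 0) (nat_lit 0) (XT.lf (nat_lit 0) (nat_lit 721695343701) (nat_lit 152) (nat_lit 715877811030) (nat_lit 0) (nat_lit 718618759265) (nat_lit 1) (nat_lit 5) (nat_lit 3) (nat_lit 4) (nat_lit 1) (nat_lit 4) (nat_lit 442) (nat_lit 324) (nat_lit 254)) (XT.nd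 (nat_lit 78) (nat_lit 0) (nat_lit 0) (XT.lf (nat_lit 0) (nat_lit 783775452125) (nat_lit 152) (nat_lit 763846286328) (nat_lit 0) (nat_lit 780697820408) (nat_lit 1) (nat_lit 5) (nat_lit 3) (nat_lit 4) (nat_lit 1) (nat_lit 4) (nat_lit 443) (nat_lit 324) (nat_lit 253)) (XT.lf (nat_lit 0) (nat_lit 850818998853) (nat_lit 152) (nat_lit 815658256901) (nat_lit 0) (nat_lit 847740397430) (nat_lit 1) (nat_lit 5) (nat_lit 3) (nat_lit 4) (nat_lit 1) (nat_lit 4) (nat_lit 444) (nat_lit 324) (nat_lit 252)))))) (XT.nd (nat_lit 390) (nat_lit 0) (nat_lit 0) (XT.nd (nat_lit 156) (nat_lit 0) (nat_lit 0) (XT.nd (nat_lit 78) (nat_lit 0) (nat_lit 0) (XT.lf (nat_lit 0) (nat_lit 923223278974) (nat_lit 152) (nat_lit 871620756649) (nat_lit 0) (nat_lit 920143779676) (nat_lit 1) (nat_lit 5) (nat_lit 3) (nat_lit 4) (nat_lit 1) (nat_lit 4) (nat_lit 445) (nat_lit 324) (nat_lit 251)) (XT.lf (nat_lit 0) (nat_lit 1001417354891)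 (nat_lit 152) (nat_lit 932065415201) (nat_lit 0) (nat_lit 998337024228) (nat_lit 1) (nat_lit 5) (nat_lit 3) (nat_lit 4) (nat_lit 1) (nat_lit 4) (nat_lit 446) (nat_lit 324) (nat_lit 250))) (XT.nd (nat_lit 78) (nat_lit 0) (nat_lit 0) (XT.lf (nat_lit 0) (nat_lit 1085864598905) (nat_lit 152) (nat_lit 997350423126) (nat_lit 0) (nat_lit 1082783498459) (nat_lit 1) (nat_lit 5) (nat_lit 3) (nat_lit 4) (nat_lit 1) (nat_lit 4) (nat_lit 447) (nat_lit 324) (nat_lit 249)) (XT.nd (nat_lit 78) (nat_lit 0) (nat_lit 0) (XT.lf (nat_lit 0) (nat_lit 1177065439129) (nat_lit 152) (nat_lit 1067862654544) (nat_lit 0) (nat_lit 1173983625920) (nat_lit 1) (nat_lit 5) (nat_lit 3) (nat_lit 4) (nat_lit 1) (nat_lit 4) (nat_lit 448) (nat_lit 324) (nat_lit 248)) (XT.lf (nat_lit 0) (nat_lit 1275560324986) (nat_lit 152) (nat_lit 1144019959716) (nat_lit 0) (nat_lit 1272477851812) (nat_lit 1) (nat_lit 5) (nat_lit 3) (nat_lit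 4) (nat_lit 1) (nat_lit 4) (nat_lit 449) (nat_lit 324) (nat_lit 247))))) (XT.nd (nat_lit 156) (nat_lit 0) (nat_lit 0) (XT.nd (nat_lit 78) (nat_lit 0) (nat_lit 0) (XT.lf (nat_lit 0) (nat_lit 1381932929874) (nat_lit 152) (nat_lit 1226273641191) (nat_lit 0) (nat_lit 1378849845621) (nat_lit 1) (nat_lit 5) (nat_lit 3) (nat_lit 4) (nat_lit 1) (nat_lit 4) (nat_lit 450) (nat_lit 324) (nat_lit 246)) (XT.lf (nat_lit 0) (nat_lit 1496813609970) (nat_lit 152) (nat_lit 1315111128193) (nat_lit 0) (nat_lit 1493729959904) (nat_lit 1) (nat_lit 5) (nat_lit 3) (nat_lit 4) (nat_lit 1) (nat_lit 4) (nat_lit 451) (nat_lit 324) (nat_lit 245))) (XT.nd (nat_lit 78) (nat_lit 0) (nat_lit 0) (XT.lf (nat_lit 0) (nat_lit 1620883139674) (nat_lit 152) (nat_lit 1411058865088) (nat_lit 0) (nat_lit 1617798965707) (nat_lit 1) (nat_lit 5) (nat_lit 3) (nat_lit 4) (nat_lit 1) (nat_lit 4) (nat_lit 452) (nat_lit 324) (nat_lit 244))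 (XT.nd (nat_lit 78) (nat_lit 0) (nat_lit 0) (XT.lf (nat_lit 0) (nat_lit 1754876745830) (nat_lit 152) (nat_lit 1514685431060) (nat_lit 0) (nat_lit 1751792086768) (nat_lit 1) (nat_lit 5) (nat_lit 3) (nat_lit 4) (nat_lit 1) (nat_lit 4) (nat_lit 453) (nat_lit 324) (nat_lit 243)) (XT.lf (nat_lit 0) (nat_lit 1899588464621) (nat_lit 152) (nat_lit 1626604909461) (nat_lit 0) (nat_lit 1896503356399) (nat_lit 1) (nat_lit 5) (nat_lit 3) (nat_lit 4) (nat_lit 1) (nat_lit 4) (nat_lit 454) (nat_lit 324) (nat_lit 242))))))))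
noncomputable def xc53 : XT := (XT.nd (nat_lit 47502) (nat_lit 0) (nat_lit 152) (XT.nd (nat_lit 46722) (nat_lit 0) (nat_lit 684) (XT.nd (nat_lit 312) (nat_lit 0) (nat_lit 0) (XT.nd (nat_lit 156) (nat_lit 0) (nat_lit 0) (XT.nd (nat_lit 78) (nat_lit 0) (nat_lit 0) (XT.lf (nat_lit 0) (nat_lit 2055875846975) (nat_lit 152) (nat_lit 1747480526830) (nat_lit 0) (nat_lit 2052790322863) (nat_lit 1) (nat_lit 5) (nat_lit 3) (nat_lit 4) (nat_lit 1) (nat_lit 4) (nat_lit 455) (nat_lit 324) (nat_lit 241)) (XT.lf (nat_lit 0) (nat_lit 2224665040342) (nat_lit 152) (nat_lit 1878028583122) (nat_lit 0) (nat_lit 2221579131146) (nat_lit 1) (nat_lit 5) (nat_lit 3) (nat_lit 4) (nat_lit 1) (nat_lit 4) (nat_lit 456) (nat_lit 324) (nat_lit 240))) (XT.nd (nat_lit 78) (nat_lit 0) (nat_lit 0) (XT.lf (nat_lit 0) (nat_lit 2406956276978) (nat_lit 152) (nat_lit 2019022696449) (nat_lit 0) (nat_lit 2403870011224) (nat_lit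 1) (nat_lit 5) (nat_lit 3) (nat_lit 4) (nat_lit 1) (nat_lit 4) (nat_lit 457) (nat_lit 324) (nat_lit 239)) (XT.lf (nat_lit 0) (nat_lit 2603829801250) (nat_lit 152) (nat_lit 2171298387482) (nat_lit 0) (nat_lit 2600743205350) (nat_lit 1) (nat_lit 5) (nat_lit 3) (nat_lit 4) (nat_lit 1) (nat_lit 4) (nat_lit 458) (nat_lit 324) (nat_lit 238)))) (XT.nd (nat_lit 46176) (nat_lit 0) (nat_lit 1292) (XT.nd (nat_lit 78) (nat_lit 0) (nat_lit 0) (XT.lf (nat_lit 0) (nat_lit 2816452271079) (nat_lit 152) (nat_lit 2335758030685) (nat_lit 0) (nat_lit 2813365369487) (nat_lit 1) (nat_lit 5) (nat_lit 3) (nat_lit 4) (nat_lit 1) (nat_lit 4) (nat_lit 459) (nat_lit 324) (nat_lit 237)) (XT.lf (nat_lit 0) (nat_lit 3046083671472) (nat_lit 152) (nat_lit 2513376201724) (nat_lit 0) (nat_lit 3042996486832) (nat_lit 1) (nat_lit 5) (nat_lit 3) (nat_lit 4) (nat_lit 1) (nat_lit 4) (nat_lit 460) (nat_lit 324) (nat_lit 236)))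 (XT.nd (nat_lit 78) (nat_lit 76) (nat_lit 0) (XT.lf (nat_lit 0) (nat_lit 224279686) (nat_lit 152) (nat_lit 6641580536) (nat_lit 0) (nat_lit 224279686) (nat_lit 19) (nat_lit 5) (nat_lit 21) (nat_lit 4) (nat_lit 19) (nat_lit 4) (nat_lit 370) (nat_lit 325) (nat_lit 325)) (XT.nd (nat_lit 78) (nat_lit 76) (nat_lit 0) (XT.lf (nat_lit 0) (nat_lit 6068234122) (nat_lit 152) (nat_lit 3088162356) (nat_lit 0) (nat_lit 5675867038) (nat_lit 19) (nat_lit 5) (nat_lit 21) (nat_lit 4) (nat_lit 19) (nat_lit 4) (nat_lit 371) (nat_lit 325) (nat_lit 324)) (XT.lf (nat_lit 0) (nat_lit 7761817525) (nat_lit 76) (nat_lit 4269423567) (nat_lit 76) (nat_lit 3513753627) (nat_lit 18) (nat_lit 4) (nat_lit 19) (nat_lit 5) (nat_lit 19) (nat_lit 4) (nat_lit 372) (nat_lit 325) (nat_lit 323)))))) (XT.nd (nat_lit 390) (nat_lit 228) (nat_lit 0) (XT.nd (nat_lit 156) (nat_lit 228) (nat_lit 0) (XT.nd (nat_lit 78) (nat_lit 0) (nat_lit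 0) (XT.lf (nat_lit 0) (nat_lit 1936624441) (nat_lit 152) (nat_lit 13457554331) (nat_lit 0) (nat_lit 925456412) (nat_lit 16) (nat_lit 5) (nat_lit 18) (nat_lit 4) (nat_lit 16) (nat_lit 4) (nat_lit 373) (nat_lit 325) (nat_lit 322)) (XT.lf (nat_lit 0) (nat_lit 7673478307) (nat_lit 152) (nat_lit 3098407178) (nat_lit 0) (nat_lit 6373908757) (nat_lit 16) (nat_lit 5) (nat_lit 18) (nat_lit 4) (nat_lit 16) (nat_lit 4) (nat_lit 374) (nat_lit 325) (nat_lit 321))) (XT.nd (nat_lit 78) (nat_lit 152) (nat_lit 0) (XT.lf (nat_lit 0) (nat_lit 7976358719) (nat_lit 76) (nat_lit 5817209040) (nat_lit 76) (nat_lit 4250601046) (nat_lit 15) (nat_lit 4) (nat_lit 16) (nat_lit 5) (nat_lit 16) (nat_lit 4) (nat_lit 375) (nat_lit 325) (nat_lit 320)) (XT.nd (nat_lit 78) (nat_lit 0) (nat_lit 0) (XT.lf (nat_lit 0) (nat_lit 586148912) (nat_lit 76) (nat_lit 567704320) (nat_lit 152) (nat_lit 17871186075) (nat_lit 13) (nat_lit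 5) (nat_lit 14) (nat_lit 5) (nat_lit 15) (nat_lit 4) (nat_lit 376) (nat_lit 325) (nat_lit 319)) (XT.lf (nat_lit 0) (nat_lit 6901510765) (nat_lit 152) (nat_lit 8152827635) (nat_lit 0) (nat_lit 5010021656) (nat_lit 13) (nat_lit 5) (nat_lit 15) (nat_lit 4) (nat_lit 13) (nat_lit 4) (nat_lit 377) (nat_lit 325) (nat_lit 318))))) (XT.nd (nat_lit 156) (nat_lit 152) (nat_lit 0) (XT.nd (nat_lit 78) (nat_lit 0) (nat_lit 0) (XT.lf (nat_lit 0) (nat_lit 2594098143) (nat_lit 76) (nat_lit 10346989239) (nat_lit 76) (nat_lit 8259218901) (nat_lit 12) (nat_lit 4) (nat_lit 13) (nat_lit 5) (nat_lit 13) (nat_lit 4) (nat_lit 378) (nat_lit 325) (nat_lit 317)) (XT.lf (nat_lit 0) (nat_lit 14199469841) (nat_lit 76) (nat_lit 5249213539) (nat_lit 76) (nat_lit 2979701324) (nat_lit 12) (nat_lit 4) (nat_lit 13) (nat_lit 5) (nat_lit 13) (nat_lit 4) (nat_lit 379) (nat_lit 325) (nat_lit 316))) (XT.nd (nat_lit 78) (nat_lit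 0) (nat_lit 0) (XT.lf (nat_lit 0) (nat_lit 2426649972) (nat_lit 152) (nat_lit 21166173186) (nat_lit 0) (nat_lit 169435405) (nat_lit 10) (nat_lit 5) (nat_lit 12) (nat_lit 4) (nat_lit 10) (nat_lit 4) (nat_lit 380) (nat_lit 325) (nat_lit 315)) (XT.nd (nat_lit 78) (nat_lit 0) (nat_lit 0) (XT.lf (nat_lit 0) (nat_lit 8246815236) (nat_lit 152) (nat_lit 11093159961) (nat_lit 0) (nat_lit 5845328106) (nat_lit 10) (nat_lit 5) (nat_lit 12) (nat_lit 4) (nat_lit 10) (nat_lit 4) (nat_lit 381) (nat_lit 325) (nat_lit 314)) (XT.lf (nat_lit 0) (nat_lit 14324359302) (nat_lit 152) (nat_lit 625237503) (nat_lit 0) (nat_lit 11789286467) (nat_lit 10) (nat_lit 5) (nat_lit 12) (nat_lit 4) (nat_lit 10) (nat_lit 4) (nat_lit 382) (nat_lit 325) (nat_lit 313))))))) (XT.nd (nat_lit 780) (nat_lit 152) (nat_lit 0) (XT.nd (nat_lit 390) (nat_lit 152) (nat_lit 0) (XT.nd (nat_lit 156) (nat_lit 152) (nat_lit 0) (XT.nd (nat_lit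 78) (nat_lit 0) (nat_lit 0) (XT.lf (nat_lit 0) (nat_lit 10841986388) (nat_lit 76) (nat_lit 10114060892) (nat_lit 76) (nat_lit 7455297588) (nat_lit 9) (nat_lit 4) (nat_lit 10) (nat_lit 5) (nat_lit 10) (nat_lit 4) (nat_lit 383) (nat_lit 325) (nat_lit 312)) (XT.lf (nat_lit 0) (nat_lit 22891286291) (nat_lit 76) (nat_lit 5056632473) (nat_lit 76) (nat_lit 2283340957) (nat_lit 9) (nat_lit 4) (nat_lit 10) (nat_lit 5) (nat_lit 10) (nat_lit 4) (nat_lit 384) (nat_lit 325) (nat_lit 311))) (XT.nd (nat_lit 78) (nat_lit 0) (nat_lit 0) (XT.lf (nat_lit 0) (nat_lit 3051769877) (nat_lit 152) (nat_lit 28759782756) (nat_lit 0) (nat_lit 385717881) (nat_lit 7) (nat_lit 5) (nat_lit 9) (nat_lit 4) (nat_lit 7) (nat_lit 4) (nat_lit 385) (nat_lit 325) (nat_lit 310)) (XT.nd (nat_lit 78) (nat_lit 0) (nat_lit 0) (XT.lf (nat_lit 0) (nat_lit 8850294241) (nat_lit 152) (nat_lit 19359422506) (nat_lit 0) (nat_lit 6093326058)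 (nat_lit 7) (nat_lit 5) (nat_lit 9) (nat_lit 4) (nat_lit 7) (nat_lit 4) (nat_lit 386) (nat_lit 325) (nat_lit 309)) (XT.lf (nat_lit 0) (nat_lit 14948554929) (nat_lit 152) (nat_lit 9534469240) (nat_lit 0) (nat_lit 12107405091) (nat_lit 7) (nat_lit 5) (nat_lit 9) (nat_lit 4) (nat_lit 7) (nat_lit 4) (nat_lit 387) (nat_lit 325) (nat_lit 308))))) (XT.nd (nat_lit 156) (nat_lit 76) (nat_lit 0) (XT.nd (nat_lit 78) (nat_lit 0) (nat_lit 0) (XT.lf (nat_lit 0) (nat_lit 814019541) (nat_lit 76) (nat_lit 20588247430) (nat_lit 76) (nat_lit 17669151616) (nat_lit 6) (nat_lit 4) (nat_lit 7) (nat_lit 5) (nat_lit 7) (nat_lit 4) (nat_lit 388) (nat_lit 325) (nat_lit 307)) (XT.lf (nat_lit 0) (nat_lit 12237115317) (nat_lit 76) (nat_lit 16248014608) (nat_lit 76) (nat_lit 13256746594) (nat_lit 6) (nat_lit 4) (nat_lit 7) (nat_lit 5) (nat_lit 7) (nat_lit 4) (nat_lit 389) (nat_lit 325) (nat_lit 306))) (XT.nd (nat_lit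 78) (nat_lit 76) (nat_lit 0) (XT.lf (nat_lit 0) (nat_lit 24300442251) (nat_lit 76) (nat_lit 11697295091) (nat_lit 76) (nat_lit 8639200965) (nat_lit 6) (nat_lit 4) (nat_lit 7) (nat_lit 5) (nat_lit 7) (nat_lit 4) (nat_lit 390) (nat_lit 325) (nat_lit 305)) (XT.nd (nat_lit 78) (nat_lit 76) (nat_lit 0) (XT.lf (nat_lit 0) (nat_lit 37075486726) (nat_lit 76) (nat_lit 6909121652) (nat_lit 76) (nat_lit 3789151497) (nat_lit 6) (nat_lit 4) (nat_lit 7) (nat_lit 5) (nat_lit 7) (nat_lit 4) (nat_lit 391) (nat_lit 325) (nat_lit 304)) (XT.lf (nat_lit 0) (nat_lit 1256003904) (nat_lit 152) (nat_lit 564774653) (nat_lit 76) (nat_lit 49347607431) (nat_lit 5) (nat_lit 5) (nat_lit 7) (nat_lit 5) (nat_lit 6) (nat_lit 4) (nat_lit 392) (nat_lit 325) (nat_lit 303)))))) (XT.nd (nat_lit 390) (nat_lit 76) (nat_lit 0) (XT.nd (nat_lit 156) (nat_lit 0) (nat_lit 0) (XT.nd (nat_lit 78) (nat_lit 0) (nat_lit 0) (XT.lf (nat_lit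 0) (nat_lit 6738052523) (nat_lit 152) (nat_lit 44322605371) (nat_lit 0) (nat_lit 3747023360) (nat_lit 4) (nat_lit 5) (nat_lit 6) (nat_lit 4) (nat_lit 4) (nat_lit 4) (nat_lit 393) (nat_lit 325) (nat_lit 302)) (XT.lf (nat_lit 0) (nat_lit 12610711656) (nat_lit 152) (nat_lit 36557054192) (nat_lit 0) (nat_lit 9574201765) (nat_lit 4) (nat_lit 5) (nat_lit 6) (nat_lit 4) (nat_lit 4) (nat_lit 4) (nat_lit 394) (nat_lit 325) (nat_lit 301))) (XT.nd (nat_lit 78) (nat_lit 0) (nat_lit 0) (XT.lf (nat_lit 0) (nat_lit 18850323006) (nat_lit 152) (nat_lit 28377211757) (nat_lit 0) (nat_lit 15771701328) (nat_lit 4) (nat_lit 5) (nat_lit 6) (nat_lit 4) (nat_lit 4) (nat_lit 4) (nat_lit 395) (nat_lit 325) (nat_lit 300)) (XT.nd (nat_lit 78) (nat_lit 0) (nat_lit 0) (XT.lf (nat_lit 0) (nat_lit 25493862047) (nat_lit 152) (nat_lit 19734604926) (nat_lit 0) (nat_lit 22376247975) (nat_lit 4) (nat_lit 5) (nat_lit 6) (nat_lit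 4) (nat_lit 4) (nat_lit 4) (nat_lit 396) (nat_lit 325) (nat_lit 299)) (XT.lf (nat_lit 0) (nat_lit 32580697899) (nat_lit 152) (nat_lit 10578018251) (nat_lit 0) (nat_lit 29426979759) (nat_lit 4) (nat_lit 5) (nat_lit 6) (nat_lit 4) (nat_lit 4) (nat_lit 4) (nat_lit 397) (nat_lit 325) (nat_lit 298))))) (XT.nd (nat_lit 156) (nat_lit 0) (nat_lit 0) (XT.nd (nat_lit 78) (nat_lit 76) (nat_lit 0) (XT.lf (nat_lit 0) (nat_lit 40152826627) (nat_lit 152) (nat_lit 853190478) (nat_lit 0) (nat_lit 36965678794) (nat_lit 4) (nat_lit 5) (nat_lit 6) (nat_lit 4) (nat_lit 4) (nat_lit 4) (nat_lit 398) (nat_lit 325) (nat_lit 297)) (XT.lf (nat_lit 0) (nat_lit 9997628889) (nat_lit 76) (nat_lit 38497934431) (nat_lit 76) (nat_lit 35279833177) (nat_lit 3) (nat_lit 4) (nat_lit 4) (nat_lit 5) (nat_lit 4) (nat_lit 4) (nat_lit 399) (nat_lit 325) (nat_lit 296))) (XT.nd (nat_lit 78) (nat_lit 0) (nat_lit 0) (XT.lf (nat_lit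 0) (nat_lit 21616770042) (nat_lit 76) (nat_lit 35838705721) (nat_lit 76) (nat_lit 32591943894) (nat_lit 3) (nat_lit 4) (nat_lit 4) (nat_lit 5) (nat_lit 4) (nat_lit 4) (nat_lit 400) (nat_lit 325) (nat_lit 295)) (XT.nd (nat_lit 78) (nat_lit 0) (nat_lit 0) (XT.lf (nat_lit 0) (nat_lit 34028159650) (nat_lit 76) (nat_lit 33035900324) (nat_lit 76) (nat_lit 29762600929) (nat_lit 3) (nat_lit 4) (nat_lit 4) (nat_lit 5) (nat_lit 4) (nat_lit 4) (nat_lit 401) (nat_lit 325) (nat_lit 294)) (XT.lf (nat_lit 0) (nat_lit 47305346690) (nat_lit 76) (nat_lit 30072909022) (nat_lit 76) (nat_lit 26775037804) (nat_lit 3) (nat_lit 4) (nat_lit 4) (nat_lit 5) (nat_lit 4) (nat_lit 4) (nat_lit 402) (nat_lit 325) (nat_lit 293))))))))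
noncomputable def xc54 : XT := (XT.nd (nat_lit 1482) (nat_lit 0) (nat_lit 0) (XT.nd (nat_lit 702) (nat_lit 0) (nat_lit 0) (XT.nd (nat_lit 312) (nat_lit 152) (nat_lit 0) (XT.nd (nat_lit 156) (nat_lit 0) (nat_lit 0) (XT.nd (nat_lit 78) (nat_lit 0) (nat_lit 0) (XT.lf (nat_lit 0) (nat_lit 61527010787) (nat_lit 76) (nat_lit 26932173349) (nat_lit 76) (nat_lit 23611550444) (nat_lit 3) (nat_lit 4) (nat_lit 4) (nat_lit 5) (nat_lit 4) (nat_lit 4) (nat_lit 403) (nat_lit 325) (nat_lit 292)) (XT.lf (nat_lit 0) (nat_lit 76777428470) (nat_lit 76) (nat_lit 23595081537) (nat_lit 76) (nat_lit 20253392254) (nat_lit 3) (nat_lit 4) (nat_lit 4) (nat_lit 5) (nat_lit 4) (nat_lit 4) (nat_lit 404) (nat_lit 325) (nat_lit 291))) (XT.nd (nat_lit 78) (nat_lit 0) (nat_lit 0) (XT.lf (nat_lit 0) (nat_lit 93146972585) (nat_lit 76) (nat_lit 20041858228) (nat_lit 76) (nat_lit 16680663040) (nat_lit 3) (nat_lit 4) (nat_lit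 4) (nat_lit 5) (nat_lit 4) (nat_lit 4) (nat_lit 405) (nat_lit 325) (nat_lit 290)) (XT.lf (nat_lit 0) (nat_lit 110732647837) (nat_lit 76) (nat_lit 16251447283) (nat_lit 76) (nat_lit 12872191072) (nat_lit 3) (nat_lit 4) (nat_lit 4) (nat_lit 5) (nat_lit 4) (nat_lit 4) (nat_lit 406) (nat_lit 325) (nat_lit 289)))) (XT.nd (nat_lit 156) (nat_lit 152) (nat_lit 0) (XT.nd (nat_lit 78) (nat_lit 0) (nat_lit 0) (XT.lf (nat_lit 0) (nat_lit 129638665635) (nat_lit 76) (nat_lit 12201387008) (nat_lit 76) (nat_lit 8805407628) (nat_lit 3) (nat_lit 4) (nat_lit 4) (nat_lit 5) (nat_lit 4) (nat_lit 4) (nat_lit 407) (nat_lit 325) (nat_lit 288)) (XT.lf (nat_lit 0) (nat_lit 149977061641) (nat_lit 76) (nat_lit 7867677046) (nat_lit 76) (nat_lit 4456213250) (nat_lit 3) (nat_lit 4) (nat_lit 4) (nat_lit 5) (nat_lit 4) (nat_lit 4) (nat_lit 408) (nat_lit 325) (nat_lit 287))) (XT.nd (nat_lit 78) (nat_lit 76) (nat_lit 0)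 (XT.lf (nat_lit 0) (nat_lit 191101974) (nat_lit 152) (nat_lit 3028309112) (nat_lit 76) (nat_lit 171672032641) (nat_lit 2) (nat_lit 5) (nat_lit 4) (nat_lit 5) (nat_lit 3) (nat_lit 4) (nat_lit 409) (nat_lit 325) (nat_lit 286)) (XT.nd (nat_lit 78) (nat_lit 0) (nat_lit 0) (XT.lf (nat_lit 0) (nat_lit 5157207631) (nat_lit 152) (nat_lit 181334812637) (nat_lit 0) (nat_lit 1972877437) (nat_lit 1) (nat_lit 5) (nat_lit 3) (nat_lit 4) (nat_lit 1) (nat_lit 4) (nat_lit 410) (nat_lit 325) (nat_lit 285)) (XT.lf (nat_lit 0) (nat_lit 10654309286) (nat_lit 152) (nat_lit 185000627331) (nat_lit 0) (nat_lit 7458597584) (nat_lit 1) (nat_lit 5) (nat_lit 3) (nat_lit 4) (nat_lit 1) (nat_lit 4) (nat_lit 411) (nat_lit 325) (nat_lit 284)))))) (XT.nd (nat_lit 390) (nat_lit 0) (nat_lit 0) (XT.nd (nat_lit 156) (nat_lit 0) (nat_lit 0) (XT.nd (nat_lit 78) (nat_lit 0) (nat_lit 0) (XT.lf (nat_lit 0) (nat_lit 16558898062)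 (nat_lit 152) (nat_lit 189025100704) (nat_lit 0) (nat_lit 13352647926) (nat_lit 1) (nat_lit 5) (nat_lit 3) (nat_lit 4) (nat_lit 1) (nat_lit 4) (nat_lit 412) (nat_lit 325) (nat_lit 283)) (XT.lf (nat_lit 0) (nat_lit 22905964114) (nat_lit 152) (nat_lit 193432081487) (nat_lit 0) (nat_lit 19689956170) (nat_lit 1) (nat_lit 5) (nat_lit 3) (nat_lit 4) (nat_lit 1) (nat_lit 4) (nat_lit 413) (nat_lit 325) (nat_lit 282))) (XT.nd (nat_lit 78) (nat_lit 0) (nat_lit 0) (XT.lf (nat_lit 0) (nat_lit 29733119687) (nat_lit 152) (nat_lit 198247685122) (nat_lit 0) (nat_lit 26508076734) (nat_lit 1) (nat_lit 5) (nat_lit 3) (nat_lit 4) (nat_lit 1) (nat_lit 4) (nat_lit 414) (nat_lit 325) (nat_lit 281)) (XT.nd (nat_lit 78) (nat_lit 0) (nat_lit 0) (XT.lf (nat_lit 0) (nat_lit 37080821998) (nat_lit 152) (nat_lit 203500448519) (nat_lit 0) (nat_lit 33847413297) (nat_lit 1) (nat_lit 5) (nat_lit 3) (nat_lit 4) (nat_lit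 1) (nat_lit 4) (nat_lit 415) (nat_lit 325) (nat_lit 280)) (XT.lf (nat_lit 0) (nat_lit 44992612987) (nat_lit 152) (nat_lit 209221499165) (nat_lit 0) (nat_lit 41751458223) (nat_lit 1) (nat_lit 5) (nat_lit 3) (nat_lit 4) (nat_lit 1) (nat_lit 4) (nat_lit 416) (nat_lit 325) (nat_lit 279))))) (XT.nd (nat_lit 156) (nat_lit 0) (nat_lit 0) (XT.nd (nat_lit 78) (nat_lit 0) (nat_lit 0) (XT.lf (nat_lit 0) (nat_lit 53515377341) (nat_lit 152) (nat_lit 215444739583) (nat_lit 0) (nat_lit 50267050296) (nat_lit 1) (nat_lit 5) (nat_lit 3) (nat_lit 4) (nat_lit 1) (nat_lit 4) (nat_lit 417) (nat_lit 325) (nat_lit 278)) (XT.lf (nat_lit 0) (nat_lit 62699620331) (nat_lit 152) (nat_lit 222207048233) (nat_lit 0) (nat_lit 59444652285) (nat_lit 1) (nat_lit 5) (nat_lit 3) (nat_lit 4) (nat_lit 1) (nat_lit 4) (nat_lit 418) (nat_lit 325) (nat_lit 277))) (XT.nd (nat_lit 78) (nat_lit 0) (nat_lit 0) (XT.lf (nat_lit 0) (nat_lit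 72599767099) (nat_lit 152) (nat_lit 229548498057) (nat_lit 0) (nat_lit 69338649979) (nat_lit 1) (nat_lit 5) (nat_lit 3) (nat_lit 4) (nat_lit 1) (nat_lit 4) (nat_lit 419) (nat_lit 325) (nat_lit 276)) (XT.nd (nat_lit 78) (nat_lit 0) (nat_lit 0) (XT.lf (nat_lit 0) (nat_lit 83274485184) (nat_lit 152) (nat_lit 237512593942) (nat_lit 0) (nat_lit 80007674476) (nat_lit 1) (nat_lit 5) (nat_lit 3) (nat_lit 4) (nat_lit 1) (nat_lit 4) (nat_lit 420) (nat_lit 325) (nat_lit 275)) (XT.lf (nat_lit 0) (nat_lit 94787032172) (nat_lit 152) (nat_lit 246146530530) (nat_lit 0) (nat_lit 91514949624) (nat_lit 1) (nat_lit 5) (nat_lit 3) (nat_lit 4) (nat_lit 1) (nat_lit 4) (nat_lit 421) (nat_lit 325) (nat_lit 274))))))) (XT.nd (nat_lit 780) (nat_lit 0) (nat_lit 0) (XT.nd (nat_lit 390) (nat_lit 0) (nat_lit 0) (XT.nd (nat_lit 156) (nat_lit 0) (nat_lit 0) (XT.nd (nat_lit 78) (nat_lit 0) (nat_lit 0) (XT.lf (nat_lit 0)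 (nat_lit 107205630566) (nat_lit 152) (nat_lit 255501471890) (nat_lit 0) (nat_lit 103928666683) (nat_lit 1) (nat_lit 5) (nat_lit 3) (nat_lit 4) (nat_lit 1) (nat_lit 4) (nat_lit 422) (nat_lit 325) (nat_lit 273)) (XT.lf (nat_lit 0) (nat_lit 120603872058) (nat_lit 152) (nat_lit 265632854711) (nat_lit 0) (nat_lit 117322388422) (nat_lit 1) (nat_lit 5) (nat_lit 3) (nat_lit 4) (nat_lit 1) (nat_lit 4) (nat_lit 423) (nat_lit 325) (nat_lit 272))) (XT.nd (nat_lit 78) (nat_lit 0) (nat_lit 0) (XT.lf (nat_lit 0) (nat_lit 135061153636) (nat_lit 152) (nat_lit 276600716818) (nat_lit 0) (nat_lit 131775485043) (nat_lit 1) (nat_lit 5) (nat_lit 3) (nat_lit 4) (nat_lit 1) (nat_lit 4) (nat_lit 424) (nat_lit 325) (nat_lit 271)) (XT.nd (nat_lit 78) (nat_lit 0) (nat_lit 0) (XT.lf (nat_lit 0) (nat_lit 150663148079) (nat_lit 152) (nat_lit 288470052949) (nat_lit 0) (nat_lit 147373604527) (nat_lit 1) (nat_lit 5) (nat_lit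 3) (nat_lit 4) (nat_lit 1) (nat_lit 4) (nat_lit 425) (nat_lit 325) (nat_lit 270)) (XT.lf (nat_lit 0) (nat_lit 167502311652) (nat_lit 152) (nat_lit 301311199911) (nat_lit 0) (nat_lit 164209180173) (nat_lit 1) (nat_lit 5) (nat_lit 3) (nat_lit 4) (nat_lit 1) (nat_lit 4) (nat_lit 426) (nat_lit 325) (nat_lit 269))))) (XT.nd (nat_lit 156) (nat_lit 0) (nat_lit 0) (XT.nd (nat_lit 78) (nat_lit 0) (nat_lit 0) (XT.lf (nat_lit 0) (nat_lit 185678431988) (nat_lit 152) (nat_lit 315200253390) (nat_lit 0) (nat_lit 182381978356) (nat_lit 1) (nat_lit 5) (nat_lit 3) (nat_lit 4) (nat_lit 1) (nat_lit 4) (nat_lit 427) (nat_lit 325) (nat_lit 268)) (XT.lf (nat_lit 0) (nat_lit 205299219433) (nat_lit 152) (nat_lit 330219518887) (nat_lit 0) (nat_lit 201999689732) (nat_lit 1) (nat_lit 5) (nat_lit 3) (nat_lit 4) (nat_lit 1) (nat_lit 4) (nat_lit 428) (nat_lit 325) (nat_lit 267))) (XT.nd (nat_lit 78) (nat_lit 0) (nat_lit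 0) (XT.lf (nat_lit 0) (nat_lit 226480945318) (nat_lit 152) (nat_lit 346457999457) (nat_lit 0) (nat_lit 223178567405) (nat_lit 1) (nat_lit 5) (nat_lit 3) (nat_lit 4) (nat_lit 1) (nat_lit 4) (nat_lit 429) (nat_lit 325) (nat_lit 266)) (XT.nd (nat_lit 78) (nat_lit 0) (nat_lit 0) (XT.lf (nat_lit 0) (nat_lit 249349130981) (nat_lit 152) (nat_lit 364011923134) (nat_lit 0) (nat_lit 246044115837) (nat_lit 1) (nat_lit 5) (nat_lit 3) (nat_lit 4) (nat_lit 1) (nat_lit 4) (nat_lit 430) (nat_lit 325) (nat_lit 265)) (XT.lf (nat_lit 0) (nat_lit 274039291599) (nat_lit 152) (nat_lit 382985313169) (nat_lit 0) (nat_lit 270731834572) (nat_lit 1) (nat_lit 5) (nat_lit 3) (nat_lit 4) (nat_lit 1) (nat_lit 4) (nat_lit 431) (nat_lit 325) (nat_lit 264)))))) (XT.nd (nat_lit 390) (nat_lit 0) (nat_lit 0) (XT.nd (nat_lit 156) (nat_lit 0) (nat_lit 0) (XT.nd (nat_lit 78) (nat_lit 0) (nat_lit 0) (XT.lf (nat_lit 0) (nat_lit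 300697739232) (nat_lit 152) (nat_lit 403490604465) (nat_lit 0) (nat_lit 297388021203) (nat_lit 1) (nat_lit 5) (nat_lit 3) (nat_lit 4) (nat_lit 1) (nat_lit 4) (nat_lit 432) (nat_lit 325) (nat_lit 263)) (XT.lf (nat_lit 0) (nat_lit 329482449868) (nat_lit 152) (nat_lit 425649309860) (nat_lit 0) (nat_lit 326170638318) (nat_lit 1) (nat_lit 5) (nat_lit 3) (nat_lit 4) (nat_lit 1) (nat_lit 4) (nat_lit 433) (nat_lit 325) (nat_lit 262))) (XT.nd (nat_lit 78) (nat_lit 0) (nat_lit 0) (XT.lf (nat_lit 0) (nat_lit 360563999569) (nat_lit 152) (nat_lit 449592740201) (nat_lit 0) (nat_lit 357250249575) (nat_lit 1) (nat_lit 5) (nat_lit 3) (nat_lit 4) (nat_lit 1) (nat_lit 4) (nat_lit 434) (nat_lit 325) (nat_lit 261)) (XT.nd (nat_lit 78) (nat_lit 0) (nat_lit 0) (XT.lf (nat_lit 0) (nat_lit 394126575296) (nat_lit 152) (nat_lit 475462782483) (nat_lit 0) (nat_lit 390811030446) (nat_lit 1) (nat_lit 5) (nat_lit 3)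 (nat_lit 4) (nat_lit 1) (nat_lit 4) (nat_lit 435) (nat_lit 325) (nat_lit 260)) (XT.lf (nat_lit 0) (nat_lit 430369066388) (nat_lit 152) (nat_lit 503412740659) (nat_lit 0) (nat_lit 427051859633) (nat_lit 1) (nat_lit 5) (nat_lit 3) (nat_lit 4) (nat_lit 1) (nat_lit 4) (nat_lit 436) (nat_lit 325) (nat_lit 259))))) (XT.nd (nat_lit 156) (nat_lit 0) (nat_lit 0) (XT.nd (nat_lit 78) (nat_lit 0) (nat_lit 0) (XT.lf (nat_lit 0) (nat_lit 469506243161) (nat_lit 152) (nat_lit 533608244112) (nat_lit 0) (nat_lit 466187497607) (nat_lit 1) (nat_lit 5) (nat_lit 3) (nat_lit 4) (nat_lit 1) (nat_lit 4) (nat_lit 437) (nat_lit 325) (nat_lit 258)) (XT.lf (nat_lit 0) (nat_lit 511770029627) (nat_lit 152) (nat_lit 566228229157) (nat_lit 0) (nat_lit 508449859257) (nat_lit 1) (nat_lit 5) (nat_lit 3) (nat_lit 4) (nat_lit 1) (nat_lit 4) (nat_lit 438) (nat_lit 325) (nat_lit 257))) (XT.nd (nat_lit 78) (nat_lit 0) (nat_lit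 0) (XT.lf (nat_lit 0) (nat_lit 557410877852) (nat_lit 152) (nat_lit 601465999412) (nat_lit 0) (nat_lit 554089388210) (nat_lit 1) (nat_lit 5) (nat_lit 3) (nat_lit 4) (nat_lit 1) (nat_lit 4) (nat_lit 439) (nat_lit 325) (nat_lit 256)) (XT.nd (nat_lit 78) (nat_lit 0) (nat_lit 0) (XT.lf (nat_lit 0) (nat_lit 606699252124) (nat_lit 152) (nat_lit 639530371290) (nat_lit 0) (nat_lit 603376540933) (nat_lit 1) (nat_lit 5) (nat_lit 3) (nat_lit 4) (nat_lit 1) (nat_lit 4) (nat_lit 440) (nat_lit 325) (nat_lit 255)) (XT.lf (nat_lit 0) (nat_lit 659927231696) (nat_lit 152) (nat_lit 680646911442) (nat_lit 0) (nat_lit 656603389441) (nat_lit 1) (nat_lit 5) (nat_lit 3) (nat_lit 4) (nat_lit 1) (nat_lit 4) (nat_lit 441) (nat_lit 325) (nat_lit 254))))))))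
noncomputable def xc55 : XT := (XT.nd (nat_lit 47346) (nat_lit 0) (nat_lit 456) (XT.nd (nat_lit 702) (nat_lit 0) (nat_lit 0) (XT.nd (nat_lit 312) (nat_lit 0) (nat_lit 0) (XT.nd (nat_lit 156) (nat_lit 0) (nat_lit 0) (XT.nd (nat_lit 78) (nat_lit 0) (nat_lit 0) (XT.lf (nat_lit 0) (nat_lit 717410241634) (nat_lit 152) (nat_lit 725059273437) (nat_lit 0) (nat_lit 714085352097) (nat_lit 1) (nat_lit 5) (nat_lit 3) (nat_lit 4) (nat_lit 1) (nat_lit 4) (nat_lit 442) (nat_lit 325) (nat_lit 253)) (XT.lf (nat_lit 0) (nat_lit 779488921995) (nat_lit 152) (nat_lit 773030641644) (nat_lit 0) (nat_lit 776163062753) (nat_lit 1) (nat_lit 5) (nat_lit 3) (nat_lit 4) (nat_lit 1) (nat_lit 4) (nat_lit 443) (nat_lit 325) (nat_lit 252))) (XT.nd (nat_lit 78) (nat_lit 0) (nat_lit 0) (XT.lf (nat_lit 0) (nat_lit 846531146442) (nat_lit 152) (nat_lit 824845290838) (nat_lit 0) (nat_lit 843204389325) (nat_lit 1) (nat_lit 5)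 (nat_lit 3) (nat_lit 4) (nat_lit 1) (nat_lit 4) (nat_lit 444) (nat_lit 325) (nat_lit 251)) (XT.lf (nat_lit 0) (nat_lit 918934202229) (nat_lit 152) (nat_lit 880810270790) (nat_lit 0) (nat_lit 915606613747) (nat_lit 1) (nat_lit 5) (nat_lit 3) (nat_lit 4) (nat_lit 1) (nat_lit 4) (nat_lit 445) (nat_lit 325) (nat_lit 250)))) (XT.nd (nat_lit 156) (nat_lit 0) (nat_lit 0) (XT.nd (nat_lit 78) (nat_lit 0) (nat_lit 0) (XT.lf (nat_lit 0) (nat_lit 997127144504) (nat_lit 152) (nat_lit 941257225826) (nat_lit 0) (nat_lit 993798786238) (nat_lit 1) (nat_lit 5) (nat_lit 3) (nat_lit 4) (nat_lit 1) (nat_lit 4) (nat_lit 446) (nat_lit 325) (nat_lit 249)) (XT.lf (nat_lit 0) (nat_lit 1081573338849) (nat_lit 152) (nat_lit 1006544360126) (nat_lit 0) (nat_lit 1078244267821) (nat_lit 1) (nat_lit 5) (nat_lit 3) (nat_lit 4) (nat_lit 1) (nat_lit 4) (nat_lit 447) (nat_lit 325) (nat_lit 248))) (XT.nd (nat_lit 78) (nat_lit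 0) (nat_lit 0) (XT.lf (nat_lit 0) (nat_lit 1172773207157) (nat_lit 152) (nat_lit 1077058560409) (nat_lit 0) (nat_lit 1169443476164) (nat_lit 1) (nat_lit 5) (nat_lit 3) (nat_lit 4) (nat_lit 1) (nat_lit 4) (nat_lit 448) (nat_lit 325) (nat_lit 247)) (XT.nd (nat_lit 78) (nat_lit 0) (nat_lit 0) (XT.lf (nat_lit 0) (nat_lit 1271267193092) (nat_lit 152) (nat_lit 1153217688605) (nat_lit 0) (nat_lit 1267936851021) (nat_lit 1) (nat_lit 5) (nat_lit 3) (nat_lit 4) (nat_lit 1) (nat_lit 4) (nat_lit 449) (nat_lit 325) (nat_lit 246)) (XT.lf (nat_lit 0) (nat_lit 1377638964719) (nat_lit 152) (nat_lit 1235473058065) (nat_lit 0) (nat_lit 1374308056834) (nat_lit 1) (nat_lit 5) (nat_lit 3) (nat_lit 4) (nat_lit 1) (nat_lit 4) (nat_lit 450) (nat_lit 325) (nat_lit 245)))))) (XT.nd (nat_lit 390) (nat_lit 0) (nat_lit 0) (XT.nd (nat_lit 156) (nat_lit 0) (nat_lit 0) (XT.nd (nat_lit 78) (nat_lit 0) (nat_lit 0) (XT.lf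 (nat_lit 0) (nat_lit 1492518873277) (nat_lit 152) (nat_lit 1324312108016) (nat_lit 0) (nat_lit 1489187441490) (nat_lit 1) (nat_lit 5) (nat_lit 3) (nat_lit 4) (nat_lit 1) (nat_lit 4) (nat_lit 451) (nat_lit 325) (nat_lit 244)) (XT.lf (nat_lit 0) (nat_lit 1616587688594) (nat_lit 152) (nat_lit 1420261292087) (nat_lit 0) (nat_lit 1613255771714) (nat_lit 1) (nat_lit 5) (nat_lit 3) (nat_lit 4) (nat_lit 1) (nat_lit 4) (nat_lit 452) (nat_lit 325) (nat_lit 243))) (XT.nd (nat_lit 78) (nat_lit 0) (nat_lit 0) (XT.lf (nat_lit 0) (nat_lit 1750580633280) (nat_lit 152) (nat_lit 1523889198035) (nat_lit 0) (nat_lit 1747248267239) (nat_lit 1) (nat_lit 5) (nat_lit 3) (nat_lit 4) (nat_lit 1) (nat_lit 4) (nat_lit 453) (nat_lit 325) (nat_lit 242)) (XT.nd (nat_lit 78) (nat_lit 0) (nat_lit 0) (XT.lf (nat_lit 0) (nat_lit 1895291739600) (nat_lit 152) (nat_lit 1635809917155) (nat_lit 0) (nat_lit 1891958957669) (nat_lit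 1) (nat_lit 5) (nat_lit 3) (nat_lit 4) (nat_lit 1) (nat_lit 4) (nat_lit 454) (nat_lit 325) (nat_lit 241)) (XT.lf (nat_lit 0) (nat_lit 2051578554850) (nat_lit 152) (nat_lit 1756686683339) (nat_lit 0) (nat_lit 2048245387836) (nat_lit 1) (nat_lit 5) (nat_lit 3) (nat_lit 4) (nat_lit 1) (nat_lit 4) (nat_lit 455) (nat_lit 325) (nat_lit 240))))) (XT.nd (nat_lit 156) (nat_lit 0) (nat_lit 0) (XT.nd (nat_lit 78) (nat_lit 0) (nat_lit 0) (XT.lf (nat_lit 0) (nat_lit 2220367223121) (nat_lit 152) (nat_lit 1887235803348) (nat_lit 0) (nat_lit 2217033699548) (nat_lit 1) (nat_lit 5) (nat_lit 3) (nat_lit 4) (nat_lit 1) (nat_lit 4) (nat_lit 456) (nat_lit 325) (nat_lit 239)) (XT.lf (nat_lit 0) (nat_lit 2402657973558) (nat_lit 152) (nat_lit 2028230901597) (nat_lit 0) (nat_lit 2399324119838) (nat_lit 1) (nat_lit 5) (nat_lit 3) (nat_lit 4) (nat_lit 1) (nat_lit 4) (nat_lit 457) (nat_lit 325) (nat_lit 238))) (XT.nd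 (nat_lit 78) (nat_lit 0) (nat_lit 0) (XT.lf (nat_lit 0) (nat_lit 2599531047645) (nat_lit 152) (nat_lit 2180507504596) (nat_lit 0) (nat_lit 2596196888234) (nat_lit 1) (nat_lit 5) (nat_lit 3) (nat_lit 4) (nat_lit 1) (nat_lit 4) (nat_lit 458) (nat_lit 325) (nat_lit 237)) (XT.nd (nat_lit 78) (nat_lit 0) (nat_lit 0) (XT.lf (nat_lit 0) (nat_lit 2812153100636) (nat_lit 152) (nat_lit 2344967992212) (nat_lit 0) (nat_lit 2808818658177) (nat_lit 1) (nat_lit 5) (nat_lit 3) (nat_lit 4) (nat_lit 1) (nat_lit 4) (nat_lit 459) (nat_lit 325) (nat_lit 236)) (XT.lf (nat_lit 0) (nat_lit 3041784115067) (nat_lit 152) (nat_lit 2522586945115) (nat_lit 0) (nat_lit 3038449410527) (nat_lit 1) (nat_lit 5) (nat_lit 3) (nat_lit 4) (nat_lit 1) (nat_lit 4) (nat_lit 460) (nat_lit 325) (nat_lit 235))))))) (XT.nd (nat_lit 780) (nat_lit 456) (nat_lit 0) (XT.nd (nat_lit 390) (nat_lit 380) (nat_lit 0) (XT.nd (nat_lit 156) (nat_lit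 228) (nat_lit 0) (XT.nd (nat_lit 78) (nat_lit 76) (nat_lit 0) (XT.lf (nat_lit 0) (nat_lit 1766278906) (nat_lit 152) (nat_lit 2960533907) (nat_lit 0) (nat_lit 1766278906) (nat_lit 22) (nat_lit 5) (nat_lit 24) (nat_lit 4) (nat_lit 22) (nat_lit 4) (nat_lit 368) (nat_lit 326) (nat_lit 326)) (XT.lf (nat_lit 0) (nat_lit 4135485426) (nat_lit 76) (nat_lit 4942279782) (nat_lit 76) (nat_lit 4484622815) (nat_lit 21) (nat_lit 4) (nat_lit 22) (nat_lit 5) (nat_lit 22) (nat_lit 4) (nat_lit 369) (nat_lit 326) (nat_lit 325))) (XT.nd (nat_lit 78) (nat_lit 76) (nat_lit 0) (XT.lf (nat_lit 0) (nat_lit 621706537) (nat_lit 76) (nat_lit 100947286) (nat_lit 152) (nat_lit 13469645409) (nat_lit 19) (nat_lit 5) (nat_lit 20) (nat_lit 5) (nat_lit 21) (nat_lit 4) (nat_lit 370) (nat_lit 326) (nat_lit 324)) (XT.nd (nat_lit 78) (nat_lit 76) (nat_lit 0) (XT.lf (nat_lit 0) (nat_lit 6199076915) (nat_lit 152) (nat_lit 3637058637)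 (nat_lit 0) (nat_lit 5019650525) (nat_lit 19) (nat_lit 5) (nat_lit 21) (nat_lit 4) (nat_lit 19) (nat_lit 4) (nat_lit 371) (nat_lit 326) (nat_lit 323)) (XT.lf (nat_lit 0) (nat_lit 6926805718) (nat_lit 76) (nat_lit 5084803638) (nat_lit 76) (nat_lit 3568985715) (nat_lit 18) (nat_lit 4) (nat_lit 19) (nat_lit 5) (nat_lit 19) (nat_lit 4) (nat_lit 372) (nat_lit 326) (nat_lit 322))))) (XT.nd (nat_lit 156) (nat_lit 228) (nat_lit 0) (XT.nd (nat_lit 78) (nat_lit 0) (nat_lit 0) (XT.lf (nat_lit 0) (nat_lit 1703014819) (nat_lit 152) (nat_lit 14655774181) (nat_lit 0) (nat_lit 11078185) (nat_lit 16) (nat_lit 5) (nat_lit 18) (nat_lit 4) (nat_lit 16) (nat_lit 4) (nat_lit 373) (nat_lit 326) (nat_lit 321)) (XT.lf (nat_lit 0) (nat_lit 7311241597) (nat_lit 152) (nat_lit 4542839910) (nat_lit 0) (nat_lit 5352266519) (nat_lit 16) (nat_lit 5) (nat_lit 18) (nat_lit 4) (nat_lit 16) (nat_lit 4) (nat_lit 374) (nat_lit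 326) (nat_lit 320))) (XT.nd (nat_lit 78) (nat_lit 152) (nat_lit 0) (XT.lf (nat_lit 0) (nat_lit 6215885074) (nat_lit 76) (nat_lit 7054007386) (nat_lit 76) (nat_lit 4847774490) (nat_lit 15) (nat_lit 4) (nat_lit 16) (nat_lit 5) (nat_lit 16) (nat_lit 4) (nat_lit 375) (nat_lit 326) (nat_lit 319)) (XT.nd (nat_lit 78) (nat_lit 76) (nat_lit 0) (XT.lf (nat_lit 0) (nat_lit 453806043) (nat_lit 152) (nat_lit 1491258750) (nat_lit 76) (nat_lit 17165266463) (nat_lit 14) (nat_lit 5) (nat_lit 16) (nat_lit 5) (nat_lit 15) (nat_lit 4) (nat_lit 376) (nat_lit 326) (nat_lit 318)) (XT.lf (nat_lit 0) (nat_lit 6011802487) (nat_lit 152) (nat_lit 10592316350) (nat_lit 0) (nat_lit 3560729294) (nat_lit 13) (nat_lit 5) (nat_lit 15) (nat_lit 4) (nat_lit 13) (nat_lit 4) (nat_lit 377) (nat_lit 326) (nat_lit 317)))))) (XT.nd (nat_lit 390) (nat_lit 228) (nat_lit 0) (XT.nd (nat_lit 156) (nat_lit 152) (nat_lit 0) (XT.nd (nat_lit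 78) (nat_lit 76) (nat_lit 0) (XT.lf (nat_lit 0) (nat_lit 11879915480) (nat_lit 152) (nat_lit 187517077) (nat_lit 0) (nat_lit 9247100409) (nat_lit 13) (nat_lit 5) (nat_lit 15) (nat_lit 4) (nat_lit 13) (nat_lit 4) (nat_lit 378) (nat_lit 326) (nat_lit 316)) (XT.lf (nat_lit 0) (nat_lit 11200997275) (nat_lit 76) (nat_lit 7075793154) (nat_lit 76) (nat_lit 4274698566) (nat_lit 12) (nat_lit 4) (nat_lit 13) (nat_lit 5) (nat_lit 13) (nat_lit 4) (nat_lit 379) (nat_lit 326) (nat_lit 315))) (XT.nd (nat_lit 78) (nat_lit 76) (nat_lit 0) (XT.lf (nat_lit 0) (nat_lit 1028906832) (nat_lit 152) (nat_lit 816782743) (nat_lit 76) (nat_lit 22055584090) (nat_lit 11) (nat_lit 5) (nat_lit 13) (nat_lit 5) (nat_lit 12) (nat_lit 4) (nat_lit 380) (nat_lit 326) (nat_lit 314)) (XT.nd (nat_lit 78) (nat_lit 0) (nat_lit 0) (XT.lf (nat_lit 0) (nat_lit 6683355380) (nat_lit 152) (nat_lit 14842345167) (nat_lit 0) (nat_lit 3811891012)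 (nat_lit 10) (nat_lit 5) (nat_lit 12) (nat_lit 4) (nat_lit 10) (nat_lit 4) (nat_lit 381) (nat_lit 326) (nat_lit 313)) (XT.lf (nat_lit 0) (nat_lit 12668202501) (nat_lit 152) (nat_lit 4557351763) (nat_lit 0) (nat_lit 9673047664) (nat_lit 10) (nat_lit 5) (nat_lit 12) (nat_lit 4) (nat_lit 10) (nat_lit 4) (nat_lit 382) (nat_lit 326) (nat_lit 312))))) (XT.nd (nat_lit 156) (nat_lit 152) (nat_lit 0) (XT.nd (nat_lit 78) (nat_lit 0) (nat_lit 0) (XT.lf (nat_lit 0) (nat_lit 6524516022) (nat_lit 76) (nat_lit 12585708686) (nat_lit 76) (nat_lit 9476025638) (nat_lit 9) (nat_lit 4) (nat_lit 10) (nat_lit 5) (nat_lit 10) (nat_lit 4) (nat_lit 383) (nat_lit 326) (nat_lit 311)) (XT.lf (nat_lit 0) (nat_lit 18408725241) (nat_lit 76) (nat_lit 7609927825) (nat_lit 76) (nat_lit 4394200137) (nat_lit 9) (nat_lit 4) (nat_lit 10) (nat_lit 5) (nat_lit 10) (nat_lit 4) (nat_lit 384) (nat_lit 326) (nat_lit 310))) (XT.nd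 (nat_lit 78) (nat_lit 76) (nat_lit 0) (XT.lf (nat_lit 0) (nat_lit 874534107) (nat_lit 152) (nat_lit 1494886226) (nat_lit 76) (nat_lit 30027273349) (nat_lit 8) (nat_lit 5) (nat_lit 10) (nat_lit 5) (nat_lit 9) (nat_lit 4) (nat_lit 385) (nat_lit 326) (nat_lit 309)) (XT.nd (nat_lit 78) (nat_lit 0) (nat_lit 0) (XT.lf (nat_lit 0) (nat_lit 6498329476) (nat_lit 152) (nat_lit 24672418788) (nat_lit 0) (nat_lit 3345705997) (nat_lit 7) (nat_lit 5) (nat_lit 9) (nat_lit 4) (nat_lit 7) (nat_lit 4) (nat_lit 386) (nat_lit 326) (nat_lit 308)) (XT.lf (nat_lit 0) (nat_lit 12523519640) (nat_lit 152) (nat_lit 14993225761) (nat_lit 0) (nat_lit 9292950185) (nat_lit 7) (nat_lit 5) (nat_lit 9) (nat_lit 4) (nat_lit 7) (nat_lit 4) (nat_lit 387) (nat_lit 326) (nat_lit 307))))))))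
noncomputable def xc56 : XT := (XT.nd (nat_lit 1482) (nat_lit 152) (nat_lit 0) (XT.nd (nat_lit 702) (nat_lit 76) (nat_lit 0) (XT.nd (nat_lit 312) (nat_lit 152) (nat_lit 0) (XT.nd (nat_lit 156) (nat_lit 0) (nat_lit 0) (XT.nd (nat_lit 78) (nat_lit 76) (nat_lit 0) (XT.lf (nat_lit 0) (nat_lit 18889996601) (nat_lit 152) (nat_lit 4820420719) (nat_lit 0) (nat_lit 15587254945) (nat_lit 7) (nat_lit 5) (nat_lit 9) (nat_lit 4) (nat_lit 7) (nat_lit 4) (nat_lit 388) (nat_lit 326) (nat_lit 306)) (XT.lf (nat_lit 0) (nat_lit 6217293847) (nat_lit 76) (nat_lit 19567719848) (nat_lit 76) (nat_lit 16198152081) (nat_lit 6) (nat_lit 4) (nat_lit 7) (nat_lit 5) (nat_lit 7) (nat_lit 4) (nat_lit 389) (nat_lit 326) (nat_lit 305))) (XT.nd (nat_lit 78) (nat_lit 0) (nat_lit 0) (XT.lf (nat_lit 0) (nat_lit 18158818563) (nat_lit 76) (nat_lit 15077867465) (nat_lit 76) (nat_lit 11646423669) (nat_lit 6) (nat_lit 4) (nat_lit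 7) (nat_lit 5) (nat_lit 7) (nat_lit 4) (nat_lit 390) (nat_lit 326) (nat_lit 304)) (XT.lf (nat_lit 0) (nat_lit 30821083206) (nat_lit 76) (nat_lit 10346052484) (nat_lit 76) (nat_lit 6857316068) (nat_lit 6) (nat_lit 4) (nat_lit 7) (nat_lit 5) (nat_lit 7) (nat_lit 4) (nat_lit 391) (nat_lit 326) (nat_lit 303)))) (XT.nd (nat_lit 156) (nat_lit 0) (nat_lit 0) (XT.nd (nat_lit 78) (nat_lit 152) (nat_lit 0) (XT.lf (nat_lit 0) (nat_lit 44279123418) (nat_lit 76) (nat_lit 5344234519) (nat_lit 76) (nat_lit 1802449382) (nat_lit 6) (nat_lit 4) (nat_lit 7) (nat_lit 5) (nat_lit 7) (nat_lit 4) (nat_lit 392) (nat_lit 326) (nat_lit 302)) (XT.lf (nat_lit 0) (nat_lit 3460658829) (nat_lit 152) (nat_lit 51496898138) (nat_lit 0) (nat_lit 135747417) (nat_lit 4) (nat_lit 5) (nat_lit 6) (nat_lit 4) (nat_lit 4) (nat_lit 4) (nat_lit 393) (nat_lit 326) (nat_lit 301))) (XT.nd (nat_lit 78) (nat_lit 0) (nat_lit 0) (XT.lf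 (nat_lit 0) (nat_lit 9283865792) (nat_lit 152) (nat_lit 43830843516) (nat_lit 0) (nat_lit 5916842594) (nat_lit 4) (nat_lit 5) (nat_lit 6) (nat_lit 4) (nat_lit 4) (nat_lit 4) (nat_lit 394) (nat_lit 326) (nat_lit 300)) (XT.nd (nat_lit 78) (nat_lit 0) (nat_lit 0) (XT.lf (nat_lit 0) (nat_lit 15477688095) (nat_lit 152) (nat_lit 35743127523) (nat_lit 0) (nat_lit 12071672503) (nat_lit 4) (nat_lit 5) (nat_lit 6) (nat_lit 4) (nat_lit 4) (nat_lit 4) (nat_lit 395) (nat_lit 326) (nat_lit 299)) (XT.lf (nat_lit 0) (nat_lit 22078829870) (nat_lit 152) (nat_lit 27185822953) (nat_lit 0) (nat_lit 18636710210) (nat_lit 4) (nat_lit 5) (nat_lit 6) (nat_lit 4) (nat_lit 4) (nat_lit 4) (nat_lit 396) (nat_lit 326) (nat_lit 298)))))) (XT.nd (nat_lit 390) (nat_lit 0) (nat_lit 0) (XT.nd (nat_lit 156) (nat_lit 76) (nat_lit 0) (XT.nd (nat_lit 78) (nat_lit 0) (nat_lit 0) (XT.lf (nat_lit 0) (nat_lit 29126408995) (nat_lit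 152) (nat_lit 18108219853) (nat_lit 0) (nat_lit 25650859642) (nat_lit 4) (nat_lit 5) (nat_lit 6) (nat_lit 4) (nat_lit 4) (nat_lit 4) (nat_lit 397) (nat_lit 326) (nat_lit 297)) (XT.lf (nat_lit 0) (nat_lit 36662188902) (nat_lit 152) (nat_lit 8456525019) (nat_lit 0) (nat_lit 33155686129) (nat_lit 4) (nat_lit 5) (nat_lit 6) (nat_lit 4) (nat_lit 4) (nat_lit 4) (nat_lit 398) (nat_lit 326) (nat_lit 296))) (XT.nd (nat_lit 78) (nat_lit 0) (nat_lit 0) (XT.lf (nat_lit 0) (nat_lit 1922634752) (nat_lit 76) (nat_lit 42854430723) (nat_lit 76) (nat_lit 39319267377) (nat_lit 3) (nat_lit 4) (nat_lit 4) (nat_lit 5) (nat_lit 4) (nat_lit 4) (nat_lit 399) (nat_lit 326) (nat_lit 295)) (XT.nd (nat_lit 78) (nat_lit 0) (nat_lit 0) (XT.lf (nat_lit 0) (nat_lit 13475774541) (nat_lit 76) (nat_lit 40228452787) (nat_lit 76) (nat_lit 36666751872) (nat_lit 3) (nat_lit 4) (nat_lit 4) (nat_lit 5) (nat_lit 4) (nat_lit 4)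 (nat_lit 400) (nat_lit 326) (nat_lit 294)) (XT.lf (nat_lit 0) (nat_lit 25826051776) (nat_lit 76) (nat_lit 37456435144) (nat_lit 76) (nat_lit 33870162406) (nat_lit 3) (nat_lit 4) (nat_lit 4) (nat_lit 5) (nat_lit 4) (nat_lit 4) (nat_lit 401) (nat_lit 326) (nat_lit 293))))) (XT.nd (nat_lit 156) (nat_lit 0) (nat_lit 0) (XT.nd (nat_lit 78) (nat_lit 0) (nat_lit 0) (XT.lf (nat_lit 0) (nat_lit 39046653284) (nat_lit 76) (nat_lit 34521951021) (nat_lit 76) (nat_lit 30912926596) (nat_lit 3) (nat_lit 4) (nat_lit 4) (nat_lit 5) (nat_lit 4) (nat_lit 4) (nat_lit 402) (nat_lit 326) (nat_lit 292)) (XT.lf (nat_lit 0) (nat_lit 53215923371) (nat_lit 76) (nat_lit 31407610884) (nat_lit 76) (nat_lit 27777520082) (nat_lit 3) (nat_lit 4) (nat_lit 4) (nat_lit 5) (nat_lit 4) (nat_lit 4) (nat_lit 403) (nat_lit 326) (nat_lit 291))) (XT.nd (nat_lit 78) (nat_lit 0) (nat_lit 0) (XT.lf (nat_lit 0) (nat_lit 68417828081)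 (nat_lit 76) (nat_lit 28094959383) (nat_lit 76) (nat_lit 24445362676) (nat_lit 3) (nat_lit 4) (nat_lit 4) (nat_lit 5) (nat_lit 4) (nat_lit 4) (nat_lit 404) (nat_lit 326) (nat_lit 290)) (XT.nd (nat_lit 78) (nat_lit 0) (nat_lit 0) (XT.lf (nat_lit 0) (nat_lit 84742452777) (nat_lit 76) (nat_lit 24564365992) (nat_lit 76) (nat_lit 20896708262) (nat_lit 3) (nat_lit 4) (nat_lit 4) (nat_lit 5) (nat_lit 4) (nat_lit 4) (nat_lit 405) (nat_lit 326) (nat_lit 289)) (XT.lf (nat_lit 0) (nat_lit 102286535974) (nat_lit 76) (nat_lit 20794908675) (nat_lit 76) (nat_lit 17110527775) (nat_lit 3) (nat_lit 4) (nat_lit 4) (nat_lit 5) (nat_lit 4) (nat_lit 4) (nat_lit 406) (nat_lit 326) (nat_lit 288))))))) (XT.nd (nat_lit 702) (nat_lit 0) (nat_lit 0) (XT.nd (nat_lit 312) (nat_lit 76) (nat_lit 0) (XT.nd (nat_lit 156) (nat_lit 76) (nat_lit 0) (XT.nd (nat_lit 78) (nat_lit 0) (nat_lit 0) (XT.lf (nat_lit 0) (nat_lit 121154042611)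 (nat_lit 76) (nat_lit 16764249907) (nat_lit 76) (nat_lit 13064384591) (nat_lit 3) (nat_lit 4) (nat_lit 4) (nat_lit 5) (nat_lit 4) (nat_lit 4) (nat_lit 407) (nat_lit 326) (nat_lit 287)) (XT.lf (nat_lit 0) (nat_lit 141456780133) (nat_lit 76) (nat_lit 12448504304) (nat_lit 76) (nat_lit 8734301565) (nat_lit 3) (nat_lit 4) (nat_lit 4) (nat_lit 5) (nat_lit 4) (nat_lit 4) (nat_lit 408) (nat_lit 326) (nat_lit 286))) (XT.nd (nat_lit 78) (nat_lit 76) (nat_lit 0) (XT.lf (nat_lit 0) (nat_lit 163315061060) (nat_lit 76) (nat_lit 7822097075) (nat_lit 76) (nat_lit 4094618946) (nat_lit 3) (nat_lit 4) (nat_lit 4) (nat_lit 5) (nat_lit 4) (nat_lit 4) (nat_lit 409) (nat_lit 326) (nat_lit 285)) (XT.lf (nat_lit 0) (nat_lit 838028581) (nat_lit 152) (nat_lit 1996670708) (nat_lit 76) (nat_lit 185997474177) (nat_lit 2) (nat_lit 5) (nat_lit 4) (nat_lit 5) (nat_lit 3) (nat_lit 4) (nat_lit 410) (nat_lit 326) (nat_lit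 284)))) (XT.nd (nat_lit 156) (nat_lit 0) (nat_lit 0) (XT.nd (nat_lit 78) (nat_lit 0) (nat_lit 0) (XT.lf (nat_lit 0) (nat_lit 6199574356) (nat_lit 152) (nat_lit 194565795547) (nat_lit 0) (nat_lit 2726285776) (nat_lit 1) (nat_lit 5) (nat_lit 3) (nat_lit 4) (nat_lit 1) (nat_lit 4) (nat_lit 411) (nat_lit 326) (nat_lit 283)) (XT.lf (nat_lit 0) (nat_lit 12089793024) (nat_lit 152) (nat_lit 198619379276) (nat_lit 0) (nat_lit 8606746635) (nat_lit 1) (nat_lit 5) (nat_lit 3) (nat_lit 4) (nat_lit 1) (nat_lit 4) (nat_lit 412) (nat_lit 326) (nat_lit 282))) (XT.nd (nat_lit 78) (nat_lit 0) (nat_lit 0) (XT.lf (nat_lit 0) (nat_lit 18423553421) (nat_lit 152) (nat_lit 203053314093) (nat_lit 0) (nat_lit 14931472024) (nat_lit 1) (nat_lit 5) (nat_lit 3) (nat_lit 4) (nat_lit 1) (nat_lit 4) (nat_lit 413) (nat_lit 326) (nat_lit 281)) (XT.nd (nat_lit 78) (nat_lit 0) (nat_lit 0) (XT.lf (nat_lit 0) (nat_lit 25238388942)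 (nat_lit 152) (nat_lit 207893875166) (nat_lit 0) (nat_lit 21737941796) (nat_lit 1) (nat_lit 5) (nat_lit 3) (nat_lit 4) (nat_lit 1) (nat_lit 4) (nat_lit 414) (nat_lit 326) (nat_lit 280)) (XT.lf (nat_lit 0) (nat_lit 32574683797) (nat_lit 152) (nat_lit 213169747302) (nat_lit 0) (nat_lit 29066490589) (nat_lit 1) (nat_lit 5) (nat_lit 3) (nat_lit 4) (nat_lit 1) (nat_lit 4) (nat_lit 415) (nat_lit 326) (nat_lit 279)))))) (XT.nd (nat_lit 390) (nat_lit 0) (nat_lit 0) (XT.nd (nat_lit 156) (nat_lit 0) (nat_lit 0) (XT.nd (nat_lit 78) (nat_lit 0) (nat_lit 0) (XT.lf (nat_lit 0) (nat_lit 40475912328) (nat_lit 152) (nat_lit 218912194929) (nat_lit 0) (nat_lit 36960546838) (nat_lit 1) (nat_lit 5) (nat_lit 3) (nat_lit 4) (nat_lit 1) (nat_lit 4) (nat_lit 416) (nat_lit 326) (nat_lit 278)) (XT.lf (nat_lit 0) (nat_lit 48988896628) (nat_lit 152) (nat_lit 225155247365) (nat_lit 0) (nat_lit 45466890138) (nat_lit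 1) (nat_lit 5) (nat_lit 3) (nat_lit 4) (nat_lit 1) (nat_lit 4) (nat_lit 417) (nat_lit 326) (nat_lit 277))) (XT.nd (nat_lit 78) (nat_lit 0) (nat_lit 0) (XT.lf (nat_lit 0) (nat_lit 58164084011) (nat_lit 152) (nat_lit 231935900478) (nat_lit 0) (nat_lit 54635928447) (nat_lit 1) (nat_lit 5) (nat_lit 3) (nat_lit 4) (nat_lit 1) (nat_lit 4) (nat_lit 418) (nat_lit 326) (nat_lit 276)) (XT.nd (nat_lit 78) (nat_lit 0) (nat_lit 0) (XT.lf (nat_lit 0) (nat_lit 68055845960) (nat_lit 152) (nat_lit 239294335914) (nat_lit 0) (nat_lit 64521996808) (nat_lit 1) (nat_lit 5) (nat_lit 3) (nat_lit 4) (nat_lit 1) (nat_lit 4) (nat_lit 419) (nat_lit 326) (nat_lit 275)) (XT.lf (nat_lit 0) (nat_lit 78722800322) (nat_lit 152) (nat_lit 247274159219) (nat_lit 0) (nat_lit 75183679329) (nat_lit 1) (nat_lit 5) (nat_lit 3) (nat_lit 4) (nat_lit 1) (nat_lit 4) (nat_lit 420) (nat_lit 326) (nat_lit 274))))) (XT.nd (nat_lit 156)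 (nat_lit 0) (nat_lit 0) (XT.nd (nat_lit 78) (nat_lit 0) (nat_lit 0) (XT.lf (nat_lit 0) (nat_lit 90228158679) (nat_lit 152) (nat_lit 255922658232) (nat_lit 0) (nat_lit 86684156352) (nat_lit 1) (nat_lit 5) (nat_lit 3) (nat_lit 4) (nat_lit 1) (nat_lit 4) (nat_lit 421) (nat_lit 326) (nat_lit 273)) (XT.lf (nat_lit 0) (nat_lit 102640100931) (nat_lit 152) (nat_lit 265291083319) (nat_lit 0) (nat_lit 99091578851) (nat_lit 1) (nat_lit 5) (nat_lit 3) (nat_lit 4) (nat_lit 1) (nat_lit 4) (nat_lit 422) (nat_lit 326) (nat_lit 272))) (XT.nd (nat_lit 78) (nat_lit 0) (nat_lit 0) (XT.lf (nat_lit 0) (nat_lit 116032179330) (nat_lit 152) (nat_lit 275434951073) (nat_lit 0) (nat_lit 112479472293) (nat_lit 1) (nat_lit 5) (nat_lit 3) (nat_lit 4) (nat_lit 1) (nat_lit 4) (nat_lit 423) (nat_lit 326) (nat_lit 271)) (XT.nd (nat_lit 78) (nat_lit 0) (nat_lit 0) (XT.lf (nat_lit 0) (nat_lit 130483754341) (nat_lit 152) (nat_lit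 286414373303) (nat_lit 0) (nat_lit 126927172344) (nat_lit 1) (nat_lit 5) (nat_lit 3) (nat_lit 4) (nat_lit 1) (nat_lit 4) (nat_lit 424) (nat_lit 326) (nat_lit 270)) (XT.lf (nat_lit 0) (nat_lit 146080464925) (nat_lit 152) (nat_lit 298294413252) (nat_lit 0) (nat_lit 142520295002) (nat_lit 1) (nat_lit 5) (nat_lit 3) (nat_lit 4) (nat_lit 1) (nat_lit 4) (nat_lit 425) (nat_lit 326) (nat_lit 269))))))))
noncomputable def xc57 : XT := (XT.nd (nat_lit 1482) (nat_lit 0) (nat_lit 0) (XT.nd (nat_lit 702) (nat_lit 0) (nat_lit 0) (XT.nd (nat_lit 312) (nat_lit 0) (nat_lit 0) (XT.nd (nat_lit 156) (nat_lit 0) (nat_lit 0) (XT.nd (nat_lit 78) (nat_lit 0) (nat_lit 0) (XT.lf (nat_lit 0) (nat_lit 162914736035) (nat_lit 152) (nat_lit 311145471156) (nat_lit 0) (nat_lit 159351243958) (nat_lit 1) (nat_lit 5) (nat_lit 3) (nat_lit 4) (nat_lit 1) (nat_lit 4) (nat_lit 426) (nat_lit 326) (nat_lit 268)) (XT.lf (nat_lit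 0) (nat_lit 181086326315) (nat_lit 152) (nat_lit 325043701433) (nat_lit 0) (nat_lit 177519758170) (nat_lit 1) (nat_lit 5) (nat_lit 3) (nat_lit 4) (nat_lit 1) (nat_lit 4) (nat_lit 427) (nat_lit 326) (nat_lit 267))) (XT.nd (nat_lit 78) (nat_lit 0) (nat_lit 0) (XT.lf (nat_lit 0) (nat_lit 200702919261) (nat_lit 152) (nat_lit 340071463965) (nat_lit 0) (nat_lit 197133502905) (nat_lit 1) (nat_lit 5) (nat_lit 3) (nat_lit 4) (nat_lit 1) (nat_lit 4) (nat_lit 428) (nat_lit 326) (nat_lit 266)) (XT.lf (nat_lit 0) (nat_lit 221880761352) (nat_lit 152) (nat_lit 356317812161) (nat_lit 0) (nat_lit 218308707763) (nat_lit 1) (nat_lit 5) (nat_lit 3) (nat_lit 4) (nat_lit 1) (nat_lit 4) (nat_lit 429) (nat_lit 326) (nat_lit 265)))) (XT.nd (nat_lit 156) (nat_lit 0) (nat_lit 0) (XT.nd (nat_lit 78) (nat_lit 0) (nat_lit 0) (XT.lf (nat_lit 0) (nat_lit 244745350910) (nat_lit 152) (nat_lit 373879020676) (nat_lit 0)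 (nat_lit 241170855439) (nat_lit 1) (nat_lit 5) (nat_lit 3) (nat_lit 4) (nat_lit 1) (nat_lit 4) (nat_lit 430) (nat_lit 326) (nat_lit 264)) (XT.lf (nat_lit 0) (nat_lit 269432181800) (nat_lit 152) (nat_lit 392859155931) (nat_lit 0) (nat_lit 265855425327) (nat_lit 1) (nat_lit 5) (nat_lit 3) (nat_lit 4) (nat_lit 1) (nat_lit 4) (nat_lit 431) (nat_lit 326) (nat_lit 263))) (XT.nd (nat_lit 78) (nat_lit 0) (nat_lit 0) (XT.lf (nat_lit 0) (nat_lit 296087546353) (nat_lit 152) (nat_lit 413370692802) (nat_lit 0) (nat_lit 292508696359) (nat_lit 1) (nat_lit 5) (nat_lit 3) (nat_lit 4) (nat_lit 1) (nat_lit 4) (nat_lit 432) (nat_lit 326) (nat_lit 262)) (XT.nd (nat_lit 78) (nat_lit 0) (nat_lit 0) (XT.lf (nat_lit 0) (nat_lit 324869402284) (nat_lit 152) (nat_lit 435535181137) (nat_lit 0) (nat_lit 321288613845) (nat_lit 1) (nat_lit 5) (nat_lit 3) (nat_lit 4) (nat_lit 1) (nat_lit 4) (nat_lit 433) (nat_lit 326)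 (nat_lit 261)) (XT.lf (nat_lit 0) (nat_lit 355948308740) (nat_lit 152) (nat_lit 459483966052) (nat_lit 0) (nat_lit 352365725445) (nat_lit 1) (nat_lit 5) (nat_lit 3) (nat_lit 4) (nat_lit 1) (nat_lit 4) (nat_lit 434) (nat_lit 326) (nat_lit 260)))))) (XT.nd (nat_lit 390) (nat_lit 0) (nat_lit 0) (XT.nd (nat_lit 156) (nat_lit 0) (nat_lit 0) (XT.nd (nat_lit 78) (nat_lit 0) (nat_lit 0) (XT.lf (nat_lit 0) (nat_lit 389508437018) (nat_lit 152) (nat_lit 485358966272) (nat_lit 0) (nat_lit 385924191819) (nat_lit 1) (nat_lit 5) (nat_lit 3) (nat_lit 4) (nat_lit 1) (nat_lit 4) (nat_lit 435) (nat_lit 326) (nat_lit 259)) (XT.lf (nat_lit 0) (nat_lit 425748661953) (nat_lit 152) (nat_lit 513313515132) (nat_lit 0) (nat_lit 422162877954) (nat_lit 1) (nat_lit 5) (nat_lit 3) (nat_lit 4) (nat_lit 1) (nat_lit 4) (nat_lit 436) (nat_lit 326) (nat_lit 258))) (XT.nd (nat_lit 78) (nat_lit 0) (nat_lit 0) (XT.lf (nat_lit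 0) (nat_lit 464883740433) (nat_lit 152) (nat_lit 543513269217) (nat_lit 0) (nat_lit 461296531620) (nat_lit 1) (nat_lit 5) (nat_lit 3) (nat_lit 4) (nat_lit 1) (nat_lit 4) (nat_lit 437) (nat_lit 326) (nat_lit 257)) (XT.nd (nat_lit 78) (nat_lit 0) (nat_lit 0) (XT.lf (nat_lit 0) (nat_lit 507145584035) (nat_lit 152) (nat_lit 576137190035) (nat_lit 0) (nat_lit 503557055948) (nat_lit 1) (nat_lit 5) (nat_lit 3) (nat_lit 4) (nat_lit 1) (nat_lit 4) (nat_lit 438) (nat_lit 326) (nat_lit 256)) (XT.lf (nat_lit 0) (nat_lit 552784633312) (nat_lit 152) (nat_lit 611378604522) (nat_lit 0) (nat_lit 549194883677) (nat_lit 1) (nat_lit 5) (nat_lit 3) (nat_lit 4) (nat_lit 1) (nat_lit 4) (nat_lit 439) (nat_lit 326) (nat_lit 255))))) (XT.nd (nat_lit 156) (nat_lit 0) (nat_lit 0) (XT.nd (nat_lit 78) (nat_lit 0) (nat_lit 0) (XT.lf (nat_lit 0) (nat_lit 602071341891) (nat_lit 152) (nat_lit 649446350690) (nat_lit 0)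 (nat_lit 598480461192) (nat_lit 1) (nat_lit 5) (nat_lit 3) (nat_lit 4) (nat_lit 1) (nat_lit 4) (nat_lit 440) (nat_lit 326) (nat_lit 254)) (XT.lf (nat_lit 0) (nat_lit 655297779156) (nat_lit 152) (nat_lit 690566015184) (nat_lit 0) (nat_lit 651705851175) (nat_lit 1) (nat_lit 5) (nat_lit 3) (nat_lit 4) (nat_lit 1) (nat_lit 4) (nat_lit 441) (nat_lit 326) (nat_lit 253))) (XT.nd (nat_lit 78) (nat_lit 0) (nat_lit 0) (XT.lf (nat_lit 0) (nat_lit 712779361030) (nat_lit 152) (nat_lit 734981270089) (nat_lit 0) (nat_lit 709186463344) (nat_lit 1) (nat_lit 5) (nat_lit 3) (nat_lit 4) (nat_lit 1) (nat_lit 4) (nat_lit 442) (nat_lit 326) (nat_lit 252)) (XT.nd (nat_lit 78) (nat_lit 0) (nat_lit 0) (XT.lf (nat_lit 0) (nat_lit 774856719111) (nat_lit 152) (nat_lit 782955316916) (nat_lit 0) (nat_lit 771262923550) (nat_lit 1) (nat_lit 5) (nat_lit 3) (nat_lit 4) (nat_lit 1) (nat_lit 4) (nat_lit 443) (nat_lit 326)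 (nat_lit 251)) (XT.lf (nat_lit 0) (nat_lit 841897719223) (nat_lit 152) (nat_lit 834772446313) (nat_lit 0) (nat_lit 838303092297) (nat_lit 1) (nat_lit 5) (nat_lit 3) (nat_lit 4) (nat_lit 1) (nat_lit 4) (nat_lit 444) (nat_lit 326) (nat_lit 250))))))) (XT.nd (nat_lit 780) (nat_lit 0) (nat_lit 0) (XT.nd (nat_lit 390) (nat_lit 0) (nat_lit 0) (XT.nd (nat_lit 156) (nat_lit 0) (nat_lit 0) (XT.nd (nat_lit 78) (nat_lit 0) (nat_lit 0) (XT.lf (nat_lit 0) (nat_lit 914299641369) (nat_lit 152) (nat_lit 890739722750) (nat_lit 0) (nat_lit 910704244659) (nat_lit 1) (nat_lit 5) (nat_lit 3) (nat_lit 4) (nat_lit 1) (nat_lit 4) (nat_lit 445) (nat_lit 326) (nat_lit 249)) (XT.lf (nat_lit 0) (nat_lit 992491533974) (nat_lit 152) (nat_lit 951188804161) (nat_lit 0) (nat_lit 988895424502) (nat_lit 1) (nat_lit 5) (nat_lit 3) (nat_lit 4) (nat_lit 1) (nat_lit 4) (nat_lit 446) (nat_lit 326) (nat_lit 248))) (XT.nd (nat_lit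 78) (nat_lit 0) (nat_lit 0) (XT.lf (nat_lit 0) (nat_lit 1076936756404) (nat_lit 152) (nat_lit 1016477907326) (nat_lit 0) (nat_lit 1073339986967) (nat_lit 1) (nat_lit 5) (nat_lit 3) (nat_lit 4) (nat_lit 1) (nat_lit 4) (nat_lit 447) (nat_lit 326) (nat_lit 247)) (XT.nd (nat_lit 78) (nat_lit 0) (nat_lit 0) (XT.lf (nat_lit 0) (nat_lit 1168135724790) (nat_lit 152) (nat_lit 1086993930633) (nat_lit 0) (nat_lit 1164538344274) (nat_lit 1) (nat_lit 5) (nat_lit 3) (nat_lit 4) (nat_lit 1) (nat_lit 4) (nat_lit 448) (nat_lit 326) (nat_lit 246)) (XT.lf (nat_lit 0) (nat_lit 1266628877464) (nat_lit 152) (nat_lit 1163154746814) (nat_lit 0) (nat_lit 1263030931134) (nat_lit 1) (nat_lit 5) (nat_lit 3) (nat_lit 4) (nat_lit 1) (nat_lit 4) (nat_lit 449) (nat_lit 326) (nat_lit 245))))) (XT.nd (nat_lit 156) (nat_lit 0) (nat_lit 0) (XT.nd (nat_lit 78) (nat_lit 0) (nat_lit 0) (XT.lf (nat_lit 0) (nat_lit 1372999877552)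 (nat_lit 152) (nat_lit 1245411679223) (nat_lit 0) (nat_lit 1369401407322) (nat_lit 1) (nat_lit 5) (nat_lit 3) (nat_lit 4) (nat_lit 1) (nat_lit 4) (nat_lit 450) (nat_lit 326) (nat_lit 244)) (XT.lf (nat_lit 0) (nat_lit 1487879071723) (nat_lit 152) (nat_lit 1334252176349) (nat_lit 0) (nat_lit 1484280116398) (nat_lit 1) (nat_lit 5) (nat_lit 3) (nat_lit 4) (nat_lit 1) (nat_lit 4) (nat_lit 451) (nat_lit 326) (nat_lit 243))) (XT.nd (nat_lit 78) (nat_lit 0) (nat_lit 0) (XT.lf (nat_lit 0) (nat_lit 1611947225571) (nat_lit 152) (nat_lit 1430202700397) (nat_lit 0) (nat_lit 1608347821085) (nat_lit 1) (nat_lit 5) (nat_lit 3) (nat_lit 4) (nat_lit 1) (nat_lit 4) (nat_lit 452) (nat_lit 326) (nat_lit 242)) (XT.nd (nat_lit 78) (nat_lit 0) (nat_lit 0) (XT.lf (nat_lit 0) (nat_lit 1745939557785) (nat_lit 152) (nat_lit 1533831847064) (nat_lit 0) (nat_lit 1742339737410) (nat_lit 1) (nat_lit 5) (nat_lit 3) (nat_lit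 4) (nat_lit 1) (nat_lit 4) (nat_lit 453) (nat_lit 326) (nat_lit 241)) (XT.lf (nat_lit 0) (nat_lit 1890650097002) (nat_lit 152) (nat_lit 1645753714999) (nat_lit 0) (nat_lit 1887049891543) (nat_lit 1) (nat_lit 5) (nat_lit 3) (nat_lit 4) (nat_lit 1) (nat_lit 4) (nat_lit 454) (nat_lit 326) (nat_lit 240)))))) (XT.nd (nat_lit 390) (nat_lit 0) (nat_lit 0) (XT.nd (nat_lit 156) (nat_lit 0) (nat_lit 0) (XT.nd (nat_lit 78) (nat_lit 0) (nat_lit 0) (XT.lf (nat_lit 0) (nat_lit 2046936387156) (nat_lit 152) (nat_lit 1766631544899) (nat_lit 0) (nat_lit 2043335825139) (nat_lit 1) (nat_lit 5) (nat_lit 3) (nat_lit 4) (nat_lit 1) (nat_lit 4) (nat_lit 455) (nat_lit 326) (nat_lit 239)) (XT.lf (nat_lit 0) (nat_lit 2215724569227) (nat_lit 152) (nat_lit 1897181649831) (nat_lit 0) (nat_lit 2212123677063) (nat_lit 1) (nat_lit 5) (nat_lit 3) (nat_lit 4) (nat_lit 1) (nat_lit 4) (nat_lit 456) (nat_lit 326) (nat_lit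 238))) (XT.nd (nat_lit 78) (nat_lit 0) (nat_lit 0) (XT.lf (nat_lit 0) (nat_lit 2398014869479) (nat_lit 152) (nat_lit 2038177660046) (nat_lit 0) (nat_lit 2394413671624) (nat_lit 1) (nat_lit 5) (nat_lit 3) (nat_lit 4) (nat_lit 1) (nat_lit 4) (nat_lit 457) (nat_lit 326) (nat_lit 237)) (XT.nd (nat_lit 78) (nat_lit 0) (nat_lit 0) (XT.lf (nat_lit 0) (nat_lit 2594887526728) (nat_lit 152) (nat_lit 2190455107457) (nat_lit 0) (nat_lit 2591286045825) (nat_lit 1) (nat_lit 5) (nat_lit 3) (nat_lit 4) (nat_lit 1) (nat_lit 4) (nat_lit 458) (nat_lit 326) (nat_lit 236)) (XT.lf (nat_lit 0) (nat_lit 2807509193758) (nat_lit 152) (nat_lit 2354916376938) (nat_lit 0) (nat_lit 2803907450774) (nat_lit 1) (nat_lit 5) (nat_lit 3) (nat_lit 4) (nat_lit 1) (nat_lit 4) (nat_lit 459) (nat_lit 326) (nat_lit 235))))) (XT.nd (nat_lit 45864) (nat_lit 0) (nat_lit 1520) (XT.nd (nat_lit 45786) (nat_lit 0) (nat_lit 1900) (XT.lf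 (nat_lit 0) (nat_lit 3037139850818) (nat_lit 152) (nat_lit 2532536053788) (nat_lit 0) (nat_lit 3033537865166) (nat_lit 1) (nat_lit 5) (nat_lit 3) (nat_lit 4) (nat_lit 1) (nat_lit 4) (nat_lit 460) (nat_lit 326) (nat_lit 234)) (XT.lf (nat_lit 0) (nat_lit 2880970300) (nat_lit 152) (nat_lit 212167546) (nat_lit 0) (nat_lit 2880970300) (nat_lit 26) (nat_lit 5) (nat_lit 28) (nat_lit 4) (nat_lit 26) (nat_lit 4) (nat_lit 366) (nat_lit 327) (nat_lit 327))) (XT.nd (nat_lit 78) (nat_lit 228) (nat_lit 0) (XT.lf (nat_lit 0) (nat_lit 9456343045) (nat_lit 152) (nat_lit 1766465446) (nat_lit 152) (nat_lit 1232654360) (nat_lit 24) (nat_lit 4) (nat_lit 26) (nat_lit 5) (nat_lit 26) (nat_lit 4) (nat_lit 367) (nat_lit 327) (nat_lit 326)) (XT.nd (nat_lit 78) (nat_lit 76) (nat_lit 0) (XT.lf (nat_lit 0) (nat_lit 3883601672) (nat_lit 152) (nat_lit 6182418826) (nat_lit 0) (nat_lit 2931675181) (nat_lit 22) (nat_lit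 5) (nat_lit 24) (nat_lit 4) (nat_lit 22) (nat_lit 4) (nat_lit 368) (nat_lit 327) (nat_lit 325)) (XT.lf (nat_lit 0) (nat_lit 3605637604) (nat_lit 76) (nat_lit 5677812253) (nat_lit 76) (nat_lit 4302129312) (nat_lit 21) (nat_lit 4) (nat_lit 22) (nat_lit 5) (nat_lit 22) (nat_lit 4) (nat_lit 369) (nat_lit 327) (nat_lit 324))))))))
noncomputable def xc58 : XT := (XT.nd (nat_lit 1482) (nat_lit 304) (nat_lit 0) (XT.nd (nat_lit 702) (nat_lit 456) (nat_lit 0) (XT.nd (nat_lit 312) (nat_lit 304) (nat_lit 0) (XT.nd (nat_lit 156) (nat_lit 152) (nat_lit 0) (XT.nd (nat_lit 78) (nat_lit 76) (nat_lit 0) (XT.lf (nat_lit 0) (nat_lit 749219820) (nat_lit 152) (nat_lit 209672799) (nat_lit 76) (nat_lit 13268033532) (nat_lit 20) (nat_lit 5) (nat_lit 22) (nat_lit 5) (nat_lit 21) (nat_lit 4) (nat_lit 370) (nat_lit 327) (nat_lit 323)) (XT.lf (nat_lit 0) (nat_lit 6069170783) (nat_lit 152) (nat_lit 4738103917) (nat_lit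 0) (nat_lit 4095695894) (nat_lit 19) (nat_lit 5) (nat_lit 21) (nat_lit 4) (nat_lit 19) (nat_lit 4) (nat_lit 371) (nat_lit 327) (nat_lit 322))) (XT.nd (nat_lit 78) (nat_lit 76) (nat_lit 0) (XT.lf (nat_lit 0) (nat_lit 5529622436) (nat_lit 76) (nat_lit 6197744722) (nat_lit 76) (nat_lit 3912796191) (nat_lit 18) (nat_lit 4) (nat_lit 19) (nat_lit 5) (nat_lit 19) (nat_lit 4) (nat_lit 372) (nat_lit 327) (nat_lit 321)) (XT.lf (nat_lit 0) (nat_lit 1214723590) (nat_lit 152) (nat_lit 46724983) (nat_lit 76) (nat_lit 15181614363) (nat_lit 17) (nat_lit 5) (nat_lit 19) (nat_lit 5) (nat_lit 18) (nat_lit 4) (nat_lit 373) (nat_lit 327) (nat_lit 320)))) (XT.nd (nat_lit 156) (nat_lit 152) (nat_lit 0) (XT.nd (nat_lit 78) (nat_lit 76) (nat_lit 0) (XT.lf (nat_lit 0) (nat_lit 6672299708) (nat_lit 152) (nat_lit 6577015034) (nat_lit 0) (nat_lit 4042310361) (nat_lit 16) (nat_lit 5) (nat_lit 18) (nat_lit 4) (nat_lit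 16) (nat_lit 4) (nat_lit 374) (nat_lit 327) (nat_lit 319)) (XT.lf (nat_lit 0) (nat_lit 3852390517) (nat_lit 76) (nat_lit 8611440958) (nat_lit 76) (nat_lit 5752509186) (nat_lit 15) (nat_lit 4) (nat_lit 16) (nat_lit 5) (nat_lit 16) (nat_lit 4) (nat_lit 375) (nat_lit 327) (nat_lit 318))) (XT.nd (nat_lit 78) (nat_lit 152) (nat_lit 0) (XT.lf (nat_lit 0) (nat_lit 15062241947) (nat_lit 76) (nat_lit 3613593619) (nat_lit 76) (nat_lit 542678120) (nat_lit 15) (nat_lit 4) (nat_lit 16) (nat_lit 5) (nat_lit 16) (nat_lit 4) (nat_lit 376) (nat_lit 327) (nat_lit 317)) (XT.nd (nat_lit 78) (nat_lit 0) (nat_lit 0) (XT.lf (nat_lit 0) (nat_lit 4824040504) (nat_lit 152) (nat_lit 13668671321) (nat_lit 0) (nat_lit 1798858349) (nat_lit 13) (nat_lit 5) (nat_lit 15) (nat_lit 4) (nat_lit 13) (nat_lit 4) (nat_lit 377) (nat_lit 327) (nat_lit 316)) (XT.lf (nat_lit 0) (nat_lit 10591157662) (nat_lit 152) (nat_lit 3460500946)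 (nat_lit 0) (nat_lit 7397695990) (nat_lit 13) (nat_lit 5) (nat_lit 15) (nat_lit 4) (nat_lit 13) (nat_lit 4) (nat_lit 378) (nat_lit 327) (nat_lit 315)))))) (XT.nd (nat_lit 390) (nat_lit 152) (nat_lit 0) (XT.nd (nat_lit 156) (nat_lit 228) (nat_lit 0) (XT.nd (nat_lit 78) (nat_lit 0) (nat_lit 0) (XT.lf (nat_lit 0) (nat_lit 7564012924) (nat_lit 76) (nat_lit 9243035465) (nat_lit 76) (nat_lit 5893759426) (nat_lit 12) (nat_lit 4) (nat_lit 13) (nat_lit 5) (nat_lit 13) (nat_lit 4) (nat_lit 379) (nat_lit 327) (nat_lit 314)) (XT.lf (nat_lit 0) (nat_lit 19298184122) (nat_lit 76) (nat_lit 4127663171) (nat_lit 76) (nat_lit 634114569) (nat_lit 12) (nat_lit 4) (nat_lit 13) (nat_lit 5) (nat_lit 13) (nat_lit 4) (nat_lit 380) (nat_lit 327) (nat_lit 313))) (XT.nd (nat_lit 78) (nat_lit 76) (nat_lit 0) (XT.lf (nat_lit 0) (nat_lit 4802009089) (nat_lit 152) (nat_lit 19271957621) (nat_lit 0) (nat_lit 1443551397)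 (nat_lit 10) (nat_lit 5) (nat_lit 12) (nat_lit 4) (nat_lit 10) (nat_lit 4) (nat_lit 381) (nat_lit 327) (nat_lit 312)) (XT.nd (nat_lit 78) (nat_lit 76) (nat_lit 0) (XT.lf (nat_lit 0) (nat_lit 10701025705) (nat_lit 152) (nat_lit 9156342970) (nat_lit 0) (nat_lit 7228039801) (nat_lit 10) (nat_lit 5) (nat_lit 12) (nat_lit 4) (nat_lit 10) (nat_lit 4) (nat_lit 382) (nat_lit 327) (nat_lit 311)) (XT.lf (nat_lit 0) (nat_lit 1518259404) (nat_lit 76) (nat_lit 15424915226) (nat_lit 76) (nat_lit 11845884682) (nat_lit 9) (nat_lit 4) (nat_lit 10) (nat_lit 5) (nat_lit 10) (nat_lit 4) (nat_lit 383) (nat_lit 327) (nat_lit 310))))) (XT.nd (nat_lit 156) (nat_lit 152) (nat_lit 0) (XT.nd (nat_lit 78) (nat_lit 0) (nat_lit 0) (XT.lf (nat_lit 0) (nat_lit 13249606879) (nat_lit 76) (nat_lit 10524733957) (nat_lit 76) (nat_lit 6847513931) (nat_lit 9) (nat_lit 4) (nat_lit 10) (nat_lit 5) (nat_lit 10) (nat_lit 4) (nat_lit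 384) (nat_lit 327) (nat_lit 309)) (XT.lf (nat_lit 0) (nat_lit 25625061756) (nat_lit 76) (nat_lit 5378137399) (nat_lit 76) (nat_lit 1610001186) (nat_lit 9) (nat_lit 4) (nat_lit 10) (nat_lit 5) (nat_lit 10) (nat_lit 4) (nat_lit 385) (nat_lit 327) (nat_lit 308))) (XT.nd (nat_lit 78) (nat_lit 0) (nat_lit 0) (XT.lf (nat_lit 0) (nat_lit 3806220840) (nat_lit 152) (nat_lit 30713636071) (nat_lit 0) (nat_lit 239259852) (nat_lit 7) (nat_lit 5) (nat_lit 9) (nat_lit 4) (nat_lit 7) (nat_lit 4) (nat_lit 386) (nat_lit 327) (nat_lit 307)) (XT.nd (nat_lit 78) (nat_lit 0) (nat_lit 0) (XT.lf (nat_lit 0) (nat_lit 9763753112) (nat_lit 152) (nat_lit 21169406230) (nat_lit 0) (nat_lit 6124619923) (nat_lit 7) (nat_lit 5) (nat_lit 9) (nat_lit 4) (nat_lit 7) (nat_lit 4) (nat_lit 387) (nat_lit 327) (nat_lit 306)) (XT.lf (nat_lit 0) (nat_lit 16067583876) (nat_lit 152) (nat_lit 11121567100) (nat_lit 0) (nat_lit 12361624576)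 (nat_lit 7) (nat_lit 5) (nat_lit 9) (nat_lit 4) (nat_lit 7) (nat_lit 4) (nat_lit 388) (nat_lit 327) (nat_lit 305))))))) (XT.nd (nat_lit 780) (nat_lit 76) (nat_lit 0) (XT.nd (nat_lit 390) (nat_lit 76) (nat_lit 0) (XT.nd (nat_lit 156) (nat_lit 76) (nat_lit 0) (XT.nd (nat_lit 78) (nat_lit 76) (nat_lit 0) (XT.lf (nat_lit 0) (nat_lit 22755069167) (nat_lit 152) (nat_lit 510575929) (nat_lit 0) (nat_lit 18987233838) (nat_lit 7) (nat_lit 5) (nat_lit 9) (nat_lit 4) (nat_lit 7) (nat_lit 4) (nat_lit 389) (nat_lit 327) (nat_lit 304)) (XT.lf (nat_lit 0) (nat_lit 11291282930) (nat_lit 76) (nat_lit 18846111222) (nat_lit 76) (nat_lit 15020983273) (nat_lit 6) (nat_lit 4) (nat_lit 7) (nat_lit 5) (nat_lit 7) (nat_lit 4) (nat_lit 390) (nat_lit 327) (nat_lit 303))) (XT.nd (nat_lit 78) (nat_lit 76) (nat_lit 0) (XT.lf (nat_lit 0) (nat_lit 23849121803) (nat_lit 76) (nat_lit 14166479998) (nat_lit 76) (nat_lit 10288303327)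 (nat_lit 6) (nat_lit 4) (nat_lit 7) (nat_lit 5) (nat_lit 7) (nat_lit 4) (nat_lit 391) (nat_lit 327) (nat_lit 302)) (XT.nd (nat_lit 78) (nat_lit 76) (nat_lit 0) (XT.lf (nat_lit 0) (nat_lit 37210471487) (nat_lit 76) (nat_lit 9212980326) (nat_lit 76) (nat_lit 5285684469) (nat_lit 6) (nat_lit 4) (nat_lit 7) (nat_lit 5) (nat_lit 7) (nat_lit 4) (nat_lit 392) (nat_lit 327) (nat_lit 301)) (XT.lf (nat_lit 0) (nat_lit 15692129) (nat_lit 152) (nat_lit 3940136955) (nat_lit 76) (nat_lit 51438389171) (nat_lit 5) (nat_lit 5) (nat_lit 7) (nat_lit 5) (nat_lit 6) (nat_lit 4) (nat_lit 393) (nat_lit 327) (nat_lit 300))))) (XT.nd (nat_lit 156) (nat_lit 0) (nat_lit 0) (XT.nd (nat_lit 78) (nat_lit 0) (nat_lit 0) (XT.lf (nat_lit 0) (nat_lit 5595631041) (nat_lit 152) (nat_lit 51878158985) (nat_lit 0) (nat_lit 1878141808) (nat_lit 4) (nat_lit 5) (nat_lit 6) (nat_lit 4) (nat_lit 4) (nat_lit 4) (nat_lit 394) (nat_lit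 327) (nat_lit 299)) (XT.lf (nat_lit 0) (nat_lit 11747056079) (nat_lit 152) (nat_lit 43875745253) (nat_lit 0) (nat_lit 7993462777) (nat_lit 4) (nat_lit 5) (nat_lit 6) (nat_lit 4) (nat_lit 4) (nat_lit 4) (nat_lit 395) (nat_lit 327) (nat_lit 298))) (XT.nd (nat_lit 78) (nat_lit 0) (nat_lit 0) (XT.lf (nat_lit 0) (nat_lit 18308941127) (nat_lit 152) (nat_lit 35397424257) (nat_lit 0) (nat_lit 14521918133) (nat_lit 4) (nat_lit 5) (nat_lit 6) (nat_lit 4) (nat_lit 4) (nat_lit 4) (nat_lit 396) (nat_lit 327) (nat_lit 297)) (XT.nd (nat_lit 78) (nat_lit 0) (nat_lit 0) (XT.lf (nat_lit 0) (nat_lit 25320171431) (nat_lit 152) (nat_lit 26392954097) (nat_lit 0) (nat_lit 21502195017) (nat_lit 4) (nat_lit 5) (nat_lit 6) (nat_lit 4) (nat_lit 4) (nat_lit 4) (nat_lit 397) (nat_lit 327) (nat_lit 296)) (XT.lf (nat_lit 0) (nat_lit 32822295022) (nat_lit 152) (nat_lit 16808974948) (nat_lit 0) (nat_lit 28975658034) (nat_lit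 4) (nat_lit 5) (nat_lit 6) (nat_lit 4) (nat_lit 4) (nat_lit 4) (nat_lit 398) (nat_lit 327) (nat_lit 295)))))) (XT.nd (nat_lit 390) (nat_lit 0) (nat_lit 0) (XT.nd (nat_lit 156) (nat_lit 0) (nat_lit 0) (XT.nd (nat_lit 78) (nat_lit 76) (nat_lit 0) (XT.lf (nat_lit 0) (nat_lit 40859768928) (nat_lit 152) (nat_lit 6588692861) (nat_lit 0) (nat_lit 36986594372) (nat_lit 4) (nat_lit 5) (nat_lit 6) (nat_lit 4) (nat_lit 4) (nat_lit 4) (nat_lit 399) (nat_lit 327) (nat_lit 294)) (XT.lf (nat_lit 0) (nat_lit 4556385663) (nat_lit 76) (nat_lit 45033418146) (nat_lit 76) (nat_lit 41135671767) (nat_lit 3) (nat_lit 4) (nat_lit 4) (nat_lit 5) (nat_lit 4) (nat_lit 4) (nat_lit 400) (nat_lit 327) (nat_lit 293))) (XT.nd (nat_lit 78) (nat_lit 0) (nat_lit 0) (XT.lf (nat_lit 0) (nat_lit 16850077366) (nat_lit 76) (nat_lit 42289907682) (nat_lit 76) (nat_lit 38369409615) (nat_lit 3) (nat_lit 4) (nat_lit 4) (nat_lit 5)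 (nat_lit 4) (nat_lit 4) (nat_lit 401) (nat_lit 327) (nat_lit 292)) (XT.nd (nat_lit 78) (nat_lit 0) (nat_lit 0) (XT.lf (nat_lit 0) (nat_lit 30018284864) (nat_lit 76) (nat_lit 39381819095) (nat_lit 76) (nat_lit 35440254652) (nat_lit 3) (nat_lit 4) (nat_lit 4) (nat_lit 5) (nat_lit 4) (nat_lit 4) (nat_lit 402) (nat_lit 327) (nat_lit 291)) (XT.lf (nat_lit 0) (nat_lit 44139041978) (nat_lit 76) (nat_lit 36291919270) (nat_lit 76) (nat_lit 32330848921) (nat_lit 3) (nat_lit 4) (nat_lit 4) (nat_lit 5) (nat_lit 4) (nat_lit 4) (nat_lit 403) (nat_lit 327) (nat_lit 290))))) (XT.nd (nat_lit 156) (nat_lit 0) (nat_lit 0) (XT.nd (nat_lit 78) (nat_lit 0) (nat_lit 0) (XT.lf (nat_lit 0) (nat_lit 59296027269) (nat_lit 76) (nat_lit 33001897687) (nat_lit 76) (nat_lit 29022766315) (nat_lit 3) (nat_lit 4) (nat_lit 4) (nat_lit 5) (nat_lit 4) (nat_lit 4) (nat_lit 404) (nat_lit 327) (nat_lit 289)) (XT.lf (nat_lit 0)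 (nat_lit 75579059910) (nat_lit 76) (nat_lit 29492257923) (nat_lit 76) (nat_lit 25496403382) (nat_lit 3) (nat_lit 4) (nat_lit 4) (nat_lit 5) (nat_lit 4) (nat_lit 4) (nat_lit 405) (nat_lit 327) (nat_lit 288))) (XT.nd (nat_lit 78) (nat_lit 0) (nat_lit 0) (XT.lf (nat_lit 0) (nat_lit 93084631946) (nat_lit 76) (nat_lit 25742202113) (nat_lit 76) (nat_lit 21730863156) (nat_lit 3) (nat_lit 4) (nat_lit 4) (nat_lit 5) (nat_lit 4) (nat_lit 4) (nat_lit 406) (nat_lit 327) (nat_lit 287)) (XT.nd (nat_lit 78) (nat_lit 0) (nat_lit 0) (XT.lf (nat_lit 0) (nat_lit 111916480099) (nat_lit 76) (nat_lit 21729507704) (nat_lit 76) (nat_lit 17703831324) (nat_lit 3) (nat_lit 4) (nat_lit 4) (nat_lit 5) (nat_lit 4) (nat_lit 4) (nat_lit 407) (nat_lit 327) (nat_lit 286)) (XT.lf (nat_lit 0) (nat_lit 132186200507) (nat_lit 76) (nat_lit 17430395766) (nat_lit 76) (nat_lit 13391443995) (nat_lit 3) (nat_lit 4) (nat_lit 4) (nat_lit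 5) (nat_lit 4) (nat_lit 4) (nat_lit 408) (nat_lit 327) (nat_lit 285))))))))
noncomputable def xc59 : XT := (XT.nd (nat_lit 1482) (nat_lit 0) (nat_lit 0) (XT.nd (nat_lit 702) (nat_lit 0) (nat_lit 0) (XT.nd (nat_lit 312) (nat_lit 0) (nat_lit 0) (XT.nd (nat_lit 156) (nat_lit 152) (nat_lit 0) (XT.nd (nat_lit 78) (nat_lit 0) (nat_lit 0) (XT.lf (nat_lit 0) (nat_lit 154013910032) (nat_lit 76) (nat_lit 12819390079) (nat_lit 76) (nat_lit 8768146279) (nat_lit 3) (nat_lit 4) (nat_lit 4) (nat_lit 5) (nat_lit 4) (nat_lit 4) (nat_lit 409) (nat_lit 327) (nat_lit 284)) (XT.lf (nat_lit 0) (nat_lit 177528958064) (nat_lit 76) (nat_lit 7869166167) (nat_lit 76) (nat_lit 3806540859) (nat_lit 3) (nat_lit 4) (nat_lit 4) (nat_lit 5) (nat_lit 4) (nat_lit 4) (nat_lit 410) (nat_lit 327) (nat_lit 283))) (XT.nd (nat_lit 78) (nat_lit 76) (nat_lit 0) (XT.lf (nat_lit 0) (nat_lit 1446599031) (nat_lit 152) (nat_lit 1064237755)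 (nat_lit 76) (nat_lit 201384541422) (nat_lit 2) (nat_lit 5) (nat_lit 4) (nat_lit 5) (nat_lit 3) (nat_lit 4) (nat_lit 411) (nat_lit 327) (nat_lit 282)) (XT.lf (nat_lit 0) (nat_lit 7235483819) (nat_lit 152) (nat_lit 209037264523) (nat_lit 0) (nat_lit 3455000902) (nat_lit 1) (nat_lit 5) (nat_lit 3) (nat_lit 4) (nat_lit 1) (nat_lit 4) (nat_lit 412) (nat_lit 327) (nat_lit 281)))) (XT.nd (nat_lit 156) (nat_lit 0) (nat_lit 0) (XT.nd (nat_lit 78) (nat_lit 0) (nat_lit 0) (XT.lf (nat_lit 0) (nat_lit 13556924164) (nat_lit 152) (nat_lit 213496156778) (nat_lit 0) (nat_lit 9768075499) (nat_lit 1) (nat_lit 5) (nat_lit 3) (nat_lit 4) (nat_lit 1) (nat_lit 4) (nat_lit 413) (nat_lit 327) (nat_lit 280)) (XT.lf (nat_lit 0) (nat_lit 20360352230) (nat_lit 152) (nat_lit 218359826590) (nat_lit 0) (nat_lit 16563757501) (nat_lit 1) (nat_lit 5) (nat_lit 3) (nat_lit 4) (nat_lit 1) (nat_lit 4) (nat_lit 414) (nat_lit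 327) (nat_lit 279))) (XT.nd (nat_lit 78) (nat_lit 0) (nat_lit 0) (XT.lf (nat_lit 0) (nat_lit 27686084627) (nat_lit 152) (nat_lit 223657095707) (nat_lit 0) (nat_lit 23882317618) (nat_lit 1) (nat_lit 5) (nat_lit 3) (nat_lit 4) (nat_lit 1) (nat_lit 4) (nat_lit 415) (nat_lit 327) (nat_lit 278)) (XT.nd (nat_lit 78) (nat_lit 0) (nat_lit 0) (XT.lf (nat_lit 0) (nat_lit 35577533103) (nat_lit 152) (nat_lit 229419355353) (nat_lit 0) (nat_lit 31767125093) (nat_lit 1) (nat_lit 5) (nat_lit 3) (nat_lit 4) (nat_lit 1) (nat_lit 4) (nat_lit 416) (nat_lit 327) (nat_lit 277)) (XT.lf (nat_lit 0) (nat_lit 44081461797) (nat_lit 152) (nat_lit 235680752251) (nat_lit 0) (nat_lit 40264904712) (nat_lit 1) (nat_lit 5) (nat_lit 3) (nat_lit 4) (nat_lit 1) (nat_lit 4) (nat_lit 417) (nat_lit 327) (nat_lit 276)))))) (XT.nd (nat_lit 390) (nat_lit 0) (nat_lit 0) (XT.nd (nat_lit 156) (nat_lit 0) (nat_lit 0) (XT.nd (nat_lit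 78) (nat_lit 0) (nat_lit 0) (XT.lf (nat_lit 0) (nat_lit 53248264361) (nat_lit 152) (nat_lit 242478390977) (nat_lit 0) (nat_lit 49426013688) (nat_lit 1) (nat_lit 5) (nat_lit 3) (nat_lit 4) (nat_lit 1) (nat_lit 4) (nat_lit 418) (nat_lit 327) (nat_lit 275)) (XT.lf (nat_lit 0) (nat_lit 63132262587) (nat_lit 152) (nat_lit 249852553833) (nat_lit 0) (nat_lit 59304740074) (nat_lit 1) (nat_lit 5) (nat_lit 3) (nat_lit 4) (nat_lit 1) (nat_lit 4) (nat_lit 419) (nat_lit 327) (nat_lit 274))) (XT.nd (nat_lit 78) (nat_lit 0) (nat_lit 0) (XT.lf (nat_lit 0) (nat_lit 73792028317) (nat_lit 152) (nat_lit 257846939563) (nat_lit 0) (nat_lit 69959624470) (nat_lit 1) (nat_lit 5) (nat_lit 3) (nat_lit 4) (nat_lit 1) (nat_lit 4) (nat_lit 420) (nat_lit 327) (nat_lit 273)) (XT.nd (nat_lit 78) (nat_lit 0) (nat_lit 0) (XT.lf (nat_lit 0) (nat_lit 85290730533) (nat_lit 152) (nat_lit 266508922303) (nat_lit 0) (nat_lit 81453806933)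 (nat_lit 1) (nat_lit 5) (nat_lit 3) (nat_lit 4) (nat_lit 1) (nat_lit 4) (nat_lit 421) (nat_lit 327) (nat_lit 272)) (XT.lf (nat_lit 0) (nat_lit 97696509692) (nat_lit 152) (nat_lit 275889832323) (nat_lit 0) (nat_lit 93855401136) (nat_lit 1) (nat_lit 5) (nat_lit 3) (nat_lit 4) (nat_lit 1) (nat_lit 4) (nat_lit 422) (nat_lit 327) (nat_lit 271))))) (XT.nd (nat_lit 156) (nat_lit 0) (nat_lit 0) (XT.nd (nat_lit 78) (nat_lit 0) (nat_lit 0) (XT.lf (nat_lit 0) (nat_lit 111082881524) (nat_lit 152) (nat_lit 286045260200) (nat_lit 0) (nat_lit 107237898007) (nat_lit 1) (nat_lit 5) (nat_lit 3) (nat_lit 4) (nat_lit 1) (nat_lit 4) (nat_lit 423) (nat_lit 327) (nat_lit 270)) (XT.lf (nat_lit 0) (nat_lit 125529172675) (nat_lit 152) (nat_lit 297035386248) (nat_lit 0) (nat_lit 121680601232) (nat_lit 1) (nat_lit 5) (nat_lit 3) (nat_lit 4) (nat_lit 1) (nat_lit 4) (nat_lit 424) (nat_lit 327) (nat_lit 269))) (XT.nd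 (nat_lit 78) (nat_lit 0) (nat_lit 0) (XT.lf (nat_lit 0) (nat_lit 141120990798) (nat_lit 152) (nat_lit 308925337138) (nat_lit 0) (nat_lit 137269097201) (nat_lit 1) (nat_lit 5) (nat_lit 3) (nat_lit 4) (nat_lit 1) (nat_lit 4) (nat_lit 425) (nat_lit 327) (nat_lit 268)) (XT.nd (nat_lit 78) (nat_lit 0) (nat_lit 0) (XT.lf (nat_lit 0) (nat_lit 157950731850) (nat_lit 152) (nat_lit 321785571841) (nat_lit 0) (nat_lit 154095762185) (nat_lit 1) (nat_lit 5) (nat_lit 3) (nat_lit 4) (nat_lit 1) (nat_lit 4) (nat_lit 426) (nat_lit 327) (nat_lit 267)) (XT.lf (nat_lit 0) (nat_lit 176118127632) (nat_lit 152) (nat_lit 335692299153) (nat_lit 0) (nat_lit 172260309756) (nat_lit 1) (nat_lit 5) (nat_lit 3) (nat_lit 4) (nat_lit 1) (nat_lit 4) (nat_lit 427) (nat_lit 327) (nat_lit 266))))))) (XT.nd (nat_lit 780) (nat_lit 0) (nat_lit 0) (XT.nd (nat_lit 390) (nat_lit 0) (nat_lit 0) (XT.nd (nat_lit 156) (nat_lit 0) (nat_lit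 0) (XT.nd (nat_lit 78) (nat_lit 0) (nat_lit 0) (XT.lf (nat_lit 0) (nat_lit 195730836785) (nat_lit 152) (nat_lit 350727929310) (nat_lit 0) (nat_lit 191870381676) (nat_lit 1) (nat_lit 5) (nat_lit 3) (nat_lit 4) (nat_lit 1) (nat_lit 4) (nat_lit 428) (nat_lit 327) (nat_lit 265)) (XT.lf (nat_lit 0) (nat_lit 216905082770) (nat_lit 152) (nat_lit 366981562345) (nat_lit 0) (nat_lit 213042185778) (nat_lit 1) (nat_lit 5) (nat_lit 3) (nat_lit 4) (nat_lit 1) (nat_lit 4) (nat_lit 429) (nat_lit 327) (nat_lit 264))) (XT.nd (nat_lit 78) (nat_lit 0) (nat_lit 0) (XT.lf (nat_lit 0) (nat_lit 239766342601) (nat_lit 152) (nat_lit 384549516080) (nat_lit 0) (nat_lit 235901184607) (nat_lit 1) (nat_lit 5) (nat_lit 3) (nat_lit 4) (nat_lit 1) (nat_lit 4) (nat_lit 430) (nat_lit 327) (nat_lit 263)) (XT.nd (nat_lit 78) (nat_lit 0) (nat_lit 0) (XT.lf (nat_lit 0) (nat_lit 264450090409) (nat_lit 152) (nat_lit 403535896910)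 (nat_lit 0) (nat_lit 260582838896) (nat_lit 1) (nat_lit 5) (nat_lit 3) (nat_lit 4) (nat_lit 1) (nat_lit 4) (nat_lit 431) (nat_lit 327) (nat_lit 262)) (XT.lf (nat_lit 0) (nat_lit 291102600257) (nat_lit 152) (nat_lit 424053216721) (nat_lit 0) (nat_lit 287233410299) (nat_lit 1) (nat_lit 5) (nat_lit 3) (nat_lit 4) (nat_lit 1) (nat_lit 4) (nat_lit 432) (nat_lit 327) (nat_lit 261))))) (XT.nd (nat_lit 156) (nat_lit 0) (nat_lit 0) (XT.nd (nat_lit 78) (nat_lit 0) (nat_lit 0) (XT.lf (nat_lit 0) (nat_lit 319881812943) (nat_lit 152) (nat_lit 446223059629) (nat_lit 0) (nat_lit 316010828129) (nat_lit 1) (nat_lit 5) (nat_lit 3) (nat_lit 4) (nat_lit 1) (nat_lit 4) (nat_lit 433) (nat_lit 327) (nat_lit 260)) (XT.lf (nat_lit 0) (nat_lit 350958271950) (nat_lit 152) (nat_lit 470176802482) (nat_lit 0) (nat_lit 347085625231) (nat_lit 1) (nat_lit 5) (nat_lit 3) (nat_lit 4) (nat_lit 1) (nat_lit 4) (nat_lit 434)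 (nat_lit 327) (nat_lit 259))) (XT.nd (nat_lit 78) (nat_lit 0) (nat_lit 0) (XT.lf (nat_lit 0) (nat_lit 384516134072) (nat_lit 152) (nat_lit 496056393386) (nat_lit 0) (nat_lit 380641948553) (nat_lit 1) (nat_lit 5) (nat_lit 3) (nat_lit 4) (nat_lit 1) (nat_lit 4) (nat_lit 435) (nat_lit 327) (nat_lit 258)) (XT.nd (nat_lit 78) (nat_lit 0) (nat_lit 0) (XT.lf (nat_lit 0) (nat_lit 420754260714) (nat_lit 152) (nat_lit 524015192879) (nat_lit 0) (nat_lit 416878650380) (nat_lit 1) (nat_lit 5) (nat_lit 3) (nat_lit 4) (nat_lit 1) (nat_lit 4) (nat_lit 436) (nat_lit 327) (nat_lit 257)) (XT.lf (nat_lit 0) (nat_lit 459887396330) (nat_lit 152) (nat_lit 554218882736) (nat_lit 0) (nat_lit 456010466724) (nat_lit 1) (nat_lit 5) (nat_lit 3) (nat_lit 4) (nat_lit 1) (nat_lit 4) (nat_lit 437) (nat_lit 327) (nat_lit 256)))))) (XT.nd (nat_lit 390) (nat_lit 0) (nat_lit 0) (XT.nd (nat_lit 156) (nat_lit 0) (nat_lit 0)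 (XT.nd (nat_lit 78) (nat_lit 0) (nat_lit 0) (XT.lf (nat_lit 0) (nat_lit 502147440984) (nat_lit 152) (nat_lit 586846447787) (nat_lit 0) (nat_lit 498269289828) (nat_lit 1) (nat_lit 5) (nat_lit 3) (nat_lit 4) (nat_lit 1) (nat_lit 4) (nat_lit 438) (nat_lit 327) (nat_lit 255)) (XT.lf (nat_lit 0) (nat_lit 547784824568) (nat_lit 152) (nat_lit 622091236563) (nat_lit 0) (nat_lit 543905542349) (nat_lit 1) (nat_lit 5) (nat_lit 3) (nat_lit 4) (nat_lit 1) (nat_lit 4) (nat_lit 439) (nat_lit 327) (nat_lit 254))) (XT.nd (nat_lit 78) (nat_lit 0) (nat_lit 0) (XT.lf (nat_lit 0) (nat_lit 597069990839) (nat_lit 152) (nat_lit 660162107074) (nat_lit 0) (nat_lit 593189661338) (nat_lit 1) (nat_lit 5) (nat_lit 3) (nat_lit 4) (nat_lit 1) (nat_lit 4) (nat_lit 440) (nat_lit 327) (nat_lit 253)) (XT.nd (nat_lit 78) (nat_lit 0) (nat_lit 0) (XT.lf (nat_lit 0) (nat_lit 650295000040) (nat_lit 152) (nat_lit 701284664477)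 (nat_lit 0) (nat_lit 646413700834) (nat_lit 1) (nat_lit 5) (nat_lit 3) (nat_lit 4) (nat_lit 1) (nat_lit 4) (nat_lit 441) (nat_lit 327) (nat_lit 252)) (XT.lf (nat_lit 0) (nat_lit 707775259634) (nat_lit 152) (nat_lit 745702598002) (nat_lit 0) (nat_lit 703893062553) (nat_lit 1) (nat_lit 5) (nat_lit 3) (nat_lit 4) (nat_lit 1) (nat_lit 4) (nat_lit 442) (nat_lit 327) (nat_lit 251))))) (XT.nd (nat_lit 156) (nat_lit 0) (nat_lit 0) (XT.nd (nat_lit 78) (nat_lit 0) (nat_lit 0) (XT.lf (nat_lit 0) (nat_lit 769851393381) (nat_lit 152) (nat_lit 793679125033) (nat_lit 0) (nat_lit 765968364934) (nat_lit 1) (nat_lit 5) (nat_lit 3) (nat_lit 4) (nat_lit 1) (nat_lit 4) (nat_lit 443) (nat_lit 327) (nat_lit 250)) (XT.lf (nat_lit 0) (nat_lit 836891259851) (nat_lit 152) (nat_lit 845498550914) (nat_lit 0) (nat_lit 833007461621) (nat_lit 1) (nat_lit 5) (nat_lit 3) (nat_lit 4) (nat_lit 1) (nat_lit 4) (nat_lit 444)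 (nat_lit 327) (nat_lit 249))) (XT.nd (nat_lit 78) (nat_lit 0) (nat_lit 0) (XT.lf (nat_lit 0) (nat_lit 909292132328) (nat_lit 152) (nat_lit 901467953726) (nat_lit 0) (nat_lit 905407621336) (nat_lit 1) (nat_lit 5) (nat_lit 3) (nat_lit 4) (nat_lit 1) (nat_lit 4) (nat_lit 445) (nat_lit 327) (nat_lit 248)) (XT.nd (nat_lit 78) (nat_lit 0) (nat_lit 0) (XT.lf (nat_lit 0) (nat_lit 987483053018) (nat_lit 152) (nat_lit 961919004003) (nat_lit 0) (nat_lit 983597882061) (nat_lit 1) (nat_lit 5) (nat_lit 3) (nat_lit 4) (nat_lit 1) (nat_lit 4) (nat_lit 446) (nat_lit 327) (nat_lit 247)) (XT.lf (nat_lit 0) (nat_lit 1071927375525) (nat_lit 152) (nat_lit 1027209930192) (nat_lit 0) (nat_lit 1068041593489) (nat_lit 1) (nat_lit 5) (nat_lit 3) (nat_lit 4) (nat_lit 1) (nat_lit 4) (nat_lit 447) (nat_lit 327) (nat_lit 246))))))))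
noncomputable def xc60 : XT := (XT.nd (nat_lit 47034) (nat_lit 0) (nat_lit 456) (XT.nd (nat_lit 702) (nat_lit 0) (nat_lit 0) (XT.nd (nat_lit 312) (nat_lit 0) (nat_lit 0) (XT.nd (nat_lit 156) (nat_lit 0) (nat_lit 0) (XT.nd (nat_lit 78) (nat_lit 0) (nat_lit 0) (XT.lf (nat_lit 0) (nat_lit 1163125510650) (nat_lit 152) (nat_lit 1097727641484) (nat_lit 0) (nat_lit 1159239162801) (nat_lit 1) (nat_lit 5) (nat_lit 3) (nat_lit 4) (nat_lit 1) (nat_lit 4) (nat_lit 448) (nat_lit 327) (nat_lit 245)) (XT.lf (nat_lit 0) (nat_lit 1261617891786) (nat_lit 152) (nat_lit 1173890020614) (nat_lit 0) (nat_lit 1257731020035) (nat_lit 1) (nat_lit 5) (nat_lit 3) (nat_lit 4) (nat_lit 1) (nat_lit 4) (nat_lit 449) (nat_lit 327) (nat_lit 244))) (XT.nd (nat_lit 78) (nat_lit 0) (nat_lit 0) (XT.lf (nat_lit 0) (nat_lit 1367988177487) (nat_lit 152) (nat_lit 1256148400198) (nat_lit 0) (nat_lit 1364100820643) (nat_lit 1) (nat_lit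 5) (nat_lit 3) (nat_lit 4) (nat_lit 1) (nat_lit 4) (nat_lit 450) (nat_lit 327) (nat_lit 243)) (XT.lf (nat_lit 0) (nat_lit 1482866710189) (nat_lit 152) (nat_lit 1344990237301) (nat_lit 0) (nat_lit 1478978904183) (nat_lit 1) (nat_lit 5) (nat_lit 3) (nat_lit 4) (nat_lit 1) (nat_lit 4) (nat_lit 451) (nat_lit 327) (nat_lit 242)))) (XT.nd (nat_lit 156) (nat_lit 0) (nat_lit 0) (XT.nd (nat_lit 78) (nat_lit 0) (nat_lit 0) (XT.lf (nat_lit 0) (nat_lit 1606934251565) (nat_lit 152) (nat_lit 1440942002067) (nat_lit 0) (nat_lit 1603046029669) (nat_lit 1) (nat_lit 5) (nat_lit 3) (nat_lit 4) (nat_lit 1) (nat_lit 4) (nat_lit 452) (nat_lit 327) (nat_lit 241)) (XT.lf (nat_lit 0) (nat_lit 1740926016676) (nat_lit 152) (nat_lit 1544572297549) (nat_lit 0) (nat_lit 1737037409697) (nat_lit 1) (nat_lit 5) (nat_lit 3) (nat_lit 4) (nat_lit 1) (nat_lit 4) (nat_lit 453) (nat_lit 327) (nat_lit 240))) (XT.nd (nat_lit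 78) (nat_lit 0) (nat_lit 0) (XT.lf (nat_lit 0) (nat_lit 1885636030796) (nat_lit 152) (nat_lit 1656495229201) (nat_lit 0) (nat_lit 1881747067259) (nat_lit 1) (nat_lit 5) (nat_lit 3) (nat_lit 4) (nat_lit 1) (nat_lit 4) (nat_lit 454) (nat_lit 327) (nat_lit 239)) (XT.nd (nat_lit 78) (nat_lit 0) (nat_lit 0) (XT.lf (nat_lit 0) (nat_lit 2041921834751) (nat_lit 152) (nat_lit 1777374044024) (nat_lit 0) (nat_lit 2038032541067) (nat_lit 1) (nat_lit 5) (nat_lit 3) (nat_lit 4) (nat_lit 1) (nat_lit 4) (nat_lit 455) (nat_lit 327) (nat_lit 238)) (XT.lf (nat_lit 0) (nat_lit 2210709566637) (nat_lit 152) (nat_lit 1907925060922) (nat_lit 0) (nat_lit 2206819967262) (nat_lit 1) (nat_lit 5) (nat_lit 3) (nat_lit 4) (nat_lit 1) (nat_lit 4) (nat_lit 456) (nat_lit 327) (nat_lit 237)))))) (XT.nd (nat_lit 45942) (nat_lit 0) (nat_lit 1520) (XT.nd (nat_lit 156) (nat_lit 0) (nat_lit 0) (XT.nd (nat_lit 78) (nat_lit 0)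 (nat_lit 0) (XT.lf (nat_lit 0) (nat_lit 2392999450051) (nat_lit 152) (nat_lit 2048921915550) (nat_lit 0) (nat_lit 2389109567628) (nat_lit 1) (nat_lit 5) (nat_lit 3) (nat_lit 4) (nat_lit 1) (nat_lit 4) (nat_lit 457) (nat_lit 327) (nat_lit 236)) (XT.lf (nat_lit 0) (nat_lit 2589871721339) (nat_lit 152) (nat_lit 2201200144824) (nat_lit 0) (nat_lit 2585981576835) (nat_lit 1) (nat_lit 5) (nat_lit 3) (nat_lit 4) (nat_lit 1) (nat_lit 4) (nat_lit 458) (nat_lit 327) (nat_lit 235))) (XT.nd (nat_lit 78) (nat_lit 0) (nat_lit 0) (XT.lf (nat_lit 0) (nat_lit 2802493030997) (nat_lit 152) (nat_lit 2365662138252) (nat_lit 0) (nat_lit 2798602643825) (nat_lit 1) (nat_lit 5) (nat_lit 3) (nat_lit 4) (nat_lit 1) (nat_lit 4) (nat_lit 459) (nat_lit 327) (nat_lit 234)) (XT.nd (nat_lit 45630) (nat_lit 0) (nat_lit 2052) (XT.lf (nat_lit 0) (nat_lit 3032123357158) (nat_lit 152) (nat_lit 2543282485424) (nat_lit 0) (nat_lit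 3028232745293) (nat_lit 1) (nat_lit 5) (nat_lit 3) (nat_lit 4) (nat_lit 1) (nat_lit 4) (nat_lit 460) (nat_lit 327) (nat_lit 233)) (XT.lf (nat_lit 0) (nat_lit 1977179527) (nat_lit 152) (nat_lit 1769959723) (nat_lit 152) (nat_lit 1769959723) (nat_lit 28) (nat_lit 4) (nat_lit 30) (nat_lit 5) (nat_lit 30) (nat_lit 4) (nat_lit 364) (nat_lit 328) (nat_lit 328))))) (XT.nd (nat_lit 156) (nat_lit 380) (nat_lit 0) (XT.nd (nat_lit 78) (nat_lit 0) (nat_lit 0) (XT.lf (nat_lit 0) (nat_lit 1231871714) (nat_lit 152) (nat_lit 9595455880) (nat_lit 0) (nat_lit 655355741) (nat_lit 26) (nat_lit 5) (nat_lit 28) (nat_lit 4) (nat_lit 26) (nat_lit 4) (nat_lit 365) (nat_lit 328) (nat_lit 327)) (XT.lf (nat_lit 0) (nat_lit 6203038768) (nat_lit 152) (nat_lit 663362443) (nat_lit 0) (nat_lit 5092711709) (nat_lit 26) (nat_lit 5) (nat_lit 28) (nat_lit 4) (nat_lit 26) (nat_lit 4) (nat_lit 366) (nat_lit 328) (nat_lit 326)))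 (XT.nd (nat_lit 78) (nat_lit 228) (nat_lit 0) (XT.lf (nat_lit 0) (nat_lit 8971752912) (nat_lit 152) (nat_lit 2555112484) (nat_lit 152) (nat_lit 950515902) (nat_lit 24) (nat_lit 4) (nat_lit 26) (nat_lit 5) (nat_lit 26) (nat_lit 4) (nat_lit 367) (nat_lit 328) (nat_lit 325)) (XT.nd (nat_lit 78) (nat_lit 76) (nat_lit 0) (XT.lf (nat_lit 0) (nat_lit 3986887018) (nat_lit 152) (nat_lit 6968020605) (nat_lit 0) (nat_lit 2077392991) (nat_lit 22) (nat_lit 5) (nat_lit 24) (nat_lit 4) (nat_lit 22) (nat_lit 4) (nat_lit 368) (nat_lit 328) (nat_lit 324)) (XT.lf (nat_lit 0) (nat_lit 2542802121) (nat_lit 76) (nat_lit 6695578940) (nat_lit 76) (nat_lit 4393717829) (nat_lit 21) (nat_lit 4) (nat_lit 22) (nat_lit 5) (nat_lit 22) (nat_lit 4) (nat_lit 369) (nat_lit 328) (nat_lit 323))))))) (XT.nd (nat_lit 780) (nat_lit 380) (nat_lit 0) (XT.nd (nat_lit 390) (nat_lit 304) (nat_lit 0) (XT.nd (nat_lit 156) (nat_lit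 228) (nat_lit 0) (XT.nd (nat_lit 78) (nat_lit 76) (nat_lit 0) (XT.lf (nat_lit 0) (nat_lit 540132944) (nat_lit 152) (nat_lit 1541687442) (nat_lit 76) (nat_lit 12201607930) (nat_lit 20) (nat_lit 5) (nat_lit 22) (nat_lit 5) (nat_lit 21) (nat_lit 4) (nat_lit 370) (nat_lit 328) (nat_lit 322)) (XT.lf (nat_lit 0) (nat_lit 5677745910) (nat_lit 152) (nat_lit 6397822909) (nat_lit 0) (nat_lit 2898527856) (nat_lit 19) (nat_lit 5) (nat_lit 21) (nat_lit 4) (nat_lit 19) (nat_lit 4) (nat_lit 371) (nat_lit 328) (nat_lit 321))) (XT.nd (nat_lit 78) (nat_lit 152) (nat_lit 0) (XT.lf (nat_lit 0) (nat_lit 3561988075) (nat_lit 76) (nat_lit 7614842026) (nat_lit 76) (nat_lit 4547222451) (nat_lit 18) (nat_lit 4) (nat_lit 19) (nat_lit 5) (nat_lit 19) (nat_lit 4) (nat_lit 372) (nat_lit 328) (nat_lit 320)) (XT.nd (nat_lit 78) (nat_lit 76) (nat_lit 0) (XT.lf (nat_lit 0) (nat_lit 500767398) (nat_lit 152) (nat_lit 2293061829)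 (nat_lit 76) (nat_lit 13743274143) (nat_lit 17) (nat_lit 5) (nat_lit 19) (nat_lit 5) (nat_lit 18) (nat_lit 4) (nat_lit 373) (nat_lit 328) (nat_lit 319)) (XT.lf (nat_lit 0) (nat_lit 5752866319) (nat_lit 152) (nat_lit 9212986922) (nat_lit 0) (nat_lit 2436277580) (nat_lit 16) (nat_lit 5) (nat_lit 18) (nat_lit 4) (nat_lit 16) (nat_lit 4) (nat_lit 374) (nat_lit 328) (nat_lit 318))))) (XT.nd (nat_lit 156) (nat_lit 228) (nat_lit 0) (XT.nd (nat_lit 78) (nat_lit 0) (nat_lit 0) (XT.lf (nat_lit 0) (nat_lit 871869156) (nat_lit 76) (nat_lit 10498738990) (nat_lit 76) (nat_lit 6970166525) (nat_lit 15) (nat_lit 4) (nat_lit 16) (nat_lit 5) (nat_lit 16) (nat_lit 4) (nat_lit 375) (nat_lit 328) (nat_lit 317)) (XT.lf (nat_lit 0) (nat_lit 11891217006) (nat_lit 76) (nat_lit 5592268866) (nat_lit 76) (nat_lit 1867415172) (nat_lit 15) (nat_lit 4) (nat_lit 16) (nat_lit 5) (nat_lit 16) (nat_lit 4) (nat_lit 376) (nat_lit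 328) (nat_lit 316))) (XT.nd (nat_lit 78) (nat_lit 76) (nat_lit 0) (XT.lf (nat_lit 0) (nat_lit 3037333711) (nat_lit 76) (nat_lit 301093828) (nat_lit 152) (nat_lit 17106270283) (nat_lit 13) (nat_lit 5) (nat_lit 14) (nat_lit 5) (nat_lit 15) (nat_lit 4) (nat_lit 377) (nat_lit 328) (nat_lit 315)) (XT.nd (nat_lit 78) (nat_lit 76) (nat_lit 0) (XT.lf (nat_lit 0) (nat_lit 9004788722) (nat_lit 152) (nat_lit 7374016219) (nat_lit 0) (nat_lit 5231756232) (nat_lit 13) (nat_lit 5) (nat_lit 15) (nat_lit 4) (nat_lit 13) (nat_lit 4) (nat_lit 378) (nat_lit 328) (nat_lit 314)) (XT.lf (nat_lit 0) (nat_lit 3266964287) (nat_lit 76) (nat_lit 11763783388) (nat_lit 76) (nat_lit 7846478336) (nat_lit 12) (nat_lit 4) (nat_lit 13) (nat_lit 5) (nat_lit 13) (nat_lit 4) (nat_lit 379) (nat_lit 328) (nat_lit 313)))))) (XT.nd (nat_lit 390) (nat_lit 152) (nat_lit 0) (XT.nd (nat_lit 156) (nat_lit 76) (nat_lit 0) (XT.nd (nat_lit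 78) (nat_lit 152) (nat_lit 0) (XT.lf (nat_lit 0) (nat_lit 14836825685) (nat_lit 76) (nat_lit 6728595491) (nat_lit 76) (nat_lit 2677704733) (nat_lit 12) (nat_lit 4) (nat_lit 13) (nat_lit 5) (nat_lit 13) (nat_lit 4) (nat_lit 380) (nat_lit 328) (nat_lit 312)) (XT.lf (nat_lit 0) (nat_lit 1283076393) (nat_lit 76) (nat_lit 1340797462) (nat_lit 152) (nat_lit 23099695627) (nat_lit 10) (nat_lit 5) (nat_lit 11) (nat_lit 5) (nat_lit 12) (nat_lit 4) (nat_lit 381) (nat_lit 328) (nat_lit 311))) (XT.nd (nat_lit 78) (nat_lit 76) (nat_lit 0) (XT.lf (nat_lit 0) (nat_lit 8411171570) (nat_lit 152) (nat_lit 14449464406) (nat_lit 0) (nat_lit 4439773942) (nat_lit 10) (nat_lit 5) (nat_lit 12) (nat_lit 4) (nat_lit 10) (nat_lit 4) (nat_lit 382) (nat_lit 328) (nat_lit 310)) (XT.nd (nat_lit 78) (nat_lit 76) (nat_lit 0) (XT.lf (nat_lit 0) (nat_lit 14543220497) (nat_lit 152) (nat_lit 3996026496) (nat_lit 0) (nat_lit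 10473633387) (nat_lit 10) (nat_lit 5) (nat_lit 12) (nat_lit 4) (nat_lit 10) (nat_lit 4) (nat_lit 383) (nat_lit 328) (nat_lit 309)) (XT.lf (nat_lit 0) (nat_lit 7383358652) (nat_lit 76) (nat_lit 13818323792) (nat_lit 76) (nat_lit 9657820495) (nat_lit 9) (nat_lit 4) (nat_lit 10) (nat_lit 5) (nat_lit 10) (nat_lit 4) (nat_lit 384) (nat_lit 328) (nat_lit 308))))) (XT.nd (nat_lit 156) (nat_lit 76) (nat_lit 0) (XT.nd (nat_lit 78) (nat_lit 76) (nat_lit 0) (XT.lf (nat_lit 0) (nat_lit 19627759221) (nat_lit 76) (nat_lit 8736541699) (nat_lit 76) (nat_lit 4491856748) (nat_lit 9) (nat_lit 4) (nat_lit 10) (nat_lit 5) (nat_lit 10) (nat_lit 4) (nat_lit 385) (nat_lit 328) (nat_lit 307)) (XT.lf (nat_lit 0) (nat_lit 902083891) (nat_lit 152) (nat_lit 2446296433) (nat_lit 76) (nat_lit 31672562485) (nat_lit 8) (nat_lit 5) (nat_lit 10) (nat_lit 5) (nat_lit 9) (nat_lit 4) (nat_lit 386) (nat_lit 328) (nat_lit 306)))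 (XT.nd (nat_lit 78) (nat_lit 0) (nat_lit 0) (XT.lf (nat_lit 0) (nat_lit 6652901172) (nat_lit 152) (nat_lit 28099610234) (nat_lit 0) (nat_lit 2583639016) (nat_lit 7) (nat_lit 5) (nat_lit 9) (nat_lit 4) (nat_lit 7) (nat_lit 4) (nat_lit 387) (nat_lit 328) (nat_lit 305)) (XT.nd (nat_lit 78) (nat_lit 0) (nat_lit 0) (XT.lf (nat_lit 0) (nat_lit 12898726198) (nat_lit 152) (nat_lit 18167480281) (nat_lit 0) (nat_lit 8767588014) (nat_lit 7) (nat_lit 5) (nat_lit 9) (nat_lit 4) (nat_lit 7) (nat_lit 4) (nat_lit 388) (nat_lit 328) (nat_lit 304)) (XT.lf (nat_lit 0) (nat_lit 19532502473) (nat_lit 152) (nat_lit 7663627239) (nat_lit 0) (nat_lit 15344071669) (nat_lit 7) (nat_lit 5) (nat_lit 9) (nat_lit 4) (nat_lit 7) (nat_lit 4) (nat_lit 389) (nat_lit 328) (nat_lit 303))))))))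
noncomputable def xc61 : XT := (XT.nd (nat_lit 1482) (nat_lit 152) (nat_lit 0) (XT.nd (nat_lit 702) (nat_lit 76) (nat_lit 0) (XT.nd (nat_lit 312) (nat_lit 152) (nat_lit 0) (XT.nd (nat_lit 156) (nat_lit 0) (nat_lit 0) (XT.nd (nat_lit 78) (nat_lit 0) (nat_lit 0) (XT.lf (nat_lit 0) (nat_lit 3657138845) (nat_lit 76) (nat_lit 23024356694) (nat_lit 76) (nat_lit 18782877168) (nat_lit 6) (nat_lit 4) (nat_lit 7) (nat_lit 5) (nat_lit 7) (nat_lit 4) (nat_lit 390) (nat_lit 328) (nat_lit 302)) (XT.lf (nat_lit 0) (nat_lit 16118287189) (nat_lit 76) (nat_lit 18393043763) (nat_lit 76) (nat_lit 14102445051) (nat_lit 6) (nat_lit 4) (nat_lit 7) (nat_lit 5) (nat_lit 7) (nat_lit 4) (nat_lit 391) (nat_lit 328) (nat_lit 301))) (XT.nd (nat_lit 78) (nat_lit 0) (nat_lit 0) (XT.lf (nat_lit 0) (nat_lit 29390108607) (nat_lit 76) (nat_lit 13484283253) (nat_lit 76) (nat_lit 9148203812) (nat_lit 6) (nat_lit 4) (nat_lit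 7) (nat_lit 5) (nat_lit 7) (nat_lit 4) (nat_lit 392) (nat_lit 328) (nat_lit 300)) (XT.lf (nat_lit 0) (nat_lit 43551250928) (nat_lit 76) (nat_lit 8268986211) (nat_lit 76) (nat_lit 3890794984) (nat_lit 6) (nat_lit 4) (nat_lit 7) (nat_lit 5) (nat_lit 7) (nat_lit 4) (nat_lit 393) (nat_lit 328) (nat_lit 299)))) (XT.nd (nat_lit 156) (nat_lit 0) (nat_lit 0) (XT.nd (nat_lit 78) (nat_lit 76) (nat_lit 0) (XT.lf (nat_lit 0) (nat_lit 1615848716) (nat_lit 152) (nat_lit 1056218290) (nat_lit 76) (nat_lit 57025603150) (nat_lit 5) (nat_lit 5) (nat_lit 7) (nat_lit 5) (nat_lit 6) (nat_lit 4) (nat_lit 394) (nat_lit 328) (nat_lit 298)) (XT.lf (nat_lit 0) (nat_lit 7636319510) (nat_lit 152) (nat_lit 52823258236) (nat_lit 0) (nat_lit 3512904982) (nat_lit 4) (nat_lit 5) (nat_lit 6) (nat_lit 4) (nat_lit 4) (nat_lit 4) (nat_lit 395) (nat_lit 328) (nat_lit 297))) (XT.nd (nat_lit 78) (nat_lit 0) (nat_lit 0) (XT.lf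 (nat_lit 0) (nat_lit 14161855737) (nat_lit 152) (nat_lit 44418070181) (nat_lit 0) (nat_lit 10007487790) (nat_lit 4) (nat_lit 5) (nat_lit 6) (nat_lit 4) (nat_lit 4) (nat_lit 4) (nat_lit 396) (nat_lit 328) (nat_lit 296)) (XT.nd (nat_lit 78) (nat_lit 0) (nat_lit 0) (XT.lf (nat_lit 0) (nat_lit 21139429724) (nat_lit 152) (nat_lit 35481315705) (nat_lit 0) (nat_lit 16956401204) (nat_lit 4) (nat_lit 5) (nat_lit 6) (nat_lit 4) (nat_lit 4) (nat_lit 4) (nat_lit 397) (nat_lit 328) (nat_lit 295)) (XT.lf (nat_lit 0) (nat_lit 28610390060) (nat_lit 152) (nat_lit 25960036265) (nat_lit 0) (nat_lit 24400823970) (nat_lit 4) (nat_lit 5) (nat_lit 6) (nat_lit 4) (nat_lit 4) (nat_lit 4) (nat_lit 398) (nat_lit 328) (nat_lit 294)))))) (XT.nd (nat_lit 390) (nat_lit 0) (nat_lit 0) (XT.nd (nat_lit 156) (nat_lit 76) (nat_lit 0) (XT.nd (nat_lit 78) (nat_lit 0) (nat_lit 0) (XT.lf (nat_lit 0) (nat_lit 36619009100) (nat_lit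 152) (nat_lit 15797809463) (nat_lit 0) (nat_lit 32384871188) (nat_lit 4) (nat_lit 5) (nat_lit 6) (nat_lit 4) (nat_lit 4) (nat_lit 4) (nat_lit 399) (nat_lit 328) (nat_lit 293)) (XT.lf (nat_lit 0) (nat_lit 45212745328) (nat_lit 152) (nat_lit 4934414696) (nat_lit 0) (nat_lit 40955855728) (nat_lit 4) (nat_lit 5) (nat_lit 6) (nat_lit 4) (nat_lit 4) (nat_lit 4) (nat_lit 400) (nat_lit 328) (nat_lit 292))) (XT.nd (nat_lit 78) (nat_lit 0) (nat_lit 0) (XT.lf (nat_lit 0) (nat_lit 7047045462) (nat_lit 76) (nat_lit 47564960738) (nat_lit 76) (nat_lit 43287004762) (nat_lit 3) (nat_lit 4) (nat_lit 4) (nat_lit 5) (nat_lit 4) (nat_lit 4) (nat_lit 401) (nat_lit 328) (nat_lit 291)) (XT.nd (nat_lit 78) (nat_lit 0) (nat_lit 0) (XT.lf (nat_lit 0) (nat_lit 20166739987) (nat_lit 76) (nat_lit 44681312463) (nat_lit 76) (nat_lit 40383850582) (nat_lit 3) (nat_lit 4) (nat_lit 4) (nat_lit 5) (nat_lit 4) (nat_lit 4)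 (nat_lit 402) (nat_lit 328) (nat_lit 290)) (XT.lf (nat_lit 0) (nat_lit 34242577682) (nat_lit 76) (nat_lit 41614042555) (nat_lit 76) (nat_lit 37298519651) (nat_lit 3) (nat_lit 4) (nat_lit 4) (nat_lit 5) (nat_lit 4) (nat_lit 4) (nat_lit 403) (nat_lit 328) (nat_lit 289))))) (XT.nd (nat_lit 156) (nat_lit 0) (nat_lit 0) (XT.nd (nat_lit 78) (nat_lit 0) (nat_lit 0) (XT.lf (nat_lit 0) (nat_lit 49357970918) (nat_lit 76) (nat_lit 38344974600) (nat_lit 76) (nat_lit 34012728526) (nat_lit 3) (nat_lit 4) (nat_lit 4) (nat_lit 5) (nat_lit 4) (nat_lit 4) (nat_lit 404) (nat_lit 328) (nat_lit 288)) (XT.lf (nat_lit 0) (nat_lit 65602492397) (nat_lit 76) (nat_lit 34854736344) (nat_lit 76) (nat_lit 30507005854) (nat_lit 3) (nat_lit 4) (nat_lit 4) (nat_lit 5) (nat_lit 4) (nat_lit 4) (nat_lit 405) (nat_lit 328) (nat_lit 287))) (XT.nd (nat_lit 78) (nat_lit 0) (nat_lit 0) (XT.lf (nat_lit 0) (nat_lit 83072405950)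 (nat_lit 76) (nat_lit 31122644892) (nat_lit 76) (nat_lit 26760576980) (nat_lit 3) (nat_lit 4) (nat_lit 4) (nat_lit 5) (nat_lit 4) (nat_lit 4) (nat_lit 406) (nat_lit 328) (nat_lit 286)) (XT.nd (nat_lit 78) (nat_lit 0) (nat_lit 0) (XT.lf (nat_lit 0) (nat_lit 101871236989) (nat_lit 76) (nat_lit 27126584148) (nat_lit 76) (nat_lit 22751240844) (nat_lit 3) (nat_lit 4) (nat_lit 4) (nat_lit 5) (nat_lit 4) (nat_lit 4) (nat_lit 407) (nat_lit 328) (nat_lit 285)) (XT.lf (nat_lit 0) (nat_lit 122110385996) (nat_lit 76) (nat_lit 22842873752) (nat_lit 76) (nat_lit 18455238419) (nat_lit 3) (nat_lit 4) (nat_lit 4) (nat_lit 5) (nat_lit 4) (nat_lit 4) (nat_lit 408) (nat_lit 328) (nat_lit 284))))))) (XT.nd (nat_lit 780) (nat_lit 0) (nat_lit 0) (XT.nd (nat_lit 390) (nat_lit 0) (nat_lit 0) (XT.nd (nat_lit 156) (nat_lit 152) (nat_lit 0) (XT.nd (nat_lit 78) (nat_lit 0) (nat_lit 0) (XT.lf (nat_lit 0) (nat_lit 143909788667)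 (nat_lit 76) (nat_lit 18246128752) (nat_lit 76) (nat_lit 13847111911) (nat_lit 3) (nat_lit 4) (nat_lit 4) (nat_lit 5) (nat_lit 4) (nat_lit 4) (nat_lit 409) (nat_lit 328) (nat_lit 283)) (XT.lf (nat_lit 0) (nat_lit 167398626649) (nat_lit 76) (nat_lit 13309109179) (nat_lit 76) (nat_lit 8899553905) (nat_lit 3) (nat_lit 4) (nat_lit 4) (nat_lit 5) (nat_lit 4) (nat_lit 4) (nat_lit 410) (nat_lit 328) (nat_lit 282))) (XT.nd (nat_lit 78) (nat_lit 152) (nat_lit 0) (XT.lf (nat_lit 0) (nat_lit 192716093056) (nat_lit 76) (nat_lit 8002558621) (nat_lit 76) (nat_lit 3583245538) (nat_lit 3) (nat_lit 4) (nat_lit 4) (nat_lit 5) (nat_lit 4) (nat_lit 4) (nat_lit 411) (nat_lit 328) (nat_lit 281)) (XT.nd (nat_lit 78) (nat_lit 76) (nat_lit 0) (XT.lf (nat_lit 0) (nat_lit 2026600070) (nat_lit 152) (nat_lit 213019943) (nat_lit 76) (nat_lit 217930206409) (nat_lit 2) (nat_lit 5) (nat_lit 4) (nat_lit 5) (nat_lit 3)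 (nat_lit 4) (nat_lit 412) (nat_lit 328) (nat_lit 280)) (XT.lf (nat_lit 0) (nat_lit 8277237060) (nat_lit 152) (nat_lit 224822493055) (nat_lit 0) (nat_lit 4169168690) (nat_lit 1) (nat_lit 5) (nat_lit 3) (nat_lit 4) (nat_lit 1) (nat_lit 4) (nat_lit 413) (nat_lit 328) (nat_lit 279))))) (XT.nd (nat_lit 156) (nat_lit 0) (nat_lit 0) (XT.nd (nat_lit 78) (nat_lit 0) (nat_lit 0) (XT.lf (nat_lit 0) (nat_lit 15070102667) (nat_lit 152) (nat_lit 229707559848) (nat_lit 0) (nat_lit 10954862016) (nat_lit 1) (nat_lit 5) (nat_lit 3) (nat_lit 4) (nat_lit 1) (nat_lit 4) (nat_lit 414) (nat_lit 328) (nat_lit 278)) (XT.lf (nat_lit 0) (nat_lit 22386055010) (nat_lit 152) (nat_lit 235024640984) (nat_lit 0) (nat_lit 18264173358) (nat_lit 1) (nat_lit 5) (nat_lit 3) (nat_lit 4) (nat_lit 1) (nat_lit 4) (nat_lit 415) (nat_lit 328) (nat_lit 277))) (XT.nd (nat_lit 78) (nat_lit 0) (nat_lit 0) (XT.lf (nat_lit 0) (nat_lit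 30268447880) (nat_lit 152) (nat_lit 240805245092) (nat_lit 0) (nat_lit 26140417154) (nat_lit 1) (nat_lit 5) (nat_lit 3) (nat_lit 4) (nat_lit 1) (nat_lit 4) (nat_lit 416) (nat_lit 328) (nat_lit 276)) (XT.nd (nat_lit 78) (nat_lit 0) (nat_lit 0) (XT.lf (nat_lit 0) (nat_lit 38763991754) (nat_lit 152) (nat_lit 247083627603) (nat_lit 0) (nat_lit 34630267440) (nat_lit 1) (nat_lit 5) (nat_lit 3) (nat_lit 4) (nat_lit 1) (nat_lit 4) (nat_lit 417) (nat_lit 328) (nat_lit 275)) (XT.lf (nat_lit 0) (nat_lit 47923030595) (nat_lit 152) (nat_lit 253896993748) (nat_lit 0) (nat_lit 43784034441) (nat_lit 1) (nat_lit 5) (nat_lit 3) (nat_lit 4) (nat_lit 1) (nat_lit 4) (nat_lit 418) (nat_lit 328) (nat_lit 274)))))) (XT.nd (nat_lit 390) (nat_lit 0) (nat_lit 0) (XT.nd (nat_lit 156) (nat_lit 0) (nat_lit 0) (XT.nd (nat_lit 78) (nat_lit 0) (nat_lit 0) (XT.lf (nat_lit 0) (nat_lit 57799840189) (nat_lit 152) (nat_lit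 261285719030) (nat_lit 0) (nat_lit 53655962701) (nat_lit 1) (nat_lit 5) (nat_lit 3) (nat_lit 4) (nat_lit 1) (nat_lit 4) (nat_lit 419) (nat_lit 328) (nat_lit 273)) (XT.lf (nat_lit 0) (nat_lit 68452949779) (nat_lit 152) (nat_lit 269293588487) (nat_lit 0) (nat_lit 64304552537) (nat_lit 1) (nat_lit 5) (nat_lit 3) (nat_lit 4) (nat_lit 1) (nat_lit 4) (nat_lit 420) (nat_lit 328) (nat_lit 272))) (XT.nd (nat_lit 78) (nat_lit 0) (nat_lit 0) (XT.lf (nat_lit 0) (nat_lit 79945488902) (nat_lit 152) (nat_lit 277968056160) (nat_lit 0) (nat_lit 75792906703) (nat_lit 1) (nat_lit 5) (nat_lit 3) (nat_lit 4) (nat_lit 1) (nat_lit 4) (nat_lit 421) (nat_lit 328) (nat_lit 271)) (XT.nd (nat_lit 78) (nat_lit 0) (nat_lit 0) (XT.lf (nat_lit 0) (nat_lit 92345561494) (nat_lit 152) (nat_lit 287360526303) (nat_lit 0) (nat_lit 88189104335) (nat_lit 1) (nat_lit 5) (nat_lit 3) (nat_lit 4) (nat_lit 1) (nat_lit 4) (nat_lit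 422) (nat_lit 328) (nat_lit 270)) (XT.lf (nat_lit 0) (nat_lit 105726649466) (nat_lit 152) (nat_lit 297526657997) (nat_lit 0) (nat_lit 101566604382) (nat_lit 1) (nat_lit 5) (nat_lit 3) (nat_lit 4) (nat_lit 1) (nat_lit 4) (nat_lit 423) (nat_lit 328) (nat_lit 269))))) (XT.nd (nat_lit 156) (nat_lit 0) (nat_lit 0) (XT.nd (nat_lit 78) (nat_lit 0) (nat_lit 0) (XT.lf (nat_lit 0) (nat_lit 120168048155) (nat_lit 152) (nat_lit 308526694987) (nat_lit 0) (nat_lit 116004680917) (nat_lit 1) (nat_lit 5) (nat_lit 3) (nat_lit 4) (nat_lit 1) (nat_lit 4) (nat_lit 424) (nat_lit 328) (nat_lit 268)) (XT.lf (nat_lit 0) (nat_lit 135755336220) (nat_lit 152) (nat_lit 320425822676) (nat_lit 0) (nat_lit 131588892914) (nat_lit 1) (nat_lit 5) (nat_lit 3) (nat_lit 4) (nat_lit 1) (nat_lit 4) (nat_lit 425) (nat_lit 328) (nat_lit 267))) (XT.nd (nat_lit 78) (nat_lit 0) (nat_lit 0) (XT.lf (nat_lit 0) (nat_lit 152580882775)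 (nat_lit 152) (nat_lit 333294554414) (nat_lit 0) (nat_lit 148411591257) (nat_lit 1) (nat_lit 5) (nat_lit 3) (nat_lit 4) (nat_lit 1) (nat_lit 4) (nat_lit 426) (nat_lit 328) (nat_lit 266)) (XT.nd (nat_lit 78) (nat_lit 0) (nat_lit 0) (XT.lf (nat_lit 0) (nat_lit 170744394763) (nat_lit 152) (nat_lit 347209149351) (nat_lit 0) (nat_lit 166572466012) (nat_lit 1) (nat_lit 5) (nat_lit 3) (nat_lit 4) (nat_lit 1) (nat_lit 4) (nat_lit 427) (nat_lit 328) (nat_lit 265)) (XT.lf (nat_lit 0) (nat_lit 190353507810) (nat_lit 152) (nat_lit 362252064347) (nat_lit 0) (nat_lit 186179137177) (nat_lit 1) (nat_lit 5) (nat_lit 3) (nat_lit 4) (nat_lit 1) (nat_lit 4) (nat_lit 428) (nat_lit 328) (nat_lit 264))))))))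
noncomputable def xc62 : XT := (XT.nd (nat_lit 1482) (nat_lit 0) (nat_lit 0) (XT.nd (nat_lit 702) (nat_lit 0) (nat_lit 0) (XT.nd (nat_lit 312) (nat_lit 0) (nat_lit 0) (XT.nd (nat_lit 156) (nat_lit 0) (nat_lit 0) (XT.nd (nat_lit 78) (nat_lit 0) (nat_lit 0) (XT.lf (nat_lit 0) (nat_lit 211524424068) (nat_lit 152) (nat_lit 378512442602) (nat_lit 0) (nat_lit 207347792433) (nat_lit 1) (nat_lit 5) (nat_lit 3) (nat_lit 4) (nat_lit 1) (nat_lit 4) (nat_lit 429) (nat_lit 328) (nat_lit 263)) (XT.lf (nat_lit 0) (nat_lit 234382600817) (nat_lit 152) (nat_lit 396086641912) (nat_lit 0) (nat_lit 230203875662) (nat_lit 1) (nat_lit 5) (nat_lit 3) (nat_lit 4) (nat_lit 1) (nat_lit 4) (nat_lit 430) (nat_lit 328) (nat_lit 262))) (XT.nd (nat_lit 78) (nat_lit 0) (nat_lit 0) (XT.lf (nat_lit 0) (nat_lit 259063493922) (nat_lit 152) (nat_lit 415078805681) (nat_lit 0) (nat_lit 254882830322) (nat_lit 1) (nat_lit 5) (nat_lit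 3) (nat_lit 4) (nat_lit 1) (nat_lit 4) (nat_lit 431) (nat_lit 328) (nat_lit 261)) (XT.lf (nat_lit 0) (nat_lit 285713360525) (nat_lit 152) (nat_lit 435601480066) (nat_lit 0) (nat_lit 281530902068) (nat_lit 1) (nat_lit 5) (nat_lit 3) (nat_lit 4) (nat_lit 1) (nat_lit 4) (nat_lit 432) (nat_lit 328) (nat_lit 260)))) (XT.nd (nat_lit 156) (nat_lit 0) (nat_lit 0) (XT.nd (nat_lit 78) (nat_lit 0) (nat_lit 0) (XT.lf (nat_lit 0) (nat_lit 314490125762) (nat_lit 152) (nat_lit 457776280912) (nat_lit 0) (nat_lit 310306005401) (nat_lit 1) (nat_lit 5) (nat_lit 3) (nat_lit 4) (nat_lit 1) (nat_lit 4) (nat_lit 433) (nat_lit 328) (nat_lit 259)) (XT.lf (nat_lit 0) (nat_lit 345564318612) (nat_lit 152) (nat_lit 481734614450) (nat_lit 0) (nat_lit 341378659452) (nat_lit 1) (nat_lit 5) (nat_lit 3) (nat_lit 4) (nat_lit 1) (nat_lit 4) (nat_lit 434) (nat_lit 328) (nat_lit 258))) (XT.nd (nat_lit 78) (nat_lit 0) (nat_lit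 0) (XT.lf (nat_lit 0) (nat_lit 379120082441) (nat_lit 152) (nat_lit 507618455987) (nat_lit 0) (nat_lit 374932998466) (nat_lit 1) (nat_lit 5) (nat_lit 3) (nat_lit 4) (nat_lit 1) (nat_lit 4) (nat_lit 435) (nat_lit 328) (nat_lit 257)) (XT.nd (nat_lit 78) (nat_lit 0) (nat_lit 0) (XT.lf (nat_lit 0) (nat_lit 415356266219) (nat_lit 152) (nat_lit 535581191251) (nat_lit 0) (nat_lit 411167862971) (nat_lit 1) (nat_lit 5) (nat_lit 3) (nat_lit 4) (nat_lit 1) (nat_lit 4) (nat_lit 436) (nat_lit 328) (nat_lit 256)) (XT.lf (nat_lit 0) (nat_lit 454487602887) (nat_lit 152) (nat_lit 565788525341) (nat_lit 0) (nat_lit 450297978090) (nat_lit 1) (nat_lit 5) (nat_lit 3) (nat_lit 4) (nat_lit 1) (nat_lit 4) (nat_lit 437) (nat_lit 328) (nat_lit 255)))))) (XT.nd (nat_lit 390) (nat_lit 0) (nat_lit 0) (XT.nd (nat_lit 156) (nat_lit 0) (nat_lit 0) (XT.nd (nat_lit 78) (nat_lit 0) (nat_lit 0) (XT.lf (nat_lit 0) (nat_lit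 496745981847) (nat_lit 152) (nat_lit 598419464681) (nat_lit 0) (nat_lit 492555225986) (nat_lit 1) (nat_lit 5) (nat_lit 3) (nat_lit 4) (nat_lit 1) (nat_lit 4) (nat_lit 438) (nat_lit 328) (nat_lit 254)) (XT.lf (nat_lit 0) (nat_lit 542381823124) (nat_lit 152) (nat_lit 633667377800) (nat_lit 0) (nat_lit 538190019982) (nat_lit 1) (nat_lit 5) (nat_lit 3) (nat_lit 4) (nat_lit 1) (nat_lit 4) (nat_lit 439) (nat_lit 328) (nat_lit 253))) (XT.nd (nat_lit 78) (nat_lit 0) (nat_lit 0) (XT.lf (nat_lit 0) (nat_lit 591665561332) (nat_lit 152) (nat_lit 671741141220) (nat_lit 0) (nat_lit 587472788484) (nat_lit 1) (nat_lit 5) (nat_lit 3) (nat_lit 4) (nat_lit 1) (nat_lit 4) (nat_lit 440) (nat_lit 328) (nat_lit 252)) (XT.nd (nat_lit 78) (nat_lit 0) (nat_lit 0) (XT.lf (nat_lit 0) (nat_lit 644889248252) (nat_lit 152) (nat_lit 712866377243) (nat_lit 0) (nat_lit 640695577530) (nat_lit 1) (nat_lit 5) (nat_lit 3)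 (nat_lit 4) (nat_lit 1) (nat_lit 4) (nat_lit 441) (nat_lit 328) (nat_lit 251)) (XT.lf (nat_lit 0) (nat_lit 702368283512) (nat_lit 152) (nat_lit 757286790972) (nat_lit 0) (nat_lit 698173781424) (nat_lit 1) (nat_lit 5) (nat_lit 3) (nat_lit 4) (nat_lit 1) (nat_lit 4) (nat_lit 442) (nat_lit 328) (nat_lit 250))))) (XT.nd (nat_lit 156) (nat_lit 0) (nat_lit 0) (XT.nd (nat_lit 78) (nat_lit 0) (nat_lit 0) (XT.lf (nat_lit 0) (nat_lit 764443283617) (nat_lit 152) (nat_lit 805265614488) (nat_lit 0) (nat_lit 760248011745) (nat_lit 1) (nat_lit 5) (nat_lit 3) (nat_lit 4) (nat_lit 1) (nat_lit 4) (nat_lit 443) (nat_lit 328) (nat_lit 249)) (XT.lf (nat_lit 0) (nat_lit 831482100418) (nat_lit 152) (nat_lit 857087166744) (nat_lit 0) (nat_lit 827286115785) (nat_lit 1) (nat_lit 5) (nat_lit 3) (nat_lit 4) (nat_lit 1) (nat_lit 4) (nat_lit 444) (nat_lit 328) (nat_lit 248))) (XT.nd (nat_lit 78) (nat_lit 0) (nat_lit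 0) (XT.lf (nat_lit 0) (nat_lit 903882000979) (nat_lit 152) (nat_lit 913058538421) (nat_lit 0) (nat_lit 899685356380) (nat_lit 1) (nat_lit 5) (nat_lit 3) (nat_lit 4) (nat_lit 1) (nat_lit 4) (nat_lit 445) (nat_lit 328) (nat_lit 247)) (XT.nd (nat_lit 78) (nat_lit 0) (nat_lit 0) (XT.lf (nat_lit 0) (nat_lit 982072021747) (nat_lit 152) (nat_lit 973511411722) (nat_lit 0) (nat_lit 977874766070) (nat_lit 1) (nat_lit 5) (nat_lit 3) (nat_lit 4) (nat_lit 1) (nat_lit 4) (nat_lit 446) (nat_lit 328) (nat_lit 246)) (XT.lf (nat_lit 0) (nat_lit 1066515510993) (nat_lit 152) (nat_lit 1038804025896) (nat_lit 0) (nat_lit 1062317689502) (nat_lit 1) (nat_lit 5) (nat_lit 3) (nat_lit 4) (nat_lit 1) (nat_lit 4) (nat_lit 447) (nat_lit 328) (nat_lit 245))))))) (XT.nd (nat_lit 780) (nat_lit 0) (nat_lit 0) (XT.nd (nat_lit 390) (nat_lit 0) (nat_lit 0) (XT.nd (nat_lit 156) (nat_lit 0) (nat_lit 0) (XT.nd (nat_lit 78) (nat_lit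 0) (nat_lit 0) (XT.lf (nat_lit 0) (nat_lit 1157712874580) (nat_lit 152) (nat_lit 1109323300137) (nat_lit 0) (nat_lit 1153514529188) (nat_lit 1) (nat_lit 5) (nat_lit 3) (nat_lit 4) (nat_lit 1) (nat_lit 4) (nat_lit 448) (nat_lit 328) (nat_lit 244)) (XT.lf (nat_lit 0) (nat_lit 1256204541329) (nat_lit 152) (nat_lit 1185487126442) (nat_lit 0) (nat_lit 1252005710843) (nat_lit 1) (nat_lit 5) (nat_lit 3) (nat_lit 4) (nat_lit 1) (nat_lit 4) (nat_lit 449) (nat_lit 328) (nat_lit 243))) (XT.nd (nat_lit 78) (nat_lit 0) (nat_lit 0) (XT.lf (nat_lit 0) (nat_lit 1362574165561) (nat_lit 152) (nat_lit 1267746846003) (nat_lit 0) (nat_lit 1358374885914) (nat_lit 1) (nat_lit 5) (nat_lit 3) (nat_lit 4) (nat_lit 1) (nat_lit 4) (nat_lit 450) (nat_lit 328) (nat_lit 242)) (XT.nd (nat_lit 78) (nat_lit 0) (nat_lit 0) (XT.lf (nat_lit 0) (nat_lit 1477452085790) (nat_lit 152) (nat_lit 1356589923824) (nat_lit 0) (nat_lit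 1473252390254) (nat_lit 1) (nat_lit 5) (nat_lit 3) (nat_lit 4) (nat_lit 1) (nat_lit 4) (nat_lit 451) (nat_lit 328) (nat_lit 241)) (XT.lf (nat_lit 0) (nat_lit 1601519060063) (nat_lit 152) (nat_lit 1452542837406) (nat_lit 0) (nat_lit 1597318979443) (nat_lit 1) (nat_lit 5) (nat_lit 3) (nat_lit 4) (nat_lit 1) (nat_lit 4) (nat_lit 452) (nat_lit 328) (nat_lit 240))))) (XT.nd (nat_lit 156) (nat_lit 0) (nat_lit 0) (XT.nd (nat_lit 78) (nat_lit 0) (nat_lit 0) (XT.lf (nat_lit 0) (nat_lit 1735510300078) (nat_lit 152) (nat_lit 1556174196604) (nat_lit 0) (nat_lit 1731309862900) (nat_lit 1) (nat_lit 5) (nat_lit 3) (nat_lit 4) (nat_lit 1) (nat_lit 4) (nat_lit 453) (nat_lit 328) (nat_lit 239)) (XT.lf (nat_lit 0) (nat_lit 1880219827999) (nat_lit 152) (nat_lit 1668098113178) (nat_lit 0) (nat_lit 1876019060674) (nat_lit 1) (nat_lit 5) (nat_lit 3) (nat_lit 4) (nat_lit 1) (nat_lit 4) (nat_lit 454) (nat_lit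 328) (nat_lit 238))) (XT.nd (nat_lit 78) (nat_lit 0) (nat_lit 0) (XT.lf (nat_lit 0) (nat_lit 2036505181768) (nat_lit 152) (nat_lit 1788977839967) (nat_lit 0) (nat_lit 2032304108752) (nat_lit 1) (nat_lit 5) (nat_lit 3) (nat_lit 4) (nat_lit 1) (nat_lit 4) (nat_lit 455) (nat_lit 328) (nat_lit 237)) (XT.nd (nat_lit 78) (nat_lit 0) (nat_lit 0) (XT.lf (nat_lit 0) (nat_lit 2205292496816) (nat_lit 152) (nat_lit 1919529701278) (nat_lit 0) (nat_lit 2201091140752) (nat_lit 1) (nat_lit 5) (nat_lit 3) (nat_lit 4) (nat_lit 1) (nat_lit 4) (nat_lit 456) (nat_lit 328) (nat_lit 236)) (XT.lf (nat_lit 0) (nat_lit 2387581994269) (nat_lit 152) (nat_lit 2060527337770) (nat_lit 0) (nat_lit 2383380376124) (nat_lit 1) (nat_lit 5) (nat_lit 3) (nat_lit 4) (nat_lit 1) (nat_lit 4) (nat_lit 457) (nat_lit 328) (nat_lit 235)))))) (XT.nd (nat_lit 45786) (nat_lit 0) (nat_lit 1596) (XT.nd (nat_lit 156) (nat_lit 0) (nat_lit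 0) (XT.nd (nat_lit 78) (nat_lit 0) (nat_lit 0) (XT.lf (nat_lit 0) (nat_lit 2584453908186) (nat_lit 152) (nat_lit 2212806290992) (nat_lit 0) (nat_lit 2580252047372) (nat_lit 1) (nat_lit 5) (nat_lit 3) (nat_lit 4) (nat_lit 1) (nat_lit 4) (nat_lit 458) (nat_lit 328) (nat_lit 234)) (XT.lf (nat_lit 0) (nat_lit 2797074886945) (nat_lit 152) (nat_lit 2377268954742) (nat_lit 0) (nat_lit 2792872801439) (nat_lit 1) (nat_lit 5) (nat_lit 3) (nat_lit 4) (nat_lit 1) (nat_lit 4) (nat_lit 459) (nat_lit 328) (nat_lit 233))) (XT.nd (nat_lit 45474) (nat_lit 0) (nat_lit 2204) (XT.lf (nat_lit 0) (nat_lit 3026704906717) (nat_lit 152) (nat_lit 2554889922583) (nat_lit 0) (nat_lit 3022502613163) (nat_lit 1) (nat_lit 5) (nat_lit 3) (nat_lit 4) (nat_lit 1) (nat_lit 4) (nat_lit 460) (nat_lit 328) (nat_lit 232)) (XT.nd (nat_lit 78) (nat_lit 152) (nat_lit 0) (XT.lf (nat_lit 0) (nat_lit 3700953529) (nat_lit 152) (nat_lit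 708079664) (nat_lit 152) (nat_lit 708079664) (nat_lit 32) (nat_lit 4) (nat_lit 34) (nat_lit 5) (nat_lit 34) (nat_lit 4) (nat_lit 362) (nat_lit 329) (nat_lit 329)) (XT.lf (nat_lit 0) (nat_lit 3192977415) (nat_lit 152) (nat_lit 4909481889) (nat_lit 0) (nat_lit 2520529184) (nat_lit 30) (nat_lit 5) (nat_lit 32) (nat_lit 4) (nat_lit 30) (nat_lit 4) (nat_lit 363) (nat_lit 329) (nat_lit 328))))) (XT.nd (nat_lit 156) (nat_lit 304) (nat_lit 0) (XT.nd (nat_lit 78) (nat_lit 152) (nat_lit 0) (XT.lf (nat_lit 0) (nat_lit 3725022689) (nat_lit 152) (nat_lit 4307534029) (nat_lit 152) (nat_lit 3012448548) (nat_lit 28) (nat_lit 4) (nat_lit 30) (nat_lit 5) (nat_lit 30) (nat_lit 4) (nat_lit 364) (nat_lit 329) (nat_lit 327)) (XT.lf (nat_lit 0) (nat_lit 1408337463) (nat_lit 76) (nat_lit 168556246) (nat_lit 152) (nat_lit 9928130305) (nat_lit 26) (nat_lit 5) (nat_lit 27) (nat_lit 5) (nat_lit 28) (nat_lit 4) (nat_lit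 365) (nat_lit 329) (nat_lit 326))) (XT.nd (nat_lit 78) (nat_lit 304) (nat_lit 0) (XT.lf (nat_lit 0) (nat_lit 6418620125) (nat_lit 152) (nat_lit 1381860955) (nat_lit 0) (nat_lit 4191386292) (nat_lit 26) (nat_lit 5) (nat_lit 28) (nat_lit 4) (nat_lit 26) (nat_lit 4) (nat_lit 366) (nat_lit 329) (nat_lit 325)) (XT.nd (nat_lit 78) (nat_lit 152) (nat_lit 0) (XT.lf (nat_lit 0) (nat_lit 7999700999) (nat_lit 152) (nat_lit 3603268939) (nat_lit 152) (nat_lit 918378140) (nat_lit 24) (nat_lit 4) (nat_lit 26) (nat_lit 5) (nat_lit 26) (nat_lit 4) (nat_lit 367) (nat_lit 329) (nat_lit 324)) (XT.lf (nat_lit 0) (nat_lit 3843025913) (nat_lit 152) (nat_lit 8282528572) (nat_lit 0) (nat_lit 964648829) (nat_lit 22) (nat_lit 5) (nat_lit 24) (nat_lit 4) (nat_lit 22) (nat_lit 4) (nat_lit 368) (nat_lit 329) (nat_lit 323))))))))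
noncomputable def xc63 : XT := (XT.nd (nat_lit 1482) (nat_lit 304) (nat_lit 0) (XT.nd (nat_lit 702) (nat_lit 532) (nat_lit 0) (XT.nd (nat_lit 312) (nat_lit 304) (nat_lit 0) (XT.nd (nat_lit 156) (nat_lit 152) (nat_lit 0) (XT.nd (nat_lit 78) (nat_lit 76) (nat_lit 0) (XT.lf (nat_lit 0) (nat_lit 940680693) (nat_lit 76) (nat_lit 8001611053) (nat_lit 76) (nat_lit 4759931114) (nat_lit 21) (nat_lit 4) (nat_lit 22) (nat_lit 5) (nat_lit 22) (nat_lit 4) (nat_lit 369) (nat_lit 329) (nat_lit 322)) (XT.lf (nat_lit 0) (nat_lit 79202106) (nat_lit 152) (nat_lit 3413331091) (nat_lit 76) (nat_lit 10870803524) (nat_lit 20) (nat_lit 5) (nat_lit 22) (nat_lit 5) (nat_lit 21) (nat_lit 4) (nat_lit 370) (nat_lit 329) (nat_lit 321))) (XT.nd (nat_lit 78) (nat_lit 76) (nat_lit 0) (XT.lf (nat_lit 0) (nat_lit 5022482743) (nat_lit 152) (nat_lit 8626050985) (nat_lit 0) (nat_lit 1421052083) (nat_lit 19) (nat_lit 5) (nat_lit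 21) (nat_lit 4) (nat_lit 19) (nat_lit 4) (nat_lit 371) (nat_lit 329) (nat_lit 320)) (XT.lf (nat_lit 0) (nat_lit 1012242579) (nat_lit 76) (nat_lit 9344493163) (nat_lit 76) (nat_lit 5476024058) (nat_lit 18) (nat_lit 4) (nat_lit 19) (nat_lit 5) (nat_lit 19) (nat_lit 4) (nat_lit 372) (nat_lit 329) (nat_lit 319)))) (XT.nd (nat_lit 156) (nat_lit 152) (nat_lit 0) (XT.nd (nat_lit 78) (nat_lit 152) (nat_lit 0) (XT.lf (nat_lit 0) (nat_lit 11518929694) (nat_lit 76) (nat_lit 4625841236) (nat_lit 76) (nat_lit 510114312) (nat_lit 18) (nat_lit 4) (nat_lit 19) (nat_lit 5) (nat_lit 19) (nat_lit 4) (nat_lit 373) (nat_lit 329) (nat_lit 318)) (XT.lf (nat_lit 0) (nat_lit 4547492934) (nat_lit 152) (nat_lit 12466376147) (nat_lit 0) (nat_lit 524650944) (nat_lit 16) (nat_lit 5) (nat_lit 18) (nat_lit 4) (nat_lit 16) (nat_lit 4) (nat_lit 374) (nat_lit 329) (nat_lit 317))) (XT.nd (nat_lit 78) (nat_lit 152) (nat_lit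 0) (XT.lf (nat_lit 0) (nat_lit 10049721539) (nat_lit 152) (nat_lit 2606108313) (nat_lit 0) (nat_lit 5830598321) (nat_lit 16) (nat_lit 5) (nat_lit 18) (nat_lit 4) (nat_lit 16) (nat_lit 4) (nat_lit 375) (nat_lit 329) (nat_lit 316)) (XT.nd (nat_lit 78) (nat_lit 76) (nat_lit 0) (XT.lf (nat_lit 0) (nat_lit 8099614288) (nat_lit 76) (nat_lit 7905223879) (nat_lit 76) (nat_lit 3504358783) (nat_lit 15) (nat_lit 4) (nat_lit 16) (nat_lit 5) (nat_lit 16) (nat_lit 4) (nat_lit 376) (nat_lit 329) (nat_lit 315)) (XT.lf (nat_lit 0) (nat_lit 1623111321) (nat_lit 152) (nat_lit 1193073063) (nat_lit 76) (nat_lit 17802798008) (nat_lit 14) (nat_lit 5) (nat_lit 16) (nat_lit 5) (nat_lit 15) (nat_lit 4) (nat_lit 377) (nat_lit 329) (nat_lit 314)))))) (XT.nd (nat_lit 390) (nat_lit 228) (nat_lit 0) (XT.nd (nat_lit 156) (nat_lit 228) (nat_lit 0) (XT.nd (nat_lit 78) (nat_lit 0) (nat_lit 0) (XT.lf (nat_lit 0) (nat_lit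 7111407955) (nat_lit 152) (nat_lit 11951254097) (nat_lit 0) (nat_lit 2736445936) (nat_lit 13) (nat_lit 5) (nat_lit 15) (nat_lit 4) (nat_lit 13) (nat_lit 4) (nat_lit 378) (nat_lit 329) (nat_lit 313)) (XT.lf (nat_lit 0) (nat_lit 12978622589) (nat_lit 152) (nat_lit 1629790734) (nat_lit 0) (nat_lit 8470074865) (nat_lit 13) (nat_lit 5) (nat_lit 15) (nat_lit 4) (nat_lit 13) (nat_lit 4) (nat_lit 379) (nat_lit 329) (nat_lit 312))) (XT.nd (nat_lit 78) (nat_lit 152) (nat_lit 0) (XT.lf (nat_lit 0) (nat_lit 9702110066) (nat_lit 76) (nat_lit 9692031605) (nat_lit 76) (nat_lit 5059793412) (nat_lit 12) (nat_lit 4) (nat_lit 13) (nat_lit 5) (nat_lit 13) (nat_lit 4) (nat_lit 380) (nat_lit 329) (nat_lit 311)) (XT.nd (nat_lit 78) (nat_lit 76) (nat_lit 0) (XT.lf (nat_lit 0) (nat_lit 256078675) (nat_lit 152) (nat_lit 4214122759) (nat_lit 76) (nat_lit 21477162378) (nat_lit 11) (nat_lit 5) (nat_lit 13) (nat_lit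 5) (nat_lit 12) (nat_lit 4) (nat_lit 381) (nat_lit 329) (nat_lit 310)) (XT.lf (nat_lit 0) (nat_lit 5785070591) (nat_lit 152) (nat_lit 20468082717) (nat_lit 0) (nat_lit 1291727031) (nat_lit 10) (nat_lit 5) (nat_lit 12) (nat_lit 4) (nat_lit 10) (nat_lit 4) (nat_lit 382) (nat_lit 329) (nat_lit 309))))) (XT.nd (nat_lit 156) (nat_lit 152) (nat_lit 0) (XT.nd (nat_lit 78) (nat_lit 76) (nat_lit 0) (XT.lf (nat_lit 0) (nat_lit 11848984495) (nat_lit 152) (nat_lit 10149103122) (nat_lit 0) (nat_lit 7264724748) (nat_lit 10) (nat_lit 5) (nat_lit 12) (nat_lit 4) (nat_lit 10) (nat_lit 4) (nat_lit 383) (nat_lit 329) (nat_lit 308)) (XT.lf (nat_lit 0) (nat_lit 775217608) (nat_lit 76) (nat_lit 17510214901) (nat_lit 76) (nat_lit 12841773499) (nat_lit 9) (nat_lit 4) (nat_lit 10) (nat_lit 5) (nat_lit 10) (nat_lit 4) (nat_lit 384) (nat_lit 329) (nat_lit 307))) (XT.nd (nat_lit 78) (nat_lit 152) (nat_lit 0) (XT.lf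 (nat_lit 0) (nat_lit 12898271596) (nat_lit 76) (nat_lit 12488446201) (nat_lit 76) (nat_lit 7742058823) (nat_lit 9) (nat_lit 4) (nat_lit 10) (nat_lit 5) (nat_lit 10) (nat_lit 4) (nat_lit 385) (nat_lit 329) (nat_lit 306)) (XT.nd (nat_lit 78) (nat_lit 152) (nat_lit 0) (XT.lf (nat_lit 0) (nat_lit 25757465378) (nat_lit 76) (nat_lit 7180517355) (nat_lit 76) (nat_lit 2361957776) (nat_lit 9) (nat_lit 4) (nat_lit 10) (nat_lit 5) (nat_lit 10) (nat_lit 4) (nat_lit 386) (nat_lit 329) (nat_lit 305)) (XT.lf (nat_lit 0) (nat_lit 1784614935) (nat_lit 76) (nat_lit 1422116134) (nat_lit 152) (nat_lit 34436991441) (nat_lit 7) (nat_lit 5) (nat_lit 8) (nat_lit 5) (nat_lit 9) (nat_lit 4) (nat_lit 387) (nat_lit 329) (nat_lit 304))))))) (XT.nd (nat_lit 780) (nat_lit 76) (nat_lit 0) (XT.nd (nat_lit 390) (nat_lit 152) (nat_lit 0) (XT.nd (nat_lit 156) (nat_lit 76) (nat_lit 0) (XT.nd (nat_lit 78) (nat_lit 0) (nat_lit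 0) (XT.lf (nat_lit 0) (nat_lit 9364645152) (nat_lit 152) (nat_lit 25999913824) (nat_lit 0) (nat_lit 4783847264) (nat_lit 7) (nat_lit 5) (nat_lit 9) (nat_lit 4) (nat_lit 7) (nat_lit 4) (nat_lit 388) (nat_lit 329) (nat_lit 303)) (XT.lf (nat_lit 0) (nat_lit 15948690856) (nat_lit 152) (nat_lit 15595262751) (nat_lit 0) (nat_lit 11314844246) (nat_lit 7) (nat_lit 5) (nat_lit 9) (nat_lit 4) (nat_lit 7) (nat_lit 4) (nat_lit 389) (nat_lit 329) (nat_lit 302))) (XT.nd (nat_lit 78) (nat_lit 76) (nat_lit 0) (XT.lf (nat_lit 0) (nat_lit 22963682820) (nat_lit 152) (nat_lit 4549295240) (nat_lit 0) (nat_lit 18280717024) (nat_lit 7) (nat_lit 5) (nat_lit 9) (nat_lit 4) (nat_lit 7) (nat_lit 4) (nat_lit 390) (nat_lit 329) (nat_lit 301)) (XT.nd (nat_lit 78) (nat_lit 0) (nat_lit 0) (XT.lf (nat_lit 0) (nat_lit 7582767012) (nat_lit 76) (nat_lit 23050790084) (nat_lit 76) (nat_lit 18322343559) (nat_lit 6) (nat_lit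 4) (nat_lit 7) (nat_lit 5) (nat_lit 7) (nat_lit 4) (nat_lit 391) (nat_lit 329) (nat_lit 300)) (XT.lf (nat_lit 0) (nat_lit 20771691887) (nat_lit 76) (nat_lit 18183454723) (nat_lit 76) (nat_lit 13412896412) (nat_lit 6) (nat_lit 4) (nat_lit 7) (nat_lit 5) (nat_lit 7) (nat_lit 4) (nat_lit 392) (nat_lit 329) (nat_lit 299))))) (XT.nd (nat_lit 156) (nat_lit 152) (nat_lit 0) (XT.nd (nat_lit 78) (nat_lit 0) (nat_lit 0) (XT.lf (nat_lit 0) (nat_lit 34856078150) (nat_lit 76) (nat_lit 13006514300) (nat_lit 76) (nat_lit 8196963596) (nat_lit 6) (nat_lit 4) (nat_lit 7) (nat_lit 5) (nat_lit 7) (nat_lit 4) (nat_lit 393) (nat_lit 329) (nat_lit 298)) (XT.lf (nat_lit 0) (nat_lit 49919388830) (nat_lit 76) (nat_lit 7489290652) (nat_lit 76) (nat_lit 2643635878) (nat_lit 6) (nat_lit 4) (nat_lit 7) (nat_lit 5) (nat_lit 7) (nat_lit 4) (nat_lit 394) (nat_lit 329) (nat_lit 297))) (XT.nd (nat_lit 78) (nat_lit 0) (nat_lit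 0) (XT.lf (nat_lit 0) (nat_lit 1686381915) (nat_lit 76) (nat_lit 1470092306) (nat_lit 152) (nat_lit 61203952222) (nat_lit 4) (nat_lit 5) (nat_lit 5) (nat_lit 5) (nat_lit 6) (nat_lit 4) (nat_lit 395) (nat_lit 329) (nat_lit 296)) (XT.nd (nat_lit 78) (nat_lit 0) (nat_lit 0) (XT.lf (nat_lit 0) (nat_lit 9612998377) (nat_lit 152) (nat_lit 54301216403) (nat_lit 0) (nat_lit 5066667001) (nat_lit 4) (nat_lit 5) (nat_lit 6) (nat_lit 4) (nat_lit 4) (nat_lit 4) (nat_lit 396) (nat_lit 329) (nat_lit 295)) (XT.lf (nat_lit 0) (nat_lit 16559409109) (nat_lit 152) (nat_lit 45427161636) (nat_lit 0) (nat_lit 11986540165) (nat_lit 4) (nat_lit 5) (nat_lit 6) (nat_lit 4) (nat_lit 4) (nat_lit 4) (nat_lit 397) (nat_lit 329) (nat_lit 294)))))) (XT.nd (nat_lit 390) (nat_lit 0) (nat_lit 0) (XT.nd (nat_lit 156) (nat_lit 76) (nat_lit 0) (XT.nd (nat_lit 78) (nat_lit 0) (nat_lit 0) (XT.lf (nat_lit 0) (nat_lit 24001514578)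 (nat_lit 152) (nat_lit 35963937481) (nat_lit 0) (nat_lit 19404073811) (nat_lit 4) (nat_lit 5) (nat_lit 6) (nat_lit 4) (nat_lit 4) (nat_lit 4) (nat_lit 398) (nat_lit 329) (nat_lit 293)) (XT.lf (nat_lit 0) (nat_lit 31983416149) (nat_lit 152) (nat_lit 25855465573) (nat_lit 0) (nat_lit 27363223695) (nat_lit 4) (nat_lit 5) (nat_lit 6) (nat_lit 4) (nat_lit 4) (nat_lit 4) (nat_lit 399) (nat_lit 329) (nat_lit 292))) (XT.nd (nat_lit 78) (nat_lit 76) (nat_lit 0) (XT.lf (nat_lit 0) (nat_lit 40552413980) (nat_lit 152) (nat_lit 15041843856) (nat_lit 0) (nat_lit 35911155148) (nat_lit 4) (nat_lit 5) (nat_lit 6) (nat_lit 4) (nat_lit 4) (nat_lit 4) (nat_lit 400) (nat_lit 329) (nat_lit 291)) (XT.nd (nat_lit 78) (nat_lit 76) (nat_lit 0) (XT.lf (nat_lit 0) (nat_lit 49759287317) (nat_lit 152) (nat_lit 3458991608) (nat_lit 0) (nat_lit 45098522581) (nat_lit 4) (nat_lit 5) (nat_lit 6) (nat_lit 4) (nat_lit 4)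 (nat_lit 4) (nat_lit 401) (nat_lit 329) (nat_lit 290)) (XT.lf (nat_lit 0) (nat_lit 9433639128) (nat_lit 76) (nat_lit 50451835530) (nat_lit 76) (nat_lit 45773009770) (nat_lit 3) (nat_lit 4) (nat_lit 4) (nat_lit 5) (nat_lit 4) (nat_lit 4) (nat_lit 402) (nat_lit 329) (nat_lit 289))))) (XT.nd (nat_lit 156) (nat_lit 0) (nat_lit 0) (XT.nd (nat_lit 78) (nat_lit 0) (nat_lit 0) (XT.lf (nat_lit 0) (nat_lit 23467884768) (nat_lit 76) (nat_lit 47405519249) (nat_lit 76) (nat_lit 42709970320) (nat_lit 3) (nat_lit 4) (nat_lit 4) (nat_lit 5) (nat_lit 4) (nat_lit 4) (nat_lit 403) (nat_lit 329) (nat_lit 288)) (XT.lf (nat_lit 0) (nat_lit 38544766843) (nat_lit 76) (nat_lit 44155852802) (nat_lit 76) (nat_lit 39444819456) (nat_lit 3) (nat_lit 4) (nat_lit 4) (nat_lit 5) (nat_lit 4) (nat_lit 4) (nat_lit 404) (nat_lit 329) (nat_lit 287))) (XT.nd (nat_lit 78) (nat_lit 0) (nat_lit 0) (XT.lf (nat_lit 0) (nat_lit 54753629839)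 (nat_lit 76) (nat_lit 40683578903) (nat_lit 76) (nat_lit 35958208135) (nat_lit 3) (nat_lit 4) (nat_lit 4) (nat_lit 5) (nat_lit 4) (nat_lit 4) (nat_lit 405) (nat_lit 329) (nat_lit 286)) (XT.nd (nat_lit 78) (nat_lit 0) (nat_lit 0) (XT.lf (nat_lit 0) (nat_lit 72190526277) (nat_lit 76) (nat_lit 36968121117) (nat_lit 76) (nat_lit 32229474958) (nat_lit 3) (nat_lit 4) (nat_lit 4) (nat_lit 5) (nat_lit 4) (nat_lit 4) (nat_lit 406) (nat_lit 329) (nat_lit 285)) (XT.lf (nat_lit 0) (nat_lit 90958785915) (nat_lit 76) (nat_lit 32987461915) (nat_lit 76) (nat_lit 28236523727) (nat_lit 3) (nat_lit 4) (nat_lit 4) (nat_lit 5) (nat_lit 4) (nat_lit 4) (nat_lit 407) (nat_lit 329) (nat_lit 284))))))))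
noncomputable def xc64 : XT := (XT.nd (nat_lit 1482) (nat_lit 0) (nat_lit 0) (XT.nd (nat_lit 702) (nat_lit 0) (nat_lit 0) (XT.nd (nat_lit 312) (nat_lit 152) (nat_lit 0) (XT.nd (nat_lit 156) (nat_lit 0) (nat_lit 0) (XT.nd (nat_lit 78) (nat_lit 0) (nat_lit 0) (XT.lf (nat_lit 0) (nat_lit 111169628067) (nat_lit 76) (nat_lit 28718012205) (nat_lit 76) (nat_lit 23955692509) (nat_lit 3) (nat_lit 4) (nat_lit 4) (nat_lit 5) (nat_lit 4) (nat_lit 4) (nat_lit 408) (nat_lit 329) (nat_lit 283)) (XT.lf (nat_lit 0) (nat_lit 132942820689) (nat_lit 76) (nat_lit 24134471545) (nat_lit 76) (nat_lit 19361613416) (nat_lit 3) (nat_lit 4) (nat_lit 4) (nat_lit 5) (nat_lit 4) (nat_lit 4) (nat_lit 409) (nat_lit 329) (nat_lit 282))) (XT.nd (nat_lit 78) (nat_lit 0) (nat_lit 0) (XT.lf (nat_lit 0) (nat_lit 156407390107) (nat_lit 76) (nat_lit 19209678213) (nat_lit 76) (nat_lit 14427062275) (nat_lit 3) (nat_lit 4) (nat_lit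 4) (nat_lit 5) (nat_lit 4) (nat_lit 4) (nat_lit 410) (nat_lit 329) (nat_lit 281)) (XT.lf (nat_lit 0) (nat_lit 181702385620) (nat_lit 76) (nat_lit 13914448248) (nat_lit 76) (nat_lit 9122797301) (nat_lit 3) (nat_lit 4) (nat_lit 4) (nat_lit 5) (nat_lit 4) (nat_lit 4) (nat_lit 411) (nat_lit 329) (nat_lit 280)))) (XT.nd (nat_lit 156) (nat_lit 0) (nat_lit 0) (XT.nd (nat_lit 78) (nat_lit 152) (nat_lit 0) (XT.lf (nat_lit 0) (nat_lit 208977703500) (nat_lit 76) (nat_lit 8217402509) (nat_lit 76) (nat_lit 3417385814) (nat_lit 3) (nat_lit 4) (nat_lit 4) (nat_lit 5) (nat_lit 4) (nat_lit 4) (nat_lit 412) (nat_lit 329) (nat_lit 279)) (XT.lf (nat_lit 0) (nat_lit 602871602) (nat_lit 76) (nat_lit 1998394917) (nat_lit 152) (nat_lit 235149108483) (nat_lit 1) (nat_lit 5) (nat_lit 2) (nat_lit 5) (nat_lit 3) (nat_lit 4) (nat_lit 413) (nat_lit 329) (nat_lit 278))) (XT.nd (nat_lit 78) (nat_lit 0) (nat_lit 0) (XT.lf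 (nat_lit 0) (nat_lit 9336290626) (nat_lit 152) (nat_lit 242004320766) (nat_lit 0) (nat_lit 4878017442) (nat_lit 1) (nat_lit 5) (nat_lit 3) (nat_lit 4) (nat_lit 1) (nat_lit 4) (nat_lit 414) (nat_lit 329) (nat_lit 277)) (XT.nd (nat_lit 78) (nat_lit 0) (nat_lit 0) (XT.lf (nat_lit 0) (nat_lit 16643187363) (nat_lit 152) (nat_lit 247339746364) (nat_lit 0) (nat_lit 12178765104) (nat_lit 1) (nat_lit 5) (nat_lit 3) (nat_lit 4) (nat_lit 1) (nat_lit 4) (nat_lit 415) (nat_lit 329) (nat_lit 276)) (XT.lf (nat_lit 0) (nat_lit 24517195413) (nat_lit 152) (nat_lit 253137336085) (nat_lit 0) (nat_lit 20047079567) (nat_lit 1) (nat_lit 5) (nat_lit 3) (nat_lit 4) (nat_lit 1) (nat_lit 4) (nat_lit 416) (nat_lit 329) (nat_lit 275)))))) (XT.nd (nat_lit 390) (nat_lit 0) (nat_lit 0) (XT.nd (nat_lit 156) (nat_lit 0) (nat_lit 0) (XT.nd (nat_lit 78) (nat_lit 0) (nat_lit 0) (XT.lf (nat_lit 0) (nat_lit 33004975565) (nat_lit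 152) (nat_lit 259431446016) (nat_lit 0) (nat_lit 28529587878) (nat_lit 1) (nat_lit 5) (nat_lit 3) (nat_lit 4) (nat_lit 1) (nat_lit 4) (nat_lit 417) (nat_lit 329) (nat_lit 274)) (XT.lf (nat_lit 0) (nat_lit 42156825774) (nat_lit 152) (nat_lit 266259374587) (nat_lit 0) (nat_lit 37676556753) (nat_lit 1) (nat_lit 5) (nat_lit 3) (nat_lit 4) (nat_lit 1) (nat_lit 4) (nat_lit 418) (nat_lit 329) (nat_lit 273))) (XT.nd (nat_lit 78) (nat_lit 0) (nat_lit 0) (XT.lf (nat_lit 0) (nat_lit 52026979228) (nat_lit 152) (nat_lit 273661583595) (nat_lit 0) (nat_lit 47542190454) (nat_lit 1) (nat_lit 5) (nat_lit 3) (nat_lit 4) (nat_lit 1) (nat_lit 4) (nat_lit 419) (nat_lit 329) (nat_lit 272)) (XT.nd (nat_lit 78) (nat_lit 0) (nat_lit 0) (XT.lf (nat_lit 0) (nat_lit 62673925724) (nat_lit 152) (nat_lit 281681937985) (nat_lit 0) (nat_lit 58184951993) (nat_lit 1) (nat_lit 5) (nat_lit 3) (nat_lit 4) (nat_lit 1) (nat_lit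 4) (nat_lit 420) (nat_lit 329) (nat_lit 271)) (XT.lf (nat_lit 0) (nat_lit 74160758279) (nat_lit 152) (nat_lit 290367965781) (nat_lit 0) (nat_lit 69667909588) (nat_lit 1) (nat_lit 5) (nat_lit 3) (nat_lit 4) (nat_lit 1) (nat_lit 4) (nat_lit 421) (nat_lit 329) (nat_lit 270))))) (XT.nd (nat_lit 156) (nat_lit 0) (nat_lit 0) (XT.nd (nat_lit 78) (nat_lit 0) (nat_lit 0) (XT.lf (nat_lit 0) (nat_lit 86555547012) (nat_lit 152) (nat_lit 299771139741) (nat_lit 0) (nat_lit 82059110395) (nat_lit 1) (nat_lit 5) (nat_lit 3) (nat_lit 4) (nat_lit 1) (nat_lit 4) (nat_lit 422) (nat_lit 329) (nat_lit 269)) (XT.lf (nat_lit 0) (nat_lit 99931742523) (nat_lit 152) (nat_lit 309947182378) (nat_lit 0) (nat_lit 95431983752) (nat_lit 1) (nat_lit 5) (nat_lit 3) (nat_lit 4) (nat_lit 1) (nat_lit 4) (nat_lit 423) (nat_lit 329) (nat_lit 268))) (XT.nd (nat_lit 78) (nat_lit 0) (nat_lit 0) (XT.lf (nat_lit 0) (nat_lit 114368611155)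 (nat_lit 152) (nat_lit 320956396166) (nat_lit 0) (nat_lit 109865776315) (nat_lit 1) (nat_lit 5) (nat_lit 3) (nat_lit 4) (nat_lit 1) (nat_lit 4) (nat_lit 424) (nat_lit 329) (nat_lit 267)) (XT.nd (nat_lit 78) (nat_lit 0) (nat_lit 0) (XT.lf (nat_lit 0) (nat_lit 129951704722) (nat_lit 152) (nat_lit 332864020890) (nat_lit 0) (nat_lit 125446021671) (nat_lit 1) (nat_lit 5) (nat_lit 3) (nat_lit 4) (nat_lit 1) (nat_lit 4) (nat_lit 425) (nat_lit 329) (nat_lit 266)) (XT.lf (nat_lit 0) (nat_lit 146773367483) (nat_lit 152) (nat_lit 345740620253) (nat_lit 0) (nat_lit 142265047199) (nat_lit 1) (nat_lit 5) (nat_lit 3) (nat_lit 4) (nat_lit 1) (nat_lit 4) (nat_lit 426) (nat_lit 329) (nat_lit 265))))))) (XT.nd (nat_lit 702) (nat_lit 0) (nat_lit 0) (XT.nd (nat_lit 312) (nat_lit 0) (nat_lit 0) (XT.nd (nat_lit 156) (nat_lit 0) (nat_lit 0) (XT.nd (nat_lit 78) (nat_lit 0) (nat_lit 0) (XT.lf (nat_lit 0) (nat_lit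 164933283365) (nat_lit 152) (nat_lit 359662500029) (nat_lit 0) (nat_lit 160422521199) (nat_lit 1) (nat_lit 5) (nat_lit 3) (nat_lit 4) (nat_lit 1) (nat_lit 4) (nat_lit 427) (nat_lit 329) (nat_lit 264)) (XT.lf (nat_lit 0) (nat_lit 184539066684) (nat_lit 152) (nat_lit 374712160245) (nat_lit 0) (nat_lit 180026043517) (nat_lit 1) (nat_lit 5) (nat_lit 3) (nat_lit 4) (nat_lit 1) (nat_lit 4) (nat_lit 428) (nat_lit 329) (nat_lit 263))) (XT.nd (nat_lit 78) (nat_lit 0) (nat_lit 0) (XT.lf (nat_lit 0) (nat_lit 205706899861) (nat_lit 152) (nat_lit 390978784075) (nat_lit 0) (nat_lit 201191783173) (nat_lit 1) (nat_lit 5) (nat_lit 3) (nat_lit 4) (nat_lit 1) (nat_lit 4) (nat_lit 429) (nat_lit 329) (nat_lit 262)) (XT.lf (nat_lit 0) (nat_lit 228562221906) (nat_lit 152) (nat_lit 408558766325) (nat_lit 0) (nat_lit 224045166773) (nat_lit 1) (nat_lit 5) (nat_lit 3) (nat_lit 4) (nat_lit 1) (nat_lit 4) (nat_lit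 430) (nat_lit 329) (nat_lit 261)))) (XT.nd (nat_lit 156) (nat_lit 0) (nat_lit 0) (XT.nd (nat_lit 78) (nat_lit 0) (nat_lit 0) (XT.lf (nat_lit 0) (nat_lit 253240471765) (nat_lit 152) (nat_lit 427556284668) (nat_lit 0) (nat_lit 248721621776) (nat_lit 1) (nat_lit 5) (nat_lit 3) (nat_lit 4) (nat_lit 1) (nat_lit 4) (nat_lit 431) (nat_lit 329) (nat_lit 260)) (XT.lf (nat_lit 0) (nat_lit 279887890919) (nat_lit 152) (nat_lit 448083916990) (nat_lit 0) (nat_lit 275367379026) (nat_lit 1) (nat_lit 5) (nat_lit 3) (nat_lit 4) (nat_lit 1) (nat_lit 4) (nat_lit 432) (nat_lit 329) (nat_lit 259))) (XT.nd (nat_lit 78) (nat_lit 0) (nat_lit 0) (XT.lf (nat_lit 0) (nat_lit 308662390000) (nat_lit 152) (nat_lit 470263308521) (nat_lit 0) (nat_lit 304140339307) (nat_lit 1) (nat_lit 5) (nat_lit 3) (nat_lit 4) (nat_lit 1) (nat_lit 4) (nat_lit 433) (nat_lit 329) (nat_lit 258)) (XT.nd (nat_lit 78) (nat_lit 0) (nat_lit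 0) (XT.lf (nat_lit 0) (nat_lit 339734484557) (nat_lit 152) (nat_lit 494225892691) (nat_lit 0) (nat_lit 335211009049) (nat_lit 1) (nat_lit 5) (nat_lit 3) (nat_lit 4) (nat_lit 1) (nat_lit 4) (nat_lit 434) (nat_lit 329) (nat_lit 257)) (XT.lf (nat_lit 0) (nat_lit 373288305522) (nat_lit 152) (nat_lit 520113670000) (nat_lit 0) (nat_lit 368763510741) (nat_lit 1) (nat_lit 5) (nat_lit 3) (nat_lit 4) (nat_lit 1) (nat_lit 4) (nat_lit 435) (nat_lit 329) (nat_lit 256)))))) (XT.nd (nat_lit 390) (nat_lit 0) (nat_lit 0) (XT.nd (nat_lit 156) (nat_lit 0) (nat_lit 0) (XT.nd (nat_lit 78) (nat_lit 0) (nat_lit 0) (XT.lf (nat_lit 0) (nat_lit 409522690351) (nat_lit 152) (nat_lit 548080049497) (nat_lit 0) (nat_lit 404996674022) (nat_lit 1) (nat_lit 5) (nat_lit 3) (nat_lit 4) (nat_lit 1) (nat_lit 4) (nat_lit 436) (nat_lit 329) (nat_lit 255)) (XT.lf (nat_lit 0) (nat_lit 448652361327) (nat_lit 152) (nat_lit 578290757877)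 (nat_lit 0) (nat_lit 444125213933) (nat_lit 1) (nat_lit 5) (nat_lit 3) (nat_lit 4) (nat_lit 1) (nat_lit 4) (nat_lit 437) (nat_lit 329) (nat_lit 254))) (XT.nd (nat_lit 78) (nat_lit 0) (nat_lit 0) (XT.lf (nat_lit 0) (nat_lit 490909197979) (nat_lit 152) (nat_lit 610924821559) (nat_lit 0) (nat_lit 486381003304) (nat_lit 1) (nat_lit 5) (nat_lit 3) (nat_lit 4) (nat_lit 1) (nat_lit 4) (nat_lit 438) (nat_lit 329) (nat_lit 253)) (XT.nd (nat_lit 78) (nat_lit 0) (nat_lit 0) (XT.lf (nat_lit 0) (nat_lit 536543611193) (nat_lit 152) (nat_lit 646175627587) (nat_lit 0) (nat_lit 532014446813) (nat_lit 1) (nat_lit 5) (nat_lit 3) (nat_lit 4) (nat_lit 1) (nat_lit 4) (nat_lit 439) (nat_lit 329) (nat_lit 252)) (XT.lf (nat_lit 0) (nat_lit 585826027120) (nat_lit 152) (nat_lit 684252069628) (nat_lit 0) (nat_lit 581295964865) (nat_lit 1) (nat_lit 5) (nat_lit 3) (nat_lit 4) (nat_lit 1) (nat_lit 4) (nat_lit 440) (nat_lit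 329) (nat_lit 251))))) (XT.nd (nat_lit 156) (nat_lit 0) (nat_lit 0) (XT.nd (nat_lit 78) (nat_lit 0) (nat_lit 0) (XT.lf (nat_lit 0) (nat_lit 639048489707) (nat_lit 152) (nat_lit 725379785854) (nat_lit 0) (nat_lit 634517596086) (nat_lit 1) (nat_lit 5) (nat_lit 3) (nat_lit 4) (nat_lit 1) (nat_lit 4) (nat_lit 441) (nat_lit 329) (nat_lit 250)) (XT.lf (nat_lit 0) (nat_lit 696526391324) (nat_lit 152) (nat_lit 769802496068) (nat_lit 0) (nat_lit 691994727920) (nat_lit 1) (nat_lit 5) (nat_lit 3) (nat_lit 4) (nat_lit 1) (nat_lit 4) (nat_lit 442) (nat_lit 329) (nat_lit 249))) (XT.nd (nat_lit 78) (nat_lit 0) (nat_lit 0) (XT.lf (nat_lit 0) (nat_lit 758600341760) (nat_lit 152) (nat_lit 817783445958) (nat_lit 0) (nat_lit 754067965594) (nat_lit 1) (nat_lit 5) (nat_lit 3) (nat_lit 4) (nat_lit 1) (nat_lit 4) (nat_lit 443) (nat_lit 329) (nat_lit 248)) (XT.nd (nat_lit 78) (nat_lit 0) (nat_lit 0) (XT.lf (nat_lit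 0) (nat_lit 825638186645) (nat_lit 152) (nat_lit 869606967080) (nat_lit 0) (nat_lit 821105150514) (nat_lit 1) (nat_lit 5) (nat_lit 3) (nat_lit 4) (nat_lit 1) (nat_lit 4) (nat_lit 444) (nat_lit 329) (nat_lit 247)) (XT.lf (nat_lit 0) (nat_lit 898037187284) (nat_lit 152) (nat_lit 925580161781) (nat_lit 0) (nat_lit 893503540074) (nat_lit 1) (nat_lit 5) (nat_lit 3) (nat_lit 4) (nat_lit 1) (nat_lit 4) (nat_lit 445) (nat_lit 329) (nat_lit 246))))))))
noncomputable def xc65 : XT := (XT.nd (nat_lit 46722) (nat_lit 0) (nat_lit 684) (XT.nd (nat_lit 702) (nat_lit 0) (nat_lit 0) (XT.nd (nat_lit 312) (nat_lit 0) (nat_lit 0) (XT.nd (nat_lit 156) (nat_lit 0) (nat_lit 0) (XT.nd (nat_lit 78) (nat_lit 0) (nat_lit 0) (XT.lf (nat_lit 0) (nat_lit 976226374791) (nat_lit 152) (nat_lit 986034723067) (nat_lit 0) (nat_lit 971692161768) (nat_lit 1) (nat_lit 5) (nat_lit 3) (nat_lit 4) (nat_lit 1) (nat_lit 4) (nat_lit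 446) (nat_lit 329) (nat_lit 245)) (XT.lf (nat_lit 0) (nat_lit 1060669092499) (nat_lit 152) (nat_lit 1051328900190) (nat_lit 0) (nat_lit 1056134355574) (nat_lit 1) (nat_lit 5) (nat_lit 3) (nat_lit 4) (nat_lit 1) (nat_lit 4) (nat_lit 447) (nat_lit 329) (nat_lit 244))) (XT.nd (nat_lit 78) (nat_lit 0) (nat_lit 0) (XT.lf (nat_lit 0) (nat_lit 1151865741699) (nat_lit 152) (nat_lit 1121849621606) (nat_lit 0) (nat_lit 1147330519680) (nat_lit 1) (nat_lit 5) (nat_lit 3) (nat_lit 4) (nat_lit 1) (nat_lit 4) (nat_lit 448) (nat_lit 329) (nat_lit 243)) (XT.lf (nat_lit 0) (nat_lit 1250356746978) (nat_lit 152) (nat_lit 1198014787887) (nat_lit 0) (nat_lit 1245821075799) (nat_lit 1) (nat_lit 5) (nat_lit 3) (nat_lit 4) (nat_lit 1) (nat_lit 4) (nat_lit 449) (nat_lit 329) (nat_lit 242)))) (XT.nd (nat_lit 156) (nat_lit 0) (nat_lit 0) (XT.nd (nat_lit 78) (nat_lit 0) (nat_lit 0) (XT.lf (nat_lit 0) (nat_lit 1356725758739)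 (nat_lit 152) (nat_lit 1280275748168) (nat_lit 0) (nat_lit 1352189671669) (nat_lit 1) (nat_lit 5) (nat_lit 3) (nat_lit 4) (nat_lit 1) (nat_lit 4) (nat_lit 450) (nat_lit 329) (nat_lit 241)) (XT.lf (nat_lit 0) (nat_lit 1471603111865) (nat_lit 152) (nat_lit 1369119974804) (nat_lit 0) (nat_lit 1467066639712) (nat_lit 1) (nat_lit 5) (nat_lit 3) (nat_lit 4) (nat_lit 1) (nat_lit 4) (nat_lit 451) (nat_lit 329) (nat_lit 240))) (XT.nd (nat_lit 78) (nat_lit 0) (nat_lit 0) (XT.lf (nat_lit 0) (nat_lit 1595669561042) (nat_lit 152) (nat_lit 1465073952102) (nat_lit 0) (nat_lit 1591132732330) (nat_lit 1) (nat_lit 5) (nat_lit 3) (nat_lit 4) (nat_lit 1) (nat_lit 4) (nat_lit 452) (nat_lit 329) (nat_lit 239)) (XT.nd (nat_lit 78) (nat_lit 0) (nat_lit 0) (XT.lf (nat_lit 0) (nat_lit 1729660314857) (nat_lit 152) (nat_lit 1568706296223) (nat_lit 0) (nat_lit 1725123155999) (nat_lit 1) (nat_lit 5) (nat_lit 3) (nat_lit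 4) (nat_lit 1) (nat_lit 4) (nat_lit 453) (nat_lit 329) (nat_lit 238)) (XT.lf (nat_lit 0) (nat_lit 1874369392593) (nat_lit 152) (nat_lit 1680631124763) (nat_lit 0) (nat_lit 1869831928043) (nat_lit 1) (nat_lit 5) (nat_lit 3) (nat_lit 4) (nat_lit 1) (nat_lit 4) (nat_lit 454) (nat_lit 329) (nat_lit 237)))))) (XT.nd (nat_lit 390) (nat_lit 0) (nat_lit 0) (XT.nd (nat_lit 156) (nat_lit 0) (nat_lit 0) (XT.nd (nat_lit 78) (nat_lit 0) (nat_lit 0) (XT.lf (nat_lit 0) (nat_lit 2030654329524) (nat_lit 152) (nat_lit 1801511695965) (nat_lit 0) (nat_lit 2026116581927) (nat_lit 1) (nat_lit 5) (nat_lit 3) (nat_lit 4) (nat_lit 1) (nat_lit 4) (nat_lit 455) (nat_lit 329) (nat_lit 236)) (XT.lf (nat_lit 0) (nat_lit 2199441258611) (nat_lit 152) (nat_lit 1932064339139) (nat_lit 0) (nat_lit 2194903248933) (nat_lit 1) (nat_lit 5) (nat_lit 3) (nat_lit 4) (nat_lit 1) (nat_lit 4) (nat_lit 456) (nat_lit 329) (nat_lit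 235))) (XT.nd (nat_lit 78) (nat_lit 0) (nat_lit 0) (XT.lf (nat_lit 0) (nat_lit 2381730398693) (nat_lit 152) (nat_lit 2073062699579) (nat_lit 0) (nat_lit 2377192146347) (nat_lit 1) (nat_lit 5) (nat_lit 3) (nat_lit 4) (nat_lit 1) (nat_lit 4) (nat_lit 457) (nat_lit 329) (nat_lit 234)) (XT.nd (nat_lit 78) (nat_lit 0) (nat_lit 0) (XT.lf (nat_lit 0) (nat_lit 2578601981710) (nat_lit 152) (nat_lit 2225342323123) (nat_lit 0) (nat_lit 2574063504671) (nat_lit 1) (nat_lit 5) (nat_lit 3) (nat_lit 4) (nat_lit 1) (nat_lit 4) (nat_lit 458) (nat_lit 329) (nat_lit 233)) (XT.lf (nat_lit 0) (nat_lit 2791222654080) (nat_lit 152) (nat_lit 2389805607542) (nat_lit 0) (nat_lit 2786683968994) (nat_lit 1) (nat_lit 5) (nat_lit 3) (nat_lit 4) (nat_lit 1) (nat_lit 4) (nat_lit 459) (nat_lit 329) (nat_lit 232))))) (XT.nd (nat_lit 45396) (nat_lit 0) (nat_lit 2204) (XT.nd (nat_lit 45318) (nat_lit 0) (nat_lit 2508) (XT.lf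 (nat_lit 0) (nat_lit 3020852390160) (nat_lit 152) (nat_lit 2567427150075) (nat_lit 0) (nat_lit 3016313512435) (nat_lit 1) (nat_lit 5) (nat_lit 3) (nat_lit 4) (nat_lit 1) (nat_lit 4) (nat_lit 460) (nat_lit 329) (nat_lit 231)) (XT.lf (nat_lit 0) (nat_lit 176042572) (nat_lit 228) (nat_lit 4413886016) (nat_lit 0) (nat_lit 176042572) (nat_lit 34) (nat_lit 5) (nat_lit 37) (nat_lit 4) (nat_lit 34) (nat_lit 4) (nat_lit 360) (nat_lit 330) (nat_lit 330))) (XT.nd (nat_lit 78) (nat_lit 304) (nat_lit 0) (XT.lf (nat_lit 0) (nat_lit 4777604151) (nat_lit 228) (nat_lit 1100409442) (nat_lit 0) (nat_lit 3993260535) (nat_lit 34) (nat_lit 5) (nat_lit 37) (nat_lit 4) (nat_lit 34) (nat_lit 4) (nat_lit 361) (nat_lit 330) (nat_lit 329)) (XT.nd (nat_lit 78) (nat_lit 152) (nat_lit 0) (XT.lf (nat_lit 0) (nat_lit 7193803871) (nat_lit 152) (nat_lit 2280665397) (nat_lit 152) (nat_lit 770077692) (nat_lit 32) (nat_lit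 4) (nat_lit 34) (nat_lit 5) (nat_lit 34) (nat_lit 4) (nat_lit 362) (nat_lit 330) (nat_lit 328)) (XT.lf (nat_lit 0) (nat_lit 3651620210) (nat_lit 152) (nat_lit 5362639075) (nat_lit 0) (nat_lit 1630290640) (nat_lit 30) (nat_lit 5) (nat_lit 32) (nat_lit 4) (nat_lit 30) (nat_lit 4) (nat_lit 363) (nat_lit 330) (nat_lit 327))))))) (XT.nd (nat_lit 780) (nat_lit 608) (nat_lit 0) (XT.nd (nat_lit 390) (nat_lit 304) (nat_lit 0) (XT.nd (nat_lit 156) (nat_lit 304) (nat_lit 0) (XT.nd (nat_lit 78) (nat_lit 152) (nat_lit 0) (XT.lf (nat_lit 0) (nat_lit 3035654562) (nat_lit 152) (nat_lit 5319841124) (nat_lit 152) (nat_lit 2721995581) (nat_lit 28) (nat_lit 4) (nat_lit 30) (nat_lit 5) (nat_lit 30) (nat_lit 4) (nat_lit 364) (nat_lit 330) (nat_lit 326)) (XT.lf (nat_lit 0) (nat_lit 427539221) (nat_lit 76) (nat_lit 1283612629) (nat_lit 152) (nat_lit 9837191069) (nat_lit 26) (nat_lit 5) (nat_lit 27) (nat_lit 5)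 (nat_lit 28) (nat_lit 4) (nat_lit 365) (nat_lit 330) (nat_lit 325))) (XT.nd (nat_lit 78) (nat_lit 304) (nat_lit 0) (XT.lf (nat_lit 0) (nat_lit 6409962190) (nat_lit 152) (nat_lit 2584088396) (nat_lit 0) (nat_lit 3052623160) (nat_lit 26) (nat_lit 5) (nat_lit 28) (nat_lit 4) (nat_lit 26) (nat_lit 4) (nat_lit 366) (nat_lit 330) (nat_lit 324)) (XT.nd (nat_lit 78) (nat_lit 152) (nat_lit 0) (XT.lf (nat_lit 0) (nat_lit 6534427000) (nat_lit 152) (nat_lit 4917146109) (nat_lit 152) (nat_lit 1136050628) (nat_lit 24) (nat_lit 4) (nat_lit 26) (nat_lit 5) (nat_lit 26) (nat_lit 4) (nat_lit 367) (nat_lit 330) (nat_lit 323)) (XT.lf (nat_lit 0) (nat_lit 3026718211) (nat_lit 76) (nat_lit 434907161) (nat_lit 152) (nat_lit 9709284769) (nat_lit 22) (nat_lit 5) (nat_lit 23) (nat_lit 5) (nat_lit 24) (nat_lit 4) (nat_lit 368) (nat_lit 330) (nat_lit 322))))) (XT.nd (nat_lit 156) (nat_lit 228) (nat_lit 0) (XT.nd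 (nat_lit 78) (nat_lit 76) (nat_lit 0) (XT.lf (nat_lit 0) (nat_lit 8422533146) (nat_lit 152) (nat_lit 1149680590) (nat_lit 0) (nat_lit 4221824424) (nat_lit 22) (nat_lit 5) (nat_lit 24) (nat_lit 4) (nat_lit 22) (nat_lit 4) (nat_lit 369) (nat_lit 330) (nat_lit 321)) (XT.lf (nat_lit 0) (nat_lit 8614032246) (nat_lit 76) (nat_lit 5181993148) (nat_lit 76) (nat_lit 669810784) (nat_lit 21) (nat_lit 4) (nat_lit 22) (nat_lit 5) (nat_lit 22) (nat_lit 4) (nat_lit 370) (nat_lit 330) (nat_lit 320))) (XT.nd (nat_lit 78) (nat_lit 76) (nat_lit 0) (XT.lf (nat_lit 0) (nat_lit 3744565182) (nat_lit 76) (nat_lit 363679561) (nat_lit 152) (nat_lit 11081059401) (nat_lit 19) (nat_lit 5) (nat_lit 20) (nat_lit 5) (nat_lit 21) (nat_lit 4) (nat_lit 371) (nat_lit 330) (nat_lit 319)) (XT.nd (nat_lit 78) (nat_lit 76) (nat_lit 0) (XT.lf (nat_lit 0) (nat_lit 9313564419) (nat_lit 152) (nat_lit 2027936131) (nat_lit 0) (nat_lit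 4621321523) (nat_lit 19) (nat_lit 5) (nat_lit 21) (nat_lit 4) (nat_lit 19) (nat_lit 4) (nat_lit 372) (nat_lit 330) (nat_lit 318)) (XT.lf (nat_lit 0) (nat_lit 8196909554) (nat_lit 76) (nat_lit 6760396920) (nat_lit 76) (nat_lit 1839211599) (nat_lit 18) (nat_lit 4) (nat_lit 19) (nat_lit 5) (nat_lit 19) (nat_lit 4) (nat_lit 373) (nat_lit 330) (nat_lit 317)))))) (XT.nd (nat_lit 390) (nat_lit 228) (nat_lit 0) (XT.nd (nat_lit 156) (nat_lit 228) (nat_lit 0) (XT.nd (nat_lit 78) (nat_lit 0) (nat_lit 0) (XT.lf (nat_lit 0) (nat_lit 1298551314) (nat_lit 76) (nat_lit 1793621936) (nat_lit 152) (nat_lit 14605976766) (nat_lit 16) (nat_lit 5) (nat_lit 17) (nat_lit 5) (nat_lit 18) (nat_lit 4) (nat_lit 374) (nat_lit 330) (nat_lit 316)) (XT.lf (nat_lit 0) (nat_lit 8463723771) (nat_lit 152) (nat_lit 6663762569) (nat_lit 0) (nat_lit 3529047589) (nat_lit 16) (nat_lit 5) (nat_lit 18) (nat_lit 4) (nat_lit 16) (nat_lit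 4) (nat_lit 375) (nat_lit 330) (nat_lit 315))) (XT.nd (nat_lit 78) (nat_lit 152) (nat_lit 0) (XT.lf (nat_lit 0) (nat_lit 3664965035) (nat_lit 76) (nat_lit 10566165059) (nat_lit 76) (nat_lit 5463209360) (nat_lit 15) (nat_lit 4) (nat_lit 16) (nat_lit 5) (nat_lit 16) (nat_lit 4) (nat_lit 376) (nat_lit 330) (nat_lit 314)) (XT.nd (nat_lit 78) (nat_lit 152) (nat_lit 0) (XT.lf (nat_lit 0) (nat_lit 14884410934) (nat_lit 76) (nat_lit 5594042483) (nat_lit 76) (nat_lit 335272417) (nat_lit 15) (nat_lit 4) (nat_lit 16) (nat_lit 5) (nat_lit 16) (nat_lit 4) (nat_lit 377) (nat_lit 330) (nat_lit 313)) (XT.lf (nat_lit 0) (nat_lit 4793956604) (nat_lit 76) (nat_lit 108446873) (nat_lit 152) (nat_lit 17113500229) (nat_lit 13) (nat_lit 5) (nat_lit 14) (nat_lit 5) (nat_lit 15) (nat_lit 4) (nat_lit 378) (nat_lit 330) (nat_lit 312))))) (XT.nd (nat_lit 156) (nat_lit 152) (nat_lit 0) (XT.nd (nat_lit 78) (nat_lit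 76) (nat_lit 0) (XT.lf (nat_lit 0) (nat_lit 10692775008) (nat_lit 152) (nat_lit 7042403700) (nat_lit 0) (nat_lit 5566267291) (nat_lit 13) (nat_lit 5) (nat_lit 15) (nat_lit 4) (nat_lit 13) (nat_lit 4) (nat_lit 379) (nat_lit 330) (nat_lit 311)) (XT.lf (nat_lit 0) (nat_lit 3863609322) (nat_lit 76) (nat_lit 13035532615) (nat_lit 76) (nat_lit 7794496687) (nat_lit 12) (nat_lit 4) (nat_lit 13) (nat_lit 5) (nat_lit 13) (nat_lit 4) (nat_lit 380) (nat_lit 330) (nat_lit 310))) (XT.nd (nat_lit 78) (nat_lit 152) (nat_lit 0) (XT.lf (nat_lit 0) (nat_lit 15771307537) (nat_lit 76) (nat_lit 7884357049) (nat_lit 76) (nat_lit 2537276480) (nat_lit 12) (nat_lit 4) (nat_lit 13) (nat_lit 5) (nat_lit 13) (nat_lit 4) (nat_lit 381) (nat_lit 330) (nat_lit 309)) (XT.nd (nat_lit 78) (nat_lit 0) (nat_lit 0) (XT.lf (nat_lit 0) (nat_lit 511302472) (nat_lit 76) (nat_lit 2352434317) (nat_lit 152) (nat_lit 24952005573) (nat_lit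 10) (nat_lit 5) (nat_lit 11) (nat_lit 5) (nat_lit 12) (nat_lit 4) (nat_lit 382) (nat_lit 330) (nat_lit 308)) (XT.lf (nat_lit 0) (nat_lit 8807986608) (nat_lit 152) (nat_lit 17053382634) (nat_lit 0) (nat_lit 3681888240) (nat_lit 10) (nat_lit 5) (nat_lit 12) (nat_lit 4) (nat_lit 10) (nat_lit 4) (nat_lit 383) (nat_lit 330) (nat_lit 307))))))))
noncomputable def xc66 : XT := (XT.nd (nat_lit 1482) (nat_lit 228) (nat_lit 0) (XT.nd (nat_lit 702) (nat_lit 152) (nat_lit 0) (XT.nd (nat_lit 312) (nat_lit 228) (nat_lit 0) (XT.nd (nat_lit 156) (nat_lit 0) (nat_lit 0) (XT.nd (nat_lit 78) (nat_lit 76) (nat_lit 0) (XT.lf (nat_lit 0) (nat_lit 15167375820) (nat_lit 152) (nat_lit 6283117761) (nat_lit 0) (nat_lit 9963331475) (nat_lit 10) (nat_lit 5) (nat_lit 12) (nat_lit 4) (nat_lit 10) (nat_lit 4) (nat_lit 384) (nat_lit 330) (nat_lit 306)) (XT.lf (nat_lit 0) (nat_lit 5396720435) (nat_lit 76) (nat_lit 16656084412)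 (nat_lit 76) (nat_lit 11379867867) (nat_lit 9) (nat_lit 4) (nat_lit 10) (nat_lit 5) (nat_lit 10) (nat_lit 4) (nat_lit 385) (nat_lit 330) (nat_lit 305))) (XT.nd (nat_lit 78) (nat_lit 0) (nat_lit 0) (XT.lf (nat_lit 0) (nat_lit 18151879082) (nat_lit 76) (nat_lit 11399607378) (nat_lit 76) (nat_lit 6056564722) (nat_lit 9) (nat_lit 4) (nat_lit 10) (nat_lit 5) (nat_lit 10) (nat_lit 4) (nat_lit 386) (nat_lit 330) (nat_lit 304)) (XT.lf (nat_lit 0) (nat_lit 31727086458) (nat_lit 76) (nat_lit 5821704559) (nat_lit 76) (nat_lit 416785873) (nat_lit 9) (nat_lit 4) (nat_lit 10) (nat_lit 5) (nat_lit 10) (nat_lit 4) (nat_lit 387) (nat_lit 330) (nat_lit 303)))) (XT.nd (nat_lit 156) (nat_lit 76) (nat_lit 0) (XT.nd (nat_lit 78) (nat_lit 0) (nat_lit 0) (XT.lf (nat_lit 0) (nat_lit 5444398035) (nat_lit 152) (nat_lit 34665282148) (nat_lit 0) (nat_lit 386794975) (nat_lit 7) (nat_lit 5) (nat_lit 9) (nat_lit 4) (nat_lit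 7) (nat_lit 4) (nat_lit 388) (nat_lit 330) (nat_lit 302)) (XT.lf (nat_lit 0) (nat_lit 11982396914) (nat_lit 152) (nat_lit 24352484751) (nat_lit 0) (nat_lit 6875674667) (nat_lit 7) (nat_lit 5) (nat_lit 9) (nat_lit 4) (nat_lit 7) (nat_lit 4) (nat_lit 389) (nat_lit 330) (nat_lit 301))) (XT.nd (nat_lit 78) (nat_lit 76) (nat_lit 0) (XT.lf (nat_lit 0) (nat_lit 18954752930) (nat_lit 152) (nat_lit 13391566940) (nat_lit 0) (nat_lit 13802549954) (nat_lit 7) (nat_lit 5) (nat_lit 9) (nat_lit 4) (nat_lit 7) (nat_lit 4) (nat_lit 390) (nat_lit 330) (nat_lit 300)) (XT.nd (nat_lit 78) (nat_lit 76) (nat_lit 0) (XT.lf (nat_lit 0) (nat_lit 26402783747) (nat_lit 152) (nat_lit 1717575126) (nat_lit 0) (nat_lit 21208468986) (nat_lit 7) (nat_lit 5) (nat_lit 9) (nat_lit 4) (nat_lit 7) (nat_lit 4) (nat_lit 391) (nat_lit 330) (nat_lit 299)) (XT.lf (nat_lit 0) (nat_lit 11304149227) (nat_lit 76) (nat_lit 23338341679)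 (nat_lit 76) (nat_lit 18105034523) (nat_lit 6) (nat_lit 4) (nat_lit 7) (nat_lit 5) (nat_lit 7) (nat_lit 4) (nat_lit 392) (nat_lit 330) (nat_lit 298)))))) (XT.nd (nat_lit 390) (nat_lit 0) (nat_lit 0) (XT.nd (nat_lit 156) (nat_lit 152) (nat_lit 0) (XT.nd (nat_lit 78) (nat_lit 0) (nat_lit 0) (XT.lf (nat_lit 0) (nat_lit 25317465065) (nat_lit 76) (nat_lit 18196916645) (nat_lit 76) (nat_lit 12927505420) (nat_lit 6) (nat_lit 4) (nat_lit 7) (nat_lit 5) (nat_lit 7) (nat_lit 4) (nat_lit 393) (nat_lit 330) (nat_lit 297)) (XT.lf (nat_lit 0) (nat_lit 40314969797) (nat_lit 76) (nat_lit 12712577615) (nat_lit 76) (nat_lit 7409736697) (nat_lit 6) (nat_lit 4) (nat_lit 7) (nat_lit 5) (nat_lit 7) (nat_lit 4) (nat_lit 394) (nat_lit 330) (nat_lit 296))) (XT.nd (nat_lit 78) (nat_lit 152) (nat_lit 0) (XT.lf (nat_lit 0) (nat_lit 56385537526) (nat_lit 76) (nat_lit 6852824802) (nat_lit 76) (nat_lit 1519030465) (nat_lit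 6) (nat_lit 4) (nat_lit 7) (nat_lit 5) (nat_lit 7) (nat_lit 4) (nat_lit 395) (nat_lit 330) (nat_lit 295)) (XT.nd (nat_lit 78) (nat_lit 0) (nat_lit 0) (XT.lf (nat_lit 0) (nat_lit 4296571737) (nat_lit 76) (nat_lit 347191074) (nat_lit 152) (nat_lit 64766588595) (nat_lit 4) (nat_lit 5) (nat_lit 5) (nat_lit 5) (nat_lit 6) (nat_lit 4) (nat_lit 396) (nat_lit 330) (nat_lit 294)) (XT.lf (nat_lit 0) (nat_lit 11552968723) (nat_lit 152) (nat_lit 56289430234) (nat_lit 0) (nat_lit 6563160872) (nat_lit 4) (nat_lit 5) (nat_lit 6) (nat_lit 4) (nat_lit 4) (nat_lit 4) (nat_lit 397) (nat_lit 330) (nat_lit 293))))) (XT.nd (nat_lit 156) (nat_lit 0) (nat_lit 0) (XT.nd (nat_lit 78) (nat_lit 0) (nat_lit 0) (XT.lf (nat_lit 0) (nat_lit 18968356723) (nat_lit 152) (nat_lit 46879960973) (nat_lit 0) (nat_lit 13955797185) (nat_lit 4) (nat_lit 5) (nat_lit 6) (nat_lit 4) (nat_lit 4) (nat_lit 4) (nat_lit 398) (nat_lit 330)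 (nat_lit 292)) (XT.lf (nat_lit 0) (nat_lit 26925519897) (nat_lit 152) (nat_lit 36821262115) (nat_lit 0) (nat_lit 21891893981) (nat_lit 4) (nat_lit 5) (nat_lit 6) (nat_lit 4) (nat_lit 4) (nat_lit 4) (nat_lit 399) (nat_lit 330) (nat_lit 291))) (XT.nd (nat_lit 78) (nat_lit 0) (nat_lit 0) (XT.lf (nat_lit 0) (nat_lit 35471611805) (nat_lit 152) (nat_lit 26053726555) (nat_lit 0) (nat_lit 30418479984) (nat_lit 4) (nat_lit 5) (nat_lit 6) (nat_lit 4) (nat_lit 4) (nat_lit 4) (nat_lit 400) (nat_lit 330) (nat_lit 290)) (XT.nd (nat_lit 78) (nat_lit 0) (nat_lit 0) (XT.lf (nat_lit 0) (nat_lit 44657275954) (nat_lit 152) (nat_lit 14513546676) (nat_lit 0) (nat_lit 39586083110) (nat_lit 4) (nat_lit 5) (nat_lit 6) (nat_lit 4) (nat_lit 4) (nat_lit 4) (nat_lit 401) (nat_lit 330) (nat_lit 289)) (XT.lf (nat_lit 0) (nat_lit 54536945909) (nat_lit 152) (nat_lit 2132336226) (nat_lit 0) (nat_lit 49449029896) (nat_lit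 4) (nat_lit 5) (nat_lit 6) (nat_lit 4) (nat_lit 4) (nat_lit 4) (nat_lit 402) (nat_lit 330) (nat_lit 288))))))) (XT.nd (nat_lit 780) (nat_lit 152) (nat_lit 0) (XT.nd (nat_lit 390) (nat_lit 0) (nat_lit 0) (XT.nd (nat_lit 156) (nat_lit 0) (nat_lit 0) (XT.nd (nat_lit 78) (nat_lit 0) (nat_lit 0) (XT.lf (nat_lit 0) (nat_lit 11751113205) (nat_lit 76) (nat_lit 53700669214) (nat_lit 76) (nat_lit 48597268784) (nat_lit 3) (nat_lit 4) (nat_lit 4) (nat_lit 5) (nat_lit 4) (nat_lit 4) (nat_lit 403) (nat_lit 330) (nat_lit 287)) (XT.lf (nat_lit 0) (nat_lit 26792336797) (nat_lit 76) (nat_lit 50468967124) (nat_lit 76) (nat_lit 45351229272) (nat_lit 3) (nat_lit 4) (nat_lit 4) (nat_lit 5) (nat_lit 4) (nat_lit 4) (nat_lit 404) (nat_lit 330) (nat_lit 286))) (XT.nd (nat_lit 78) (nat_lit 0) (nat_lit 0) (XT.lf (nat_lit 0) (nat_lit 42968182678) (nat_lit 76) (nat_lit 47013326891) (nat_lit 76) (nat_lit 41882313648)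 (nat_lit 3) (nat_lit 4) (nat_lit 4) (nat_lit 5) (nat_lit 4) (nat_lit 4) (nat_lit 405) (nat_lit 330) (nat_lit 285)) (XT.nd (nat_lit 78) (nat_lit 0) (nat_lit 0) (XT.lf (nat_lit 0) (nat_lit 60374507715) (nat_lit 76) (nat_lit 43313270647) (nat_lit 76) (nat_lit 38169965375) (nat_lit 3) (nat_lit 4) (nat_lit 4) (nat_lit 5) (nat_lit 4) (nat_lit 4) (nat_lit 406) (nat_lit 330) (nat_lit 284)) (XT.lf (nat_lit 0) (nat_lit 79114460499) (nat_lit 76) (nat_lit 39346872132) (nat_lit 76) (nat_lit 34192185352) (nat_lit 3) (nat_lit 4) (nat_lit 4) (nat_lit 5) (nat_lit 4) (nat_lit 4) (nat_lit 407) (nat_lit 330) (nat_lit 283))))) (XT.nd (nat_lit 156) (nat_lit 0) (nat_lit 0) (XT.nd (nat_lit 78) (nat_lit 0) (nat_lit 0) (XT.lf (nat_lit 0) (nat_lit 99299092602) (nat_lit 76) (nat_lit 35090626762) (nat_lit 76) (nat_lit 29925401548) (nat_lit 3) (nat_lit 4) (nat_lit 4) (nat_lit 5) (nat_lit 4) (nat_lit 4) (nat_lit 408)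 (nat_lit 330) (nat_lit 282)) (XT.lf (nat_lit 0) (nat_lit 121048016659) (nat_lit 76) (nat_lit 30519312342) (nat_lit 76) (nat_lit 25344329320) (nat_lit 3) (nat_lit 4) (nat_lit 4) (nat_lit 5) (nat_lit 4) (nat_lit 4) (nat_lit 409) (nat_lit 330) (nat_lit 281))) (XT.nd (nat_lit 78) (nat_lit 0) (nat_lit 0) (XT.lf (nat_lit 0) (nat_lit 144490115184) (nat_lit 76) (nat_lit 25605839603) (nat_lit 76) (nat_lit 20421821573) (nat_lit 3) (nat_lit 4) (nat_lit 4) (nat_lit 5) (nat_lit 4) (nat_lit 4) (nat_lit 410) (nat_lit 330) (nat_lit 280)) (XT.nd (nat_lit 78) (nat_lit 0) (nat_lit 0) (XT.lf (nat_lit 0) (nat_lit 169764304315) (nat_lit 76) (nat_lit 20321091668) (nat_lit 76) (nat_lit 15128707890) (nat_lit 3) (nat_lit 4) (nat_lit 4) (nat_lit 5) (nat_lit 4) (nat_lit 4) (nat_lit 411) (nat_lit 330) (nat_lit 279)) (XT.lf (nat_lit 0) (nat_lit 197020357025) (nat_lit 76) (nat_lit 14633751513) (nat_lit 76) (nat_lit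 9433621672) (nat_lit 3) (nat_lit 4) (nat_lit 4) (nat_lit 5) (nat_lit 4) (nat_lit 4) (nat_lit 412) (nat_lit 330) (nat_lit 278)))))) (XT.nd (nat_lit 390) (nat_lit 0) (nat_lit 0) (XT.nd (nat_lit 156) (nat_lit 0) (nat_lit 0) (XT.nd (nat_lit 78) (nat_lit 152) (nat_lit 0) (XT.lf (nat_lit 0) (nat_lit 226419790664) (nat_lit 76) (nat_lit 8510116382) (nat_lit 76) (nat_lit 3302814259) (nat_lit 3) (nat_lit 4) (nat_lit 4) (nat_lit 5) (nat_lit 4) (nat_lit 4) (nat_lit 413) (nat_lit 330) (nat_lit 277)) (XT.lf (nat_lit 0) (nat_lit 1375593592) (nat_lit 76) (nat_lit 1792452905) (nat_lit 152) (nat_lit 253573634669) (nat_lit 1) (nat_lit 5) (nat_lit 2) (nat_lit 5) (nat_lit 3) (nat_lit 4) (nat_lit 414) (nat_lit 330) (nat_lit 276))) (XT.nd (nat_lit 78) (nat_lit 0) (nat_lit 0) (XT.lf (nat_lit 0) (nat_lit 10423449879) (nat_lit 152) (nat_lit 260675390250) (nat_lit 0) (nat_lit 5590031177) (nat_lit 1) (nat_lit 5)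 (nat_lit 3) (nat_lit 4) (nat_lit 1) (nat_lit 4) (nat_lit 415) (nat_lit 330) (nat_lit 275)) (XT.nd (nat_lit 78) (nat_lit 0) (nat_lit 0) (XT.lf (nat_lit 0) (nat_lit 18289694207) (nat_lit 152) (nat_lit 266488707390) (nat_lit 0) (nat_lit 13451003664) (nat_lit 1) (nat_lit 5) (nat_lit 3) (nat_lit 4) (nat_lit 1) (nat_lit 4) (nat_lit 416) (nat_lit 330) (nat_lit 274)) (XT.lf (nat_lit 0) (nat_lit 26770285726) (nat_lit 152) (nat_lit 272797379747) (nat_lit 0) (nat_lit 21926713850) (nat_lit 1) (nat_lit 5) (nat_lit 3) (nat_lit 4) (nat_lit 1) (nat_lit 4) (nat_lit 417) (nat_lit 330) (nat_lit 273))))) (XT.nd (nat_lit 156) (nat_lit 0) (nat_lit 0) (XT.nd (nat_lit 78) (nat_lit 0) (nat_lit 0) (XT.lf (nat_lit 0) (nat_lit 35915479795) (nat_lit 152) (nat_lit 279638792045) (nat_lit 0) (nat_lit 31067388165) (nat_lit 1) (nat_lit 5) (nat_lit 3) (nat_lit 4) (nat_lit 1) (nat_lit 4) (nat_lit 418) (nat_lit 330) (nat_lit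 272)) (XT.lf (nat_lit 0) (nat_lit 45779470156) (nat_lit 152) (nat_lit 287053485986) (nat_lit 0) (nat_lit 40927193569) (nat_lit 1) (nat_lit 5) (nat_lit 3) (nat_lit 4) (nat_lit 1) (nat_lit 4) (nat_lit 419) (nat_lit 330) (nat_lit 271))) (XT.nd (nat_lit 78) (nat_lit 0) (nat_lit 0) (XT.lf (nat_lit 0) (nat_lit 56420710084) (nat_lit 152) (nat_lit 295085400499) (nat_lit 0) (nat_lit 51564558538) (nat_lit 1) (nat_lit 5) (nat_lit 3) (nat_lit 4) (nat_lit 1) (nat_lit 4) (nat_lit 420) (nat_lit 330) (nat_lit 270)) (XT.nd (nat_lit 78) (nat_lit 0) (nat_lit 0) (XT.lf (nat_lit 0) (nat_lit 67902258780) (nat_lit 152) (nat_lit 303782132112) (nat_lit 0) (nat_lit 63042519308) (nat_lit 1) (nat_lit 5) (nat_lit 3) (nat_lit 4) (nat_lit 1) (nat_lit 4) (nat_lit 421) (nat_lit 330) (nat_lit 269)) (XT.lf (nat_lit 0) (nat_lit 80292155051) (nat_lit 152) (nat_lit 313195217014) (nat_lit 0) (nat_lit 75429093425) (nat_lit 1)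 (nat_lit 5) (nat_lit 3) (nat_lit 4) (nat_lit 1) (nat_lit 4) (nat_lit 422) (nat_lit 330) (nat_lit 268))))))))
noncomputable def xc67 : XT := (XT.nd (nat_lit 1482) (nat_lit 0) (nat_lit 0) (XT.nd (nat_lit 702) (nat_lit 0) (nat_lit 0) (XT.nd (nat_lit 312) (nat_lit 0) (nat_lit 0) (XT.nd (nat_lit 156) (nat_lit 0) (nat_lit 0) (XT.nd (nat_lit 78) (nat_lit 0) (nat_lit 0) (XT.lf (nat_lit 0) (nat_lit 93663820504) (nat_lit 152) (nat_lit 323380436449) (nat_lit 0) (nat_lit 88797682810) (nat_lit 1) (nat_lit 5) (nat_lit 3) (nat_lit 4) (nat_lit 1) (nat_lit 4) (nat_lit 423) (nat_lit 330) (nat_lit 267)) (XT.lf (nat_lit 0) (nat_lit 108096494639) (nat_lit 152) (nat_lit 334398147272) (nat_lit 0) (nat_lit 103227508732) (nat_lit 1) (nat_lit 5) (nat_lit 3) (nat_lit 4) (nat_lit 1) (nat_lit 4) (nat_lit 424) (nat_lit 330) (nat_lit 266))) (XT.nd (nat_lit 78) (nat_lit 0) (nat_lit 0) (XT.lf (nat_lit 0) (nat_lit 123675704412)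 (nat_lit 152) (nat_lit 346313639622) (nat_lit 0) (nat_lit 118804081273) (nat_lit 1) (nat_lit 5) (nat_lit 3) (nat_lit 4) (nat_lit 1) (nat_lit 4) (nat_lit 425) (nat_lit 330) (nat_lit 265)) (XT.lf (nat_lit 0) (nat_lit 140493771067) (nat_lit 152) (nat_lit 359197523823) (nat_lit 0) (nat_lit 135619706046) (nat_lit 1) (nat_lit 5) (nat_lit 3) (nat_lit 4) (nat_lit 1) (nat_lit 4) (nat_lit 426) (nat_lit 330) (nat_lit 264)))) (XT.nd (nat_lit 156) (nat_lit 0) (nat_lit 0) (XT.nd (nat_lit 78) (nat_lit 0) (nat_lit 0) (XT.lf (nat_lit 0) (nat_lit 158650357222) (nat_lit 152) (nat_lit 373126148820) (nat_lit 0) (nat_lit 153774031199) (nat_lit 1) (nat_lit 5) (nat_lit 3) (nat_lit 4) (nat_lit 1) (nat_lit 4) (nat_lit 427) (nat_lit 330) (nat_lit 263)) (XT.lf (nat_lit 0) (nat_lit 178253057460) (nat_lit 152) (nat_lit 388182054611) (nat_lit 0) (nat_lit 173374637917) (nat_lit 1) (nat_lit 5) (nat_lit 3) (nat_lit 4)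 (nat_lit 1) (nat_lit 4) (nat_lit 428) (nat_lit 330) (nat_lit 262))) (XT.nd (nat_lit 78) (nat_lit 0) (nat_lit 0) (XT.lf (nat_lit 0) (nat_lit 199418035932) (nat_lit 152) (nat_lit 404454461380) (nat_lit 0) (nat_lit 194537677944) (nat_lit 1) (nat_lit 5) (nat_lit 3) (nat_lit 4) (nat_lit 1) (nat_lit 4) (nat_lit 429) (nat_lit 330) (nat_lit 261)) (XT.nd (nat_lit 78) (nat_lit 0) (nat_lit 0) (XT.lf (nat_lit 0) (nat_lit 222270714732) (nat_lit 152) (nat_lit 422039798203) (nat_lit 0) (nat_lit 217388561888) (nat_lit 1) (nat_lit 5) (nat_lit 3) (nat_lit 4) (nat_lit 1) (nat_lit 4) (nat_lit 430) (nat_lit 330) (nat_lit 260)) (XT.lf (nat_lit 0) (nat_lit 246946517142) (nat_lit 152) (nat_lit 441042274485) (nat_lit 0) (nat_lit 242062702394) (nat_lit 1) (nat_lit 5) (nat_lit 3) (nat_lit 4) (nat_lit 1) (nat_lit 4) (nat_lit 431) (nat_lit 330) (nat_lit 259)))))) (XT.nd (nat_lit 390) (nat_lit 0) (nat_lit 0) (XT.nd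 (nat_lit 156) (nat_lit 0) (nat_lit 0) (XT.nd (nat_lit 78) (nat_lit 0) (nat_lit 0) (XT.lf (nat_lit 0) (nat_lit 273591670140) (nat_lit 152) (nat_lit 461574497491) (nat_lit 0) (nat_lit 268706316591) (nat_lit 1) (nat_lit 5) (nat_lit 3) (nat_lit 4) (nat_lit 1) (nat_lit 4) (nat_lit 432) (nat_lit 330) (nat_lit 258)) (XT.lf (nat_lit 0) (nat_lit 302364070927) (nat_lit 152) (nat_lit 483758139655) (nat_lit 0) (nat_lit 297477292564) (nat_lit 1) (nat_lit 5) (nat_lit 3) (nat_lit 4) (nat_lit 1) (nat_lit 4) (nat_lit 433) (nat_lit 330) (nat_lit 257))) (XT.nd (nat_lit 78) (nat_lit 0) (nat_lit 0) (XT.lf (nat_lit 0) (nat_lit 333434222620) (nat_lit 152) (nat_lit 507724659597) (nat_lit 0) (nat_lit 328546124984) (nat_lit 1) (nat_lit 5) (nat_lit 3) (nat_lit 4) (nat_lit 1) (nat_lit 4) (nat_lit 434) (nat_lit 330) (nat_lit 256)) (XT.nd (nat_lit 78) (nat_lit 0) (nat_lit 0) (XT.lf (nat_lit 0) (nat_lit 366986244637)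 (nat_lit 152) (nat_lit 533616081138) (nat_lit 0) (nat_lit 362096925452) (nat_lit 1) (nat_lit 5) (nat_lit 3) (nat_lit 4) (nat_lit 1) (nat_lit 4) (nat_lit 435) (nat_lit 330) (nat_lit 255)) (XT.lf (nat_lit 0) (nat_lit 403218963774) (nat_lit 152) (nat_lit 561585834925) (nat_lit 0) (nat_lit 398328513525) (nat_lit 1) (nat_lit 5) (nat_lit 3) (nat_lit 4) (nat_lit 1) (nat_lit 4) (nat_lit 436) (nat_lit 330) (nat_lit 254))))) (XT.nd (nat_lit 156) (nat_lit 0) (nat_lit 0) (XT.nd (nat_lit 78) (nat_lit 0) (nat_lit 0) (XT.lf (nat_lit 0) (nat_lit 442347092441) (nat_lit 152) (nat_lit 591799667647) (nat_lit 0) (nat_lit 437455594911) (nat_lit 1) (nat_lit 5) (nat_lit 3) (nat_lit 4) (nat_lit 1) (nat_lit 4) (nat_lit 437) (nat_lit 330) (nat_lit 253)) (XT.lf (nat_lit 0) (nat_lit 484602501031) (nat_lit 152) (nat_lit 624436624239) (nat_lit 0) (nat_lit 479710033795) (nat_lit 1) (nat_lit 5) (nat_lit 3) (nat_lit 4)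 (nat_lit 1) (nat_lit 4) (nat_lit 438) (nat_lit 330) (nat_lit 252))) (XT.nd (nat_lit 78) (nat_lit 0) (nat_lit 0) (XT.lf (nat_lit 0) (nat_lit 530235591964) (nat_lit 152) (nat_lit 659690108887) (nat_lit 0) (nat_lit 525342226853) (nat_lit 1) (nat_lit 5) (nat_lit 3) (nat_lit 4) (nat_lit 1) (nat_lit 4) (nat_lit 439) (nat_lit 330) (nat_lit 251)) (XT.nd (nat_lit 78) (nat_lit 0) (nat_lit 0) (XT.lf (nat_lit 0) (nat_lit 579516783557) (nat_lit 152) (nat_lit 697769031131) (nat_lit 0) (nat_lit 574622587081) (nat_lit 1) (nat_lit 5) (nat_lit 3) (nat_lit 4) (nat_lit 1) (nat_lit 4) (nat_lit 440) (nat_lit 330) (nat_lit 250)) (XT.lf (nat_lit 0) (nat_lit 632738112501) (nat_lit 152) (nat_lit 738899043843) (nat_lit 0) (nat_lit 627843146242) (nat_lit 1) (nat_lit 5) (nat_lit 3) (nat_lit 4) (nat_lit 1) (nat_lit 4) (nat_lit 441) (nat_lit 330) (nat_lit 249))))))) (XT.nd (nat_lit 780) (nat_lit 0) (nat_lit 0) (XT.nd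 (nat_lit 390) (nat_lit 0) (nat_lit 0) (XT.nd (nat_lit 156) (nat_lit 0) (nat_lit 0) (XT.nd (nat_lit 78) (nat_lit 0) (nat_lit 0) (XT.lf (nat_lit 0) (nat_lit 690214964450) (nat_lit 152) (nat_lit 783323880431) (nat_lit 0) (nat_lit 685319285428) (nat_lit 1) (nat_lit 5) (nat_lit 3) (nat_lit 4) (nat_lit 1) (nat_lit 4) (nat_lit 442) (nat_lit 330) (nat_lit 248)) (XT.lf (nat_lit 0) (nat_lit 752287942970) (nat_lit 152) (nat_lit 831306799187) (nat_lit 0) (nat_lit 747391603983) (nat_lit 1) (nat_lit 5) (nat_lit 3) (nat_lit 4) (nat_lit 1) (nat_lit 4) (nat_lit 443) (nat_lit 330) (nat_lit 247))) (XT.nd (nat_lit 78) (nat_lit 0) (nat_lit 0) (XT.lf (nat_lit 0) (nat_lit 819324887933) (nat_lit 152) (nat_lit 883132143333) (nat_lit 0) (nat_lit 814427937868) (nat_lit 1) (nat_lit 5) (nat_lit 3) (nat_lit 4) (nat_lit 1) (nat_lit 4) (nat_lit 444) (nat_lit 330) (nat_lit 246)) (XT.nd (nat_lit 78) (nat_lit 0) (nat_lit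 0) (XT.lf (nat_lit 0) (nat_lit 891723055311) (nat_lit 152) (nat_lit 939107026019) (nat_lit 0) (nat_lit 886825539432) (nat_lit 1) (nat_lit 5) (nat_lit 3) (nat_lit 4) (nat_lit 1) (nat_lit 4) (nat_lit 445) (nat_lit 330) (nat_lit 245)) (XT.lf (nat_lit 0) (nat_lit 969911471280) (nat_lit 152) (nat_lit 999563150254) (nat_lit 0) (nat_lit 965013431500) (nat_lit 1) (nat_lit 5) (nat_lit 3) (nat_lit 4) (nat_lit 1) (nat_lit 4) (nat_lit 446) (nat_lit 330) (nat_lit 244))))) (XT.nd (nat_lit 156) (nat_lit 0) (nat_lit 0) (XT.nd (nat_lit 78) (nat_lit 0) (nat_lit 0) (XT.lf (nat_lit 0) (nat_lit 1054353474601) (nat_lit 152) (nat_lit 1064858774551) (nat_lit 0) (nat_lit 1049454949727) (nat_lit 1) (nat_lit 5) (nat_lit 3) (nat_lit 4) (nat_lit 1) (nat_lit 4) (nat_lit 447) (nat_lit 330) (nat_lit 243)) (XT.lf (nat_lit 0) (nat_lit 1145549462331) (nat_lit 152) (nat_lit 1135380835944) (nat_lit 0) (nat_lit 1140650488296)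 (nat_lit 1) (nat_lit 5) (nat_lit 3) (nat_lit 4) (nat_lit 1) (nat_lit 4) (nat_lit 448) (nat_lit 330) (nat_lit 242))) (XT.nd (nat_lit 78) (nat_lit 0) (nat_lit 0) (XT.lf (nat_lit 0) (nat_lit 1244039855139) (nat_lit 152) (nat_lit 1211547242945) (nat_lit 0) (nat_lit 1239140465214) (nat_lit 1) (nat_lit 5) (nat_lit 3) (nat_lit 4) (nat_lit 1) (nat_lit 4) (nat_lit 449) (nat_lit 330) (nat_lit 241)) (XT.nd (nat_lit 78) (nat_lit 0) (nat_lit 0) (XT.lf (nat_lit 0) (nat_lit 1350408299796) (nat_lit 152) (nat_lit 1293809352039) (nat_lit 0) (nat_lit 1345508524788) (nat_lit 1) (nat_lit 5) (nat_lit 3) (nat_lit 4) (nat_lit 1) (nat_lit 4) (nat_lit 450) (nat_lit 330) (nat_lit 240)) (XT.lf (nat_lit 0) (nat_lit 1465285127826) (nat_lit 152) (nat_lit 1382654642392) (nat_lit 0) (nat_lit 1460384996259) (nat_lit 1) (nat_lit 5) (nat_lit 3) (nat_lit 4) (nat_lit 1) (nat_lit 4) (nat_lit 451) (nat_lit 330) (nat_lit 239))))))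 (XT.nd (nat_lit 390) (nat_lit 0) (nat_lit 0) (XT.nd (nat_lit 156) (nat_lit 0) (nat_lit 0) (XT.nd (nat_lit 78) (nat_lit 0) (nat_lit 0) (XT.lf (nat_lit 0) (nat_lit 1589351090803) (nat_lit 152) (nat_lit 1478609604613) (nat_lit 0) (nat_lit 1584450629090) (nat_lit 1) (nat_lit 5) (nat_lit 3) (nat_lit 4) (nat_lit 1) (nat_lit 4) (nat_lit 452) (nat_lit 330) (nat_lit 238)) (XT.lf (nat_lit 0) (nat_lit 1723341394433) (nat_lit 152) (nat_lit 1582242860701) (nat_lit 0) (nat_lit 1718440627028) (nat_lit 1) (nat_lit 5) (nat_lit 3) (nat_lit 4) (nat_lit 1) (nat_lit 4) (nat_lit 453) (nat_lit 330) (nat_lit 237))) (XT.nd (nat_lit 78) (nat_lit 0) (nat_lit 0) (XT.lf (nat_lit 0) (nat_lit 1868050055331) (nat_lit 152) (nat_lit 1694168533653) (nat_lit 0) (nat_lit 1863149004878) (nat_lit 1) (nat_lit 5) (nat_lit 3) (nat_lit 4) (nat_lit 1) (nat_lit 4) (nat_lit 454) (nat_lit 330) (nat_lit 236)) (XT.nd (nat_lit 78) (nat_lit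 0) (nat_lit 0) (XT.lf (nat_lit 0) (nat_lit 2024334606302) (nat_lit 152) (nat_lit 1815049886719) (nat_lit 0) (nat_lit 2019433293768) (nat_lit 1) (nat_lit 5) (nat_lit 3) (nat_lit 4) (nat_lit 1) (nat_lit 4) (nat_lit 455) (nat_lit 330) (nat_lit 235)) (XT.lf (nat_lit 0) (nat_lit 2193121178017) (nat_lit 152) (nat_lit 1945603253841) (nat_lit 0) (nat_lit 2188219622816) (nat_lit 1) (nat_lit 5) (nat_lit 3) (nat_lit 4) (nat_lit 1) (nat_lit 4) (nat_lit 456) (nat_lit 330) (nat_lit 234))))) (XT.nd (nat_lit 156) (nat_lit 0) (nat_lit 0) (XT.nd (nat_lit 78) (nat_lit 0) (nat_lit 0) (XT.lf (nat_lit 0) (nat_lit 2375409987199) (nat_lit 152) (nat_lit 2086602284602) (nat_lit 0) (nat_lit 2370508207305) (nat_lit 1) (nat_lit 5) (nat_lit 3) (nat_lit 4) (nat_lit 1) (nat_lit 4) (nat_lit 457) (nat_lit 330) (nat_lit 233)) (XT.lf (nat_lit 0) (nat_lit 2572281263828) (nat_lit 152) (nat_lit 2238882528815) (nat_lit 0) (nat_lit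 2567379275886) (nat_lit 1) (nat_lit 5) (nat_lit 3) (nat_lit 4) (nat_lit 1) (nat_lit 4) (nat_lit 458) (nat_lit 330) (nat_lit 232))) (XT.nd (nat_lit 78) (nat_lit 0) (nat_lit 0) (XT.lf (nat_lit 0) (nat_lit 2784901652506) (nat_lit 152) (nat_lit 2403346387927) (nat_lit 0) (nat_lit 2779999471926) (nat_lit 1) (nat_lit 5) (nat_lit 3) (nat_lit 4) (nat_lit 1) (nat_lit 4) (nat_lit 459) (nat_lit 330) (nat_lit 231)) (XT.nd (nat_lit 45162) (nat_lit 0) (nat_lit 2888) (XT.lf (nat_lit 0) (nat_lit 3014531125906) (nat_lit 152) (nat_lit 2580968462584) (nat_lit 0) (nat_lit 3009628766958) (nat_lit 1) (nat_lit 5) (nat_lit 3) (nat_lit 4) (nat_lit 1) (nat_lit 4) (nat_lit 460) (nat_lit 330) (nat_lit 230)) (XT.lf (nat_lit 0) (nat_lit 958034385) (nat_lit 228) (nat_lit 2538885063) (nat_lit 0) (nat_lit 958034385) (nat_lit 39) (nat_lit 5) (nat_lit 42) (nat_lit 4) (nat_lit 39) (nat_lit 4) (nat_lit 358) (nat_lit 331)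 (nat_lit 331))))))))
noncomputable def xc68 : XT := (XT.nd (nat_lit 1482) (nat_lit 684) (nat_lit 0) (XT.nd (nat_lit 702) (nat_lit 684) (nat_lit 0) (XT.nd (nat_lit 312) (nat_lit 608) (nat_lit 0) (XT.nd (nat_lit 156) (nat_lit 152) (nat_lit 0) (XT.nd (nat_lit 78) (nat_lit 228) (nat_lit 0) (XT.lf (nat_lit 0) (nat_lit 2236066597) (nat_lit 152) (nat_lit 3944631171) (nat_lit 152) (nat_lit 3029772777) (nat_lit 37) (nat_lit 4) (nat_lit 39) (nat_lit 5) (nat_lit 39) (nat_lit 4) (nat_lit 359) (nat_lit 331) (nat_lit 330)) (XT.lf (nat_lit 0) (nat_lit 485927448) (nat_lit 152) (nat_lit 594782622) (nat_lit 228) (nat_lit 8460802410) (nat_lit 34) (nat_lit 5) (nat_lit 36) (nat_lit 5) (nat_lit 37) (nat_lit 4) (nat_lit 360) (nat_lit 331) (nat_lit 329))) (XT.nd (nat_lit 78) (nat_lit 152) (nat_lit 0) (XT.lf (nat_lit 0) (nat_lit 5368988691) (nat_lit 228) (nat_lit 1511610930) (nat_lit 0) (nat_lit 3011309881) (nat_lit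 34) (nat_lit 5) (nat_lit 37) (nat_lit 4) (nat_lit 34) (nat_lit 4) (nat_lit 361) (nat_lit 331) (nat_lit 328)) (XT.lf (nat_lit 0) (nat_lit 6568261106) (nat_lit 152) (nat_lit 3368718895) (nat_lit 152) (nat_lit 338591853) (nat_lit 32) (nat_lit 4) (nat_lit 34) (nat_lit 5) (nat_lit 34) (nat_lit 4) (nat_lit 362) (nat_lit 331) (nat_lit 327)))) (XT.nd (nat_lit 156) (nat_lit 304) (nat_lit 0) (XT.nd (nat_lit 78) (nat_lit 152) (nat_lit 0) (XT.lf (nat_lit 0) (nat_lit 3899175454) (nat_lit 152) (nat_lit 6271638823) (nat_lit 0) (nat_lit 516986295) (nat_lit 30) (nat_lit 5) (nat_lit 32) (nat_lit 4) (nat_lit 30) (nat_lit 4) (nat_lit 363) (nat_lit 331) (nat_lit 326)) (XT.lf (nat_lit 0) (nat_lit 1882169529) (nat_lit 152) (nat_lit 6582839588) (nat_lit 152) (nat_lit 2666839343) (nat_lit 28) (nat_lit 4) (nat_lit 30) (nat_lit 5) (nat_lit 30) (nat_lit 4) (nat_lit 364) (nat_lit 331) (nat_lit 325))) (XT.nd (nat_lit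 78) (nat_lit 228) (nat_lit 0) (XT.lf (nat_lit 0) (nat_lit 1643936093) (nat_lit 228) (nat_lit 990882694) (nat_lit 76) (nat_lit 8977398417) (nat_lit 27) (nat_lit 5) (nat_lit 30) (nat_lit 5) (nat_lit 28) (nat_lit 4) (nat_lit 365) (nat_lit 331) (nat_lit 324)) (XT.nd (nat_lit 78) (nat_lit 152) (nat_lit 0) (XT.lf (nat_lit 0) (nat_lit 6177013659) (nat_lit 152) (nat_lit 4277169077) (nat_lit 0) (nat_lit 1669674089) (nat_lit 26) (nat_lit 5) (nat_lit 28) (nat_lit 4) (nat_lit 26) (nat_lit 4) (nat_lit 366) (nat_lit 331) (nat_lit 323)) (XT.lf (nat_lit 0) (nat_lit 4567247810) (nat_lit 152) (nat_lit 6504529931) (nat_lit 152) (nat_lit 1604823277) (nat_lit 24) (nat_lit 4) (nat_lit 26) (nat_lit 5) (nat_lit 26) (nat_lit 4) (nat_lit 367) (nat_lit 331) (nat_lit 322)))))) (XT.nd (nat_lit 390) (nat_lit 304) (nat_lit 0) (XT.nd (nat_lit 156) (nat_lit 228) (nat_lit 0) (XT.nd (nat_lit 78) (nat_lit 0) (nat_lit 0)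 (XT.lf (nat_lit 0) (nat_lit 688374284) (nat_lit 76) (nat_lit 2172867923) (nat_lit 152) (nat_lit 10411991795) (nat_lit 22) (nat_lit 5) (nat_lit 23) (nat_lit 5) (nat_lit 24) (nat_lit 4) (nat_lit 368) (nat_lit 331) (nat_lit 321)) (XT.lf (nat_lit 0) (nat_lit 7682875002) (nat_lit 152) (nat_lit 3726421487) (nat_lit 0) (nat_lit 2498244408) (nat_lit 22) (nat_lit 5) (nat_lit 24) (nat_lit 4) (nat_lit 22) (nat_lit 4) (nat_lit 369) (nat_lit 331) (nat_lit 320))) (XT.nd (nat_lit 78) (nat_lit 152) (nat_lit 0) (XT.lf (nat_lit 0) (nat_lit 5728236698) (nat_lit 76) (nat_lit 7168470635) (nat_lit 76) (nat_lit 1695438521) (nat_lit 21) (nat_lit 4) (nat_lit 22) (nat_lit 5) (nat_lit 22) (nat_lit 4) (nat_lit 370) (nat_lit 331) (nat_lit 319)) (XT.nd (nat_lit 78) (nat_lit 0) (nat_lit 0) (XT.lf (nat_lit 0) (nat_lit 425829332) (nat_lit 76) (nat_lit 2538545615) (nat_lit 152) (nat_lit 12366805306) (nat_lit 19) (nat_lit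 5) (nat_lit 20) (nat_lit 5) (nat_lit 21) (nat_lit 4) (nat_lit 371) (nat_lit 331) (nat_lit 318)) (XT.lf (nat_lit 0) (nat_lit 8028646115) (nat_lit 152) (nat_lit 5602539511) (nat_lit 0) (nat_lit 2484823543) (nat_lit 19) (nat_lit 5) (nat_lit 21) (nat_lit 4) (nat_lit 19) (nat_lit 4) (nat_lit 372) (nat_lit 331) (nat_lit 317))))) (XT.nd (nat_lit 156) (nat_lit 152) (nat_lit 0) (XT.nd (nat_lit 78) (nat_lit 76) (nat_lit 0) (XT.lf (nat_lit 0) (nat_lit 4271986942) (nat_lit 76) (nat_lit 9223837366) (nat_lit 76) (nat_lit 3468031067) (nat_lit 18) (nat_lit 4) (nat_lit 19) (nat_lit 5) (nat_lit 19) (nat_lit 4) (nat_lit 373) (nat_lit 331) (nat_lit 316)) (XT.lf (nat_lit 0) (nat_lit 1431819537) (nat_lit 152) (nat_lit 2973902887) (nat_lit 76) (nat_lit 13471961416) (nat_lit 17) (nat_lit 5) (nat_lit 19) (nat_lit 5) (nat_lit 18) (nat_lit 4) (nat_lit 374) (nat_lit 331) (nat_lit 315))) (XT.nd (nat_lit 78) (nat_lit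 76) (nat_lit 0) (XT.lf (nat_lit 0) (nat_lit 6582247863) (nat_lit 152) (nat_lit 11368753397) (nat_lit 0) (nat_lit 902776192) (nat_lit 16) (nat_lit 5) (nat_lit 18) (nat_lit 4) (nat_lit 16) (nat_lit 4) (nat_lit 375) (nat_lit 331) (nat_lit 314)) (XT.nd (nat_lit 78) (nat_lit 76) (nat_lit 0) (XT.lf (nat_lit 0) (nat_lit 12186459020) (nat_lit 152) (nat_lit 1367025038) (nat_lit 0) (nat_lit 6351172981) (nat_lit 16) (nat_lit 5) (nat_lit 18) (nat_lit 4) (nat_lit 16) (nat_lit 4) (nat_lit 376) (nat_lit 331) (nat_lit 313)) (XT.lf (nat_lit 0) (nat_lit 9640409926) (nat_lit 76) (nat_lit 8685903351) (nat_lit 76) (nat_lit 2706344749) (nat_lit 15) (nat_lit 4) (nat_lit 16) (nat_lit 5) (nat_lit 16) (nat_lit 4) (nat_lit 377) (nat_lit 331) (nat_lit 312))))))) (XT.nd (nat_lit 702) (nat_lit 228) (nat_lit 0) (XT.nd (nat_lit 312) (nat_lit 228) (nat_lit 0) (XT.nd (nat_lit 156) (nat_lit 76) (nat_lit 0) (XT.nd (nat_lit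 78) (nat_lit 76) (nat_lit 0) (XT.lf (nat_lit 0) (nat_lit 2465415946) (nat_lit 152) (nat_lit 985079138) (nat_lit 76) (nat_lit 18803679472) (nat_lit 14) (nat_lit 5) (nat_lit 16) (nat_lit 5) (nat_lit 15) (nat_lit 4) (nat_lit 378) (nat_lit 331) (nat_lit 311)) (XT.lf (nat_lit 0) (nat_lit 8081088598) (nat_lit 152) (nat_lit 13166376138) (nat_lit 0) (nat_lit 2306241583) (nat_lit 13) (nat_lit 5) (nat_lit 15) (nat_lit 4) (nat_lit 13) (nat_lit 4) (nat_lit 379) (nat_lit 331) (nat_lit 310))) (XT.nd (nat_lit 78) (nat_lit 76) (nat_lit 0) (XT.lf (nat_lit 0) (nat_lit 14130891124) (nat_lit 152) (nat_lit 2577546061) (nat_lit 0) (nat_lit 8249999469) (nat_lit 13) (nat_lit 5) (nat_lit 15) (nat_lit 4) (nat_lit 13) (nat_lit 4) (nat_lit 380) (nat_lit 331) (nat_lit 309)) (XT.lf (nat_lit 0) (nat_lit 9073650537) (nat_lit 76) (nat_lit 11686674221) (nat_lit 76) (nat_lit 5707593084) (nat_lit 12) (nat_lit 4) (nat_lit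 13) (nat_lit 5) (nat_lit 13) (nat_lit 4) (nat_lit 381) (nat_lit 331) (nat_lit 308)))) (XT.nd (nat_lit 156) (nat_lit 76) (nat_lit 0) (XT.nd (nat_lit 78) (nat_lit 152) (nat_lit 0) (XT.lf (nat_lit 0) (nat_lit 21570931093) (nat_lit 76) (nat_lit 6300567647) (nat_lit 76) (nat_lit 230570323) (nat_lit 12) (nat_lit 4) (nat_lit 13) (nat_lit 5) (nat_lit 13) (nat_lit 4) (nat_lit 382) (nat_lit 331) (nat_lit 307)) (XT.lf (nat_lit 0) (nat_lit 5098002236) (nat_lit 76) (nat_lit 311700270) (nat_lit 152) (nat_lit 24445575409) (nat_lit 10) (nat_lit 5) (nat_lit 11) (nat_lit 5) (nat_lit 12) (nat_lit 4) (nat_lit 383) (nat_lit 331) (nat_lit 306))) (XT.nd (nat_lit 78) (nat_lit 76) (nat_lit 0) (XT.lf (nat_lit 0) (nat_lit 11707507542) (nat_lit 152) (nat_lit 14086251753) (nat_lit 0) (nat_lit 5937021473) (nat_lit 10) (nat_lit 5) (nat_lit 12) (nat_lit 4) (nat_lit 10) (nat_lit 4) (nat_lit 384) (nat_lit 331) (nat_lit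 305)) (XT.nd (nat_lit 78) (nat_lit 76) (nat_lit 0) (XT.lf (nat_lit 0) (nat_lit 18413064038) (nat_lit 152) (nat_lit 2775210245) (nat_lit 0) (nat_lit 12575751857) (nat_lit 10) (nat_lit 5) (nat_lit 12) (nat_lit 4) (nat_lit 10) (nat_lit 4) (nat_lit 385) (nat_lit 331) (nat_lit 304)) (XT.lf (nat_lit 0) (nat_lit 9737481920) (nat_lit 76) (nat_lit 16055316981) (nat_lit 76) (nat_lit 10156128772) (nat_lit 9) (nat_lit 4) (nat_lit 10) (nat_lit 5) (nat_lit 10) (nat_lit 4) (nat_lit 386) (nat_lit 331) (nat_lit 303)))))) (XT.nd (nat_lit 390) (nat_lit 76) (nat_lit 0) (XT.nd (nat_lit 156) (nat_lit 76) (nat_lit 0) (XT.nd (nat_lit 78) (nat_lit 76) (nat_lit 0) (XT.lf (nat_lit 0) (nat_lit 23223495937) (nat_lit 76) (nat_lit 10521525798) (nat_lit 76) (nat_lit 4565044969) (nat_lit 9) (nat_lit 4) (nat_lit 10) (nat_lit 5) (nat_lit 10) (nat_lit 4) (nat_lit 387) (nat_lit 331) (nat_lit 302)) (XT.lf (nat_lit 0) (nat_lit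 1310532185) (nat_lit 152) (nat_lit 3283622604) (nat_lit 76) (nat_lit 36270246813) (nat_lit 8) (nat_lit 5) (nat_lit 10) (nat_lit 5) (nat_lit 9) (nat_lit 4) (nat_lit 388) (nat_lit 331) (nat_lit 301))) (XT.nd (nat_lit 78) (nat_lit 0) (nat_lit 0) (XT.lf (nat_lit 0) (nat_lit 7610116683) (nat_lit 152) (nat_lit 33987187888) (nat_lit 0) (nat_lit 2000256741) (nat_lit 7) (nat_lit 5) (nat_lit 9) (nat_lit 4) (nat_lit 7) (nat_lit 4) (nat_lit 389) (nat_lit 331) (nat_lit 300)) (XT.nd (nat_lit 78) (nat_lit 0) (nat_lit 0) (XT.lf (nat_lit 0) (nat_lit 14542994968) (nat_lit 152) (nat_lit 23105019798) (nat_lit 0) (nat_lit 8891023240) (nat_lit 7) (nat_lit 5) (nat_lit 9) (nat_lit 4) (nat_lit 7) (nat_lit 4) (nat_lit 390) (nat_lit 331) (nat_lit 299)) (XT.lf (nat_lit 0) (nat_lit 21954472332) (nat_lit 152) (nat_lit 11503944394) (nat_lit 0) (nat_lit 16263508210) (nat_lit 7) (nat_lit 5) (nat_lit 9) (nat_lit 4) (nat_lit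 7) (nat_lit 4) (nat_lit 391) (nat_lit 331) (nat_lit 298))))) (XT.nd (nat_lit 156) (nat_lit 0) (nat_lit 0) (XT.nd (nat_lit 78) (nat_lit 0) (nat_lit 0) (XT.lf (nat_lit 0) (nat_lit 931376671) (nat_lit 76) (nat_lit 28979491599) (nat_lit 76) (nat_lit 23252423408) (nat_lit 6) (nat_lit 4) (nat_lit 7) (nat_lit 5) (nat_lit 7) (nat_lit 4) (nat_lit 392) (nat_lit 331) (nat_lit 297)) (XT.lf (nat_lit 0) (nat_lit 14878886561) (nat_lit 76) (nat_lit 23870951183) (nat_lit 76) (nat_lit 18110453299) (nat_lit 6) (nat_lit 4) (nat_lit 7) (nat_lit 5) (nat_lit 7) (nat_lit 4) (nat_lit 393) (nat_lit 331) (nat_lit 296))) (XT.nd (nat_lit 78) (nat_lit 0) (nat_lit 0) (XT.lf (nat_lit 0) (nat_lit 29815459859) (nat_lit 76) (nat_lit 18417060875) (nat_lit 76) (nat_lit 12625609571) (nat_lit 6) (nat_lit 4) (nat_lit 7) (nat_lit 5) (nat_lit 7) (nat_lit 4) (nat_lit 394) (nat_lit 331) (nat_lit 295)) (XT.nd (nat_lit 78) (nat_lit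 0) (nat_lit 0) (XT.lf (nat_lit 0) (nat_lit 45829609593) (nat_lit 76) (nat_lit 12585501323) (nat_lit 76) (nat_lit 6765389445) (nat_lit 6) (nat_lit 4) (nat_lit 7) (nat_lit 5) (nat_lit 7) (nat_lit 4) (nat_lit 395) (nat_lit 331) (nat_lit 294)) (XT.lf (nat_lit 0) (nat_lit 63016234428) (nat_lit 76) (nat_lit 6341715137) (nat_lit 76) (nat_lit 495065692) (nat_lit 6) (nat_lit 4) (nat_lit 7) (nat_lit 5) (nat_lit 7) (nat_lit 4) (nat_lit 396) (nat_lit 331) (nat_lit 293))))))))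
noncomputable def xc69 : XT := (XT.nd (nat_lit 1482) (nat_lit 0) (nat_lit 0) (XT.nd (nat_lit 702) (nat_lit 152) (nat_lit 0) (XT.nd (nat_lit 312) (nat_lit 76) (nat_lit 0) (XT.nd (nat_lit 156) (nat_lit 0) (nat_lit 0) (XT.nd (nat_lit 78) (nat_lit 0) (nat_lit 0) (XT.lf (nat_lit 0) (nat_lit 6090440771) (nat_lit 152) (nat_lit 68132490499) (nat_lit 0) (nat_lit 654124782) (nat_lit 4) (nat_lit 5) (nat_lit 6) (nat_lit 4) (nat_lit 4) (nat_lit 4) (nat_lit 397) (nat_lit 331) (nat_lit 292)) (XT.lf (nat_lit 0) (nat_lit 13481090374) (nat_lit 152) (nat_lit 58772794288) (nat_lit 0) (nat_lit 8023708008) (nat_lit 4) (nat_lit 5) (nat_lit 6) (nat_lit 4) (nat_lit 4) (nat_lit 4) (nat_lit 398) (nat_lit 331) (nat_lit 291))) (XT.nd (nat_lit 78) (nat_lit 0) (nat_lit 0) (XT.lf (nat_lit 0) (nat_lit 21415347625) (nat_lit 152) (nat_lit 48760181587) (nat_lit 0) (nat_lit 15938459353) (nat_lit 4) (nat_lit 5) (nat_lit 6)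 (nat_lit 4) (nat_lit 4) (nat_lit 4) (nat_lit 399) (nat_lit 331) (nat_lit 290)) (XT.lf (nat_lit 0) (nat_lit 29940230344) (nat_lit 152) (nat_lit 38035318395) (nat_lit 0) (nat_lit 24445281050) (nat_lit 4) (nat_lit 5) (nat_lit 6) (nat_lit 4) (nat_lit 4) (nat_lit 4) (nat_lit 400) (nat_lit 331) (nat_lit 289)))) (XT.nd (nat_lit 156) (nat_lit 76) (nat_lit 0) (XT.nd (nat_lit 78) (nat_lit 0) (nat_lit 0) (XT.lf (nat_lit 0) (nat_lit 39106256356) (nat_lit 152) (nat_lit 26534649968) (nat_lit 0) (nat_lit 33594583892) (nat_lit 4) (nat_lit 5) (nat_lit 6) (nat_lit 4) (nat_lit 4) (nat_lit 4) (nat_lit 401) (nat_lit 331) (nat_lit 288)) (XT.lf (nat_lit 0) (nat_lit 48967742851) (nat_lit 152) (nat_lit 14190024195) (nat_lit 0) (nat_lit 43440585971) (nat_lit 4) (nat_lit 5) (nat_lit 6) (nat_lit 4) (nat_lit 4) (nat_lit 4) (nat_lit 402) (nat_lit 331) (nat_lit 287))) (XT.nd (nat_lit 78) (nat_lit 76) (nat_lit 0) (XT.lf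 (nat_lit 0) (nat_lit 59583128268) (nat_lit 152) (nat_lit 928287740) (nat_lit 0) (nat_lit 54041633966) (nat_lit 4) (nat_lit 5) (nat_lit 6) (nat_lit 4) (nat_lit 4) (nat_lit 4) (nat_lit 403) (nat_lit 331) (nat_lit 286)) (XT.nd (nat_lit 78) (nat_lit 0) (nat_lit 0) (XT.lf (nat_lit 0) (nat_lit 14031036749) (nat_lit 76) (nat_lit 57321728617) (nat_lit 76) (nat_lit 51766958923) (nat_lit 3) (nat_lit 4) (nat_lit 4) (nat_lit 5) (nat_lit 4) (nat_lit 4) (nat_lit 404) (nat_lit 331) (nat_lit 285)) (XT.lf (nat_lit 0) (nat_lit 30176311229) (nat_lit 76) (nat_lit 53881489926) (nat_lit 76) (nat_lit 48314428203) (nat_lit 3) (nat_lit 4) (nat_lit 4) (nat_lit 5) (nat_lit 4) (nat_lit 4) (nat_lit 405) (nat_lit 331) (nat_lit 284)))))) (XT.nd (nat_lit 390) (nat_lit 152) (nat_lit 0) (XT.nd (nat_lit 156) (nat_lit 0) (nat_lit 0) (XT.nd (nat_lit 78) (nat_lit 0) (nat_lit 0) (XT.lf (nat_lit 0) (nat_lit 47554329412) (nat_lit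 76) (nat_lit 50195694368) (nat_lit 76) (nat_lit 44617251137) (nat_lit 3) (nat_lit 4) (nat_lit 4) (nat_lit 5) (nat_lit 4) (nat_lit 4) (nat_lit 406) (nat_lit 331) (nat_lit 283)) (XT.lf (nat_lit 0) (nat_lit 66268072146) (nat_lit 76) (nat_lit 46242500192) (nat_lit 76) (nat_lit 40653518528) (nat_lit 3) (nat_lit 4) (nat_lit 4) (nat_lit 5) (nat_lit 4) (nat_lit 4) (nat_lit 407) (nat_lit 331) (nat_lit 282))) (XT.nd (nat_lit 78) (nat_lit 0) (nat_lit 0) (XT.lf (nat_lit 0) (nat_lit 86428435685) (nat_lit 76) (nat_lit 41998481063) (nat_lit 76) (nat_lit 36399741590) (nat_lit 3) (nat_lit 4) (nat_lit 4) (nat_lit 5) (nat_lit 4) (nat_lit 4) (nat_lit 408) (nat_lit 331) (nat_lit 281)) (XT.nd (nat_lit 78) (nat_lit 0) (nat_lit 0) (XT.lf (nat_lit 0) (nat_lit 108154888849) (nat_lit 76) (nat_lit 37438487237) (nat_lit 76) (nat_lit 31830712756) (nat_lit 3) (nat_lit 4) (nat_lit 4) (nat_lit 5) (nat_lit 4) (nat_lit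 4) (nat_lit 409) (nat_lit 331) (nat_lit 280)) (XT.lf (nat_lit 0) (nat_lit 131576180991) (nat_lit 76) (nat_lit 32535496528) (nat_lit 76) (nat_lit 26919356299) (nat_lit 3) (nat_lit 4) (nat_lit 4) (nat_lit 5) (nat_lit 4) (nat_lit 4) (nat_lit 410) (nat_lit 331) (nat_lit 279))))) (XT.nd (nat_lit 156) (nat_lit 152) (nat_lit 0) (XT.nd (nat_lit 78) (nat_lit 0) (nat_lit 0) (XT.lf (nat_lit 0) (nat_lit 156831104954) (nat_lit 76) (nat_lit 27260454177) (nat_lit 76) (nat_lit 21636567885) (nat_lit 3) (nat_lit 4) (nat_lit 4) (nat_lit 5) (nat_lit 4) (nat_lit 4) (nat_lit 411) (nat_lit 331) (nat_lit 278)) (XT.lf (nat_lit 0) (nat_lit 184069319544) (nat_lit 76) (nat_lit 21582100674) (nat_lit 76) (nat_lit 15951042101) (nat_lit 3) (nat_lit 4) (nat_lit 4) (nat_lit 5) (nat_lit 4) (nat_lit 4) (nat_lit 412) (nat_lit 331) (nat_lit 277))) (XT.nd (nat_lit 78) (nat_lit 152) (nat_lit 0) (XT.lf (nat_lit 0) (nat_lit 213452236406)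 (nat_lit 76) (nat_lit 15466786516) (nat_lit 76) (nat_lit 9829086942) (nat_lit 3) (nat_lit 4) (nat_lit 4) (nat_lit 5) (nat_lit 4) (nat_lit 4) (nat_lit 413) (nat_lit 331) (nat_lit 276)) (XT.nd (nat_lit 78) (nat_lit 152) (nat_lit 0) (XT.lf (nat_lit 0) (nat_lit 245153976527) (nat_lit 76) (nat_lit 8878272805) (nat_lit 76) (nat_lit 3234424156) (nat_lit 3) (nat_lit 4) (nat_lit 4) (nat_lit 5) (nat_lit 4) (nat_lit 4) (nat_lit 414) (nat_lit 331) (nat_lit 275)) (XT.lf (nat_lit 0) (nat_lit 2106776420) (nat_lit 76) (nat_lit 1622222933) (nat_lit 152) (nat_lit 273527390246) (nat_lit 1) (nat_lit 5) (nat_lit 2) (nat_lit 5) (nat_lit 3) (nat_lit 4) (nat_lit 415) (nat_lit 331) (nat_lit 274))))))) (XT.nd (nat_lit 780) (nat_lit 0) (nat_lit 0) (XT.nd (nat_lit 390) (nat_lit 0) (nat_lit 0) (XT.nd (nat_lit 156) (nat_lit 0) (nat_lit 0) (XT.nd (nat_lit 78) (nat_lit 0) (nat_lit 0) (XT.lf (nat_lit 0) (nat_lit 11549040549)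 (nat_lit 152) (nat_lit 280938478245) (nat_lit 0) (nat_lit 6313101589) (nat_lit 1) (nat_lit 5) (nat_lit 3) (nat_lit 4) (nat_lit 1) (nat_lit 4) (nat_lit 416) (nat_lit 331) (nat_lit 273)) (XT.lf (nat_lit 0) (nat_lit 20022975928) (nat_lit 152) (nat_lit 287260634329) (nat_lit 0) (nat_lit 14782517215) (nat_lit 1) (nat_lit 5) (nat_lit 3) (nat_lit 4) (nat_lit 1) (nat_lit 4) (nat_lit 417) (nat_lit 331) (nat_lit 272))) (XT.nd (nat_lit 78) (nat_lit 0) (nat_lit 0) (XT.lf (nat_lit 0) (nat_lit 29162006904) (nat_lit 152) (nat_lit 294114531559) (nat_lit 0) (nat_lit 23917363234) (nat_lit 1) (nat_lit 5) (nat_lit 3) (nat_lit 4) (nat_lit 1) (nat_lit 4) (nat_lit 418) (nat_lit 331) (nat_lit 271)) (XT.nd (nat_lit 78) (nat_lit 0) (nat_lit 0) (XT.lf (nat_lit 0) (nat_lit 39020290697) (nat_lit 152) (nat_lit 301540785624) (nat_lit 0) (nat_lit 33771772066) (nat_lit 1) (nat_lit 5) (nat_lit 3) (nat_lit 4) (nat_lit 1)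 (nat_lit 4) (nat_lit 419) (nat_lit 331) (nat_lit 270)) (XT.lf (nat_lit 0) (nat_lit 49656246766) (nat_lit 152) (nat_lit 309583403953) (nat_lit 0) (nat_lit 44404140210) (nat_lit 1) (nat_lit 5) (nat_lit 3) (nat_lit 4) (nat_lit 1) (nat_lit 4) (nat_lit 420) (nat_lit 331) (nat_lit 269))))) (XT.nd (nat_lit 156) (nat_lit 0) (nat_lit 0) (XT.nd (nat_lit 78) (nat_lit 0) (nat_lit 0) (XT.lf (nat_lit 0) (nat_lit 61132903001) (nat_lit 152) (nat_lit 318290046509) (nat_lit 0) (nat_lit 55877474290) (nat_lit 1) (nat_lit 5) (nat_lit 3) (nat_lit 4) (nat_lit 1) (nat_lit 4) (nat_lit 421) (nat_lit 331) (nat_lit 268)) (XT.lf (nat_lit 0) (nat_lit 73518269214) (nat_lit 152) (nat_lit 327712308210) (nat_lit 0) (nat_lit 68259764435) (nat_lit 1) (nat_lit 5) (nat_lit 3) (nat_lit 4) (nat_lit 1) (nat_lit 4) (nat_lit 422) (nat_lit 331) (nat_lit 267))) (XT.nd (nat_lit 78) (nat_lit 0) (nat_lit 0) (XT.lf (nat_lit 0) (nat_lit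 86885740169) (nat_lit 152) (nat_lit 337906024680) (nat_lit 0) (nat_lit 81624387179) (nat_lit 1) (nat_lit 5) (nat_lit 3) (nat_lit 4) (nat_lit 1) (nat_lit 4) (nat_lit 423) (nat_lit 331) (nat_lit 266)) (XT.nd (nat_lit 78) (nat_lit 0) (nat_lit 0) (XT.lf (nat_lit 0) (nat_lit 101314530509) (nat_lit 152) (nat_lit 348931603128) (nat_lit 0) (nat_lit 96050540287) (nat_lit 1) (nat_lit 5) (nat_lit 3) (nat_lit 4) (nat_lit 1) (nat_lit 4) (nat_lit 424) (nat_lit 331) (nat_lit 265)) (XT.lf (nat_lit 0) (nat_lit 116890144177) (nat_lit 152) (nat_lit 360854380316) (nat_lit 0) (nat_lit 111623712072) (nat_lit 1) (nat_lit 5) (nat_lit 3) (nat_lit 4) (nat_lit 1) (nat_lit 4) (nat_lit 425) (nat_lit 331) (nat_lit 264)))))) (XT.nd (nat_lit 390) (nat_lit 0) (nat_lit 0) (XT.nd (nat_lit 156) (nat_lit 0) (nat_lit 0) (XT.nd (nat_lit 78) (nat_lit 0) (nat_lit 0) (XT.lf (nat_lit 0) (nat_lit 133704881105) (nat_lit 152) (nat_lit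 373745009738) (nat_lit 0) (nat_lit 128436187998) (nat_lit 1) (nat_lit 5) (nat_lit 3) (nat_lit 4) (nat_lit 1) (nat_lit 4) (nat_lit 426) (nat_lit 331) (nat_lit 263)) (XT.lf (nat_lit 0) (nat_lit 151858384178) (nat_lit 152) (nat_lit 387679880309) (nat_lit 0) (nat_lit 146587597551) (nat_lit 1) (nat_lit 5) (nat_lit 3) (nat_lit 4) (nat_lit 1) (nat_lit 4) (nat_lit 427) (nat_lit 331) (nat_lit 262))) (XT.nd (nat_lit 78) (nat_lit 0) (nat_lit 0) (XT.lf (nat_lit 0) (nat_lit 171458229712) (nat_lit 152) (nat_lit 402741569040) (nat_lit 0) (nat_lit 166185504640) (nat_lit 1) (nat_lit 5) (nat_lit 3) (nat_lit 4) (nat_lit 1) (nat_lit 4) (nat_lit 428) (nat_lit 331) (nat_lit 261)) (XT.nd (nat_lit 78) (nat_lit 0) (nat_lit 0) (XT.lf (nat_lit 0) (nat_lit 192620564939) (nat_lit 152) (nat_lit 419019330382) (nat_lit 0) (nat_lit 187346045011) (nat_lit 1) (nat_lit 5) (nat_lit 3) (nat_lit 4) (nat_lit 1) (nat_lit 4) (nat_lit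 429) (nat_lit 331) (nat_lit 260)) (XT.lf (nat_lit 0) (nat_lit 215470796290) (nat_lit 152) (nat_lit 436609625145) (nat_lit 0) (nat_lit 210194614458) (nat_lit 1) (nat_lit 5) (nat_lit 3) (nat_lit 4) (nat_lit 1) (nat_lit 4) (nat_lit 430) (nat_lit 331) (nat_lit 259))))) (XT.nd (nat_lit 156) (nat_lit 0) (nat_lit 0) (XT.nd (nat_lit 78) (nat_lit 0) (nat_lit 0) (XT.lf (nat_lit 0) (nat_lit 240144332544) (nat_lit 152) (nat_lit 455616692110) (nat_lit 0) (nat_lit 234866611912) (nat_lit 1) (nat_lit 5) (nat_lit 3) (nat_lit 4) (nat_lit 1) (nat_lit 4) (nat_lit 431) (nat_lit 331) (nat_lit 258)) (XT.lf (nat_lit 0) (nat_lit 266787387248) (nat_lit 152) (nat_lit 476153165750) (nat_lit 0) (nat_lit 261508241801) (nat_lit 1) (nat_lit 5) (nat_lit 3) (nat_lit 4) (nat_lit 1) (nat_lit 4) (nat_lit 432) (nat_lit 331) (nat_lit 257))) (XT.nd (nat_lit 78) (nat_lit 0) (nat_lit 0) (XT.lf (nat_lit 0) (nat_lit 295557845172)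 (nat_lit 152) (nat_lit 498340743685) (nat_lit 0) (nat_lit 290277380451) (nat_lit 1) (nat_lit 5) (nat_lit 3) (nat_lit 4) (nat_lit 1) (nat_lit 4) (nat_lit 433) (nat_lit 331) (nat_lit 256)) (XT.nd (nat_lit 78) (nat_lit 0) (nat_lit 0) (XT.lf (nat_lit 0) (nat_lit 326626197917) (nat_lit 152) (nat_lit 522310907859) (nat_lit 0) (nat_lit 321344511648) (nat_lit 1) (nat_lit 5) (nat_lit 3) (nat_lit 4) (nat_lit 1) (nat_lit 4) (nat_lit 434) (nat_lit 331) (nat_lit 255)) (XT.lf (nat_lit 0) (nat_lit 360176554241) (nat_lit 152) (nat_lit 548205703690) (nat_lit 0) (nat_lit 354893736908) (nat_lit 1) (nat_lit 5) (nat_lit 3) (nat_lit 4) (nat_lit 1) (nat_lit 4) (nat_lit 435) (nat_lit 331) (nat_lit 254))))))))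
noncomputable def xc70 : XT := (XT.nd (nat_lit 1482) (nat_lit 0) (nat_lit 0) (XT.nd (nat_lit 702) (nat_lit 0) (nat_lit 0) (XT.nd (nat_lit 312) (nat_lit 0) (nat_lit 0) (XT.nd (nat_lit 156) (nat_lit 0) (nat_lit 0) (XT.nd (nat_lit 78) (nat_lit 0) (nat_lit 0) (XT.lf (nat_lit 0) (nat_lit 396407731070) (nat_lit 152) (nat_lit 576178581820) (nat_lit 0) (nat_lit 391123866455) (nat_lit 1) (nat_lit 5) (nat_lit 3) (nat_lit 4) (nat_lit 1) (nat_lit 4) (nat_lit 436) (nat_lit 331) (nat_lit 253)) (XT.lf (nat_lit 0) (nat_lit 435534431674) (nat_lit 152) (nat_lit 606395307451) (nat_lit 0) (nat_lit 430249597354) (nat_lit 1) (nat_lit 5) (nat_lit 3) (nat_lit 4) (nat_lit 1) (nat_lit 4) (nat_lit 437) (nat_lit 331) (nat_lit 252))) (XT.nd (nat_lit 78) (nat_lit 0) (nat_lit 0) (XT.lf (nat_lit 0) (nat_lit 477788517983) (nat_lit 152) (nat_lit 639034942663) (nat_lit 0) (nat_lit 472502785788) (nat_lit 1) (nat_lit 5) (nat_lit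 3) (nat_lit 4) (nat_lit 1) (nat_lit 4) (nat_lit 438) (nat_lit 331) (nat_lit 251)) (XT.lf (nat_lit 0) (nat_lit 523420384582) (nat_lit 152) (nat_lit 674290907515) (nat_lit 0) (nat_lit 518133821022) (nat_lit 1) (nat_lit 5) (nat_lit 3) (nat_lit 4) (nat_lit 1) (nat_lit 4) (nat_lit 439) (nat_lit 331) (nat_lit 250)))) (XT.nd (nat_lit 156) (nat_lit 0) (nat_lit 0) (XT.nd (nat_lit 78) (nat_lit 0) (nat_lit 0) (XT.lf (nat_lit 0) (nat_lit 572700442533) (nat_lit 152) (nat_lit 712372126243) (nat_lit 0) (nat_lit 567413109189) (nat_lit 1) (nat_lit 5) (nat_lit 3) (nat_lit 4) (nat_lit 1) (nat_lit 4) (nat_lit 440) (nat_lit 331) (nat_lit 249)) (XT.lf (nat_lit 0) (nat_lit 625920721808) (nat_lit 152) (nat_lit 753504265330) (nat_lit 0) (nat_lit 620632675703) (nat_lit 1) (nat_lit 5) (nat_lit 3) (nat_lit 4) (nat_lit 1) (nat_lit 4) (nat_lit 441) (nat_lit 331) (nat_lit 248))) (XT.nd (nat_lit 78) (nat_lit 0) (nat_lit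 0) (XT.lf (nat_lit 0) (nat_lit 683396601841) (nat_lit 152) (nat_lit 797931070784) (nat_lit 0) (nat_lit 678107895770) (nat_lit 1) (nat_lit 5) (nat_lit 3) (nat_lit 4) (nat_lit 1) (nat_lit 4) (nat_lit 442) (nat_lit 331) (nat_lit 247)) (XT.nd (nat_lit 78) (nat_lit 0) (nat_lit 0) (XT.lf (nat_lit 0) (nat_lit 745468680439) (nat_lit 152) (nat_lit 845915812564) (nat_lit 0) (nat_lit 740179363290) (nat_lit 1) (nat_lit 5) (nat_lit 3) (nat_lit 4) (nat_lit 1) (nat_lit 4) (nat_lit 443) (nat_lit 331) (nat_lit 246)) (XT.lf (nat_lit 0) (nat_lit 812504792141) (nat_lit 152) (nat_lit 897742844694) (nat_lit 0) (nat_lit 807214909179) (nat_lit 1) (nat_lit 5) (nat_lit 3) (nat_lit 4) (nat_lit 1) (nat_lit 4) (nat_lit 444) (nat_lit 331) (nat_lit 245)))))) (XT.nd (nat_lit 390) (nat_lit 0) (nat_lit 0) (XT.nd (nat_lit 156) (nat_lit 0) (nat_lit 0) (XT.nd (nat_lit 78) (nat_lit 0) (nat_lit 0) (XT.lf (nat_lit 0) (nat_lit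 884902187981) (nat_lit 152) (nat_lit 953719290329) (nat_lit 0) (nat_lit 879611781117) (nat_lit 1) (nat_lit 5) (nat_lit 3) (nat_lit 4) (nat_lit 1) (nat_lit 4) (nat_lit 445) (nat_lit 331) (nat_lit 244)) (XT.lf (nat_lit 0) (nat_lit 963089889563) (nat_lit 152) (nat_lit 1014176861739) (nat_lit 0) (nat_lit 957798997605) (nat_lit 1) (nat_lit 5) (nat_lit 3) (nat_lit 4) (nat_lit 1) (nat_lit 4) (nat_lit 446) (nat_lit 331) (nat_lit 243))) (XT.nd (nat_lit 78) (nat_lit 0) (nat_lit 0) (XT.lf (nat_lit 0) (nat_lit 1047531231414) (nat_lit 152) (nat_lit 1079473826013) (nat_lit 0) (nat_lit 1042239890295) (nat_lit 1) (nat_lit 5) (nat_lit 3) (nat_lit 4) (nat_lit 1) (nat_lit 4) (nat_lit 447) (nat_lit 331) (nat_lit 242)) (XT.nd (nat_lit 78) (nat_lit 0) (nat_lit 0) (XT.lf (nat_lit 0) (nat_lit 1138726606673) (nat_lit 152) (nat_lit 1149997128126) (nat_lit 0) (nat_lit 1133434849664) (nat_lit 1) (nat_lit 5) (nat_lit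 3) (nat_lit 4) (nat_lit 1) (nat_lit 4) (nat_lit 448) (nat_lit 331) (nat_lit 241)) (XT.lf (nat_lit 0) (nat_lit 1237216432377) (nat_lit 152) (nat_lit 1226164683941) (nat_lit 0) (nat_lit 1231924290285) (nat_lit 1) (nat_lit 5) (nat_lit 3) (nat_lit 4) (nat_lit 1) (nat_lit 4) (nat_lit 449) (nat_lit 331) (nat_lit 240))))) (XT.nd (nat_lit 156) (nat_lit 0) (nat_lit 0) (XT.nd (nat_lit 78) (nat_lit 0) (nat_lit 0) (XT.lf (nat_lit 0) (nat_lit 1343584351938) (nat_lit 152) (nat_lit 1308427856752) (nat_lit 0) (nat_lit 1338291853288) (nat_lit 1) (nat_lit 5) (nat_lit 3) (nat_lit 4) (nat_lit 1) (nat_lit 4) (nat_lit 450) (nat_lit 331) (nat_lit 239)) (XT.lf (nat_lit 0) (nat_lit 1458460693769) (nat_lit 152) (nat_lit 1397274132028) (nat_lit 0) (nat_lit 1453167864971) (nat_lit 1) (nat_lit 5) (nat_lit 3) (nat_lit 4) (nat_lit 1) (nat_lit 4) (nat_lit 451) (nat_lit 331) (nat_lit 238))) (XT.nd (nat_lit 78) (nat_lit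 0) (nat_lit 0) (XT.lf (nat_lit 0) (nat_lit 1582526206561) (nat_lit 152) (nat_lit 1493230006214) (nat_lit 0) (nat_lit 1577233072072) (nat_lit 1) (nat_lit 5) (nat_lit 3) (nat_lit 4) (nat_lit 1) (nat_lit 4) (nat_lit 452) (nat_lit 331) (nat_lit 237)) (XT.nd (nat_lit 78) (nat_lit 0) (nat_lit 0) (XT.lf (nat_lit 0) (nat_lit 1716516093353) (nat_lit 152) (nat_lit 1596864106715) (nat_lit 0) (nat_lit 1711222675816) (nat_lit 1) (nat_lit 5) (nat_lit 3) (nat_lit 4) (nat_lit 1) (nat_lit 4) (nat_lit 453) (nat_lit 331) (nat_lit 236)) (XT.lf (nat_lit 0) (nat_lit 1861224368289) (nat_lit 152) (nat_lit 1708790561531) (nat_lit 0) (nat_lit 1855930688672) (nat_lit 1) (nat_lit 5) (nat_lit 3) (nat_lit 4) (nat_lit 1) (nat_lit 4) (nat_lit 454) (nat_lit 331) (nat_lit 235))))))) (XT.nd (nat_lit 45708) (nat_lit 0) (nat_lit 1596) (XT.nd (nat_lit 390) (nat_lit 0) (nat_lit 0) (XT.nd (nat_lit 156) (nat_lit 0) (nat_lit 0)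 (XT.nd (nat_lit 78) (nat_lit 0) (nat_lit 0) (XT.lf (nat_lit 0) (nat_lit 2017508561889) (nat_lit 152) (nat_lit 1829672638544) (nat_lit 0) (nat_lit 2012214639603) (nat_lit 1) (nat_lit 5) (nat_lit 3) (nat_lit 4) (nat_lit 1) (nat_lit 4) (nat_lit 455) (nat_lit 331) (nat_lit 234)) (XT.lf (nat_lit 0) (nat_lit 2186294802705) (nat_lit 152) (nat_lit 1960226675988) (nat_lit 0) (nat_lit 2181000655727) (nat_lit 1) (nat_lit 5) (nat_lit 3) (nat_lit 4) (nat_lit 1) (nat_lit 4) (nat_lit 456) (nat_lit 331) (nat_lit 233))) (XT.nd (nat_lit 78) (nat_lit 0) (nat_lit 0) (XT.lf (nat_lit 0) (nat_lit 2368583305498) (nat_lit 152) (nat_lit 2101226327418) (nat_lit 0) (nat_lit 2363288950472) (nat_lit 1) (nat_lit 5) (nat_lit 3) (nat_lit 4) (nat_lit 1) (nat_lit 4) (nat_lit 457) (nat_lit 331) (nat_lit 232)) (XT.nd (nat_lit 78) (nat_lit 0) (nat_lit 0) (XT.lf (nat_lit 0) (nat_lit 2565454298434) (nat_lit 152) (nat_lit 2253507146324)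 (nat_lit 0) (nat_lit 2560159750770) (nat_lit 1) (nat_lit 5) (nat_lit 3) (nat_lit 4) (nat_lit 1) (nat_lit 4) (nat_lit 458) (nat_lit 331) (nat_lit 231)) (XT.lf (nat_lit 0) (nat_lit 2778074424433) (nat_lit 152) (nat_lit 2417971537559) (nat_lit 0) (nat_lit 2772779698402) (nat_lit 1) (nat_lit 5) (nat_lit 3) (nat_lit 4) (nat_lit 1) (nat_lit 4) (nat_lit 459) (nat_lit 331) (nat_lit 230))))) (XT.nd (nat_lit 45084) (nat_lit 0) (nat_lit 2736) (XT.nd (nat_lit 45006) (nat_lit 0) (nat_lit 3344) (XT.lf (nat_lit 0) (nat_lit 3007703654613) (nat_lit 152) (nat_lit 2595594104923) (nat_lit 0) (nat_lit 3002408763425) (nat_lit 1) (nat_lit 5) (nat_lit 3) (nat_lit 4) (nat_lit 1) (nat_lit 4) (nat_lit 460) (nat_lit 331) (nat_lit 229)) (XT.lf (nat_lit 0) (nat_lit 1671141953) (nat_lit 228) (nat_lit 843142824) (nat_lit 0) (nat_lit 1671141953) (nat_lit 45) (nat_lit 5) (nat_lit 48) (nat_lit 4) (nat_lit 45) (nat_lit 4)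 (nat_lit 356) (nat_lit 332) (nat_lit 332))) (XT.nd (nat_lit 78) (nat_lit 380) (nat_lit 0) (XT.lf (nat_lit 0) (nat_lit 5252108828) (nat_lit 228) (nat_lit 2224481387) (nat_lit 228) (nat_lit 1157390557) (nat_lit 42) (nat_lit 4) (nat_lit 45) (nat_lit 5) (nat_lit 45) (nat_lit 4) (nat_lit 357) (nat_lit 332) (nat_lit 331)) (XT.nd (nat_lit 78) (nat_lit 152) (nat_lit 0) (XT.lf (nat_lit 0) (nat_lit 2776378796) (nat_lit 228) (nat_lit 5270382815) (nat_lit 0) (nat_lit 873473336) (nat_lit 39) (nat_lit 5) (nat_lit 42) (nat_lit 4) (nat_lit 39) (nat_lit 4) (nat_lit 358) (nat_lit 332) (nat_lit 330)) (XT.lf (nat_lit 0) (nat_lit 1845574846) (nat_lit 152) (nat_lit 5067766573) (nat_lit 152) (nat_lit 2317770008) (nat_lit 37) (nat_lit 4) (nat_lit 39) (nat_lit 5) (nat_lit 39) (nat_lit 4) (nat_lit 359) (nat_lit 332) (nat_lit 329)))))) (XT.nd (nat_lit 390) (nat_lit 456) (nat_lit 0) (XT.nd (nat_lit 156) (nat_lit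 456) (nat_lit 0) (XT.nd (nat_lit 78) (nat_lit 152) (nat_lit 0) (XT.lf (nat_lit 0) (nat_lit 1628673148) (nat_lit 228) (nat_lit 146700032) (nat_lit 76) (nat_lit 7795770067) (nat_lit 36) (nat_lit 5) (nat_lit 39) (nat_lit 5) (nat_lit 37) (nat_lit 4) (nat_lit 360) (nat_lit 332) (nat_lit 328)) (XT.lf (nat_lit 0) (nat_lit 5770918657) (nat_lit 228) (nat_lit 2336450654) (nat_lit 0) (nat_lit 1825933222) (nat_lit 34) (nat_lit 5) (nat_lit 37) (nat_lit 4) (nat_lit 34) (nat_lit 4) (nat_lit 361) (nat_lit 332) (nat_lit 327))) (XT.nd (nat_lit 78) (nat_lit 304) (nat_lit 0) (XT.lf (nat_lit 0) (nat_lit 5521571842) (nat_lit 152) (nat_lit 4686767546) (nat_lit 152) (nat_lit 119144861) (nat_lit 32) (nat_lit 4) (nat_lit 34) (nat_lit 5) (nat_lit 34) (nat_lit 4) (nat_lit 362) (nat_lit 332) (nat_lit 326)) (XT.nd (nat_lit 78) (nat_lit 152) (nat_lit 0) (XT.lf (nat_lit 0) (nat_lit 3088545139) (nat_lit 76) (nat_lit 869475917)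 (nat_lit 152) (nat_lit 6793302798) (nat_lit 30) (nat_lit 5) (nat_lit 31) (nat_lit 5) (nat_lit 32) (nat_lit 4) (nat_lit 363) (nat_lit 332) (nat_lit 325)) (XT.lf (nat_lit 0) (nat_lit 257732123) (nat_lit 152) (nat_lit 8104013856) (nat_lit 152) (nat_lit 2846652982) (nat_lit 28) (nat_lit 4) (nat_lit 30) (nat_lit 5) (nat_lit 30) (nat_lit 4) (nat_lit 364) (nat_lit 332) (nat_lit 324))))) (XT.nd (nat_lit 156) (nat_lit 304) (nat_lit 0) (XT.nd (nat_lit 78) (nat_lit 76) (nat_lit 0) (XT.lf (nat_lit 0) (nat_lit 1371885489) (nat_lit 228) (nat_lit 2861496021) (nat_lit 76) (nat_lit 7463880886) (nat_lit 27) (nat_lit 5) (nat_lit 30) (nat_lit 5) (nat_lit 28) (nat_lit 4) (nat_lit 365) (nat_lit 332) (nat_lit 323)) (XT.lf (nat_lit 0) (nat_lit 5718394095) (nat_lit 152) (nat_lit 6471136070) (nat_lit 0) (nat_lit 34343825) (nat_lit 26) (nat_lit 5) (nat_lit 28) (nat_lit 4) (nat_lit 26) (nat_lit 4) (nat_lit 366) (nat_lit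 332) (nat_lit 322))) (XT.nd (nat_lit 78) (nat_lit 152) (nat_lit 0) (XT.lf (nat_lit 0) (nat_lit 2086506070) (nat_lit 152) (nat_lit 8374827125) (nat_lit 152) (nat_lit 2327473999) (nat_lit 24) (nat_lit 4) (nat_lit 26) (nat_lit 5) (nat_lit 26) (nat_lit 4) (nat_lit 367) (nat_lit 332) (nat_lit 321)) (XT.nd (nat_lit 78) (nat_lit 76) (nat_lit 0) (XT.lf (nat_lit 0) (nat_lit 2066683026) (nat_lit 228) (nat_lit 2085043963) (nat_lit 76) (nat_lit 9243785119) (nat_lit 23) (nat_lit 5) (nat_lit 26) (nat_lit 5) (nat_lit 24) (nat_lit 4) (nat_lit 368) (nat_lit 332) (nat_lit 320)) (XT.lf (nat_lit 0) (nat_lit 6696310762) (nat_lit 152) (nat_lit 6851868232) (nat_lit 0) (nat_lit 497034559) (nat_lit 22) (nat_lit 5) (nat_lit 24) (nat_lit 4) (nat_lit 22) (nat_lit 4) (nat_lit 369) (nat_lit 332) (nat_lit 319))))))))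
noncomputable def xc71 : XT := (XT.nd (nat_lit 1482) (nat_lit 456) (nat_lit 0) (XT.nd (nat_lit 702) (nat_lit 456) (nat_lit 0) (XT.nd (nat_lit 312) (nat_lit 304) (nat_lit 0) (XT.nd (nat_lit 156) (nat_lit 76) (nat_lit 0) (XT.nd (nat_lit 78) (nat_lit 76) (nat_lit 0) (XT.lf (nat_lit 0) (nat_lit 2277683503) (nat_lit 76) (nat_lit 9465902903) (nat_lit 76) (nat_lit 2999588255) (nat_lit 21) (nat_lit 4) (nat_lit 22) (nat_lit 5) (nat_lit 22) (nat_lit 4) (nat_lit 370) (nat_lit 332) (nat_lit 318)) (XT.lf (nat_lit 0) (nat_lit 1632137271) (nat_lit 152) (nat_lit 3318726942) (nat_lit 76) (nat_lit 10541347284) (nat_lit 20) (nat_lit 5) (nat_lit 22) (nat_lit 5) (nat_lit 21) (nat_lit 4) (nat_lit 371) (nat_lit 332) (nat_lit 317))) (XT.nd (nat_lit 78) (nat_lit 0) (nat_lit 0) (XT.lf (nat_lit 0) (nat_lit 6470022041) (nat_lit 152) (nat_lit 9783386870) (nat_lit 0) (nat_lit 41767512) (nat_lit 19) (nat_lit 5) (nat_lit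 21) (nat_lit 4) (nat_lit 19) (nat_lit 4) (nat_lit 372) (nat_lit 332) (nat_lit 316)) (XT.lf (nat_lit 0) (nat_lit 11758376089) (nat_lit 152) (nat_lit 265135379) (nat_lit 0) (nat_lit 5133840331) (nat_lit 19) (nat_lit 5) (nat_lit 21) (nat_lit 4) (nat_lit 19) (nat_lit 4) (nat_lit 373) (nat_lit 332) (nat_lit 315)))) (XT.nd (nat_lit 156) (nat_lit 76) (nat_lit 0) (XT.nd (nat_lit 78) (nat_lit 152) (nat_lit 0) (XT.lf (nat_lit 0) (nat_lit 10252882120) (nat_lit 76) (nat_lit 7316968647) (nat_lit 76) (nat_lit 510691012) (nat_lit 18) (nat_lit 4) (nat_lit 19) (nat_lit 5) (nat_lit 19) (nat_lit 4) (nat_lit 374) (nat_lit 332) (nat_lit 314)) (XT.lf (nat_lit 0) (nat_lit 2273937997) (nat_lit 76) (nat_lit 2172453901) (nat_lit 152) (nat_lit 14628755890) (nat_lit 16) (nat_lit 5) (nat_lit 17) (nat_lit 5) (nat_lit 18) (nat_lit 4) (nat_lit 375) (nat_lit 332) (nat_lit 313))) (XT.nd (nat_lit 78) (nat_lit 76) (nat_lit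 0) (XT.lf (nat_lit 0) (nat_lit 9928862274) (nat_lit 152) (nat_lit 6880255023) (nat_lit 0) (nat_lit 3326666422) (nat_lit 16) (nat_lit 5) (nat_lit 18) (nat_lit 4) (nat_lit 16) (nat_lit 4) (nat_lit 376) (nat_lit 332) (nat_lit 312)) (XT.nd (nat_lit 78) (nat_lit 0) (nat_lit 0) (XT.lf (nat_lit 0) (nat_lit 3707209485) (nat_lit 76) (nat_lit 12154467865) (nat_lit 76) (nat_lit 5418686307) (nat_lit 15) (nat_lit 4) (nat_lit 16) (nat_lit 5) (nat_lit 16) (nat_lit 4) (nat_lit 377) (nat_lit 332) (nat_lit 311)) (XT.lf (nat_lit 0) (nat_lit 15283254249) (nat_lit 76) (nat_lit 7044051585) (nat_lit 76) (nat_lit 184579559) (nat_lit 15) (nat_lit 4) (nat_lit 16) (nat_lit 5) (nat_lit 16) (nat_lit 4) (nat_lit 378) (nat_lit 332) (nat_lit 310)))))) (XT.nd (nat_lit 390) (nat_lit 152) (nat_lit 0) (XT.nd (nat_lit 156) (nat_lit 152) (nat_lit 0) (XT.nd (nat_lit 78) (nat_lit 0) (nat_lit 0) (XT.lf (nat_lit 0) (nat_lit 3762419782)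 (nat_lit 76) (nat_lit 1399320611) (nat_lit 152) (nat_lit 18672331338) (nat_lit 13) (nat_lit 5) (nat_lit 14) (nat_lit 5) (nat_lit 15) (nat_lit 4) (nat_lit 379) (nat_lit 332) (nat_lit 309)) (XT.lf (nat_lit 0) (nat_lit 11118959126) (nat_lit 152) (nat_lit 9563899252) (nat_lit 0) (nat_lit 4563362016) (nat_lit 13) (nat_lit 5) (nat_lit 15) (nat_lit 4) (nat_lit 13) (nat_lit 4) (nat_lit 380) (nat_lit 332) (nat_lit 308))) (XT.nd (nat_lit 78) (nat_lit 76) (nat_lit 0) (XT.lf (nat_lit 0) (nat_lit 1607581877) (nat_lit 76) (nat_lit 15906686845) (nat_lit 76) (nat_lit 9260173549) (nat_lit 12) (nat_lit 4) (nat_lit 13) (nat_lit 5) (nat_lit 13) (nat_lit 4) (nat_lit 381) (nat_lit 332) (nat_lit 307)) (XT.nd (nat_lit 78) (nat_lit 76) (nat_lit 0) (XT.lf (nat_lit 0) (nat_lit 14001319387) (nat_lit 76) (nat_lit 10571110042) (nat_lit 76) (nat_lit 3840415091) (nat_lit 12) (nat_lit 4) (nat_lit 13) (nat_lit 5) (nat_lit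 13) (nat_lit 4) (nat_lit 382) (nat_lit 332) (nat_lit 306)) (XT.lf (nat_lit 0) (nat_lit 1807459615) (nat_lit 152) (nat_lit 3049124927) (nat_lit 76) (nat_lit 25330260898) (nat_lit 11) (nat_lit 5) (nat_lit 13) (nat_lit 5) (nat_lit 12) (nat_lit 4) (nat_lit 383) (nat_lit 332) (nat_lit 305))))) (XT.nd (nat_lit 156) (nat_lit 76) (nat_lit 0) (XT.nd (nat_lit 78) (nat_lit 0) (nat_lit 0) (XT.lf (nat_lit 0) (nat_lit 7866680748) (nat_lit 152) (nat_lit 22719204685) (nat_lit 0) (nat_lit 1495557482) (nat_lit 10) (nat_lit 5) (nat_lit 12) (nat_lit 4) (nat_lit 10) (nat_lit 4) (nat_lit 384) (nat_lit 332) (nat_lit 304)) (XT.lf (nat_lit 0) (nat_lit 14525865693) (nat_lit 152) (nat_lit 11499673248) (nat_lit 0) (nat_lit 8092866398) (nat_lit 10) (nat_lit 5) (nat_lit 12) (nat_lit 4) (nat_lit 10) (nat_lit 4) (nat_lit 385) (nat_lit 332) (nat_lit 303))) (XT.nd (nat_lit 78) (nat_lit 0) (nat_lit 0) (XT.lf (nat_lit 0)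 (nat_lit 464410797) (nat_lit 76) (nat_lit 21175235555) (nat_lit 76) (nat_lit 14684943640) (nat_lit 9) (nat_lit 4) (nat_lit 10) (nat_lit 5) (nat_lit 10) (nat_lit 4) (nat_lit 386) (nat_lit 332) (nat_lit 302)) (XT.nd (nat_lit 78) (nat_lit 0) (nat_lit 0) (XT.lf (nat_lit 0) (nat_lit 13867838370) (nat_lit 76) (nat_lit 15682288478) (nat_lit 76) (nat_lit 9138947842) (nat_lit 9) (nat_lit 4) (nat_lit 10) (nat_lit 5) (nat_lit 10) (nat_lit 4) (nat_lit 387) (nat_lit 332) (nat_lit 301)) (XT.lf (nat_lit 0) (nat_lit 28184484775) (nat_lit 76) (nat_lit 9828568360) (nat_lit 76) (nat_lit 3236108537) (nat_lit 9) (nat_lit 4) (nat_lit 10) (nat_lit 5) (nat_lit 10) (nat_lit 4) (nat_lit 388) (nat_lit 332) (nat_lit 300))))))) (XT.nd (nat_lit 780) (nat_lit 76) (nat_lit 0) (XT.nd (nat_lit 390) (nat_lit 152) (nat_lit 0) (XT.nd (nat_lit 156) (nat_lit 76) (nat_lit 0) (XT.nd (nat_lit 78) (nat_lit 76) (nat_lit 0) (XT.lf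 (nat_lit 0) (nat_lit 2905552801) (nat_lit 152) (nat_lit 594390725) (nat_lit 76) (nat_lit 40514193634) (nat_lit 8) (nat_lit 5) (nat_lit 10) (nat_lit 5) (nat_lit 9) (nat_lit 4) (nat_lit 389) (nat_lit 332) (nat_lit 299)) (XT.lf (nat_lit 0) (nat_lit 9702265186) (nat_lit 152) (nat_lit 33747215018) (nat_lit 0) (nat_lit 3517031540) (nat_lit 7) (nat_lit 5) (nat_lit 9) (nat_lit 4) (nat_lit 7) (nat_lit 4) (nat_lit 390) (nat_lit 332) (nat_lit 298))) (XT.nd (nat_lit 78) (nat_lit 76) (nat_lit 0) (XT.lf (nat_lit 0) (nat_lit 17079896758) (nat_lit 152) (nat_lit 22213654807) (nat_lit 0) (nat_lit 10858559044) (nat_lit 7) (nat_lit 5) (nat_lit 9) (nat_lit 4) (nat_lit 7) (nat_lit 4) (nat_lit 391) (nat_lit 332) (nat_lit 297)) (XT.nd (nat_lit 78) (nat_lit 76) (nat_lit 0) (XT.lf (nat_lit 0) (nat_lit 24982554371) (nat_lit 152) (nat_lit 9887439043) (nat_lit 0) (nat_lit 18727786963) (nat_lit 7) (nat_lit 5) (nat_lit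 9) (nat_lit 4) (nat_lit 7) (nat_lit 4) (nat_lit 392) (nat_lit 332) (nat_lit 296)) (XT.lf (nat_lit 0) (nat_lit 3478484394) (nat_lit 76) (nat_lit 30062241825) (nat_lit 76) (nat_lit 23776520997) (nat_lit 6) (nat_lit 4) (nat_lit 7) (nat_lit 5) (nat_lit 7) (nat_lit 4) (nat_lit 393) (nat_lit 332) (nat_lit 295))))) (XT.nd (nat_lit 156) (nat_lit 152) (nat_lit 0) (XT.nd (nat_lit 78) (nat_lit 0) (nat_lit 0) (XT.lf (nat_lit 0) (nat_lit 18358639698) (nat_lit 76) (nat_lit 24636544777) (nat_lit 76) (nat_lit 18322163375) (nat_lit 6) (nat_lit 4) (nat_lit 7) (nat_lit 5) (nat_lit 7) (nat_lit 4) (nat_lit 394) (nat_lit 332) (nat_lit 294)) (XT.lf (nat_lit 0) (nat_lit 34320550548) (nat_lit 76) (nat_lit 18831090095) (nat_lit 76) (nat_lit 12490171126) (nat_lit 6) (nat_lit 4) (nat_lit 7) (nat_lit 5) (nat_lit 7) (nat_lit 4) (nat_lit 395) (nat_lit 332) (nat_lit 293))) (XT.nd (nat_lit 78) (nat_lit 152) (nat_lit 0)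 (XT.lf (nat_lit 0) (nat_lit 51458806046) (nat_lit 76) (nat_lit 12611475086) (nat_lit 76) (nat_lit 6245984294) (nat_lit 6) (nat_lit 4) (nat_lit 7) (nat_lit 5) (nat_lit 7) (nat_lit 4) (nat_lit 396) (nat_lit 332) (nat_lit 292)) (XT.nd (nat_lit 78) (nat_lit 76) (nat_lit 0) (XT.lf (nat_lit 0) (nat_lit 425018961) (nat_lit 152) (nat_lit 5504203039) (nat_lit 76) (nat_lit 69438326490) (nat_lit 5) (nat_lit 5) (nat_lit 7) (nat_lit 5) (nat_lit 6) (nat_lit 4) (nat_lit 397) (nat_lit 332) (nat_lit 291)) (XT.lf (nat_lit 0) (nat_lit 7507198396) (nat_lit 152) (nat_lit 71712913476) (nat_lit 0) (nat_lit 1572653158) (nat_lit 4) (nat_lit 5) (nat_lit 6) (nat_lit 4) (nat_lit 4) (nat_lit 4) (nat_lit 398) (nat_lit 332) (nat_lit 290)))))) (XT.nd (nat_lit 390) (nat_lit 76) (nat_lit 0) (XT.nd (nat_lit 156) (nat_lit 0) (nat_lit 0) (XT.nd (nat_lit 78) (nat_lit 0) (nat_lit 0) (XT.lf (nat_lit 0) (nat_lit 15420246459)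 (nat_lit 152) (nat_lit 61742973143) (nat_lit 0) (nat_lit 9467640198) (nat_lit 4) (nat_lit 5) (nat_lit 6) (nat_lit 4) (nat_lit 4) (nat_lit 4) (nat_lit 399) (nat_lit 332) (nat_lit 289)) (XT.lf (nat_lit 0) (nat_lit 23925491041) (nat_lit 152) (nat_lit 51057621403) (nat_lit 0) (nat_lit 17956161611) (nat_lit 4) (nat_lit 5) (nat_lit 6) (nat_lit 4) (nat_lit 4) (nat_lit 4) (nat_lit 400) (nat_lit 332) (nat_lit 288))) (XT.nd (nat_lit 78) (nat_lit 0) (nat_lit 0) (XT.lf (nat_lit 0) (nat_lit 33073333593) (nat_lit 152) (nat_lit 39593537653) (nat_lit 0) (nat_lit 27088519746) (nat_lit 4) (nat_lit 5) (nat_lit 6) (nat_lit 4) (nat_lit 4) (nat_lit 4) (nat_lit 401) (nat_lit 332) (nat_lit 287)) (XT.nd (nat_lit 78) (nat_lit 0) (nat_lit 0) (XT.lf (nat_lit 0) (nat_lit 42917983551) (nat_lit 152) (nat_lit 27282786582) (nat_lit 0) (nat_lit 36918832282) (nat_lit 4) (nat_lit 5) (nat_lit 6) (nat_lit 4) (nat_lit 4) (nat_lit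 4) (nat_lit 402) (nat_lit 332) (nat_lit 286)) (XT.lf (nat_lit 0) (nat_lit 53517779581) (nat_lit 152) (nat_lit 14052415591) (nat_lit 0) (nat_lit 47505352921) (nat_lit 4) (nat_lit 5) (nat_lit 6) (nat_lit 4) (nat_lit 4) (nat_lit 4) (nat_lit 403) (nat_lit 332) (nat_lit 285))))) (XT.nd (nat_lit 156) (nat_lit 0) (nat_lit 0) (XT.nd (nat_lit 78) (nat_lit 0) (nat_lit 0) (XT.lf (nat_lit 0) (nat_lit 185244182) (nat_lit 76) (nat_lit 64754746235) (nat_lit 76) (nat_lit 58730027546) (nat_lit 3) (nat_lit 4) (nat_lit 4) (nat_lit 5) (nat_lit 4) (nat_lit 4) (nat_lit 404) (nat_lit 332) (nat_lit 284)) (XT.lf (nat_lit 0) (nat_lit 16302211808) (nat_lit 76) (nat_lit 61328768231) (nat_lit 76) (nat_lit 55292668034) (nat_lit 3) (nat_lit 4) (nat_lit 4) (nat_lit 5) (nat_lit 4) (nat_lit 4) (nat_lit 405) (nat_lit 332) (nat_lit 283))) (XT.nd (nat_lit 78) (nat_lit 0) (nat_lit 0) (XT.lf (nat_lit 0) (nat_lit 33654019942)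 (nat_lit 76) (nat_lit 57656177013) (nat_lit 76) (nat_lit 51609538383) (nat_lit 3) (nat_lit 4) (nat_lit 4) (nat_lit 5) (nat_lit 4) (nat_lit 4) (nat_lit 406) (nat_lit 332) (nat_lit 282)) (XT.nd (nat_lit 78) (nat_lit 0) (nat_lit 0) (XT.lf (nat_lit 0) (nat_lit 52343494111) (nat_lit 76) (nat_lit 53715209078) (nat_lit 76) (nat_lit 47658812639) (nat_lit 3) (nat_lit 4) (nat_lit 4) (nat_lit 5) (nat_lit 4) (nat_lit 4) (nat_lit 407) (nat_lit 332) (nat_lit 281)) (XT.lf (nat_lit 0) (nat_lit 72481386757) (nat_lit 76) (nat_lit 49482510542) (nat_lit 76) (nat_lit 43417079094) (nat_lit 3) (nat_lit 4) (nat_lit 4) (nat_lit 5) (nat_lit 4) (nat_lit 4) (nat_lit 408) (nat_lit 332) (nat_lit 280))))))))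
noncomputable def xc72 : XT := (XT.nd (nat_lit 1482) (nat_lit 0) (nat_lit 0) (XT.nd (nat_lit 702) (nat_lit 0) (nat_lit 0) (XT.nd (nat_lit 312) (nat_lit 152) (nat_lit 0) (XT.nd (nat_lit 156) (nat_lit 0) (nat_lit 0) (XT.nd (nat_lit 78) (nat_lit 0) (nat_lit 0) (XT.lf (nat_lit 0) (nat_lit 94187033539) (nat_lit 76) (nat_lit 44932998746) (nat_lit 76) (nat_lit 38859201550) (nat_lit 3) (nat_lit 4) (nat_lit 4) (nat_lit 5) (nat_lit 4) (nat_lit 4) (nat_lit 409) (nat_lit 332) (nat_lit 279)) (XT.lf (nat_lit 0) (nat_lit 117589060512) (nat_lit 76) (nat_lit 40039713622) (nat_lit 76) (nat_lit 33958170363) (nat_lit 3) (nat_lit 4) (nat_lit 4) (nat_lit 5) (nat_lit 4) (nat_lit 4) (nat_lit 410) (nat_lit 332) (nat_lit 278))) (XT.nd (nat_lit 78) (nat_lit 0) (nat_lit 0) (XT.lf (nat_lit 0) (nat_lit 142826146355) (nat_lit 76) (nat_lit 34773657922) (nat_lit 76) (nat_lit 28684942383) (nat_lit 3) (nat_lit 4) (nat_lit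 4) (nat_lit 5) (nat_lit 4) (nat_lit 4) (nat_lit 411) (nat_lit 332) (nat_lit 277)) (XT.lf (nat_lit 0) (nat_lit 170047844169) (nat_lit 76) (nat_lit 29103625393) (nat_lit 76) (nat_lit 23008268853) (nat_lit 3) (nat_lit 4) (nat_lit 4) (nat_lit 5) (nat_lit 4) (nat_lit 4) (nat_lit 412) (nat_lit 332) (nat_lit 276)))) (XT.nd (nat_lit 156) (nat_lit 152) (nat_lit 0) (XT.nd (nat_lit 78) (nat_lit 0) (nat_lit 0) (XT.lf (nat_lit 0) (nat_lit 199415467718) (nat_lit 76) (nat_lit 22996015841) (nat_lit 76) (nat_lit 16894510225) (nat_lit 3) (nat_lit 4) (nat_lit 4) (nat_lit 5) (nat_lit 4) (nat_lit 4) (nat_lit 413) (nat_lit 332) (nat_lit 275)) (XT.lf (nat_lit 0) (nat_lit 231103047364) (nat_lit 76) (nat_lit 16414636023) (nat_lit 76) (nat_lit 10307436820) (nat_lit 3) (nat_lit 4) (nat_lit 4) (nat_lit 5) (nat_lit 4) (nat_lit 4) (nat_lit 414) (nat_lit 332) (nat_lit 274))) (XT.nd (nat_lit 78) (nat_lit 152) (nat_lit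 0) (XT.lf (nat_lit 0) (nat_lit 265298361358) (nat_lit 76) (nat_lit 9320485171) (nat_lit 76) (nat_lit 3208014128) (nat_lit 3) (nat_lit 4) (nat_lit 4) (nat_lit 5) (nat_lit 4) (nat_lit 4) (nat_lit 415) (nat_lit 332) (nat_lit 273)) (XT.nd (nat_lit 78) (nat_lit 0) (nat_lit 0) (XT.lf (nat_lit 0) (nat_lit 2807841974) (nat_lit 76) (nat_lit 1483116848) (nat_lit 152) (nat_lit 295124829068) (nat_lit 1) (nat_lit 5) (nat_lit 2) (nat_lit 5) (nat_lit 3) (nat_lit 4) (nat_lit 416) (nat_lit 332) (nat_lit 272)) (XT.lf (nat_lit 0) (nat_lit 12723062113) (nat_lit 152) (nat_lit 302906917937) (nat_lit 0) (nat_lit 7054661992) (nat_lit 1) (nat_lit 5) (nat_lit 3) (nat_lit 4) (nat_lit 1) (nat_lit 4) (nat_lit 417) (nat_lit 332) (nat_lit 271)))))) (XT.nd (nat_lit 390) (nat_lit 0) (nat_lit 0) (XT.nd (nat_lit 156) (nat_lit 0) (nat_lit 0) (XT.nd (nat_lit 78) (nat_lit 0) (nat_lit 0) (XT.lf (nat_lit 0) (nat_lit 21856386521)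 (nat_lit 152) (nat_lit 309772375290) (nat_lit 0) (nat_lit 16184111440) (nat_lit 1) (nat_lit 5) (nat_lit 3) (nat_lit 4) (nat_lit 1) (nat_lit 4) (nat_lit 418) (nat_lit 332) (nat_lit 270)) (XT.lf (nat_lit 0) (nat_lit 31709386455) (nat_lit 152) (nat_lit 317209333172) (nat_lit 0) (nat_lit 26033523447) (nat_lit 1) (nat_lit 5) (nat_lit 3) (nat_lit 4) (nat_lit 1) (nat_lit 4) (nat_lit 419) (nat_lit 332) (nat_lit 269))) (XT.nd (nat_lit 78) (nat_lit 0) (nat_lit 0) (XT.lf (nat_lit 0) (nat_lit 42340450062) (nat_lit 152) (nat_lit 325261862444) (nat_lit 0) (nat_lit 36661264901) (nat_lit 1) (nat_lit 5) (nat_lit 3) (nat_lit 4) (nat_lit 1) (nat_lit 4) (nat_lit 420) (nat_lit 332) (nat_lit 268)) (XT.nd (nat_lit 78) (nat_lit 0) (nat_lit 0) (XT.lf (nat_lit 0) (nat_lit 53812576239) (nat_lit 152) (nat_lit 333977681798) (nat_lit 0) (nat_lit 48130315010) (nat_lit 1) (nat_lit 5) (nat_lit 3) (nat_lit 4) (nat_lit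 1) (nat_lit 4) (nat_lit 421) (nat_lit 332) (nat_lit 267)) (XT.lf (nat_lit 0) (nat_lit 66193747955) (nat_lit 152) (nat_lit 343408440534) (nat_lit 0) (nat_lit 60508638514) (nat_lit 1) (nat_lit 5) (nat_lit 3) (nat_lit 4) (nat_lit 1) (nat_lit 4) (nat_lit 422) (nat_lit 332) (nat_lit 266))))) (XT.nd (nat_lit 156) (nat_lit 0) (nat_lit 0) (XT.nd (nat_lit 78) (nat_lit 0) (nat_lit 0) (XT.lf (nat_lit 0) (nat_lit 79557335116) (nat_lit 152) (nat_lit 353610024629) (nat_lit 0) (nat_lit 73869588443) (nat_lit 1) (nat_lit 5) (nat_lit 3) (nat_lit 4) (nat_lit 1) (nat_lit 4) (nat_lit 423) (nat_lit 332) (nat_lit 265)) (XT.lf (nat_lit 0) (nat_lit 93982529350) (nat_lit 152) (nat_lit 364642887916) (nat_lit 0) (nat_lit 88292340795) (nat_lit 1) (nat_lit 5) (nat_lit 3) (nat_lit 4) (nat_lit 1) (nat_lit 4) (nat_lit 424) (nat_lit 332) (nat_lit 264))) (XT.nd (nat_lit 78) (nat_lit 0) (nat_lit 0) (XT.lf (nat_lit 0) (nat_lit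 109554813290) (nat_lit 152) (nat_lit 376572410325) (nat_lit 0) (nat_lit 103862363733) (nat_lit 1) (nat_lit 5) (nat_lit 3) (nat_lit 4) (nat_lit 1) (nat_lit 4) (nat_lit 425) (nat_lit 332) (nat_lit 263)) (XT.nd (nat_lit 78) (nat_lit 0) (nat_lit 0) (XT.lf (nat_lit 0) (nat_lit 126366467137) (nat_lit 152) (nat_lit 389469285321) (nat_lit 0) (nat_lit 120671924059) (nat_lit 1) (nat_lit 5) (nat_lit 3) (nat_lit 4) (nat_lit 1) (nat_lit 4) (nat_lit 426) (nat_lit 332) (nat_lit 262)) (XT.lf (nat_lit 0) (nat_lit 144517115506) (nat_lit 152) (nat_lit 403409938832) (nat_lit 0) (nat_lit 138820633984) (nat_lit 1) (nat_lit 5) (nat_lit 3) (nat_lit 4) (nat_lit 1) (nat_lit 4) (nat_lit 427) (nat_lit 332) (nat_lit 261))))))) (XT.nd (nat_lit 702) (nat_lit 0) (nat_lit 0) (XT.nd (nat_lit 312) (nat_lit 0) (nat_lit 0) (XT.nd (nat_lit 156) (nat_lit 0) (nat_lit 0) (XT.nd (nat_lit 78) (nat_lit 0) (nat_lit 0) (XT.lf (nat_lit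 0) (nat_lit 164114317795) (nat_lit 152) (nat_lit 418476982136) (nat_lit 0) (nat_lit 158416041416) (nat_lit 1) (nat_lit 5) (nat_lit 3) (nat_lit 4) (nat_lit 1) (nat_lit 4) (nat_lit 428) (nat_lit 332) (nat_lit 260)) (XT.lf (nat_lit 0) (nat_lit 185274205573) (nat_lit 152) (nat_lit 434759701417) (nat_lit 0) (nat_lit 179574267290) (nat_lit 1) (nat_lit 5) (nat_lit 3) (nat_lit 4) (nat_lit 1) (nat_lit 4) (nat_lit 429) (nat_lit 332) (nat_lit 259))) (XT.nd (nat_lit 78) (nat_lit 0) (nat_lit 0) (XT.lf (nat_lit 0) (nat_lit 208122170768) (nat_lit 152) (nat_lit 452354586863) (nat_lit 0) (nat_lit 202420693685) (nat_lit 1) (nat_lit 5) (nat_lit 3) (nat_lit 4) (nat_lit 1) (nat_lit 4) (nat_lit 430) (nat_lit 332) (nat_lit 258)) (XT.lf (nat_lit 0) (nat_lit 232793608728) (nat_lit 152) (nat_lit 471365904462) (nat_lit 0) (nat_lit 227090706830) (nat_lit 1) (nat_lit 5) (nat_lit 3) (nat_lit 4) (nat_lit 1) (nat_lit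 4) (nat_lit 431) (nat_lit 332) (nat_lit 257)))) (XT.nd (nat_lit 156) (nat_lit 0) (nat_lit 0) (XT.nd (nat_lit 78) (nat_lit 0) (nat_lit 0) (XT.lf (nat_lit 0) (nat_lit 259434720568) (nat_lit 152) (nat_lit 491906313873) (nat_lit 0) (nat_lit 253730499398) (nat_lit 1) (nat_lit 5) (nat_lit 3) (nat_lit 4) (nat_lit 1) (nat_lit 4) (nat_lit 432) (nat_lit 332) (nat_lit 256)) (XT.lf (nat_lit 0) (nat_lit 288203379544) (nat_lit 152) (nat_lit 514097536041) (nat_lit 0) (nat_lit 282497936824) (nat_lit 1) (nat_lit 5) (nat_lit 3) (nat_lit 4) (nat_lit 1) (nat_lit 4) (nat_lit 433) (nat_lit 332) (nat_lit 255))) (XT.nd (nat_lit 78) (nat_lit 0) (nat_lit 0) (XT.lf (nat_lit 0) (nat_lit 319270066596) (nat_lit 152) (nat_lit 538071074505) (nat_lit 0) (nat_lit 313563492812) (nat_lit 1) (nat_lit 5) (nat_lit 3) (nat_lit 4) (nat_lit 1) (nat_lit 4) (nat_lit 434) (nat_lit 332) (nat_lit 254)) (XT.nd (nat_lit 78) (nat_lit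 0) (nat_lit 0) (XT.lf (nat_lit 0) (nat_lit 352818880612) (nat_lit 152) (nat_lit 563968994679) (nat_lit 0) (nat_lit 347111259547) (nat_lit 1) (nat_lit 5) (nat_lit 3) (nat_lit 4) (nat_lit 1) (nat_lit 4) (nat_lit 435) (nat_lit 332) (nat_lit 253)) (XT.lf (nat_lit 0) (nat_lit 389048629378) (nat_lit 152) (nat_lit 591944765718) (nat_lit 0) (nat_lit 383340038608) (nat_lit 1) (nat_lit 5) (nat_lit 3) (nat_lit 4) (nat_lit 1) (nat_lit 4) (nat_lit 436) (nat_lit 332) (nat_lit 252)))))) (XT.nd (nat_lit 390) (nat_lit 0) (nat_lit 0) (XT.nd (nat_lit 156) (nat_lit 0) (nat_lit 0) (XT.nd (nat_lit 78) (nat_lit 0) (nat_lit 0) (XT.lf (nat_lit 0) (nat_lit 428174007701) (nat_lit 152) (nat_lit 622164169969) (nat_lit 0) (nat_lit 422464519056) (nat_lit 1) (nat_lit 5) (nat_lit 3) (nat_lit 4) (nat_lit 1) (nat_lit 4) (nat_lit 437) (nat_lit 332) (nat_lit 251)) (XT.lf (nat_lit 0) (nat_lit 470426869676) (nat_lit 152) (nat_lit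 654806285384) (nat_lit 0) (nat_lit 464716549666) (nat_lit 1) (nat_lit 5) (nat_lit 3) (nat_lit 4) (nat_lit 1) (nat_lit 4) (nat_lit 438) (nat_lit 332) (nat_lit 250))) (XT.nd (nat_lit 78) (nat_lit 0) (nat_lit 0) (XT.lf (nat_lit 0) (nat_lit 516057602633) (nat_lit 152) (nat_lit 690064546721) (nat_lit 0) (nat_lit 510346512839) (nat_lit 1) (nat_lit 5) (nat_lit 3) (nat_lit 4) (nat_lit 1) (nat_lit 4) (nat_lit 439) (nat_lit 332) (nat_lit 249)) (XT.nd (nat_lit 78) (nat_lit 0) (nat_lit 0) (XT.lf (nat_lit 0) (nat_lit 565336610915) (nat_lit 152) (nat_lit 728147891824) (nat_lit 0) (nat_lit 559624808359) (nat_lit 1) (nat_lit 5) (nat_lit 3) (nat_lit 4) (nat_lit 1) (nat_lit 4) (nat_lit 440) (nat_lit 332) (nat_lit 248)) (XT.lf (nat_lit 0) (nat_lit 618555918275) (nat_lit 152) (nat_lit 769281999777) (nat_lit 0) (nat_lit 612843455754) (nat_lit 1) (nat_lit 5) (nat_lit 3) (nat_lit 4) (nat_lit 1) (nat_lit 4) (nat_lit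 441) (nat_lit 332) (nat_lit 247))))) (XT.nd (nat_lit 156) (nat_lit 0) (nat_lit 0) (XT.nd (nat_lit 78) (nat_lit 0) (nat_lit 0) (XT.lf (nat_lit 0) (nat_lit 676030898385) (nat_lit 152) (nat_lit 813710628254) (nat_lit 0) (nat_lit 670317824786) (nat_lit 1) (nat_lit 5) (nat_lit 3) (nat_lit 4) (nat_lit 1) (nat_lit 4) (nat_lit 442) (nat_lit 332) (nat_lit 246)) (XT.lf (nat_lit 0) (nat_lit 738102143722) (nat_lit 152) (nat_lit 861697058019) (nat_lit 0) (nat_lit 732388504309) (nat_lit 1) (nat_lit 5) (nat_lit 3) (nat_lit 4) (nat_lit 1) (nat_lit 4) (nat_lit 443) (nat_lit 332) (nat_lit 245))) (XT.nd (nat_lit 78) (nat_lit 0) (nat_lit 0) (XT.lf (nat_lit 0) (nat_lit 805137483887) (nat_lit 152) (nat_lit 913525653098) (nat_lit 0) (nat_lit 799423320572) (nat_lit 1) (nat_lit 5) (nat_lit 3) (nat_lit 4) (nat_lit 1) (nat_lit 4) (nat_lit 444) (nat_lit 332) (nat_lit 244)) (XT.nd (nat_lit 78) (nat_lit 0) (nat_lit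 0) (XT.lf (nat_lit 0) (nat_lit 877534165339) (nat_lit 152) (nat_lit 969503545908) (nat_lit 0) (nat_lit 871819516931) (nat_lit 1) (nat_lit 5) (nat_lit 3) (nat_lit 4) (nat_lit 1) (nat_lit 4) (nat_lit 445) (nat_lit 332) (nat_lit 243)) (XT.lf (nat_lit 0) (nat_lit 955721205452) (nat_lit 152) (nat_lit 1029962457295) (nat_lit 0) (nat_lit 950006107882) (nat_lit 1) (nat_lit 5) (nat_lit 3) (nat_lit 4) (nat_lit 1) (nat_lit 4) (nat_lit 446) (nat_lit 332) (nat_lit 242))))))))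
noncomputable def xc73 : XT := (XT.nd (nat_lit 46254) (nat_lit 0) (nat_lit 1064) (XT.nd (nat_lit 702) (nat_lit 0) (nat_lit 0) (XT.nd (nat_lit 312) (nat_lit 0) (nat_lit 0) (XT.nd (nat_lit 156) (nat_lit 0) (nat_lit 0) (XT.nd (nat_lit 78) (nat_lit 0) (nat_lit 0) (XT.lf (nat_lit 0) (nat_lit 1040161934832) (nat_lit 152) (nat_lit 1095260662289) (nat_lit 0) (nat_lit 1034446421372) (nat_lit 1) (nat_lit 5) (nat_lit 3) (nat_lit 4) (nat_lit 1) (nat_lit 4) (nat_lit 447) (nat_lit 332) (nat_lit 241)) (XT.lf (nat_lit 0) (nat_lit 1131356742987) (nat_lit 152) (nat_lit 1165785113215) (nat_lit 0) (nat_lit 1125640844444) (nat_lit 1) (nat_lit 5) (nat_lit 3) (nat_lit 4) (nat_lit 1) (nat_lit 4) (nat_lit 448) (nat_lit 332) (nat_lit 240))) (XT.nd (nat_lit 78) (nat_lit 0) (nat_lit 0) (XT.lf (nat_lit 0) (nat_lit 1229846043595) (nat_lit 152) (nat_lit 1241953732747) (nat_lit 0) (nat_lit 1224129788494) (nat_lit 1)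 (nat_lit 5) (nat_lit 3) (nat_lit 4) (nat_lit 1) (nat_lit 4) (nat_lit 449) (nat_lit 332) (nat_lit 239)) (XT.lf (nat_lit 0) (nat_lit 1336213476956) (nat_lit 152) (nat_lit 1324217890481) (nat_lit 0) (nat_lit 1330496891708) (nat_lit 1) (nat_lit 5) (nat_lit 3) (nat_lit 4) (nat_lit 1) (nat_lit 4) (nat_lit 450) (nat_lit 332) (nat_lit 238)))) (XT.nd (nat_lit 156) (nat_lit 0) (nat_lit 0) (XT.nd (nat_lit 78) (nat_lit 0) (nat_lit 0) (XT.lf (nat_lit 0) (nat_lit 1451089368602) (nat_lit 152) (nat_lit 1413065077723) (nat_lit 0) (nat_lit 1445372477662) (nat_lit 1) (nat_lit 5) (nat_lit 3) (nat_lit 4) (nat_lit 1) (nat_lit 4) (nat_lit 451) (nat_lit 332) (nat_lit 237)) (XT.lf (nat_lit 0) (nat_lit 1575154464556) (nat_lit 152) (nat_lit 1509021796322) (nat_lit 0) (nat_lit 1569437290569) (nat_lit 1) (nat_lit 5) (nat_lit 3) (nat_lit 4) (nat_lit 1) (nat_lit 4) (nat_lit 452) (nat_lit 332) (nat_lit 236))) (XT.nd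 (nat_lit 78) (nat_lit 0) (nat_lit 0) (XT.lf (nat_lit 0) (nat_lit 1709143965387) (nat_lit 152) (nat_lit 1612656678686) (nat_lit 0) (nat_lit 1703426529319) (nat_lit 1) (nat_lit 5) (nat_lit 3) (nat_lit 4) (nat_lit 1) (nat_lit 4) (nat_lit 453) (nat_lit 332) (nat_lit 235)) (XT.nd (nat_lit 78) (nat_lit 0) (nat_lit 0) (XT.lf (nat_lit 0) (nat_lit 1853851882952) (nat_lit 152) (nat_lit 1724583857450) (nat_lit 0) (nat_lit 1848134204216) (nat_lit 1) (nat_lit 5) (nat_lit 3) (nat_lit 4) (nat_lit 1) (nat_lit 4) (nat_lit 454) (nat_lit 332) (nat_lit 234)) (XT.lf (nat_lit 0) (nat_lit 2010135745652) (nat_lit 152) (nat_lit 1845466604785) (nat_lit 0) (nat_lit 2004417842223) (nat_lit 1) (nat_lit 5) (nat_lit 3) (nat_lit 4) (nat_lit 1) (nat_lit 4) (nat_lit 455) (nat_lit 332) (nat_lit 233)))))) (XT.nd (nat_lit 45162) (nat_lit 0) (nat_lit 2888) (XT.nd (nat_lit 156) (nat_lit 0) (nat_lit 0) (XT.nd (nat_lit 78) (nat_lit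 0) (nat_lit 0) (XT.lf (nat_lit 0) (nat_lit 2178921680079) (nat_lit 152) (nat_lit 1976021262898) (nat_lit 0) (nat_lit 2173203568603) (nat_lit 1) (nat_lit 5) (nat_lit 3) (nat_lit 4) (nat_lit 1) (nat_lit 4) (nat_lit 456) (nat_lit 332) (nat_lit 232)) (XT.lf (nat_lit 0) (nat_lit 2361209899180) (nat_lit 152) (nat_lit 2117021489021) (nat_lit 0) (nat_lit 2355491595066) (nat_lit 1) (nat_lit 5) (nat_lit 3) (nat_lit 4) (nat_lit 1) (nat_lit 4) (nat_lit 457) (nat_lit 332) (nat_lit 231))) (XT.nd (nat_lit 78) (nat_lit 0) (nat_lit 0) (XT.lf (nat_lit 0) (nat_lit 2558080629437) (nat_lit 152) (nat_lit 2269302840050) (nat_lit 0) (nat_lit 2552362146955) (nat_lit 1) (nat_lit 5) (nat_lit 3) (nat_lit 4) (nat_lit 1) (nat_lit 4) (nat_lit 458) (nat_lit 332) (nat_lit 230)) (XT.nd (nat_lit 78) (nat_lit 0) (nat_lit 0) (XT.lf (nat_lit 0) (nat_lit 2770700512216) (nat_lit 152) (nat_lit 2433767723992) (nat_lit 0) (nat_lit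 2764981864578) (nat_lit 1) (nat_lit 5) (nat_lit 3) (nat_lit 4) (nat_lit 1) (nat_lit 4) (nat_lit 459) (nat_lit 332) (nat_lit 229)) (XT.lf (nat_lit 0) (nat_lit 3000329517190) (nat_lit 152) (nat_lit 2611390747566) (nat_lit 0) (nat_lit 2994610716631) (nat_lit 1) (nat_lit 5) (nat_lit 3) (nat_lit 4) (nat_lit 1) (nat_lit 4) (nat_lit 460) (nat_lit 332) (nat_lit 228))))) (XT.nd (nat_lit 156) (nat_lit 608) (nat_lit 0) (XT.nd (nat_lit 78) (nat_lit 76) (nat_lit 0) (XT.lf (nat_lit 0) (nat_lit 798813213) (nat_lit 228) (nat_lit 1577000082) (nat_lit 228) (nat_lit 1577000082) (nat_lit 48) (nat_lit 4) (nat_lit 51) (nat_lit 5) (nat_lit 51) (nat_lit 4) (nat_lit 354) (nat_lit 333) (nat_lit 333)) (XT.lf (nat_lit 0) (nat_lit 562338628) (nat_lit 304) (nat_lit 74990398) (nat_lit 76) (nat_lit 7498478719) (nat_lit 47) (nat_lit 5) (nat_lit 51) (nat_lit 5) (nat_lit 48) (nat_lit 4) (nat_lit 355) (nat_lit 333) (nat_lit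 332))) (XT.nd (nat_lit 78) (nat_lit 456) (nat_lit 0) (XT.lf (nat_lit 0) (nat_lit 4370866856) (nat_lit 228) (nat_lit 1858705030) (nat_lit 0) (nat_lit 2151317928) (nat_lit 45) (nat_lit 5) (nat_lit 48) (nat_lit 4) (nat_lit 45) (nat_lit 4) (nat_lit 356) (nat_lit 333) (nat_lit 331)) (XT.nd (nat_lit 78) (nat_lit 228) (nat_lit 0) (XT.lf (nat_lit 0) (nat_lit 4902555814) (nat_lit 228) (nat_lit 3479511381) (nat_lit 228) (nat_lit 271915388) (nat_lit 42) (nat_lit 4) (nat_lit 45) (nat_lit 5) (nat_lit 45) (nat_lit 4) (nat_lit 357) (nat_lit 333) (nat_lit 330)) (XT.lf (nat_lit 0) (nat_lit 3092138662) (nat_lit 152) (nat_lit 376415688) (nat_lit 228) (nat_lit 5481999410) (nat_lit 39) (nat_lit 5) (nat_lit 41) (nat_lit 5) (nat_lit 42) (nat_lit 4) (nat_lit 358) (nat_lit 333) (nat_lit 329))))))) (XT.nd (nat_lit 780) (nat_lit 608) (nat_lit 0) (XT.nd (nat_lit 390) (nat_lit 532) (nat_lit 0) (XT.nd (nat_lit 156)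 (nat_lit 456) (nat_lit 0) (XT.nd (nat_lit 78) (nat_lit 76) (nat_lit 0) (XT.lf (nat_lit 0) (nat_lit 1062277319) (nat_lit 152) (nat_lit 6405834600) (nat_lit 152) (nat_lit 1804403589) (nat_lit 37) (nat_lit 4) (nat_lit 39) (nat_lit 5) (nat_lit 39) (nat_lit 4) (nat_lit 359) (nat_lit 333) (nat_lit 328)) (XT.lf (nat_lit 0) (nat_lit 2008270138) (nat_lit 228) (nat_lit 1150473213) (nat_lit 76) (nat_lit 6461542976) (nat_lit 36) (nat_lit 5) (nat_lit 39) (nat_lit 5) (nat_lit 37) (nat_lit 4) (nat_lit 360) (nat_lit 333) (nat_lit 327))) (XT.nd (nat_lit 78) (nat_lit 304) (nat_lit 0) (XT.lf (nat_lit 0) (nat_lit 5985775855) (nat_lit 228) (nat_lit 3579816554) (nat_lit 0) (nat_lit 430106104) (nat_lit 34) (nat_lit 5) (nat_lit 37) (nat_lit 4) (nat_lit 34) (nat_lit 4) (nat_lit 361) (nat_lit 333) (nat_lit 326)) (XT.nd (nat_lit 78) (nat_lit 152) (nat_lit 0) (XT.lf (nat_lit 0) (nat_lit 4047533478) (nat_lit 152)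 (nat_lit 6242622011) (nat_lit 152) (nat_lit 110436287) (nat_lit 32) (nat_lit 4) (nat_lit 34) (nat_lit 5) (nat_lit 34) (nat_lit 4) (nat_lit 362) (nat_lit 333) (nat_lit 325)) (XT.lf (nat_lit 0) (nat_lit 1293278969) (nat_lit 76) (nat_lit 2533295924) (nat_lit 152) (nat_lit 7009075779) (nat_lit 30) (nat_lit 5) (nat_lit 31) (nat_lit 5) (nat_lit 32) (nat_lit 4) (nat_lit 363) (nat_lit 333) (nat_lit 324))))) (XT.nd (nat_lit 156) (nat_lit 304) (nat_lit 0) (XT.nd (nat_lit 78) (nat_lit 228) (nat_lit 0) (XT.lf (nat_lit 0) (nat_lit 8089521567) (nat_lit 152) (nat_lit 1754875325) (nat_lit 0) (nat_lit 1459645332) (nat_lit 30) (nat_lit 5) (nat_lit 32) (nat_lit 4) (nat_lit 30) (nat_lit 4) (nat_lit 364) (nat_lit 333) (nat_lit 323)) (XT.lf (nat_lit 0) (nat_lit 883105560) (nat_lit 228) (nat_lit 5216773119) (nat_lit 76) (nat_lit 5704926373) (nat_lit 27) (nat_lit 5) (nat_lit 30) (nat_lit 5) (nat_lit 28) (nat_lit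 4) (nat_lit 365) (nat_lit 333) (nat_lit 322))) (XT.nd (nat_lit 78) (nat_lit 228) (nat_lit 0) (XT.lf (nat_lit 0) (nat_lit 3117387953) (nat_lit 76) (nat_lit 1961163836) (nat_lit 152) (nat_lit 7264992860) (nat_lit 26) (nat_lit 5) (nat_lit 27) (nat_lit 5) (nat_lit 28) (nat_lit 4) (nat_lit 366) (nat_lit 333) (nat_lit 321)) (XT.nd (nat_lit 78) (nat_lit 228) (nat_lit 0) (XT.lf (nat_lit 0) (nat_lit 9638808143) (nat_lit 152) (nat_lit 876351779) (nat_lit 0) (nat_lit 2407972379) (nat_lit 26) (nat_lit 5) (nat_lit 28) (nat_lit 4) (nat_lit 26) (nat_lit 4) (nat_lit 367) (nat_lit 333) (nat_lit 320)) (XT.lf (nat_lit 0) (nat_lit 1050211042) (nat_lit 228) (nat_lit 5357870436) (nat_lit 76) (nat_lit 7132229852) (nat_lit 23) (nat_lit 5) (nat_lit 26) (nat_lit 5) (nat_lit 24) (nat_lit 4) (nat_lit 368) (nat_lit 333) (nat_lit 319)))))) (XT.nd (nat_lit 390) (nat_lit 304) (nat_lit 0) (XT.nd (nat_lit 156) (nat_lit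 228) (nat_lit 0) (XT.nd (nat_lit 78) (nat_lit 0) (nat_lit 0) (XT.lf (nat_lit 0) (nat_lit 3614288018) (nat_lit 76) (nat_lit 1888115319) (nat_lit 152) (nat_lit 8701835889) (nat_lit 22) (nat_lit 5) (nat_lit 23) (nat_lit 5) (nat_lit 24) (nat_lit 4) (nat_lit 369) (nat_lit 333) (nat_lit 318)) (XT.lf (nat_lit 0) (nat_lit 10372111049) (nat_lit 152) (nat_lit 1670129027) (nat_lit 0) (nat_lit 2874194967) (nat_lit 22) (nat_lit 5) (nat_lit 24) (nat_lit 4) (nat_lit 22) (nat_lit 4) (nat_lit 370) (nat_lit 333) (nat_lit 317))) (XT.nd (nat_lit 78) (nat_lit 76) (nat_lit 0) (XT.lf (nat_lit 0) (nat_lit 44364395) (nat_lit 152) (nat_lit 7634580565) (nat_lit 76) (nat_lit 7999148978) (nat_lit 20) (nat_lit 5) (nat_lit 22) (nat_lit 5) (nat_lit 21) (nat_lit 4) (nat_lit 371) (nat_lit 333) (nat_lit 316)) (XT.nd (nat_lit 78) (nat_lit 0) (nat_lit 0) (XT.lf (nat_lit 0) (nat_lit 1831698804) (nat_lit 76) (nat_lit 2865676694)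 (nat_lit 152) (nat_lit 11798496497) (nat_lit 19) (nat_lit 5) (nat_lit 20) (nat_lit 5) (nat_lit 21) (nat_lit 4) (nat_lit 372) (nat_lit 333) (nat_lit 315)) (XT.lf (nat_lit 0) (nat_lit 9846362956) (nat_lit 152) (nat_lit 5209014030) (nat_lit 0) (nat_lit 2313841232) (nat_lit 19) (nat_lit 5) (nat_lit 21) (nat_lit 4) (nat_lit 19) (nat_lit 4) (nat_lit 373) (nat_lit 333) (nat_lit 314))))) (XT.nd (nat_lit 156) (nat_lit 152) (nat_lit 0) (XT.nd (nat_lit 78) (nat_lit 76) (nat_lit 0) (XT.lf (nat_lit 0) (nat_lit 4919997733) (nat_lit 76) (nat_lit 10544355203) (nat_lit 76) (nat_lit 2843553961) (nat_lit 18) (nat_lit 4) (nat_lit 19) (nat_lit 5) (nat_lit 19) (nat_lit 4) (nat_lit 374) (nat_lit 333) (nat_lit 313)) (XT.lf (nat_lit 0) (nat_lit 2110617003) (nat_lit 152) (nat_lit 3466532241) (nat_lit 76) (nat_lit 13739438072) (nat_lit 17) (nat_lit 5) (nat_lit 19) (nat_lit 5) (nat_lit 18) (nat_lit 4) (nat_lit 375)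 (nat_lit 333) (nat_lit 312))) (XT.nd (nat_lit 78) (nat_lit 76) (nat_lit 0) (XT.lf (nat_lit 0) (nat_lit 7304002565) (nat_lit 76) (nat_lit 54117981) (nat_lit 152) (nat_lit 13037915865) (nat_lit 16) (nat_lit 5) (nat_lit 17) (nat_lit 5) (nat_lit 18) (nat_lit 4) (nat_lit 376) (nat_lit 333) (nat_lit 311)) (XT.nd (nat_lit 78) (nat_lit 76) (nat_lit 0) (XT.lf (nat_lit 0) (nat_lit 13140896377) (nat_lit 152) (nat_lit 2802761635) (nat_lit 0) (nat_lit 5608976120) (nat_lit 16) (nat_lit 5) (nat_lit 18) (nat_lit 4) (nat_lit 16) (nat_lit 4) (nat_lit 377) (nat_lit 333) (nat_lit 310)) (XT.lf (nat_lit 0) (nat_lit 8514537659) (nat_lit 76) (nat_lit 10963191929) (nat_lit 76) (nat_lit 3316743461) (nat_lit 15) (nat_lit 4) (nat_lit 16) (nat_lit 5) (nat_lit 16) (nat_lit 4) (nat_lit 378) (nat_lit 333) (nat_lit 309))))))))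
noncomputable def xc74 : XT := (XT.nd (nat_lit 1482) (nat_lit 380) (nat_lit 0) (XT.nd (nat_lit 702) (nat_lit 228) (nat_lit 0) (XT.nd (nat_lit 312) (nat_lit 228) (nat_lit 0) (XT.nd (nat_lit 156) (nat_lit 76) (nat_lit 0) (XT.nd (nat_lit 78) (nat_lit 76) (nat_lit 0) (XT.lf (nat_lit 0) (nat_lit 2040815875) (nat_lit 152) (nat_lit 3507596087) (nat_lit 76) (nat_lit 18585920872) (nat_lit 14) (nat_lit 5) (nat_lit 16) (nat_lit 5) (nat_lit 15) (nat_lit 4) (nat_lit 379) (nat_lit 333) (nat_lit 308)) (XT.lf (nat_lit 0) (nat_lit 7752577562) (nat_lit 152) (nat_lit 17330124249) (nat_lit 0) (nat_lit 483427015) (nat_lit 13) (nat_lit 5) (nat_lit 15) (nat_lit 4) (nat_lit 13) (nat_lit 4) (nat_lit 380) (nat_lit 333) (nat_lit 307))) (XT.nd (nat_lit 78) (nat_lit 76) (nat_lit 0) (XT.lf (nat_lit 0) (nat_lit 14058701713) (nat_lit 152) (nat_lit 6337424278) (nat_lit 0) (nat_lit 6705369512) (nat_lit 13) (nat_lit 5)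 (nat_lit 15) (nat_lit 4) (nat_lit 13) (nat_lit 4) (nat_lit 381) (nat_lit 333) (nat_lit 306)) (XT.lf (nat_lit 0) (nat_lit 5626722509) (nat_lit 76) (nat_lit 15280612425) (nat_lit 76) (nat_lit 7849334247) (nat_lit 12) (nat_lit 4) (nat_lit 13) (nat_lit 5) (nat_lit 13) (nat_lit 4) (nat_lit 382) (nat_lit 333) (nat_lit 305)))) (XT.nd (nat_lit 156) (nat_lit 76) (nat_lit 0) (XT.nd (nat_lit 78) (nat_lit 152) (nat_lit 0) (XT.lf (nat_lit 0) (nat_lit 18723771310) (nat_lit 76) (nat_lit 9658827209) (nat_lit 76) (nat_lit 2155376831) (nat_lit 12) (nat_lit 4) (nat_lit 13) (nat_lit 5) (nat_lit 13) (nat_lit 4) (nat_lit 383) (nat_lit 333) (nat_lit 304)) (XT.lf (nat_lit 0) (nat_lit 142137723) (nat_lit 76) (nat_lit 3565753725) (nat_lit 152) (nat_lit 28753137536) (nat_lit 10) (nat_lit 5) (nat_lit 11) (nat_lit 5) (nat_lit 12) (nat_lit 4) (nat_lit 384) (nat_lit 333) (nat_lit 303))) (XT.nd (nat_lit 78) (nat_lit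 76) (nat_lit 0) (XT.lf (nat_lit 0) (nat_lit 10238383309) (nat_lit 152) (nat_lit 21098334907) (nat_lit 0) (nat_lit 3171575421) (nat_lit 10) (nat_lit 5) (nat_lit 12) (nat_lit 4) (nat_lit 10) (nat_lit 4) (nat_lit 385) (nat_lit 333) (nat_lit 302)) (XT.nd (nat_lit 78) (nat_lit 76) (nat_lit 0) (XT.lf (nat_lit 0) (nat_lit 17301238745) (nat_lit 152) (nat_lit 9235937706) (nat_lit 0) (nat_lit 10181382136) (nat_lit 10) (nat_lit 5) (nat_lit 12) (nat_lit 4) (nat_lit 10) (nat_lit 4) (nat_lit 386) (nat_lit 333) (nat_lit 301)) (XT.lf (nat_lit 0) (nat_lit 3604672824) (nat_lit 76) (nat_lit 21334574898) (nat_lit 76) (nat_lit 14165599101) (nat_lit 9) (nat_lit 4) (nat_lit 10) (nat_lit 5) (nat_lit 10) (nat_lit 4) (nat_lit 387) (nat_lit 333) (nat_lit 300)))))) (XT.nd (nat_lit 390) (nat_lit 76) (nat_lit 0) (XT.nd (nat_lit 156) (nat_lit 152) (nat_lit 0) (XT.nd (nat_lit 78) (nat_lit 0) (nat_lit 0) (XT.lf (nat_lit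 0) (nat_lit 17850514664) (nat_lit 76) (nat_lit 15515872018) (nat_lit 76) (nat_lit 8301415493) (nat_lit 9) (nat_lit 4) (nat_lit 10) (nat_lit 5) (nat_lit 10) (nat_lit 4) (nat_lit 388) (nat_lit 333) (nat_lit 299)) (XT.lf (nat_lit 0) (nat_lit 33099659506) (nat_lit 76) (nat_lit 9299113516) (nat_lit 76) (nat_lit 2042545205) (nat_lit 9) (nat_lit 4) (nat_lit 10) (nat_lit 5) (nat_lit 10) (nat_lit 4) (nat_lit 389) (nat_lit 333) (nat_lit 298))) (XT.nd (nat_lit 78) (nat_lit 0) (nat_lit 0) (XT.lf (nat_lit 0) (nat_lit 1988318834) (nat_lit 76) (nat_lit 2475084789) (nat_lit 152) (nat_lit 42965658517) (nat_lit 7) (nat_lit 5) (nat_lit 8) (nat_lit 5) (nat_lit 9) (nat_lit 4) (nat_lit 390) (nat_lit 333) (nat_lit 297)) (XT.nd (nat_lit 78) (nat_lit 0) (nat_lit 0) (XT.lf (nat_lit 0) (nat_lit 11750170653) (nat_lit 152) (nat_lit 33910171316) (nat_lit 0) (nat_lit 4961592159) (nat_lit 7) (nat_lit 5) (nat_lit 9) (nat_lit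 4) (nat_lit 7) (nat_lit 4) (nat_lit 391) (nat_lit 333) (nat_lit 296)) (XT.lf (nat_lit 0) (nat_lit 19623810955) (nat_lit 152) (nat_lit 21641838949) (nat_lit 0) (nat_lit 12804279041) (nat_lit 7) (nat_lit 5) (nat_lit 9) (nat_lit 4) (nat_lit 7) (nat_lit 4) (nat_lit 392) (nat_lit 333) (nat_lit 295))))) (XT.nd (nat_lit 156) (nat_lit 0) (nat_lit 0) (XT.nd (nat_lit 78) (nat_lit 76) (nat_lit 0) (XT.lf (nat_lit 0) (nat_lit 28071457290) (nat_lit 152) (nat_lit 8503519126) (nat_lit 0) (nat_lit 21223264803) (nat_lit 7) (nat_lit 5) (nat_lit 9) (nat_lit 4) (nat_lit 7) (nat_lit 4) (nat_lit 393) (nat_lit 333) (nat_lit 294)) (XT.lf (nat_lit 0) (nat_lit 5876617045) (nat_lit 76) (nat_lit 31407885522) (nat_lit 76) (nat_lit 24533155466) (nat_lit 6) (nat_lit 4) (nat_lit 7) (nat_lit 5) (nat_lit 7) (nat_lit 4) (nat_lit 394) (nat_lit 333) (nat_lit 293))) (XT.nd (nat_lit 78) (nat_lit 0) (nat_lit 0) (XT.lf (nat_lit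 0) (nat_lit 21790158559) (nat_lit 76) (nat_lit 25626602017) (nat_lit 76) (nat_lit 18727300139) (nat_lit 6) (nat_lit 4) (nat_lit 7) (nat_lit 5) (nat_lit 7) (nat_lit 4) (nat_lit 395) (nat_lit 333) (nat_lit 292)) (XT.nd (nat_lit 78) (nat_lit 0) (nat_lit 0) (XT.lf (nat_lit 0) (nat_lit 38883627634) (nat_lit 76) (nat_lit 19429367727) (nat_lit 76) (nat_lit 12507314161) (nat_lit 6) (nat_lit 4) (nat_lit 7) (nat_lit 5) (nat_lit 7) (nat_lit 4) (nat_lit 396) (nat_lit 333) (nat_lit 291)) (XT.lf (nat_lit 0) (nat_lit 57258318901) (nat_lit 76) (nat_lit 12779458301) (nat_lit 76) (nat_lit 5836338358) (nat_lit 6) (nat_lit 4) (nat_lit 7) (nat_lit 5) (nat_lit 7) (nat_lit 4) (nat_lit 397) (nat_lit 333) (nat_lit 290))))))) (XT.nd (nat_lit 780) (nat_lit 152) (nat_lit 0) (XT.nd (nat_lit 390) (nat_lit 76) (nat_lit 0) (XT.nd (nat_lit 156) (nat_lit 0) (nat_lit 0) (XT.nd (nat_lit 78) (nat_lit 76) (nat_lit 0) (XT.lf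 (nat_lit 0) (nat_lit 1258869160) (nat_lit 152) (nat_lit 4344177993) (nat_lit 76) (nat_lit 75729830547) (nat_lit 5) (nat_lit 5) (nat_lit 7) (nat_lit 5) (nat_lit 6) (nat_lit 4) (nat_lit 398) (nat_lit 333) (nat_lit 289)) (XT.lf (nat_lit 0) (nat_lit 8904689875) (nat_lit 152) (nat_lit 75846571842) (nat_lit 0) (nat_lit 2441090920) (nat_lit 4) (nat_lit 5) (nat_lit 6) (nat_lit 4) (nat_lit 4) (nat_lit 4) (nat_lit 399) (nat_lit 333) (nat_lit 288))) (XT.nd (nat_lit 78) (nat_lit 0) (nat_lit 0) (XT.lf (nat_lit 0) (nat_lit 17391750997) (nat_lit 152) (nat_lit 65197804780) (nat_lit 0) (nat_lit 10912667626) (nat_lit 4) (nat_lit 5) (nat_lit 6) (nat_lit 4) (nat_lit 4) (nat_lit 4) (nat_lit 400) (nat_lit 333) (nat_lit 287)) (XT.nd (nat_lit 78) (nat_lit 0) (nat_lit 0) (XT.lf (nat_lit 0) (nat_lit 26522757011) (nat_lit 152) (nat_lit 53767595731) (nat_lit 0) (nat_lit 20029336218) (nat_lit 4) (nat_lit 5) (nat_lit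 6) (nat_lit 4) (nat_lit 4) (nat_lit 4) (nat_lit 401) (nat_lit 333) (nat_lit 286)) (XT.lf (nat_lit 0) (nat_lit 36351817582) (nat_lit 152) (nat_lit 41488210125) (nat_lit 0) (nat_lit 29845121398) (nat_lit 4) (nat_lit 5) (nat_lit 6) (nat_lit 4) (nat_lit 4) (nat_lit 4) (nat_lit 402) (nat_lit 333) (nat_lit 285))))) (XT.nd (nat_lit 156) (nat_lit 76) (nat_lit 0) (XT.nd (nat_lit 78) (nat_lit 0) (nat_lit 0) (XT.lf (nat_lit 0) (nat_lit 46937178996) (nat_lit 152) (nat_lit 28286881230) (nat_lit 0) (nat_lit 40418190783) (nat_lit 4) (nat_lit 5) (nat_lit 6) (nat_lit 4) (nat_lit 4) (nat_lit 4) (nat_lit 403) (nat_lit 333) (nat_lit 284)) (XT.lf (nat_lit 0) (nat_lit 58341569319) (nat_lit 152) (nat_lit 14085378951) (nat_lit 0) (nat_lit 51811199598) (nat_lit 4) (nat_lit 5) (nat_lit 6) (nat_lit 4) (nat_lit 4) (nat_lit 4) (nat_lit 404) (nat_lit 333) (nat_lit 283))) (XT.nd (nat_lit 78) (nat_lit 0) (nat_lit 0)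 (XT.lf (nat_lit 0) (nat_lit 1263667531) (nat_lit 76) (nat_lit 69399293828) (nat_lit 76) (nat_lit 62858385673) (nat_lit 3) (nat_lit 4) (nat_lit 4) (nat_lit 5) (nat_lit 4) (nat_lit 4) (nat_lit 405) (nat_lit 333) (nat_lit 282)) (XT.nd (nat_lit 78) (nat_lit 0) (nat_lit 0) (XT.lf (nat_lit 0) (nat_lit 18591207099) (nat_lit 76) (nat_lit 65738928851) (nat_lit 76) (nat_lit 59188262887) (nat_lit 3) (nat_lit 4) (nat_lit 4) (nat_lit 5) (nat_lit 4) (nat_lit 4) (nat_lit 406) (nat_lit 333) (nat_lit 281)) (XT.lf (nat_lit 0) (nat_lit 37258210376) (nat_lit 76) (nat_lit 61809281509) (nat_lit 76) (nat_lit 55249580537) (nat_lit 3) (nat_lit 4) (nat_lit 4) (nat_lit 5) (nat_lit 4) (nat_lit 4) (nat_lit 407) (nat_lit 333) (nat_lit 280)))))) (XT.nd (nat_lit 390) (nat_lit 152) (nat_lit 0) (XT.nd (nat_lit 156) (nat_lit 0) (nat_lit 0) (XT.nd (nat_lit 78) (nat_lit 0) (nat_lit 0) (XT.lf (nat_lit 0) (nat_lit 57375296640)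 (nat_lit 76) (nat_lit 57587065003) (nat_lit 76) (nat_lit 51018998283) (nat_lit 3) (nat_lit 4) (nat_lit 4) (nat_lit 5) (nat_lit 4) (nat_lit 4) (nat_lit 408) (nat_lit 333) (nat_lit 279)) (XT.lf (nat_lit 0) (nat_lit 79061678253) (nat_lit 76) (nat_lit 53047258791) (nat_lit 76) (nat_lit 46471446008) (nat_lit 3) (nat_lit 4) (nat_lit 4) (nat_lit 5) (nat_lit 4) (nat_lit 4) (nat_lit 409) (nat_lit 333) (nat_lit 278))) (XT.nd (nat_lit 78) (nat_lit 0) (nat_lit 0) (XT.lf (nat_lit 0) (nat_lit 102445867106) (nat_lit 76) (nat_lit 48162960318) (nat_lit 76) (nat_lit 41579975254) (nat_lit 3) (nat_lit 4) (nat_lit 4) (nat_lit 5) (nat_lit 4) (nat_lit 4) (nat_lit 410) (nat_lit 333) (nat_lit 277)) (XT.nd (nat_lit 78) (nat_lit 0) (nat_lit 0) (XT.lf (nat_lit 0) (nat_lit 127666436172) (nat_lit 76) (nat_lit 42905225593) (nat_lit 76) (nat_lit 36315599528) (nat_lit 3) (nat_lit 4) (nat_lit 4) (nat_lit 5) (nat_lit 4)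 (nat_lit 4) (nat_lit 411) (nat_lit 333) (nat_lit 276)) (XT.lf (nat_lit 0) (nat_lit 154872840673) (nat_lit 76) (nat_lit 37242897669) (nat_lit 76) (nat_lit 30647122530) (nat_lit 3) (nat_lit 4) (nat_lit 4) (nat_lit 5) (nat_lit 4) (nat_lit 4) (nat_lit 412) (nat_lit 333) (nat_lit 275))))) (XT.nd (nat_lit 156) (nat_lit 152) (nat_lit 0) (XT.nd (nat_lit 78) (nat_lit 0) (nat_lit 0) (XT.lf (nat_lit 0) (nat_lit 184226303748) (nat_lit 76) (nat_lit 31142422010) (nat_lit 76) (nat_lit 24540953283) (nat_lit 3) (nat_lit 4) (nat_lit 4) (nat_lit 5) (nat_lit 4) (nat_lit 4) (nat_lit 413) (nat_lit 333) (nat_lit 274)) (XT.lf (nat_lit 0) (nat_lit 215900771845) (nat_lit 76) (nat_lit 24567647650) (nat_lit 76) (nat_lit 17960907083) (nat_lit 3) (nat_lit 4) (nat_lit 4) (nat_lit 5) (nat_lit 4) (nat_lit 4) (nat_lit 414) (nat_lit 333) (nat_lit 273))) (XT.nd (nat_lit 78) (nat_lit 152) (nat_lit 0) (XT.lf (nat_lit 0) (nat_lit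 250083945514) (nat_lit 76) (nat_lit 17479612963) (nat_lit 76) (nat_lit 10867991061) (nat_lit 3) (nat_lit 4) (nat_lit 4) (nat_lit 5) (nat_lit 4) (nat_lit 4) (nat_lit 415) (nat_lit 333) (nat_lit 272)) (XT.nd (nat_lit 78) (nat_lit 152) (nat_lit 0) (XT.lf (nat_lit 0) (nat_lit 286978391712) (nat_lit 76) (nat_lit 9836314779) (nat_lit 76) (nat_lit 3220173125) (nat_lit 3) (nat_lit 4) (nat_lit 4) (nat_lit 5) (nat_lit 4) (nat_lit 4) (nat_lit 416) (nat_lit 333) (nat_lit 271)) (XT.lf (nat_lit 0) (nat_lit 3489022351) (nat_lit 76) (nat_lit 1371241573) (nat_lit 152) (nat_lit 318490686109) (nat_lit 1) (nat_lit 5) (nat_lit 2) (nat_lit 5) (nat_lit 3) (nat_lit 4) (nat_lit 417) (nat_lit 333) (nat_lit 270))))))))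
noncomputable def xc75 : XT := (XT.nd (nat_lit 1482) (nat_lit 0) (nat_lit 0) (XT.nd (nat_lit 702) (nat_lit 0) (nat_lit 0) (XT.nd (nat_lit 312) (nat_lit 0) (nat_lit 0) (XT.nd (nat_lit 156) (nat_lit 0) (nat_lit 0) (XT.nd (nat_lit 78) (nat_lit 0) (nat_lit 0) (XT.lf (nat_lit 0) (nat_lit 13955326080) (nat_lit 152) (nat_lit 326705110460) (nat_lit 0) (nat_lit 7821806106) (nat_lit 1) (nat_lit 5) (nat_lit 3) (nat_lit 4) (nat_lit 1) (nat_lit 4) (nat_lit 418) (nat_lit 333) (nat_lit 269)) (XT.lf (nat_lit 0) (nat_lit 23803433552) (nat_lit 152) (nat_lit 334151979284) (nat_lit 0) (nat_lit 17666591424) (nat_lit 1) (nat_lit 5) (nat_lit 3) (nat_lit 4) (nat_lit 1) (nat_lit 4) (nat_lit 419) (nat_lit 333) (nat_lit 268))) (XT.nd (nat_lit 78) (nat_lit 0) (nat_lit 0) (XT.lf (nat_lit 0) (nat_lit 34429967102) (nat_lit 152) (nat_lit 342213685354) (nat_lit 0) (nat_lit 28290048906) (nat_lit 1) (nat_lit 5) (nat_lit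 3) (nat_lit 4) (nat_lit 1) (nat_lit 4) (nat_lit 420) (nat_lit 333) (nat_lit 267)) (XT.lf (nat_lit 0) (nat_lit 45897898781) (nat_lit 152) (nat_lit 350938001744) (nat_lit 0) (nat_lit 39755132374) (nat_lit 1) (nat_lit 5) (nat_lit 3) (nat_lit 4) (nat_lit 1) (nat_lit 4) (nat_lit 421) (nat_lit 333) (nat_lit 266)))) (XT.nd (nat_lit 156) (nat_lit 0) (nat_lit 0) (XT.nd (nat_lit 78) (nat_lit 0) (nat_lit 0) (XT.lf (nat_lit 0) (nat_lit 58275186703) (nat_lit 152) (nat_lit 360376628105) (nat_lit 0) (nat_lit 52129783063) (nat_lit 1) (nat_lit 5) (nat_lit 3) (nat_lit 4) (nat_lit 1) (nat_lit 4) (nat_lit 422) (nat_lit 333) (nat_lit 265)) (XT.lf (nat_lit 0) (nat_lit 71635177758) (nat_lit 152) (nat_lit 370585497039) (nat_lit 0) (nat_lit 65487332236) (nat_lit 1) (nat_lit 5) (nat_lit 3) (nat_lit 4) (nat_lit 1) (nat_lit 4) (nat_lit 423) (nat_lit 333) (nat_lit 264))) (XT.nd (nat_lit 78) (nat_lit 0) (nat_lit 0)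 (XT.lf (nat_lit 0) (nat_lit 86057042265) (nat_lit 152) (nat_lit 381625105546) (nat_lit 0) (nat_lit 79906935741) (nat_lit 1) (nat_lit 5) (nat_lit 3) (nat_lit 4) (nat_lit 1) (nat_lit 4) (nat_lit 424) (nat_lit 333) (nat_lit 263)) (XT.nd (nat_lit 78) (nat_lit 0) (nat_lit 0) (XT.lf (nat_lit 0) (nat_lit 101626243124) (nat_lit 152) (nat_lit 393560873529) (nat_lit 0) (nat_lit 95474043080) (nat_lit 1) (nat_lit 5) (nat_lit 3) (nat_lit 4) (nat_lit 1) (nat_lit 4) (nat_lit 425) (nat_lit 333) (nat_lit 262)) (XT.lf (nat_lit 0) (nat_lit 118435042267) (nat_lit 152) (nat_lit 406463531466) (nat_lit 0) (nat_lit 112280903777) (nat_lit 1) (nat_lit 5) (nat_lit 3) (nat_lit 4) (nat_lit 1) (nat_lit 4) (nat_lit 426) (nat_lit 333) (nat_lit 261)))))) (XT.nd (nat_lit 390) (nat_lit 0) (nat_lit 0) (XT.nd (nat_lit 156) (nat_lit 0) (nat_lit 0) (XT.nd (nat_lit 78) (nat_lit 0) (nat_lit 0) (XT.lf (nat_lit 0) (nat_lit 136583047391)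 (nat_lit 152) (nat_lit 420409539550) (nat_lit 0) (nat_lit 130427114045) (nat_lit 1) (nat_lit 5) (nat_lit 3) (nat_lit 4) (nat_lit 1) (nat_lit 4) (nat_lit 427) (nat_lit 333) (nat_lit 260)) (XT.lf (nat_lit 0) (nat_lit 156177802231) (nat_lit 152) (nat_lit 435481540793) (nat_lit 0) (nat_lit 150020206981) (nat_lit 1) (nat_lit 5) (nat_lit 3) (nat_lit 4) (nat_lit 1) (nat_lit 4) (nat_lit 428) (nat_lit 333) (nat_lit 259))) (XT.nd (nat_lit 78) (nat_lit 0) (nat_lit 0) (XT.lf (nat_lit 0) (nat_lit 177335423852) (nat_lit 152) (nat_lit 451768850758) (nat_lit 0) (nat_lit 171176289802) (nat_lit 1) (nat_lit 5) (nat_lit 3) (nat_lit 4) (nat_lit 1) (nat_lit 4) (nat_lit 429) (nat_lit 333) (nat_lit 258)) (XT.nd (nat_lit 78) (nat_lit 0) (nat_lit 0) (XT.lf (nat_lit 0) (nat_lit 200181290753) (nat_lit 152) (nat_lit 469367986837) (nat_lit 0) (nat_lit 194020731889) (nat_lit 1) (nat_lit 5) (nat_lit 3) (nat_lit 4) (nat_lit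 1) (nat_lit 4) (nat_lit 430) (nat_lit 333) (nat_lit 257)) (XT.lf (nat_lit 0) (nat_lit 224850785850) (nat_lit 152) (nat_lit 488383240207) (nat_lit 0) (nat_lit 218688907713) (nat_lit 1) (nat_lit 5) (nat_lit 3) (nat_lit 4) (nat_lit 1) (nat_lit 4) (nat_lit 431) (nat_lit 333) (nat_lit 256))))) (XT.nd (nat_lit 156) (nat_lit 0) (nat_lit 0) (XT.nd (nat_lit 78) (nat_lit 0) (nat_lit 0) (XT.lf (nat_lit 0) (nat_lit 251490098742) (nat_lit 152) (nat_lit 508927293851) (nat_lit 0) (nat_lit 245326999055) (nat_lit 1) (nat_lit 5) (nat_lit 3) (nat_lit 4) (nat_lit 1) (nat_lit 4) (nat_lit 432) (nat_lit 333) (nat_lit 255)) (XT.lf (nat_lit 0) (nat_lit 280257092024) (nat_lit 152) (nat_lit 531121890308) (nat_lit 0) (nat_lit 274092861274) (nat_lit 1) (nat_lit 5) (nat_lit 3) (nat_lit 4) (nat_lit 1) (nat_lit 4) (nat_lit 433) (nat_lit 333) (nat_lit 254))) (XT.nd (nat_lit 78) (nat_lit 0) (nat_lit 0) (XT.lf (nat_lit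 0) (nat_lit 311322236769) (nat_lit 152) (nat_lit 555098553115) (nat_lit 0) (nat_lit 305156958737) (nat_lit 1) (nat_lit 5) (nat_lit 3) (nat_lit 4) (nat_lit 1) (nat_lit 4) (nat_lit 434) (nat_lit 333) (nat_lit 253)) (XT.nd (nat_lit 78) (nat_lit 0) (nat_lit 0) (XT.lf (nat_lit 0) (nat_lit 344869622721) (nat_lit 152) (nat_lit 580999366198) (nat_lit 0) (nat_lit 338703374985) (nat_lit 1) (nat_lit 5) (nat_lit 3) (nat_lit 4) (nat_lit 1) (nat_lit 4) (nat_lit 435) (nat_lit 333) (nat_lit 252)) (XT.lf (nat_lit 0) (nat_lit 381098049207) (nat_lit 152) (nat_lit 608977815857) (nat_lit 0) (nat_lit 374930903595) (nat_lit 1) (nat_lit 5) (nat_lit 3) (nat_lit 4) (nat_lit 1) (nat_lit 4) (nat_lit 436) (nat_lit 333) (nat_lit 251))))))) (XT.nd (nat_lit 780) (nat_lit 0) (nat_lit 0) (XT.nd (nat_lit 390) (nat_lit 0) (nat_lit 0) (XT.nd (nat_lit 156) (nat_lit 0) (nat_lit 0) (XT.nd (nat_lit 78) (nat_lit 0) (nat_lit 0)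 (XT.lf (nat_lit 0) (nat_lit 420222203197) (nat_lit 152) (nat_lit 639199700312) (nat_lit 0) (nat_lit 414054226219) (nat_lit 1) (nat_lit 5) (nat_lit 3) (nat_lit 4) (nat_lit 1) (nat_lit 4) (nat_lit 437) (nat_lit 333) (nat_lit 250)) (XT.lf (nat_lit 0) (nat_lit 462473931529) (nat_lit 152) (nat_lit 671844112212) (nat_lit 0) (nat_lit 456305184769) (nat_lit 1) (nat_lit 5) (nat_lit 3) (nat_lit 4) (nat_lit 1) (nat_lit 4) (nat_lit 438) (nat_lit 333) (nat_lit 249))) (XT.nd (nat_lit 78) (nat_lit 0) (nat_lit 0) (XT.lf (nat_lit 0) (nat_lit 508103614817) (nat_lit 152) (nat_lit 707104499923) (nat_lit 0) (nat_lit 501934155294) (nat_lit 1) (nat_lit 5) (nat_lit 3) (nat_lit 4) (nat_lit 1) (nat_lit 4) (nat_lit 439) (nat_lit 333) (nat_lit 248)) (XT.nd (nat_lit 78) (nat_lit 0) (nat_lit 0) (XT.lf (nat_lit 0) (nat_lit 557381651183) (nat_lit 152) (nat_lit 745189813892) (nat_lit 0) (nat_lit 551211531695) (nat_lit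 1) (nat_lit 5) (nat_lit 3) (nat_lit 4) (nat_lit 1) (nat_lit 4) (nat_lit 440) (nat_lit 333) (nat_lit 247)) (XT.lf (nat_lit 0) (nat_lit 610600058621) (nat_lit 152) (nat_lit 786325744868) (nat_lit 0) (nat_lit 604429328055) (nat_lit 1) (nat_lit 5) (nat_lit 3) (nat_lit 4) (nat_lit 1) (nat_lit 4) (nat_lit 441) (nat_lit 333) (nat_lit 246))))) (XT.nd (nat_lit 156) (nat_lit 0) (nat_lit 0) (XT.nd (nat_lit 78) (nat_lit 0) (nat_lit 0) (XT.lf (nat_lit 0) (nat_lit 668074205471) (nat_lit 152) (nat_lit 830756061331) (nat_lit 0) (nat_lit 661902909091) (nat_lit 1) (nat_lit 5) (nat_lit 3) (nat_lit 4) (nat_lit 1) (nat_lit 4) (nat_lit 442) (nat_lit 333) (nat_lit 245)) (XT.lf (nat_lit 0) (nat_lit 730144679269) (nat_lit 152) (nat_lit 878744054044) (nat_lit 0) (nat_lit 723972858988) (nat_lit 1) (nat_lit 5) (nat_lit 3) (nat_lit 4) (nat_lit 1) (nat_lit 4) (nat_lit 443) (nat_lit 333) (nat_lit 244))) (XT.nd (nat_lit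 78) (nat_lit 0) (nat_lit 0) (XT.lf (nat_lit 0) (nat_lit 797179305047) (nat_lit 152) (nat_lit 930574096299) (nat_lit 0) (nat_lit 791006999672) (nat_lit 1) (nat_lit 5) (nat_lit 3) (nat_lit 4) (nat_lit 1) (nat_lit 4) (nat_lit 444) (nat_lit 333) (nat_lit 243)) (XT.nd (nat_lit 78) (nat_lit 0) (nat_lit 0) (XT.lf (nat_lit 0) (nat_lit 869575325030) (nat_lit 152) (nat_lit 986553329086) (nat_lit 0) (nat_lit 863402570494) (nat_lit 1) (nat_lit 5) (nat_lit 3) (nat_lit 4) (nat_lit 1) (nat_lit 4) (nat_lit 445) (nat_lit 333) (nat_lit 242)) (XT.lf (nat_lit 0) (nat_lit 947761752670) (nat_lit 152) (nat_lit 1047013481192) (nat_lit 0) (nat_lit 941588582244) (nat_lit 1) (nat_lit 5) (nat_lit 3) (nat_lit 4) (nat_lit 1) (nat_lit 4) (nat_lit 446) (nat_lit 333) (nat_lit 241)))))) (XT.nd (nat_lit 390) (nat_lit 0) (nat_lit 0) (XT.nd (nat_lit 156) (nat_lit 0) (nat_lit 0) (XT.nd (nat_lit 78) (nat_lit 0) (nat_lit 0)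 (XT.lf (nat_lit 0) (nat_lit 1032201914947) (nat_lit 152) (nat_lit 1112312835000) (nat_lit 0) (nat_lit 1026028359438) (nat_lit 1) (nat_lit 5) (nat_lit 3) (nat_lit 4) (nat_lit 1) (nat_lit 4) (nat_lit 447) (nat_lit 333) (nat_lit 240)) (XT.lf (nat_lit 0) (nat_lit 1123396198006) (nat_lit 152) (nat_lit 1182838349643) (nat_lit 0) (nat_lit 1117222285938) (nat_lit 1) (nat_lit 5) (nat_lit 3) (nat_lit 4) (nat_lit 1) (nat_lit 4) (nat_lit 448) (nat_lit 333) (nat_lit 239))) (XT.nd (nat_lit 78) (nat_lit 0) (nat_lit 0) (XT.lf (nat_lit 0) (nat_lit 1221885012415) (nat_lit 152) (nat_lit 1259007954098) (nat_lit 0) (nat_lit 1215710770200) (nat_lit 1) (nat_lit 5) (nat_lit 3) (nat_lit 4) (nat_lit 1) (nat_lit 4) (nat_lit 449) (nat_lit 333) (nat_lit 238)) (XT.nd (nat_lit 78) (nat_lit 0) (nat_lit 0) (XT.lf (nat_lit 0) (nat_lit 1328251995591) (nat_lit 152) (nat_lit 1341273023798) (nat_lit 0) (nat_lit 1322077447685)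 (nat_lit 1) (nat_lit 5) (nat_lit 3) (nat_lit 4) (nat_lit 1) (nat_lit 4) (nat_lit 450) (nat_lit 333) (nat_lit 237)) (XT.lf (nat_lit 0) (nat_lit 1443127470398) (nat_lit 152) (nat_lit 1430121055452) (nat_lit 0) (nat_lit 1436952639445) (nat_lit 1) (nat_lit 5) (nat_lit 3) (nat_lit 4) (nat_lit 1) (nat_lit 4) (nat_lit 451) (nat_lit 333) (nat_lit 236))))) (XT.nd (nat_lit 156) (nat_lit 0) (nat_lit 0) (XT.nd (nat_lit 78) (nat_lit 0) (nat_lit 0) (XT.lf (nat_lit 0) (nat_lit 1567192180391) (nat_lit 152) (nat_lit 1526078555915) (nat_lit 0) (nat_lit 1561017087356) (nat_lit 1) (nat_lit 5) (nat_lit 3) (nat_lit 4) (nat_lit 1) (nat_lit 4) (nat_lit 452) (nat_lit 333) (nat_lit 235)) (XT.lf (nat_lit 0) (nat_lit 1701181323851) (nat_lit 152) (nat_lit 1629714162226) (nat_lit 0) (nat_lit 1695005988148) (nat_lit 1) (nat_lit 5) (nat_lit 3) (nat_lit 4) (nat_lit 1) (nat_lit 4) (nat_lit 453) (nat_lit 333) (nat_lit 234)))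 (XT.nd (nat_lit 78) (nat_lit 0) (nat_lit 0) (XT.lf (nat_lit 0) (nat_lit 1845888910517) (nat_lit 152) (nat_lit 1741642011313) (nat_lit 0) (nat_lit 1839713350122) (nat_lit 1) (nat_lit 5) (nat_lit 3) (nat_lit 4) (nat_lit 1) (nat_lit 4) (nat_lit 454) (nat_lit 333) (nat_lit 233)) (XT.nd (nat_lit 78) (nat_lit 0) (nat_lit 0) (XT.lf (nat_lit 0) (nat_lit 2002172466828) (nat_lit 152) (nat_lit 1862525379316) (nat_lit 0) (nat_lit 1995996698385) (nat_lit 1) (nat_lit 5) (nat_lit 3) (nat_lit 4) (nat_lit 1) (nat_lit 4) (nat_lit 455) (nat_lit 333) (nat_lit 232)) (XT.lf (nat_lit 0) (nat_lit 2170958117563) (nat_lit 152) (nat_lit 1993080612122) (nat_lit 0) (nat_lit 2164782156482) (nat_lit 1) (nat_lit 5) (nat_lit 3) (nat_lit 4) (nat_lit 1) (nat_lit 4) (nat_lit 456) (nat_lit 333) (nat_lit 231))))))))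
noncomputable def xc76 : XT := (XT.nd (nat_lit 46176) (nat_lit 0) (nat_lit 684) (XT.nd (nat_lit 45396) (nat_lit 0) (nat_lit 1900) (XT.nd (nat_lit 45006) (nat_lit 0) (nat_lit 3040) (XT.nd (nat_lit 156) (nat_lit 0) (nat_lit 0) (XT.nd (nat_lit 78) (nat_lit 0) (nat_lit 0) (XT.lf (nat_lit 0) (nat_lit 2353246073985) (nat_lit 152) (nat_lit 2134081370368) (nat_lit 0) (nat_lit 2347069934536) (nat_lit 1) (nat_lit 5) (nat_lit 3) (nat_lit 4) (nat_lit 1) (nat_lit 4) (nat_lit 457) (nat_lit 333) (nat_lit 230)) (XT.lf (nat_lit 0) (nat_lit 2550116561021) (nat_lit 152) (nat_lit 2286363214104) (nat_lit 0) (nat_lit 2543940256417) (nat_lit 1) (nat_lit 5) (nat_lit 3) (nat_lit 4) (nat_lit 1) (nat_lit 4) (nat_lit 458) (nat_lit 333) (nat_lit 229))) (XT.nd (nat_lit 44772) (nat_lit 0) (nat_lit 4104) (XT.lf (nat_lit 0) (nat_lit 2762736218595) (nat_lit 152) (nat_lit 2450828554256) (nat_lit 0) (nat_lit 2756559761068)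 (nat_lit 1) (nat_lit 5) (nat_lit 3) (nat_lit 4) (nat_lit 1) (nat_lit 4) (nat_lit 459) (nat_lit 333) (nat_lit 228)) (XT.lf (nat_lit 0) (nat_lit 2460464103) (nat_lit 380) (nat_lit 647261155) (nat_lit 380) (nat_lit 647261155) (nat_lit 55) (nat_lit 4) (nat_lit 60) (nat_lit 5) (nat_lit 60) (nat_lit 4) (nat_lit 352) (nat_lit 334) (nat_lit 334)))) (XT.nd (nat_lit 156) (nat_lit 532) (nat_lit 0) (XT.nd (nat_lit 78) (nat_lit 228) (nat_lit 0) (XT.lf (nat_lit 0) (nat_lit 2285558878) (nat_lit 304) (nat_lit 4475045795) (nat_lit 0) (nat_lit 941331754) (nat_lit 51) (nat_lit 5) (nat_lit 55) (nat_lit 4) (nat_lit 51) (nat_lit 4) (nat_lit 353) (nat_lit 334) (nat_lit 333)) (XT.lf (nat_lit 0) (nat_lit 1436847790) (nat_lit 228) (nat_lit 4533908014) (nat_lit 228) (nat_lit 1945026145) (nat_lit 48) (nat_lit 4) (nat_lit 51) (nat_lit 5) (nat_lit 51) (nat_lit 4) (nat_lit 354) (nat_lit 334) (nat_lit 332))) (XT.nd (nat_lit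 78) (nat_lit 456) (nat_lit 0) (XT.lf (nat_lit 0) (nat_lit 1591865242) (nat_lit 304) (nat_lit 430260262) (nat_lit 76) (nat_lit 6131155279) (nat_lit 47) (nat_lit 5) (nat_lit 51) (nat_lit 5) (nat_lit 48) (nat_lit 4) (nat_lit 355) (nat_lit 334) (nat_lit 331)) (XT.nd (nat_lit 78) (nat_lit 304) (nat_lit 0) (XT.lf (nat_lit 0) (nat_lit 5243162081) (nat_lit 228) (nat_lit 2376984920) (nat_lit 0) (nat_lit 790911343) (nat_lit 45) (nat_lit 5) (nat_lit 48) (nat_lit 4) (nat_lit 45) (nat_lit 4) (nat_lit 356) (nat_lit 334) (nat_lit 330)) (XT.lf (nat_lit 0) (nat_lit 415321294) (nat_lit 304) (nat_lit 4503240839) (nat_lit 76) (nat_lit 3774701444) (nat_lit 41) (nat_lit 5) (nat_lit 45) (nat_lit 5) (nat_lit 42) (nat_lit 4) (nat_lit 357) (nat_lit 334) (nat_lit 329)))))) (XT.nd (nat_lit 390) (nat_lit 456) (nat_lit 0) (XT.nd (nat_lit 156) (nat_lit 532) (nat_lit 0) (XT.nd (nat_lit 78) (nat_lit 0) (nat_lit 0) (XT.lf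 (nat_lit 0) (nat_lit 2136292427) (nat_lit 152) (nat_lit 1878367507) (nat_lit 228) (nat_lit 4984946821) (nat_lit 39) (nat_lit 5) (nat_lit 41) (nat_lit 5) (nat_lit 42) (nat_lit 4) (nat_lit 358) (nat_lit 334) (nat_lit 328)) (XT.lf (nat_lit 0) (nat_lit 7851145950) (nat_lit 228) (nat_lit 112541509) (nat_lit 0) (nat_lit 1371012753) (nat_lit 39) (nat_lit 5) (nat_lit 42) (nat_lit 4) (nat_lit 39) (nat_lit 4) (nat_lit 359) (nat_lit 334) (nat_lit 327))) (XT.nd (nat_lit 78) (nat_lit 304) (nat_lit 0) (XT.lf (nat_lit 0) (nat_lit 2210063938) (nat_lit 228) (nat_lit 2555648436) (nat_lit 76) (nat_lit 4924455488) (nat_lit 36) (nat_lit 5) (nat_lit 39) (nat_lit 5) (nat_lit 37) (nat_lit 4) (nat_lit 360) (nat_lit 334) (nat_lit 326)) (XT.nd (nat_lit 78) (nat_lit 152) (nat_lit 0) (XT.lf (nat_lit 0) (nat_lit 4798005702) (nat_lit 152) (nat_lit 1246813711) (nat_lit 228) (nat_lit 4032248913) (nat_lit 34) (nat_lit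 5) (nat_lit 36) (nat_lit 5) (nat_lit 37) (nat_lit 4) (nat_lit 361) (nat_lit 334) (nat_lit 325)) (XT.lf (nat_lit 0) (nat_lit 2137410970) (nat_lit 152) (nat_lit 8045502167) (nat_lit 152) (nat_lit 312414526) (nat_lit 32) (nat_lit 4) (nat_lit 34) (nat_lit 5) (nat_lit 34) (nat_lit 4) (nat_lit 362) (nat_lit 334) (nat_lit 324))))) (XT.nd (nat_lit 156) (nat_lit 304) (nat_lit 0) (XT.nd (nat_lit 78) (nat_lit 76) (nat_lit 0) (XT.lf (nat_lit 0) (nat_lit 3514205456) (nat_lit 228) (nat_lit 917809815) (nat_lit 76) (nat_lit 6508453677) (nat_lit 31) (nat_lit 5) (nat_lit 34) (nat_lit 5) (nat_lit 32) (nat_lit 4) (nat_lit 363) (nat_lit 334) (nat_lit 323)) (XT.lf (nat_lit 0) (nat_lit 7186970398) (nat_lit 76) (nat_lit 443791394) (nat_lit 152) (nat_lit 3789860107) (nat_lit 30) (nat_lit 5) (nat_lit 31) (nat_lit 5) (nat_lit 32) (nat_lit 4) (nat_lit 364) (nat_lit 334) (nat_lit 322))) (XT.nd (nat_lit 78) (nat_lit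 76) (nat_lit 0) (XT.lf (nat_lit 0) (nat_lit 174699831) (nat_lit 228) (nat_lit 8070671184) (nat_lit 76) (nat_lit 3690111446) (nat_lit 27) (nat_lit 5) (nat_lit 30) (nat_lit 5) (nat_lit 28) (nat_lit 4) (nat_lit 365) (nat_lit 334) (nat_lit 321)) (XT.nd (nat_lit 78) (nat_lit 76) (nat_lit 0) (XT.lf (nat_lit 0) (nat_lit 4214811602) (nat_lit 228) (nat_lit 30541555) (nat_lit 76) (nat_lit 8241335484) (nat_lit 27) (nat_lit 5) (nat_lit 30) (nat_lit 5) (nat_lit 28) (nat_lit 4) (nat_lit 366) (nat_lit 334) (nat_lit 320)) (XT.lf (nat_lit 0) (nat_lit 8640324871) (nat_lit 152) (nat_lit 4253610674) (nat_lit 0) (nat_lit 183157073) (nat_lit 26) (nat_lit 5) (nat_lit 28) (nat_lit 4) (nat_lit 26) (nat_lit 4) (nat_lit 367) (nat_lit 334) (nat_lit 319))))))) (XT.nd (nat_lit 702) (nat_lit 456) (nat_lit 0) (XT.nd (nat_lit 312) (nat_lit 380) (nat_lit 0) (XT.nd (nat_lit 156) (nat_lit 152) (nat_lit 0) (XT.nd (nat_lit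 78) (nat_lit 76) (nat_lit 0) (XT.lf (nat_lit 0) (nat_lit 4520116888) (nat_lit 152) (nat_lit 8967419881) (nat_lit 152) (nat_lit 221850562) (nat_lit 24) (nat_lit 4) (nat_lit 26) (nat_lit 5) (nat_lit 26) (nat_lit 4) (nat_lit 368) (nat_lit 334) (nat_lit 318)) (XT.lf (nat_lit 0) (nat_lit 4081877885) (nat_lit 228) (nat_lit 522301762) (nat_lit 76) (nat_lit 9782356633) (nat_lit 23) (nat_lit 5) (nat_lit 26) (nat_lit 5) (nat_lit 24) (nat_lit 4) (nat_lit 369) (nat_lit 334) (nat_lit 317))) (XT.nd (nat_lit 78) (nat_lit 76) (nat_lit 0) (XT.lf (nat_lit 0) (nat_lit 8801049413) (nat_lit 152) (nat_lit 6082652883) (nat_lit 0) (nat_lit 227099800) (nat_lit 22) (nat_lit 5) (nat_lit 24) (nat_lit 4) (nat_lit 22) (nat_lit 4) (nat_lit 370) (nat_lit 334) (nat_lit 316)) (XT.lf (nat_lit 0) (nat_lit 3272416146) (nat_lit 76) (nat_lit 10700291183) (nat_lit 76) (nat_lit 1914357843) (nat_lit 21) (nat_lit 4) (nat_lit 22)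 (nat_lit 5) (nat_lit 22) (nat_lit 4) (nat_lit 371) (nat_lit 334) (nat_lit 315)))) (XT.nd (nat_lit 156) (nat_lit 228) (nat_lit 0) (XT.nd (nat_lit 78) (nat_lit 76) (nat_lit 0) (XT.lf (nat_lit 0) (nat_lit 2724408774) (nat_lit 152) (nat_lit 3315444316) (nat_lit 76) (nat_lit 10677495558) (nat_lit 20) (nat_lit 5) (nat_lit 22) (nat_lit 5) (nat_lit 21) (nat_lit 4) (nat_lit 372) (nat_lit 334) (nat_lit 314)) (XT.lf (nat_lit 0) (nat_lit 6783329740) (nat_lit 76) (nat_lit 883634772) (nat_lit 152) (nat_lit 9940264820) (nat_lit 19) (nat_lit 5) (nat_lit 20) (nat_lit 5) (nat_lit 21) (nat_lit 4) (nat_lit 373) (nat_lit 334) (nat_lit 313))) (XT.nd (nat_lit 78) (nat_lit 228) (nat_lit 0) (XT.lf (nat_lit 0) (nat_lit 13084980045) (nat_lit 152) (nat_lit 1032933550) (nat_lit 0) (nat_lit 4444020820) (nat_lit 19) (nat_lit 5) (nat_lit 21) (nat_lit 4) (nat_lit 19) (nat_lit 4) (nat_lit 374) (nat_lit 334) (nat_lit 312))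 (XT.nd (nat_lit 78) (nat_lit 152) (nat_lit 0) (XT.lf (nat_lit 0) (nat_lit 9790125696) (nat_lit 76) (nat_lit 9288395392) (nat_lit 76) (nat_lit 503163604) (nat_lit 18) (nat_lit 4) (nat_lit 19) (nat_lit 5) (nat_lit 19) (nat_lit 4) (nat_lit 375) (nat_lit 334) (nat_lit 311)) (XT.lf (nat_lit 0) (nat_lit 548027759) (nat_lit 76) (nat_lit 4003340150) (nat_lit 152) (nat_lit 16128199994) (nat_lit 16) (nat_lit 5) (nat_lit 17) (nat_lit 5) (nat_lit 18) (nat_lit 4) (nat_lit 376) (nat_lit 334) (nat_lit 310)))))) (XT.nd (nat_lit 390) (nat_lit 228) (nat_lit 0) (XT.nd (nat_lit 156) (nat_lit 152) (nat_lit 0) (XT.nd (nat_lit 78) (nat_lit 76) (nat_lit 0) (XT.lf (nat_lit 0) (nat_lit 10183998899) (nat_lit 152) (nat_lit 9852885530) (nat_lit 0) (nat_lit 1811306342) (nat_lit 16) (nat_lit 5) (nat_lit 18) (nat_lit 4) (nat_lit 16) (nat_lit 4) (nat_lit 377) (nat_lit 334) (nat_lit 309)) (XT.lf (nat_lit 0) (nat_lit 990243577)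 (nat_lit 76) (nat_lit 15298549494) (nat_lit 76) (nat_lit 6819812296) (nat_lit 15) (nat_lit 4) (nat_lit 16) (nat_lit 5) (nat_lit 16) (nat_lit 4) (nat_lit 378) (nat_lit 334) (nat_lit 308))) (XT.nd (nat_lit 78) (nat_lit 152) (nat_lit 0) (XT.lf (nat_lit 0) (nat_lit 13062942970) (nat_lit 76) (nat_lit 9985280407) (nat_lit 76) (nat_lit 1408353728) (nat_lit 15) (nat_lit 4) (nat_lit 16) (nat_lit 5) (nat_lit 16) (nat_lit 4) (nat_lit 379) (nat_lit 334) (nat_lit 307)) (XT.nd (nat_lit 78) (nat_lit 76) (nat_lit 0) (XT.lf (nat_lit 0) (nat_lit 4116109359) (nat_lit 152) (nat_lit 106335397) (nat_lit 76) (nat_lit 21689267993) (nat_lit 14) (nat_lit 5) (nat_lit 16) (nat_lit 5) (nat_lit 15) (nat_lit 4) (nat_lit 380) (nat_lit 334) (nat_lit 306)) (XT.lf (nat_lit 0) (nat_lit 10271141042) (nat_lit 152) (nat_lit 15020620379) (nat_lit 0) (nat_lit 2167414634) (nat_lit 13) (nat_lit 5) (nat_lit 15) (nat_lit 4) (nat_lit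 13) (nat_lit 4) (nat_lit 381) (nat_lit 334) (nat_lit 305))))) (XT.nd (nat_lit 156) (nat_lit 152) (nat_lit 0) (XT.nd (nat_lit 78) (nat_lit 76) (nat_lit 0) (XT.lf (nat_lit 0) (nat_lit 16941136069) (nat_lit 152) (nat_lit 3422275804) (nat_lit 0) (nat_lit 8765237460) (nat_lit 13) (nat_lit 5) (nat_lit 15) (nat_lit 4) (nat_lit 13) (nat_lit 4) (nat_lit 382) (nat_lit 334) (nat_lit 304)) (XT.lf (nat_lit 0) (nat_lit 9412366209) (nat_lit 76) (nat_lit 14875309904) (nat_lit 76) (nat_lit 6632585184) (nat_lit 12) (nat_lit 4) (nat_lit 13) (nat_lit 5) (nat_lit 13) (nat_lit 4) (nat_lit 383) (nat_lit 334) (nat_lit 303))) (XT.nd (nat_lit 78) (nat_lit 152) (nat_lit 0) (XT.lf (nat_lit 0) (nat_lit 23310104403) (nat_lit 76) (nat_lit 8924356056) (nat_lit 76) (nat_lit 619755307) (nat_lit 12) (nat_lit 4) (nat_lit 13) (nat_lit 5) (nat_lit 13) (nat_lit 4) (nat_lit 384) (nat_lit 334) (nat_lit 302)) (XT.nd (nat_lit 78)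 (nat_lit 0) (nat_lit 0) (XT.lf (nat_lit 0) (nat_lit 3247300820) (nat_lit 76) (nat_lit 2334042539) (nat_lit 152) (nat_lit 29350167421) (nat_lit 10) (nat_lit 5) (nat_lit 11) (nat_lit 5) (nat_lit 12) (nat_lit 4) (nat_lit 385) (nat_lit 334) (nat_lit 301)) (XT.lf (nat_lit 0) (nat_lit 12551253785) (nat_lit 152) (nat_lit 19838322625) (nat_lit 0) (nat_lit 4759640738) (nat_lit 10) (nat_lit 5) (nat_lit 12) (nat_lit 4) (nat_lit 10) (nat_lit 4) (nat_lit 386) (nat_lit 334) (nat_lit 300))))))))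
noncomputable def xc77 : XT := (XT.nd (nat_lit 1482) (nat_lit 228) (nat_lit 0) (XT.nd (nat_lit 702) (nat_lit 152) (nat_lit 0) (XT.nd (nat_lit 312) (nat_lit 228) (nat_lit 0) (XT.nd (nat_lit 156) (nat_lit 0) (nat_lit 0) (XT.nd (nat_lit 78) (nat_lit 76) (nat_lit 0) (XT.lf (nat_lit 0) (nat_lit 20068485819) (nat_lit 152) (nat_lit 7245295061) (nat_lit 0) (nat_lit 12231392044) (nat_lit 10) (nat_lit 5) (nat_lit 12) (nat_lit 4) (nat_lit 10) (nat_lit 4) (nat_lit 387) (nat_lit 334) (nat_lit 299)) (XT.lf (nat_lit 0) (nat_lit 6553462599) (nat_lit 76) (nat_lit 21725600576) (nat_lit 76) (nat_lit 13846395015) (nat_lit 9) (nat_lit 4) (nat_lit 10) (nat_lit 5) (nat_lit 10) (nat_lit 4) (nat_lit 388) (nat_lit 334) (nat_lit 298))) (XT.nd (nat_lit 78) (nat_lit 0) (nat_lit 0) (XT.lf (nat_lit 0) (nat_lit 21741903939) (nat_lit 76) (nat_lit 15538863712) (nat_lit 76) (nat_lit 7620665757) (nat_lit 9) (nat_lit 4) (nat_lit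 10) (nat_lit 5) (nat_lit 10) (nat_lit 4) (nat_lit 389) (nat_lit 334) (nat_lit 297)) (XT.lf (nat_lit 0) (nat_lit 38028510138) (nat_lit 76) (nat_lit 8915007349) (nat_lit 76) (nat_lit 960705325) (nat_lit 9) (nat_lit 4) (nat_lit 10) (nat_lit 5) (nat_lit 10) (nat_lit 4) (nat_lit 390) (nat_lit 334) (nat_lit 296)))) (XT.nd (nat_lit 156) (nat_lit 76) (nat_lit 0) (XT.nd (nat_lit 78) (nat_lit 0) (nat_lit 0) (XT.lf (nat_lit 0) (nat_lit 4431390124) (nat_lit 76) (nat_lit 1539341529) (nat_lit 152) (nat_lit 45160486283) (nat_lit 7) (nat_lit 5) (nat_lit 8) (nat_lit 5) (nat_lit 9) (nat_lit 4) (nat_lit 391) (nat_lit 334) (nat_lit 295)) (XT.lf (nat_lit 0) (nat_lit 13780482875) (nat_lit 152) (nat_lit 34448069982) (nat_lit 0) (nat_lit 6355774415) (nat_lit 7) (nat_lit 5) (nat_lit 9) (nat_lit 4) (nat_lit 7) (nat_lit 4) (nat_lit 392) (nat_lit 334) (nat_lit 294))) (XT.nd (nat_lit 78) (nat_lit 76) (nat_lit 0) (XT.lf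 (nat_lit 0) (nat_lit 22203251544) (nat_lit 152) (nat_lit 21359375842) (nat_lit 0) (nat_lit 14752005516) (nat_lit 7) (nat_lit 5) (nat_lit 9) (nat_lit 4) (nat_lit 7) (nat_lit 4) (nat_lit 393) (nat_lit 334) (nat_lit 293)) (XT.nd (nat_lit 78) (nat_lit 76) (nat_lit 0) (XT.lf (nat_lit 0) (nat_lit 31251929164) (nat_lit 152) (nat_lit 7319161561) (nat_lit 0) (nat_lit 23776111313) (nat_lit 7) (nat_lit 5) (nat_lit 9) (nat_lit 4) (nat_lit 7) (nat_lit 4) (nat_lit 394) (nat_lit 334) (nat_lit 292)) (XT.lf (nat_lit 0) (nat_lit 8164179451) (nat_lit 76) (nat_lit 33012306787) (nat_lit 76) (nat_lit 25513737249) (nat_lit 6) (nat_lit 4) (nat_lit 7) (nat_lit 5) (nat_lit 7) (nat_lit 4) (nat_lit 395) (nat_lit 334) (nat_lit 291)))))) (XT.nd (nat_lit 390) (nat_lit 0) (nat_lit 0) (XT.nd (nat_lit 156) (nat_lit 152) (nat_lit 0) (XT.nd (nat_lit 78) (nat_lit 0) (nat_lit 0) (XT.lf (nat_lit 0) (nat_lit 25216179616) (nat_lit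 76) (nat_lit 26835795385) (nat_lit 76) (nat_lit 19316159470) (nat_lit 6) (nat_lit 4) (nat_lit 7) (nat_lit 5) (nat_lit 7) (nat_lit 4) (nat_lit 396) (nat_lit 334) (nat_lit 290)) (XT.lf (nat_lit 0) (nat_lit 43552473744) (nat_lit 76) (nat_lit 20205073818) (nat_lit 76) (nat_lit 12665931998) (nat_lit 6) (nat_lit 4) (nat_lit 7) (nat_lit 5) (nat_lit 7) (nat_lit 4) (nat_lit 397) (nat_lit 334) (nat_lit 289))) (XT.nd (nat_lit 78) (nat_lit 152) (nat_lit 0) (XT.lf (nat_lit 0) (nat_lit 63281721358) (nat_lit 76) (nat_lit 13080848922) (nat_lit 76) (nat_lit 5523646078) (nat_lit 6) (nat_lit 4) (nat_lit 7) (nat_lit 5) (nat_lit 7) (nat_lit 4) (nat_lit 398) (nat_lit 334) (nat_lit 288)) (XT.nd (nat_lit 78) (nat_lit 76) (nat_lit 0) (XT.lf (nat_lit 0) (nat_lit 2045320018) (nat_lit 152) (nat_lit 3319660373) (nat_lit 76) (nat_lit 82419593823) (nat_lit 5) (nat_lit 5) (nat_lit 7) (nat_lit 5) (nat_lit 6) (nat_lit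 4) (nat_lit 399) (nat_lit 334) (nat_lit 287)) (XT.lf (nat_lit 0) (nat_lit 10300291751) (nat_lit 152) (nat_lit 80539662206) (nat_lit 0) (nat_lit 3273059872) (nat_lit 4) (nat_lit 5) (nat_lit 6) (nat_lit 4) (nat_lit 4) (nat_lit 4) (nat_lit 400) (nat_lit 334) (nat_lit 286))))) (XT.nd (nat_lit 156) (nat_lit 0) (nat_lit 0) (XT.nd (nat_lit 78) (nat_lit 0) (nat_lit 0) (XT.lf (nat_lit 0) (nat_lit 19415708378) (nat_lit 152) (nat_lit 69140818622) (nat_lit 0) (nat_lit 12375201108) (nat_lit 4) (nat_lit 5) (nat_lit 6) (nat_lit 4) (nat_lit 4) (nat_lit 4) (nat_lit 401) (nat_lit 334) (nat_lit 285)) (XT.lf (nat_lit 0) (nat_lit 29230334333) (nat_lit 152) (nat_lit 56890475112) (nat_lit 0) (nat_lit 22177535034) (nat_lit 4) (nat_lit 5) (nat_lit 6) (nat_lit 4) (nat_lit 4) (nat_lit 4) (nat_lit 402) (nat_lit 334) (nat_lit 284))) (XT.nd (nat_lit 78) (nat_lit 0) (nat_lit 0) (XT.lf (nat_lit 0) (nat_lit 39802330360)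 (nat_lit 152) (nat_lit 43716037047) (nat_lit 0) (nat_lit 32738149553) (nat_lit 4) (nat_lit 5) (nat_lit 6) (nat_lit 4) (nat_lit 4) (nat_lit 4) (nat_lit 403) (nat_lit 334) (nat_lit 283)) (XT.nd (nat_lit 78) (nat_lit 0) (nat_lit 0) (XT.lf (nat_lit 0) (nat_lit 51194345326) (nat_lit 152) (nat_lit 29539433685) (nat_lit 0) (nat_lit 44119626086) (nat_lit 4) (nat_lit 5) (nat_lit 6) (nat_lit 4) (nat_lit 4) (nat_lit 4) (nat_lit 404) (nat_lit 334) (nat_lit 282)) (XT.lf (nat_lit 0) (nat_lit 63473887467) (nat_lit 152) (nat_lit 14276655523) (nat_lit 0) (nat_lit 56389410418) (nat_lit 4) (nat_lit 5) (nat_lit 6) (nat_lit 4) (nat_lit 4) (nat_lit 4) (nat_lit 405) (nat_lit 334) (nat_lit 281))))))) (XT.nd (nat_lit 780) (nat_lit 152) (nat_lit 0) (XT.nd (nat_lit 390) (nat_lit 0) (nat_lit 0) (XT.nd (nat_lit 156) (nat_lit 0) (nat_lit 0) (XT.nd (nat_lit 78) (nat_lit 0) (nat_lit 0) (XT.lf (nat_lit 0) (nat_lit 2276629773)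 (nat_lit 76) (nat_lit 74491847668) (nat_lit 76) (nat_lit 67398335611) (nat_lit 3) (nat_lit 4) (nat_lit 4) (nat_lit 5) (nat_lit 4) (nat_lit 4) (nat_lit 406) (nat_lit 334) (nat_lit 280)) (XT.lf (nat_lit 0) (nat_lit 20922826667) (nat_lit 76) (nat_lit 70572682357) (nat_lit 76) (nat_lit 63470804551) (nat_lit 3) (nat_lit 4) (nat_lit 4) (nat_lit 5) (nat_lit 4) (nat_lit 4) (nat_lit 407) (nat_lit 334) (nat_lit 279))) (XT.nd (nat_lit 78) (nat_lit 0) (nat_lit 0) (XT.lf (nat_lit 0) (nat_lit 41020647761) (nat_lit 76) (nat_lit 66360171435) (nat_lit 76) (nat_lit 59250547566) (nat_lit 3) (nat_lit 4) (nat_lit 4) (nat_lit 5) (nat_lit 4) (nat_lit 4) (nat_lit 408) (nat_lit 334) (nat_lit 278)) (XT.nd (nat_lit 78) (nat_lit 0) (nat_lit 0) (XT.lf (nat_lit 0) (nat_lit 62689191255) (nat_lit 76) (nat_lit 61829351875) (nat_lit 76) (nat_lit 54712555726) (nat_lit 3) (nat_lit 4) (nat_lit 4) (nat_lit 5) (nat_lit 4) (nat_lit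 4) (nat_lit 409) (nat_lit 334) (nat_lit 277)) (XT.lf (nat_lit 0) (nat_lit 86056863332) (nat_lit 76) (nat_lit 56953374376) (nat_lit 76) (nat_lit 49829937226) (nat_lit 3) (nat_lit 4) (nat_lit 4) (nat_lit 5) (nat_lit 4) (nat_lit 4) (nat_lit 410) (nat_lit 334) (nat_lit 276))))) (XT.nd (nat_lit 156) (nat_lit 0) (nat_lit 0) (XT.nd (nat_lit 78) (nat_lit 0) (nat_lit 0) (XT.lf (nat_lit 0) (nat_lit 111262139085) (nat_lit 76) (nat_lit 51703344256) (nat_lit 76) (nat_lit 44573758031) (nat_lit 3) (nat_lit 4) (nat_lit 4) (nat_lit 5) (nat_lit 4) (nat_lit 4) (nat_lit 411) (nat_lit 334) (nat_lit 275)) (XT.lf (nat_lit 0) (nat_lit 138454383112) (nat_lit 76) (nat_lit 46048150226) (nat_lit 76) (nat_lit 38912870413) (nat_lit 3) (nat_lit 4) (nat_lit 4) (nat_lit 5) (nat_lit 4) (nat_lit 4) (nat_lit 412) (nat_lit 334) (nat_lit 274))) (XT.nd (nat_lit 78) (nat_lit 0) (nat_lit 0) (XT.lf (nat_lit 0) (nat_lit 167794734637)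 (nat_lit 76) (nat_lit 39954280025) (nat_lit 76) (nat_lit 32813728371) (nat_lit 3) (nat_lit 4) (nat_lit 4) (nat_lit 5) (nat_lit 4) (nat_lit 4) (nat_lit 413) (nat_lit 334) (nat_lit 273)) (XT.nd (nat_lit 78) (nat_lit 0) (nat_lit 0) (XT.lf (nat_lit 0) (nat_lit 199457062409) (nat_lit 76) (nat_lit 33385621829) (nat_lit 76) (nat_lit 26240188842) (nat_lit 3) (nat_lit 4) (nat_lit 4) (nat_lit 5) (nat_lit 4) (nat_lit 4) (nat_lit 414) (nat_lit 334) (nat_lit 272)) (XT.lf (nat_lit 0) (nat_lit 233628995037) (nat_lit 76) (nat_lit 26303250256) (nat_lit 76) (nat_lit 19153297516) (nat_lit 3) (nat_lit 4) (nat_lit 4) (nat_lit 5) (nat_lit 4) (nat_lit 4) (nat_lit 415) (nat_lit 334) (nat_lit 271)))))) (XT.nd (nat_lit 390) (nat_lit 0) (nat_lit 0) (XT.nd (nat_lit 156) (nat_lit 152) (nat_lit 0) (XT.nd (nat_lit 78) (nat_lit 0) (nat_lit 0) (XT.lf (nat_lit 0) (nat_lit 270513032864) (nat_lit 76) (nat_lit 18665195698)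 (nat_lit 76) (nat_lit 11511058001) (nat_lit 3) (nat_lit 4) (nat_lit 4) (nat_lit 5) (nat_lit 4) (nat_lit 4) (nat_lit 416) (nat_lit 334) (nat_lit 270)) (XT.lf (nat_lit 0) (nat_lit 310327747964) (nat_lit 76) (nat_lit 10426195608) (nat_lit 76) (nat_lit 3268182951) (nat_lit 3) (nat_lit 4) (nat_lit 4) (nat_lit 5) (nat_lit 4) (nat_lit 4) (nat_lit 417) (nat_lit 334) (nat_lit 269))) (XT.nd (nat_lit 78) (nat_lit 0) (nat_lit 0) (XT.lf (nat_lit 0) (nat_lit 4159564765) (nat_lit 76) (nat_lit 1283303190) (nat_lit 152) (nat_lit 343760639485) (nat_lit 1) (nat_lit 5) (nat_lit 2) (nat_lit 5) (nat_lit 3) (nat_lit 4) (nat_lit 418) (nat_lit 334) (nat_lit 268)) (XT.nd (nat_lit 78) (nat_lit 0) (nat_lit 0) (XT.lf (nat_lit 0) (nat_lit 15255581898) (nat_lit 152) (nat_lit 352469124826) (nat_lit 0) (nat_lit 8621394178) (nat_lit 1) (nat_lit 5) (nat_lit 3) (nat_lit 4) (nat_lit 1) (nat_lit 4) (nat_lit 419) (nat_lit 334)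 (nat_lit 267)) (XT.lf (nat_lit 0) (nat_lit 25877920950) (nat_lit 152) (nat_lit 360539327931) (nat_lit 0) (nat_lit 19240885019) (nat_lit 1) (nat_lit 5) (nat_lit 3) (nat_lit 4) (nat_lit 1) (nat_lit 4) (nat_lit 420) (nat_lit 334) (nat_lit 266))))) (XT.nd (nat_lit 156) (nat_lit 0) (nat_lit 0) (XT.nd (nat_lit 78) (nat_lit 0) (nat_lit 0) (XT.lf (nat_lit 0) (nat_lit 37341968835) (nat_lit 152) (nat_lit 369271511946) (nat_lit 0) (nat_lit 30702295671) (nat_lit 1) (nat_lit 5) (nat_lit 3) (nat_lit 4) (nat_lit 1) (nat_lit 4) (nat_lit 421) (nat_lit 334) (nat_lit 265)) (XT.lf (nat_lit 0) (nat_lit 49715660651) (nat_lit 152) (nat_lit 378717423145) (nat_lit 0) (nat_lit 43073545605) (nat_lit 1) (nat_lit 5) (nat_lit 3) (nat_lit 4) (nat_lit 1) (nat_lit 4) (nat_lit 422) (nat_lit 334) (nat_lit 264))) (XT.nd (nat_lit 78) (nat_lit 0) (nat_lit 0) (XT.lf (nat_lit 0) (nat_lit 63072321979) (nat_lit 152) (nat_lit 388933037300)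 (nat_lit 0) (nat_lit 56427945931) (nat_lit 1) (nat_lit 5) (nat_lit 3) (nat_lit 4) (nat_lit 1) (nat_lit 4) (nat_lit 423) (nat_lit 334) (nat_lit 263)) (XT.nd (nat_lit 78) (nat_lit 0) (nat_lit 0) (XT.lf (nat_lit 0) (nat_lit 77491103405) (nat_lit 152) (nat_lit 399978891382) (nat_lit 0) (nat_lit 70844633837) (nat_lit 1) (nat_lit 5) (nat_lit 3) (nat_lit 4) (nat_lit 1) (nat_lit 4) (nat_lit 424) (nat_lit 334) (nat_lit 262)) (XT.lf (nat_lit 0) (nat_lit 93057449560) (nat_lit 152) (nat_lit 411920442305) (nat_lit 0) (nat_lit 86409041546) (nat_lit 1) (nat_lit 5) (nat_lit 3) (nat_lit 4) (nat_lit 1) (nat_lit 4) (nat_lit 425) (nat_lit 334) (nat_lit 261))))))))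
noncomputable def xc78 : XT := (XT.nd (nat_lit 1482) (nat_lit 0) (nat_lit 0) (XT.nd (nat_lit 702) (nat_lit 0) (nat_lit 0) (XT.nd (nat_lit 312) (nat_lit 0) (nat_lit 0) (XT.nd (nat_lit 156) (nat_lit 0) (nat_lit 0) (XT.nd (nat_lit 78) (nat_lit 0) (nat_lit 0) (XT.lf (nat_lit 0) (nat_lit 109863605457) (nat_lit 152) (nat_lit 424828454814) (nat_lit 0) (nat_lit 103213402587) (nat_lit 1) (nat_lit 5) (nat_lit 3) (nat_lit 4) (nat_lit 1) (nat_lit 4) (nat_lit 426) (nat_lit 334) (nat_lit 260)) (XT.lf (nat_lit 0) (nat_lit 128009163132) (nat_lit 152) (nat_lit 438779420837) (nat_lit 0) (nat_lit 121357298358) (nat_lit 1) (nat_lit 5) (nat_lit 3) (nat_lit 4) (nat_lit 1) (nat_lit 4) (nat_lit 427) (nat_lit 334) (nat_lit 259))) (XT.nd (nat_lit 78) (nat_lit 0) (nat_lit 0) (XT.lf (nat_lit 0) (nat_lit 147601651815) (nat_lit 152) (nat_lit 453856012764) (nat_lit 0) (nat_lit 140948248242) (nat_lit 1) (nat_lit 5) (nat_lit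 3) (nat_lit 4) (nat_lit 1) (nat_lit 4) (nat_lit 428) (nat_lit 334) (nat_lit 258)) (XT.lf (nat_lit 0) (nat_lit 168757175143) (nat_lit 152) (nat_lit 470147573362) (nat_lit 0) (nat_lit 162102346755) (nat_lit 1) (nat_lit 5) (nat_lit 3) (nat_lit 4) (nat_lit 1) (nat_lit 4) (nat_lit 429) (nat_lit 334) (nat_lit 257)))) (XT.nd (nat_lit 156) (nat_lit 0) (nat_lit 0) (XT.nd (nat_lit 78) (nat_lit 0) (nat_lit 0) (XT.lf (nat_lit 0) (nat_lit 191601099181) (nat_lit 152) (nat_lit 487750645213) (nat_lit 0) (nat_lit 184944951520) (nat_lit 1) (nat_lit 5) (nat_lit 3) (nat_lit 4) (nat_lit 1) (nat_lit 4) (nat_lit 430) (nat_lit 334) (nat_lit 256)) (XT.lf (nat_lit 0) (nat_lit 216268795329) (nat_lit 152) (nat_lit 506769542815) (nat_lit 0) (nat_lit 209611426119) (nat_lit 1) (nat_lit 5) (nat_lit 3) (nat_lit 4) (nat_lit 1) (nat_lit 4) (nat_lit 431) (nat_lit 334) (nat_lit 255))) (XT.nd (nat_lit 78) (nat_lit 0) (nat_lit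 0) (XT.lf (nat_lit 0) (nat_lit 242906442528) (nat_lit 152) (nat_lit 527316970749) (nat_lit 0) (nat_lit 236247942254) (nat_lit 1) (nat_lit 5) (nat_lit 3) (nat_lit 4) (nat_lit 1) (nat_lit 4) (nat_lit 432) (nat_lit 334) (nat_lit 254)) (XT.nd (nat_lit 78) (nat_lit 0) (nat_lit 0) (XT.lf (nat_lit 0) (nat_lit 271671893503) (nat_lit 152) (nat_lit 549514691549) (nat_lit 0) (nat_lit 265012345947) (nat_lit 1) (nat_lit 5) (nat_lit 3) (nat_lit 4) (nat_lit 1) (nat_lit 4) (nat_lit 433) (nat_lit 334) (nat_lit 253)) (XT.lf (nat_lit 0) (nat_lit 302735610184) (nat_lit 152) (nat_lit 573494247265) (nat_lit 0) (nat_lit 296075092924) (nat_lit 1) (nat_lit 5) (nat_lit 3) (nat_lit 4) (nat_lit 1) (nat_lit 4) (nat_lit 434) (nat_lit 334) (nat_lit 252)))))) (XT.nd (nat_lit 390) (nat_lit 0) (nat_lit 0) (XT.nd (nat_lit 156) (nat_lit 0) (nat_lit 0) (XT.nd (nat_lit 78) (nat_lit 0) (nat_lit 0) (XT.lf (nat_lit 0) (nat_lit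 336281673856) (nat_lit 152) (nat_lit 599397738968) (nat_lit 0) (nat_lit 329620258721) (nat_lit 1) (nat_lit 5) (nat_lit 3) (nat_lit 4) (nat_lit 1) (nat_lit 4) (nat_lit 435) (nat_lit 334) (nat_lit 251)) (XT.lf (nat_lit 0) (nat_lit 372508876008) (nat_lit 152) (nat_lit 627378668830) (nat_lit 0) (nat_lit 365846629507) (nat_lit 1) (nat_lit 5) (nat_lit 3) (nat_lit 4) (nat_lit 1) (nat_lit 4) (nat_lit 436) (nat_lit 334) (nat_lit 250))) (XT.nd (nat_lit 78) (nat_lit 0) (nat_lit 0) (XT.lf (nat_lit 0) (nat_lit 411631896355) (nat_lit 152) (nat_lit 657602849770) (nat_lit 0) (nat_lit 404968880071) (nat_lit 1) (nat_lit 5) (nat_lit 3) (nat_lit 4) (nat_lit 1) (nat_lit 4) (nat_lit 437) (nat_lit 334) (nat_lit 249)) (XT.nd (nat_lit 78) (nat_lit 0) (nat_lit 0) (XT.lf (nat_lit 0) (nat_lit 453882575019) (nat_lit 152) (nat_lit 690249388045) (nat_lit 0) (nat_lit 447218845972) (nat_lit 1) (nat_lit 5) (nat_lit 3)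 (nat_lit 4) (nat_lit 1) (nat_lit 4) (nat_lit 438) (nat_lit 334) (nat_lit 248)) (XT.lf (nat_lit 0) (nat_lit 499511286391) (nat_lit 152) (nat_lit 725511744622) (nat_lit 0) (nat_lit 492846897379) (nat_lit 1) (nat_lit 5) (nat_lit 3) (nat_lit 4) (nat_lit 1) (nat_lit 4) (nat_lit 439) (nat_lit 334) (nat_lit 247))))) (XT.nd (nat_lit 156) (nat_lit 0) (nat_lit 0) (XT.nd (nat_lit 78) (nat_lit 0) (nat_lit 0) (XT.lf (nat_lit 0) (nat_lit 548788422835) (nat_lit 152) (nat_lit 763598881615) (nat_lit 0) (nat_lit 542123422745) (nat_lit 1) (nat_lit 5) (nat_lit 3) (nat_lit 4) (nat_lit 1) (nat_lit 4) (nat_lit 440) (nat_lit 334) (nat_lit 246)) (XT.lf (nat_lit 0) (nat_lit 602005997012) (nat_lit 152) (nat_lit 804736500576) (nat_lit 0) (nat_lit 595340431108) (nat_lit 1) (nat_lit 5) (nat_lit 3) (nat_lit 4) (nat_lit 1) (nat_lit 4) (nat_lit 441) (nat_lit 334) (nat_lit 245))) (XT.nd (nat_lit 78) (nat_lit 0) (nat_lit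 0) (XT.lf (nat_lit 0) (nat_lit 659479372323) (nat_lit 152) (nat_lit 849168379987) (nat_lit 0) (nat_lit 652813282518) (nat_lit 1) (nat_lit 5) (nat_lit 3) (nat_lit 4) (nat_lit 1) (nat_lit 4) (nat_lit 442) (nat_lit 334) (nat_lit 244)) (XT.nd (nat_lit 78) (nat_lit 0) (nat_lit 0) (XT.lf (nat_lit 0) (nat_lit 721549131735) (nat_lit 152) (nat_lit 897157819876) (nat_lit 0) (nat_lit 714882556836) (nat_lit 1) (nat_lit 5) (nat_lit 3) (nat_lit 4) (nat_lit 1) (nat_lit 4) (nat_lit 443) (nat_lit 334) (nat_lit 243)) (XT.lf (nat_lit 0) (nat_lit 788583096043) (nat_lit 152) (nat_lit 948989202107) (nat_lit 0) (nat_lit 781916071983) (nat_lit 1) (nat_lit 5) (nat_lit 3) (nat_lit 4) (nat_lit 1) (nat_lit 4) (nat_lit 444) (nat_lit 334) (nat_lit 242))))))) (XT.nd (nat_lit 780) (nat_lit 0) (nat_lit 0) (XT.nd (nat_lit 390) (nat_lit 0) (nat_lit 0) (XT.nd (nat_lit 156) (nat_lit 0) (nat_lit 0) (XT.nd (nat_lit 78) (nat_lit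 0) (nat_lit 0) (XT.lf (nat_lit 0) (nat_lit 860978503554) (nat_lit 152) (nat_lit 1004969675614) (nat_lit 0) (nat_lit 854311063604) (nat_lit 1) (nat_lit 5) (nat_lit 3) (nat_lit 4) (nat_lit 1) (nat_lit 4) (nat_lit 445) (nat_lit 334) (nat_lit 241)) (XT.lf (nat_lit 0) (nat_lit 939164364091) (nat_lit 152) (nat_lit 1065430976534) (nat_lit 0) (nat_lit 932496539058) (nat_lit 1) (nat_lit 5) (nat_lit 3) (nat_lit 4) (nat_lit 1) (nat_lit 4) (nat_lit 446) (nat_lit 334) (nat_lit 240))) (XT.nd (nat_lit 78) (nat_lit 0) (nat_lit 0) (XT.lf (nat_lit 0) (nat_lit 1023604001272) (nat_lit 152) (nat_lit 1130731394058) (nat_lit 0) (nat_lit 1016935819680) (nat_lit 1) (nat_lit 5) (nat_lit 3) (nat_lit 4) (nat_lit 1) (nat_lit 4) (nat_lit 447) (nat_lit 334) (nat_lit 239)) (XT.nd (nat_lit 78) (nat_lit 0) (nat_lit 0) (XT.lf (nat_lit 0) (nat_lit 1114797798132) (nat_lit 152) (nat_lit 1201257893625) (nat_lit 0) (nat_lit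 1108129286393) (nat_lit 1) (nat_lit 5) (nat_lit 3) (nat_lit 4) (nat_lit 1) (nat_lit 4) (nat_lit 448) (nat_lit 334) (nat_lit 238)) (XT.lf (nat_lit 0) (nat_lit 1213286162355) (nat_lit 152) (nat_lit 1277428410045) (nat_lit 0) (nat_lit 1206617344925) (nat_lit 1) (nat_lit 5) (nat_lit 3) (nat_lit 4) (nat_lit 1) (nat_lit 4) (nat_lit 449) (nat_lit 334) (nat_lit 237))))) (XT.nd (nat_lit 156) (nat_lit 0) (nat_lit 0) (XT.nd (nat_lit 78) (nat_lit 0) (nat_lit 0) (XT.lf (nat_lit 0) (nat_lit 1319652728693) (nat_lit 152) (nat_lit 1359694324158) (nat_lit 0) (nat_lit 1312983628216) (nat_lit 1) (nat_lit 5) (nat_lit 3) (nat_lit 4) (nat_lit 1) (nat_lit 4) (nat_lit 450) (nat_lit 334) (nat_lit 236)) (XT.lf (nat_lit 0) (nat_lit 1434527817540) (nat_lit 152) (nat_lit 1448543137676) (nat_lit 0) (nat_lit 1427858454981) (nat_lit 1) (nat_lit 5) (nat_lit 3) (nat_lit 4) (nat_lit 1) (nat_lit 4) (nat_lit 451) (nat_lit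 334) (nat_lit 235))) (XT.nd (nat_lit 78) (nat_lit 0) (nat_lit 0) (XT.lf (nat_lit 0) (nat_lit 1558592170161) (nat_lit 152) (nat_lit 1544501362087) (nat_lit 0) (nat_lit 1551922564935) (nat_lit 1) (nat_lit 5) (nat_lit 3) (nat_lit 4) (nat_lit 1) (nat_lit 4) (nat_lit 452) (nat_lit 334) (nat_lit 234)) (XT.nd (nat_lit 78) (nat_lit 0) (nat_lit 0) (XT.lf (nat_lit 0) (nat_lit 1692580982721) (nat_lit 152) (nat_lit 1648137638720) (nat_lit 0) (nat_lit 1685911152803) (nat_lit 1) (nat_lit 5) (nat_lit 3) (nat_lit 4) (nat_lit 1) (nat_lit 4) (nat_lit 453) (nat_lit 334) (nat_lit 233)) (XT.lf (nat_lit 0) (nat_lit 1837288262999) (nat_lit 152) (nat_lit 1760066108475) (nat_lit 0) (nat_lit 1830618225032) (nat_lit 1) (nat_lit 5) (nat_lit 3) (nat_lit 4) (nat_lit 1) (nat_lit 4) (nat_lit 454) (nat_lit 334) (nat_lit 232)))))) (XT.nd (nat_lit 44928) (nat_lit 0) (nat_lit 3572) (XT.nd (nat_lit 156) (nat_lit 0) (nat_lit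 0) (XT.nd (nat_lit 78) (nat_lit 0) (nat_lit 0) (XT.lf (nat_lit 0) (nat_lit 1993571535617) (nat_lit 152) (nat_lit 1880950051172) (nat_lit 0) (nat_lit 1986901305012) (nat_lit 1) (nat_lit 5) (nat_lit 3) (nat_lit 4) (nat_lit 1) (nat_lit 4) (nat_lit 455) (nat_lit 334) (nat_lit 231)) (XT.lf (nat_lit 0) (nat_lit 2162356923673) (nat_lit 152) (nat_lit 2011505816100) (nat_lit 0) (nat_lit 2155686514701) (nat_lit 1) (nat_lit 5) (nat_lit 3) (nat_lit 4) (nat_lit 1) (nat_lit 4) (nat_lit 456) (nat_lit 334) (nat_lit 230))) (XT.nd (nat_lit 78) (nat_lit 0) (nat_lit 0) (XT.lf (nat_lit 0) (nat_lit 2344644636875) (nat_lit 152) (nat_lit 2152507067054) (nat_lit 0) (nat_lit 2337974062746) (nat_lit 1) (nat_lit 5) (nat_lit 3) (nat_lit 4) (nat_lit 1) (nat_lit 4) (nat_lit 457) (nat_lit 334) (nat_lit 229)) (XT.nd (nat_lit 78) (nat_lit 0) (nat_lit 0) (XT.lf (nat_lit 0) (nat_lit 2541514898706) (nat_lit 152) (nat_lit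 2304789367000) (nat_lit 0) (nat_lit 2534844171656) (nat_lit 1) (nat_lit 5) (nat_lit 3) (nat_lit 4) (nat_lit 1) (nat_lit 4) (nat_lit 458) (nat_lit 334) (nat_lit 228)) (XT.lf (nat_lit 0) (nat_lit 2754134347757) (nat_lit 152) (nat_lit 2469255129568) (nat_lit 0) (nat_lit 2747463479112) (nat_lit 1) (nat_lit 5) (nat_lit 3) (nat_lit 4) (nat_lit 1) (nat_lit 4) (nat_lit 459) (nat_lit 334) (nat_lit 227))))) (XT.nd (nat_lit 156) (nat_lit 912) (nat_lit 0) (XT.nd (nat_lit 78) (nat_lit 0) (nat_lit 0) (XT.lf (nat_lit 0) (nat_lit 291587069) (nat_lit 532) (nat_lit 3006958746) (nat_lit 0) (nat_lit 291587069) (nat_lit 60) (nat_lit 5) (nat_lit 67) (nat_lit 4) (nat_lit 60) (nat_lit 4) (nat_lit 350) (nat_lit 335) (nat_lit 335)) (XT.lf (nat_lit 0) (nat_lit 4050142425) (nat_lit 532) (nat_lit 805883848) (nat_lit 0) (nat_lit 2482235907) (nat_lit 60) (nat_lit 5) (nat_lit 67) (nat_lit 4) (nat_lit 60) (nat_lit 4)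 (nat_lit 351) (nat_lit 335) (nat_lit 334))) (XT.nd (nat_lit 78) (nat_lit 456) (nat_lit 0) (XT.lf (nat_lit 0) (nat_lit 133097747) (nat_lit 456) (nat_lit 2742828497) (nat_lit 76) (nat_lit 4643808597) (nat_lit 54) (nat_lit 5) (nat_lit 60) (nat_lit 5) (nat_lit 55) (nat_lit 4) (nat_lit 352) (nat_lit 335) (nat_lit 333)) (XT.nd (nat_lit 78) (nat_lit 228) (nat_lit 0) (XT.lf (nat_lit 0) (nat_lit 2914491560) (nat_lit 228) (nat_lit 584734639) (nat_lit 304) (nat_lit 4222064580) (nat_lit 51) (nat_lit 5) (nat_lit 54) (nat_lit 5) (nat_lit 55) (nat_lit 4) (nat_lit 353) (nat_lit 335) (nat_lit 332)) (XT.lf (nat_lit 0) (nat_lit 953559118) (nat_lit 228) (nat_lit 6092926929) (nat_lit 228) (nat_lit 899821669) (nat_lit 48) (nat_lit 4) (nat_lit 51) (nat_lit 5) (nat_lit 51) (nat_lit 4) (nat_lit 354) (nat_lit 335) (nat_lit 331))))))))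
noncomputable def xc79 : XT := (XT.nd (nat_lit 1482) (nat_lit 912) (nat_lit 0) (XT.nd (nat_lit 702) (nat_lit 912) (nat_lit 0) (XT.nd (nat_lit 312) (nat_lit 608) (nat_lit 0) (XT.nd (nat_lit 156) (nat_lit 456) (nat_lit 0) (XT.nd (nat_lit 78) (nat_lit 152) (nat_lit 0) (XT.lf (nat_lit 0) (nat_lit 2474627295) (nat_lit 304) (nat_lit 1112971317) (nat_lit 76) (nat_lit 4603126508) (nat_lit 47) (nat_lit 5) (nat_lit 51) (nat_lit 5) (nat_lit 48) (nat_lit 4) (nat_lit 355) (nat_lit 335) (nat_lit 330)) (XT.lf (nat_lit 0) (nat_lit 5196916989) (nat_lit 152) (nat_lit 786333080) (nat_lit 228) (nat_lit 2476774854) (nat_lit 45) (nat_lit 5) (nat_lit 47) (nat_lit 5) (nat_lit 48) (nat_lit 4) (nat_lit 356) (nat_lit 335) (nat_lit 329))) (XT.nd (nat_lit 78) (nat_lit 152) (nat_lit 0) (XT.lf (nat_lit 0) (nat_lit 925401835) (nat_lit 304) (nat_lit 5633591544) (nat_lit 76) (nat_lit 2193717377) (nat_lit 41) (nat_lit 5)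 (nat_lit 45) (nat_lit 5) (nat_lit 42) (nat_lit 4) (nat_lit 357) (nat_lit 335) (nat_lit 328)) (XT.lf (nat_lit 0) (nat_lit 800531462) (nat_lit 152) (nat_lit 3595287018) (nat_lit 228) (nat_lit 4673635197) (nat_lit 39) (nat_lit 5) (nat_lit 41) (nat_lit 5) (nat_lit 42) (nat_lit 4) (nat_lit 358) (nat_lit 335) (nat_lit 327)))) (XT.nd (nat_lit 156) (nat_lit 380) (nat_lit 0) (XT.nd (nat_lit 78) (nat_lit 228) (nat_lit 0) (XT.lf (nat_lit 0) (nat_lit 7788802180) (nat_lit 152) (nat_lit 315917650) (nat_lit 228) (nat_lit 1310113695) (nat_lit 39) (nat_lit 5) (nat_lit 41) (nat_lit 5) (nat_lit 42) (nat_lit 4) (nat_lit 359) (nat_lit 335) (nat_lit 326)) (XT.lf (nat_lit 0) (nat_lit 2235250363) (nat_lit 228) (nat_lit 4370552667) (nat_lit 76) (nat_lit 3175398937) (nat_lit 36) (nat_lit 5) (nat_lit 39) (nat_lit 5) (nat_lit 37) (nat_lit 4) (nat_lit 360) (nat_lit 335) (nat_lit 325))) (XT.nd (nat_lit 78) (nat_lit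 228) (nat_lit 0) (XT.lf (nat_lit 0) (nat_lit 2748210663) (nat_lit 152) (nat_lit 3186693211) (nat_lit 228) (nat_lit 4244069915) (nat_lit 34) (nat_lit 5) (nat_lit 36) (nat_lit 5) (nat_lit 37) (nat_lit 4) (nat_lit 361) (nat_lit 335) (nat_lit 324)) (XT.nd (nat_lit 78) (nat_lit 228) (nat_lit 0) (XT.lf (nat_lit 0) (nat_lit 9891270591) (nat_lit 228) (nat_lit 209103885) (nat_lit 0) (nat_lit 511455330) (nat_lit 34) (nat_lit 5) (nat_lit 37) (nat_lit 4) (nat_lit 34) (nat_lit 4) (nat_lit 362) (nat_lit 335) (nat_lit 323)) (XT.lf (nat_lit 0) (nat_lit 3038276568) (nat_lit 228) (nat_lit 3517856965) (nat_lit 76) (nat_lit 4508729101) (nat_lit 31) (nat_lit 5) (nat_lit 34) (nat_lit 5) (nat_lit 32) (nat_lit 4) (nat_lit 363) (nat_lit 335) (nat_lit 322)))))) (XT.nd (nat_lit 390) (nat_lit 380) (nat_lit 0) (XT.nd (nat_lit 156) (nat_lit 304) (nat_lit 0) (XT.nd (nat_lit 78) (nat_lit 152) (nat_lit 0) (XT.lf (nat_lit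 0) (nat_lit 4317891993) (nat_lit 76) (nat_lit 2691300637) (nat_lit 152) (nat_lit 4547520632) (nat_lit 30) (nat_lit 5) (nat_lit 31) (nat_lit 5) (nat_lit 32) (nat_lit 4) (nat_lit 364) (nat_lit 335) (nat_lit 321)) (XT.lf (nat_lit 0) (nat_lit 629254600) (nat_lit 152) (nat_lit 10661860346) (nat_lit 152) (nat_lit 797419825) (nat_lit 28) (nat_lit 4) (nat_lit 30) (nat_lit 5) (nat_lit 30) (nat_lit 4) (nat_lit 365) (nat_lit 335) (nat_lit 320))) (XT.nd (nat_lit 78) (nat_lit 228) (nat_lit 0) (XT.lf (nat_lit 0) (nat_lit 3208173593) (nat_lit 228) (nat_lit 3527830978) (nat_lit 76) (nat_lit 5911260178) (nat_lit 27) (nat_lit 5) (nat_lit 30) (nat_lit 5) (nat_lit 28) (nat_lit 4) (nat_lit 366) (nat_lit 335) (nat_lit 319)) (XT.nd (nat_lit 78) (nat_lit 152) (nat_lit 0) (XT.lf (nat_lit 0) (nat_lit 5022417818) (nat_lit 76) (nat_lit 2446199255) (nat_lit 152) (nat_lit 5782291381) (nat_lit 26) (nat_lit 5) (nat_lit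 27) (nat_lit 5) (nat_lit 28) (nat_lit 4) (nat_lit 367) (nat_lit 335) (nat_lit 318)) (XT.lf (nat_lit 0) (nat_lit 271986189) (nat_lit 152) (nat_lit 11815101368) (nat_lit 152) (nat_lit 1814446539) (nat_lit 24) (nat_lit 4) (nat_lit 26) (nat_lit 5) (nat_lit 26) (nat_lit 4) (nat_lit 368) (nat_lit 335) (nat_lit 317))))) (XT.nd (nat_lit 156) (nat_lit 228) (nat_lit 0) (XT.nd (nat_lit 78) (nat_lit 76) (nat_lit 0) (XT.lf (nat_lit 0) (nat_lit 2501692603) (nat_lit 228) (nat_lit 5044392033) (nat_lit 76) (nat_lit 7041070266) (nat_lit 23) (nat_lit 5) (nat_lit 26) (nat_lit 5) (nat_lit 24) (nat_lit 4) (nat_lit 369) (nat_lit 335) (nat_lit 316)) (XT.lf (nat_lit 0) (nat_lit 4157069097) (nat_lit 76) (nat_lit 2878471368) (nat_lit 152) (nat_lit 8290731245) (nat_lit 22) (nat_lit 5) (nat_lit 23) (nat_lit 5) (nat_lit 24) (nat_lit 4) (nat_lit 370) (nat_lit 335) (nat_lit 315))) (XT.nd (nat_lit 78) (nat_lit 228) (nat_lit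 0) (XT.lf (nat_lit 0) (nat_lit 11997842356) (nat_lit 152) (nat_lit 2020694756) (nat_lit 0) (nat_lit 2100769394) (nat_lit 22) (nat_lit 5) (nat_lit 24) (nat_lit 4) (nat_lit 22) (nat_lit 4) (nat_lit 371) (nat_lit 335) (nat_lit 314)) (XT.nd (nat_lit 78) (nat_lit 76) (nat_lit 0) (XT.lf (nat_lit 0) (nat_lit 514154898) (nat_lit 152) (nat_lit 9009372651) (nat_lit 76) (nat_lit 7439413311) (nat_lit 20) (nat_lit 5) (nat_lit 22) (nat_lit 5) (nat_lit 21) (nat_lit 4) (nat_lit 372) (nat_lit 335) (nat_lit 313)) (XT.lf (nat_lit 0) (nat_lit 679929947) (nat_lit 76) (nat_lit 4573447121) (nat_lit 152) (nat_lit 12615729608) (nat_lit 19) (nat_lit 5) (nat_lit 20) (nat_lit 5) (nat_lit 21) (nat_lit 4) (nat_lit 373) (nat_lit 335) (nat_lit 312))))))) (XT.nd (nat_lit 780) (nat_lit 456) (nat_lit 0) (XT.nd (nat_lit 390) (nat_lit 228) (nat_lit 0) (XT.nd (nat_lit 156) (nat_lit 152) (nat_lit 0) (XT.nd (nat_lit 78) (nat_lit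 76) (nat_lit 0) (XT.lf (nat_lit 0) (nat_lit 10526729428) (nat_lit 152) (nat_lit 7414265931) (nat_lit 0) (nat_lit 894406535) (nat_lit 19) (nat_lit 5) (nat_lit 21) (nat_lit 4) (nat_lit 19) (nat_lit 4) (nat_lit 374) (nat_lit 335) (nat_lit 311)) (XT.lf (nat_lit 0) (nat_lit 2970621386) (nat_lit 76) (nat_lit 13333859196) (nat_lit 76) (nat_lit 3567950597) (nat_lit 18) (nat_lit 4) (nat_lit 19) (nat_lit 5) (nat_lit 19) (nat_lit 4) (nat_lit 375) (nat_lit 335) (nat_lit 310))) (XT.nd (nat_lit 78) (nat_lit 76) (nat_lit 0) (XT.lf (nat_lit 0) (nat_lit 1575175974) (nat_lit 152) (nat_lit 6613233039) (nat_lit 76) (nat_lit 12792993032) (nat_lit 17) (nat_lit 5) (nat_lit 19) (nat_lit 5) (nat_lit 18) (nat_lit 4) (nat_lit 376) (nat_lit 335) (nat_lit 309)) (XT.nd (nat_lit 78) (nat_lit 0) (nat_lit 0) (XT.lf (nat_lit 0) (nat_lit 4440487384) (nat_lit 76) (nat_lit 2504038896) (nat_lit 152) (nat_lit 15226573645) (nat_lit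 16) (nat_lit 5) (nat_lit 17) (nat_lit 5) (nat_lit 18) (nat_lit 4) (nat_lit 377) (nat_lit 335) (nat_lit 308)) (XT.lf (nat_lit 0) (nat_lit 12917986962) (nat_lit 152) (nat_lit 6967329197) (nat_lit 0) (nat_lit 3556716666) (nat_lit 16) (nat_lit 5) (nat_lit 18) (nat_lit 4) (nat_lit 16) (nat_lit 4) (nat_lit 378) (nat_lit 335) (nat_lit 307))))) (XT.nd (nat_lit 156) (nat_lit 76) (nat_lit 0) (XT.nd (nat_lit 78) (nat_lit 76) (nat_lit 0) (XT.lf (nat_lit 0) (nat_lit 4650242969) (nat_lit 76) (nat_lit 14804871531) (nat_lit 76) (nat_lit 5352685049) (nat_lit 15) (nat_lit 4) (nat_lit 16) (nat_lit 5) (nat_lit 16) (nat_lit 4) (nat_lit 379) (nat_lit 335) (nat_lit 306)) (XT.lf (nat_lit 0) (nat_lit 325462150) (nat_lit 152) (nat_lit 8859406864) (nat_lit 76) (nat_lit 17089154495) (nat_lit 14) (nat_lit 5) (nat_lit 16) (nat_lit 5) (nat_lit 15) (nat_lit 4) (nat_lit 380) (nat_lit 335) (nat_lit 305))) (XT.nd (nat_lit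 78) (nat_lit 0) (nat_lit 0) (XT.lf (nat_lit 0) (nat_lit 3201940492) (nat_lit 76) (nat_lit 2959720375) (nat_lit 152) (nat_lit 21685341128) (nat_lit 13) (nat_lit 5) (nat_lit 14) (nat_lit 5) (nat_lit 15) (nat_lit 4) (nat_lit 381) (nat_lit 335) (nat_lit 304)) (XT.nd (nat_lit 78) (nat_lit 0) (nat_lit 0) (XT.lf (nat_lit 0) (nat_lit 12720367713) (nat_lit 152) (nat_lit 13053619624) (nat_lit 0) (nat_lit 3751398903) (nat_lit 13) (nat_lit 5) (nat_lit 15) (nat_lit 4) (nat_lit 13) (nat_lit 4) (nat_lit 382) (nat_lit 335) (nat_lit 303)) (XT.lf (nat_lit 0) (nat_lit 19803404164) (nat_lit 152) (nat_lit 762122326) (nat_lit 0) (nat_lit 10772559326) (nat_lit 13) (nat_lit 5) (nat_lit 15) (nat_lit 4) (nat_lit 13) (nat_lit 4) (nat_lit 383) (nat_lit 335) (nat_lit 302)))))) (XT.nd (nat_lit 390) (nat_lit 228) (nat_lit 0) (XT.nd (nat_lit 156) (nat_lit 76) (nat_lit 0) (XT.nd (nat_lit 78) (nat_lit 76) (nat_lit 0) (XT.lf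 (nat_lit 0) (nat_lit 13025014199) (nat_lit 76) (nat_lit 14669800132) (nat_lit 76) (nat_lit 5581662674) (nat_lit 12) (nat_lit 4) (nat_lit 13) (nat_lit 5) (nat_lit 13) (nat_lit 4) (nat_lit 384) (nat_lit 335) (nat_lit 301)) (XT.lf (nat_lit 0) (nat_lit 755271987) (nat_lit 152) (nat_lit 7570220446) (nat_lit 76) (nat_lit 27046822417) (nat_lit 11) (nat_lit 5) (nat_lit 13) (nat_lit 5) (nat_lit 12) (nat_lit 4) (nat_lit 385) (nat_lit 335) (nat_lit 300))) (XT.nd (nat_lit 78) (nat_lit 0) (nat_lit 0) (XT.lf (nat_lit 0) (nat_lit 6159512937) (nat_lit 76) (nat_lit 1220207400) (nat_lit 152) (nat_lit 30237943230) (nat_lit 10) (nat_lit 5) (nat_lit 11) (nat_lit 5) (nat_lit 12) (nat_lit 4) (nat_lit 386) (nat_lit 335) (nat_lit 299)) (XT.nd (nat_lit 78) (nat_lit 0) (nat_lit 0) (XT.lf (nat_lit 0) (nat_lit 14836046656) (nat_lit 152) (nat_lit 18898057266) (nat_lit 0) (nat_lit 6284392864) (nat_lit 10) (nat_lit 5)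 (nat_lit 12) (nat_lit 4) (nat_lit 10) (nat_lit 4) (nat_lit 387) (nat_lit 335) (nat_lit 298)) (XT.lf (nat_lit 0) (nat_lit 22859791136) (nat_lit 152) (nat_lit 5484797213) (nat_lit 0) (nat_lit 14269144951) (nat_lit 10) (nat_lit 5) (nat_lit 12) (nat_lit 4) (nat_lit 10) (nat_lit 4) (nat_lit 388) (nat_lit 335) (nat_lit 297))))) (XT.nd (nat_lit 156) (nat_lit 152) (nat_lit 0) (XT.nd (nat_lit 78) (nat_lit 0) (nat_lit 0) (XT.lf (nat_lit 0) (nat_lit 9358617478) (nat_lit 76) (nat_lit 22335613374) (nat_lit 76) (nat_lit 13708863120) (nat_lit 9) (nat_lit 4) (nat_lit 10) (nat_lit 5) (nat_lit 10) (nat_lit 4) (nat_lit 389) (nat_lit 335) (nat_lit 296)) (XT.lf (nat_lit 0) (nat_lit 25593180209) (nat_lit 76) (nat_lit 15737495727) (nat_lit 76) (nat_lit 7077315779) (nat_lit 9) (nat_lit 4) (nat_lit 10) (nat_lit 5) (nat_lit 10) (nat_lit 4) (nat_lit 390) (nat_lit 335) (nat_lit 295))) (XT.nd (nat_lit 78) (nat_lit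 76) (nat_lit 0) (XT.lf (nat_lit 0) (nat_lit 28531424) (nat_lit 152) (nat_lit 8631788004) (nat_lit 76) (nat_lit 42996964568) (nat_lit 8) (nat_lit 5) (nat_lit 10) (nat_lit 5) (nat_lit 9) (nat_lit 4) (nat_lit 391) (nat_lit 335) (nat_lit 294)) (XT.nd (nat_lit 78) (nat_lit 0) (nat_lit 0) (XT.lf (nat_lit 0) (nat_lit 6744068158) (nat_lit 76) (nat_lit 690480927) (nat_lit 152) (nat_lit 47708146073) (nat_lit 7) (nat_lit 5) (nat_lit 8) (nat_lit 5) (nat_lit 9) (nat_lit 4) (nat_lit 392) (nat_lit 335) (nat_lit 293)) (XT.lf (nat_lit 0) (nat_lit 15817676795) (nat_lit 152) (nat_lit 35339276486) (nat_lit 0) (nat_lit 7719221694) (nat_lit 7) (nat_lit 5) (nat_lit 9) (nat_lit 4) (nat_lit 7) (nat_lit 4) (nat_lit 393) (nat_lit 335) (nat_lit 292))))))))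
noncomputable def xc80 : XT := (XT.nd (nat_lit 1482) (nat_lit 152) (nat_lit 0) (XT.nd (nat_lit 702) (nat_lit 76) (nat_lit 0) (XT.nd (nat_lit 312) (nat_lit 152) (nat_lit 0) (XT.nd (nat_lit 156) (nat_lit 76) (nat_lit 0) (XT.nd (nat_lit 78) (nat_lit 0) (nat_lit 0) (XT.lf (nat_lit 0) (nat_lit 24845025825) (nat_lit 152) (nat_lit 21341608229) (nat_lit 0) (nat_lit 16723819036) (nat_lit 7) (nat_lit 5) (nat_lit 9) (nat_lit 4) (nat_lit 7) (nat_lit 4) (nat_lit 394) (nat_lit 335) (nat_lit 291)) (XT.lf (nat_lit 0) (nat_lit 34553485494) (nat_lit 152) (nat_lit 6306067005) (nat_lit 0) (nat_lit 26411212328) (nat_lit 7) (nat_lit 5) (nat_lit 9) (nat_lit 4) (nat_lit 7) (nat_lit 4) (nat_lit 395) (nat_lit 335) (nat_lit 290))) (XT.nd (nat_lit 78) (nat_lit 0) (nat_lit 0) (XT.lf (nat_lit 0) (nat_lit 10375469707) (nat_lit 76) (nat_lit 34874648004) (nat_lit 76) (nat_lit 26712868933) (nat_lit 6) (nat_lit 4) (nat_lit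 7) (nat_lit 5) (nat_lit 7) (nat_lit 4) (nat_lit 396) (nat_lit 335) (nat_lit 289)) (XT.lf (nat_lit 0) (nat_lit 28676210929) (nat_lit 76) (nat_lit 28261692973) (nat_lit 76) (nat_lit 20081852879) (nat_lit 6) (nat_lit 4) (nat_lit 7) (nat_lit 5) (nat_lit 7) (nat_lit 4) (nat_lit 397) (nat_lit 335) (nat_lit 288)))) (XT.nd (nat_lit 156) (nat_lit 152) (nat_lit 0) (XT.nd (nat_lit 78) (nat_lit 0) (nat_lit 0) (XT.lf (nat_lit 0) (nat_lit 48372539185) (nat_lit 76) (nat_lit 21153918573) (nat_lit 76) (nat_lit 12957355309) (nat_lit 6) (nat_lit 4) (nat_lit 7) (nat_lit 5) (nat_lit 7) (nat_lit 4) (nat_lit 398) (nat_lit 335) (nat_lit 287)) (XT.lf (nat_lit 0) (nat_lit 69581173457) (nat_lit 76) (nat_lit 13509204659) (nat_lit 76) (nat_lit 5297156979) (nat_lit 6) (nat_lit 4) (nat_lit 7) (nat_lit 5) (nat_lit 7) (nat_lit 4) (nat_lit 399) (nat_lit 335) (nat_lit 286))) (XT.nd (nat_lit 78) (nat_lit 76) (nat_lit 0)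 (XT.lf (nat_lit 0) (nat_lit 2796858279) (nat_lit 152) (nat_lit 2408919880) (nat_lit 76) (nat_lit 89554465198) (nat_lit 5) (nat_lit 5) (nat_lit 7) (nat_lit 5) (nat_lit 6) (nat_lit 4) (nat_lit 400) (nat_lit 335) (nat_lit 285)) (XT.nd (nat_lit 78) (nat_lit 0) (nat_lit 0) (XT.lf (nat_lit 0) (nat_lit 11710071852) (nat_lit 152) (nat_lit 85804306905) (nat_lit 0) (nat_lit 4080756580) (nat_lit 4) (nat_lit 5) (nat_lit 6) (nat_lit 4) (nat_lit 4) (nat_lit 4) (nat_lit 401) (nat_lit 335) (nat_lit 284)) (XT.lf (nat_lit 0) (nat_lit 21511332420) (nat_lit 152) (nat_lit 73580854224) (nat_lit 0) (nat_lit 13870635640) (nat_lit 4) (nat_lit 5) (nat_lit 6) (nat_lit 4) (nat_lit 4) (nat_lit 4) (nat_lit 402) (nat_lit 335) (nat_lit 283)))))) (XT.nd (nat_lit 390) (nat_lit 0) (nat_lit 0) (XT.nd (nat_lit 156) (nat_lit 76) (nat_lit 0) (XT.nd (nat_lit 78) (nat_lit 0) (nat_lit 0) (XT.lf (nat_lit 0) (nat_lit 32070953090)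 (nat_lit 152) (nat_lit 60431315077) (nat_lit 0) (nat_lit 24419717877) (nat_lit 4) (nat_lit 5) (nat_lit 6) (nat_lit 4) (nat_lit 4) (nat_lit 4) (nat_lit 403) (nat_lit 335) (nat_lit 282)) (XT.lf (nat_lit 0) (nat_lit 43451509391) (nat_lit 152) (nat_lit 46277766267) (nat_lit 0) (nat_lit 35790516369) (nat_lit 4) (nat_lit 5) (nat_lit 6) (nat_lit 4) (nat_lit 4) (nat_lit 4) (nat_lit 404) (nat_lit 335) (nat_lit 281))) (XT.nd (nat_lit 78) (nat_lit 76) (nat_lit 0) (XT.lf (nat_lit 0) (nat_lit 55720441658) (nat_lit 152) (nat_lit 31036334913) (nat_lit 0) (nat_lit 48050413628) (nat_lit 4) (nat_lit 5) (nat_lit 6) (nat_lit 4) (nat_lit 4) (nat_lit 4) (nat_lit 405) (nat_lit 335) (nat_lit 280)) (XT.nd (nat_lit 78) (nat_lit 76) (nat_lit 0) (XT.lf (nat_lit 0) (nat_lit 68950454674) (nat_lit 152) (nat_lit 14616701421) (nat_lit 0) (nat_lit 61272060895) (nat_lit 4) (nat_lit 5) (nat_lit 6) (nat_lit 4) (nat_lit 4)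 (nat_lit 4) (nat_lit 406) (nat_lit 335) (nat_lit 279)) (XT.lf (nat_lit 0) (nat_lit 3240540709) (nat_lit 76) (nat_lit 80057342888) (nat_lit 76) (nat_lit 72371203046) (nat_lit 3) (nat_lit 4) (nat_lit 4) (nat_lit 5) (nat_lit 4) (nat_lit 4) (nat_lit 407) (nat_lit 335) (nat_lit 278))))) (XT.nd (nat_lit 156) (nat_lit 0) (nat_lit 0) (XT.nd (nat_lit 78) (nat_lit 0) (nat_lit 0) (XT.lf (nat_lit 0) (nat_lit 23320523684) (nat_lit 76) (nat_lit 75853818618) (nat_lit 76) (nat_lit 68160506495) (nat_lit 3) (nat_lit 4) (nat_lit 4) (nat_lit 5) (nat_lit 4) (nat_lit 4) (nat_lit 408) (nat_lit 335) (nat_lit 277)) (XT.lf (nat_lit 0) (nat_lit 44972550401) (nat_lit 76) (nat_lit 71331320031) (nat_lit 76) (nat_lit 63631366908) (nat_lit 3) (nat_lit 4) (nat_lit 4) (nat_lit 5) (nat_lit 4) (nat_lit 4) (nat_lit 409) (nat_lit 335) (nat_lit 276))) (XT.nd (nat_lit 78) (nat_lit 0) (nat_lit 0) (XT.lf (nat_lit 0) (nat_lit 68324929165)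 (nat_lit 76) (nat_lit 66463047138) (nat_lit 76) (nat_lit 58756944940) (nat_lit 3) (nat_lit 4) (nat_lit 4) (nat_lit 5) (nat_lit 4) (nat_lit 4) (nat_lit 410) (nat_lit 335) (nat_lit 275)) (XT.nd (nat_lit 78) (nat_lit 0) (nat_lit 0) (XT.lf (nat_lit 0) (nat_lit 93516044444) (nat_lit 76) (nat_lit 61220150912) (nat_lit 76) (nat_lit 53508355126) (nat_lit 3) (nat_lit 4) (nat_lit 4) (nat_lit 5) (nat_lit 4) (nat_lit 4) (nat_lit 411) (nat_lit 335) (nat_lit 274)) (XT.lf (nat_lit 0) (nat_lit 120695176921) (nat_lit 76) (nat_lit 55571562339) (nat_lit 76) (nat_lit 47854494713) (nat_lit 3) (nat_lit 4) (nat_lit 4) (nat_lit 5) (nat_lit 4) (nat_lit 4) (nat_lit 412) (nat_lit 335) (nat_lit 273))))))) (XT.nd (nat_lit 702) (nat_lit 0) (nat_lit 0) (XT.nd (nat_lit 312) (nat_lit 152) (nat_lit 0) (XT.nd (nat_lit 156) (nat_lit 0) (nat_lit 0) (XT.nd (nat_lit 78) (nat_lit 0) (nat_lit 0) (XT.lf (nat_lit 0) (nat_lit 150023388121)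 (nat_lit 76) (nat_lit 49483808302) (nat_lit 76) (nat_lit 41761859342) (nat_lit 3) (nat_lit 4) (nat_lit 4) (nat_lit 5) (nat_lit 4) (nat_lit 4) (nat_lit 413) (nat_lit 335) (nat_lit 272)) (XT.lf (nat_lit 0) (nat_lit 181674474853) (nat_lit 76) (nat_lit 42920813221) (nat_lit 76) (nat_lit 35194344508) (nat_lit 3) (nat_lit 4) (nat_lit 4) (nat_lit 5) (nat_lit 4) (nat_lit 4) (nat_lit 414) (nat_lit 335) (nat_lit 271))) (XT.nd (nat_lit 78) (nat_lit 0) (nat_lit 0) (XT.lf (nat_lit 0) (nat_lit 215835999110) (nat_lit 76) (nat_lit 35843685273) (nat_lit 76) (nat_lit 28113031603) (nat_lit 3) (nat_lit 4) (nat_lit 4) (nat_lit 5) (nat_lit 4) (nat_lit 4) (nat_lit 415) (nat_lit 335) (nat_lit 270)) (XT.lf (nat_lit 0) (nat_lit 252710399555) (nat_lit 76) (nat_lit 28210485923) (nat_lit 76) (nat_lit 20475957293) (nat_lit 3) (nat_lit 4) (nat_lit 4) (nat_lit 5) (nat_lit 4) (nat_lit 4) (nat_lit 416) (nat_lit 335) (nat_lit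 269)))) (XT.nd (nat_lit 156) (nat_lit 152) (nat_lit 0) (XT.nd (nat_lit 78) (nat_lit 0) (nat_lit 0) (XT.lf (nat_lit 0) (nat_lit 292516191155) (nat_lit 76) (nat_lit 19975981397) (nat_lit 76) (nat_lit 12237864841) (nat_lit 3) (nat_lit 4) (nat_lit 4) (nat_lit 5) (nat_lit 4) (nat_lit 4) (nat_lit 417) (nat_lit 335) (nat_lit 268)) (XT.lf (nat_lit 0) (nat_lit 335489260081) (nat_lit 76) (nat_lit 11091374630) (nat_lit 76) (nat_lit 3349935920) (nat_lit 3) (nat_lit 4) (nat_lit 4) (nat_lit 5) (nat_lit 4) (nat_lit 4) (nat_lit 418) (nat_lit 335) (nat_lit 267))) (XT.nd (nat_lit 78) (nat_lit 0) (nat_lit 0) (XT.lf (nat_lit 0) (nat_lit 4827910044) (nat_lit 76) (nat_lit 1216524966) (nat_lit 152) (nat_lit 371082048332) (nat_lit 1) (nat_lit 5) (nat_lit 2) (nat_lit 5) (nat_lit 3) (nat_lit 4) (nat_lit 419) (nat_lit 335) (nat_lit 266)) (XT.nd (nat_lit 78) (nat_lit 0) (nat_lit 0) (XT.lf (nat_lit 0) (nat_lit 16633632814)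 (nat_lit 152) (nat_lit 380347386575) (nat_lit 0) (nat_lit 9460148564) (nat_lit 1) (nat_lit 5) (nat_lit 3) (nat_lit 4) (nat_lit 1) (nat_lit 4) (nat_lit 420) (nat_lit 335) (nat_lit 265)) (XT.lf (nat_lit 0) (nat_lit 28094084593) (nat_lit 152) (nat_lit 389086855428) (nat_lit 0) (nat_lit 20918158462) (nat_lit 1) (nat_lit 5) (nat_lit 3) (nat_lit 4) (nat_lit 1) (nat_lit 4) (nat_lit 421) (nat_lit 335) (nat_lit 264)))))) (XT.nd (nat_lit 390) (nat_lit 0) (nat_lit 0) (XT.nd (nat_lit 156) (nat_lit 0) (nat_lit 0) (XT.nd (nat_lit 78) (nat_lit 0) (nat_lit 0) (XT.lf (nat_lit 0) (nat_lit 40464446682) (nat_lit 152) (nat_lit 398539511848) (nat_lit 0) (nat_lit 33286259548) (nat_lit 1) (nat_lit 5) (nat_lit 3) (nat_lit 4) (nat_lit 1) (nat_lit 4) (nat_lit 422) (nat_lit 335) (nat_lit 263)) (XT.lf (nat_lit 0) (nat_lit 53818024929) (nat_lit 152) (nat_lit 408761371577) (nat_lit 0) (nat_lit 46637744275) (nat_lit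 1) (nat_lit 5) (nat_lit 3) (nat_lit 4) (nat_lit 1) (nat_lit 4) (nat_lit 423) (nat_lit 335) (nat_lit 262))) (XT.nd (nat_lit 78) (nat_lit 0) (nat_lit 0) (XT.lf (nat_lit 0) (nat_lit 68233951651) (nat_lit 152) (nat_lit 419813008599) (nat_lit 0) (nat_lit 61051732551) (nat_lit 1) (nat_lit 5) (nat_lit 3) (nat_lit 4) (nat_lit 1) (nat_lit 4) (nat_lit 424) (nat_lit 335) (nat_lit 261)) (XT.nd (nat_lit 78) (nat_lit 0) (nat_lit 0) (XT.lf (nat_lit 0) (nat_lit 83797654560) (nat_lit 152) (nat_lit 431759914095) (nat_lit 0) (nat_lit 76613640605) (nat_lit 1) (nat_lit 5) (nat_lit 3) (nat_lit 4) (nat_lit 1) (nat_lit 4) (nat_lit 425) (nat_lit 335) (nat_lit 260)) (XT.lf (nat_lit 0) (nat_lit 100601363008) (nat_lit 152) (nat_lit 444672884543) (nat_lit 0) (nat_lit 93415687149) (nat_lit 1) (nat_lit 5) (nat_lit 3) (nat_lit 4) (nat_lit 1) (nat_lit 4) (nat_lit 426) (nat_lit 335) (nat_lit 259))))) (XT.nd (nat_lit 156)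 (nat_lit 0) (nat_lit 0) (XT.nd (nat_lit 78) (nat_lit 0) (nat_lit 0) (XT.lf (nat_lit 0) (nat_lit 118744654527) (nat_lit 152) (nat_lit 458628441250) (nat_lit 0) (nat_lit 111557439867) (nat_lit 1) (nat_lit 5) (nat_lit 3) (nat_lit 4) (nat_lit 1) (nat_lit 4) (nat_lit 427) (nat_lit 335) (nat_lit 258)) (XT.lf (nat_lit 0) (nat_lit 138335044917) (nat_lit 152) (nat_lit 473709283810) (nat_lit 0) (nat_lit 131146405443) (nat_lit 1) (nat_lit 5) (nat_lit 3) (nat_lit 4) (nat_lit 1) (nat_lit 4) (nat_lit 428) (nat_lit 335) (nat_lit 257))) (XT.nd (nat_lit 78) (nat_lit 0) (nat_lit 0) (XT.lf (nat_lit 0) (nat_lit 159488625381) (nat_lit 152) (nat_lit 490004780179) (nat_lit 0) (nat_lit 152298666634) (nat_lit 1) (nat_lit 5) (nat_lit 3) (nat_lit 4) (nat_lit 1) (nat_lit 4) (nat_lit 429) (nat_lit 335) (nat_lit 256)) (XT.nd (nat_lit 78) (nat_lit 0) (nat_lit 0) (XT.lf (nat_lit 0) (nat_lit 182330750470) (nat_lit 152)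 (nat_lit 507611496263) (nat_lit 0) (nat_lit 175139570174) (nat_lit 1) (nat_lit 5) (nat_lit 3) (nat_lit 4) (nat_lit 1) (nat_lit 4) (nat_lit 430) (nat_lit 335) (nat_lit 255)) (XT.lf (nat_lit 0) (nat_lit 206996780926) (nat_lit 152) (nat_lit 526633768155) (nat_lit 0) (nat_lit 199804469566) (nat_lit 1) (nat_lit 5) (nat_lit 3) (nat_lit 4) (nat_lit 1) (nat_lit 4) (nat_lit 431) (nat_lit 335) (nat_lit 254))))))))
noncomputable def xc81 : XT := (XT.nd (nat_lit 1482) (nat_lit 0) (nat_lit 0) (XT.nd (nat_lit 702) (nat_lit 0) (nat_lit 0) (XT.nd (nat_lit 312) (nat_lit 0) (nat_lit 0) (XT.nd (nat_lit 156) (nat_lit 0) (nat_lit 0) (XT.nd (nat_lit 78) (nat_lit 0) (nat_lit 0) (XT.lf (nat_lit 0) (nat_lit 233632885817) (nat_lit 152) (nat_lit 547184320431) (nat_lit 0) (nat_lit 226439527176) (nat_lit 1) (nat_lit 5) (nat_lit 3) (nat_lit 4) (nat_lit 1) (nat_lit 4) (nat_lit 432) (nat_lit 335) (nat_lit 253)) (XT.lf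 (nat_lit 0) (nat_lit 262396908729) (nat_lit 152) (nat_lit 569384934141) (nat_lit 0) (nat_lit 255202580382) (nat_lit 1) (nat_lit 5) (nat_lit 3) (nat_lit 4) (nat_lit 1) (nat_lit 4) (nat_lit 433) (nat_lit 335) (nat_lit 252))) (XT.nd (nat_lit 78) (nat_lit 0) (nat_lit 0) (XT.lf (nat_lit 0) (nat_lit 293459303129) (nat_lit 152) (nat_lit 593367168477) (nat_lit 0) (nat_lit 286264076908) (nat_lit 1) (nat_lit 5) (nat_lit 3) (nat_lit 4) (nat_lit 1) (nat_lit 4) (nat_lit 434) (nat_lit 335) (nat_lit 251)) (XT.lf (nat_lit 0) (nat_lit 327004142468) (nat_lit 152) (nat_lit 619273140383) (nat_lit 0) (nat_lit 319808084880) (nat_lit 1) (nat_lit 5) (nat_lit 3) (nat_lit 4) (nat_lit 1) (nat_lit 4) (nat_lit 435) (nat_lit 335) (nat_lit 250)))) (XT.nd (nat_lit 156) (nat_lit 0) (nat_lit 0) (XT.nd (nat_lit 78) (nat_lit 0) (nat_lit 0) (XT.lf (nat_lit 0) (nat_lit 363230210977) (nat_lit 152) (nat_lit 647256366730) (nat_lit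 0) (nat_lit 356033383606) (nat_lit 1) (nat_lit 5) (nat_lit 3) (nat_lit 4) (nat_lit 1) (nat_lit 4) (nat_lit 436) (nat_lit 335) (nat_lit 249)) (XT.lf (nat_lit 0) (nat_lit 402352181655) (nat_lit 152) (nat_lit 677482674045) (nat_lit 0) (nat_lit 395154641523) (nat_lit 1) (nat_lit 5) (nat_lit 3) (nat_lit 4) (nat_lit 1) (nat_lit 4) (nat_lit 437) (nat_lit 335) (nat_lit 248))) (XT.nd (nat_lit 78) (nat_lit 0) (nat_lit 0) (XT.lf (nat_lit 0) (nat_lit 444601888403) (nat_lit 152) (nat_lit 710131181185) (nat_lit 0) (nat_lit 437403688306) (nat_lit 1) (nat_lit 5) (nat_lit 3) (nat_lit 4) (nat_lit 1) (nat_lit 4) (nat_lit 438) (nat_lit 335) (nat_lit 247)) (XT.nd (nat_lit 78) (nat_lit 0) (nat_lit 0) (XT.lf (nat_lit 0) (nat_lit 490229699853) (nat_lit 152) (nat_lit 745395360786) (nat_lit 0) (nat_lit 483030888677) (nat_lit 1) (nat_lit 5) (nat_lit 3) (nat_lit 4) (nat_lit 1) (nat_lit 4) (nat_lit 439) (nat_lit 335)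 (nat_lit 246)) (XT.lf (nat_lit 0) (nat_lit 539506003036) (nat_lit 152) (nat_lit 783484185764) (nat_lit 0) (nat_lit 532306626047) (nat_lit 1) (nat_lit 5) (nat_lit 3) (nat_lit 4) (nat_lit 1) (nat_lit 4) (nat_lit 440) (nat_lit 335) (nat_lit 245)))))) (XT.nd (nat_lit 390) (nat_lit 0) (nat_lit 0) (XT.nd (nat_lit 156) (nat_lit 0) (nat_lit 0) (XT.nd (nat_lit 78) (nat_lit 0) (nat_lit 0) (XT.lf (nat_lit 0) (nat_lit 592722805675) (nat_lit 152) (nat_lit 824623367674) (nat_lit 0) (nat_lit 585522904784) (nat_lit 1) (nat_lit 5) (nat_lit 3) (nat_lit 4) (nat_lit 1) (nat_lit 4) (nat_lit 441) (nat_lit 335) (nat_lit 244)) (XT.lf (nat_lit 0) (nat_lit 650195466599) (nat_lit 152) (nat_lit 869056694261) (nat_lit 0) (nat_lit 642995080614) (nat_lit 1) (nat_lit 5) (nat_lit 3) (nat_lit 4) (nat_lit 1) (nat_lit 4) (nat_lit 442) (nat_lit 335) (nat_lit 243))) (XT.nd (nat_lit 78) (nat_lit 0) (nat_lit 0) (XT.lf (nat_lit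 0) (nat_lit 712264564542) (nat_lit 152) (nat_lit 917047474126) (nat_lit 0) (nat_lit 705063729396) (nat_lit 1) (nat_lit 5) (nat_lit 3) (nat_lit 4) (nat_lit 1) (nat_lit 4) (nat_lit 443) (nat_lit 335) (nat_lit 242)) (XT.nd (nat_lit 78) (nat_lit 0) (nat_lit 0) (XT.lf (nat_lit 0) (nat_lit 779297916378) (nat_lit 152) (nat_lit 968880097077) (nat_lit 0) (nat_lit 772096665342) (nat_lit 1) (nat_lit 5) (nat_lit 3) (nat_lit 4) (nat_lit 1) (nat_lit 4) (nat_lit 444) (nat_lit 335) (nat_lit 241)) (XT.lf (nat_lit 0) (nat_lit 851692756786) (nat_lit 152) (nat_lit 1024861719397) (nat_lit 0) (nat_lit 844491120667) (nat_lit 1) (nat_lit 5) (nat_lit 3) (nat_lit 4) (nat_lit 1) (nat_lit 4) (nat_lit 445) (nat_lit 335) (nat_lit 240))))) (XT.nd (nat_lit 156) (nat_lit 0) (nat_lit 0) (XT.nd (nat_lit 78) (nat_lit 0) (nat_lit 0) (XT.lf (nat_lit 0) (nat_lit 929878092227) (nat_lit 152) (nat_lit 1085324084034) (nat_lit 0)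 (nat_lit 922676099549) (nat_lit 1) (nat_lit 5) (nat_lit 3) (nat_lit 4) (nat_lit 1) (nat_lit 4) (nat_lit 446) (nat_lit 335) (nat_lit 239)) (XT.lf (nat_lit 0) (nat_lit 1014317243208) (nat_lit 152) (nat_lit 1150625486482) (nat_lit 0) (nat_lit 1007114920383) (nat_lit 1) (nat_lit 5) (nat_lit 3) (nat_lit 4) (nat_lit 1) (nat_lit 4) (nat_lit 447) (nat_lit 335) (nat_lit 238))) (XT.nd (nat_lit 78) (nat_lit 0) (nat_lit 0) (XT.lf (nat_lit 0) (nat_lit 1105510589882) (nat_lit 152) (nat_lit 1221152898014) (nat_lit 0) (nat_lit 1098307961366) (nat_lit 1) (nat_lit 5) (nat_lit 3) (nat_lit 4) (nat_lit 1) (nat_lit 4) (nat_lit 448) (nat_lit 335) (nat_lit 237)) (XT.nd (nat_lit 78) (nat_lit 0) (nat_lit 0) (XT.lf (nat_lit 0) (nat_lit 1203998537268) (nat_lit 152) (nat_lit 1297324258847) (nat_lit 0) (nat_lit 1196795625704) (nat_lit 1) (nat_lit 5) (nat_lit 3) (nat_lit 4) (nat_lit 1) (nat_lit 4) (nat_lit 449) (nat_lit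 335) (nat_lit 236)) (XT.lf (nat_lit 0) (nat_lit 1310364717645) (nat_lit 152) (nat_lit 1379590954823) (nat_lit 0) (nat_lit 1303161544000) (nat_lit 1) (nat_lit 5) (nat_lit 3) (nat_lit 4) (nat_lit 1) (nat_lit 4) (nat_lit 450) (nat_lit 335) (nat_lit 235))))))) (XT.nd (nat_lit 45162) (nat_lit 0) (nat_lit 3040) (XT.nd (nat_lit 390) (nat_lit 0) (nat_lit 0) (XT.nd (nat_lit 156) (nat_lit 0) (nat_lit 0) (XT.nd (nat_lit 78) (nat_lit 0) (nat_lit 0) (XT.lf (nat_lit 0) (nat_lit 1425239449120) (nat_lit 152) (nat_lit 1468440492289) (nat_lit 0) (nat_lit 1418036032807) (nat_lit 1) (nat_lit 5) (nat_lit 3) (nat_lit 4) (nat_lit 1) (nat_lit 4) (nat_lit 451) (nat_lit 335) (nat_lit 234)) (XT.lf (nat_lit 0) (nat_lit 1549303470842) (nat_lit 152) (nat_lit 1564399387022) (nat_lit 0) (nat_lit 1542099829837) (nat_lit 1) (nat_lit 5) (nat_lit 3) (nat_lit 4) (nat_lit 1) (nat_lit 4) (nat_lit 452) (nat_lit 335) (nat_lit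 233))) (XT.nd (nat_lit 78) (nat_lit 0) (nat_lit 0) (XT.lf (nat_lit 0) (nat_lit 1683291977014) (nat_lit 152) (nat_lit 1668036284324) (nat_lit 0) (nat_lit 1676088127961) (nat_lit 1) (nat_lit 5) (nat_lit 3) (nat_lit 4) (nat_lit 1) (nat_lit 4) (nat_lit 453) (nat_lit 335) (nat_lit 232)) (XT.nd (nat_lit 78) (nat_lit 0) (nat_lit 0) (XT.lf (nat_lit 0) (nat_lit 1827998973598) (nat_lit 152) (nat_lit 1779965328772) (nat_lit 0) (nat_lit 1820794931908) (nat_lit 1) (nat_lit 5) (nat_lit 3) (nat_lit 4) (nat_lit 1) (nat_lit 4) (nat_lit 454) (nat_lit 335) (nat_lit 231)) (XT.lf (nat_lit 0) (nat_lit 1984281983538) (nat_lit 152) (nat_lit 1900849803592) (nat_lit 0) (nat_lit 1977077763479) (nat_lit 1) (nat_lit 5) (nat_lit 3) (nat_lit 4) (nat_lit 1) (nat_lit 4) (nat_lit 455) (nat_lit 335) (nat_lit 230))))) (XT.nd (nat_lit 156) (nat_lit 0) (nat_lit 0) (XT.nd (nat_lit 78) (nat_lit 0) (nat_lit 0) (XT.lf (nat_lit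 0) (nat_lit 2153067128373) (nat_lit 152) (nat_lit 2031406061227) (nat_lit 0) (nat_lit 2145862743159) (nat_lit 1) (nat_lit 5) (nat_lit 3) (nat_lit 4) (nat_lit 1) (nat_lit 4) (nat_lit 456) (nat_lit 335) (nat_lit 229)) (XT.lf (nat_lit 0) (nat_lit 2335354616370) (nat_lit 152) (nat_lit 2172407768390) (nat_lit 0) (nat_lit 2328150078234) (nat_lit 1) (nat_lit 5) (nat_lit 3) (nat_lit 4) (nat_lit 1) (nat_lit 4) (nat_lit 457) (nat_lit 335) (nat_lit 228))) (XT.nd (nat_lit 78) (nat_lit 0) (nat_lit 0) (XT.lf (nat_lit 0) (nat_lit 2532224669679) (nat_lit 152) (nat_lit 2324690490753) (nat_lit 0) (nat_lit 2525019989948) (nat_lit 1) (nat_lit 5) (nat_lit 3) (nat_lit 4) (nat_lit 1) (nat_lit 4) (nat_lit 458) (nat_lit 335) (nat_lit 227)) (XT.nd (nat_lit 44460) (nat_lit 0) (nat_lit 5396) (XT.lf (nat_lit 0) (nat_lit 2744843925653) (nat_lit 152) (nat_lit 2489156644448) (nat_lit 0) (nat_lit 2737639114817) (nat_lit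 1) (nat_lit 5) (nat_lit 3) (nat_lit 4) (nat_lit 1) (nat_lit 4) (nat_lit 459) (nat_lit 335) (nat_lit 226)) (XT.lf (nat_lit 0) (nat_lit 1278522359) (nat_lit 380) (nat_lit 897604787) (nat_lit 0) (nat_lit 1278522359) (nat_lit 72) (nat_lit 5) (nat_lit 77) (nat_lit 4) (nat_lit 72) (nat_lit 4) (nat_lit 348) (nat_lit 336) (nat_lit 336)))))) (XT.nd (nat_lit 390) (nat_lit 760) (nat_lit 0) (XT.nd (nat_lit 156) (nat_lit 684) (nat_lit 0) (XT.nd (nat_lit 78) (nat_lit 532) (nat_lit 0) (XT.lf (nat_lit 0) (nat_lit 3081926232) (nat_lit 380) (nat_lit 2892661467) (nat_lit 380) (nat_lit 1063855305) (nat_lit 67) (nat_lit 4) (nat_lit 72) (nat_lit 5) (nat_lit 72) (nat_lit 4) (nat_lit 349) (nat_lit 336) (nat_lit 335)) (XT.lf (nat_lit 0) (nat_lit 1002397659) (nat_lit 456) (nat_lit 1172863331) (nat_lit 532) (nat_lit 5013290590) (nat_lit 60) (nat_lit 5) (nat_lit 66) (nat_lit 5) (nat_lit 67) (nat_lit 4) (nat_lit 350)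 (nat_lit 336) (nat_lit 334))) (XT.nd (nat_lit 78) (nat_lit 684) (nat_lit 0) (XT.lf (nat_lit 0) (nat_lit 5494151903) (nat_lit 532) (nat_lit 1083273108) (nat_lit 0) (nat_lit 781141052) (nat_lit 60) (nat_lit 5) (nat_lit 67) (nat_lit 4) (nat_lit 60) (nat_lit 4) (nat_lit 351) (nat_lit 336) (nat_lit 333)) (XT.nd (nat_lit 78) (nat_lit 228) (nat_lit 0) (XT.lf (nat_lit 0) (nat_lit 1361146799) (nat_lit 456) (nat_lit 3226052632) (nat_lit 76) (nat_lit 2960202406) (nat_lit 54) (nat_lit 5) (nat_lit 60) (nat_lit 5) (nat_lit 55) (nat_lit 4) (nat_lit 352) (nat_lit 336) (nat_lit 332)) (XT.lf (nat_lit 0) (nat_lit 2272967838) (nat_lit 228) (nat_lit 2330330507) (nat_lit 304) (nat_lit 3155714032) (nat_lit 51) (nat_lit 5) (nat_lit 54) (nat_lit 5) (nat_lit 55) (nat_lit 4) (nat_lit 353) (nat_lit 336) (nat_lit 331))))) (XT.nd (nat_lit 156) (nat_lit 456) (nat_lit 0) (XT.nd (nat_lit 78) (nat_lit 76) (nat_lit 0) (XT.lf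 (nat_lit 0) (nat_lit 144896478) (nat_lit 228) (nat_lit 7840295539) (nat_lit 228) (nat_lit 12192929) (nat_lit 48) (nat_lit 4) (nat_lit 51) (nat_lit 5) (nat_lit 51) (nat_lit 4) (nat_lit 354) (nat_lit 336) (nat_lit 330)) (XT.lf (nat_lit 0) (nat_lit 3215855969) (nat_lit 304) (nat_lit 2127169257) (nat_lit 76) (nat_lit 2905337423) (nat_lit 47) (nat_lit 5) (nat_lit 51) (nat_lit 5) (nat_lit 48) (nat_lit 4) (nat_lit 355) (nat_lit 336) (nat_lit 329))) (XT.nd (nat_lit 78) (nat_lit 304) (nat_lit 0) (XT.lf (nat_lit 0) (nat_lit 3999572493) (nat_lit 152) (nat_lit 2601668161) (nat_lit 228) (nat_lit 1926381140) (nat_lit 45) (nat_lit 5) (nat_lit 47) (nat_lit 5) (nat_lit 48) (nat_lit 4) (nat_lit 356) (nat_lit 336) (nat_lit 328)) (XT.nd (nat_lit 78) (nat_lit 0) (nat_lit 0) (XT.lf (nat_lit 0) (nat_lit 1274951243) (nat_lit 304) (nat_lit 7142637686) (nat_lit 76) (nat_lit 415610634) (nat_lit 41) (nat_lit 5) (nat_lit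 45) (nat_lit 5) (nat_lit 42) (nat_lit 4) (nat_lit 357) (nat_lit 336) (nat_lit 327)) (XT.lf (nat_lit 0) (nat_lit 4636488317) (nat_lit 304) (nat_lit 876884660) (nat_lit 76) (nat_lit 3645359489) (nat_lit 41) (nat_lit 5) (nat_lit 45) (nat_lit 5) (nat_lit 42) (nat_lit 4) (nat_lit 358) (nat_lit 336) (nat_lit 326))))))))
noncomputable def xc82 : XT := (XT.nd (nat_lit 1482) (nat_lit 836) (nat_lit 0) (XT.nd (nat_lit 702) (nat_lit 684) (nat_lit 0) (XT.nd (nat_lit 312) (nat_lit 608) (nat_lit 0) (XT.nd (nat_lit 156) (nat_lit 152) (nat_lit 0) (XT.nd (nat_lit 78) (nat_lit 228) (nat_lit 0) (XT.lf (nat_lit 0) (nat_lit 5940135422) (nat_lit 152) (nat_lit 2297058815) (nat_lit 228) (nat_lit 1275647428) (nat_lit 39) (nat_lit 5) (nat_lit 41) (nat_lit 5) (nat_lit 42) (nat_lit 4) (nat_lit 359) (nat_lit 336) (nat_lit 325)) (XT.lf (nat_lit 0) (nat_lit 2083978666) (nat_lit 228) (nat_lit 6605940894) (nat_lit 76)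 (nat_lit 1204008542) (nat_lit 36) (nat_lit 5) (nat_lit 39) (nat_lit 5) (nat_lit 37) (nat_lit 4) (nat_lit 360) (nat_lit 336) (nat_lit 324))) (XT.nd (nat_lit 78) (nat_lit 0) (nat_lit 0) (XT.lf (nat_lit 0) (nat_lit 266109774) (nat_lit 152) (nat_lit 5378379351) (nat_lit 228) (nat_lit 4658400764) (nat_lit 34) (nat_lit 5) (nat_lit 36) (nat_lit 5) (nat_lit 37) (nat_lit 4) (nat_lit 361) (nat_lit 336) (nat_lit 323)) (XT.lf (nat_lit 0) (nat_lit 7815163681) (nat_lit 152) (nat_lit 1696307862) (nat_lit 228) (nat_lit 1231479290) (nat_lit 34) (nat_lit 5) (nat_lit 36) (nat_lit 5) (nat_lit 37) (nat_lit 4) (nat_lit 362) (nat_lit 336) (nat_lit 322)))) (XT.nd (nat_lit 156) (nat_lit 304) (nat_lit 0) (XT.nd (nat_lit 78) (nat_lit 76) (nat_lit 0) (XT.lf (nat_lit 0) (nat_lit 2364864520) (nat_lit 228) (nat_lit 6586965220) (nat_lit 76) (nat_lit 2260227409) (nat_lit 31) (nat_lit 5) (nat_lit 34) (nat_lit 5) (nat_lit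 32) (nat_lit 4) (nat_lit 363) (nat_lit 336) (nat_lit 321)) (XT.lf (nat_lit 0) (nat_lit 964839029) (nat_lit 76) (nat_lit 5219338632) (nat_lit 152) (nat_lit 5531901364) (nat_lit 30) (nat_lit 5) (nat_lit 31) (nat_lit 5) (nat_lit 32) (nat_lit 4) (nat_lit 364) (nat_lit 336) (nat_lit 320))) (XT.nd (nat_lit 78) (nat_lit 304) (nat_lit 0) (XT.lf (nat_lit 0) (nat_lit 9259793903) (nat_lit 76) (nat_lit 1087007666) (nat_lit 152) (nat_lit 1910682665) (nat_lit 30) (nat_lit 5) (nat_lit 31) (nat_lit 5) (nat_lit 32) (nat_lit 4) (nat_lit 365) (nat_lit 336) (nat_lit 319)) (XT.nd (nat_lit 78) (nat_lit 76) (nat_lit 0) (XT.lf (nat_lit 0) (nat_lit 1977699244) (nat_lit 228) (nat_lit 7551149363) (nat_lit 76) (nat_lit 3303373785) (nat_lit 27) (nat_lit 5) (nat_lit 30) (nat_lit 5) (nat_lit 28) (nat_lit 4) (nat_lit 366) (nat_lit 336) (nat_lit 318)) (XT.lf (nat_lit 0) (nat_lit 671848358) (nat_lit 76) (nat_lit 5397869752)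 (nat_lit 152) (nat_lit 7379653572) (nat_lit 26) (nat_lit 5) (nat_lit 27) (nat_lit 5) (nat_lit 28) (nat_lit 4) (nat_lit 367) (nat_lit 336) (nat_lit 317)))))) (XT.nd (nat_lit 390) (nat_lit 304) (nat_lit 0) (XT.nd (nat_lit 156) (nat_lit 152) (nat_lit 0) (XT.nd (nat_lit 78) (nat_lit 228) (nat_lit 0) (XT.lf (nat_lit 0) (nat_lit 9759893364) (nat_lit 76) (nat_lit 807461020) (nat_lit 152) (nat_lit 3542338951) (nat_lit 26) (nat_lit 5) (nat_lit 27) (nat_lit 5) (nat_lit 28) (nat_lit 4) (nat_lit 368) (nat_lit 336) (nat_lit 316)) (XT.lf (nat_lit 0) (nat_lit 665559717) (nat_lit 228) (nat_lit 10159581690) (nat_lit 76) (nat_lit 3989096432) (nat_lit 23) (nat_lit 5) (nat_lit 26) (nat_lit 5) (nat_lit 24) (nat_lit 4) (nat_lit 369) (nat_lit 336) (nat_lit 315))) (XT.nd (nat_lit 78) (nat_lit 152) (nat_lit 0) (XT.lf (nat_lit 0) (nat_lit 5041767584) (nat_lit 228) (nat_lit 1269053054) (nat_lit 76) (nat_lit 9255168449)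 (nat_lit 23) (nat_lit 5) (nat_lit 26) (nat_lit 5) (nat_lit 24) (nat_lit 4) (nat_lit 370) (nat_lit 336) (nat_lit 314)) (XT.nd (nat_lit 78) (nat_lit 76) (nat_lit 0) (XT.lf (nat_lit 0) (nat_lit 8562730274) (nat_lit 76) (nat_lit 1300222193) (nat_lit 152) (nat_lit 6507382294) (nat_lit 22) (nat_lit 5) (nat_lit 23) (nat_lit 5) (nat_lit 24) (nat_lit 4) (nat_lit 371) (nat_lit 336) (nat_lit 313)) (XT.lf (nat_lit 0) (nat_lit 1807746405) (nat_lit 76) (nat_lit 13330495868) (nat_lit 76) (nat_lit 2095354446) (nat_lit 21) (nat_lit 4) (nat_lit 22) (nat_lit 5) (nat_lit 22) (nat_lit 4) (nat_lit 372) (nat_lit 336) (nat_lit 312))))) (XT.nd (nat_lit 156) (nat_lit 152) (nat_lit 0) (XT.nd (nat_lit 78) (nat_lit 76) (nat_lit 0) (XT.lf (nat_lit 0) (nat_lit 2679975495) (nat_lit 152) (nat_lit 5816606759) (nat_lit 76) (nat_lit 9652725656) (nat_lit 20) (nat_lit 5) (nat_lit 22) (nat_lit 5) (nat_lit 21) (nat_lit 4) (nat_lit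 373) (nat_lit 336) (nat_lit 311)) (XT.lf (nat_lit 0) (nat_lit 4548763700) (nat_lit 76) (nat_lit 3183924786) (nat_lit 152) (nat_lit 11400581608) (nat_lit 19) (nat_lit 5) (nat_lit 20) (nat_lit 5) (nat_lit 21) (nat_lit 4) (nat_lit 374) (nat_lit 336) (nat_lit 310))) (XT.nd (nat_lit 78) (nat_lit 152) (nat_lit 0) (XT.lf (nat_lit 0) (nat_lit 13314477615) (nat_lit 152) (nat_lit 4361493217) (nat_lit 0) (nat_lit 2510020153) (nat_lit 19) (nat_lit 5) (nat_lit 21) (nat_lit 4) (nat_lit 19) (nat_lit 4) (nat_lit 375) (nat_lit 336) (nat_lit 309)) (XT.nd (nat_lit 78) (nat_lit 76) (nat_lit 0) (XT.lf (nat_lit 0) (nat_lit 6761883466) (nat_lit 76) (nat_lit 12733910611) (nat_lit 76) (nat_lit 1814924938) (nat_lit 18) (nat_lit 4) (nat_lit 19) (nat_lit 5) (nat_lit 19) (nat_lit 4) (nat_lit 376) (nat_lit 336) (nat_lit 308)) (XT.lf (nat_lit 0) (nat_lit 3494235975) (nat_lit 152) (nat_lit 3757019484) (nat_lit 76) (nat_lit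 15264743322) (nat_lit 17) (nat_lit 5) (nat_lit 19) (nat_lit 5) (nat_lit 18) (nat_lit 4) (nat_lit 377) (nat_lit 336) (nat_lit 307))))))) (XT.nd (nat_lit 780) (nat_lit 304) (nat_lit 0) (XT.nd (nat_lit 390) (nat_lit 228) (nat_lit 0) (XT.nd (nat_lit 156) (nat_lit 228) (nat_lit 0) (XT.nd (nat_lit 78) (nat_lit 0) (nat_lit 0) (XT.lf (nat_lit 0) (nat_lit 8095295480) (nat_lit 76) (nat_lit 1144375325) (nat_lit 152) (nat_lit 14565513710) (nat_lit 16) (nat_lit 5) (nat_lit 17) (nat_lit 5) (nat_lit 18) (nat_lit 4) (nat_lit 378) (nat_lit 336) (nat_lit 306)) (XT.lf (nat_lit 0) (nat_lit 15596889012) (nat_lit 152) (nat_lit 4375035170) (nat_lit 0) (nat_lit 5213429769) (nat_lit 16) (nat_lit 5) (nat_lit 18) (nat_lit 4) (nat_lit 16) (nat_lit 4) (nat_lit 379) (nat_lit 336) (nat_lit 305))) (XT.nd (nat_lit 78) (nat_lit 152) (nat_lit 0) (XT.lf (nat_lit 0) (nat_lit 8092204026) (nat_lit 76) (nat_lit 14516728741)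 (nat_lit 76) (nat_lit 4055323522) (nat_lit 15) (nat_lit 4) (nat_lit 16) (nat_lit 5) (nat_lit 16) (nat_lit 4) (nat_lit 380) (nat_lit 336) (nat_lit 304)) (XT.nd (nat_lit 78) (nat_lit 76) (nat_lit 0) (XT.lf (nat_lit 0) (nat_lit 1869328764) (nat_lit 152) (nat_lit 6645373589) (nat_lit 76) (nat_lit 19739495597) (nat_lit 14) (nat_lit 5) (nat_lit 16) (nat_lit 5) (nat_lit 15) (nat_lit 4) (nat_lit 381) (nat_lit 336) (nat_lit 303)) (XT.lf (nat_lit 0) (nat_lit 6306886978) (nat_lit 76) (nat_lit 1821618073) (nat_lit 152) (nat_lit 21828046913) (nat_lit 13) (nat_lit 5) (nat_lit 14) (nat_lit 5) (nat_lit 15) (nat_lit 4) (nat_lit 382) (nat_lit 336) (nat_lit 302))))) (XT.nd (nat_lit 156) (nat_lit 152) (nat_lit 0) (XT.nd (nat_lit 78) (nat_lit 76) (nat_lit 0) (XT.lf (nat_lit 0) (nat_lit 15133346398) (nat_lit 152) (nat_lit 11381302210) (nat_lit 0) (nat_lit 5260865324) (nat_lit 13) (nat_lit 5) (nat_lit 15) (nat_lit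 4) (nat_lit 13) (nat_lit 4) (nat_lit 383) (nat_lit 336) (nat_lit 301)) (XT.lf (nat_lit 0) (nat_lit 1781397438) (nat_lit 76) (nat_lit 20941111774) (nat_lit 76) (nat_lit 11015581978) (nat_lit 12) (nat_lit 4) (nat_lit 13) (nat_lit 5) (nat_lit 13) (nat_lit 4) (nat_lit 384) (nat_lit 336) (nat_lit 300))) (XT.nd (nat_lit 78) (nat_lit 152) (nat_lit 0) (XT.lf (nat_lit 0) (nat_lit 16518711745) (nat_lit 76) (nat_lit 14646938186) (nat_lit 76) (nat_lit 4672289203) (nat_lit 12) (nat_lit 4) (nat_lit 13) (nat_lit 5) (nat_lit 13) (nat_lit 4) (nat_lit 385) (nat_lit 336) (nat_lit 299)) (XT.nd (nat_lit 78) (nat_lit 76) (nat_lit 0) (XT.lf (nat_lit 0) (nat_lit 2008359071) (nat_lit 152) (nat_lit 5842742843) (nat_lit 76) (nat_lit 30255382571) (nat_lit 11) (nat_lit 5) (nat_lit 13) (nat_lit 5) (nat_lit 12) (nat_lit 4) (nat_lit 386) (nat_lit 336) (nat_lit 298)) (XT.lf (nat_lit 0) (nat_lit 8926303509) (nat_lit 76)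 (nat_lit 202804666) (nat_lit 152) (nat_lit 31405060321) (nat_lit 10) (nat_lit 5) (nat_lit 11) (nat_lit 5) (nat_lit 12) (nat_lit 4) (nat_lit 387) (nat_lit 336) (nat_lit 297)))))) (XT.nd (nat_lit 390) (nat_lit 152) (nat_lit 0) (XT.nd (nat_lit 156) (nat_lit 152) (nat_lit 0) (XT.nd (nat_lit 78) (nat_lit 0) (nat_lit 0) (XT.lf (nat_lit 0) (nat_lit 17120917844) (nat_lit 152) (nat_lit 18243122725) (nat_lit 0) (nat_lit 7767923501) (nat_lit 10) (nat_lit 5) (nat_lit 12) (nat_lit 4) (nat_lit 10) (nat_lit 4) (nat_lit 388) (nat_lit 336) (nat_lit 296)) (XT.lf (nat_lit 0) (nat_lit 25705229479) (nat_lit 152) (nat_lit 3917304025) (nat_lit 0) (nat_lit 16318805442) (nat_lit 10) (nat_lit 5) (nat_lit 12) (nat_lit 4) (nat_lit 10) (nat_lit 4) (nat_lit 389) (nat_lit 336) (nat_lit 295))) (XT.nd (nat_lit 78) (nat_lit 76) (nat_lit 0) (XT.lf (nat_lit 0) (nat_lit 12062792020) (nat_lit 76) (nat_lit 23155354035) (nat_lit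 76) (nat_lit 13737976579) (nat_lit 9) (nat_lit 4) (nat_lit 10) (nat_lit 5) (nat_lit 10) (nat_lit 4) (nat_lit 390) (nat_lit 336) (nat_lit 294)) (XT.nd (nat_lit 78) (nat_lit 76) (nat_lit 0) (XT.lf (nat_lit 0) (nat_lit 29451269018) (nat_lit 76) (nat_lit 16101024636) (nat_lit 76) (nat_lit 6654986606) (nat_lit 9) (nat_lit 4) (nat_lit 10) (nat_lit 5) (nat_lit 10) (nat_lit 4) (nat_lit 391) (nat_lit 336) (nat_lit 293)) (XT.lf (nat_lit 0) (nat_lit 900318512) (nat_lit 152) (nat_lit 7599913092) (nat_lit 76) (nat_lit 47219956690) (nat_lit 8) (nat_lit 5) (nat_lit 10) (nat_lit 5) (nat_lit 9) (nat_lit 4) (nat_lit 392) (nat_lit 336) (nat_lit 292))))) (XT.nd (nat_lit 156) (nat_lit 76) (nat_lit 0) (XT.nd (nat_lit 78) (nat_lit 0) (nat_lit 0) (XT.lf (nat_lit 0) (nat_lit 8876892600) (nat_lit 152) (nat_lit 50526064912) (nat_lit 0) (nat_lit 83237581) (nat_lit 7) (nat_lit 5) (nat_lit 9) (nat_lit 4) (nat_lit 7)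 (nat_lit 4) (nat_lit 393) (nat_lit 336) (nat_lit 291)) (XT.lf (nat_lit 0) (nat_lit 17884492936) (nat_lit 152) (nat_lit 36567791123) (nat_lit 0) (nat_lit 9069771540) (nat_lit 7) (nat_lit 5) (nat_lit 9) (nat_lit 4) (nat_lit 7) (nat_lit 4) (nat_lit 394) (nat_lit 336) (nat_lit 290))) (XT.nd (nat_lit 78) (nat_lit 76) (nat_lit 0) (XT.lf (nat_lit 0) (nat_lit 27574666778) (nat_lit 152) (nat_lit 21568726256) (nat_lit 0) (nat_lit 18740439476) (nat_lit 7) (nat_lit 5) (nat_lit 9) (nat_lit 4) (nat_lit 7) (nat_lit 4) (nat_lit 395) (nat_lit 336) (nat_lit 289)) (XT.nd (nat_lit 78) (nat_lit 76) (nat_lit 0) (XT.lf (nat_lit 0) (nat_lit 38004837377) (nat_lit 152) (nat_lit 5439986966) (nat_lit 0) (nat_lit 29152549052) (nat_lit 7) (nat_lit 5) (nat_lit 9) (nat_lit 4) (nat_lit 7) (nat_lit 4) (nat_lit 396) (nat_lit 336) (nat_lit 288)) (XT.lf (nat_lit 0) (nat_lit 12541374825) (nat_lit 76) (nat_lit 36997058693)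 (nat_lit 76) (nat_lit 28128047199) (nat_lit 6) (nat_lit 4) (nat_lit 7) (nat_lit 5) (nat_lit 7) (nat_lit 4) (nat_lit 397) (nat_lit 336) (nat_lit 287))))))))
noncomputable def xc83 : XT := (XT.nd (nat_lit 1482) (nat_lit 152) (nat_lit 0) (XT.nd (nat_lit 702) (nat_lit 76) (nat_lit 0) (XT.nd (nat_lit 312) (nat_lit 76) (nat_lit 0) (XT.nd (nat_lit 156) (nat_lit 76) (nat_lit 0) (XT.nd (nat_lit 78) (nat_lit 0) (nat_lit 0) (XT.lf (nat_lit 0) (nat_lit 32207222194) (nat_lit 76) (nat_lit 29904516234) (nat_lit 76) (nat_lit 21020020324) (nat_lit 6) (nat_lit 4) (nat_lit 7) (nat_lit 5) (nat_lit 7) (nat_lit 4) (nat_lit 398) (nat_lit 336) (nat_lit 286)) (XT.lf (nat_lit 0) (nat_lit 53387633422) (nat_lit 76) (nat_lit 22273905969) (nat_lit 76) (nat_lit 13375072636) (nat_lit 6) (nat_lit 4) (nat_lit 7) (nat_lit 5) (nat_lit 7) (nat_lit 4) (nat_lit 399) (nat_lit 336) (nat_lit 285))) (XT.nd (nat_lit 78) (nat_lit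 76) (nat_lit 0) (XT.lf (nat_lit 0) (nat_lit 76208122057) (nat_lit 76) (nat_lit 14060009467) (nat_lit 76) (nat_lit 5147900743) (nat_lit 6) (nat_lit 4) (nat_lit 7) (nat_lit 5) (nat_lit 7) (nat_lit 4) (nat_lit 400) (nat_lit 336) (nat_lit 284)) (XT.lf (nat_lit 0) (nat_lit 3524647287) (nat_lit 152) (nat_lit 1593134394) (nat_lit 76) (nat_lit 97182903234) (nat_lit 5) (nat_lit 5) (nat_lit 7) (nat_lit 5) (nat_lit 6) (nat_lit 4) (nat_lit 401) (nat_lit 336) (nat_lit 283)))) (XT.nd (nat_lit 156) (nat_lit 0) (nat_lit 0) (XT.nd (nat_lit 78) (nat_lit 0) (nat_lit 0) (XT.lf (nat_lit 0) (nat_lit 13149069611) (nat_lit 152) (nat_lit 91658253413) (nat_lit 0) (nat_lit 4875197147) (nat_lit 4) (nat_lit 5) (nat_lit 6) (nat_lit 4) (nat_lit 4) (nat_lit 4) (nat_lit 402) (nat_lit 336) (nat_lit 282)) (XT.lf (nat_lit 0) (nat_lit 23697231616) (nat_lit 152) (nat_lit 78531768818) (nat_lit 0) (nat_lit 15413601344) (nat_lit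 4) (nat_lit 5) (nat_lit 6) (nat_lit 4) (nat_lit 4) (nat_lit 4) (nat_lit 403) (nat_lit 336) (nat_lit 281))) (XT.nd (nat_lit 78) (nat_lit 0) (nat_lit 0) (XT.lf (nat_lit 0) (nat_lit 35067178043) (nat_lit 152) (nat_lit 64399566816) (nat_lit 0) (nat_lit 26774512762) (nat_lit 4) (nat_lit 5) (nat_lit 6) (nat_lit 4) (nat_lit 4) (nat_lit 4) (nat_lit 404) (nat_lit 336) (nat_lit 280)) (XT.nd (nat_lit 78) (nat_lit 0) (nat_lit 0) (XT.lf (nat_lit 0) (nat_lit 47326286352) (nat_lit 152) (nat_lit 49177901025) (nat_lit 0) (nat_lit 39025255323) (nat_lit 4) (nat_lit 5) (nat_lit 6) (nat_lit 4) (nat_lit 4) (nat_lit 4) (nat_lit 405) (nat_lit 336) (nat_lit 279)) (XT.lf (nat_lit 0) (nat_lit 60547203110) (nat_lit 152) (nat_lit 32776568981) (nat_lit 0) (nat_lit 52238426018) (nat_lit 4) (nat_lit 5) (nat_lit 6) (nat_lit 4) (nat_lit 4) (nat_lit 4) (nat_lit 406) (nat_lit 336) (nat_lit 278)))))) (XT.nd (nat_lit 390)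 (nat_lit 0) (nat_lit 0) (XT.nd (nat_lit 156) (nat_lit 0) (nat_lit 0) (XT.nd (nat_lit 78) (nat_lit 76) (nat_lit 0) (XT.lf (nat_lit 0) (nat_lit 74808274492) (nat_lit 152) (nat_lit 15098377604) (nat_lit 0) (nat_lit 66492325119) (nat_lit 4) (nat_lit 5) (nat_lit 6) (nat_lit 4) (nat_lit 4) (nat_lit 4) (nat_lit 407) (nat_lit 336) (nat_lit 277)) (XT.lf (nat_lit 0) (nat_lit 4170034785) (nat_lit 76) (nat_lit 86124265200) (nat_lit 76) (nat_lit 77801674827) (nat_lit 3) (nat_lit 4) (nat_lit 4) (nat_lit 5) (nat_lit 4) (nat_lit 4) (nat_lit 408) (nat_lit 336) (nat_lit 276))) (XT.nd (nat_lit 78) (nat_lit 0) (nat_lit 0) (XT.lf (nat_lit 0) (nat_lit 25806768189) (nat_lit 76) (nat_lit 81609471220) (nat_lit 76) (nat_lit 73280731771) (nat_lit 3) (nat_lit 4) (nat_lit 4) (nat_lit 5) (nat_lit 4) (nat_lit 4) (nat_lit 409) (nat_lit 336) (nat_lit 275)) (XT.nd (nat_lit 78) (nat_lit 0) (nat_lit 0) (XT.lf (nat_lit 0)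 (nat_lit 49144986479) (nat_lit 76) (nat_lit 76748332220) (nat_lit 76) (nat_lit 68413899184) (nat_lit 3) (nat_lit 4) (nat_lit 4) (nat_lit 5) (nat_lit 4) (nat_lit 4) (nat_lit 410) (nat_lit 336) (nat_lit 274)) (XT.lf (nat_lit 0) (nat_lit 74322990208) (nat_lit 76) (nat_lit 71512041451) (nat_lit 76) (nat_lit 63172336575) (nat_lit 3) (nat_lit 4) (nat_lit 4) (nat_lit 5) (nat_lit 4) (nat_lit 4) (nat_lit 411) (nat_lit 336) (nat_lit 273))))) (XT.nd (nat_lit 156) (nat_lit 0) (nat_lit 0) (XT.nd (nat_lit 78) (nat_lit 0) (nat_lit 0) (XT.lf (nat_lit 0) (nat_lit 101489982360) (nat_lit 76) (nat_lit 65869569042) (nat_lit 76) (nat_lit 57524982832) (nat_lit 3) (nat_lit 4) (nat_lit 4) (nat_lit 5) (nat_lit 4) (nat_lit 4) (nat_lit 412) (nat_lit 336) (nat_lit 272)) (XT.lf (nat_lit 0) (nat_lit 130806952520) (nat_lit 76) (nat_lit 59787478120) (nat_lit 76) (nat_lit 51438372156) (nat_lit 3) (nat_lit 4) (nat_lit 4)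 (nat_lit 5) (nat_lit 4) (nat_lit 4) (nat_lit 413) (nat_lit 336) (nat_lit 271))) (XT.nd (nat_lit 78) (nat_lit 0) (nat_lit 0) (XT.lf (nat_lit 0) (nat_lit 162447630880) (nat_lit 76) (nat_lit 53229726664) (nat_lit 76) (nat_lit 44876435744) (nat_lit 3) (nat_lit 4) (nat_lit 4) (nat_lit 5) (nat_lit 4) (nat_lit 4) (nat_lit 414) (nat_lit 336) (nat_lit 270)) (XT.nd (nat_lit 78) (nat_lit 0) (nat_lit 0) (XT.lf (nat_lit 0) (nat_lit 196599517756) (nat_lit 76) (nat_lit 46157453925) (nat_lit 76) (nat_lit 37800288044) (nat_lit 3) (nat_lit 4) (nat_lit 4) (nat_lit 5) (nat_lit 4) (nat_lit 4) (nat_lit 415) (nat_lit 336) (nat_lit 269)) (XT.lf (nat_lit 0) (nat_lit 233464994701) (nat_lit 76) (nat_lit 38528750138) (nat_lit 76) (nat_lit 30167996331) (nat_lit 3) (nat_lit 4) (nat_lit 4) (nat_lit 5) (nat_lit 4) (nat_lit 4) (nat_lit 416) (nat_lit 336) (nat_lit 268))))))) (XT.nd (nat_lit 780) (nat_lit 0) (nat_lit 0)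 (XT.nd (nat_lit 390) (nat_lit 0) (nat_lit 0) (XT.nd (nat_lit 156) (nat_lit 152) (nat_lit 0) (XT.nd (nat_lit 78) (nat_lit 0) (nat_lit 0) (XT.lf (nat_lit 0) (nat_lit 273262523800) (nat_lit 76) (nat_lit 30298408170) (nat_lit 76) (nat_lit 21934332210) (nat_lit 3) (nat_lit 4) (nat_lit 4) (nat_lit 5) (nat_lit 4) (nat_lit 4) (nat_lit 417) (nat_lit 336) (nat_lit 267)) (XT.lf (nat_lit 0) (nat_lit 316227942262) (nat_lit 76) (nat_lit 21417655625) (nat_lit 76) (nat_lit 13050503596) (nat_lit 3) (nat_lit 4) (nat_lit 4) (nat_lit 5) (nat_lit 4) (nat_lit 4) (nat_lit 418) (nat_lit 336) (nat_lit 266))) (XT.nd (nat_lit 78) (nat_lit 152) (nat_lit 0) (XT.lf (nat_lit 0) (nat_lit 362615859975) (nat_lit 76) (nat_lit 11833865819) (nat_lit 76) (nat_lit 3463865579) (nat_lit 3) (nat_lit 4) (nat_lit 4) (nat_lit 5) (nat_lit 4) (nat_lit 4) (nat_lit 419) (nat_lit 336) (nat_lit 265)) (XT.nd (nat_lit 78) (nat_lit 0) (nat_lit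 0) (XT.lf (nat_lit 0) (nat_lit 5501848693) (nat_lit 76) (nat_lit 1168577348) (nat_lit 152) (nat_lit 400614769339) (nat_lit 1) (nat_lit 5) (nat_lit 2) (nat_lit 5) (nat_lit 3) (nat_lit 4) (nat_lit 420) (nat_lit 336) (nat_lit 264)) (XT.lf (nat_lit 0) (nat_lit 18099443779) (nat_lit 152) (nat_lit 410501456447) (nat_lit 0) (nat_lit 10344740673) (nat_lit 1) (nat_lit 5) (nat_lit 3) (nat_lit 4) (nat_lit 1) (nat_lit 4) (nat_lit 421) (nat_lit 336) (nat_lit 263))))) (XT.nd (nat_lit 156) (nat_lit 0) (nat_lit 0) (XT.nd (nat_lit 78) (nat_lit 0) (nat_lit 0) (XT.lf (nat_lit 0) (nat_lit 30466722787) (nat_lit 152) (nat_lit 419960358442) (nat_lit 0) (nat_lit 22709926160) (nat_lit 1) (nat_lit 5) (nat_lit 3) (nat_lit 4) (nat_lit 1) (nat_lit 4) (nat_lit 422) (nat_lit 336) (nat_lit 262)) (XT.lf (nat_lit 0) (nat_lit 43817446330) (nat_lit 152) (nat_lit 430188001111) (nat_lit 0) (nat_lit 36058711258) (nat_lit 1)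 (nat_lit 5) (nat_lit 3) (nat_lit 4) (nat_lit 1) (nat_lit 4) (nat_lit 423) (nat_lit 336) (nat_lit 261))) (XT.nd (nat_lit 78) (nat_lit 0) (nat_lit 0) (XT.lf (nat_lit 0) (nat_lit 58230729806) (nat_lit 152) (nat_lit 441244992706) (nat_lit 0) (nat_lit 50470199878) (nat_lit 1) (nat_lit 5) (nat_lit 3) (nat_lit 4) (nat_lit 1) (nat_lit 4) (nat_lit 424) (nat_lit 336) (nat_lit 260)) (XT.nd (nat_lit 78) (nat_lit 0) (nat_lit 0) (XT.lf (nat_lit 0) (nat_lit 73791985266) (nat_lit 152) (nat_lit 453196856141) (nat_lit 0) (nat_lit 66029793434) (nat_lit 1) (nat_lit 5) (nat_lit 3) (nat_lit 4) (nat_lit 1) (nat_lit 4) (nat_lit 425) (nat_lit 336) (nat_lit 259)) (XT.lf (nat_lit 0) (nat_lit 90593427558) (nat_lit 152) (nat_lit 466114417273) (nat_lit 0) (nat_lit 82829696926) (nat_lit 1) (nat_lit 5) (nat_lit 3) (nat_lit 4) (nat_lit 1) (nat_lit 4) (nat_lit 426) (nat_lit 336) (nat_lit 258)))))) (XT.nd (nat_lit 390)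 (nat_lit 0) (nat_lit 0) (XT.nd (nat_lit 156) (nat_lit 0) (nat_lit 0) (XT.nd (nat_lit 78) (nat_lit 0) (nat_lit 0) (XT.lf (nat_lit 0) (nat_lit 108734620783) (nat_lit 152) (nat_lit 480074224613) (nat_lit 0) (nat_lit 100969465336) (nat_lit 1) (nat_lit 5) (nat_lit 3) (nat_lit 4) (nat_lit 1) (nat_lit 4) (nat_lit 427) (nat_lit 336) (nat_lit 257)) (XT.lf (nat_lit 0) (nat_lit 128323068309) (nat_lit 152) (nat_lit 495159002944) (nat_lit 0) (nat_lit 120556593590) (nat_lit 1) (nat_lit 5) (nat_lit 3) (nat_lit 4) (nat_lit 1) (nat_lit 4) (nat_lit 428) (nat_lit 336) (nat_lit 256))) (XT.nd (nat_lit 78) (nat_lit 0) (nat_lit 0) (XT.lf (nat_lit 0) (nat_lit 149474849826) (nat_lit 152) (nat_lit 511458143546) (nat_lit 0) (nat_lit 141707153557) (nat_lit 1) (nat_lit 5) (nat_lit 3) (nat_lit 4) (nat_lit 1) (nat_lit 4) (nat_lit 429) (nat_lit 336) (nat_lit 255)) (XT.nd (nat_lit 78) (nat_lit 0) (nat_lit 0) (XT.lf (nat_lit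 0) (nat_lit 172315309222) (nat_lit 152) (nat_lit 529068233919) (nat_lit 0) (nat_lit 164546481889) (nat_lit 1) (nat_lit 5) (nat_lit 3) (nat_lit 4) (nat_lit 1) (nat_lit 4) (nat_lit 430) (nat_lit 336) (nat_lit 254)) (XT.lf (nat_lit 0) (nat_lit 196979797370) (nat_lit 152) (nat_lit 548093630154) (nat_lit 0) (nat_lit 189209922755) (nat_lit 1) (nat_lit 5) (nat_lit 3) (nat_lit 4) (nat_lit 1) (nat_lit 4) (nat_lit 431) (nat_lit 336) (nat_lit 253))))) (XT.nd (nat_lit 156) (nat_lit 0) (nat_lit 0) (XT.nd (nat_lit 78) (nat_lit 0) (nat_lit 0) (XT.lf (nat_lit 0) (nat_lit 223614474198) (nat_lit 152) (nat_lit 568647075339) (nat_lit 0) (nat_lit 215843629879) (nat_lit 1) (nat_lit 5) (nat_lit 3) (nat_lit 4) (nat_lit 1) (nat_lit 4) (nat_lit 432) (nat_lit 336) (nat_lit 252)) (XT.lf (nat_lit 0) (nat_lit 252377174829) (nat_lit 152) (nat_lit 590850367669) (nat_lit 0) (nat_lit 244605432634) (nat_lit 1) (nat_lit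 5) (nat_lit 3) (nat_lit 4) (nat_lit 1) (nat_lit 4) (nat_lit 433) (nat_lit 336) (nat_lit 251))) (XT.nd (nat_lit 78) (nat_lit 0) (nat_lit 0) (XT.lf (nat_lit 0) (nat_lit 283438344896) (nat_lit 152) (nat_lit 614835082209) (nat_lit 0) (nat_lit 275665771336) (nat_lit 1) (nat_lit 5) (nat_lit 3) (nat_lit 4) (nat_lit 1) (nat_lit 4) (nat_lit 434) (nat_lit 336) (nat_lit 250)) (XT.nd (nat_lit 78) (nat_lit 0) (nat_lit 0) (XT.lf (nat_lit 0) (nat_lit 316982050591) (nat_lit 152) (nat_lit 640743350600) (nat_lit 0) (nat_lit 309208707248) (nat_lit 1) (nat_lit 5) (nat_lit 3) (nat_lit 4) (nat_lit 1) (nat_lit 4) (nat_lit 435) (nat_lit 336) (nat_lit 249)) (XT.lf (nat_lit 0) (nat_lit 353207069431) (nat_lit 152) (nat_lit 668728703322) (nat_lit 0) (nat_lit 345433013326) (nat_lit 1) (nat_lit 5) (nat_lit 3) (nat_lit 4) (nat_lit 1) (nat_lit 4) (nat_lit 436) (nat_lit 336) (nat_lit 248))))))))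
noncomputable def xc84 : XT := (XT.nd (nat_lit 1482) (nat_lit 0) (nat_lit 0) (XT.nd (nat_lit 702) (nat_lit 0) (nat_lit 0) (XT.nd (nat_lit 312) (nat_lit 0) (nat_lit 0) (XT.nd (nat_lit 156) (nat_lit 0) (nat_lit 0) (XT.nd (nat_lit 78) (nat_lit 0) (nat_lit 0) (XT.lf (nat_lit 0) (nat_lit 392328068194) (nat_lit 152) (nat_lit 698956979502) (nat_lit 0) (nat_lit 384553352124) (nat_lit 1) (nat_lit 5) (nat_lit 3) (nat_lit 4) (nat_lit 1) (nat_lit 4) (nat_lit 437) (nat_lit 336) (nat_lit 247)) (XT.lf (nat_lit 0) (nat_lit 434576875020) (nat_lit 152) (nat_lit 731607309666) (nat_lit 0) (nat_lit 426801547871) (nat_lit 1) (nat_lit 5) (nat_lit 3) (nat_lit 4) (nat_lit 1) (nat_lit 4) (nat_lit 438) (nat_lit 336) (nat_lit 246))) (XT.nd (nat_lit 78) (nat_lit 0) (nat_lit 0) (XT.lf (nat_lit 0) (nat_lit 480203853209) (nat_lit 152) (nat_lit 766873177252) (nat_lit 0) (nat_lit 472427960247) (nat_lit 1) (nat_lit 5) (nat_lit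 3) (nat_lit 4) (nat_lit 1) (nat_lit 4) (nat_lit 439) (nat_lit 336) (nat_lit 245)) (XT.lf (nat_lit 0) (nat_lit 529479384854) (nat_lit 152) (nat_lit 804963565179) (nat_lit 0) (nat_lit 521702967990) (nat_lit 1) (nat_lit 5) (nat_lit 3) (nat_lit 4) (nat_lit 1) (nat_lit 4) (nat_lit 440) (nat_lit 336) (nat_lit 244)))) (XT.nd (nat_lit 156) (nat_lit 0) (nat_lit 0) (XT.nd (nat_lit 78) (nat_lit 0) (nat_lit 0) (XT.lf (nat_lit 0) (nat_lit 582695473106) (nat_lit 152) (nat_lit 846104194264) (nat_lit 0) (nat_lit 574918571148) (nat_lit 1) (nat_lit 5) (nat_lit 3) (nat_lit 4) (nat_lit 1) (nat_lit 4) (nat_lit 441) (nat_lit 336) (nat_lit 243)) (XT.lf (nat_lit 0) (nat_lit 640167472561) (nat_lit 152) (nat_lit 890538860827) (nat_lit 0) (nat_lit 632390121442) (nat_lit 1) (nat_lit 5) (nat_lit 3) (nat_lit 4) (nat_lit 1) (nat_lit 4) (nat_lit 442) (nat_lit 336) (nat_lit 242))) (XT.nd (nat_lit 78) (nat_lit 0) (nat_lit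 0) (XT.lf (nat_lit 0) (nat_lit 702235958031) (nat_lit 152) (nat_lit 938530881412) (nat_lit 0) (nat_lit 694458191023) (nat_lit 1) (nat_lit 5) (nat_lit 3) (nat_lit 4) (nat_lit 1) (nat_lit 4) (nat_lit 443) (nat_lit 336) (nat_lit 241)) (XT.nd (nat_lit 78) (nat_lit 0) (nat_lit 0) (XT.lf (nat_lit 0) (nat_lit 769268742764) (nat_lit 152) (nat_lit 990364653177) (nat_lit 0) (nat_lit 761490590672) (nat_lit 1) (nat_lit 5) (nat_lit 3) (nat_lit 4) (nat_lit 1) (nat_lit 4) (nat_lit 444) (nat_lit 336) (nat_lit 240)) (XT.lf (nat_lit 0) (nat_lit 841663058076) (nat_lit 152) (nat_lit 1046347339214) (nat_lit 0) (nat_lit 833884549426) (nat_lit 1) (nat_lit 5) (nat_lit 3) (nat_lit 4) (nat_lit 1) (nat_lit 4) (nat_lit 445) (nat_lit 336) (nat_lit 239)))))) (XT.nd (nat_lit 390) (nat_lit 0) (nat_lit 0) (XT.nd (nat_lit 156) (nat_lit 0) (nat_lit 0) (XT.nd (nat_lit 78) (nat_lit 0) (nat_lit 0) (XT.lf (nat_lit 0) (nat_lit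 919847907318) (nat_lit 152) (nat_lit 1106810688774) (nat_lit 0) (nat_lit 912069068520) (nat_lit 1) (nat_lit 5) (nat_lit 3) (nat_lit 4) (nat_lit 1) (nat_lit 4) (nat_lit 446) (nat_lit 336) (nat_lit 238)) (XT.lf (nat_lit 0) (nat_lit 1004286608113) (nat_lit 152) (nat_lit 1172113003187) (nat_lit 0) (nat_lit 996507463625) (nat_lit 1) (nat_lit 5) (nat_lit 3) (nat_lit 4) (nat_lit 1) (nat_lit 4) (nat_lit 447) (nat_lit 336) (nat_lit 237))) (XT.nd (nat_lit 78) (nat_lit 0) (nat_lit 0) (XT.lf (nat_lit 0) (nat_lit 1095479537950) (nat_lit 152) (nat_lit 1242641259132) (nat_lit 0) (nat_lit 1087700110414) (nat_lit 1) (nat_lit 5) (nat_lit 3) (nat_lit 4) (nat_lit 1) (nat_lit 4) (nat_lit 448) (nat_lit 336) (nat_lit 236)) (XT.nd (nat_lit 78) (nat_lit 0) (nat_lit 0) (XT.lf (nat_lit 0) (nat_lit 1193967099374) (nat_lit 152) (nat_lit 1318813401829) (nat_lit 0) (nat_lit 1186187409757) (nat_lit 1) (nat_lit 5) (nat_lit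 3) (nat_lit 4) (nat_lit 1) (nat_lit 4) (nat_lit 449) (nat_lit 336) (nat_lit 235)) (XT.lf (nat_lit 0) (nat_lit 1300332922380) (nat_lit 152) (nat_lit 1401080821753) (nat_lit 0) (nat_lit 1292552990095) (nat_lit 1) (nat_lit 5) (nat_lit 3) (nat_lit 4) (nat_lit 1) (nat_lit 4) (nat_lit 450) (nat_lit 336) (nat_lit 234))))) (XT.nd (nat_lit 156) (nat_lit 0) (nat_lit 0) (XT.nd (nat_lit 78) (nat_lit 0) (nat_lit 0) (XT.lf (nat_lit 0) (nat_lit 1415207322955) (nat_lit 152) (nat_lit 1489931029541) (nat_lit 0) (nat_lit 1407427165978) (nat_lit 1) (nat_lit 5) (nat_lit 3) (nat_lit 4) (nat_lit 1) (nat_lit 4) (nat_lit 451) (nat_lit 336) (nat_lit 233)) (XT.lf (nat_lit 0) (nat_lit 1539271038289) (nat_lit 152) (nat_lit 1585890544942) (nat_lit 0) (nat_lit 1531490673263) (nat_lit 1) (nat_lit 5) (nat_lit 3) (nat_lit 4) (nat_lit 1) (nat_lit 4) (nat_lit 452) (nat_lit 336) (nat_lit 232))) (XT.nd (nat_lit 78) (nat_lit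 0) (nat_lit 0) (XT.lf (nat_lit 0) (nat_lit 1673259260768) (nat_lit 152) (nat_lit 1689528016937) (nat_lit 0) (nat_lit 1665478703105) (nat_lit 1) (nat_lit 5) (nat_lit 3) (nat_lit 4) (nat_lit 1) (nat_lit 4) (nat_lit 453) (nat_lit 336) (nat_lit 231)) (XT.nd (nat_lit 78) (nat_lit 0) (nat_lit 0) (XT.lf (nat_lit 0) (nat_lit 1817965994674) (nat_lit 152) (nat_lit 1801457593509) (nat_lit 0) (nat_lit 1810185258643) (nat_lit 1) (nat_lit 5) (nat_lit 3) (nat_lit 4) (nat_lit 1) (nat_lit 4) (nat_lit 454) (nat_lit 336) (nat_lit 230)) (XT.lf (nat_lit 0) (nat_lit 1974248761393) (nat_lit 152) (nat_lit 1922342561035) (nat_lit 0) (nat_lit 1966467860206) (nat_lit 1) (nat_lit 5) (nat_lit 3) (nat_lit 4) (nat_lit 1) (nat_lit 4) (nat_lit 455) (nat_lit 336) (nat_lit 229))))))) (XT.nd (nat_lit 44928) (nat_lit 0) (nat_lit 2660) (XT.nd (nat_lit 44538) (nat_lit 0) (nat_lit 4484) (XT.nd (nat_lit 156) (nat_lit 0) (nat_lit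 0) (XT.nd (nat_lit 78) (nat_lit 0) (nat_lit 0) (XT.lf (nat_lit 0) (nat_lit 2143033681023) (nat_lit 152) (nat_lit 2052899274881) (nat_lit 0) (nat_lit 2135252626915) (nat_lit 1) (nat_lit 5) (nat_lit 3) (nat_lit 4) (nat_lit 1) (nat_lit 4) (nat_lit 456) (nat_lit 336) (nat_lit 228)) (XT.lf (nat_lit 0) (nat_lit 2325320960497) (nat_lit 152) (nat_lit 2193901404460) (nat_lit 0) (nat_lit 2317539764794) (nat_lit 1) (nat_lit 5) (nat_lit 3) (nat_lit 4) (nat_lit 1) (nat_lit 4) (nat_lit 457) (nat_lit 336) (nat_lit 227))) (XT.nd (nat_lit 78) (nat_lit 0) (nat_lit 0) (XT.lf (nat_lit 0) (nat_lit 2522190820729) (nat_lit 152) (nat_lit 2346184517949) (nat_lit 0) (nat_lit 2514409493921) (nat_lit 1) (nat_lit 5) (nat_lit 3) (nat_lit 4) (nat_lit 1) (nat_lit 4) (nat_lit 458) (nat_lit 336) (nat_lit 226)) (XT.lf (nat_lit 0) (nat_lit 2734809897929) (nat_lit 152) (nat_lit 2510651033798) (nat_lit 0) (nat_lit 2727028449726)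 (nat_lit 1) (nat_lit 5) (nat_lit 3) (nat_lit 4) (nat_lit 1) (nat_lit 4) (nat_lit 459) (nat_lit 336) (nat_lit 225)))) (XT.nd (nat_lit 156) (nat_lit 912) (nat_lit 0) (XT.nd (nat_lit 78) (nat_lit 380) (nat_lit 0) (XT.lf (nat_lit 0) (nat_lit 1363053776) (nat_lit 228) (nat_lit 994050407) (nat_lit 228) (nat_lit 994050407) (nat_lit 77) (nat_lit 4) (nat_lit 80) (nat_lit 5) (nat_lit 80) (nat_lit 4) (nat_lit 346) (nat_lit 337) (nat_lit 337)) (XT.lf (nat_lit 0) (nat_lit 377439823) (nat_lit 304) (nat_lit 829559855) (nat_lit 380) (nat_lit 5595999696) (nat_lit 72) (nat_lit 5) (nat_lit 76) (nat_lit 5) (nat_lit 77) (nat_lit 4) (nat_lit 347) (nat_lit 337) (nat_lit 336))) (XT.nd (nat_lit 78) (nat_lit 912) (nat_lit 0) (XT.lf (nat_lit 0) (nat_lit 4402687788) (nat_lit 380) (nat_lit 1918414185) (nat_lit 0) (nat_lit 598770970) (nat_lit 72) (nat_lit 5) (nat_lit 77) (nat_lit 4) (nat_lit 72) (nat_lit 4) (nat_lit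 348) (nat_lit 337) (nat_lit 335)) (XT.nd (nat_lit 78) (nat_lit 456) (nat_lit 0) (XT.lf (nat_lit 0) (nat_lit 603289849) (nat_lit 456) (nat_lit 4242412970) (nat_lit 76) (nat_lit 2212363514) (nat_lit 66) (nat_lit 5) (nat_lit 72) (nat_lit 5) (nat_lit 67) (nat_lit 4) (nat_lit 349) (nat_lit 337) (nat_lit 334)) (XT.lf (nat_lit 0) (nat_lit 550812939) (nat_lit 456) (nat_lit 3110713654) (nat_lit 532) (nat_lit 3554986238) (nat_lit 60) (nat_lit 5) (nat_lit 66) (nat_lit 5) (nat_lit 67) (nat_lit 4) (nat_lit 350) (nat_lit 337) (nat_lit 333)))))) (XT.nd (nat_lit 390) (nat_lit 836) (nat_lit 0) (XT.nd (nat_lit 156) (nat_lit 532) (nat_lit 0) (XT.nd (nat_lit 78) (nat_lit 456) (nat_lit 0) (XT.lf (nat_lit 0) (nat_lit 5730528341) (nat_lit 456) (nat_lit 1119210125) (nat_lit 532) (nat_lit 547402322) (nat_lit 60) (nat_lit 5) (nat_lit 66) (nat_lit 5) (nat_lit 67) (nat_lit 4) (nat_lit 351) (nat_lit 337) (nat_lit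 332)) (XT.lf (nat_lit 0) (nat_lit 2461659423) (nat_lit 456) (nat_lit 4010447282) (nat_lit 76) (nat_lit 1123521727) (nat_lit 54) (nat_lit 5) (nat_lit 60) (nat_lit 5) (nat_lit 55) (nat_lit 4) (nat_lit 352) (nat_lit 337) (nat_lit 331))) (XT.nd (nat_lit 78) (nat_lit 304) (nat_lit 0) (XT.lf (nat_lit 0) (nat_lit 1324255521) (nat_lit 228) (nat_lit 4256231258) (nat_lit 304) (nat_lit 2236744468) (nat_lit 51) (nat_lit 5) (nat_lit 54) (nat_lit 5) (nat_lit 55) (nat_lit 4) (nat_lit 353) (nat_lit 337) (nat_lit 330)) (XT.nd (nat_lit 78) (nat_lit 228) (nat_lit 0) (XT.lf (nat_lit 0) (nat_lit 755449552) (nat_lit 304) (nat_lit 1006201506) (nat_lit 76) (nat_lit 6300793749) (nat_lit 50) (nat_lit 5) (nat_lit 54) (nat_lit 5) (nat_lit 51) (nat_lit 5) (nat_lit 354) (nat_lit 337) (nat_lit 329)) (XT.lf (nat_lit 0) (nat_lit 3819943731) (nat_lit 304) (nat_lit 3478864145) (nat_lit 76) (nat_lit 1027727050) (nat_lit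 47) (nat_lit 5) (nat_lit 51) (nat_lit 5) (nat_lit 48) (nat_lit 4) (nat_lit 355) (nat_lit 337) (nat_lit 328))))) (XT.nd (nat_lit 156) (nat_lit 608) (nat_lit 0) (XT.nd (nat_lit 78) (nat_lit 76) (nat_lit 0) (XT.lf (nat_lit 0) (nat_lit 2456569479) (nat_lit 152) (nat_lit 4624203449) (nat_lit 228) (nat_lit 1535078445) (nat_lit 45) (nat_lit 5) (nat_lit 47) (nat_lit 5) (nat_lit 48) (nat_lit 4) (nat_lit 356) (nat_lit 337) (nat_lit 327)) (XT.lf (nat_lit 0) (nat_lit 1509328150) (nat_lit 228) (nat_lit 139689813) (nat_lit 76) (nat_lit 7282726027) (nat_lit 44) (nat_lit 5) (nat_lit 47) (nat_lit 5) (nat_lit 45) (nat_lit 5) (nat_lit 357) (nat_lit 337) (nat_lit 326))) (XT.nd (nat_lit 78) (nat_lit 380) (nat_lit 0) (XT.lf (nat_lit 0) (nat_lit 4744590246) (nat_lit 304) (nat_lit 2892387398) (nat_lit 76) (nat_lit 1630474967) (nat_lit 41) (nat_lit 5) (nat_lit 45) (nat_lit 5) (nat_lit 42) (nat_lit 4) (nat_lit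 358) (nat_lit 337) (nat_lit 325)) (XT.nd (nat_lit 78) (nat_lit 228) (nat_lit 0) (XT.lf (nat_lit 0) (nat_lit 3702689287) (nat_lit 152) (nat_lit 4511955735) (nat_lit 228) (nat_lit 1417437136) (nat_lit 39) (nat_lit 5) (nat_lit 41) (nat_lit 5) (nat_lit 42) (nat_lit 4) (nat_lit 359) (nat_lit 337) (nat_lit 324)) (XT.lf (nat_lit 0) (nat_lit 726574417) (nat_lit 152) (nat_lit 1054129854) (nat_lit 228) (nat_lit 8246281855) (nat_lit 36) (nat_lit 5) (nat_lit 38) (nat_lit 5) (nat_lit 39) (nat_lit 5) (nat_lit 360) (nat_lit 337) (nat_lit 323))))))))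
noncomputable def xc85 : XT := (XT.nd (nat_lit 1482) (nat_lit 760) (nat_lit 0) (XT.nd (nat_lit 702) (nat_lit 760) (nat_lit 0) (XT.nd (nat_lit 312) (nat_lit 380) (nat_lit 0) (XT.nd (nat_lit 156) (nat_lit 228) (nat_lit 0) (XT.nd (nat_lit 78) (nat_lit 152) (nat_lit 0) (XT.lf (nat_lit 0) (nat_lit 5235899539) (nat_lit 228) (nat_lit 2529791381) (nat_lit 76) (nat_lit 2678736392) (nat_lit 36) (nat_lit 5) (nat_lit 39) (nat_lit 5) (nat_lit 37) (nat_lit 4) (nat_lit 361) (nat_lit 337) (nat_lit 322)) (XT.lf (nat_lit 0) (nat_lit 4775450560) (nat_lit 152) (nat_lit 4192611916) (nat_lit 228) (nat_lit 1927261512) (nat_lit 34) (nat_lit 5) (nat_lit 36) (nat_lit 5) (nat_lit 37) (nat_lit 4) (nat_lit 362) (nat_lit 337) (nat_lit 321))) (XT.nd (nat_lit 78) (nat_lit 0) (nat_lit 0) (XT.lf (nat_lit 0) (nat_lit 1232757150) (nat_lit 152) (nat_lit 263560201) (nat_lit 228) (nat_lit 9886100315) (nat_lit 31) (nat_lit 5)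 (nat_lit 33) (nat_lit 5) (nat_lit 34) (nat_lit 5) (nat_lit 363) (nat_lit 337) (nat_lit 320)) (XT.lf (nat_lit 0) (nat_lit 5220381984) (nat_lit 228) (nat_lit 2747385959) (nat_lit 76) (nat_lit 3926331308) (nat_lit 31) (nat_lit 5) (nat_lit 34) (nat_lit 5) (nat_lit 32) (nat_lit 4) (nat_lit 364) (nat_lit 337) (nat_lit 319)))) (XT.nd (nat_lit 156) (nat_lit 76) (nat_lit 0) (XT.nd (nat_lit 78) (nat_lit 228) (nat_lit 0) (XT.lf (nat_lit 0) (nat_lit 5298017403) (nat_lit 76) (nat_lit 3952073665) (nat_lit 152) (nat_lit 3196083456) (nat_lit 30) (nat_lit 5) (nat_lit 31) (nat_lit 5) (nat_lit 32) (nat_lit 4) (nat_lit 365) (nat_lit 337) (nat_lit 318)) (XT.lf (nat_lit 0) (nat_lit 516096854) (nat_lit 228) (nat_lit 12124338598) (nat_lit 76) (nat_lit 402222163) (nat_lit 27) (nat_lit 5) (nat_lit 30) (nat_lit 5) (nat_lit 28) (nat_lit 4) (nat_lit 366) (nat_lit 337) (nat_lit 317))) (XT.nd (nat_lit 78) (nat_lit 76)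 (nat_lit 0) (XT.lf (nat_lit 0) (nat_lit 4532889869) (nat_lit 228) (nat_lit 4036447572) (nat_lit 76) (nat_lit 5096516808) (nat_lit 27) (nat_lit 5) (nat_lit 30) (nat_lit 5) (nat_lit 28) (nat_lit 4) (nat_lit 367) (nat_lit 337) (nat_lit 316)) (XT.nd (nat_lit 78) (nat_lit 0) (nat_lit 0) (XT.lf (nat_lit 0) (nat_lit 4740116709) (nat_lit 76) (nat_lit 4131149170) (nat_lit 152) (nat_lit 5467677950) (nat_lit 26) (nat_lit 5) (nat_lit 27) (nat_lit 5) (nat_lit 28) (nat_lit 4) (nat_lit 368) (nat_lit 337) (nat_lit 315)) (XT.lf (nat_lit 0) (nat_lit 13574010918) (nat_lit 152) (nat_lit 824914755) (nat_lit 0) (nat_lit 665623191) (nat_lit 26) (nat_lit 5) (nat_lit 28) (nat_lit 4) (nat_lit 26) (nat_lit 4) (nat_lit 369) (nat_lit 337) (nat_lit 314)))))) (XT.nd (nat_lit 390) (nat_lit 304) (nat_lit 0) (XT.nd (nat_lit 156) (nat_lit 152) (nat_lit 0) (XT.nd (nat_lit 78) (nat_lit 76) (nat_lit 0) (XT.lf (nat_lit 0) (nat_lit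 2885415210) (nat_lit 228) (nat_lit 7103005317) (nat_lit 76) (nat_lit 5836754296) (nat_lit 23) (nat_lit 5) (nat_lit 26) (nat_lit 5) (nat_lit 24) (nat_lit 4) (nat_lit 370) (nat_lit 337) (nat_lit 313)) (XT.lf (nat_lit 0) (nat_lit 2328635389) (nat_lit 76) (nat_lit 5178598371) (nat_lit 152) (nat_lit 9138255967) (nat_lit 22) (nat_lit 5) (nat_lit 23) (nat_lit 5) (nat_lit 24) (nat_lit 4) (nat_lit 371) (nat_lit 337) (nat_lit 312))) (XT.nd (nat_lit 78) (nat_lit 152) (nat_lit 0) (XT.lf (nat_lit 0) (nat_lit 12597009422) (nat_lit 152) (nat_lit 4787639040) (nat_lit 0) (nat_lit 138962802) (nat_lit 22) (nat_lit 5) (nat_lit 24) (nat_lit 4) (nat_lit 22) (nat_lit 4) (nat_lit 372) (nat_lit 337) (nat_lit 311)) (XT.nd (nat_lit 78) (nat_lit 76) (nat_lit 0) (XT.lf (nat_lit 0) (nat_lit 5471755214) (nat_lit 76) (nat_lit 12794403354) (nat_lit 76) (nat_lit 192084171) (nat_lit 21) (nat_lit 4) (nat_lit 22) (nat_lit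 5) (nat_lit 22) (nat_lit 4) (nat_lit 373) (nat_lit 337) (nat_lit 310)) (XT.lf (nat_lit 0) (nat_lit 4715951213) (nat_lit 152) (nat_lit 2926726364) (nat_lit 76) (nat_lit 11812254476) (nat_lit 20) (nat_lit 5) (nat_lit 22) (nat_lit 5) (nat_lit 21) (nat_lit 4) (nat_lit 374) (nat_lit 337) (nat_lit 309))))) (XT.nd (nat_lit 156) (nat_lit 228) (nat_lit 0) (XT.nd (nat_lit 78) (nat_lit 0) (nat_lit 0) (XT.lf (nat_lit 0) (nat_lit 8182931734) (nat_lit 76) (nat_lit 1933667828) (nat_lit 152) (nat_lit 10405558204) (nat_lit 19) (nat_lit 5) (nat_lit 20) (nat_lit 5) (nat_lit 21) (nat_lit 4) (nat_lit 375) (nat_lit 337) (nat_lit 308)) (XT.lf (nat_lit 0) (nat_lit 16047682662) (nat_lit 152) (nat_lit 1584629076) (nat_lit 0) (nat_lit 4034605283) (nat_lit 19) (nat_lit 5) (nat_lit 21) (nat_lit 4) (nat_lit 19) (nat_lit 4) (nat_lit 376) (nat_lit 337) (nat_lit 307))) (XT.nd (nat_lit 78) (nat_lit 152) (nat_lit 0) (XT.lf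 (nat_lit 0) (nat_lit 10349483979) (nat_lit 76) (nat_lit 12323733439) (nat_lit 76) (nat_lit 212466578) (nat_lit 18) (nat_lit 4) (nat_lit 19) (nat_lit 5) (nat_lit 19) (nat_lit 4) (nat_lit 377) (nat_lit 337) (nat_lit 306)) (XT.nd (nat_lit 78) (nat_lit 76) (nat_lit 0) (XT.lf (nat_lit 0) (nat_lit 5311022729) (nat_lit 152) (nat_lit 1155255769) (nat_lit 76) (nat_lit 17727615901) (nat_lit 17) (nat_lit 5) (nat_lit 19) (nat_lit 5) (nat_lit 18) (nat_lit 4) (nat_lit 378) (nat_lit 337) (nat_lit 305)) (XT.lf (nat_lit 0) (nat_lit 11472697372) (nat_lit 152) (nat_lit 14020585417) (nat_lit 0) (nat_lit 96433760) (nat_lit 16) (nat_lit 5) (nat_lit 18) (nat_lit 4) (nat_lit 16) (nat_lit 4) (nat_lit 379) (nat_lit 337) (nat_lit 304))))))) (XT.nd (nat_lit 780) (nat_lit 304) (nat_lit 0) (XT.nd (nat_lit 390) (nat_lit 228) (nat_lit 0) (XT.nd (nat_lit 156) (nat_lit 152) (nat_lit 0) (XT.nd (nat_lit 78) (nat_lit 76)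 (nat_lit 0) (XT.lf (nat_lit 0) (nat_lit 18255359519) (nat_lit 152) (nat_lit 2024694737) (nat_lit 0) (nat_lit 6806923706) (nat_lit 16) (nat_lit 5) (nat_lit 18) (nat_lit 4) (nat_lit 16) (nat_lit 4) (nat_lit 380) (nat_lit 337) (nat_lit 303)) (XT.lf (nat_lit 0) (nat_lit 11371560475) (nat_lit 76) (nat_lit 14415607753) (nat_lit 76) (nat_lit 2900345829) (nat_lit 15) (nat_lit 4) (nat_lit 16) (nat_lit 5) (nat_lit 16) (nat_lit 4) (nat_lit 381) (nat_lit 337) (nat_lit 302))) (XT.nd (nat_lit 78) (nat_lit 76) (nat_lit 0) (XT.lf (nat_lit 0) (nat_lit 3320169340) (nat_lit 152) (nat_lit 4671185725) (nat_lit 76) (nat_lit 22418799914) (nat_lit 14) (nat_lit 5) (nat_lit 16) (nat_lit 5) (nat_lit 15) (nat_lit 4) (nat_lit 382) (nat_lit 337) (nat_lit 301)) (XT.nd (nat_lit 78) (nat_lit 0) (nat_lit 0) (XT.lf (nat_lit 0) (nat_lit 9253817263) (nat_lit 76) (nat_lit 788609581) (nat_lit 152) (nat_lit 22209303092) (nat_lit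 13) (nat_lit 5) (nat_lit 14) (nat_lit 5) (nat_lit 15) (nat_lit 4) (nat_lit 383) (nat_lit 337) (nat_lit 300)) (XT.lf (nat_lit 0) (nat_lit 17540301206) (nat_lit 152) (nat_lit 9962753760) (nat_lit 0) (nat_lit 6718561118) (nat_lit 13) (nat_lit 5) (nat_lit 15) (nat_lit 4) (nat_lit 13) (nat_lit 4) (nat_lit 384) (nat_lit 337) (nat_lit 299))))) (XT.nd (nat_lit 156) (nat_lit 152) (nat_lit 0) (XT.nd (nat_lit 78) (nat_lit 0) (nat_lit 0) (XT.lf (nat_lit 0) (nat_lit 4193998502) (nat_lit 76) (nat_lit 21508580385) (nat_lit 76) (nat_lit 10641359569) (nat_lit 12) (nat_lit 4) (nat_lit 13) (nat_lit 5) (nat_lit 13) (nat_lit 4) (nat_lit 385) (nat_lit 337) (nat_lit 298)) (XT.lf (nat_lit 0) (nat_lit 19942143193) (nat_lit 76) (nat_lit 14792933675) (nat_lit 76) (nat_lit 3883601073) (nat_lit 12) (nat_lit 4) (nat_lit 13) (nat_lit 5) (nat_lit 13) (nat_lit 4) (nat_lit 386) (nat_lit 337) (nat_lit 297))) (XT.nd (nat_lit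 78) (nat_lit 76) (nat_lit 0) (XT.lf (nat_lit 0) (nat_lit 3191546079) (nat_lit 152) (nat_lit 4309909150) (nat_lit 76) (nat_lit 33571573088) (nat_lit 11) (nat_lit 5) (nat_lit 13) (nat_lit 5) (nat_lit 12) (nat_lit 4) (nat_lit 387) (nat_lit 337) (nat_lit 296)) (XT.nd (nat_lit 78) (nat_lit 0) (nat_lit 0) (XT.lf (nat_lit 0) (nat_lit 10870824228) (nat_lit 152) (nat_lit 32124949568) (nat_lit 0) (nat_lit 700056575) (nat_lit 10) (nat_lit 5) (nat_lit 12) (nat_lit 4) (nat_lit 10) (nat_lit 4) (nat_lit 388) (nat_lit 337) (nat_lit 295)) (XT.lf (nat_lit 0) (nat_lit 19431938542) (nat_lit 152) (nat_lit 17844908686) (nat_lit 0) (nat_lit 9230217469) (nat_lit 10) (nat_lit 5) (nat_lit 12) (nat_lit 4) (nat_lit 10) (nat_lit 4) (nat_lit 389) (nat_lit 337) (nat_lit 294)))))) (XT.nd (nat_lit 390) (nat_lit 76) (nat_lit 0) (XT.nd (nat_lit 156) (nat_lit 152) (nat_lit 0) (XT.nd (nat_lit 78) (nat_lit 76) (nat_lit 0)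 (XT.lf (nat_lit 0) (nat_lit 28633265680) (nat_lit 152) (nat_lit 2510629220) (nat_lit 0) (nat_lit 18402884034) (nat_lit 10) (nat_lit 5) (nat_lit 12) (nat_lit 4) (nat_lit 10) (nat_lit 4) (nat_lit 390) (nat_lit 337) (nat_lit 293)) (XT.lf (nat_lit 0) (nat_lit 14704328708) (nat_lit 76) (nat_lit 24178642776) (nat_lit 76) (nat_lit 13921723561) (nat_lit 9) (nat_lit 4) (nat_lit 10) (nat_lit 5) (nat_lit 10) (nat_lit 4) (nat_lit 391) (nat_lit 337) (nat_lit 292))) (XT.nd (nat_lit 78) (nat_lit 152) (nat_lit 0) (XT.lf (nat_lit 0) (nat_lit 33359697693) (nat_lit 76) (nat_lit 16621384772) (nat_lit 76) (nat_lit 6339893735) (nat_lit 9) (nat_lit 4) (nat_lit 10) (nat_lit 5) (nat_lit 10) (nat_lit 4) (nat_lit 392) (nat_lit 337) (nat_lit 291)) (XT.nd (nat_lit 78) (nat_lit 76) (nat_lit 0) (XT.lf (nat_lit 0) (nat_lit 1717804019) (nat_lit 152) (nat_lit 6731210364) (nat_lit 76) (nat_lit 51669050958) (nat_lit 8) (nat_lit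 5) (nat_lit 10) (nat_lit 5) (nat_lit 9) (nat_lit 4) (nat_lit 393) (nat_lit 337) (nat_lit 290)) (XT.lf (nat_lit 0) (nat_lit 10329082895) (nat_lit 152) (nat_lit 53087939473) (nat_lit 0) (nat_lit 768611505) (nat_lit 7) (nat_lit 5) (nat_lit 9) (nat_lit 4) (nat_lit 7) (nat_lit 4) (nat_lit 394) (nat_lit 337) (nat_lit 289))))) (XT.nd (nat_lit 156) (nat_lit 76) (nat_lit 0) (XT.nd (nat_lit 78) (nat_lit 0) (nat_lit 0) (XT.lf (nat_lit 0) (nat_lit 20002325415) (nat_lit 152) (nat_lit 38122649013) (nat_lit 0) (nat_lit 10423793001) (nat_lit 7) (nat_lit 5) (nat_lit 9) (nat_lit 4) (nat_lit 7) (nat_lit 4) (nat_lit 395) (nat_lit 337) (nat_lit 288)) (XT.lf (nat_lit 0) (nat_lit 30416818864) (nat_lit 152) (nat_lit 22025182321) (nat_lit 0) (nat_lit 20821563281) (nat_lit 7) (nat_lit 5) (nat_lit 9) (nat_lit 4) (nat_lit 7) (nat_lit 4) (nat_lit 396) (nat_lit 337) (nat_lit 287))) (XT.nd (nat_lit 78) (nat_lit 76)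 (nat_lit 0) (XT.lf (nat_lit 0) (nat_lit 41634278759) (nat_lit 152) (nat_lit 4700147000) (nat_lit 0) (nat_lit 32023538760) (nat_lit 7) (nat_lit 5) (nat_lit 9) (nat_lit 4) (nat_lit 7) (nat_lit 4) (nat_lit 397) (nat_lit 337) (nat_lit 286)) (XT.nd (nat_lit 78) (nat_lit 0) (nat_lit 0) (XT.lf (nat_lit 0) (nat_lit 14689975912) (nat_lit 76) (nat_lit 39384497299) (nat_lit 76) (nat_lit 29759419877) (nat_lit 6) (nat_lit 4) (nat_lit 7) (nat_lit 5) (nat_lit 7) (nat_lit 4) (nat_lit 398) (nat_lit 337) (nat_lit 285)) (XT.lf (nat_lit 0) (nat_lit 35844254693) (nat_lit 76) (nat_lit 31766945969) (nat_lit 76) (nat_lit 22128593156) (nat_lit 6) (nat_lit 4) (nat_lit 7) (nat_lit 5) (nat_lit 7) (nat_lit 4) (nat_lit 399) (nat_lit 337) (nat_lit 284))))))))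
noncomputable def xc86 : XT := (XT.nd (nat_lit 1482) (nat_lit 152) (nat_lit 0) (XT.nd (nat_lit 702) (nat_lit 76) (nat_lit 0) (XT.nd (nat_lit 312) (nat_lit 0) (nat_lit 0) (XT.nd (nat_lit 156) (nat_lit 152) (nat_lit 0) (XT.nd (nat_lit 78) (nat_lit 0) (nat_lit 0) (XT.lf (nat_lit 0) (nat_lit 58640546618) (nat_lit 76) (nat_lit 23565141072) (nat_lit 76) (nat_lit 13914496231) (nat_lit 6) (nat_lit 4) (nat_lit 7) (nat_lit 5) (nat_lit 7) (nat_lit 4) (nat_lit 400) (nat_lit 337) (nat_lit 283)) (XT.lf (nat_lit 0) (nat_lit 83213940824) (nat_lit 76) (nat_lit 14730479322) (nat_lit 76) (nat_lit 5068452972) (nat_lit 6) (nat_lit 4) (nat_lit 7) (nat_lit 5) (nat_lit 7) (nat_lit 4) (nat_lit 401) (nat_lit 337) (nat_lit 282))) (XT.nd (nat_lit 78) (nat_lit 76) (nat_lit 0) (XT.lf (nat_lit 0) (nat_lit 4238752425) (nat_lit 152) (nat_lit 855959738) (nat_lit 76) (nat_lit 105355409996) (nat_lit 5) (nat_lit 5) (nat_lit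 7) (nat_lit 5) (nat_lit 6) (nat_lit 4) (nat_lit 402) (nat_lit 337) (nat_lit 281)) (XT.lf (nat_lit 0) (nat_lit 14631543886) (nat_lit 152) (nat_lit 98124660219) (nat_lit 0) (nat_lit 5666430374) (nat_lit 4) (nat_lit 5) (nat_lit 6) (nat_lit 4) (nat_lit 4) (nat_lit 4) (nat_lit 403) (nat_lit 337) (nat_lit 280)))) (XT.nd (nat_lit 156) (nat_lit 0) (nat_lit 0) (XT.nd (nat_lit 78) (nat_lit 0) (nat_lit 0) (XT.lf (nat_lit 0) (nat_lit 25991666355) (nat_lit 152) (nat_lit 84012223780) (nat_lit 0) (nat_lit 17018187095) (nat_lit 4) (nat_lit 5) (nat_lit 6) (nat_lit 4) (nat_lit 4) (nat_lit 4) (nat_lit 404) (nat_lit 337) (nat_lit 279)) (XT.lf (nat_lit 0) (nat_lit 38241678406) (nat_lit 152) (nat_lit 68808859436) (nat_lit 0) (nat_lit 29260453083) (nat_lit 4) (nat_lit 5) (nat_lit 6) (nat_lit 4) (nat_lit 4) (nat_lit 4) (nat_lit 405) (nat_lit 337) (nat_lit 278))) (XT.nd (nat_lit 78) (nat_lit 0) (nat_lit 0) (XT.lf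 (nat_lit 0) (nat_lit 51454172704) (nat_lit 152) (nat_lit 52424473176) (nat_lit 0) (nat_lit 42465775101) (nat_lit 4) (nat_lit 5) (nat_lit 6) (nat_lit 4) (nat_lit 4) (nat_lit 4) (nat_lit 406) (nat_lit 337) (nat_lit 277)) (XT.nd (nat_lit 78) (nat_lit 0) (nat_lit 0) (XT.lf (nat_lit 0) (nat_lit 65707445511) (nat_lit 152) (nat_lit 34761972341) (nat_lit 0) (nat_lit 56712406907) (nat_lit 4) (nat_lit 5) (nat_lit 6) (nat_lit 4) (nat_lit 4) (nat_lit 4) (nat_lit 407) (nat_lit 337) (nat_lit 276)) (XT.lf (nat_lit 0) (nat_lit 81085960666) (nat_lit 152) (nat_lit 15716690259) (nat_lit 0) (nat_lit 72084772987) (nat_lit 4) (nat_lit 5) (nat_lit 6) (nat_lit 4) (nat_lit 4) (nat_lit 4) (nat_lit 408) (nat_lit 337) (nat_lit 275)))))) (XT.nd (nat_lit 390) (nat_lit 0) (nat_lit 0) (XT.nd (nat_lit 156) (nat_lit 0) (nat_lit 0) (XT.nd (nat_lit 78) (nat_lit 0) (nat_lit 0) (XT.lf (nat_lit 0) (nat_lit 5078269614) (nat_lit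 76) (nat_lit 92724713002) (nat_lit 76) (nat_lit 83717831735) (nat_lit 3) (nat_lit 4) (nat_lit 4) (nat_lit 5) (nat_lit 4) (nat_lit 4) (nat_lit 409) (nat_lit 337) (nat_lit 274)) (XT.lf (nat_lit 0) (nat_lit 28403376354) (nat_lit 76) (nat_lit 87870179459) (nat_lit 76) (nat_lit 78858026352) (nat_lit 3) (nat_lit 4) (nat_lit 4) (nat_lit 5) (nat_lit 4) (nat_lit 4) (nat_lit 410) (nat_lit 337) (nat_lit 273))) (XT.nd (nat_lit 78) (nat_lit 0) (nat_lit 0) (XT.lf (nat_lit 0) (nat_lit 53569239758) (nat_lit 76) (nat_lit 82640004855) (nat_lit 76) (nat_lit 73622970414) (nat_lit 3) (nat_lit 4) (nat_lit 4) (nat_lit 5) (nat_lit 4) (nat_lit 4) (nat_lit 411) (nat_lit 337) (nat_lit 272)) (XT.nd (nat_lit 78) (nat_lit 0) (nat_lit 0) (XT.lf (nat_lit 0) (nat_lit 80724990870) (nat_lit 76) (nat_lit 77003195561) (nat_lit 76) (nat_lit 67981641367) (nat_lit 3) (nat_lit 4) (nat_lit 4) (nat_lit 5) (nat_lit 4) (nat_lit 4)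 (nat_lit 412) (nat_lit 337) (nat_lit 271)) (XT.lf (nat_lit 0) (nat_lit 110031552658) (nat_lit 76) (nat_lit 70926348264) (nat_lit 76) (nat_lit 61900609113) (nat_lit 3) (nat_lit 4) (nat_lit 4) (nat_lit 5) (nat_lit 4) (nat_lit 4) (nat_lit 413) (nat_lit 337) (nat_lit 270))))) (XT.nd (nat_lit 156) (nat_lit 0) (nat_lit 0) (XT.nd (nat_lit 78) (nat_lit 0) (nat_lit 0) (XT.lf (nat_lit 0) (nat_lit 141662593637) (nat_lit 76) (nat_lit 64373452016) (nat_lit 76) (nat_lit 55343837905) (nat_lit 3) (nat_lit 4) (nat_lit 4) (nat_lit 5) (nat_lit 4) (nat_lit 4) (nat_lit 414) (nat_lit 337) (nat_lit 269)) (XT.lf (nat_lit 0) (nat_lit 175805557012) (nat_lit 76) (nat_lit 57305674841) (nat_lit 76) (nat_lit 48272472803) (nat_lit 3) (nat_lit 4) (nat_lit 4) (nat_lit 5) (nat_lit 4) (nat_lit 4) (nat_lit 415) (nat_lit 337) (nat_lit 268))) (XT.nd (nat_lit 78) (nat_lit 0) (nat_lit 0) (XT.lf (nat_lit 0) (nat_lit 212662771456)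 (nat_lit 76) (nat_lit 49681133612) (nat_lit 76) (nat_lit 40644609421) (nat_lit 3) (nat_lit 4) (nat_lit 4) (nat_lit 5) (nat_lit 4) (nat_lit 4) (nat_lit 416) (nat_lit 337) (nat_lit 267)) (XT.nd (nat_lit 78) (nat_lit 0) (nat_lit 0) (XT.lf (nat_lit 0) (nat_lit 252452650091) (nat_lit 76) (nat_lit 41454645865) (nat_lit 76) (nat_lit 32415045606) (nat_lit 3) (nat_lit 4) (nat_lit 4) (nat_lit 5) (nat_lit 4) (nat_lit 4) (nat_lit 417) (nat_lit 337) (nat_lit 266)) (XT.lf (nat_lit 0) (nat_lit 295410984791) (nat_lit 76) (nat_lit 32577462043) (nat_lit 76) (nat_lit 23535013572) (nat_lit 3) (nat_lit 4) (nat_lit 4) (nat_lit 5) (nat_lit 4) (nat_lit 4) (nat_lit 418) (nat_lit 337) (nat_lit 265))))))) (XT.nd (nat_lit 780) (nat_lit 0) (nat_lit 0) (XT.nd (nat_lit 390) (nat_lit 0) (nat_lit 0) (XT.nd (nat_lit 156) (nat_lit 152) (nat_lit 0) (XT.nd (nat_lit 78) (nat_lit 0) (nat_lit 0) (XT.lf (nat_lit 0) (nat_lit 341792343465)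 (nat_lit 76) (nat_lit 22996976610) (nat_lit 76) (nat_lit 13951890907) (nat_lit 3) (nat_lit 4) (nat_lit 4) (nat_lit 5) (nat_lit 4) (nat_lit 4) (nat_lit 419) (nat_lit 337) (nat_lit 264)) (XT.lf (nat_lit 0) (nat_lit 391871578608) (nat_lit 76) (nat_lit 12656416321) (nat_lit 76) (nat_lit 3608888736) (nat_lit 3) (nat_lit 4) (nat_lit 4) (nat_lit 5) (nat_lit 4) (nat_lit 4) (nat_lit 420) (nat_lit 337) (nat_lit 263))) (XT.nd (nat_lit 78) (nat_lit 0) (nat_lit 0) (XT.lf (nat_lit 0) (nat_lit 6188657978) (nat_lit 76) (nat_lit 1137518255) (nat_lit 152) (nat_lit 432532055430) (nat_lit 1) (nat_lit 5) (nat_lit 2) (nat_lit 5) (nat_lit 3) (nat_lit 4) (nat_lit 421) (nat_lit 337) (nat_lit 262)) (XT.nd (nat_lit 78) (nat_lit 0) (nat_lit 0) (XT.lf (nat_lit 0) (nat_lit 19663243195) (nat_lit 152) (nat_lit 443106901278) (nat_lit 0) (nat_lit 11281870873) (nat_lit 1) (nat_lit 5) (nat_lit 3) (nat_lit 4) (nat_lit 1)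 (nat_lit 4) (nat_lit 422) (nat_lit 337) (nat_lit 261)) (XT.lf (nat_lit 0) (nat_lit 33011323492) (nat_lit 152) (nat_lit 453339898520) (nat_lit 0) (nat_lit 24628156314) (nat_lit 1) (nat_lit 5) (nat_lit 3) (nat_lit 4) (nat_lit 1) (nat_lit 4) (nat_lit 423) (nat_lit 337) (nat_lit 260))))) (XT.nd (nat_lit 156) (nat_lit 0) (nat_lit 0) (XT.nd (nat_lit 78) (nat_lit 0) (nat_lit 0) (XT.lf (nat_lit 0) (nat_lit 47422159520) (nat_lit 152) (nat_lit 464401848054) (nat_lit 0) (nat_lit 39037330437) (nat_lit 1) (nat_lit 5) (nat_lit 3) (nat_lit 4) (nat_lit 1) (nat_lit 4) (nat_lit 424) (nat_lit 337) (nat_lit 259)) (XT.lf (nat_lit 0) (nat_lit 62981148824) (nat_lit 152) (nat_lit 476358302172) (nat_lit 0) (nat_lit 54594780941) (nat_lit 1) (nat_lit 5) (nat_lit 3) (nat_lit 4) (nat_lit 1) (nat_lit 4) (nat_lit 425) (nat_lit 337) (nat_lit 258))) (XT.nd (nat_lit 78) (nat_lit 0) (nat_lit 0) (XT.lf (nat_lit 0) (nat_lit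 79780492822) (nat_lit 152) (nat_lit 489280113938) (nat_lit 0) (nat_lit 71392700125) (nat_lit 1) (nat_lit 5) (nat_lit 3) (nat_lit 4) (nat_lit 1) (nat_lit 4) (nat_lit 426) (nat_lit 337) (nat_lit 257)) (XT.nd (nat_lit 78) (nat_lit 0) (nat_lit 0) (XT.lf (nat_lit 0) (nat_lit 97919743183) (nat_lit 152) (nat_lit 503243857049) (nat_lit 0) (nat_lit 89530631213) (nat_lit 1) (nat_lit 5) (nat_lit 3) (nat_lit 4) (nat_lit 1) (nat_lit 4) (nat_lit 427) (nat_lit 337) (nat_lit 256)) (XT.lf (nat_lit 0) (nat_lit 117506391761) (nat_lit 152) (nat_lit 518332279613) (nat_lit 0) (nat_lit 109116058242) (nat_lit 1) (nat_lit 5) (nat_lit 3) (nat_lit 4) (nat_lit 1) (nat_lit 4) (nat_lit 428) (nat_lit 337) (nat_lit 255)))))) (XT.nd (nat_lit 390) (nat_lit 0) (nat_lit 0) (XT.nd (nat_lit 156) (nat_lit 0) (nat_lit 0) (XT.nd (nat_lit 78) (nat_lit 0) (nat_lit 0) (XT.lf (nat_lit 0) (nat_lit 138656507585) (nat_lit 152) (nat_lit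 534634794505) (nat_lit 0) (nat_lit 130265043001) (nat_lit 1) (nat_lit 5) (nat_lit 3) (nat_lit 4) (nat_lit 1) (nat_lit 4) (nat_lit 429) (nat_lit 337) (nat_lit 254)) (XT.lf (nat_lit 0) (nat_lit 161495424673) (nat_lit 152) (nat_lit 552248009221) (nat_lit 0) (nat_lit 153102912809) (nat_lit 1) (nat_lit 5) (nat_lit 3) (nat_lit 4) (nat_lit 1) (nat_lit 4) (nat_lit 430) (nat_lit 337) (nat_lit 253))) (XT.nd (nat_lit 78) (nat_lit 0) (nat_lit 0) (XT.lf (nat_lit 0) (nat_lit 186158484758) (nat_lit 152) (nat_lit 571276298365) (nat_lit 0) (nat_lit 177765003188) (nat_lit 1) (nat_lit 5) (nat_lit 3) (nat_lit 4) (nat_lit 1) (nat_lit 4) (nat_lit 431) (nat_lit 337) (nat_lit 252)) (XT.nd (nat_lit 78) (nat_lit 0) (nat_lit 0) (XT.lf (nat_lit 0) (nat_lit 212791839305) (nat_lit 152) (nat_lit 591832422170) (nat_lit 0) (nat_lit 204397459861) (nat_lit 1) (nat_lit 5) (nat_lit 3) (nat_lit 4) (nat_lit 1) (nat_lit 4) (nat_lit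 432) (nat_lit 337) (nat_lit 251)) (XT.lf (nat_lit 0) (nat_lit 241553315602) (nat_lit 152) (nat_lit 614038194703) (nat_lit 0) (nat_lit 233158104792) (nat_lit 1) (nat_lit 5) (nat_lit 3) (nat_lit 4) (nat_lit 1) (nat_lit 4) (nat_lit 433) (nat_lit 337) (nat_lit 250))))) (XT.nd (nat_lit 156) (nat_lit 0) (nat_lit 0) (XT.nd (nat_lit 78) (nat_lit 0) (nat_lit 0) (XT.lf (nat_lit 0) (nat_lit 272613352027) (nat_lit 152) (nat_lit 638025205728) (nat_lit 0) (nat_lit 264217371433) (nat_lit 1) (nat_lit 5) (nat_lit 3) (nat_lit 4) (nat_lit 1) (nat_lit 4) (nat_lit 434) (nat_lit 337) (nat_lit 249)) (XT.lf (nat_lit 0) (nat_lit 306156008054) (nat_lit 152) (nat_lit 663935600494) (nat_lit 0) (nat_lit 297759314698) (nat_lit 1) (nat_lit 5) (nat_lit 3) (nat_lit 4) (nat_lit 1) (nat_lit 4) (nat_lit 435) (nat_lit 337) (nat_lit 248))) (XT.nd (nat_lit 78) (nat_lit 0) (nat_lit 0) (XT.lf (nat_lit 0) (nat_lit 342380054978)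 (nat_lit 152) (nat_lit 691922922081) (nat_lit 0) (nat_lit 333982701657) (nat_lit 1) (nat_lit 5) (nat_lit 3) (nat_lit 4) (nat_lit 1) (nat_lit 4) (nat_lit 436) (nat_lit 337) (nat_lit 247)) (XT.nd (nat_lit 78) (nat_lit 0) (nat_lit 0) (XT.lf (nat_lit 0) (nat_lit 381500153819) (nat_lit 152) (nat_lit 722153021286) (nat_lit 0) (nat_lit 373102189419) (nat_lit 1) (nat_lit 5) (nat_lit 3) (nat_lit 4) (nat_lit 1) (nat_lit 4) (nat_lit 437) (nat_lit 337) (nat_lit 246)) (XT.lf (nat_lit 0) (nat_lit 423748127384) (nat_lit 152) (nat_lit 754805039435) (nat_lit 0) (nat_lit 415349597171) (nat_lit 1) (nat_lit 5) (nat_lit 3) (nat_lit 4) (nat_lit 1) (nat_lit 4) (nat_lit 438) (nat_lit 337) (nat_lit 245))))))))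
noncomputable def xc87 : XT := (XT.nd (nat_lit 1482) (nat_lit 0) (nat_lit 0) (XT.nd (nat_lit 702) (nat_lit 0) (nat_lit 0) (XT.nd (nat_lit 312) (nat_lit 0) (nat_lit 0) (XT.nd (nat_lit 156) (nat_lit 0) (nat_lit 0) (XT.nd (nat_lit 78) (nat_lit 0) (nat_lit 0) (XT.lf (nat_lit 0) (nat_lit 469374334035) (nat_lit 152) (nat_lit 790072469970) (nat_lit 0) (nat_lit 460975279920) (nat_lit 1) (nat_lit 5) (nat_lit 3) (nat_lit 4) (nat_lit 1) (nat_lit 4) (nat_lit 439) (nat_lit 337) (nat_lit 244)) (XT.lf (nat_lit 0) (nat_lit 518649151293) (nat_lit 152) (nat_lit 828164305071) (nat_lit 0) (nat_lit 510249612084) (nat_lit 1) (nat_lit 5) (nat_lit 3) (nat_lit 4) (nat_lit 1) (nat_lit 4) (nat_lit 440) (nat_lit 337) (nat_lit 243))) (XT.nd (nat_lit 78) (nat_lit 0) (nat_lit 0) (XT.lf (nat_lit 0) (nat_lit 571864578075) (nat_lit 152) (nat_lit 869306274133) (nat_lit 0) (nat_lit 563464589705) (nat_lit 1) (nat_lit 5) (nat_lit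 3) (nat_lit 4) (nat_lit 1) (nat_lit 4) (nat_lit 441) (nat_lit 337) (nat_lit 242)) (XT.lf (nat_lit 0) (nat_lit 629335965058) (nat_lit 152) (nat_lit 913742181416) (nat_lit 0) (nat_lit 620935560799) (nat_lit 1) (nat_lit 5) (nat_lit 3) (nat_lit 4) (nat_lit 1) (nat_lit 4) (nat_lit 442) (nat_lit 337) (nat_lit 241)))) (XT.nd (nat_lit 156) (nat_lit 0) (nat_lit 0) (XT.nd (nat_lit 78) (nat_lit 0) (nat_lit 0) (XT.lf (nat_lit 0) (nat_lit 691403883425) (nat_lit 152) (nat_lit 961735350814) (nat_lit 0) (nat_lit 683003094083) (nat_lit 1) (nat_lit 5) (nat_lit 3) (nat_lit 4) (nat_lit 1) (nat_lit 4) (nat_lit 443) (nat_lit 337) (nat_lit 240)) (XT.lf (nat_lit 0) (nat_lit 758436143062) (nat_lit 152) (nat_lit 1013570186296) (nat_lit 0) (nat_lit 750034997161) (nat_lit 1) (nat_lit 5) (nat_lit 3) (nat_lit 4) (nat_lit 1) (nat_lit 4) (nat_lit 444) (nat_lit 337) (nat_lit 239))) (XT.nd (nat_lit 78) (nat_lit 0) (nat_lit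 0) (XT.lf (nat_lit 0) (nat_lit 830829972174) (nat_lit 152) (nat_lit 1069553857256) (nat_lit 0) (nat_lit 822428496127) (nat_lit 1) (nat_lit 5) (nat_lit 3) (nat_lit 4) (nat_lit 1) (nat_lit 4) (nat_lit 445) (nat_lit 337) (nat_lit 238)) (XT.nd (nat_lit 78) (nat_lit 0) (nat_lit 0) (XT.lf (nat_lit 0) (nat_lit 909014371231) (nat_lit 152) (nat_lit 1130018118782) (nat_lit 0) (nat_lit 900612589491) (nat_lit 1) (nat_lit 5) (nat_lit 3) (nat_lit 4) (nat_lit 1) (nat_lit 4) (nat_lit 446) (nat_lit 337) (nat_lit 237)) (XT.lf (nat_lit 0) (nat_lit 993452655188) (nat_lit 152) (nat_lit 1195321277608) (nat_lit 0) (nat_lit 985050590402) (nat_lit 1) (nat_lit 5) (nat_lit 3) (nat_lit 4) (nat_lit 1) (nat_lit 4) (nat_lit 447) (nat_lit 337) (nat_lit 236)))))) (XT.nd (nat_lit 390) (nat_lit 0) (nat_lit 0) (XT.nd (nat_lit 156) (nat_lit 0) (nat_lit 0) (XT.nd (nat_lit 78) (nat_lit 0) (nat_lit 0) (XT.lf (nat_lit 0) (nat_lit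 1084645199064) (nat_lit 152) (nat_lit 1265850315417) (nat_lit 0) (nat_lit 1076242872196) (nat_lit 1) (nat_lit 5) (nat_lit 3) (nat_lit 4) (nat_lit 1) (nat_lit 4) (nat_lit 448) (nat_lit 337) (nat_lit 235)) (XT.lf (nat_lit 0) (nat_lit 1183132403117) (nat_lit 152) (nat_lit 1342023182061) (nat_lit 0) (nat_lit 1174729833581) (nat_lit 1) (nat_lit 5) (nat_lit 3) (nat_lit 4) (nat_lit 1) (nat_lit 4) (nat_lit 449) (nat_lit 337) (nat_lit 234))) (XT.nd (nat_lit 78) (nat_lit 0) (nat_lit 0) (XT.lf (nat_lit 0) (nat_lit 1289497895223) (nat_lit 152) (nat_lit 1424291272307) (nat_lit 0) (nat_lit 1281095100995) (nat_lit 1) (nat_lit 5) (nat_lit 3) (nat_lit 4) (nat_lit 1) (nat_lit 4) (nat_lit 450) (nat_lit 337) (nat_lit 233)) (XT.nd (nat_lit 78) (nat_lit 0) (nat_lit 0) (XT.lf (nat_lit 0) (nat_lit 1404371989410) (nat_lit 152) (nat_lit 1513142100764) (nat_lit 0) (nat_lit 1395968987134) (nat_lit 1) (nat_lit 5)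 (nat_lit 3) (nat_lit 4) (nat_lit 1) (nat_lit 4) (nat_lit 451) (nat_lit 337) (nat_lit 232)) (XT.lf (nat_lit 0) (nat_lit 1528435421051) (nat_lit 152) (nat_lit 1609102190858) (nat_lit 0) (nat_lit 1520032226137) (nat_lit 1) (nat_lit 5) (nat_lit 3) (nat_lit 4) (nat_lit 1) (nat_lit 4) (nat_lit 452) (nat_lit 337) (nat_lit 231))))) (XT.nd (nat_lit 156) (nat_lit 0) (nat_lit 0) (XT.nd (nat_lit 78) (nat_lit 0) (nat_lit 0) (XT.lf (nat_lit 0) (nat_lit 1662423380851) (nat_lit 152) (nat_lit 1712740194977) (nat_lit 0) (nat_lit 1654020007570) (nat_lit 1) (nat_lit 5) (nat_lit 3) (nat_lit 4) (nat_lit 1) (nat_lit 4) (nat_lit 453) (nat_lit 337) (nat_lit 230)) (XT.lf (nat_lit 0) (nat_lit 1807129871536) (nat_lit 152) (nat_lit 1824670264254) (nat_lit 0) (nat_lit 1798726333099) (nat_lit 1) (nat_lit 5) (nat_lit 3) (nat_lit 4) (nat_lit 1) (nat_lit 4) (nat_lit 454) (nat_lit 337) (nat_lit 229))) (XT.nd (nat_lit 78)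 (nat_lit 0) (nat_lit 0) (XT.lf (nat_lit 0) (nat_lit 1963412413050) (nat_lit 152) (nat_lit 1945555687991) (nat_lit 0) (nat_lit 1955008721691) (nat_lit 1) (nat_lit 5) (nat_lit 3) (nat_lit 4) (nat_lit 1) (nat_lit 4) (nat_lit 455) (nat_lit 337) (nat_lit 228)) (XT.nd (nat_lit 78) (nat_lit 0) (nat_lit 0) (XT.lf (nat_lit 0) (nat_lit 2132197124158) (nat_lit 152) (nat_lit 2076112824253) (nat_lit 0) (nat_lit 2123793291205) (nat_lit 1) (nat_lit 5) (nat_lit 3) (nat_lit 4) (nat_lit 1) (nat_lit 4) (nat_lit 456) (nat_lit 337) (nat_lit 227)) (XT.lf (nat_lit 0) (nat_lit 2314484210555) (nat_lit 152) (nat_lit 2217115344959) (nat_lit 0) (nat_lit 2306080246496) (nat_lit 1) (nat_lit 5) (nat_lit 3) (nat_lit 4) (nat_lit 1) (nat_lit 4) (nat_lit 457) (nat_lit 337) (nat_lit 226))))))) (XT.nd (nat_lit 44850) (nat_lit 0) (nat_lit 2660) (XT.nd (nat_lit 44460) (nat_lit 0) (nat_lit 4408) (XT.nd (nat_lit 44226) (nat_lit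 0) (nat_lit 5700) (XT.nd (nat_lit 78) (nat_lit 0) (nat_lit 0) (XT.lf (nat_lit 0) (nat_lit 2511353892013) (nat_lit 152) (nat_lit 2369398820602) (nat_lit 0) (nat_lit 2502949806559) (nat_lit 1) (nat_lit 5) (nat_lit 3) (nat_lit 4) (nat_lit 1) (nat_lit 4) (nat_lit 458) (nat_lit 337) (nat_lit 225)) (XT.lf (nat_lit 0) (nat_lit 2723972803680) (nat_lit 152) (nat_lit 2533865671779) (nat_lit 0) (nat_lit 2715568605825) (nat_lit 1) (nat_lit 5) (nat_lit 3) (nat_lit 4) (nat_lit 1) (nat_lit 4) (nat_lit 459) (nat_lit 337) (nat_lit 224))) (XT.nd (nat_lit 78) (nat_lit 304) (nat_lit 0) (XT.lf (nat_lit 0) (nat_lit 273821109) (nat_lit 228) (nat_lit 2731163434) (nat_lit 0) (nat_lit 273821109) (nat_lit 80) (nat_lit 5) (nat_lit 83) (nat_lit 4) (nat_lit 80) (nat_lit 4) (nat_lit 344) (nat_lit 338) (nat_lit 338)) (XT.nd (nat_lit 78) (nat_lit 304) (nat_lit 0) (XT.lf (nat_lit 0) (nat_lit 3694916290) (nat_lit 228) (nat_lit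 1538060066) (nat_lit 0) (nat_lit 1391147222) (nat_lit 80) (nat_lit 5) (nat_lit 83) (nat_lit 4) (nat_lit 80) (nat_lit 4) (nat_lit 345) (nat_lit 338) (nat_lit 337)) (XT.lf (nat_lit 0) (nat_lit 162505420) (nat_lit 304) (nat_lit 4098877301) (nat_lit 76) (nat_lit 2451542705) (nat_lit 76) (nat_lit 5) (nat_lit 80) (nat_lit 5) (nat_lit 77) (nat_lit 4) (nat_lit 346) (nat_lit 338) (nat_lit 336))))) (XT.nd (nat_lit 156) (nat_lit 988) (nat_lit 0) (XT.nd (nat_lit 78) (nat_lit 0) (nat_lit 0) (XT.lf (nat_lit 0) (nat_lit 85802271) (nat_lit 304) (nat_lit 3038140758) (nat_lit 380) (nat_lit 3696800807) (nat_lit 72) (nat_lit 5) (nat_lit 76) (nat_lit 5) (nat_lit 77) (nat_lit 4) (nat_lit 347) (nat_lit 338) (nat_lit 335)) (XT.lf (nat_lit 0) (nat_lit 4622331250) (nat_lit 304) (nat_lit 1561869059) (nat_lit 380) (nat_lit 764452049) (nat_lit 72) (nat_lit 5) (nat_lit 76) (nat_lit 5) (nat_lit 77) (nat_lit 4) (nat_lit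 348) (nat_lit 338) (nat_lit 334))) (XT.nd (nat_lit 78) (nat_lit 532) (nat_lit 0) (XT.lf (nat_lit 0) (nat_lit 2103385596) (nat_lit 456) (nat_lit 4823239843) (nat_lit 76) (nat_lit 170216617) (nat_lit 66) (nat_lit 5) (nat_lit 72) (nat_lit 5) (nat_lit 67) (nat_lit 4) (nat_lit 349) (nat_lit 338) (nat_lit 333)) (XT.nd (nat_lit 78) (nat_lit 532) (nat_lit 0) (XT.lf (nat_lit 0) (nat_lit 5040226592) (nat_lit 456) (nat_lit 166375864) (nat_lit 76) (nat_lit 2058556908) (nat_lit 66) (nat_lit 5) (nat_lit 72) (nat_lit 5) (nat_lit 67) (nat_lit 4) (nat_lit 350) (nat_lit 338) (nat_lit 332)) (XT.lf (nat_lit 0) (nat_lit 633682836) (nat_lit 532) (nat_lit 2572004238) (nat_lit 76) (nat_lit 4247516228) (nat_lit 59) (nat_lit 5) (nat_lit 66) (nat_lit 5) (nat_lit 60) (nat_lit 5) (nat_lit 351) (nat_lit 338) (nat_lit 331)))))) (XT.nd (nat_lit 390) (nat_lit 684) (nat_lit 0) (XT.nd (nat_lit 156) (nat_lit 456) (nat_lit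 0) (XT.nd (nat_lit 78) (nat_lit 228) (nat_lit 0) (XT.lf (nat_lit 0) (nat_lit 2540057756) (nat_lit 380) (nat_lit 923304924) (nat_lit 456) (nat_lit 4199561292) (nat_lit 54) (nat_lit 5) (nat_lit 59) (nat_lit 5) (nat_lit 60) (nat_lit 5) (nat_lit 352) (nat_lit 338) (nat_lit 330)) (XT.lf (nat_lit 0) (nat_lit 62732611) (nat_lit 228) (nat_lit 6373849637) (nat_lit 304) (nat_lit 1459710143) (nat_lit 51) (nat_lit 5) (nat_lit 54) (nat_lit 5) (nat_lit 55) (nat_lit 4) (nat_lit 353) (nat_lit 338) (nat_lit 329))) (XT.nd (nat_lit 78) (nat_lit 380) (nat_lit 0) (XT.lf (nat_lit 0) (nat_lit 1402501034) (nat_lit 304) (nat_lit 2475835046) (nat_lit 76) (nat_lit 4269064144) (nat_lit 50) (nat_lit 5) (nat_lit 54) (nat_lit 5) (nat_lit 51) (nat_lit 5) (nat_lit 354) (nat_lit 338) (nat_lit 328)) (XT.nd (nat_lit 78) (nat_lit 152) (nat_lit 0) (XT.lf (nat_lit 0) (nat_lit 3221181002) (nat_lit 228) (nat_lit 1095639514) (nat_lit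 304) (nat_lit 4106776667) (nat_lit 47) (nat_lit 5) (nat_lit 50) (nat_lit 5) (nat_lit 51) (nat_lit 5) (nat_lit 355) (nat_lit 338) (nat_lit 327)) (XT.lf (nat_lit 0) (nat_lit 558764227) (nat_lit 152) (nat_lit 6865924339) (nat_lit 228) (nat_lit 1300547941) (nat_lit 45) (nat_lit 5) (nat_lit 47) (nat_lit 5) (nat_lit 48) (nat_lit 4) (nat_lit 356) (nat_lit 338) (nat_lit 326))))) (XT.nd (nat_lit 156) (nat_lit 380) (nat_lit 0) (XT.nd (nat_lit 78) (nat_lit 228) (nat_lit 0) (XT.lf (nat_lit 0) (nat_lit 1652591205) (nat_lit 228) (nat_lit 2259774911) (nat_lit 76) (nat_lit 5134748312) (nat_lit 44) (nat_lit 5) (nat_lit 47) (nat_lit 5) (nat_lit 45) (nat_lit 5) (nat_lit 357) (nat_lit 338) (nat_lit 325)) (XT.lf (nat_lit 0) (nat_lit 4083381317) (nat_lit 228) (nat_lit 633363150) (nat_lit 304) (nat_lit 4679835544) (nat_lit 41) (nat_lit 5) (nat_lit 44) (nat_lit 5) (nat_lit 45) (nat_lit 5) (nat_lit 358) (nat_lit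 338) (nat_lit 324))) (XT.nd (nat_lit 78) (nat_lit 228) (nat_lit 0) (XT.lf (nat_lit 0) (nat_lit 1063204835) (nat_lit 152) (nat_lit 6973733725) (nat_lit 228) (nat_lit 1736323055) (nat_lit 39) (nat_lit 5) (nat_lit 41) (nat_lit 5) (nat_lit 42) (nat_lit 4) (nat_lit 359) (nat_lit 338) (nat_lit 323)) (XT.nd (nat_lit 78) (nat_lit 152) (nat_lit 0) (XT.lf (nat_lit 0) (nat_lit 1390201191) (nat_lit 228) (nat_lit 2185800654) (nat_lit 76) (nat_lit 6599836990) (nat_lit 38) (nat_lit 5) (nat_lit 41) (nat_lit 5) (nat_lit 39) (nat_lit 5) (nat_lit 360) (nat_lit 338) (nat_lit 322)) (XT.lf (nat_lit 0) (nat_lit 4659857079) (nat_lit 228) (nat_lit 5753523183) (nat_lit 76) (nat_lit 194793081) (nat_lit 36) (nat_lit 5) (nat_lit 39) (nat_lit 5) (nat_lit 37) (nat_lit 4) (nat_lit 361) (nat_lit 338) (nat_lit 321))))))))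
noncomputable def xc88 : XT := (XT.nd (nat_lit 1482) (nat_lit 760) (nat_lit 0) (XT.nd (nat_lit 702) (nat_lit 532) (nat_lit 0) (XT.nd (nat_lit 312) (nat_lit 532) (nat_lit 0) (XT.nd (nat_lit 156) (nat_lit 228) (nat_lit 0) (XT.nd (nat_lit 78) (nat_lit 76) (nat_lit 0) (XT.lf (nat_lit 0) (nat_lit 1279557537) (nat_lit 152) (nat_lit 6965317413) (nat_lit 228) (nat_lit 2826013129) (nat_lit 34) (nat_lit 5) (nat_lit 36) (nat_lit 5) (nat_lit 37) (nat_lit 4) (nat_lit 362) (nat_lit 338) (nat_lit 320)) (XT.lf (nat_lit 0) (nat_lit 550582782) (nat_lit 228) (nat_lit 2576892251) (nat_lit 76) (nat_lit 8439631124) (nat_lit 33) (nat_lit 5) (nat_lit 36) (nat_lit 5) (nat_lit 34) (nat_lit 5) (nat_lit 363) (nat_lit 338) (nat_lit 319))) (XT.nd (nat_lit 78) (nat_lit 76) (nat_lit 0) (XT.lf (nat_lit 0) (nat_lit 4077999522) (nat_lit 228) (nat_lit 6911698307) (nat_lit 76) (nat_lit 1104858621) (nat_lit 31) (nat_lit 5)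 (nat_lit 34) (nat_lit 5) (nat_lit 32) (nat_lit 4) (nat_lit 364) (nat_lit 338) (nat_lit 318)) (XT.lf (nat_lit 0) (nat_lit 817309529) (nat_lit 76) (nat_lit 7126306088) (nat_lit 152) (nat_lit 4716177691) (nat_lit 30) (nat_lit 5) (nat_lit 31) (nat_lit 5) (nat_lit 32) (nat_lit 4) (nat_lit 365) (nat_lit 338) (nat_lit 317)))) (XT.nd (nat_lit 156) (nat_lit 304) (nat_lit 0) (XT.nd (nat_lit 78) (nat_lit 228) (nat_lit 0) (XT.lf (nat_lit 0) (nat_lit 9370685314) (nat_lit 76) (nat_lit 2823784776) (nat_lit 152) (nat_lit 1069765660) (nat_lit 30) (nat_lit 5) (nat_lit 31) (nat_lit 5) (nat_lit 32) (nat_lit 4) (nat_lit 366) (nat_lit 338) (nat_lit 316)) (XT.lf (nat_lit 0) (nat_lit 2776805608) (nat_lit 228) (nat_lit 9280587778) (nat_lit 76) (nat_lit 1850023196) (nat_lit 27) (nat_lit 5) (nat_lit 30) (nat_lit 5) (nat_lit 28) (nat_lit 4) (nat_lit 367) (nat_lit 338) (nat_lit 315))) (XT.nd (nat_lit 78) (nat_lit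 304) (nat_lit 0) (XT.lf (nat_lit 0) (nat_lit 6950540508) (nat_lit 228) (nat_lit 828161611) (nat_lit 76) (nat_lit 6815000430) (nat_lit 27) (nat_lit 5) (nat_lit 30) (nat_lit 5) (nat_lit 28) (nat_lit 4) (nat_lit 368) (nat_lit 338) (nat_lit 314)) (XT.nd (nat_lit 78) (nat_lit 228) (nat_lit 0) (XT.lf (nat_lit 0) (nat_lit 8561130299) (nat_lit 76) (nat_lit 3005408111) (nat_lit 152) (nat_lit 3759732183) (nat_lit 26) (nat_lit 5) (nat_lit 27) (nat_lit 5) (nat_lit 28) (nat_lit 4) (nat_lit 369) (nat_lit 338) (nat_lit 313)) (XT.lf (nat_lit 0) (nat_lit 453727348) (nat_lit 228) (nat_lit 13587312692) (nat_lit 76) (nat_lit 2072323003) (nat_lit 23) (nat_lit 5) (nat_lit 26) (nat_lit 5) (nat_lit 24) (nat_lit 4) (nat_lit 370) (nat_lit 338) (nat_lit 312)))))) (XT.nd (nat_lit 390) (nat_lit 304) (nat_lit 0) (XT.nd (nat_lit 156) (nat_lit 152) (nat_lit 0) (XT.nd (nat_lit 78) (nat_lit 76) (nat_lit 0) (XT.lf (nat_lit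 0) (nat_lit 4973767902) (nat_lit 228) (nat_lit 4353907858) (nat_lit 76) (nat_lit 7614162875) (nat_lit 23) (nat_lit 5) (nat_lit 26) (nat_lit 5) (nat_lit 24) (nat_lit 4) (nat_lit 371) (nat_lit 338) (nat_lit 311)) (XT.lf (nat_lit 0) (nat_lit 5748280867) (nat_lit 76) (nat_lit 4157219291) (nat_lit 152) (nat_lit 7927120569) (nat_lit 22) (nat_lit 5) (nat_lit 23) (nat_lit 5) (nat_lit 24) (nat_lit 4) (nat_lit 372) (nat_lit 338) (nat_lit 310))) (XT.nd (nat_lit 78) (nat_lit 152) (nat_lit 0) (XT.lf (nat_lit 0) (nat_lit 15301266030) (nat_lit 152) (nat_lit 2074969607) (nat_lit 0) (nat_lit 1412903044) (nat_lit 22) (nat_lit 5) (nat_lit 24) (nat_lit 4) (nat_lit 22) (nat_lit 4) (nat_lit 373) (nat_lit 338) (nat_lit 309)) (XT.nd (nat_lit 78) (nat_lit 0) (nat_lit 0) (XT.lf (nat_lit 0) (nat_lit 1489572628) (nat_lit 152) (nat_lit 10913742387) (nat_lit 76) (nat_lit 7396504345) (nat_lit 20) (nat_lit 5) (nat_lit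 22) (nat_lit 5) (nat_lit 21) (nat_lit 4) (nat_lit 374) (nat_lit 338) (nat_lit 308)) (XT.lf (nat_lit 0) (nat_lit 6654936569) (nat_lit 152) (nat_lit 284313601) (nat_lit 76) (nat_lit 13946630211) (nat_lit 20) (nat_lit 5) (nat_lit 22) (nat_lit 5) (nat_lit 21) (nat_lit 4) (nat_lit 375) (nat_lit 338) (nat_lit 307))))) (XT.nd (nat_lit 156) (nat_lit 152) (nat_lit 0) (XT.nd (nat_lit 78) (nat_lit 76) (nat_lit 0) (XT.lf (nat_lit 0) (nat_lit 11641293072) (nat_lit 76) (nat_lit 798091244) (nat_lit 152) (nat_lit 9602997774) (nat_lit 19) (nat_lit 5) (nat_lit 20) (nat_lit 5) (nat_lit 21) (nat_lit 4) (nat_lit 376) (nat_lit 338) (nat_lit 306)) (XT.lf (nat_lit 0) (nat_lit 1019453407) (nat_lit 76) (nat_lit 17766643054) (nat_lit 76) (nat_lit 4497369176) (nat_lit 18) (nat_lit 4) (nat_lit 19) (nat_lit 5) (nat_lit 19) (nat_lit 4) (nat_lit 377) (nat_lit 338) (nat_lit 305))) (XT.nd (nat_lit 78) (nat_lit 76) (nat_lit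 0) (XT.lf (nat_lit 0) (nat_lit 1205392471) (nat_lit 152) (nat_lit 10846239190) (nat_lit 76) (nat_lit 12551103836) (nat_lit 17) (nat_lit 5) (nat_lit 19) (nat_lit 5) (nat_lit 18) (nat_lit 4) (nat_lit 378) (nat_lit 338) (nat_lit 304)) (XT.nd (nat_lit 78) (nat_lit 0) (nat_lit 0) (XT.lf (nat_lit 0) (nat_lit 1305927687) (nat_lit 76) (nat_lit 5779326734) (nat_lit 152) (nat_lit 18935856787) (nat_lit 16) (nat_lit 5) (nat_lit 17) (nat_lit 5) (nat_lit 18) (nat_lit 4) (nat_lit 379) (nat_lit 338) (nat_lit 303)) (XT.lf (nat_lit 0) (nat_lit 13696734816) (nat_lit 152) (nat_lit 12641914429) (nat_lit 0) (nat_lit 1193425827) (nat_lit 16) (nat_lit 5) (nat_lit 18) (nat_lit 4) (nat_lit 16) (nat_lit 4) (nat_lit 380) (nat_lit 338) (nat_lit 302))))))) (XT.nd (nat_lit 702) (nat_lit 304) (nat_lit 0) (XT.nd (nat_lit 312) (nat_lit 228) (nat_lit 0) (XT.nd (nat_lit 156) (nat_lit 152) (nat_lit 0) (XT.nd (nat_lit 78)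 (nat_lit 0) (nat_lit 0) (XT.lf (nat_lit 0) (nat_lit 135202135) (nat_lit 76) (nat_lit 20793302254) (nat_lit 76) (nat_lit 8228117235) (nat_lit 15) (nat_lit 4) (nat_lit 16) (nat_lit 5) (nat_lit 16) (nat_lit 4) (nat_lit 381) (nat_lit 338) (nat_lit 301)) (XT.lf (nat_lit 0) (nat_lit 14537784050) (nat_lit 76) (nat_lit 14486501018) (nat_lit 76) (nat_lit 1864023379) (nat_lit 15) (nat_lit 4) (nat_lit 16) (nat_lit 5) (nat_lit 16) (nat_lit 4) (nat_lit 382) (nat_lit 338) (nat_lit 300))) (XT.nd (nat_lit 78) (nat_lit 76) (nat_lit 0) (XT.lf (nat_lit 0) (nat_lit 4701432986) (nat_lit 152) (nat_lit 2896545749) (nat_lit 76) (nat_lit 25155500640) (nat_lit 14) (nat_lit 5) (nat_lit 16) (nat_lit 5) (nat_lit 15) (nat_lit 4) (nat_lit 383) (nat_lit 338) (nat_lit 299)) (XT.lf (nat_lit 0) (nat_lit 11933010863) (nat_lit 152) (nat_lit 22660732112) (nat_lit 0) (nat_lit 150931653) (nat_lit 13) (nat_lit 5) (nat_lit 15)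 (nat_lit 4) (nat_lit 13) (nat_lit 4) (nat_lit 384) (nat_lit 338) (nat_lit 298)))) (XT.nd (nat_lit 156) (nat_lit 152) (nat_lit 0) (XT.nd (nat_lit 78) (nat_lit 76) (nat_lit 0) (XT.lf (nat_lit 0) (nat_lit 19969148670) (nat_lit 152) (nat_lit 8762986830) (nat_lit 0) (nat_lit 8144957674) (nat_lit 13) (nat_lit 5) (nat_lit 15) (nat_lit 4) (nat_lit 13) (nat_lit 4) (nat_lit 385) (nat_lit 338) (nat_lit 297)) (XT.lf (nat_lit 0) (nat_lit 6475754038) (nat_lit 76) (nat_lit 22279489441) (nat_lit 76) (nat_lit 10416306051) (nat_lit 12) (nat_lit 4) (nat_lit 13) (nat_lit 5) (nat_lit 13) (nat_lit 4) (nat_lit 386) (nat_lit 338) (nat_lit 296))) (XT.nd (nat_lit 78) (nat_lit 152) (nat_lit 0) (XT.lf (nat_lit 0) (nat_lit 23339584700) (nat_lit 76) (nat_lit 15096944874) (nat_lit 76) (nat_lit 3197657415) (nat_lit 12) (nat_lit 4) (nat_lit 13) (nat_lit 5) (nat_lit 13) (nat_lit 4) (nat_lit 387) (nat_lit 338) (nat_lit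 295)) (XT.nd (nat_lit 78) (nat_lit 76) (nat_lit 0) (XT.lf (nat_lit 0) (nat_lit 4323514384) (nat_lit 152) (nat_lit 2939807232) (nat_lit 76) (nat_lit 37025268680) (nat_lit 11) (nat_lit 5) (nat_lit 13) (nat_lit 5) (nat_lit 12) (nat_lit 4) (nat_lit 388) (nat_lit 338) (nat_lit 294)) (XT.lf (nat_lit 0) (nat_lit 12612108008) (nat_lit 152) (nat_lit 32974886406) (nat_lit 0) (nat_lit 1534635257) (nat_lit 10) (nat_lit 5) (nat_lit 12) (nat_lit 4) (nat_lit 10) (nat_lit 4) (nat_lit 389) (nat_lit 338) (nat_lit 293)))))) (XT.nd (nat_lit 390) (nat_lit 152) (nat_lit 0) (XT.nd (nat_lit 156) (nat_lit 152) (nat_lit 0) (XT.nd (nat_lit 78) (nat_lit 0) (nat_lit 0) (XT.lf (nat_lit 0) (nat_lit 21793547183) (nat_lit 152) (nat_lit 17679854041) (nat_lit 0) (nat_lit 10689536863) (nat_lit 10) (nat_lit 5) (nat_lit 12) (nat_lit 4) (nat_lit 10) (nat_lit 4) (nat_lit 390) (nat_lit 338) (nat_lit 292)) (XT.lf (nat_lit 0) (nat_lit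 31671198747) (nat_lit 152) (nat_lit 1236806095) (nat_lit 0) (nat_lit 20542616605) (nat_lit 10) (nat_lit 5) (nat_lit 12) (nat_lit 4) (nat_lit 10) (nat_lit 4) (nat_lit 391) (nat_lit 338) (nat_lit 291))) (XT.nd (nat_lit 78) (nat_lit 76) (nat_lit 0) (XT.lf (nat_lit 0) (nat_lit 17318014961) (nat_lit 76) (nat_lit 25402080647) (nat_lit 76) (nat_lit 14250746817) (nat_lit 9) (nat_lit 4) (nat_lit 10) (nat_lit 5) (nat_lit 10) (nat_lit 4) (nat_lit 392) (nat_lit 338) (nat_lit 290)) (XT.nd (nat_lit 78) (nat_lit 76) (nat_lit 0) (XT.lf (nat_lit 0) (nat_lit 37359343839) (nat_lit 76) (nat_lit 17292897821) (nat_lit 76) (nat_lit 6120497614) (nat_lit 9) (nat_lit 4) (nat_lit 10) (nat_lit 5) (nat_lit 10) (nat_lit 4) (nat_lit 393) (nat_lit 338) (nat_lit 289)) (XT.lf (nat_lit 0) (nat_lit 2494340159) (nat_lit 152) (nat_lit 6003678579) (nat_lit 76) (nat_lit 56378276109) (nat_lit 8) (nat_lit 5) (nat_lit 10) (nat_lit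 5) (nat_lit 9) (nat_lit 4) (nat_lit 394) (nat_lit 338) (nat_lit 288))))) (XT.nd (nat_lit 156) (nat_lit 76) (nat_lit 0) (XT.nd (nat_lit 78) (nat_lit 0) (nat_lit 0) (XT.lf (nat_lit 0) (nat_lit 11791588270) (nat_lit 152) (nat_lit 56065932595) (nat_lit 0) (nat_lit 1411989071) (nat_lit 7) (nat_lit 5) (nat_lit 9) (nat_lit 4) (nat_lit 7) (nat_lit 4) (nat_lit 395) (nat_lit 338) (nat_lit 287)) (XT.lf (nat_lit 0) (nat_lit 22191565840) (nat_lit 152) (nat_lit 39997422012) (nat_lit 0) (nat_lit 11796482225) (nat_lit 7) (nat_lit 5) (nat_lit 9) (nat_lit 4) (nat_lit 7) (nat_lit 4) (nat_lit 396) (nat_lit 338) (nat_lit 286))) (XT.nd (nat_lit 78) (nat_lit 76) (nat_lit 0) (XT.lf (nat_lit 0) (nat_lit 33395585106) (nat_lit 152) (nat_lit 22699197904) (nat_lit 0) (nat_lit 22986164069) (nat_lit 7) (nat_lit 5) (nat_lit 9) (nat_lit 4) (nat_lit 7) (nat_lit 4) (nat_lit 397) (nat_lit 338) (nat_lit 285)) (XT.nd (nat_lit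 78) (nat_lit 76) (nat_lit 0) (XT.lf (nat_lit 0) (nat_lit 45470040258) (nat_lit 152) (nat_lit 4068752277) (nat_lit 0) (nat_lit 35047343829) (nat_lit 7) (nat_lit 5) (nat_lit 9) (nat_lit 4) (nat_lit 7) (nat_lit 4) (nat_lit 398) (nat_lit 338) (nat_lit 284)) (XT.lf (nat_lit 0) (nat_lit 16847076508) (nat_lit 76) (nat_lit 42044579708) (nat_lit 76) (nat_lit 31609591251) (nat_lit 6) (nat_lit 4) (nat_lit 7) (nat_lit 5) (nat_lit 7) (nat_lit 4) (nat_lit 399) (nat_lit 338) (nat_lit 283))))))))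
noncomputable def xc89 : XT := (XT.nd (nat_lit 1482) (nat_lit 152) (nat_lit 0) (XT.nd (nat_lit 702) (nat_lit 76) (nat_lit 0) (XT.nd (nat_lit 312) (nat_lit 76) (nat_lit 0) (XT.nd (nat_lit 156) (nat_lit 76) (nat_lit 0) (XT.nd (nat_lit 78) (nat_lit 0) (nat_lit 0) (XT.lf (nat_lit 0) (nat_lit 39620964070) (nat_lit 76) (nat_lit 33853970744) (nat_lit 76) (nat_lit 23407600778) (nat_lit 6) (nat_lit 4) (nat_lit 7) (nat_lit 5) (nat_lit 7) (nat_lit 4) (nat_lit 400) (nat_lit 338) (nat_lit 282)) (XT.lf (nat_lit 0) (nat_lit 64173613497) (nat_lit 76) (nat_lit 25029675597) (nat_lit 76) (nat_lit 14572767197) (nat_lit 6) (nat_lit 4) (nat_lit 7) (nat_lit 5) (nat_lit 7) (nat_lit 4) (nat_lit 401) (nat_lit 338) (nat_lit 281))) (XT.nd (nat_lit 78) (nat_lit 76) (nat_lit 0) (XT.lf (nat_lit 0) (nat_lit 90650521969) (nat_lit 76) (nat_lit 15519402148) (nat_lit 76) (nat_lit 5052735939) (nat_lit 6) (nat_lit 4) (nat_lit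 7) (nat_lit 5) (nat_lit 7) (nat_lit 4) (nat_lit 402) (nat_lit 338) (nat_lit 280)) (XT.lf (nat_lit 0) (nat_lit 4948337320) (nat_lit 152) (nat_lit 183159589) (nat_lit 76) (nat_lit 114124956053) (nat_lit 5) (nat_lit 5) (nat_lit 7) (nat_lit 5) (nat_lit 6) (nat_lit 4) (nat_lit 403) (nat_lit 338) (nat_lit 279)))) (XT.nd (nat_lit 156) (nat_lit 0) (nat_lit 0) (XT.nd (nat_lit 78) (nat_lit 0) (nat_lit 0) (XT.lf (nat_lit 0) (nat_lit 16171193516) (nat_lit 152) (nat_lit 105231960312) (nat_lit 0) (nat_lit 6463724104) (nat_lit 4) (nat_lit 5) (nat_lit 6) (nat_lit 4) (nat_lit 4) (nat_lit 4) (nat_lit 404) (nat_lit 338) (nat_lit 278)) (XT.lf (nat_lit 0) (nat_lit 28412783107) (nat_lit 152) (nat_lit 90045541752) (nat_lit 0) (nat_lit 18698141415) (nat_lit 4) (nat_lit 5) (nat_lit 6) (nat_lit 4) (nat_lit 4) (nat_lit 4) (nat_lit 405) (nat_lit 338) (nat_lit 277))) (XT.nd (nat_lit 78) (nat_lit 0) (nat_lit 0) (XT.lf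 (nat_lit 0) (nat_lit 41617478831) (nat_lit 152) (nat_lit 73676846033) (nat_lit 0) (nat_lit 31896196137) (nat_lit 4) (nat_lit 5) (nat_lit 6) (nat_lit 4) (nat_lit 4) (nat_lit 4) (nat_lit 406) (nat_lit 338) (nat_lit 276)) (XT.nd (nat_lit 78) (nat_lit 0) (nat_lit 0) (XT.lf (nat_lit 0) (nat_lit 55863530735) (nat_lit 152) (nat_lit 56028873476) (nat_lit 0) (nat_lit 46136098967) (nat_lit 4) (nat_lit 5) (nat_lit 6) (nat_lit 4) (nat_lit 4) (nat_lit 4) (nat_lit 407) (nat_lit 338) (nat_lit 275)) (XT.lf (nat_lit 0) (nat_lit 71235359869) (nat_lit 152) (nat_lit 36997043504) (nat_lit 0) (nat_lit 61502234514) (nat_lit 4) (nat_lit 5) (nat_lit 6) (nat_lit 4) (nat_lit 4) (nat_lit 4) (nat_lit 408) (nat_lit 338) (nat_lit 274)))))) (XT.nd (nat_lit 390) (nat_lit 0) (nat_lit 0) (XT.nd (nat_lit 156) (nat_lit 0) (nat_lit 0) (XT.nd (nat_lit 78) (nat_lit 76) (nat_lit 0) (XT.lf (nat_lit 0) (nat_lit 87824058554) (nat_lit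 152) (nat_lit 16468574901) (nat_lit 0) (nat_lit 78085661358) (nat_lit 4) (nat_lit 5) (nat_lit 6) (nat_lit 4) (nat_lit 4) (nat_lit 4) (nat_lit 409) (nat_lit 338) (nat_lit 273)) (XT.lf (nat_lit 0) (nat_lit 5977185544) (nat_lit 76) (nat_lit 99894496100) (nat_lit 76) (nat_lit 90151217570) (nat_lit 3) (nat_lit 4) (nat_lit 4) (nat_lit 5) (nat_lit 4) (nat_lit 4) (nat_lit 410) (nat_lit 338) (nat_lit 272))) (XT.nd (nat_lit 78) (nat_lit 0) (nat_lit 0) (XT.lf (nat_lit 0) (nat_lit 31131807907) (nat_lit 76) (nat_lit 94669984610) (nat_lit 76) (nat_lit 84922186327) (nat_lit 3) (nat_lit 4) (nat_lit 4) (nat_lit 5) (nat_lit 4) (nat_lit 4) (nat_lit 411) (nat_lit 338) (nat_lit 271)) (XT.nd (nat_lit 78) (nat_lit 0) (nat_lit 0) (XT.lf (nat_lit 0) (nat_lit 58277150647) (nat_lit 76) (nat_lit 89038418942) (nat_lit 76) (nat_lit 79286435701) (nat_lit 3) (nat_lit 4) (nat_lit 4) (nat_lit 5) (nat_lit 4) (nat_lit 4)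 (nat_lit 412) (nat_lit 338) (nat_lit 270)) (XT.lf (nat_lit 0) (nat_lit 87574075054) (nat_lit 76) (nat_lit 82966426853) (nat_lit 76) (nat_lit 73210568652) (nat_lit 3) (nat_lit 4) (nat_lit 4) (nat_lit 5) (nat_lit 4) (nat_lit 4) (nat_lit 413) (nat_lit 338) (nat_lit 269))))) (XT.nd (nat_lit 156) (nat_lit 0) (nat_lit 0) (XT.nd (nat_lit 78) (nat_lit 0) (nat_lit 0) (XT.lf (nat_lit 0) (nat_lit 119196192532) (nat_lit 76) (nat_lit 76418026168) (nat_lit 76) (nat_lit 66658580042) (nat_lit 3) (nat_lit 4) (nat_lit 4) (nat_lit 5) (nat_lit 4) (nat_lit 4) (nat_lit 414) (nat_lit 338) (nat_lit 268)) (XT.lf (nat_lit 0) (nat_lit 153330893407) (nat_lit 76) (nat_lit 69354411551) (nat_lit 76) (nat_lit 59591643271) (nat_lit 3) (nat_lit 4) (nat_lit 4) (nat_lit 5) (nat_lit 4) (nat_lit 4) (nat_lit 415) (nat_lit 338) (nat_lit 267))) (XT.nd (nat_lit 78) (nat_lit 0) (nat_lit 0) (XT.lf (nat_lit 0) (nat_lit 190180457388)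 (nat_lit 76) (nat_lit 61733724544) (nat_lit 76) (nat_lit 51967880195) (nat_lit 3) (nat_lit 4) (nat_lit 4) (nat_lit 5) (nat_lit 4) (nat_lit 4) (nat_lit 416) (nat_lit 338) (nat_lit 266)) (XT.nd (nat_lit 78) (nat_lit 0) (nat_lit 0) (XT.lf (nat_lit 0) (nat_lit 229963252260) (nat_lit 76) (nat_lit 53510805520) (nat_lit 76) (nat_lit 43742112960) (nat_lit 3) (nat_lit 4) (nat_lit 4) (nat_lit 5) (nat_lit 4) (nat_lit 4) (nat_lit 417) (nat_lit 338) (nat_lit 265)) (XT.lf (nat_lit 0) (nat_lit 272915027921) (nat_lit 76) (nat_lit 44636926070) (nat_lit 76) (nat_lit 34865596278) (nat_lit 3) (nat_lit 4) (nat_lit 4) (nat_lit 5) (nat_lit 4) (nat_lit 4) (nat_lit 418) (nat_lit 338) (nat_lit 264))))))) (XT.nd (nat_lit 780) (nat_lit 0) (nat_lit 0) (XT.nd (nat_lit 390) (nat_lit 0) (nat_lit 0) (XT.nd (nat_lit 156) (nat_lit 152) (nat_lit 0) (XT.nd (nat_lit 78) (nat_lit 0) (nat_lit 0) (XT.lf (nat_lit 0) (nat_lit 319290313410)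 (nat_lit 76) (nat_lit 35059500243) (nat_lit 76) (nat_lit 25285728568) (nat_lit 3) (nat_lit 4) (nat_lit 4) (nat_lit 5) (nat_lit 4) (nat_lit 4) (nat_lit 419) (nat_lit 338) (nat_lit 263)) (XT.lf (nat_lit 0) (nat_lit 369363925234) (nat_lit 76) (nat_lit 24721772921) (nat_lit 76) (nat_lit 14945740244) (nat_lit 3) (nat_lit 4) (nat_lit 4) (nat_lit 5) (nat_lit 4) (nat_lit 4) (nat_lit 420) (nat_lit 338) (nat_lit 262))) (XT.nd (nat_lit 78) (nat_lit 152) (nat_lit 0) (XT.lf (nat_lit 0) (nat_lit 423432595908) (nat_lit 76) (nat_lit 13562483499) (nat_lit 76) (nat_lit 3784357302) (nat_lit 3) (nat_lit 4) (nat_lit 4) (nat_lit 5) (nat_lit 4) (nat_lit 4) (nat_lit 421) (nat_lit 338) (nat_lit 261)) (XT.nd (nat_lit 78) (nat_lit 0) (nat_lit 0) (XT.lf (nat_lit 0) (nat_lit 6895223001) (nat_lit 76) (nat_lit 1121742211) (nat_lit 152) (nat_lit 467021540769) (nat_lit 1) (nat_lit 5) (nat_lit 2) (nat_lit 5) (nat_lit 3)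 (nat_lit 4) (nat_lit 422) (nat_lit 338) (nat_lit 260)) (XT.lf (nat_lit 0) (nat_lit 21335620134) (nat_lit 152) (nat_lit 478354260234) (nat_lit 0) (nat_lit 12278342821) (nat_lit 1) (nat_lit 5) (nat_lit 3) (nat_lit 4) (nat_lit 1) (nat_lit 4) (nat_lit 423) (nat_lit 338) (nat_lit 259))))) (XT.nd (nat_lit 156) (nat_lit 0) (nat_lit 0) (XT.nd (nat_lit 78) (nat_lit 0) (nat_lit 0) (XT.lf (nat_lit 0) (nat_lit 35744190005) (nat_lit 152) (nat_lit 489420800452) (nat_lit 0) (nat_lit 26685373892) (nat_lit 1) (nat_lit 5) (nat_lit 3) (nat_lit 4) (nat_lit 1) (nat_lit 4) (nat_lit 424) (nat_lit 338) (nat_lit 258)) (XT.lf (nat_lit 0) (nat_lit 51301081016) (nat_lit 152) (nat_lit 501381505204) (nat_lit 0) (nat_lit 42240840088) (nat_lit 1) (nat_lit 5) (nat_lit 3) (nat_lit 4) (nat_lit 1) (nat_lit 4) (nat_lit 425) (nat_lit 338) (nat_lit 257))) (XT.nd (nat_lit 78) (nat_lit 0) (nat_lit 0) (XT.lf (nat_lit 0) (nat_lit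 68098482150) (nat_lit 152) (nat_lit 514307252741) (nat_lit 0) (nat_lit 59036921949) (nat_lit 1) (nat_lit 5) (nat_lit 3) (nat_lit 4) (nat_lit 1) (nat_lit 4) (nat_lit 426) (nat_lit 338) (nat_lit 256)) (XT.nd (nat_lit 78) (nat_lit 0) (nat_lit 0) (XT.lf (nat_lit 0) (nat_lit 86235933563) (nat_lit 152) (nat_lit 528274640085) (nat_lit 0) (nat_lit 77173151813) (nat_lit 1) (nat_lit 5) (nat_lit 3) (nat_lit 4) (nat_lit 1) (nat_lit 4) (nat_lit 427) (nat_lit 338) (nat_lit 255)) (XT.lf (nat_lit 0) (nat_lit 105820916449) (nat_lit 152) (nat_lit 543366436939) (nat_lit 0) (nat_lit 96757003635) (nat_lit 1) (nat_lit 5) (nat_lit 3) (nat_lit 4) (nat_lit 1) (nat_lit 4) (nat_lit 428) (nat_lit 338) (nat_lit 254)))))) (XT.nd (nat_lit 390) (nat_lit 0) (nat_lit 0) (XT.nd (nat_lit 156) (nat_lit 0) (nat_lit 0) (XT.nd (nat_lit 78) (nat_lit 0) (nat_lit 0) (XT.lf (nat_lit 0) (nat_lit 126969489964) (nat_lit 152) (nat_lit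 559672076173) (nat_lit 0) (nat_lit 117904529869) (nat_lit 1) (nat_lit 5) (nat_lit 3) (nat_lit 4) (nat_lit 1) (nat_lit 4) (nat_lit 429) (nat_lit 338) (nat_lit 253)) (XT.lf (nat_lit 0) (nat_lit 149806978989) (nat_lit 152) (nat_lit 577288183798) (nat_lit 0) (nat_lit 140741049189) (nat_lit 1) (nat_lit 5) (nat_lit 3) (nat_lit 4) (nat_lit 1) (nat_lit 4) (nat_lit 430) (nat_lit 338) (nat_lit 252))) (XT.nd (nat_lit 78) (nat_lit 0) (nat_lit 0) (XT.lf (nat_lit 0) (nat_lit 174468716793) (nat_lit 152) (nat_lit 596319151562) (nat_lit 0) (nat_lit 165401889118) (nat_lit 1) (nat_lit 5) (nat_lit 3) (nat_lit 4) (nat_lit 1) (nat_lit 4) (nat_lit 431) (nat_lit 338) (nat_lit 251)) (XT.nd (nat_lit 78) (nat_lit 0) (nat_lit 0) (XT.lf (nat_lit 0) (nat_lit 201100847007) (nat_lit 152) (nat_lit 616877755571) (nat_lit 0) (nat_lit 192033187966) (nat_lit 1) (nat_lit 5) (nat_lit 3) (nat_lit 4) (nat_lit 1) (nat_lit 4) (nat_lit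 432) (nat_lit 338) (nat_lit 250)) (XT.lf (nat_lit 0) (nat_lit 229861189662) (nat_lit 152) (nat_lit 639085824589) (nat_lit 0) (nat_lit 220792760837) (nat_lit 1) (nat_lit 5) (nat_lit 3) (nat_lit 4) (nat_lit 1) (nat_lit 4) (nat_lit 433) (nat_lit 338) (nat_lit 249))))) (XT.nd (nat_lit 156) (nat_lit 0) (nat_lit 0) (XT.nd (nat_lit 78) (nat_lit 0) (nat_lit 0) (XT.lf (nat_lit 0) (nat_lit 260920176417) (nat_lit 152) (nat_lit 663074961988) (nat_lit 0) (nat_lit 251851034831) (nat_lit 1) (nat_lit 5) (nat_lit 3) (nat_lit 4) (nat_lit 1) (nat_lit 4) (nat_lit 434) (nat_lit 338) (nat_lit 248)) (XT.lf (nat_lit 0) (nat_lit 294461860528) (nat_lit 152) (nat_lit 688987325620) (nat_lit 0) (nat_lit 285392058977) (nat_lit 1) (nat_lit 5) (nat_lit 3) (nat_lit 4) (nat_lit 1) (nat_lit 4) (nat_lit 435) (nat_lit 338) (nat_lit 247))) (XT.nd (nat_lit 78) (nat_lit 0) (nat_lit 0) (XT.lf (nat_lit 0) (nat_lit 330685007531)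 (nat_lit 152) (nat_lit 716976470231) (nat_lit 0) (nat_lit 321614594901) (nat_lit 1) (nat_lit 5) (nat_lit 3) (nat_lit 4) (nat_lit 1) (nat_lit 4) (nat_lit 436) (nat_lit 338) (nat_lit 246)) (XT.nd (nat_lit 78) (nat_lit 0) (nat_lit 0) (XT.lf (nat_lit 0) (nat_lit 369804273110) (nat_lit 152) (nat_lit 747208257420) (nat_lit 0) (nat_lit 360733294667) (nat_lit 1) (nat_lit 5) (nat_lit 3) (nat_lit 4) (nat_lit 1) (nat_lit 4) (nat_lit 437) (nat_lit 338) (nat_lit 245)) (XT.lf (nat_lit 0) (nat_lit 412051475137) (nat_lit 152) (nat_lit 779861838518) (nat_lit 0) (nat_lit 402979972792) (nat_lit 1) (nat_lit 5) (nat_lit 3) (nat_lit 4) (nat_lit 1) (nat_lit 4) (nat_lit 438) (nat_lit 338) (nat_lit 244))))))))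
noncomputable def xc90 : XT := (XT.nd (nat_lit 1482) (nat_lit 0) (nat_lit 0) (XT.nd (nat_lit 702) (nat_lit 0) (nat_lit 0) (XT.nd (nat_lit 312) (nat_lit 0) (nat_lit 0) (XT.nd (nat_lit 156) (nat_lit 0) (nat_lit 0) (XT.nd (nat_lit 78) (nat_lit 0) (nat_lit 0) (XT.lf (nat_lit 0) (nat_lit 457676967401) (nat_lit 152) (nat_lit 815130716228) (nat_lit 0) (nat_lit 448604979962) (nat_lit 1) (nat_lit 5) (nat_lit 3) (nat_lit 4) (nat_lit 1) (nat_lit 4) (nat_lit 439) (nat_lit 338) (nat_lit 243)) (XT.lf (nat_lit 0) (nat_lit 506951123190) (nat_lit 152) (nat_lit 853223891307) (nat_lit 0) (nat_lit 497878686590) (nat_lit 1) (nat_lit 5) (nat_lit 3) (nat_lit 4) (nat_lit 1) (nat_lit 4) (nat_lit 440) (nat_lit 338) (nat_lit 242))) (XT.nd (nat_lit 78) (nat_lit 0) (nat_lit 0) (XT.lf (nat_lit 0) (nat_lit 560165937500) (nat_lit 152) (nat_lit 894367101088) (nat_lit 0) (nat_lit 551093085010) (nat_lit 1) (nat_lit 5) (nat_lit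 3) (nat_lit 4) (nat_lit 1) (nat_lit 4) (nat_lit 441) (nat_lit 338) (nat_lit 241)) (XT.lf (nat_lit 0) (nat_lit 617636757380) (nat_lit 152) (nat_lit 938804157184) (nat_lit 0) (nat_lit 608563519807) (nat_lit 1) (nat_lit 5) (nat_lit 3) (nat_lit 4) (nat_lit 1) (nat_lit 4) (nat_lit 442) (nat_lit 338) (nat_lit 240)))) (XT.nd (nat_lit 156) (nat_lit 0) (nat_lit 0) (XT.nd (nat_lit 78) (nat_lit 0) (nat_lit 0) (XT.lf (nat_lit 0) (nat_lit 679704150651) (nat_lit 152) (nat_lit 986798390300) (nat_lit 0) (nat_lit 670630556520) (nat_lit 1) (nat_lit 5) (nat_lit 3) (nat_lit 4) (nat_lit 1) (nat_lit 4) (nat_lit 443) (nat_lit 338) (nat_lit 239)) (XT.lf (nat_lit 0) (nat_lit 746735924088) (nat_lit 152) (nat_lit 1038634210705) (nat_lit 0) (nat_lit 737661999810) (nat_lit 1) (nat_lit 5) (nat_lit 3) (nat_lit 4) (nat_lit 1) (nat_lit 4) (nat_lit 444) (nat_lit 338) (nat_lit 238))) (XT.nd (nat_lit 78) (nat_lit 0) (nat_lit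 0) (XT.lf (nat_lit 0) (nat_lit 819129303015) (nat_lit 152) (nat_lit 1094618793631) (nat_lit 0) (nat_lit 810055073046) (nat_lit 1) (nat_lit 5) (nat_lit 3) (nat_lit 4) (nat_lit 1) (nat_lit 4) (nat_lit 445) (nat_lit 338) (nat_lit 237)) (XT.nd (nat_lit 78) (nat_lit 0) (nat_lit 0) (XT.lf (nat_lit 0) (nat_lit 897313285234) (nat_lit 152) (nat_lit 1155083899569) (nat_lit 0) (nat_lit 888238772216) (nat_lit 1) (nat_lit 5) (nat_lit 3) (nat_lit 4) (nat_lit 1) (nat_lit 4) (nat_lit 446) (nat_lit 338) (nat_lit 236)) (XT.lf (nat_lit 0) (nat_lit 981751183230) (nat_lit 152) (nat_lit 1220387840259) (nat_lit 0) (nat_lit 972676408132) (nat_lit 1) (nat_lit 5) (nat_lit 3) (nat_lit 4) (nat_lit 1) (nat_lit 4) (nat_lit 447) (nat_lit 338) (nat_lit 235)))))) (XT.nd (nat_lit 390) (nat_lit 0) (nat_lit 0) (XT.nd (nat_lit 156) (nat_lit 0) (nat_lit 0) (XT.nd (nat_lit 78) (nat_lit 0) (nat_lit 0) (XT.lf (nat_lit 0) (nat_lit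 1072943369734) (nat_lit 152) (nat_lit 1290917602015) (nat_lit 0) (nat_lit 1063868351968) (nat_lit 1) (nat_lit 5) (nat_lit 3) (nat_lit 4) (nat_lit 1) (nat_lit 4) (nat_lit 448) (nat_lit 338) (nat_lit 234)) (XT.lf (nat_lit 0) (nat_lit 1171430242888) (nat_lit 152) (nat_lit 1367091138982) (nat_lit 0) (nat_lit 1162355000429) (nat_lit 1) (nat_lit 5) (nat_lit 3) (nat_lit 4) (nat_lit 1) (nat_lit 4) (nat_lit 449) (nat_lit 338) (nat_lit 233))) (XT.nd (nat_lit 78) (nat_lit 0) (nat_lit 0) (XT.lf (nat_lit 0) (nat_lit 1277795428606) (nat_lit 152) (nat_lit 1449359849896) (nat_lit 0) (nat_lit 1268719978099) (nat_lit 1) (nat_lit 5) (nat_lit 3) (nat_lit 4) (nat_lit 1) (nat_lit 4) (nat_lit 450) (nat_lit 338) (nat_lit 232)) (XT.nd (nat_lit 78) (nat_lit 0) (nat_lit 0) (XT.lf (nat_lit 0) (nat_lit 1392669239100) (nat_lit 152) (nat_lit 1538211253046) (nat_lit 0) (nat_lit 1383593595956) (nat_lit 1) (nat_lit 5)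 (nat_lit 3) (nat_lit 4) (nat_lit 1) (nat_lit 4) (nat_lit 451) (nat_lit 338) (nat_lit 231)) (XT.lf (nat_lit 0) (nat_lit 1516732408062) (nat_lit 152) (nat_lit 1634171875264) (nat_lit 0) (nat_lit 1507656586550) (nat_lit 1) (nat_lit 5) (nat_lit 3) (nat_lit 4) (nat_lit 1) (nat_lit 4) (nat_lit 452) (nat_lit 338) (nat_lit 230))))) (XT.nd (nat_lit 156) (nat_lit 0) (nat_lit 0) (XT.nd (nat_lit 78) (nat_lit 0) (nat_lit 0) (XT.lf (nat_lit 0) (nat_lit 1650720124642) (nat_lit 152) (nat_lit 1737810372089) (nat_lit 0) (nat_lit 1641644137974) (nat_lit 1) (nat_lit 5) (nat_lit 3) (nat_lit 4) (nat_lit 1) (nat_lit 4) (nat_lit 453) (nat_lit 338) (nat_lit 229)) (XT.lf (nat_lit 0) (nat_lit 1795426390122) (nat_lit 152) (nat_lit 1849740897576) (nat_lit 0) (nat_lit 1786350250532) (nat_lit 1) (nat_lit 5) (nat_lit 3) (nat_lit 4) (nat_lit 1) (nat_lit 4) (nat_lit 454) (nat_lit 338) (nat_lit 228))) (XT.nd (nat_lit 78)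 (nat_lit 0) (nat_lit 0) (XT.lf (nat_lit 0) (nat_lit 1951708723113) (nat_lit 152) (nat_lit 1970626743730) (nat_lit 0) (nat_lit 1942632441929) (nat_lit 1) (nat_lit 5) (nat_lit 3) (nat_lit 4) (nat_lit 1) (nat_lit 4) (nat_lit 455) (nat_lit 338) (nat_lit 227)) (XT.nd (nat_lit 78) (nat_lit 0) (nat_lit 0) (XT.lf (nat_lit 0) (nat_lit 2120493241145) (nat_lit 152) (nat_lit 2101184271118) (nat_lit 0) (nat_lit 2111416828855) (nat_lit 1) (nat_lit 5) (nat_lit 3) (nat_lit 4) (nat_lit 1) (nat_lit 4) (nat_lit 456) (nat_lit 338) (nat_lit 226)) (XT.lf (nat_lit 0) (nat_lit 2302780148767) (nat_lit 152) (nat_lit 2242187153978) (nat_lit 0) (nat_lit 2293703615083) (nat_lit 1) (nat_lit 5) (nat_lit 3) (nat_lit 4) (nat_lit 1) (nat_lit 4) (nat_lit 457) (nat_lit 338) (nat_lit 225))))))) (XT.nd (nat_lit 44694) (nat_lit 0) (nat_lit 3040) (XT.nd (nat_lit 44304) (nat_lit 0) (nat_lit 4940) (XT.nd (nat_lit 44070) (nat_lit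 0) (nat_lit 6004) (XT.nd (nat_lit 78) (nat_lit 0) (nat_lit 0) (XT.lf (nat_lit 0) (nat_lit 2499649664693) (nat_lit 152) (nat_lit 2394470964949) (nat_lit 0) (nat_lit 2490573018606) (nat_lit 1) (nat_lit 5) (nat_lit 3) (nat_lit 4) (nat_lit 1) (nat_lit 4) (nat_lit 458) (nat_lit 338) (nat_lit 224)) (XT.lf (nat_lit 0) (nat_lit 2712268423090) (nat_lit 152) (nat_lit 2558938126615) (nat_lit 0) (nat_lit 2703191672927) (nat_lit 1) (nat_lit 5) (nat_lit 3) (nat_lit 4) (nat_lit 1) (nat_lit 4) (nat_lit 459) (nat_lit 338) (nat_lit 223))) (XT.nd (nat_lit 78) (nat_lit 228) (nat_lit 0) (XT.lf (nat_lit 0) (nat_lit 72934236) (nat_lit 76) (nat_lit 1580611544) (nat_lit 76) (nat_lit 1580611544) (nat_lit 83) (nat_lit 4) (nat_lit 84) (nat_lit 5) (nat_lit 84) (nat_lit 4) (nat_lit 342) (nat_lit 339) (nat_lit 339)) (XT.nd (nat_lit 78) (nat_lit 228) (nat_lit 0) (XT.lf (nat_lit 0) (nat_lit 3787925867) (nat_lit 76) (nat_lit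 2703334250) (nat_lit 76) (nat_lit 16218008) (nat_lit 83) (nat_lit 4) (nat_lit 84) (nat_lit 5) (nat_lit 84) (nat_lit 4) (nat_lit 343) (nat_lit 339) (nat_lit 338)) (XT.lf (nat_lit 0) (nat_lit 944584291) (nat_lit 152) (nat_lit 1997613365) (nat_lit 228) (nat_lit 3623167619) (nat_lit 80) (nat_lit 5) (nat_lit 82) (nat_lit 5) (nat_lit 83) (nat_lit 4) (nat_lit 344) (nat_lit 339) (nat_lit 337))))) (XT.nd (nat_lit 156) (nat_lit 760) (nat_lit 0) (XT.nd (nat_lit 78) (nat_lit 304) (nat_lit 0) (XT.lf (nat_lit 0) (nat_lit 4868013885) (nat_lit 152) (nat_lit 1068029282) (nat_lit 228) (nat_lit 708361221) (nat_lit 80) (nat_lit 5) (nat_lit 82) (nat_lit 5) (nat_lit 83) (nat_lit 4) (nat_lit 345) (nat_lit 339) (nat_lit 336)) (XT.lf (nat_lit 0) (nat_lit 2113183104) (nat_lit 304) (nat_lit 4504648968) (nat_lit 76) (nat_lit 124043591) (nat_lit 76) (nat_lit 5) (nat_lit 80) (nat_lit 5) (nat_lit 77) (nat_lit 4) (nat_lit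 346) (nat_lit 339) (nat_lit 335))) (XT.nd (nat_lit 78) (nat_lit 760) (nat_lit 0) (XT.lf (nat_lit 0) (nat_lit 4954782966) (nat_lit 304) (nat_lit 422927419) (nat_lit 76) (nat_lit 1481771195) (nat_lit 76) (nat_lit 5) (nat_lit 80) (nat_lit 5) (nat_lit 77) (nat_lit 4) (nat_lit 347) (nat_lit 339) (nat_lit 334)) (XT.nd (nat_lit 78) (nat_lit 380) (nat_lit 0) (XT.lf (nat_lit 0) (nat_lit 850825869) (nat_lit 380) (nat_lit 3023718262) (nat_lit 76) (nat_lit 3121074016) (nat_lit 71) (nat_lit 5) (nat_lit 76) (nat_lit 5) (nat_lit 72) (nat_lit 5) (nat_lit 348) (nat_lit 339) (nat_lit 333)) (XT.lf (nat_lit 0) (nat_lit 1425008060) (nat_lit 380) (nat_lit 2124629061) (nat_lit 456) (nat_lit 3603321901) (nat_lit 66) (nat_lit 5) (nat_lit 71) (nat_lit 5) (nat_lit 72) (nat_lit 5) (nat_lit 349) (nat_lit 339) (nat_lit 332)))))) (XT.nd (nat_lit 390) (nat_lit 684) (nat_lit 0) (XT.nd (nat_lit 156) (nat_lit 684) (nat_lit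 0) (XT.nd (nat_lit 78) (nat_lit 532) (nat_lit 0) (XT.lf (nat_lit 0) (nat_lit 6209436484) (nat_lit 380) (nat_lit 128906796) (nat_lit 456) (nat_lit 994931202) (nat_lit 66) (nat_lit 5) (nat_lit 71) (nat_lit 5) (nat_lit 72) (nat_lit 5) (nat_lit 350) (nat_lit 339) (nat_lit 331)) (XT.lf (nat_lit 0) (nat_lit 1676504393) (nat_lit 532) (nat_lit 3779258313) (nat_lit 76) (nat_lit 2073367555) (nat_lit 59) (nat_lit 5) (nat_lit 66) (nat_lit 5) (nat_lit 60) (nat_lit 5) (nat_lit 351) (nat_lit 339) (nat_lit 330))) (XT.nd (nat_lit 78) (nat_lit 304) (nat_lit 0) (XT.lf (nat_lit 0) (nat_lit 1168383611) (nat_lit 380) (nat_lit 3214366464) (nat_lit 456) (nat_lit 3366092572) (nat_lit 54) (nat_lit 5) (nat_lit 59) (nat_lit 5) (nat_lit 60) (nat_lit 5) (nat_lit 352) (nat_lit 339) (nat_lit 329)) (XT.nd (nat_lit 78) (nat_lit 304) (nat_lit 0) (XT.lf (nat_lit 0) (nat_lit 6532540477) (nat_lit 380) (nat_lit 697424334) (nat_lit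 456) (nat_lit 762434957) (nat_lit 54) (nat_lit 5) (nat_lit 59) (nat_lit 5) (nat_lit 60) (nat_lit 5) (nat_lit 353) (nat_lit 339) (nat_lit 328)) (XT.lf (nat_lit 0) (nat_lit 1925840827) (nat_lit 304) (nat_lit 4275587903) (nat_lit 76) (nat_lit 2051954565) (nat_lit 50) (nat_lit 5) (nat_lit 54) (nat_lit 5) (nat_lit 51) (nat_lit 5) (nat_lit 354) (nat_lit 339) (nat_lit 327))))) (XT.nd (nat_lit 156) (nat_lit 456) (nat_lit 0) (XT.nd (nat_lit 78) (nat_lit 0) (nat_lit 0) (XT.lf (nat_lit 0) (nat_lit 1227056514) (nat_lit 228) (nat_lit 3487030823) (nat_lit 304) (nat_lit 3825664740) (nat_lit 47) (nat_lit 5) (nat_lit 50) (nat_lit 5) (nat_lit 51) (nat_lit 5) (nat_lit 355) (nat_lit 339) (nat_lit 326)) (XT.lf (nat_lit 0) (nat_lit 7221247055) (nat_lit 228) (nat_lit 465993120) (nat_lit 304) (nat_lit 1165008058) (nat_lit 47) (nat_lit 5) (nat_lit 50) (nat_lit 5) (nat_lit 51) (nat_lit 5) (nat_lit 356) (nat_lit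 339) (nat_lit 325))) (XT.nd (nat_lit 78) (nat_lit 228) (nat_lit 0) (XT.lf (nat_lit 0) (nat_lit 1654136239) (nat_lit 228) (nat_lit 4756030552) (nat_lit 76) (nat_lit 2773944009) (nat_lit 44) (nat_lit 5) (nat_lit 47) (nat_lit 5) (nat_lit 45) (nat_lit 5) (nat_lit 357) (nat_lit 339) (nat_lit 324)) (XT.nd (nat_lit 78) (nat_lit 0) (nat_lit 0) (XT.lf (nat_lit 0) (nat_lit 1358881953) (nat_lit 228) (nat_lit 3225694587) (nat_lit 304) (nat_lit 4959760083) (nat_lit 41) (nat_lit 5) (nat_lit 44) (nat_lit 5) (nat_lit 45) (nat_lit 5) (nat_lit 358) (nat_lit 339) (nat_lit 323)) (XT.lf (nat_lit 0) (nat_lit 7750976547) (nat_lit 304) (nat_lit 1894213402) (nat_lit 76) (nat_lit 288190325) (nat_lit 41) (nat_lit 5) (nat_lit 45) (nat_lit 5) (nat_lit 42) (nat_lit 4) (nat_lit 359) (nat_lit 339) (nat_lit 322))))))))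
noncomputable def xc91 : XT := (XT.nd (nat_lit 1482) (nat_lit 836) (nat_lit 0) (XT.nd (nat_lit 702) (nat_lit 684) (nat_lit 0) (XT.nd (nat_lit 312) (nat_lit 532) (nat_lit 0) (XT.nd (nat_lit 156) (nat_lit 152) (nat_lit 0) (XT.nd (nat_lit 78) (nat_lit 152) (nat_lit 0) (XT.lf (nat_lit 0) (nat_lit 852332159) (nat_lit 228) (nat_lit 5490348044) (nat_lit 76) (nat_lit 4003313970) (nat_lit 38) (nat_lit 5) (nat_lit 41) (nat_lit 5) (nat_lit 39) (nat_lit 5) (nat_lit 360) (nat_lit 339) (nat_lit 321)) (XT.lf (nat_lit 0) (nat_lit 1288430371) (nat_lit 152) (nat_lit 2682635284) (nat_lit 228) (nat_lit 6819383274) (nat_lit 36) (nat_lit 5) (nat_lit 38) (nat_lit 5) (nat_lit 39) (nat_lit 5) (nat_lit 361) (nat_lit 339) (nat_lit 320))) (XT.nd (nat_lit 78) (nat_lit 152) (nat_lit 0) (XT.lf (nat_lit 0) (nat_lit 7402395700) (nat_lit 228) (nat_lit 2558505427) (nat_lit 76) (nat_lit 1304600578) (nat_lit 36) (nat_lit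 5) (nat_lit 39) (nat_lit 5) (nat_lit 37) (nat_lit 4) (nat_lit 362) (nat_lit 339) (nat_lit 319)) (XT.lf (nat_lit 0) (nat_lit 4944682521) (nat_lit 152) (nat_lit 6239679911) (nat_lit 228) (nat_lit 588188689) (nat_lit 34) (nat_lit 5) (nat_lit 36) (nat_lit 5) (nat_lit 37) (nat_lit 4) (nat_lit 363) (nat_lit 339) (nat_lit 318)))) (XT.nd (nat_lit 156) (nat_lit 304) (nat_lit 0) (XT.nd (nat_lit 78) (nat_lit 0) (nat_lit 0) (XT.lf (nat_lit 0) (nat_lit 664562902) (nat_lit 152) (nat_lit 2113318663) (nat_lit 228) (nat_lit 9538547276) (nat_lit 31) (nat_lit 5) (nat_lit 33) (nat_lit 5) (nat_lit 34) (nat_lit 5) (nat_lit 364) (nat_lit 339) (nat_lit 317)) (XT.lf (nat_lit 0) (nat_lit 6520856855) (nat_lit 228) (nat_lit 3998336733) (nat_lit 76) (nat_lit 2372314992) (nat_lit 31) (nat_lit 5) (nat_lit 34) (nat_lit 5) (nat_lit 32) (nat_lit 4) (nat_lit 365) (nat_lit 339) (nat_lit 316))) (XT.nd (nat_lit 78) (nat_lit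 228) (nat_lit 0) (XT.lf (nat_lit 0) (nat_lit 4261237364) (nat_lit 76) (nat_lit 6358952444) (nat_lit 152) (nat_lit 2887912210) (nat_lit 30) (nat_lit 5) (nat_lit 31) (nat_lit 5) (nat_lit 32) (nat_lit 4) (nat_lit 366) (nat_lit 339) (nat_lit 315)) (XT.nd (nat_lit 78) (nat_lit 152) (nat_lit 0) (XT.lf (nat_lit 0) (nat_lit 842474762) (nat_lit 152) (nat_lit 945790885) (nat_lit 76) (nat_lit 12383111246) (nat_lit 29) (nat_lit 5) (nat_lit 31) (nat_lit 5) (nat_lit 30) (nat_lit 5) (nat_lit 367) (nat_lit 339) (nat_lit 314)) (XT.lf (nat_lit 0) (nat_lit 4901745843) (nat_lit 228) (nat_lit 6753403535) (nat_lit 76) (nat_lit 3211693827) (nat_lit 27) (nat_lit 5) (nat_lit 30) (nat_lit 5) (nat_lit 28) (nat_lit 4) (nat_lit 368) (nat_lit 339) (nat_lit 313)))))) (XT.nd (nat_lit 390) (nat_lit 304) (nat_lit 0) (XT.nd (nat_lit 156) (nat_lit 304) (nat_lit 0) (XT.nd (nat_lit 78) (nat_lit 0) (nat_lit 0) (XT.lf (nat_lit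 0) (nat_lit 2245342965) (nat_lit 76) (nat_lit 7077089286) (nat_lit 152) (nat_lit 6292625436) (nat_lit 26) (nat_lit 5) (nat_lit 27) (nat_lit 5) (nat_lit 28) (nat_lit 4) (nat_lit 369) (nat_lit 339) (nat_lit 312)) (XT.lf (nat_lit 0) (nat_lit 12196813121) (nat_lit 76) (nat_lit 1997355685) (nat_lit 152) (nat_lit 2221210344) (nat_lit 26) (nat_lit 5) (nat_lit 27) (nat_lit 5) (nat_lit 28) (nat_lit 4) (nat_lit 370) (nat_lit 339) (nat_lit 311))) (XT.nd (nat_lit 78) (nat_lit 76) (nat_lit 0) (XT.lf (nat_lit 0) (nat_lit 2209950976) (nat_lit 228) (nat_lit 11602688556) (nat_lit 76) (nat_lit 3451505358) (nat_lit 23) (nat_lit 5) (nat_lit 26) (nat_lit 5) (nat_lit 24) (nat_lit 4) (nat_lit 371) (nat_lit 339) (nat_lit 310)) (XT.nd (nat_lit 78) (nat_lit 76) (nat_lit 0) (XT.lf (nat_lit 0) (nat_lit 6964192889) (nat_lit 228) (nat_lit 1858137939) (nat_lit 76) (nat_lit 9346811196) (nat_lit 23) (nat_lit 5) (nat_lit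 26) (nat_lit 5) (nat_lit 24) (nat_lit 4) (nat_lit 372) (nat_lit 339) (nat_lit 309)) (XT.lf (nat_lit 0) (nat_lit 8980223795) (nat_lit 76) (nat_lit 3258943825) (nat_lit 152) (nat_lit 6896170294) (nat_lit 22) (nat_lit 5) (nat_lit 23) (nat_lit 5) (nat_lit 24) (nat_lit 4) (nat_lit 373) (nat_lit 339) (nat_lit 308))))) (XT.nd (nat_lit 156) (nat_lit 152) (nat_lit 0) (XT.nd (nat_lit 78) (nat_lit 76) (nat_lit 0) (XT.lf (nat_lit 0) (nat_lit 434831998) (nat_lit 76) (nat_lit 17555464787) (nat_lit 76) (nat_lit 2184228376) (nat_lit 21) (nat_lit 4) (nat_lit 22) (nat_lit 5) (nat_lit 22) (nat_lit 4) (nat_lit 374) (nat_lit 339) (nat_lit 307)) (XT.lf (nat_lit 0) (nat_lit 3054765529) (nat_lit 152) (nat_lit 9123368749) (nat_lit 76) (nat_lit 9089516708) (nat_lit 20) (nat_lit 5) (nat_lit 22) (nat_lit 5) (nat_lit 21) (nat_lit 4) (nat_lit 375) (nat_lit 339) (nat_lit 306))) (XT.nd (nat_lit 78) (nat_lit 76) (nat_lit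 0) (XT.lf (nat_lit 0) (nat_lit 2272815476) (nat_lit 76) (nat_lit 6308091258) (nat_lit 152) (nat_lit 13863921248) (nat_lit 19) (nat_lit 5) (nat_lit 20) (nat_lit 5) (nat_lit 21) (nat_lit 4) (nat_lit 376) (nat_lit 339) (nat_lit 305)) (XT.nd (nat_lit 78) (nat_lit 76) (nat_lit 0) (XT.lf (nat_lit 0) (nat_lit 14737954778) (nat_lit 152) (nat_lit 8731098698) (nat_lit 0) (nat_lit 232041149) (nat_lit 19) (nat_lit 5) (nat_lit 21) (nat_lit 4) (nat_lit 19) (nat_lit 4) (nat_lit 377) (nat_lit 339) (nat_lit 304)) (XT.lf (nat_lit 0) (nat_lit 3519538547) (nat_lit 76) (nat_lit 18053675530) (nat_lit 76) (nat_lit 3469815925) (nat_lit 18) (nat_lit 4) (nat_lit 19) (nat_lit 5) (nat_lit 19) (nat_lit 4) (nat_lit 378) (nat_lit 339) (nat_lit 303))))))) (XT.nd (nat_lit 780) (nat_lit 380) (nat_lit 0) (XT.nd (nat_lit 390) (nat_lit 228) (nat_lit 0) (XT.nd (nat_lit 156) (nat_lit 76) (nat_lit 0) (XT.nd (nat_lit 78) (nat_lit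 76) (nat_lit 0) (XT.lf (nat_lit 0) (nat_lit 2522140796) (nat_lit 152) (nat_lit 9409978950) (nat_lit 76) (nat_lit 14540888169) (nat_lit 17) (nat_lit 5) (nat_lit 19) (nat_lit 5) (nat_lit 18) (nat_lit 4) (nat_lit 379) (nat_lit 339) (nat_lit 302)) (XT.lf (nat_lit 0) (nat_lit 3656033192) (nat_lit 76) (nat_lit 5179972148) (nat_lit 152) (nat_lit 19171783033) (nat_lit 16) (nat_lit 5) (nat_lit 17) (nat_lit 5) (nat_lit 18) (nat_lit 4) (nat_lit 380) (nat_lit 339) (nat_lit 301))) (XT.nd (nat_lit 78) (nat_lit 76) (nat_lit 0) (XT.lf (nat_lit 0) (nat_lit 15912348134) (nat_lit 152) (nat_lit 11509648052) (nat_lit 0) (nat_lit 2222779665) (nat_lit 16) (nat_lit 5) (nat_lit 18) (nat_lit 4) (nat_lit 16) (nat_lit 4) (nat_lit 381) (nat_lit 339) (nat_lit 300)) (XT.nd (nat_lit 78) (nat_lit 0) (nat_lit 0) (XT.lf (nat_lit 0) (nat_lit 2235368989) (nat_lit 76) (nat_lit 21454585549) (nat_lit 76) (nat_lit 7711968358)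 (nat_lit 15) (nat_lit 4) (nat_lit 16) (nat_lit 5) (nat_lit 16) (nat_lit 4) (nat_lit 382) (nat_lit 339) (nat_lit 299)) (XT.lf (nat_lit 0) (nat_lit 17635390739) (nat_lit 76) (nat_lit 14717475835) (nat_lit 76) (nat_lit 925739457) (nat_lit 15) (nat_lit 4) (nat_lit 16) (nat_lit 5) (nat_lit 16) (nat_lit 4) (nat_lit 383) (nat_lit 339) (nat_lit 298))))) (XT.nd (nat_lit 156) (nat_lit 76) (nat_lit 0) (XT.nd (nat_lit 78) (nat_lit 76) (nat_lit 0) (XT.lf (nat_lit 0) (nat_lit 6034037764) (nat_lit 152) (nat_lit 1286418556) (nat_lit 76) (nat_lit 27976579865) (nat_lit 14) (nat_lit 5) (nat_lit 16) (nat_lit 5) (nat_lit 15) (nat_lit 4) (nat_lit 384) (nat_lit 339) (nat_lit 297)) (XT.lf (nat_lit 0) (nat_lit 13837302998) (nat_lit 152) (nat_lit 22624713615) (nat_lit 0) (nat_lit 986072543) (nat_lit 13) (nat_lit 5) (nat_lit 15) (nat_lit 4) (nat_lit 13) (nat_lit 4) (nat_lit 385) (nat_lit 339) (nat_lit 296))) (XT.nd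 (nat_lit 78) (nat_lit 76) (nat_lit 0) (XT.lf (nat_lit 0) (nat_lit 22445987292) (nat_lit 152) (nat_lit 7752102567) (nat_lit 0) (nat_lit 9558652768) (nat_lit 13) (nat_lit 5) (nat_lit 15) (nat_lit 4) (nat_lit 13) (nat_lit 4) (nat_lit 386) (nat_lit 339) (nat_lit 295)) (XT.nd (nat_lit 78) (nat_lit 0) (nat_lit 0) (XT.lf (nat_lit 0) (nat_lit 8662397742) (nat_lit 76) (nat_lit 23247567582) (nat_lit 76) (nat_lit 10326803365) (nat_lit 12) (nat_lit 4) (nat_lit 13) (nat_lit 5) (nat_lit 13) (nat_lit 4) (nat_lit 387) (nat_lit 339) (nat_lit 294)) (XT.lf (nat_lit 0) (nat_lit 26751736089) (nat_lit 76) (nat_lit 15550736562) (nat_lit 76) (nat_lit 2599018925) (nat_lit 12) (nat_lit 4) (nat_lit 13) (nat_lit 5) (nat_lit 13) (nat_lit 4) (nat_lit 388) (nat_lit 339) (nat_lit 293)))))) (XT.nd (nat_lit 390) (nat_lit 152) (nat_lit 0) (XT.nd (nat_lit 156) (nat_lit 76) (nat_lit 0) (XT.nd (nat_lit 78) (nat_lit 76) (nat_lit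 0) (XT.lf (nat_lit 0) (nat_lit 5420976997) (nat_lit 152) (nat_lit 1704746055) (nat_lit 76) (nat_lit 40645700450) (nat_lit 11) (nat_lit 5) (nat_lit 13) (nat_lit 5) (nat_lit 12) (nat_lit 4) (nat_lit 389) (nat_lit 339) (nat_lit 292)) (XT.lf (nat_lit 0) (nat_lit 14368348462) (nat_lit 152) (nat_lit 34138203856) (nat_lit 0) (nat_lit 2324907926) (nat_lit 10) (nat_lit 5) (nat_lit 12) (nat_lit 4) (nat_lit 10) (nat_lit 4) (nat_lit 390) (nat_lit 339) (nat_lit 291))) (XT.nd (nat_lit 78) (nat_lit 76) (nat_lit 0) (XT.lf (nat_lit 0) (nat_lit 24228949303) (nat_lit 152) (nat_lit 17728803973) (nat_lit 0) (nat_lit 12162757079) (nat_lit 10) (nat_lit 5) (nat_lit 12) (nat_lit 4) (nat_lit 10) (nat_lit 4) (nat_lit 391) (nat_lit 339) (nat_lit 290)) (XT.nd (nat_lit 78) (nat_lit 76) (nat_lit 0) (XT.lf (nat_lit 0) (nat_lit 34845559782) (nat_lit 152) (nat_lit 71455776) (nat_lit 0) (nat_lit 22758301180) (nat_lit 10)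 (nat_lit 5) (nat_lit 12) (nat_lit 4) (nat_lit 10) (nat_lit 4) (nat_lit 392) (nat_lit 339) (nat_lit 289)) (XT.lf (nat_lit 0) (nat_lit 19935743502) (nat_lit 76) (nat_lit 26824804753) (nat_lit 76) (nat_lit 14718040247) (nat_lit 9) (nat_lit 4) (nat_lit 10) (nat_lit 5) (nat_lit 10) (nat_lit 4) (nat_lit 393) (nat_lit 339) (nat_lit 288))))) (XT.nd (nat_lit 156) (nat_lit 76) (nat_lit 0) (XT.nd (nat_lit 78) (nat_lit 76) (nat_lit 0) (XT.lf (nat_lit 0) (nat_lit 41489098145) (nat_lit 76) (nat_lit 18112031179) (nat_lit 76) (nat_lit 5987205650) (nat_lit 9) (nat_lit 4) (nat_lit 10) (nat_lit 5) (nat_lit 10) (nat_lit 4) (nat_lit 394) (nat_lit 339) (nat_lit 287)) (XT.lf (nat_lit 0) (nat_lit 3241822745) (nat_lit 152) (nat_lit 5398557387) (nat_lit 76) (nat_lit 61382109078) (nat_lit 8) (nat_lit 5) (nat_lit 10) (nat_lit 5) (nat_lit 9) (nat_lit 4) (nat_lit 395) (nat_lit 339) (nat_lit 286))) (XT.nd (nat_lit 78)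 (nat_lit 0) (nat_lit 0) (XT.lf (nat_lit 0) (nat_lit 13280336066) (nat_lit 152) (nat_lit 59463208200) (nat_lit 0) (nat_lit 2023823922) (nat_lit 7) (nat_lit 5) (nat_lit 9) (nat_lit 4) (nat_lit 7) (nat_lit 4) (nat_lit 396) (nat_lit 339) (nat_lit 285)) (XT.nd (nat_lit 78) (nat_lit 0) (nat_lit 0) (XT.lf (nat_lit 0) (nat_lit 24471910305) (nat_lit 152) (nat_lit 42189809289) (nat_lit 0) (nat_lit 13202122771) (nat_lit 7) (nat_lit 5) (nat_lit 9) (nat_lit 4) (nat_lit 7) (nat_lit 4) (nat_lit 397) (nat_lit 339) (nat_lit 284)) (XT.lf (nat_lit 0) (nat_lit 36534842283) (nat_lit 152) (nat_lit 23582349955) (nat_lit 0) (nat_lit 25252762720) (nat_lit 7) (nat_lit 5) (nat_lit 9) (nat_lit 4) (nat_lit 7) (nat_lit 4) (nat_lit 398) (nat_lit 339) (nat_lit 283))))))))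
noncomputable def xc92 : XT := (XT.nd (nat_lit 1482) (nat_lit 152) (nat_lit 0) (XT.nd (nat_lit 702) (nat_lit 76) (nat_lit 0) (XT.nd (nat_lit 312) (nat_lit 152) (nat_lit 0) (XT.nd (nat_lit 156) (nat_lit 0) (nat_lit 0) (XT.nd (nat_lit 78) (nat_lit 76) (nat_lit 0) (XT.lf (nat_lit 0) (nat_lit 49540616042) (nat_lit 152) (nat_lit 3530563773) (nat_lit 0) (nat_lit 38247154970) (nat_lit 7) (nat_lit 5) (nat_lit 9) (nat_lit 4) (nat_lit 7) (nat_lit 4) (nat_lit 399) (nat_lit 339) (nat_lit 282)) (XT.lf (nat_lit 0) (nat_lit 19036665778) (nat_lit 76) (nat_lit 44987469324) (nat_lit 76) (nat_lit 33683469819) (nat_lit 6) (nat_lit 4) (nat_lit 7) (nat_lit 5) (nat_lit 7) (nat_lit 4) (nat_lit 400) (nat_lit 339) (nat_lit 281))) (XT.nd (nat_lit 78) (nat_lit 0) (nat_lit 0) (XT.lf (nat_lit 0) (nat_lit 43570107076) (nat_lit 76) (nat_lit 36172772883) (nat_lit 76) (nat_lit 24859015570) (nat_lit 6) (nat_lit 4) (nat_lit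 7) (nat_lit 5) (nat_lit 7) (nat_lit 4) (nat_lit 401) (nat_lit 339) (nat_lit 280)) (XT.lf (nat_lit 0) (nat_lit 70029230243) (nat_lit 76) (nat_lit 26671387126) (nat_lit 76) (nat_lit 15348594804) (nat_lit 6) (nat_lit 4) (nat_lit 7) (nat_lit 5) (nat_lit 7) (nat_lit 4) (nat_lit 402) (nat_lit 339) (nat_lit 279)))) (XT.nd (nat_lit 156) (nat_lit 0) (nat_lit 0) (XT.nd (nat_lit 78) (nat_lit 152) (nat_lit 0) (XT.lf (nat_lit 0) (nat_lit 98570830084) (nat_lit 76) (nat_lit 16427007543) (nat_lit 76) (nat_lit 5095849473) (nat_lit 6) (nat_lit 4) (nat_lit 7) (nat_lit 5) (nat_lit 7) (nat_lit 4) (nat_lit 403) (nat_lit 339) (nat_lit 278)) (XT.lf (nat_lit 0) (nat_lit 460762327) (nat_lit 76) (nat_lit 5212154240) (nat_lit 152) (nat_lit 123097721192) (nat_lit 4) (nat_lit 5) (nat_lit 5) (nat_lit 5) (nat_lit 6) (nat_lit 4) (nat_lit 404) (nat_lit 339) (nat_lit 277))) (XT.nd (nat_lit 78) (nat_lit 0) (nat_lit 0) (XT.lf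 (nat_lit 0) (nat_lit 17781355149) (nat_lit 152) (nat_lit 113013794979) (nat_lit 0) (nat_lit 7275728840) (nat_lit 4) (nat_lit 5) (nat_lit 6) (nat_lit 4) (nat_lit 4) (nat_lit 4) (nat_lit 405) (nat_lit 339) (nat_lit 276)) (XT.nd (nat_lit 78) (nat_lit 0) (nat_lit 0) (XT.lf (nat_lit 0) (nat_lit 30978829970) (nat_lit 152) (nat_lit 96659627538) (nat_lit 0) (nat_lit 20467054586) (nat_lit 4) (nat_lit 5) (nat_lit 6) (nat_lit 4) (nat_lit 4) (nat_lit 4) (nat_lit 406) (nat_lit 339) (nat_lit 275)) (XT.lf (nat_lit 0) (nat_lit 45218195854) (nat_lit 152) (nat_lit 79025107092) (nat_lit 0) (nat_lit 34700726883) (nat_lit 4) (nat_lit 5) (nat_lit 6) (nat_lit 4) (nat_lit 4) (nat_lit 4) (nat_lit 407) (nat_lit 339) (nat_lit 274)))))) (XT.nd (nat_lit 390) (nat_lit 0) (nat_lit 0) (XT.nd (nat_lit 156) (nat_lit 76) (nat_lit 0) (XT.nd (nat_lit 78) (nat_lit 0) (nat_lit 0) (XT.lf (nat_lit 0) (nat_lit 60583834229) (nat_lit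 152) (nat_lit 60005732777) (nat_lit 0) (nat_lit 50061093416) (nat_lit 4) (nat_lit 5) (nat_lit 6) (nat_lit 4) (nat_lit 4) (nat_lit 4) (nat_lit 408) (nat_lit 339) (nat_lit 273)) (XT.lf (nat_lit 0) (nat_lit 77166800728) (nat_lit 152) (nat_lit 39488797190) (nat_lit 0) (nat_lit 66639178582) (nat_lit 4) (nat_lit 5) (nat_lit 6) (nat_lit 4) (nat_lit 4) (nat_lit 4) (nat_lit 409) (nat_lit 339) (nat_lit 272))) (XT.nd (nat_lit 78) (nat_lit 76) (nat_lit 0) (XT.lf (nat_lit 0) (nat_lit 95065364783) (nat_lit 152) (nat_lit 17352718492) (nat_lit 0) (nat_lit 84533222884) (nat_lit 4) (nat_lit 5) (nat_lit 6) (nat_lit 4) (nat_lit 4) (nat_lit 4) (nat_lit 410) (nat_lit 339) (nat_lit 271)) (XT.nd (nat_lit 78) (nat_lit 0) (nat_lit 0) (XT.lf (nat_lit 0) (nat_lit 6877732095) (nat_lit 76) (nat_lit 107673269486) (nat_lit 76) (nat_lit 97136942630) (nat_lit 3) (nat_lit 4) (nat_lit 4) (nat_lit 5) (nat_lit 4) (nat_lit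 4) (nat_lit 411) (nat_lit 339) (nat_lit 270)) (XT.lf (nat_lit 0) (nat_lit 34013437455) (nat_lit 76) (nat_lit 102046559026) (nat_lit 76) (nat_lit 91506357209) (nat_lit 3) (nat_lit 4) (nat_lit 4) (nat_lit 5) (nat_lit 4) (nat_lit 4) (nat_lit 412) (nat_lit 339) (nat_lit 269))))) (XT.nd (nat_lit 156) (nat_lit 0) (nat_lit 0) (XT.nd (nat_lit 78) (nat_lit 0) (nat_lit 0) (XT.lf (nat_lit 0) (nat_lit 63301438361) (nat_lit 76) (nat_lit 95979062500) (nat_lit 76) (nat_lit 85435272758) (nat_lit 3) (nat_lit 4) (nat_lit 4) (nat_lit 5) (nat_lit 4) (nat_lit 4) (nat_lit 413) (nat_lit 339) (nat_lit 268)) (XT.lf (nat_lit 0) (nat_lit 94915293338) (nat_lit 76) (nat_lit 89434824374) (nat_lit 76) (nat_lit 78887712478) (nat_lit 3) (nat_lit 4) (nat_lit 4) (nat_lit 5) (nat_lit 4) (nat_lit 4) (nat_lit 414) (nat_lit 339) (nat_lit 267))) (XT.nd (nat_lit 78) (nat_lit 0) (nat_lit 0) (XT.lf (nat_lit 0) (nat_lit 129042343750)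 (nat_lit 76) (nat_lit 82375063978) (nat_lit 76) (nat_lit 71824876013) (nat_lit 3) (nat_lit 4) (nat_lit 4) (nat_lit 5) (nat_lit 4) (nat_lit 4) (nat_lit 415) (nat_lit 339) (nat_lit 266)) (XT.nd (nat_lit 78) (nat_lit 0) (nat_lit 0) (XT.lf (nat_lit 0) (nat_lit 165884823968) (nat_lit 76) (nat_lit 74757945694) (nat_lit 76) (nat_lit 64204909518) (nat_lit 3) (nat_lit 4) (nat_lit 4) (nat_lit 5) (nat_lit 4) (nat_lit 4) (nat_lit 416) (nat_lit 339) (nat_lit 265)) (XT.lf (nat_lit 0) (nat_lit 205661059801) (nat_lit 76) (nat_lit 66538331043) (nat_lit 76) (nat_lit 55982657634) (nat_lit 3) (nat_lit 4) (nat_lit 4) (nat_lit 5) (nat_lit 4) (nat_lit 4) (nat_lit 417) (nat_lit 339) (nat_lit 264))))))) (XT.nd (nat_lit 702) (nat_lit 0) (nat_lit 0) (XT.nd (nat_lit 312) (nat_lit 152) (nat_lit 0) (XT.nd (nat_lit 156) (nat_lit 0) (nat_lit 0) (XT.nd (nat_lit 78) (nat_lit 0) (nat_lit 0) (XT.lf (nat_lit 0) (nat_lit 248606762276)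 (nat_lit 76) (nat_lit 57667511198) (nat_lit 76) (nat_lit 47109395907) (nat_lit 3) (nat_lit 4) (nat_lit 4) (nat_lit 5) (nat_lit 4) (nat_lit 4) (nat_lit 418) (nat_lit 339) (nat_lit 263)) (XT.lf (nat_lit 0) (nat_lit 294976424446) (nat_lit 76) (nat_lit 48092918338) (nat_lit 76) (nat_lit 37532542045) (nat_lit 3) (nat_lit 4) (nat_lit 4) (nat_lit 5) (nat_lit 4) (nat_lit 4) (nat_lit 419) (nat_lit 339) (nat_lit 262))) (XT.nd (nat_lit 78) (nat_lit 0) (nat_lit 0) (XT.lf (nat_lit 0) (nat_lit 345044829493) (nat_lit 76) (nat_lit 37757814135) (nat_lit 76) (nat_lit 27195344321) (nat_lit 3) (nat_lit 4) (nat_lit 4) (nat_lit 5) (nat_lit 4) (nat_lit 4) (nat_lit 420) (nat_lit 339) (nat_lit 261)) (XT.lf (nat_lit 0) (nat_lit 399108679077) (nat_lit 76) (nat_lit 26600953526) (nat_lit 76) (nat_lit 16036545268) (nat_lit 3) (nat_lit 4) (nat_lit 4) (nat_lit 5) (nat_lit 4) (nat_lit 4) (nat_lit 421) (nat_lit 339) (nat_lit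 260)))) (XT.nd (nat_lit 156) (nat_lit 0) (nat_lit 0) (XT.nd (nat_lit 78) (nat_lit 152) (nat_lit 0) (XT.lf (nat_lit 0) (nat_lit 457488351567) (nat_lit 76) (nat_lit 14556221782) (nat_lit 76) (nat_lit 3990018668) (nat_lit 3) (nat_lit 4) (nat_lit 4) (nat_lit 5) (nat_lit 4) (nat_lit 4) (nat_lit 422) (nat_lit 339) (nat_lit 259)) (XT.lf (nat_lit 0) (nat_lit 7628144327) (nat_lit 76) (nat_lit 1119937088) (nat_lit 152) (nat_lit 504286316933) (nat_lit 1) (nat_lit 5) (nat_lit 2) (nat_lit 5) (nat_lit 3) (nat_lit 4) (nat_lit 423) (nat_lit 339) (nat_lit 258))) (XT.nd (nat_lit 78) (nat_lit 0) (nat_lit 0) (XT.lf (nat_lit 0) (nat_lit 23127618479) (nat_lit 152) (nat_lit 516450110359) (nat_lit 0) (nat_lit 13341133462) (nat_lit 1) (nat_lit 5) (nat_lit 3) (nat_lit 4) (nat_lit 1) (nat_lit 4) (nat_lit 424) (nat_lit 339) (nat_lit 257)) (XT.nd (nat_lit 78) (nat_lit 0) (nat_lit 0) (XT.lf (nat_lit 0) (nat_lit 38682566626)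 (nat_lit 152) (nat_lit 528414750882) (nat_lit 0) (nat_lit 28894762336) (nat_lit 1) (nat_lit 5) (nat_lit 3) (nat_lit 4) (nat_lit 1) (nat_lit 4) (nat_lit 425) (nat_lit 339) (nat_lit 256)) (XT.lf (nat_lit 0) (nat_lit 55478168812) (nat_lit 152) (nat_lit 541344142652) (nat_lit 0) (nat_lit 45689142973) (nat_lit 1) (nat_lit 5) (nat_lit 3) (nat_lit 4) (nat_lit 1) (nat_lit 4) (nat_lit 426) (nat_lit 339) (nat_lit 255)))))) (XT.nd (nat_lit 390) (nat_lit 0) (nat_lit 0) (XT.nd (nat_lit 156) (nat_lit 0) (nat_lit 0) (XT.nd (nat_lit 78) (nat_lit 0) (nat_lit 0) (XT.lf (nat_lit 0) (nat_lit 73613954533) (nat_lit 152) (nat_lit 555314904285) (nat_lit 0) (nat_lit 63823797630) (nat_lit 1) (nat_lit 5) (nat_lit 3) (nat_lit 4) (nat_lit 1) (nat_lit 4) (nat_lit 427) (nat_lit 339) (nat_lit 254)) (XT.lf (nat_lit 0) (nat_lit 93197395110) (nat_lit 152) (nat_lit 570409825482) (nat_lit 0) (nat_lit 83406190926) (nat_lit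 1) (nat_lit 5) (nat_lit 3) (nat_lit 4) (nat_lit 1) (nat_lit 4) (nat_lit 428) (nat_lit 339) (nat_lit 253))) (XT.nd (nat_lit 78) (nat_lit 0) (nat_lit 0) (XT.lf (nat_lit 0) (nat_lit 114344540562) (nat_lit 152) (nat_lit 586718357626) (nat_lit 0) (nat_lit 104552366673) (nat_lit 1) (nat_lit 5) (nat_lit 3) (nat_lit 4) (nat_lit 1) (nat_lit 4) (nat_lit 429) (nat_lit 339) (nat_lit 252)) (XT.nd (nat_lit 78) (nat_lit 0) (nat_lit 0) (XT.lf (nat_lit 0) (nat_lit 137180707307) (nat_lit 152) (nat_lit 604337143870) (nat_lit 0) (nat_lit 127387635543) (nat_lit 1) (nat_lit 5) (nat_lit 3) (nat_lit 4) (nat_lit 1) (nat_lit 4) (nat_lit 430) (nat_lit 339) (nat_lit 251)) (XT.lf (nat_lit 0) (nat_lit 161841220777) (nat_lit 152) (nat_lit 623370591838) (nat_lit 0) (nat_lit 152047317647) (nat_lit 1) (nat_lit 5) (nat_lit 3) (nat_lit 4) (nat_lit 1) (nat_lit 4) (nat_lit 431) (nat_lit 339) (nat_lit 250))))) (XT.nd (nat_lit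 156) (nat_lit 0) (nat_lit 0) (XT.nd (nat_lit 78) (nat_lit 0) (nat_lit 0) (XT.lf (nat_lit 0) (nat_lit 188472217349) (nat_lit 152) (nat_lit 643931492332) (nat_lit 0) (nat_lit 178677544435) (nat_lit 1) (nat_lit 5) (nat_lit 3) (nat_lit 4) (nat_lit 1) (nat_lit 4) (nat_lit 432) (nat_lit 339) (nat_lit 249)) (XT.lf (nat_lit 0) (nat_lit 217231510334) (nat_lit 152) (nat_lit 666141687725) (nat_lit 0) (nat_lit 207436124659) (nat_lit 1) (nat_lit 5) (nat_lit 3) (nat_lit 4) (nat_lit 1) (nat_lit 4) (nat_lit 433) (nat_lit 339) (nat_lit 248))) (XT.nd (nat_lit 78) (nat_lit 0) (nat_lit 0) (XT.lf (nat_lit 0) (nat_lit 248289525174) (nat_lit 152) (nat_lit 690132793990) (nat_lit 0) (nat_lit 238493479534) (nat_lit 1) (nat_lit 5) (nat_lit 3) (nat_lit 4) (nat_lit 1) (nat_lit 4) (nat_lit 434) (nat_lit 339) (nat_lit 247)) (XT.nd (nat_lit 78) (nat_lit 0) (nat_lit 0) (XT.lf (nat_lit 0) (nat_lit 281830309363) (nat_lit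 152) (nat_lit 716046980645) (nat_lit 0) (nat_lit 272033652644) (nat_lit 1) (nat_lit 5) (nat_lit 3) (nat_lit 4) (nat_lit 1) (nat_lit 4) (nat_lit 435) (nat_lit 339) (nat_lit 246)) (XT.lf (nat_lit 0) (nat_lit 318052623104) (nat_lit 152) (nat_lit 744037813241) (nat_lit 0) (nat_lit 308255400572) (nat_lit 1) (nat_lit 5) (nat_lit 3) (nat_lit 4) (nat_lit 1) (nat_lit 4) (nat_lit 436) (nat_lit 339) (nat_lit 245))))))))
noncomputable def xc93 : XT := (XT.nd (nat_lit 1482) (nat_lit 0) (nat_lit 0) (XT.nd (nat_lit 702) (nat_lit 0) (nat_lit 0) (XT.nd (nat_lit 312) (nat_lit 0) (nat_lit 0) (XT.nd (nat_lit 156) (nat_lit 0) (nat_lit 0) (XT.nd (nat_lit 78) (nat_lit 0) (nat_lit 0) (XT.lf (nat_lit 0) (nat_lit 357171117146) (nat_lit 152) (nat_lit 774271163379) (nat_lit 0) (nat_lit 347373370712) (nat_lit 1) (nat_lit 5) (nat_lit 3) (nat_lit 4) (nat_lit 1) (nat_lit 4) (nat_lit 437) (nat_lit 339) (nat_lit 244))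 (XT.lf (nat_lit 0) (nat_lit 399417604786) (nat_lit 152) (nat_lit 806926191652) (nat_lit 0) (nat_lit 389619373258) (nat_lit 1) (nat_lit 5) (nat_lit 3) (nat_lit 4) (nat_lit 1) (nat_lit 4) (nat_lit 438) (nat_lit 339) (nat_lit 243))) (XT.nd (nat_lit 78) (nat_lit 0) (nat_lit 0) (XT.lf (nat_lit 0) (nat_lit 445042435580) (nat_lit 152) (nat_lit 842196409339) (nat_lit 0) (nat_lit 435243754891) (nat_lit 1) (nat_lit 5) (nat_lit 3) (nat_lit 4) (nat_lit 1) (nat_lit 4) (nat_lit 439) (nat_lit 339) (nat_lit 242)) (XT.lf (nat_lit 0) (nat_lit 494315978897) (nat_lit 152) (nat_lit 880290825137) (nat_lit 0) (nat_lit 484516882318) (nat_lit 1) (nat_lit 5) (nat_lit 3) (nat_lit 4) (nat_lit 1) (nat_lit 4) (nat_lit 440) (nat_lit 339) (nat_lit 241)))) (XT.nd (nat_lit 156) (nat_lit 0) (nat_lit 0) (XT.nd (nat_lit 78) (nat_lit 0) (nat_lit 0) (XT.lf (nat_lit 0) (nat_lit 547530226104) (nat_lit 152) (nat_lit 921435183732)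 (nat_lit 0) (nat_lit 537730744442) (nat_lit 1) (nat_lit 5) (nat_lit 3) (nat_lit 4) (nat_lit 1) (nat_lit 4) (nat_lit 441) (nat_lit 339) (nat_lit 240)) (XT.lf (nat_lit 0) (nat_lit 605000520888) (nat_lit 152) (nat_lit 965873303546) (nat_lit 0) (nat_lit 595200682668) (nat_lit 1) (nat_lit 5) (nat_lit 3) (nat_lit 4) (nat_lit 1) (nat_lit 4) (nat_lit 442) (nat_lit 339) (nat_lit 239))) (XT.nd (nat_lit 78) (nat_lit 0) (nat_lit 0) (XT.lf (nat_lit 0) (nat_lit 667067427959) (nat_lit 152) (nat_lit 1013868521585) (nat_lit 0) (nat_lit 657267259592) (nat_lit 1) (nat_lit 5) (nat_lit 3) (nat_lit 4) (nat_lit 1) (nat_lit 4) (nat_lit 443) (nat_lit 339) (nat_lit 238)) (XT.nd (nat_lit 78) (nat_lit 0) (nat_lit 0) (XT.lf (nat_lit 0) (nat_lit 734098751211) (nat_lit 152) (nat_lit 1065705253955) (nat_lit 0) (nat_lit 724298277153) (nat_lit 1) (nat_lit 5) (nat_lit 3) (nat_lit 4) (nat_lit 1) (nat_lit 4) (nat_lit 444)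 (nat_lit 339) (nat_lit 237)) (XT.lf (nat_lit 0) (nat_lit 806491713301) (nat_lit 152) (nat_lit 1121690681294) (nat_lit 0) (nat_lit 796690956194) (nat_lit 1) (nat_lit 5) (nat_lit 3) (nat_lit 4) (nat_lit 1) (nat_lit 4) (nat_lit 445) (nat_lit 339) (nat_lit 236)))))) (XT.nd (nat_lit 390) (nat_lit 0) (nat_lit 0) (XT.nd (nat_lit 156) (nat_lit 0) (nat_lit 0) (XT.nd (nat_lit 78) (nat_lit 0) (nat_lit 0) (XT.lf (nat_lit 0) (nat_lit 884675309558) (nat_lit 152) (nat_lit 1182156569095) (nat_lit 0) (nat_lit 874874290370) (nat_lit 1) (nat_lit 5) (nat_lit 3) (nat_lit 4) (nat_lit 1) (nat_lit 4) (nat_lit 446) (nat_lit 339) (nat_lit 235)) (XT.lf (nat_lit 0) (nat_lit 969112850183) (nat_lit 152) (nat_lit 1247461233733) (nat_lit 0) (nat_lit 959311588328) (nat_lit 1) (nat_lit 5) (nat_lit 3) (nat_lit 4) (nat_lit 1) (nat_lit 4) (nat_lit 447) (nat_lit 339) (nat_lit 234))) (XT.nd (nat_lit 78) (nat_lit 0) (nat_lit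 0) (XT.lf (nat_lit 0) (nat_lit 1060304705788) (nat_lit 152) (nat_lit 1317991665811) (nat_lit 0) (nat_lit 1050503219240) (nat_lit 1) (nat_lit 5) (nat_lit 3) (nat_lit 4) (nat_lit 1) (nat_lit 4) (nat_lit 448) (nat_lit 339) (nat_lit 233)) (XT.nd (nat_lit 78) (nat_lit 0) (nat_lit 0) (XT.lf (nat_lit 0) (nat_lit 1158791272553) (nat_lit 152) (nat_lit 1394165823447) (nat_lit 0) (nat_lit 1148989577957) (nat_lit 1) (nat_lit 5) (nat_lit 3) (nat_lit 4) (nat_lit 1) (nat_lit 4) (nat_lit 449) (nat_lit 339) (nat_lit 232)) (XT.lf (nat_lit 0) (nat_lit 1265156174578) (nat_lit 152) (nat_lit 1476435109054) (nat_lit 0) (nat_lit 1255354287345) (nat_lit 1) (nat_lit 5) (nat_lit 3) (nat_lit 4) (nat_lit 1) (nat_lit 4) (nat_lit 450) (nat_lit 339) (nat_lit 231))))) (XT.nd (nat_lit 156) (nat_lit 0) (nat_lit 0) (XT.nd (nat_lit 78) (nat_lit 0) (nat_lit 0) (XT.lf (nat_lit 0) (nat_lit 1380029722394) (nat_lit 152) (nat_lit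 1565287044327) (nat_lit 0) (nat_lit 1370227656792) (nat_lit 1) (nat_lit 5) (nat_lit 3) (nat_lit 4) (nat_lit 1) (nat_lit 4) (nat_lit 451) (nat_lit 339) (nat_lit 230)) (XT.lf (nat_lit 0) (nat_lit 1504092648135) (nat_lit 152) (nat_lit 1661248159251) (nat_lit 0) (nat_lit 1494290417378) (nat_lit 1) (nat_lit 5) (nat_lit 3) (nat_lit 4) (nat_lit 1) (nat_lit 4) (nat_lit 452) (nat_lit 339) (nat_lit 229))) (XT.nd (nat_lit 78) (nat_lit 0) (nat_lit 0) (XT.lf (nat_lit 0) (nat_lit 1638080139510) (nat_lit 152) (nat_lit 1764887112286) (nat_lit 0) (nat_lit 1628277755831) (nat_lit 1) (nat_lit 5) (nat_lit 3) (nat_lit 4) (nat_lit 1) (nat_lit 4) (nat_lit 453) (nat_lit 339) (nat_lit 228)) (XT.nd (nat_lit 78) (nat_lit 0) (nat_lit 0) (XT.lf (nat_lit 0) (nat_lit 1782786196467) (nat_lit 152) (nat_lit 1876818060191) (nat_lit 0) (nat_lit 1772983671194) (nat_lit 1) (nat_lit 5) (nat_lit 3) (nat_lit 4) (nat_lit 1) (nat_lit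 4) (nat_lit 454) (nat_lit 339) (nat_lit 227)) (XT.lf (nat_lit 0) (nat_lit 1939068336382) (nat_lit 152) (nat_lit 1997704297470) (nat_lit 0) (nat_lit 1929265680003) (nat_lit 1) (nat_lit 5) (nat_lit 3) (nat_lit 4) (nat_lit 1) (nat_lit 4) (nat_lit 455) (nat_lit 339) (nat_lit 226))))))) (XT.nd (nat_lit 44538) (nat_lit 0) (nat_lit 3724) (XT.nd (nat_lit 44148) (nat_lit 0) (nat_lit 5928) (XT.nd (nat_lit 156) (nat_lit 0) (nat_lit 0) (XT.nd (nat_lit 78) (nat_lit 0) (nat_lit 0) (XT.lf (nat_lit 0) (nat_lit 2107852675639) (nat_lit 152) (nat_lit 2128262187013) (nat_lit 0) (nat_lit 2098049897865) (nat_lit 1) (nat_lit 5) (nat_lit 3) (nat_lit 4) (nat_lit 1) (nat_lit 4) (nat_lit 456) (nat_lit 339) (nat_lit 225)) (XT.lf (nat_lit 0) (nat_lit 2290139417729) (nat_lit 152) (nat_lit 2269265405201) (nat_lit 0) (nat_lit 2280336527553) (nat_lit 1) (nat_lit 5) (nat_lit 3) (nat_lit 4) (nat_lit 1) (nat_lit 4) (nat_lit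 457) (nat_lit 339) (nat_lit 224))) (XT.nd (nat_lit 78) (nat_lit 0) (nat_lit 0) (XT.lf (nat_lit 0) (nat_lit 2487008780384) (nat_lit 152) (nat_lit 2421549526661) (nat_lit 0) (nat_lit 2477205786132) (nat_lit 1) (nat_lit 5) (nat_lit 3) (nat_lit 4) (nat_lit 1) (nat_lit 4) (nat_lit 458) (nat_lit 339) (nat_lit 223)) (XT.nd (nat_lit 43836) (nat_lit 0) (nat_lit 6384) (XT.lf (nat_lit 0) (nat_lit 2699627396864) (nat_lit 152) (nat_lit 2586016975816) (nat_lit 0) (nat_lit 2689824306245) (nat_lit 1) (nat_lit 5) (nat_lit 3) (nat_lit 4) (nat_lit 1) (nat_lit 4) (nat_lit 459) (nat_lit 339) (nat_lit 222)) (XT.lf (nat_lit 0) (nat_lit 1073741823) (nat_lit 0) (nat_lit 0) (nat_lit 0) (nat_lit 0) (nat_lit 85) (nat_lit 0) (nat_lit 1) (nat_lit 0) (nat_lit 1) (nat_lit 0) (nat_lit 340) (nat_lit 340) (nat_lit 340))))) (XT.nd (nat_lit 156) (nat_lit 304) (nat_lit 0) (XT.nd (nat_lit 78) (nat_lit 76) (nat_lit 0) (XT.lf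 (nat_lit 0) (nat_lit 3058873539) (nat_lit 76) (nat_lit 3233163311) (nat_lit 0) (nat_lit 156787998) (nat_lit 84) (nat_lit 5) (nat_lit 85) (nat_lit 0) (nat_lit 84) (nat_lit 4) (nat_lit 341) (nat_lit 340) (nat_lit 339)) (XT.lf (nat_lit 0) (nat_lit 53959917) (nat_lit 76) (nat_lit 6007832710) (nat_lit 76) (nat_lit 418630927) (nat_lit 83) (nat_lit 4) (nat_lit 84) (nat_lit 5) (nat_lit 84) (nat_lit 4) (nat_lit 342) (nat_lit 340) (nat_lit 338))) (XT.nd (nat_lit 78) (nat_lit 228) (nat_lit 0) (XT.lf (nat_lit 0) (nat_lit 2449698326) (nat_lit 152) (nat_lit 2981899858) (nat_lit 76) (nat_lit 1094239379) (nat_lit 82) (nat_lit 5) (nat_lit 84) (nat_lit 5) (nat_lit 83) (nat_lit 4) (nat_lit 343) (nat_lit 340) (nat_lit 337)) (XT.nd (nat_lit 78) (nat_lit 76) (nat_lit 0) (XT.lf (nat_lit 0) (nat_lit 577598947) (nat_lit 152) (nat_lit 4690978164) (nat_lit 228) (nat_lit 1326467000) (nat_lit 80) (nat_lit 5) (nat_lit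 82) (nat_lit 5) (nat_lit 83) (nat_lit 4) (nat_lit 344) (nat_lit 340) (nat_lit 336)) (XT.lf (nat_lit 0) (nat_lit 1383194952) (nat_lit 228) (nat_lit 2301804571) (nat_lit 76) (nat_lit 2996299400) (nat_lit 79) (nat_lit 5) (nat_lit 82) (nat_lit 5) (nat_lit 80) (nat_lit 5) (nat_lit 345) (nat_lit 340) (nat_lit 335)))))) (XT.nd (nat_lit 390) (nat_lit 1140) (nat_lit 0) (XT.nd (nat_lit 156) (nat_lit 836) (nat_lit 0) (XT.nd (nat_lit 78) (nat_lit 0) (nat_lit 0) (XT.lf (nat_lit 0) (nat_lit 1581345756) (nat_lit 228) (nat_lit 2452583601) (nat_lit 304) (nat_lit 2754508423) (nat_lit 76) (nat_lit 5) (nat_lit 79) (nat_lit 5) (nat_lit 80) (nat_lit 5) (nat_lit 346) (nat_lit 340) (nat_lit 334)) (XT.lf (nat_lit 0) (nat_lit 5736075646) (nat_lit 228) (nat_lit 995357052) (nat_lit 304) (nat_lit 186324355) (nat_lit 76) (nat_lit 5) (nat_lit 79) (nat_lit 5) (nat_lit 80) (nat_lit 5) (nat_lit 347) (nat_lit 340) (nat_lit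 333))) (XT.nd (nat_lit 78) (nat_lit 456) (nat_lit 0) (XT.lf (nat_lit 0) (nat_lit 2333638346) (nat_lit 380) (nat_lit 3993911733) (nat_lit 76) (nat_lit 735164679) (nat_lit 71) (nat_lit 5) (nat_lit 76) (nat_lit 5) (nat_lit 72) (nat_lit 5) (nat_lit 348) (nat_lit 340) (nat_lit 332)) (XT.nd (nat_lit 78) (nat_lit 76) (nat_lit 0) (XT.lf (nat_lit 0) (nat_lit 311342487) (nat_lit 380) (nat_lit 4596216497) (nat_lit 456) (nat_lit 2322635261) (nat_lit 66) (nat_lit 5) (nat_lit 71) (nat_lit 5) (nat_lit 72) (nat_lit 5) (nat_lit 349) (nat_lit 340) (nat_lit 331)) (XT.lf (nat_lit 0) (nat_lit 176021268) (nat_lit 456) (nat_lit 2412303452) (nat_lit 76) (nat_lit 4829396692) (nat_lit 65) (nat_lit 5) (nat_lit 71) (nat_lit 5) (nat_lit 66) (nat_lit 5) (nat_lit 350) (nat_lit 340) (nat_lit 330))))) (XT.nd (nat_lit 156) (nat_lit 684) (nat_lit 0) (XT.nd (nat_lit 78) (nat_lit 0) (nat_lit 0) (XT.lf (nat_lit 0) (nat_lit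 2336663372) (nat_lit 456) (nat_lit 284811668) (nat_lit 532) (nat_lit 5004401790) (nat_lit 59) (nat_lit 5) (nat_lit 65) (nat_lit 5) (nat_lit 66) (nat_lit 5) (nat_lit 351) (nat_lit 340) (nat_lit 329)) (XT.lf (nat_lit 0) (nat_lit 5209025633) (nat_lit 532) (nat_lit 481875914) (nat_lit 76) (nat_lit 2164291592) (nat_lit 59) (nat_lit 5) (nat_lit 66) (nat_lit 5) (nat_lit 60) (nat_lit 5) (nat_lit 352) (nat_lit 340) (nat_lit 328))) (XT.nd (nat_lit 78) (nat_lit 304) (nat_lit 0) (XT.lf (nat_lit 0) (nat_lit 4770445134) (nat_lit 380) (nat_lit 3193974129) (nat_lit 456) (nat_lit 141776978) (nat_lit 54) (nat_lit 5) (nat_lit 59) (nat_lit 5) (nat_lit 60) (nat_lit 5) (nat_lit 353) (nat_lit 340) (nat_lit 327)) (XT.nd (nat_lit 78) (nat_lit 0) (nat_lit 0) (XT.lf (nat_lit 0) (nat_lit 1954953314) (nat_lit 228) (nat_lit 382823812) (nat_lit 304) (nat_lit 6042508390) (nat_lit 50) (nat_lit 5) (nat_lit 53) (nat_lit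 5) (nat_lit 54) (nat_lit 5) (nat_lit 354) (nat_lit 340) (nat_lit 326)) (XT.lf (nat_lit 0) (nat_lit 5014977984) (nat_lit 304) (nat_lit 1062471946) (nat_lit 76) (nat_lit 2598167634) (nat_lit 50) (nat_lit 5) (nat_lit 54) (nat_lit 5) (nat_lit 51) (nat_lit 5) (nat_lit 355) (nat_lit 340) (nat_lit 325))))))))
noncomputable def xc94 : XT := (XT.nd (nat_lit 1482) (nat_lit 988) (nat_lit 0) (XT.nd (nat_lit 702) (nat_lit 836) (nat_lit 0) (XT.nd (nat_lit 312) (nat_lit 608) (nat_lit 0) (XT.nd (nat_lit 156) (nat_lit 228) (nat_lit 0) (XT.nd (nat_lit 78) (nat_lit 228) (nat_lit 0) (XT.lf (nat_lit 0) (nat_lit 4790379898) (nat_lit 228) (nat_lit 3101828886) (nat_lit 304) (nat_lit 1103652418) (nat_lit 47) (nat_lit 5) (nat_lit 50) (nat_lit 5) (nat_lit 51) (nat_lit 5) (nat_lit 356) (nat_lit 340) (nat_lit 324)) (XT.lf (nat_lit 0) (nat_lit 1513972408) (nat_lit 228) (nat_lit 7643249363) (nat_lit 76) (nat_lit 186323167)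 (nat_lit 44) (nat_lit 5) (nat_lit 47) (nat_lit 5) (nat_lit 45) (nat_lit 5) (nat_lit 357) (nat_lit 340) (nat_lit 323))) (XT.nd (nat_lit 78) (nat_lit 228) (nat_lit 0) (XT.lf (nat_lit 0) (nat_lit 4348593893) (nat_lit 228) (nat_lit 1681455516) (nat_lit 76) (nat_lit 3681445377) (nat_lit 44) (nat_lit 5) (nat_lit 47) (nat_lit 5) (nat_lit 45) (nat_lit 5) (nat_lit 358) (nat_lit 340) (nat_lit 322)) (XT.lf (nat_lit 0) (nat_lit 4835180180) (nat_lit 228) (nat_lit 2569492635) (nat_lit 304) (nat_lit 2704745494) (nat_lit 41) (nat_lit 5) (nat_lit 44) (nat_lit 5) (nat_lit 45) (nat_lit 5) (nat_lit 359) (nat_lit 340) (nat_lit 321)))) (XT.nd (nat_lit 156) (nat_lit 380) (nat_lit 0) (XT.nd (nat_lit 78) (nat_lit 0) (nat_lit 0) (XT.lf (nat_lit 0) (nat_lit 146435673) (nat_lit 228) (nat_lit 9242996448) (nat_lit 76) (nat_lit 1150426279) (nat_lit 38) (nat_lit 5) (nat_lit 41) (nat_lit 5) (nat_lit 39) (nat_lit 5) (nat_lit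 360) (nat_lit 340) (nat_lit 320)) (XT.lf (nat_lit 0) (nat_lit 3178538722) (nat_lit 228) (nat_lit 2610462393) (nat_lit 76) (nat_lit 5202285491) (nat_lit 38) (nat_lit 5) (nat_lit 41) (nat_lit 5) (nat_lit 39) (nat_lit 5) (nat_lit 361) (nat_lit 340) (nat_lit 319))) (XT.nd (nat_lit 78) (nat_lit 228) (nat_lit 0) (XT.lf (nat_lit 0) (nat_lit 4626590106) (nat_lit 152) (nat_lit 1830723931) (nat_lit 228) (nat_lit 5021269550) (nat_lit 36) (nat_lit 5) (nat_lit 38) (nat_lit 5) (nat_lit 39) (nat_lit 5) (nat_lit 362) (nat_lit 340) (nat_lit 318)) (XT.nd (nat_lit 78) (nat_lit 76) (nat_lit 0) (XT.lf (nat_lit 0) (nat_lit 390161872) (nat_lit 152) (nat_lit 9645487602) (nat_lit 228) (nat_lit 1966310911) (nat_lit 34) (nat_lit 5) (nat_lit 36) (nat_lit 5) (nat_lit 37) (nat_lit 4) (nat_lit 363) (nat_lit 340) (nat_lit 317)) (XT.lf (nat_lit 0) (nat_lit 1403264614) (nat_lit 228) (nat_lit 4197373787) (nat_lit 76) (nat_lit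 6953117548) (nat_lit 33) (nat_lit 5) (nat_lit 36) (nat_lit 5) (nat_lit 34) (nat_lit 5) (nat_lit 364) (nat_lit 340) (nat_lit 316)))))) (XT.nd (nat_lit 390) (nat_lit 380) (nat_lit 0) (XT.nd (nat_lit 156) (nat_lit 304) (nat_lit 0) (XT.nd (nat_lit 78) (nat_lit 0) (nat_lit 0) (XT.lf (nat_lit 0) (nat_lit 3799137983) (nat_lit 152) (nat_lit 1133166290) (nat_lit 228) (nat_lit 8213675541) (nat_lit 31) (nat_lit 5) (nat_lit 33) (nat_lit 5) (nat_lit 34) (nat_lit 5) (nat_lit 365) (nat_lit 340) (nat_lit 315)) (XT.lf (nat_lit 0) (nat_lit 8857183644) (nat_lit 228) (nat_lit 1346412315) (nat_lit 76) (nat_lit 3572960686) (nat_lit 31) (nat_lit 5) (nat_lit 34) (nat_lit 5) (nat_lit 32) (nat_lit 4) (nat_lit 366) (nat_lit 340) (nat_lit 314))) (XT.nd (nat_lit 78) (nat_lit 228) (nat_lit 0) (XT.lf (nat_lit 0) (nat_lit 7498692486) (nat_lit 76) (nat_lit 5721013863) (nat_lit 152) (nat_lit 1228033239) (nat_lit 30) (nat_lit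 5) (nat_lit 31) (nat_lit 5) (nat_lit 32) (nat_lit 4) (nat_lit 367) (nat_lit 340) (nat_lit 313)) (XT.nd (nat_lit 78) (nat_lit 0) (nat_lit 0) (XT.lf (nat_lit 0) (nat_lit 1841099005) (nat_lit 152) (nat_lit 776312282) (nat_lit 228) (nat_lit 12550199488) (nat_lit 27) (nat_lit 5) (nat_lit 29) (nat_lit 5) (nat_lit 30) (nat_lit 5) (nat_lit 368) (nat_lit 340) (nat_lit 312)) (XT.lf (nat_lit 0) (nat_lit 6925226206) (nat_lit 228) (nat_lit 4490494006) (nat_lit 76) (nat_lit 4509154689) (nat_lit 27) (nat_lit 5) (nat_lit 30) (nat_lit 5) (nat_lit 28) (nat_lit 4) (nat_lit 369) (nat_lit 340) (nat_lit 311))))) (XT.nd (nat_lit 156) (nat_lit 304) (nat_lit 0) (XT.nd (nat_lit 78) (nat_lit 0) (nat_lit 0) (XT.lf (nat_lit 0) (nat_lit 5157185586) (nat_lit 76) (nat_lit 6487251730) (nat_lit 152) (nat_lit 5092979531) (nat_lit 26) (nat_lit 5) (nat_lit 27) (nat_lit 5) (nat_lit 28) (nat_lit 4) (nat_lit 370) (nat_lit 340)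 (nat_lit 310)) (XT.lf (nat_lit 0) (nat_lit 15702387045) (nat_lit 76) (nat_lit 1086769418) (nat_lit 152) (nat_lit 822003524) (nat_lit 26) (nat_lit 5) (nat_lit 27) (nat_lit 5) (nat_lit 28) (nat_lit 4) (nat_lit 371) (nat_lit 340) (nat_lit 309))) (XT.nd (nat_lit 78) (nat_lit 76) (nat_lit 0) (XT.lf (nat_lit 0) (nat_lit 3861305901) (nat_lit 228) (nat_lit 9897493873) (nat_lit 76) (nat_lit 4767917723) (nat_lit 23) (nat_lit 5) (nat_lit 26) (nat_lit 5) (nat_lit 24) (nat_lit 4) (nat_lit 372) (nat_lit 340) (nat_lit 308)) (XT.nd (nat_lit 78) (nat_lit 0) (nat_lit 0) (XT.lf (nat_lit 0) (nat_lit 454278240) (nat_lit 76) (nat_lit 8443307749) (nat_lit 152) (nat_lit 10614436529) (nat_lit 22) (nat_lit 5) (nat_lit 23) (nat_lit 5) (nat_lit 24) (nat_lit 4) (nat_lit 373) (nat_lit 340) (nat_lit 307)) (XT.lf (nat_lit 0) (nat_lit 12075253888) (nat_lit 76) (nat_lit 2464401264) (nat_lit 152) (nat_lit 6020291969) (nat_lit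 22) (nat_lit 5) (nat_lit 23) (nat_lit 5) (nat_lit 24) (nat_lit 4) (nat_lit 374) (nat_lit 340) (nat_lit 306))))))) (XT.nd (nat_lit 780) (nat_lit 456) (nat_lit 0) (XT.nd (nat_lit 390) (nat_lit 228) (nat_lit 0) (XT.nd (nat_lit 156) (nat_lit 152) (nat_lit 0) (XT.nd (nat_lit 78) (nat_lit 76) (nat_lit 0) (XT.lf (nat_lit 0) (nat_lit 2864855641) (nat_lit 76) (nat_lit 17869245493) (nat_lit 76) (nat_lit 949547836) (nat_lit 21) (nat_lit 4) (nat_lit 22) (nat_lit 5) (nat_lit 22) (nat_lit 4) (nat_lit 375) (nat_lit 340) (nat_lit 305)) (XT.lf (nat_lit 0) (nat_lit 4538881932) (nat_lit 152) (nat_lit 7569739424) (nat_lit 76) (nat_lit 10760858442) (nat_lit 20) (nat_lit 5) (nat_lit 22) (nat_lit 5) (nat_lit 21) (nat_lit 4) (nat_lit 376) (nat_lit 340) (nat_lit 304))) (XT.nd (nat_lit 78) (nat_lit 76) (nat_lit 0) (XT.lf (nat_lit 0) (nat_lit 4680329442) (nat_lit 76) (nat_lit 5788480625) (nat_lit 152) (nat_lit 13675115196)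 (nat_lit 19) (nat_lit 5) (nat_lit 20) (nat_lit 5) (nat_lit 21) (nat_lit 4) (nat_lit 377) (nat_lit 340) (nat_lit 303)) (XT.nd (nat_lit 78) (nat_lit 76) (nat_lit 0) (XT.lf (nat_lit 0) (nat_lit 17052235810) (nat_lit 152) (nat_lit 7302230800) (nat_lit 0) (nat_lit 1151549259) (nat_lit 19) (nat_lit 5) (nat_lit 21) (nat_lit 4) (nat_lit 19) (nat_lit 4) (nat_lit 378) (nat_lit 340) (nat_lit 302)) (XT.lf (nat_lit 0) (nat_lit 5874600317) (nat_lit 76) (nat_lit 18525491034) (nat_lit 76) (nat_lit 2557978372) (nat_lit 18) (nat_lit 4) (nat_lit 19) (nat_lit 5) (nat_lit 19) (nat_lit 4) (nat_lit 379) (nat_lit 340) (nat_lit 301))))) (XT.nd (nat_lit 156) (nat_lit 76) (nat_lit 0) (XT.nd (nat_lit 78) (nat_lit 76) (nat_lit 0) (XT.lf (nat_lit 0) (nat_lit 3770137134) (nat_lit 152) (nat_lit 8187503452) (nat_lit 76) (nat_lit 16549234692) (nat_lit 17) (nat_lit 5) (nat_lit 19) (nat_lit 5) (nat_lit 18) (nat_lit 4) (nat_lit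 380) (nat_lit 340) (nat_lit 300)) (XT.lf (nat_lit 0) (nat_lit 5873782729) (nat_lit 76) (nat_lit 4684132674) (nat_lit 152) (nat_lit 19609038795) (nat_lit 16) (nat_lit 5) (nat_lit 17) (nat_lit 5) (nat_lit 18) (nat_lit 4) (nat_lit 381) (nat_lit 340) (nat_lit 299))) (XT.nd (nat_lit 78) (nat_lit 76) (nat_lit 0) (XT.lf (nat_lit 0) (nat_lit 18145447895) (nat_lit 152) (nat_lit 10592611657) (nat_lit 0) (nat_lit 3201253420) (nat_lit 16) (nat_lit 5) (nat_lit 18) (nat_lit 4) (nat_lit 16) (nat_lit 4) (nat_lit 382) (nat_lit 340) (nat_lit 298)) (XT.nd (nat_lit 78) (nat_lit 0) (nat_lit 0) (XT.lf (nat_lit 0) (nat_lit 4205479957) (nat_lit 76) (nat_lit 22311743815) (nat_lit 76) (nat_lit 7322068612) (nat_lit 15) (nat_lit 4) (nat_lit 16) (nat_lit 5) (nat_lit 16) (nat_lit 4) (nat_lit 383) (nat_lit 340) (nat_lit 297)) (XT.lf (nat_lit 0) (nat_lit 20704815932) (nat_lit 76) (nat_lit 15099310404) (nat_lit 76) (nat_lit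 67523415) (nat_lit 15) (nat_lit 4) (nat_lit 16) (nat_lit 5) (nat_lit 16) (nat_lit 4) (nat_lit 384) (nat_lit 340) (nat_lit 296)))))) (XT.nd (nat_lit 390) (nat_lit 228) (nat_lit 0) (XT.nd (nat_lit 156) (nat_lit 76) (nat_lit 0) (XT.nd (nat_lit 78) (nat_lit 0) (nat_lit 0) (XT.lf (nat_lit 0) (nat_lit 199750526) (nat_lit 76) (nat_lit 7141850391) (nat_lit 152) (nat_lit 30713037489) (nat_lit 13) (nat_lit 5) (nat_lit 14) (nat_lit 5) (nat_lit 15) (nat_lit 4) (nat_lit 385) (nat_lit 340) (nat_lit 295)) (XT.lf (nat_lit 0) (nat_lit 15758460135) (nat_lit 152) (nat_lit 22849576621) (nat_lit 0) (nat_lit 1770605086) (nat_lit 13) (nat_lit 5) (nat_lit 15) (nat_lit 4) (nat_lit 13) (nat_lit 4) (nat_lit 386) (nat_lit 340) (nat_lit 294))) (XT.nd (nat_lit 78) (nat_lit 76) (nat_lit 0) (XT.lf (nat_lit 0) (nat_lit 24995530068) (nat_lit 152) (nat_lit 6904572548) (nat_lit 0) (nat_lit 10976721601) (nat_lit 13) (nat_lit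 5) (nat_lit 15) (nat_lit 4) (nat_lit 13) (nat_lit 4) (nat_lit 387) (nat_lit 340) (nat_lit 293)) (XT.nd (nat_lit 78) (nat_lit 0) (nat_lit 0) (XT.lf (nat_lit 0) (nat_lit 10785930869) (nat_lit 76) (nat_lit 24409258265) (nat_lit 76) (nat_lit 10361789223) (nat_lit 12) (nat_lit 4) (nat_lit 13) (nat_lit 5) (nat_lit 13) (nat_lit 4) (nat_lit 388) (nat_lit 340) (nat_lit 292)) (XT.lf (nat_lit 0) (nat_lit 30216450260) (nat_lit 76) (nat_lit 16148392964) (nat_lit 76) (nat_lit 2074386355) (nat_lit 12) (nat_lit 4) (nat_lit 13) (nat_lit 5) (nat_lit 13) (nat_lit 4) (nat_lit 389) (nat_lit 340) (nat_lit 291))))) (XT.nd (nat_lit 156) (nat_lit 76) (nat_lit 0) (XT.nd (nat_lit 78) (nat_lit 76) (nat_lit 0) (XT.lf (nat_lit 0) (nat_lit 6499015122) (nat_lit 152) (nat_lit 580626977) (nat_lit 76) (nat_lit 44461837175) (nat_lit 11) (nat_lit 5) (nat_lit 13) (nat_lit 5) (nat_lit 12) (nat_lit 4) (nat_lit 390) (nat_lit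 340) (nat_lit 290)) (XT.lf (nat_lit 0) (nat_lit 16158481474) (nat_lit 152) (nat_lit 35604965358) (nat_lit 0) (nat_lit 3083175807) (nat_lit 10) (nat_lit 5) (nat_lit 12) (nat_lit 4) (nat_lit 10) (nat_lit 4) (nat_lit 391) (nat_lit 340) (nat_lit 289))) (XT.nd (nat_lit 78) (nat_lit 76) (nat_lit 0) (XT.lf (nat_lit 0) (nat_lit 26760473705) (nat_lit 152) (nat_lit 17976464952) (nat_lit 0) (nat_lit 13665662134) (nat_lit 10) (nat_lit 5) (nat_lit 12) (nat_lit 4) (nat_lit 10) (nat_lit 4) (nat_lit 392) (nat_lit 340) (nat_lit 288)) (XT.nd (nat_lit 78) (nat_lit 0) (nat_lit 0) (XT.lf (nat_lit 0) (nat_lit 1059770807) (nat_lit 76) (nat_lit 37148188361) (nat_lit 76) (nat_lit 24035315766) (nat_lit 9) (nat_lit 4) (nat_lit 10) (nat_lit 5) (nat_lit 10) (nat_lit 4) (nat_lit 393) (nat_lit 340) (nat_lit 287)) (XT.lf (nat_lit 0) (nat_lit 22587090759) (nat_lit 76) (nat_lit 28448290552) (nat_lit 76) (nat_lit 15318694788)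 (nat_lit 9) (nat_lit 4) (nat_lit 10) (nat_lit 5) (nat_lit 10) (nat_lit 4) (nat_lit 394) (nat_lit 340) (nat_lit 286))))))))
noncomputable def xc95 : XT := (XT.nd (nat_lit 1482) (nat_lit 152) (nat_lit 0) (XT.nd (nat_lit 702) (nat_lit 228) (nat_lit 0) (XT.nd (nat_lit 312) (nat_lit 76) (nat_lit 0) (XT.nd (nat_lit 156) (nat_lit 76) (nat_lit 0) (XT.nd (nat_lit 78) (nat_lit 76) (nat_lit 0) (XT.lf (nat_lit 0) (nat_lit 45786455420) (nat_lit 76) (nat_lit 19077198691) (nat_lit 76) (nat_lit 5932118511) (nat_lit 9) (nat_lit 4) (nat_lit 10) (nat_lit 5) (nat_lit 10) (nat_lit 4) (nat_lit 395) (nat_lit 340) (nat_lit 285)) (XT.lf (nat_lit 0) (nat_lit 3970934831) (nat_lit 152) (nat_lit 4899873153) (nat_lit 76) (nat_lit 66715835280) (nat_lit 8) (nat_lit 5) (nat_lit 10) (nat_lit 5) (nat_lit 9) (nat_lit 4) (nat_lit 396) (nat_lit 340) (nat_lit 284))) (XT.nd (nat_lit 78) (nat_lit 0) (nat_lit 0) (XT.lf (nat_lit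 0) (nat_lit 14810373319) (nat_lit 152) (nat_lit 63287481075) (nat_lit 0) (nat_lit 2613435362) (nat_lit 7) (nat_lit 5) (nat_lit 9) (nat_lit 4) (nat_lit 7) (nat_lit 4) (nat_lit 397) (nat_lit 340) (nat_lit 283)) (XT.lf (nat_lit 0) (nat_lit 26862635693) (nat_lit 152) (nat_lit 44701305346) (nat_lit 0) (nat_lit 14654316227) (nat_lit 7) (nat_lit 5) (nat_lit 9) (nat_lit 4) (nat_lit 7) (nat_lit 4) (nat_lit 398) (nat_lit 340) (nat_lit 282)))) (XT.nd (nat_lit 156) (nat_lit 76) (nat_lit 0) (XT.nd (nat_lit 78) (nat_lit 0) (nat_lit 0) (XT.lf (nat_lit 0) (nat_lit 39858530188) (nat_lit 152) (nat_lit 24669226205) (nat_lit 0) (nat_lit 27639672289) (nat_lit 7) (nat_lit 5) (nat_lit 9) (nat_lit 4) (nat_lit 7) (nat_lit 4) (nat_lit 399) (nat_lit 340) (nat_lit 281)) (XT.lf (nat_lit 0) (nat_lit 53875069512) (nat_lit 152) (nat_lit 3072535035) (nat_lit 0) (nat_lit 41646453804) (nat_lit 7) (nat_lit 5) (nat_lit 9)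 (nat_lit 4) (nat_lit 7) (nat_lit 4) (nat_lit 400) (nat_lit 340) (nat_lit 280))) (XT.nd (nat_lit 78) (nat_lit 0) (nat_lit 0) (XT.lf (nat_lit 0) (nat_lit 21281326707) (nat_lit 76) (nat_lit 48225804351) (nat_lit 76) (nat_lit 35988153636) (nat_lit 6) (nat_lit 4) (nat_lit 7) (nat_lit 5) (nat_lit 7) (nat_lit 4) (nat_lit 401) (nat_lit 340) (nat_lit 279)) (XT.nd (nat_lit 78) (nat_lit 0) (nat_lit 0) (XT.lf (nat_lit 0) (nat_lit 47723981999) (nat_lit 76) (nat_lit 38732647938) (nat_lit 76) (nat_lit 26486631474) (nat_lit 6) (nat_lit 4) (nat_lit 7) (nat_lit 5) (nat_lit 7) (nat_lit 4) (nat_lit 402) (nat_lit 340) (nat_lit 278)) (XT.lf (nat_lit 0) (nat_lit 76250333808) (nat_lit 76) (nat_lit 28495888118) (nat_lit 76) (nat_lit 16242125591) (nat_lit 6) (nat_lit 4) (nat_lit 7) (nat_lit 5) (nat_lit 7) (nat_lit 4) (nat_lit 403) (nat_lit 340) (nat_lit 277)))))) (XT.nd (nat_lit 390) (nat_lit 76) (nat_lit 0) (XT.nd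 (nat_lit 156) (nat_lit 0) (nat_lit 0) (XT.nd (nat_lit 78) (nat_lit 152) (nat_lit 0) (XT.lf (nat_lit 0) (nat_lit 107029427182) (nat_lit 76) (nat_lit 17454862612) (nat_lit 76) (nat_lit 5193927804) (nat_lit 6) (nat_lit 4) (nat_lit 7) (nat_lit 5) (nat_lit 7) (nat_lit 4) (nat_lit 404) (nat_lit 340) (nat_lit 276)) (XT.lf (nat_lit 0) (nat_lit 1071175382) (nat_lit 76) (nat_lit 5341685767) (nat_lit 152) (nat_lit 132636509187) (nat_lit 4) (nat_lit 5) (nat_lit 5) (nat_lit 5) (nat_lit 6) (nat_lit 4) (nat_lit 405) (nat_lit 340) (nat_lit 275))) (XT.nd (nat_lit 78) (nat_lit 0) (nat_lit 0) (XT.lf (nat_lit 0) (nat_lit 19475182278) (nat_lit 152) (nat_lit 121509011953) (nat_lit 0) (nat_lit 8110622201) (nat_lit 4) (nat_lit 5) (nat_lit 6) (nat_lit 4) (nat_lit 4) (nat_lit 4) (nat_lit 406) (nat_lit 340) (nat_lit 274)) (XT.nd (nat_lit 78) (nat_lit 0) (nat_lit 0) (XT.lf (nat_lit 0) (nat_lit 33708357403) (nat_lit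 152) (nat_lit 103886947164) (nat_lit 0) (nat_lit 22338525485) (nat_lit 4) (nat_lit 5) (nat_lit 6) (nat_lit 4) (nat_lit 4) (nat_lit 4) (nat_lit 407) (nat_lit 340) (nat_lit 273)) (XT.lf (nat_lit 0) (nat_lit 49068263592) (nat_lit 152) (nat_lit 84879105865) (nat_lit 0) (nat_lit 37693550340) (nat_lit 4) (nat_lit 5) (nat_lit 6) (nat_lit 4) (nat_lit 4) (nat_lit 4) (nat_lit 408) (nat_lit 340) (nat_lit 272))))) (XT.nd (nat_lit 156) (nat_lit 76) (nat_lit 0) (XT.nd (nat_lit 78) (nat_lit 0) (nat_lit 0) (XT.lf (nat_lit 0) (nat_lit 65645922512) (nat_lit 152) (nat_lit 64372848997) (nat_lit 0) (nat_lit 54266689507) (nat_lit 4) (nat_lit 5) (nat_lit 6) (nat_lit 4) (nat_lit 4) (nat_lit 4) (nat_lit 409) (nat_lit 340) (nat_lit 271)) (XT.lf (nat_lit 0) (nat_lit 83539572143) (nat_lit 152) (nat_lit 42246658001) (nat_lit 0) (nat_lit 72156154181) (nat_lit 4) (nat_lit 5) (nat_lit 6) (nat_lit 4) (nat_lit 4) (nat_lit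 4) (nat_lit 410) (nat_lit 340) (nat_lit 270))) (XT.nd (nat_lit 78) (nat_lit 76) (nat_lit 0) (XT.lf (nat_lit 0) (nat_lit 102855248926) (nat_lit 152) (nat_lit 18369414707) (nat_lit 0) (nat_lit 91467956004) (nat_lit 4) (nat_lit 5) (nat_lit 6) (nat_lit 4) (nat_lit 4) (nat_lit 4) (nat_lit 411) (nat_lit 340) (nat_lit 269)) (XT.nd (nat_lit 78) (nat_lit 0) (nat_lit 0) (XT.lf (nat_lit 0) (nat_lit 7790066325) (nat_lit 76) (nat_lit 116104701088) (nat_lit 76) (nat_lit 104713820240) (nat_lit 3) (nat_lit 4) (nat_lit 4) (nat_lit 5) (nat_lit 4) (nat_lit 4) (nat_lit 412) (nat_lit 340) (nat_lit 268)) (XT.lf (nat_lit 0) (nat_lit 37069804731) (nat_lit 76) (nat_lit 110041367121) (nat_lit 76) (nat_lit 98647164119) (nat_lit 3) (nat_lit 4) (nat_lit 4) (nat_lit 5) (nat_lit 4) (nat_lit 4) (nat_lit 413) (nat_lit 340) (nat_lit 267))))))) (XT.nd (nat_lit 780) (nat_lit 152) (nat_lit 0) (XT.nd (nat_lit 390) (nat_lit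 0) (nat_lit 0) (XT.nd (nat_lit 156) (nat_lit 0) (nat_lit 0) (XT.nd (nat_lit 78) (nat_lit 0) (nat_lit 0) (XT.lf (nat_lit 0) (nat_lit 68676009245) (nat_lit 76) (nat_lit 103500983216) (nat_lit 76) (nat_lit 92103704146) (nat_lit 3) (nat_lit 4) (nat_lit 4) (nat_lit 5) (nat_lit 4) (nat_lit 4) (nat_lit 414) (nat_lit 340) (nat_lit 266)) (XT.lf (nat_lit 0) (nat_lit 102795975893) (nat_lit 76) (nat_lit 96444791543) (nat_lit 76) (nat_lit 85044664261) (nat_lit 3) (nat_lit 4) (nat_lit 4) (nat_lit 5) (nat_lit 4) (nat_lit 4) (nat_lit 415) (nat_lit 340) (nat_lit 265))) (XT.nd (nat_lit 78) (nat_lit 0) (nat_lit 0) (XT.lf (nat_lit 0) (nat_lit 139631897072) (nat_lit 76) (nat_lit 88830977632) (nat_lit 76) (nat_lit 77428213118) (nat_lit 3) (nat_lit 4) (nat_lit 4) (nat_lit 5) (nat_lit 4) (nat_lit 4) (nat_lit 416) (nat_lit 340) (nat_lit 264)) (XT.nd (nat_lit 78) (nat_lit 0) (nat_lit 0) (XT.lf (nat_lit 0) (nat_lit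 179402059720) (nat_lit 76) (nat_lit 80614422586) (nat_lit 76) (nat_lit 69209216189) (nat_lit 3) (nat_lit 4) (nat_lit 4) (nat_lit 5) (nat_lit 4) (nat_lit 4) (nat_lit 417) (nat_lit 340) (nat_lit 263)) (XT.lf (nat_lit 0) (nat_lit 222342138876) (nat_lit 76) (nat_lit 71746435709) (nat_lit 76) (nat_lit 60338968310) (nat_lit 3) (nat_lit 4) (nat_lit 4) (nat_lit 5) (nat_lit 4) (nat_lit 4) (nat_lit 418) (nat_lit 340) (nat_lit 262))))) (XT.nd (nat_lit 156) (nat_lit 0) (nat_lit 0) (XT.nd (nat_lit 78) (nat_lit 0) (nat_lit 0) (XT.lf (nat_lit 0) (nat_lit 268706594269) (nat_lit 76) (nat_lit 62174465966) (nat_lit 76) (nat_lit 50764905048) (nat_lit 3) (nat_lit 4) (nat_lit 4) (nat_lit 5) (nat_lit 4) (nat_lit 4) (nat_lit 419) (nat_lit 340) (nat_lit 261)) (XT.lf (nat_lit 0) (nat_lit 318770178227) (nat_lit 76) (nat_lit 51841790576) (nat_lit 76) (nat_lit 40430291212) (nat_lit 3) (nat_lit 4) (nat_lit 4) (nat_lit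 5) (nat_lit 4) (nat_lit 4) (nat_lit 420) (nat_lit 340) (nat_lit 260))) (XT.nd (nat_lit 78) (nat_lit 0) (nat_lit 0) (XT.lf (nat_lit 0) (nat_lit 372829563839) (nat_lit 76) (nat_lit 40687178868) (nat_lit 76) (nat_lit 29273884648) (nat_lit 3) (nat_lit 4) (nat_lit 4) (nat_lit 5) (nat_lit 4) (nat_lit 4) (nat_lit 421) (nat_lit 340) (nat_lit 259)) (XT.nd (nat_lit 78) (nat_lit 0) (nat_lit 0) (XT.lf (nat_lit 0) (nat_lit 431205103020) (nat_lit 76) (nat_lit 28644529440) (nat_lit 76) (nat_lit 17229573316) (nat_lit 3) (nat_lit 4) (nat_lit 4) (nat_lit 5) (nat_lit 4) (nat_lit 4) (nat_lit 422) (nat_lit 340) (nat_lit 258)) (XT.lf (nat_lit 0) (nat_lit 494242724892) (nat_lit 76) (nat_lit 15642478443) (nat_lit 76) (nat_lit 4225983519) (nat_lit 3) (nat_lit 4) (nat_lit 4) (nat_lit 5) (nat_lit 4) (nat_lit 4) (nat_lit 423) (nat_lit 340) (nat_lit 257)))))) (XT.nd (nat_lit 390) (nat_lit 0) (nat_lit 0) (XT.nd (nat_lit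 156) (nat_lit 0) (nat_lit 0) (XT.nd (nat_lit 78) (nat_lit 0) (nat_lit 0) (XT.lf (nat_lit 0) (nat_lit 8393834389) (nat_lit 76) (nat_lit 1131047402) (nat_lit 152) (nat_lit 544546105777) (nat_lit 1) (nat_lit 5) (nat_lit 2) (nat_lit 5) (nat_lit 3) (nat_lit 4) (nat_lit 424) (nat_lit 340) (nat_lit 256)) (XT.lf (nat_lit 0) (nat_lit 25050829273) (nat_lit 152) (nat_lit 557618236219) (nat_lit 0) (nat_lit 14477459818) (nat_lit 1) (nat_lit 5) (nat_lit 3) (nat_lit 4) (nat_lit 1) (nat_lit 4) (nat_lit 425) (nat_lit 340) (nat_lit 255))) (XT.nd (nat_lit 78) (nat_lit 0) (nat_lit 0) (XT.lf (nat_lit 0) (nat_lit 41844765767) (nat_lit 152) (nat_lit 570551002278) (nat_lit 0) (nat_lit 31270265248) (nat_lit 1) (nat_lit 5) (nat_lit 3) (nat_lit 4) (nat_lit 1) (nat_lit 4) (nat_lit 426) (nat_lit 340) (nat_lit 254)) (XT.nd (nat_lit 78) (nat_lit 0) (nat_lit 0) (XT.lf (nat_lit 0) (nat_lit 59979009179) (nat_lit 152) (nat_lit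 584524888254) (nat_lit 0) (nat_lit 49403461379) (nat_lit 1) (nat_lit 5) (nat_lit 3) (nat_lit 4) (nat_lit 1) (nat_lit 4) (nat_lit 427) (nat_lit 340) (nat_lit 253)) (XT.lf (nat_lit 0) (nat_lit 79561021693) (nat_lit 152) (nat_lit 599622702360) (nat_lit 0) (nat_lit 68984504188) (nat_lit 1) (nat_lit 5) (nat_lit 3) (nat_lit 4) (nat_lit 1) (nat_lit 4) (nat_lit 428) (nat_lit 340) (nat_lit 252))))) (XT.nd (nat_lit 156) (nat_lit 0) (nat_lit 0) (XT.nd (nat_lit 78) (nat_lit 0) (nat_lit 0) (XT.lf (nat_lit 0) (nat_lit 100706844865) (nat_lit 152) (nat_lit 615933913124) (nat_lit 0) (nat_lit 90129429485) (nat_lit 1) (nat_lit 5) (nat_lit 3) (nat_lit 4) (nat_lit 1) (nat_lit 4) (nat_lit 429) (nat_lit 340) (nat_lit 251)) (XT.lf (nat_lit 0) (nat_lit 123541787276) (nat_lit 152) (nat_lit 633555179572) (nat_lit 0) (nat_lit 112963540530) (nat_lit 1) (nat_lit 5) (nat_lit 3) (nat_lit 4) (nat_lit 1) (nat_lit 4) (nat_lit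 430) (nat_lit 340) (nat_lit 250))) (XT.nd (nat_lit 78) (nat_lit 0) (nat_lit 0) (XT.lf (nat_lit 0) (nat_lit 148201167104) (nat_lit 152) (nat_lit 652590924025) (nat_lit 0) (nat_lit 137622150574) (nat_lit 1) (nat_lit 5) (nat_lit 3) (nat_lit 4) (nat_lit 1) (nat_lit 4) (nat_lit 431) (nat_lit 340) (nat_lit 249)) (XT.nd (nat_lit 78) (nat_lit 0) (nat_lit 0) (XT.lf (nat_lit 0) (nat_lit 174831114006) (nat_lit 152) (nat_lit 673153950894) (nat_lit 0) (nat_lit 164251384714) (nat_lit 1) (nat_lit 5) (nat_lit 3) (nat_lit 4) (nat_lit 1) (nat_lit 4) (nat_lit 432) (nat_lit 340) (nat_lit 248)) (XT.lf (nat_lit 0) (nat_lit 203589435076) (nat_lit 152) (nat_lit 695366115152) (nat_lit 0) (nat_lit 193009045819) (nat_lit 1) (nat_lit 5) (nat_lit 3) (nat_lit 4) (nat_lit 1) (nat_lit 4) (nat_lit 433) (nat_lit 340) (nat_lit 247))))))))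
noncomputable def xc96 : XT := (XT.nd (nat_lit 1482) (nat_lit 0) (nat_lit 0) (XT.nd (nat_lit 702) (nat_lit 0) (nat_lit 0) (XT.nd (nat_lit 312) (nat_lit 0) (nat_lit 0) (XT.nd (nat_lit 156) (nat_lit 0) (nat_lit 0) (XT.nd (nat_lit 78) (nat_lit 0) (nat_lit 0) (XT.lf (nat_lit 0) (nat_lit 234646549994) (nat_lit 152) (nat_lit 719359044441) (nat_lit 0) (nat_lit 224065549658) (nat_lit 1) (nat_lit 5) (nat_lit 3) (nat_lit 4) (nat_lit 1) (nat_lit 4) (nat_lit 434) (nat_lit 340) (nat_lit 246)) (XT.lf (nat_lit 0) (nat_lit 268186500922) (nat_lit 152) (nat_lit 745274919081) (nat_lit 0) (nat_lit 257604934773) (nat_lit 1) (nat_lit 5) (nat_lit 3) (nat_lit 4) (nat_lit 1) (nat_lit 4) (nat_lit 435) (nat_lit 340) (nat_lit 245))) (XT.nd (nat_lit 78) (nat_lit 0) (nat_lit 0) (XT.lf (nat_lit 0) (nat_lit 304408043125) (nat_lit 152) (nat_lit 773267314626) (nat_lit 0) (nat_lit 293825953075) (nat_lit 1) (nat_lit 5) (nat_lit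 3) (nat_lit 4) (nat_lit 1) (nat_lit 4) (nat_lit 436) (nat_lit 340) (nat_lit 244)) (XT.lf (nat_lit 0) (nat_lit 343525822780) (nat_lit 152) (nat_lit 803502111939) (nat_lit 0) (nat_lit 332943247636) (nat_lit 1) (nat_lit 5) (nat_lit 3) (nat_lit 4) (nat_lit 1) (nat_lit 4) (nat_lit 437) (nat_lit 340) (nat_lit 243)))) (XT.nd (nat_lit 156) (nat_lit 0) (nat_lit 0) (XT.nd (nat_lit 78) (nat_lit 0) (nat_lit 0) (XT.lf (nat_lit 0) (nat_lit 385771648950) (nat_lit 152) (nat_lit 836158480189) (nat_lit 0) (nat_lit 375188624645) (nat_lit 1) (nat_lit 5) (nat_lit 3) (nat_lit 4) (nat_lit 1) (nat_lit 4) (nat_lit 438) (nat_lit 340) (nat_lit 242)) (XT.lf (nat_lit 0) (nat_lit 431395867273) (nat_lit 152) (nat_lit 871429938595) (nat_lit 0) (nat_lit 420812427078) (nat_lit 1) (nat_lit 5) (nat_lit 3) (nat_lit 4) (nat_lit 1) (nat_lit 4) (nat_lit 439) (nat_lit 340) (nat_lit 241))) (XT.nd (nat_lit 78) (nat_lit 0) (nat_lit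 0) (XT.lf (nat_lit 0) (nat_lit 480668843486) (nat_lit 152) (nat_lit 909525503207) (nat_lit 0) (nat_lit 470085018208) (nat_lit 1) (nat_lit 5) (nat_lit 3) (nat_lit 4) (nat_lit 1) (nat_lit 4) (nat_lit 440) (nat_lit 340) (nat_lit 240)) (XT.nd (nat_lit 78) (nat_lit 0) (nat_lit 0) (XT.lf (nat_lit 0) (nat_lit 533882565597) (nat_lit 152) (nat_lit 950670925519) (nat_lit 0) (nat_lit 523298383760) (nat_lit 1) (nat_lit 5) (nat_lit 3) (nat_lit 4) (nat_lit 1) (nat_lit 4) (nat_lit 441) (nat_lit 340) (nat_lit 239)) (XT.lf (nat_lit 0) (nat_lit 591352374181) (nat_lit 152) (nat_lit 995110030256) (nat_lit 0) (nat_lit 580767862198) (nat_lit 1) (nat_lit 5) (nat_lit 3) (nat_lit 4) (nat_lit 1) (nat_lit 4) (nat_lit 442) (nat_lit 340) (nat_lit 238)))))) (XT.nd (nat_lit 390) (nat_lit 0) (nat_lit 0) (XT.nd (nat_lit 156) (nat_lit 0) (nat_lit 0) (XT.nd (nat_lit 78) (nat_lit 0) (nat_lit 0) (XT.lf (nat_lit 0) (nat_lit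 653418831067) (nat_lit 152) (nat_lit 1043106160260) (nat_lit 0) (nat_lit 642834013393) (nat_lit 1) (nat_lit 5) (nat_lit 3) (nat_lit 4) (nat_lit 1) (nat_lit 4) (nat_lit 443) (nat_lit 340) (nat_lit 237)) (XT.lf (nat_lit 0) (nat_lit 720449737482) (nat_lit 152) (nat_lit 1094943737043) (nat_lit 0) (nat_lit 709864636759) (nat_lit 1) (nat_lit 5) (nat_lit 3) (nat_lit 4) (nat_lit 1) (nat_lit 4) (nat_lit 444) (nat_lit 340) (nat_lit 236))) (XT.nd (nat_lit 78) (nat_lit 0) (nat_lit 0) (XT.lf (nat_lit 0) (nat_lit 792842313610) (nat_lit 152) (nat_lit 1150929946246) (nat_lit 0) (nat_lit 782256950806) (nat_lit 1) (nat_lit 5) (nat_lit 3) (nat_lit 4) (nat_lit 1) (nat_lit 4) (nat_lit 445) (nat_lit 340) (nat_lit 235)) (XT.nd (nat_lit 78) (nat_lit 0) (nat_lit 0) (XT.lf (nat_lit 0) (nat_lit 871025552496) (nat_lit 152) (nat_lit 1211396557995) (nat_lit 0) (nat_lit 860439947024) (nat_lit 1) (nat_lit 5) (nat_lit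 3) (nat_lit 4) (nat_lit 1) (nat_lit 4) (nat_lit 446) (nat_lit 340) (nat_lit 234)) (XT.lf (nat_lit 0) (nat_lit 955462762222) (nat_lit 152) (nat_lit 1276701892955) (nat_lit 0) (nat_lit 944876932058) (nat_lit 1) (nat_lit 5) (nat_lit 3) (nat_lit 4) (nat_lit 1) (nat_lit 4) (nat_lit 447) (nat_lit 340) (nat_lit 233))))) (XT.nd (nat_lit 156) (nat_lit 0) (nat_lit 0) (XT.nd (nat_lit 78) (nat_lit 0) (nat_lit 0) (XT.lf (nat_lit 0) (nat_lit 1046654311438) (nat_lit 152) (nat_lit 1347232945702) (nat_lit 0) (nat_lit 1036068273226) (nat_lit 1) (nat_lit 5) (nat_lit 3) (nat_lit 4) (nat_lit 1) (nat_lit 4) (nat_lit 448) (nat_lit 340) (nat_lit 232)) (XT.lf (nat_lit 0) (nat_lit 1145140594510) (nat_lit 152) (nat_lit 1423407678030) (nat_lit 0) (nat_lit 1134554363660) (nat_lit 1) (nat_lit 5) (nat_lit 3) (nat_lit 4) (nat_lit 1) (nat_lit 4) (nat_lit 449) (nat_lit 340) (nat_lit 231))) (XT.nd (nat_lit 78) (nat_lit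 0) (nat_lit 0) (XT.lf (nat_lit 0) (nat_lit 1251505233856) (nat_lit 152) (nat_lit 1505677495761) (nat_lit 0) (nat_lit 1240918824639) (nat_lit 1) (nat_lit 5) (nat_lit 3) (nat_lit 4) (nat_lit 1) (nat_lit 4) (nat_lit 450) (nat_lit 340) (nat_lit 230)) (XT.nd (nat_lit 78) (nat_lit 0) (nat_lit 0) (XT.lf (nat_lit 0) (nat_lit 1366378538451) (nat_lit 152) (nat_lit 1594529923741) (nat_lit 0) (nat_lit 1355791964078) (nat_lit 1) (nat_lit 5) (nat_lit 3) (nat_lit 4) (nat_lit 1) (nat_lit 4) (nat_lit 451) (nat_lit 340) (nat_lit 229)) (XT.lf (nat_lit 0) (nat_lit 1490441238988) (nat_lit 152) (nat_lit 1690491494875) (nat_lit 0) (nat_lit 1479854511692) (nat_lit 1) (nat_lit 5) (nat_lit 3) (nat_lit 4) (nat_lit 1) (nat_lit 4) (nat_lit 452) (nat_lit 340) (nat_lit 228))))))) (XT.nd (nat_lit 44538) (nat_lit 0) (nat_lit 4408) (XT.nd (nat_lit 312) (nat_lit 0) (nat_lit 0) (XT.nd (nat_lit 156) (nat_lit 0) (nat_lit 0)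 (XT.nd (nat_lit 78) (nat_lit 0) (nat_lit 0) (XT.lf (nat_lit 0) (nat_lit 1624428521840) (nat_lit 152) (nat_lit 1794130870326) (nat_lit 0) (nat_lit 1613841652950) (nat_lit 1) (nat_lit 5) (nat_lit 3) (nat_lit 4) (nat_lit 1) (nat_lit 4) (nat_lit 453) (nat_lit 340) (nat_lit 227)) (XT.lf (nat_lit 0) (nat_lit 1769134385721) (nat_lit 152) (nat_lit 1906062209357) (nat_lit 0) (nat_lit 1758547385725) (nat_lit 1) (nat_lit 5) (nat_lit 3) (nat_lit 4) (nat_lit 1) (nat_lit 4) (nat_lit 454) (nat_lit 340) (nat_lit 226))) (XT.nd (nat_lit 78) (nat_lit 0) (nat_lit 0) (XT.lf (nat_lit 0) (nat_lit 1925416346861) (nat_lit 152) (nat_lit 2026948808791) (nat_lit 0) (nat_lit 1914829225471) (nat_lit 1) (nat_lit 5) (nat_lit 3) (nat_lit 4) (nat_lit 1) (nat_lit 4) (nat_lit 455) (nat_lit 340) (nat_lit 225)) (XT.lf (nat_lit 0) (nat_lit 2094200520585) (nat_lit 152) (nat_lit 2157507033662) (nat_lit 0) (nat_lit 2083613286793)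 (nat_lit 1) (nat_lit 5) (nat_lit 3) (nat_lit 4) (nat_lit 1) (nat_lit 4) (nat_lit 456) (nat_lit 340) (nat_lit 224)))) (XT.nd (nat_lit 156) (nat_lit 0) (nat_lit 0) (XT.nd (nat_lit 78) (nat_lit 0) (nat_lit 0) (XT.lf (nat_lit 0) (nat_lit 2276487109405) (nat_lit 152) (nat_lit 2298510562339) (nat_lit 0) (nat_lit 2265899771537) (nat_lit 1) (nat_lit 5) (nat_lit 3) (nat_lit 4) (nat_lit 1) (nat_lit 4) (nat_lit 457) (nat_lit 340) (nat_lit 223)) (XT.lf (nat_lit 0) (nat_lit 2473356330143) (nat_lit 152) (nat_lit 2450794971288) (nat_lit 0) (nat_lit 2462768895908) (nat_lit 1) (nat_lit 5) (nat_lit 3) (nat_lit 4) (nat_lit 1) (nat_lit 4) (nat_lit 458) (nat_lit 340) (nat_lit 222))) (XT.nd (nat_lit 43914) (nat_lit 0) (nat_lit 6080) (XT.lf (nat_lit 0) (nat_lit 2685974815218) (nat_lit 152) (nat_lit 2615262686637) (nat_lit 0) (nat_lit 2675387291755) (nat_lit 1) (nat_lit 5) (nat_lit 3) (nat_lit 4) (nat_lit 1)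 (nat_lit 4) (nat_lit 459) (nat_lit 340) (nat_lit 221)) (XT.nd (nat_lit 78) (nat_lit 228) (nat_lit 0) (XT.lf (nat_lit 0) (nat_lit 1490716851) (nat_lit 0) (nat_lit 1490716851) (nat_lit 76) (nat_lit 252519934) (nat_lit 84) (nat_lit 5) (nat_lit 84) (nat_lit 3) (nat_lit 85) (nat_lit 0) (nat_lit 341) (nat_lit 341) (nat_lit 338)) (XT.lf (nat_lit 0) (nat_lit 2193536467) (nat_lit 228) (nat_lit 328827409) (nat_lit 228) (nat_lit 3984619390) (nat_lit 81) (nat_lit 3) (nat_lit 84) (nat_lit 3) (nat_lit 84) (nat_lit 5) (nat_lit 342) (nat_lit 341) (nat_lit 337)))))) (XT.nd (nat_lit 390) (nat_lit 1216) (nat_lit 0) (XT.nd (nat_lit 156) (nat_lit 228) (nat_lit 0) (XT.nd (nat_lit 78) (nat_lit 228) (nat_lit 0) (XT.lf (nat_lit 76) (nat_lit 3076482894) (nat_lit 0) (nat_lit 1808840400) (nat_lit 228) (nat_lit 1678969152) (nat_lit 82) (nat_lit 5) (nat_lit 81) (nat_lit 3) (nat_lit 84) (nat_lit 5) (nat_lit 343) (nat_lit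 341) (nat_lit 336)) (XT.lf (nat_lit 0) (nat_lit 857278384) (nat_lit 228) (nat_lit 37003825) (nat_lit 304) (nat_lit 5750162379) (nat_lit 78) (nat_lit 5) (nat_lit 81) (nat_lit 3) (nat_lit 82) (nat_lit 5) (nat_lit 344) (nat_lit 341) (nat_lit 335))) (XT.nd (nat_lit 78) (nat_lit 304) (nat_lit 0) (XT.lf (nat_lit 0) (nat_lit 3361737479) (nat_lit 228) (nat_lit 3062043901) (nat_lit 76) (nat_lit 315674188) (nat_lit 79) (nat_lit 5) (nat_lit 82) (nat_lit 5) (nat_lit 80) (nat_lit 5) (nat_lit 345) (nat_lit 341) (nat_lit 334)) (XT.nd (nat_lit 78) (nat_lit 76) (nat_lit 0) (XT.lf (nat_lit 0) (nat_lit 699353315) (nat_lit 228) (nat_lit 5184148334) (nat_lit 304) (nat_lit 973596032) (nat_lit 76) (nat_lit 5) (nat_lit 79) (nat_lit 5) (nat_lit 80) (nat_lit 5) (nat_lit 346) (nat_lit 341) (nat_lit 333)) (XT.lf (nat_lit 0) (nat_lit 1410422150) (nat_lit 304) (nat_lit 2252007104) (nat_lit 76) (nat_lit 3329430711)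 (nat_lit 75) (nat_lit 5) (nat_lit 79) (nat_lit 5) (nat_lit 76) (nat_lit 5) (nat_lit 347) (nat_lit 341) (nat_lit 332))))) (XT.nd (nat_lit 156) (nat_lit 912) (nat_lit 0) (XT.nd (nat_lit 78) (nat_lit 0) (nat_lit 0) (XT.lf (nat_lit 0) (nat_lit 1878234854) (nat_lit 304) (nat_lit 1898435981) (nat_lit 380) (nat_lit 3371487175) (nat_lit 71) (nat_lit 5) (nat_lit 75) (nat_lit 5) (nat_lit 76) (nat_lit 5) (nat_lit 348) (nat_lit 341) (nat_lit 331)) (XT.lf (nat_lit 0) (nat_lit 6206606498) (nat_lit 380) (nat_lit 1015847266) (nat_lit 76) (nat_lit 104838979) (nat_lit 71) (nat_lit 5) (nat_lit 76) (nat_lit 5) (nat_lit 72) (nat_lit 5) (nat_lit 349) (nat_lit 341) (nat_lit 330))) (XT.nd (nat_lit 78) (nat_lit 456) (nat_lit 0) (XT.lf (nat_lit 0) (nat_lit 1203088352) (nat_lit 456) (nat_lit 4004355033) (nat_lit 76) (nat_lit 2314361400) (nat_lit 65) (nat_lit 5) (nat_lit 71) (nat_lit 5) (nat_lit 66) (nat_lit 5) (nat_lit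 350) (nat_lit 341) (nat_lit 329)) (XT.nd (nat_lit 78) (nat_lit 0) (nat_lit 0) (XT.lf (nat_lit 0) (nat_lit 578928817) (nat_lit 456) (nat_lit 2945515739) (nat_lit 532) (nat_lit 4215551769) (nat_lit 59) (nat_lit 5) (nat_lit 65) (nat_lit 5) (nat_lit 66) (nat_lit 5) (nat_lit 351) (nat_lit 341) (nat_lit 328)) (XT.lf (nat_lit 0) (nat_lit 5598972721) (nat_lit 456) (nat_lit 380644618) (nat_lit 532) (nat_lit 2000385812) (nat_lit 59) (nat_lit 5) (nat_lit 65) (nat_lit 5) (nat_lit 66) (nat_lit 5) (nat_lit 352) (nat_lit 341) (nat_lit 327))))))))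
noncomputable def xc97 : XT := (XT.nd (nat_lit 1482) (nat_lit 1216) (nat_lit 0) (XT.nd (nat_lit 702) (nat_lit 912) (nat_lit 0) (XT.nd (nat_lit 312) (nat_lit 684) (nat_lit 0) (XT.nd (nat_lit 156) (nat_lit 456) (nat_lit 0) (XT.nd (nat_lit 78) (nat_lit 0) (nat_lit 0) (XT.lf (nat_lit 0) (nat_lit 344582225) (nat_lit 456) (nat_lit 5549416314) (nat_lit 76) (nat_lit 2346860804) (nat_lit 53) (nat_lit 5) (nat_lit 59) (nat_lit 5) (nat_lit 54) (nat_lit 5) (nat_lit 353) (nat_lit 341) (nat_lit 326)) (XT.lf (nat_lit 0) (nat_lit 2699909867) (nat_lit 456) (nat_lit 437814639) (nat_lit 76) (nat_lit 5386401684) (nat_lit 53) (nat_lit 5) (nat_lit 59) (nat_lit 5) (nat_lit 54) (nat_lit 5) (nat_lit 354) (nat_lit 341) (nat_lit 325))) (XT.nd (nat_lit 78) (nat_lit 228) (nat_lit 0) (XT.lf (nat_lit 0) (nat_lit 5192435414) (nat_lit 228) (nat_lit 41065334) (nat_lit 304) (nat_lit 3597520008) (nat_lit 50) (nat_lit 5) (nat_lit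 53) (nat_lit 5) (nat_lit 54) (nat_lit 5) (nat_lit 355) (nat_lit 341) (nat_lit 324)) (XT.lf (nat_lit 0) (nat_lit 2000587005) (nat_lit 228) (nat_lit 5980052741) (nat_lit 304) (nat_lit 1181100249) (nat_lit 47) (nat_lit 5) (nat_lit 50) (nat_lit 5) (nat_lit 51) (nat_lit 5) (nat_lit 356) (nat_lit 341) (nat_lit 323)))) (XT.nd (nat_lit 156) (nat_lit 456) (nat_lit 0) (XT.nd (nat_lit 78) (nat_lit 152) (nat_lit 0) (XT.lf (nat_lit 0) (nat_lit 1333893049) (nat_lit 304) (nat_lit 1410197222) (nat_lit 76) (nat_lit 6774061453) (nat_lit 46) (nat_lit 5) (nat_lit 50) (nat_lit 5) (nat_lit 47) (nat_lit 5) (nat_lit 357) (nat_lit 341) (nat_lit 322)) (XT.lf (nat_lit 0) (nat_lit 4007429789) (nat_lit 228) (nat_lit 5055582016) (nat_lit 76) (nat_lit 836030732) (nat_lit 44) (nat_lit 5) (nat_lit 47) (nat_lit 5) (nat_lit 45) (nat_lit 5) (nat_lit 358) (nat_lit 341) (nat_lit 321))) (XT.nd (nat_lit 78) (nat_lit 228) (nat_lit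 0) (XT.lf (nat_lit 0) (nat_lit 1206538909) (nat_lit 228) (nat_lit 5715570515) (nat_lit 304) (nat_lit 3386218750) (nat_lit 41) (nat_lit 5) (nat_lit 44) (nat_lit 5) (nat_lit 45) (nat_lit 5) (nat_lit 359) (nat_lit 341) (nat_lit 320)) (XT.nd (nat_lit 78) (nat_lit 228) (nat_lit 0) (XT.lf (nat_lit 0) (nat_lit 8109158235) (nat_lit 228) (nat_lit 1991223584) (nat_lit 304) (nat_lit 647637999) (nat_lit 41) (nat_lit 5) (nat_lit 44) (nat_lit 5) (nat_lit 45) (nat_lit 5) (nat_lit 360) (nat_lit 341) (nat_lit 319)) (XT.lf (nat_lit 0) (nat_lit 2248909777) (nat_lit 228) (nat_lit 6909182929) (nat_lit 76) (nat_lit 2056077421) (nat_lit 38) (nat_lit 5) (nat_lit 41) (nat_lit 5) (nat_lit 39) (nat_lit 5) (nat_lit 361) (nat_lit 341) (nat_lit 318)))))) (XT.nd (nat_lit 390) (nat_lit 380) (nat_lit 0) (XT.nd (nat_lit 156) (nat_lit 380) (nat_lit 0) (XT.nd (nat_lit 78) (nat_lit 0) (nat_lit 0) (XT.lf (nat_lit 0) (nat_lit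 27690661) (nat_lit 152) (nat_lit 5341685313) (nat_lit 228) (nat_lit 6344792741) (nat_lit 36) (nat_lit 5) (nat_lit 38) (nat_lit 5) (nat_lit 39) (nat_lit 5) (nat_lit 362) (nat_lit 341) (nat_lit 317)) (XT.lf (nat_lit 0) (nat_lit 7770281533) (nat_lit 152) (nat_lit 1062810982) (nat_lit 228) (nat_lit 3413656655) (nat_lit 36) (nat_lit 5) (nat_lit 38) (nat_lit 5) (nat_lit 39) (nat_lit 5) (nat_lit 363) (nat_lit 341) (nat_lit 316))) (XT.nd (nat_lit 78) (nat_lit 228) (nat_lit 0) (XT.lf (nat_lit 0) (nat_lit 3249608878) (nat_lit 152) (nat_lit 9398748683) (nat_lit 228) (nat_lit 167688167) (nat_lit 34) (nat_lit 5) (nat_lit 36) (nat_lit 5) (nat_lit 37) (nat_lit 4) (nat_lit 364) (nat_lit 341) (nat_lit 315)) (XT.nd (nat_lit 78) (nat_lit 152) (nat_lit 0) (XT.lf (nat_lit 0) (nat_lit 3235974113) (nat_lit 228) (nat_lit 1822732730) (nat_lit 76) (nat_lit 8360613754) (nat_lit 33) (nat_lit 5) (nat_lit 36) (nat_lit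 5) (nat_lit 34) (nat_lit 5) (nat_lit 365) (nat_lit 341) (nat_lit 314)) (XT.lf (nat_lit 0) (nat_lit 6744881477) (nat_lit 152) (nat_lit 238550504) (nat_lit 228) (nat_lit 7080684266) (nat_lit 31) (nat_lit 5) (nat_lit 33) (nat_lit 5) (nat_lit 34) (nat_lit 5) (nat_lit 366) (nat_lit 341) (nat_lit 313))))) (XT.nd (nat_lit 156) (nat_lit 228) (nat_lit 0) (XT.nd (nat_lit 78) (nat_lit 76) (nat_lit 0) (XT.lf (nat_lit 0) (nat_lit 1151299456) (nat_lit 76) (nat_lit 9997924613) (nat_lit 152) (nat_lit 3601836807) (nat_lit 30) (nat_lit 5) (nat_lit 31) (nat_lit 5) (nat_lit 32) (nat_lit 4) (nat_lit 367) (nat_lit 341) (nat_lit 312)) (XT.lf (nat_lit 0) (nat_lit 280125412) (nat_lit 152) (nat_lit 4907838780) (nat_lit 76) (nat_lit 10294133364) (nat_lit 29) (nat_lit 5) (nat_lit 31) (nat_lit 5) (nat_lit 30) (nat_lit 5) (nat_lit 368) (nat_lit 341) (nat_lit 311))) (XT.nd (nat_lit 78) (nat_lit 76) (nat_lit 0) (XT.lf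 (nat_lit 0) (nat_lit 4317140878) (nat_lit 228) (nat_lit 11776930042) (nat_lit 76) (nat_lit 166973165) (nat_lit 27) (nat_lit 5) (nat_lit 30) (nat_lit 5) (nat_lit 28) (nat_lit 4) (nat_lit 369) (nat_lit 341) (nat_lit 310)) (XT.nd (nat_lit 78) (nat_lit 76) (nat_lit 0) (XT.lf (nat_lit 0) (nat_lit 8877856009) (nat_lit 228) (nat_lit 2446456938) (nat_lit 76) (nat_lit 5761969845) (nat_lit 27) (nat_lit 5) (nat_lit 30) (nat_lit 5) (nat_lit 28) (nat_lit 4) (nat_lit 370) (nat_lit 341) (nat_lit 309)) (XT.lf (nat_lit 0) (nat_lit 7912194575) (nat_lit 76) (nat_lit 6015144163) (nat_lit 152) (nat_lit 4040321924) (nat_lit 26) (nat_lit 5) (nat_lit 27) (nat_lit 5) (nat_lit 28) (nat_lit 4) (nat_lit 371) (nat_lit 341) (nat_lit 308))))))) (XT.nd (nat_lit 780) (nat_lit 532) (nat_lit 0) (XT.nd (nat_lit 390) (nat_lit 228) (nat_lit 0) (XT.nd (nat_lit 156) (nat_lit 228) (nat_lit 0) (XT.nd (nat_lit 78) (nat_lit 0) (nat_lit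 0) (XT.lf (nat_lit 0) (nat_lit 207348691) (nat_lit 152) (nat_lit 238594947) (nat_lit 228) (nat_lit 18472123120) (nat_lit 23) (nat_lit 5) (nat_lit 25) (nat_lit 5) (nat_lit 26) (nat_lit 5) (nat_lit 372) (nat_lit 341) (nat_lit 307)) (XT.lf (nat_lit 0) (nat_lit 5434406916) (nat_lit 228) (nat_lit 8431568960) (nat_lit 76) (nat_lit 6041233802) (nat_lit 23) (nat_lit 5) (nat_lit 26) (nat_lit 5) (nat_lit 24) (nat_lit 4) (nat_lit 373) (nat_lit 341) (nat_lit 306))) (XT.nd (nat_lit 78) (nat_lit 152) (nat_lit 0) (XT.lf (nat_lit 0) (nat_lit 2691187341) (nat_lit 76) (nat_lit 8141681566) (nat_lit 152) (nat_lit 10141765573) (nat_lit 22) (nat_lit 5) (nat_lit 23) (nat_lit 5) (nat_lit 24) (nat_lit 4) (nat_lit 374) (nat_lit 341) (nat_lit 305)) (XT.nd (nat_lit 78) (nat_lit 152) (nat_lit 0) (XT.lf (nat_lit 0) (nat_lit 15078836091) (nat_lit 76) (nat_lit 1756839659) (nat_lit 152) (nat_lit 5278002476) (nat_lit 22)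 (nat_lit 5) (nat_lit 23) (nat_lit 5) (nat_lit 24) (nat_lit 4) (nat_lit 375) (nat_lit 341) (nat_lit 304)) (XT.lf (nat_lit 0) (nat_lit 173691509) (nat_lit 152) (nat_lit 18185282452) (nat_lit 76) (nat_lit 4969133284) (nat_lit 20) (nat_lit 5) (nat_lit 22) (nat_lit 5) (nat_lit 21) (nat_lit 4) (nat_lit 376) (nat_lit 341) (nat_lit 303))))) (XT.nd (nat_lit 156) (nat_lit 152) (nat_lit 0) (XT.nd (nat_lit 78) (nat_lit 76) (nat_lit 0) (XT.lf (nat_lit 0) (nat_lit 5964865567) (nat_lit 152) (nat_lit 6217586390) (nat_lit 76) (nat_lit 12431209626) (nat_lit 20) (nat_lit 5) (nat_lit 22) (nat_lit 5) (nat_lit 21) (nat_lit 4) (nat_lit 377) (nat_lit 341) (nat_lit 302)) (XT.lf (nat_lit 0) (nat_lit 6962925146) (nat_lit 76) (nat_lit 5373422986) (nat_lit 152) (nat_lit 13656367423) (nat_lit 19) (nat_lit 5) (nat_lit 20) (nat_lit 5) (nat_lit 21) (nat_lit 4) (nat_lit 378) (nat_lit 341) (nat_lit 301))) (XT.nd (nat_lit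 78) (nat_lit 152) (nat_lit 0) (XT.lf (nat_lit 0) (nat_lit 19389703984) (nat_lit 152) (nat_lit 6062544557) (nat_lit 0) (nat_lit 2016088168) (nat_lit 19) (nat_lit 5) (nat_lit 21) (nat_lit 4) (nat_lit 19) (nat_lit 4) (nat_lit 379) (nat_lit 341) (nat_lit 300)) (XT.nd (nat_lit 78) (nat_lit 76) (nat_lit 0) (XT.lf (nat_lit 0) (nat_lit 8122259259) (nat_lit 76) (nat_lit 19173786713) (nat_lit 76) (nat_lit 1742878278) (nat_lit 18) (nat_lit 4) (nat_lit 19) (nat_lit 5) (nat_lit 19) (nat_lit 4) (nat_lit 380) (nat_lit 341) (nat_lit 299)) (XT.lf (nat_lit 0) (nat_lit 4968717475) (nat_lit 152) (nat_lit 7149024807) (nat_lit 76) (nat_lit 18597689472) (nat_lit 17) (nat_lit 5) (nat_lit 19) (nat_lit 5) (nat_lit 18) (nat_lit 4) (nat_lit 381) (nat_lit 341) (nat_lit 298)))))) (XT.nd (nat_lit 390) (nat_lit 228) (nat_lit 0) (XT.nd (nat_lit 156) (nat_lit 228) (nat_lit 0) (XT.nd (nat_lit 78) (nat_lit 0) (nat_lit 0)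 (XT.lf (nat_lit 0) (nat_lit 7994291384) (nat_lit 76) (nat_lit 4278481561) (nat_lit 152) (nat_lit 20237701129) (nat_lit 16) (nat_lit 5) (nat_lit 17) (nat_lit 5) (nat_lit 18) (nat_lit 4) (nat_lit 382) (nat_lit 341) (nat_lit 297)) (XT.lf (nat_lit 0) (nat_lit 20420224939) (nat_lit 152) (nat_lit 9864396241) (nat_lit 0) (nat_lit 4143783205) (nat_lit 16) (nat_lit 5) (nat_lit 18) (nat_lit 4) (nat_lit 16) (nat_lit 4) (nat_lit 383) (nat_lit 341) (nat_lit 296))) (XT.nd (nat_lit 78) (nat_lit 152) (nat_lit 0) (XT.lf (nat_lit 0) (nat_lit 6077653478) (nat_lit 76) (nat_lit 23360050452) (nat_lit 76) (nat_lit 7044616324) (nat_lit 15) (nat_lit 4) (nat_lit 16) (nat_lit 5) (nat_lit 16) (nat_lit 4) (nat_lit 384) (nat_lit 341) (nat_lit 295)) (XT.nd (nat_lit 78) (nat_lit 76) (nat_lit 0) (XT.lf (nat_lit 0) (nat_lit 690015440) (nat_lit 152) (nat_lit 14916306080) (nat_lit 76) (nat_lit 23074296488) (nat_lit 14) (nat_lit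 5) (nat_lit 16) (nat_lit 5) (nat_lit 15) (nat_lit 4) (nat_lit 385) (nat_lit 341) (nat_lit 294)) (XT.lf (nat_lit 0) (nat_lit 1640835446) (nat_lit 76) (nat_lit 7025416157) (nat_lit 152) (nat_lit 32373623350) (nat_lit 13) (nat_lit 5) (nat_lit 14) (nat_lit 5) (nat_lit 15) (nat_lit 4) (nat_lit 386) (nat_lit 341) (nat_lit 293))))) (XT.nd (nat_lit 156) (nat_lit 228) (nat_lit 0) (XT.nd (nat_lit 78) (nat_lit 0) (nat_lit 0) (XT.lf (nat_lit 0) (nat_lit 17717158976) (nat_lit 152) (nat_lit 23318562913) (nat_lit 0) (nat_lit 2517231837) (nat_lit 13) (nat_lit 5) (nat_lit 15) (nat_lit 4) (nat_lit 13) (nat_lit 4) (nat_lit 387) (nat_lit 341) (nat_lit 292)) (XT.lf (nat_lit 0) (nat_lit 27641489169) (nat_lit 152) (nat_lit 6198623687) (nat_lit 0) (nat_lit 12415024462) (nat_lit 13) (nat_lit 5) (nat_lit 15) (nat_lit 4) (nat_lit 13) (nat_lit 4) (nat_lit 388) (nat_lit 341) (nat_lit 291))) (XT.nd (nat_lit 78) (nat_lit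 152) (nat_lit 0) (XT.lf (nat_lit 0) (nat_lit 12875263936) (nat_lit 76) (nat_lit 25763478072) (nat_lit 76) (nat_lit 10512441542) (nat_lit 12) (nat_lit 4) (nat_lit 13) (nat_lit 5) (nat_lit 13) (nat_lit 4) (nat_lit 389) (nat_lit 341) (nat_lit 290)) (XT.nd (nat_lit 78) (nat_lit 152) (nat_lit 0) (XT.lf (nat_lit 0) (nat_lit 33769376093) (nat_lit 76) (nat_lit 16886078426) (nat_lit 76) (nat_lit 1612290209) (nat_lit 12) (nat_lit 4) (nat_lit 13) (nat_lit 5) (nat_lit 13) (nat_lit 4) (nat_lit 390) (nat_lit 341) (nat_lit 289)) (XT.lf (nat_lit 0) (nat_lit 477483020) (nat_lit 76) (nat_lit 7105371601) (nat_lit 152) (nat_lit 48036735814) (nat_lit 10) (nat_lit 5) (nat_lit 11) (nat_lit 5) (nat_lit 12) (nat_lit 4) (nat_lit 391) (nat_lit 341) (nat_lit 288))))))))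
noncomputable def xc98 : XT := (XT.nd (nat_lit 1482) (nat_lit 228) (nat_lit 0) (XT.nd (nat_lit 702) (nat_lit 228) (nat_lit 0) (XT.nd (nat_lit 312) (nat_lit 152) (nat_lit 0) (XT.nd (nat_lit 156) (nat_lit 76) (nat_lit 0) (XT.nd (nat_lit 78) (nat_lit 0) (nat_lit 0) (XT.lf (nat_lit 0) (nat_lit 18000427082) (nat_lit 152) (nat_lit 37369433569) (nat_lit 0) (nat_lit 3820463657) (nat_lit 10) (nat_lit 5) (nat_lit 12) (nat_lit 4) (nat_lit 10) (nat_lit 4) (nat_lit 392) (nat_lit 341) (nat_lit 287)) (XT.lf (nat_lit 0) (nat_lit 29409892241) (nat_lit 152) (nat_lit 18410944168) (nat_lit 0) (nat_lit 15213205646) (nat_lit 10) (nat_lit 5) (nat_lit 12) (nat_lit 4) (nat_lit 10) (nat_lit 4) (nat_lit 393) (nat_lit 341) (nat_lit 286))) (XT.nd (nat_lit 78) (nat_lit 0) (nat_lit 0) (XT.lf (nat_lit 0) (nat_lit 2122781895) (nat_lit 76) (nat_lit 39636248447) (nat_lit 76) (nat_lit 25424077436) (nat_lit 9) (nat_lit 4)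 (nat_lit 10) (nat_lit 5) (nat_lit 10) (nat_lit 4) (nat_lit 394) (nat_lit 341) (nat_lit 285)) (XT.lf (nat_lit 0) (nat_lit 25299826004) (nat_lit 76) (nat_lit 30276195479) (nat_lit 76) (nat_lit 16049687046) (nat_lit 9) (nat_lit 4) (nat_lit 10) (nat_lit 5) (nat_lit 10) (nat_lit 4) (nat_lit 395) (nat_lit 341) (nat_lit 284)))) (XT.nd (nat_lit 156) (nat_lit 76) (nat_lit 0) (XT.nd (nat_lit 78) (nat_lit 76) (nat_lit 0) (XT.lf (nat_lit 0) (nat_lit 50288045914) (nat_lit 76) (nat_lit 20188598366) (nat_lit 76) (nat_lit 5948814542) (nat_lit 9) (nat_lit 4) (nat_lit 10) (nat_lit 5) (nat_lit 10) (nat_lit 4) (nat_lit 396) (nat_lit 341) (nat_lit 283)) (XT.lf (nat_lit 0) (nat_lit 4691358474) (nat_lit 152) (nat_lit 4494050226) (nat_lit 76) (nat_lit 72415891434) (nat_lit 8) (nat_lit 5) (nat_lit 10) (nat_lit 5) (nat_lit 9) (nat_lit 4) (nat_lit 397) (nat_lit 341) (nat_lit 282))) (XT.nd (nat_lit 78) (nat_lit 0)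 (nat_lit 0) (XT.lf (nat_lit 0) (nat_lit 16396103706) (nat_lit 152) (nat_lit 67550767814) (nat_lit 0) (nat_lit 3189198742) (nat_lit 7) (nat_lit 5) (nat_lit 9) (nat_lit 4) (nat_lit 7) (nat_lit 4) (nat_lit 398) (nat_lit 341) (nat_lit 281)) (XT.nd (nat_lit 78) (nat_lit 0) (nat_lit 0) (XT.lf (nat_lit 0) (nat_lit 29382850735) (nat_lit 152) (nat_lit 47536935934) (nat_lit 0) (nat_lit 16166187962) (nat_lit 7) (nat_lit 5) (nat_lit 9) (nat_lit 4) (nat_lit 7) (nat_lit 4) (nat_lit 399) (nat_lit 341) (nat_lit 280)) (XT.lf (nat_lit 0) (nat_lit 43390920183) (nat_lit 152) (nat_lit 25957140376) (nat_lit 0) (nat_lit 30165222402) (nat_lit 7) (nat_lit 5) (nat_lit 9) (nat_lit 4) (nat_lit 7) (nat_lit 4) (nat_lit 400) (nat_lit 341) (nat_lit 279)))))) (XT.nd (nat_lit 390) (nat_lit 152) (nat_lit 0) (XT.nd (nat_lit 156) (nat_lit 0) (nat_lit 0) (XT.nd (nat_lit 78) (nat_lit 76) (nat_lit 0) (XT.lf (nat_lit 0) (nat_lit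 58503322832) (nat_lit 152) (nat_lit 2683500870) (nat_lit 0) (nat_lit 45269259303) (nat_lit 7) (nat_lit 5) (nat_lit 9) (nat_lit 4) (nat_lit 7) (nat_lit 4) (nat_lit 401) (nat_lit 341) (nat_lit 278)) (XT.lf (nat_lit 0) (nat_lit 23602597989) (nat_lit 76) (nat_lit 51774658721) (nat_lit 76) (nat_lit 38532849129) (nat_lit 6) (nat_lit 4) (nat_lit 7) (nat_lit 5) (nat_lit 7) (nat_lit 4) (nat_lit 402) (nat_lit 341) (nat_lit 277))) (XT.nd (nat_lit 78) (nat_lit 0) (nat_lit 0) (XT.lf (nat_lit 0) (nat_lit 52114831250) (nat_lit 76) (nat_lit 41544954238) (nat_lit 76) (nat_lit 28295972364) (nat_lit 6) (nat_lit 4) (nat_lit 7) (nat_lit 5) (nat_lit 7) (nat_lit 4) (nat_lit 403) (nat_lit 341) (nat_lit 276)) (XT.nd (nat_lit 78) (nat_lit 0) (nat_lit 0) (XT.lf (nat_lit 0) (nat_lit 82880851894) (nat_lit 76) (nat_lit 30510461450) (nat_lit 76) (nat_lit 17254838576) (nat_lit 6) (nat_lit 4) (nat_lit 7) (nat_lit 5) (nat_lit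 7) (nat_lit 4) (nat_lit 404) (nat_lit 341) (nat_lit 275)) (XT.lf (nat_lit 0) (nat_lit 116082977079) (nat_lit 76) (nat_lit 18605790771) (nat_lit 76) (nat_lit 5344018822) (nat_lit 6) (nat_lit 4) (nat_lit 7) (nat_lit 5) (nat_lit 7) (nat_lit 4) (nat_lit 405) (nat_lit 341) (nat_lit 274))))) (XT.nd (nat_lit 156) (nat_lit 0) (nat_lit 0) (XT.nd (nat_lit 78) (nat_lit 0) (nat_lit 0) (XT.lf (nat_lit 0) (nat_lit 1648597866) (nat_lit 76) (nat_lit 5522586461) (nat_lit 152) (nat_lit 142982486763) (nat_lit 4) (nat_lit 5) (nat_lit 5) (nat_lit 5) (nat_lit 6) (nat_lit 4) (nat_lit 406) (nat_lit 341) (nat_lit 273)) (XT.lf (nat_lit 0) (nat_lit 21265808930) (nat_lit 152) (nat_lit 130761723115) (nat_lit 0) (nat_lit 8976237284) (nat_lit 4) (nat_lit 5) (nat_lit 6) (nat_lit 4) (nat_lit 4) (nat_lit 4) (nat_lit 407) (nat_lit 341) (nat_lit 272))) (XT.nd (nat_lit 78) (nat_lit 0) (nat_lit 0) (XT.lf (nat_lit 0) (nat_lit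 36620407540) (nat_lit 152) (nat_lit 111764560535) (nat_lit 0) (nat_lit 24326316141) (nat_lit 4) (nat_lit 5) (nat_lit 6) (nat_lit 4) (nat_lit 4) (nat_lit 4) (nat_lit 408) (nat_lit 341) (nat_lit 271)) (XT.nd (nat_lit 78) (nat_lit 0) (nat_lit 0) (XT.lf (nat_lit 0) (nat_lit 53193152036) (nat_lit 152) (nat_lit 91268191369) (nat_lit 0) (nat_lit 40894875680) (nat_lit 4) (nat_lit 5) (nat_lit 6) (nat_lit 4) (nat_lit 4) (nat_lit 4) (nat_lit 409) (nat_lit 341) (nat_lit 270)) (XT.lf (nat_lit 0) (nat_lit 71082251273) (nat_lit 152) (nat_lit 69151155653) (nat_lit 0) (nat_lit 58780099958) (nat_lit 4) (nat_lit 5) (nat_lit 6) (nat_lit 4) (nat_lit 4) (nat_lit 4) (nat_lit 410) (nat_lit 341) (nat_lit 269))))))) (XT.nd (nat_lit 780) (nat_lit 152) (nat_lit 0) (XT.nd (nat_lit 390) (nat_lit 0) (nat_lit 0) (XT.nd (nat_lit 156) (nat_lit 76) (nat_lit 0) (XT.nd (nat_lit 78) (nat_lit 0) (nat_lit 0) (XT.lf (nat_lit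 0) (nat_lit 90393714729) (nat_lit 152) (nat_lit 45282389471) (nat_lit 0) (nat_lit 78087975487) (nat_lit 4) (nat_lit 5) (nat_lit 6) (nat_lit 4) (nat_lit 4) (nat_lit 4) (nat_lit 411) (nat_lit 341) (nat_lit 268)) (XT.lf (nat_lit 0) (nat_lit 111241980706) (nat_lit 152) (nat_lit 19520448282) (nat_lit 0) (nat_lit 98932919310) (nat_lit 4) (nat_lit 5) (nat_lit 6) (nat_lit 4) (nat_lit 4) (nat_lit 4) (nat_lit 412) (nat_lit 341) (nat_lit 267))) (XT.nd (nat_lit 78) (nat_lit 0) (nat_lit 0) (XT.lf (nat_lit 0) (nat_lit 8723727446) (nat_lit 76) (nat_lit 125236672891) (nat_lit 76) (nat_lit 112924535427) (nat_lit 3) (nat_lit 4) (nat_lit 4) (nat_lit 5) (nat_lit 4) (nat_lit 4) (nat_lit 413) (nat_lit 341) (nat_lit 266)) (XT.nd (nat_lit 78) (nat_lit 0) (nat_lit 0) (XT.lf (nat_lit 0) (nat_lit 40322848197) (nat_lit 76) (nat_lit 118699857709) (nat_lit 76) (nat_lit 106384872034) (nat_lit 3) (nat_lit 4) (nat_lit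 4) (nat_lit 5) (nat_lit 4) (nat_lit 4) (nat_lit 414) (nat_lit 341) (nat_lit 265)) (XT.lf (nat_lit 0) (nat_lit 74436255806) (nat_lit 76) (nat_lit 111646970409) (nat_lit 76) (nat_lit 99329347501) (nat_lit 3) (nat_lit 4) (nat_lit 4) (nat_lit 5) (nat_lit 4) (nat_lit 4) (nat_lit 415) (nat_lit 341) (nat_lit 264))))) (XT.nd (nat_lit 156) (nat_lit 0) (nat_lit 0) (XT.nd (nat_lit 78) (nat_lit 0) (nat_lit 0) (XT.lf (nat_lit 0) (nat_lit 111266103800) (nat_lit 76) (nat_lit 104036216103) (nat_lit 76) (nat_lit 91716151313) (nat_lit 3) (nat_lit 4) (nat_lit 4) (nat_lit 5) (nat_lit 4) (nat_lit 4) (nat_lit 416) (nat_lit 341) (nat_lit 263)) (XT.lf (nat_lit 0) (nat_lit 151030643129) (nat_lit 76) (nat_lit 95822494024) (nat_lit 76) (nat_lit 83500168232) (nat_lit 3) (nat_lit 4) (nat_lit 4) (nat_lit 5) (nat_lit 4) (nat_lit 4) (nat_lit 417) (nat_lit 341) (nat_lit 262))) (XT.nd (nat_lit 78) (nat_lit 0) (nat_lit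 0) (XT.lf (nat_lit 0) (nat_lit 193965515508) (nat_lit 76) (nat_lit 86957130265) (nat_lit 76) (nat_lit 74632710952) (nat_lit 3) (nat_lit 4) (nat_lit 4) (nat_lit 5) (nat_lit 4) (nat_lit 4) (nat_lit 418) (nat_lit 341) (nat_lit 261)) (XT.nd (nat_lit 78) (nat_lit 0) (nat_lit 0) (XT.lf (nat_lit 0) (nat_lit 240325149811) (nat_lit 76) (nat_lit 77387589336) (nat_lit 76) (nat_lit 65061231578) (nat_lit 3) (nat_lit 4) (nat_lit 4) (nat_lit 5) (nat_lit 4) (nat_lit 4) (nat_lit 419) (nat_lit 341) (nat_lit 260)) (XT.lf (nat_lit 0) (nat_lit 290384269797) (nat_lit 76) (nat_lit 67057162846) (nat_lit 76) (nat_lit 54729010232) (nat_lit 3) (nat_lit 4) (nat_lit 4) (nat_lit 5) (nat_lit 4) (nat_lit 4) (nat_lit 420) (nat_lit 341) (nat_lit 259)))))) (XT.nd (nat_lit 390) (nat_lit 0) (nat_lit 0) (XT.nd (nat_lit 156) (nat_lit 152) (nat_lit 0) (XT.nd (nat_lit 78) (nat_lit 0) (nat_lit 0) (XT.lf (nat_lit 0) (nat_lit 344439522101)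 (nat_lit 76) (nat_lit 55904633454) (nat_lit 76) (nat_lit 43574818936) (nat_lit 3) (nat_lit 4) (nat_lit 4) (nat_lit 5) (nat_lit 4) (nat_lit 4) (nat_lit 421) (nat_lit 341) (nat_lit 258)) (XT.lf (nat_lit 0) (nat_lit 402811234147) (nat_lit 76) (nat_lit 43863912096) (nat_lit 76) (nat_lit 31532558778) (nat_lit 3) (nat_lit 4) (nat_lit 4) (nat_lit 5) (nat_lit 4) (nat_lit 4) (nat_lit 422) (nat_lit 341) (nat_lit 257))) (XT.nd (nat_lit 78) (nat_lit 152) (nat_lit 0) (XT.lf (nat_lit 0) (nat_lit 465845312374) (nat_lit 76) (nat_lit 30863646349) (nat_lit 76) (nat_lit 18530868217) (nat_lit 3) (nat_lit 4) (nat_lit 4) (nat_lit 5) (nat_lit 4) (nat_lit 4) (nat_lit 423) (nat_lit 341) (nat_lit 256)) (XT.nd (nat_lit 78) (nat_lit 152) (nat_lit 0) (XT.lf (nat_lit 0) (nat_lit 533915292061) (nat_lit 76) (nat_lit 16826797602) (nat_lit 76) (nat_lit 4492700196) (nat_lit 3) (nat_lit 4) (nat_lit 4) (nat_lit 5) (nat_lit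 4) (nat_lit 4) (nat_lit 424) (nat_lit 341) (nat_lit 255)) (XT.lf (nat_lit 0) (nat_lit 9198604614) (nat_lit 76) (nat_lit 1154243255) (nat_lit 152) (nat_lit 588038535229) (nat_lit 1) (nat_lit 5) (nat_lit 2) (nat_lit 5) (nat_lit 3) (nat_lit 4) (nat_lit 425) (nat_lit 341) (nat_lit 254))))) (XT.nd (nat_lit 156) (nat_lit 0) (nat_lit 0) (XT.nd (nat_lit 78) (nat_lit 0) (nat_lit 0) (XT.lf (nat_lit 0) (nat_lit 27117482477) (nat_lit 152) (nat_lit 602100909307) (nat_lit 0) (nat_lit 15694843571) (nat_lit 1) (nat_lit 5) (nat_lit 3) (nat_lit 4) (nat_lit 1) (nat_lit 4) (nat_lit 426) (nat_lit 341) (nat_lit 253)) (XT.lf (nat_lit 0) (nat_lit 45250297826) (nat_lit 152) (nat_lit 616077688193) (nat_lit 0) (nat_lit 33826689215) (nat_lit 1) (nat_lit 5) (nat_lit 3) (nat_lit 4) (nat_lit 1) (nat_lit 4) (nat_lit 427) (nat_lit 341) (nat_lit 252))) (XT.nd (nat_lit 78) (nat_lit 0) (nat_lit 0) (XT.lf (nat_lit 0) (nat_lit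 64830988060) (nat_lit 152) (nat_lit 631178180918) (nat_lit 0) (nat_lit 53406481574) (nat_lit 1) (nat_lit 5) (nat_lit 3) (nat_lit 4) (nat_lit 1) (nat_lit 4) (nat_lit 428) (nat_lit 341) (nat_lit 251)) (XT.nd (nat_lit 78) (nat_lit 0) (nat_lit 0) (XT.lf (nat_lit 0) (nat_lit 85975586898) (nat_lit 152) (nat_lit 647491871886) (nat_lit 0) (nat_lit 74550249046) (nat_lit 1) (nat_lit 5) (nat_lit 3) (nat_lit 4) (nat_lit 1) (nat_lit 4) (nat_lit 429) (nat_lit 341) (nat_lit 250)) (XT.lf (nat_lit 0) (nat_lit 108809395666) (nat_lit 152) (nat_lit 665115434819) (nat_lit 0) (nat_lit 97383288031) (nat_lit 1) (nat_lit 5) (nat_lit 3) (nat_lit 4) (nat_lit 1) (nat_lit 4) (nat_lit 430) (nat_lit 341) (nat_lit 249))))))))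
noncomputable def xc99 : XT := (XT.nd (nat_lit 1482) (nat_lit 0) (nat_lit 0) (XT.nd (nat_lit 702) (nat_lit 0) (nat_lit 0) (XT.nd (nat_lit 312) (nat_lit 0) (nat_lit 0) (XT.nd (nat_lit 156) (nat_lit 0) (nat_lit 0) (XT.nd (nat_lit 78) (nat_lit 0) (nat_lit 0) (XT.lf (nat_lit 0) (nat_lit 133467725825) (nat_lit 152) (nat_lit 684153305646) (nat_lit 0) (nat_lit 122040905428) (nat_lit 1) (nat_lit 5) (nat_lit 3) (nat_lit 4) (nat_lit 1) (nat_lit 4) (nat_lit 431) (nat_lit 341) (nat_lit 248)) (XT.lf (nat_lit 0) (nat_lit 160096700811) (nat_lit 152) (nat_lit 704718301381) (nat_lit 0) (nat_lit 148669220449) (nat_lit 1) (nat_lit 5) (nat_lit 3) (nat_lit 4) (nat_lit 1) (nat_lit 4) (nat_lit 432) (nat_lit 341) (nat_lit 247))) (XT.nd (nat_lit 78) (nat_lit 0) (nat_lit 0) (XT.lf (nat_lit 0) (nat_lit 188854121959) (nat_lit 152) (nat_lit 726932288663) (nat_lit 0) (nat_lit 177426030519) (nat_lit 1) (nat_lit 5) (nat_lit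 3) (nat_lit 4) (nat_lit 1) (nat_lit 4) (nat_lit 433) (nat_lit 341) (nat_lit 246)) (XT.lf (nat_lit 0) (nat_lit 219910403616) (nat_lit 152) (nat_lit 750926905936) (nat_lit 0) (nat_lit 208481746362) (nat_lit 1) (nat_lit 5) (nat_lit 3) (nat_lit 4) (nat_lit 1) (nat_lit 4) (nat_lit 434) (nat_lit 341) (nat_lit 245)))) (XT.nd (nat_lit 156) (nat_lit 0) (nat_lit 0) (XT.nd (nat_lit 78) (nat_lit 0) (nat_lit 0) (XT.lf (nat_lit 0) (nat_lit 253449583006) (nat_lit 152) (nat_lit 776844343526) (nat_lit 0) (nat_lit 242020401850) (nat_lit 1) (nat_lit 5) (nat_lit 3) (nat_lit 4) (nat_lit 1) (nat_lit 4) (nat_lit 435) (nat_lit 341) (nat_lit 244)) (XT.lf (nat_lit 0) (nat_lit 289670410822) (nat_lit 152) (nat_lit 804838186246) (nat_lit 0) (nat_lit 278240744573) (nat_lit 1) (nat_lit 5) (nat_lit 3) (nat_lit 4) (nat_lit 1) (nat_lit 4) (nat_lit 436) (nat_lit 341) (nat_lit 243))) (XT.nd (nat_lit 78) (nat_lit 0) (nat_lit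 0) (XT.lf (nat_lit 0) (nat_lit 328787529007) (nat_lit 152) (nat_lit 835074323536) (nat_lit 0) (nat_lit 317357413597) (nat_lit 1) (nat_lit 5) (nat_lit 3) (nat_lit 4) (nat_lit 1) (nat_lit 4) (nat_lit 437) (nat_lit 341) (nat_lit 242)) (XT.nd (nat_lit 78) (nat_lit 0) (nat_lit 0) (XT.lf (nat_lit 0) (nat_lit 371032742706) (nat_lit 152) (nat_lit 867731932505) (nat_lit 0) (nat_lit 359602211406) (nat_lit 1) (nat_lit 5) (nat_lit 3) (nat_lit 4) (nat_lit 1) (nat_lit 4) (nat_lit 438) (nat_lit 341) (nat_lit 241)) (XT.lf (nat_lit 0) (nat_lit 416656393925) (nat_lit 152) (nat_lit 903004539725) (nat_lit 0) (nat_lit 405225477542) (nat_lit 1) (nat_lit 5) (nat_lit 3) (nat_lit 4) (nat_lit 1) (nat_lit 4) (nat_lit 439) (nat_lit 341) (nat_lit 240)))))) (XT.nd (nat_lit 390) (nat_lit 0) (nat_lit 0) (XT.nd (nat_lit 156) (nat_lit 0) (nat_lit 0) (XT.nd (nat_lit 78) (nat_lit 0) (nat_lit 0) (XT.lf (nat_lit 0) (nat_lit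 465928845043) (nat_lit 152) (nat_lit 941101168054) (nat_lit 0) (nat_lit 454497572100) (nat_lit 1) (nat_lit 5) (nat_lit 3) (nat_lit 4) (nat_lit 1) (nat_lit 4) (nat_lit 440) (nat_lit 341) (nat_lit 239)) (XT.lf (nat_lit 0) (nat_lit 519142080954) (nat_lit 152) (nat_lit 982247575289) (nat_lit 0) (nat_lit 507710477865) (nat_lit 1) (nat_lit 5) (nat_lit 3) (nat_lit 4) (nat_lit 1) (nat_lit 4) (nat_lit 441) (nat_lit 341) (nat_lit 238))) (XT.nd (nat_lit 78) (nat_lit 0) (nat_lit 0) (XT.lf (nat_lit 0) (nat_lit 576611439353) (nat_lit 152) (nat_lit 1026687591992) (nat_lit 0) (nat_lit 565179530573) (nat_lit 1) (nat_lit 5) (nat_lit 3) (nat_lit 4) (nat_lit 1) (nat_lit 4) (nat_lit 442) (nat_lit 341) (nat_lit 237)) (XT.nd (nat_lit 78) (nat_lit 0) (nat_lit 0) (XT.lf (nat_lit 0) (nat_lit 638677479401) (nat_lit 152) (nat_lit 1074684566409) (nat_lit 0) (nat_lit 627245287573) (nat_lit 1) (nat_lit 5) (nat_lit 3)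 (nat_lit 4) (nat_lit 1) (nat_lit 4) (nat_lit 443) (nat_lit 341) (nat_lit 236)) (XT.lf (nat_lit 0) (nat_lit 705707999854) (nat_lit 152) (nat_lit 1126522925055) (nat_lit 0) (nat_lit 694275545945) (nat_lit 1) (nat_lit 5) (nat_lit 3) (nat_lit 4) (nat_lit 1) (nat_lit 4) (nat_lit 444) (nat_lit 341) (nat_lit 235))))) (XT.nd (nat_lit 156) (nat_lit 0) (nat_lit 0) (XT.nd (nat_lit 78) (nat_lit 0) (nat_lit 0) (XT.lf (nat_lit 0) (nat_lit 778100218611) (nat_lit 152) (nat_lit 1182509858205) (nat_lit 0) (nat_lit 766667522034) (nat_lit 1) (nat_lit 5) (nat_lit 3) (nat_lit 4) (nat_lit 1) (nat_lit 4) (nat_lit 445) (nat_lit 341) (nat_lit 234)) (XT.lf (nat_lit 0) (nat_lit 856283126598) (nat_lit 152) (nat_lit 1242977140277) (nat_lit 0) (nat_lit 844850205328) (nat_lit 1) (nat_lit 5) (nat_lit 3) (nat_lit 4) (nat_lit 1) (nat_lit 4) (nat_lit 446) (nat_lit 341) (nat_lit 233))) (XT.nd (nat_lit 78) (nat_lit 0) (nat_lit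 0) (XT.lf (nat_lit 0) (nat_lit 940720029935) (nat_lit 152) (nat_lit 1308283095905) (nat_lit 0) (nat_lit 929286900617) (nat_lit 1) (nat_lit 5) (nat_lit 3) (nat_lit 4) (nat_lit 1) (nat_lit 4) (nat_lit 447) (nat_lit 341) (nat_lit 232)) (XT.nd (nat_lit 78) (nat_lit 0) (nat_lit 0) (XT.lf (nat_lit 0) (nat_lit 1031911295458) (nat_lit 152) (nat_lit 1378814723345) (nat_lit 0) (nat_lit 1020477973503) (nat_lit 1) (nat_lit 5) (nat_lit 3) (nat_lit 4) (nat_lit 1) (nat_lit 4) (nat_lit 448) (nat_lit 341) (nat_lit 231)) (XT.lf (nat_lit 0) (nat_lit 1130397315852) (nat_lit 152) (nat_lit 1454989987797) (nat_lit 0) (nat_lit 1118963815529) (nat_lit 1) (nat_lit 5) (nat_lit 3) (nat_lit 4) (nat_lit 1) (nat_lit 4) (nat_lit 449) (nat_lit 341) (nat_lit 230))))))) (XT.nd (nat_lit 44694) (nat_lit 0) (nat_lit 4864) (XT.nd (nat_lit 390) (nat_lit 0) (nat_lit 0) (XT.nd (nat_lit 156) (nat_lit 0) (nat_lit 0) (XT.nd (nat_lit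 78) (nat_lit 0) (nat_lit 0) (XT.lf (nat_lit 0) (nat_lit 1236761711977) (nat_lit 152) (nat_lit 1537260298235) (nat_lit 0) (nat_lit 1225328046499) (nat_lit 1) (nat_lit 5) (nat_lit 3) (nat_lit 4) (nat_lit 1) (nat_lit 4) (nat_lit 450) (nat_lit 341) (nat_lit 229)) (XT.lf (nat_lit 0) (nat_lit 1351634791367) (nat_lit 152) (nat_lit 1626113182424) (nat_lit 0) (nat_lit 1340200972967) (nat_lit 1) (nat_lit 5) (nat_lit 3) (nat_lit 4) (nat_lit 1) (nat_lit 4) (nat_lit 451) (nat_lit 341) (nat_lit 228))) (XT.nd (nat_lit 78) (nat_lit 0) (nat_lit 0) (XT.lf (nat_lit 0) (nat_lit 1475697283381) (nat_lit 152) (nat_lit 1722075175975) (nat_lit 0) (nat_lit 1464263323386) (nat_lit 1) (nat_lit 5) (nat_lit 3) (nat_lit 4) (nat_lit 1) (nat_lit 4) (nat_lit 452) (nat_lit 341) (nat_lit 227)) (XT.nd (nat_lit 78) (nat_lit 0) (nat_lit 0) (XT.lf (nat_lit 0) (nat_lit 1609684373157) (nat_lit 152) (nat_lit 1825714942553) (nat_lit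 0) (nat_lit 1598250282056) (nat_lit 1) (nat_lit 5) (nat_lit 3) (nat_lit 4) (nat_lit 1) (nat_lit 4) (nat_lit 453) (nat_lit 341) (nat_lit 226)) (XT.lf (nat_lit 0) (nat_lit 1754390058263) (nat_lit 152) (nat_lit 1937646643738) (nat_lit 0) (nat_lit 1742955845768) (nat_lit 1) (nat_lit 5) (nat_lit 3) (nat_lit 4) (nat_lit 1) (nat_lit 4) (nat_lit 454) (nat_lit 341) (nat_lit 225))))) (XT.nd (nat_lit 156) (nat_lit 0) (nat_lit 0) (XT.nd (nat_lit 78) (nat_lit 0) (nat_lit 0) (XT.lf (nat_lit 0) (nat_lit 1910671853871) (nat_lit 152) (nat_lit 2058533578499) (nat_lit 0) (nat_lit 1899237528974) (nat_lit 1) (nat_lit 5) (nat_lit 3) (nat_lit 4) (nat_lit 1) (nat_lit 4) (nat_lit 455) (nat_lit 341) (nat_lit 224)) (XT.lf (nat_lit 0) (nat_lit 2079455874325) (nat_lit 152) (nat_lit 2189092113859) (nat_lit 0) (nat_lit 2068021445352) (nat_lit 1) (nat_lit 5) (nat_lit 3) (nat_lit 4) (nat_lit 1) (nat_lit 4) (nat_lit 456)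 (nat_lit 341) (nat_lit 223))) (XT.nd (nat_lit 78) (nat_lit 0) (nat_lit 0) (XT.lf (nat_lit 0) (nat_lit 2261742321228) (nat_lit 152) (nat_lit 2330095930025) (nat_lit 0) (nat_lit 2250307795888) (nat_lit 1) (nat_lit 5) (nat_lit 3) (nat_lit 4) (nat_lit 1) (nat_lit 4) (nat_lit 457) (nat_lit 341) (nat_lit 222)) (XT.nd (nat_lit 78) (nat_lit 0) (nat_lit 0) (XT.lf (nat_lit 0) (nat_lit 2458611410561) (nat_lit 152) (nat_lit 2482380605169) (nat_lit 0) (nat_lit 2447176795993) (nat_lit 1) (nat_lit 5) (nat_lit 3) (nat_lit 4) (nat_lit 1) (nat_lit 4) (nat_lit 458) (nat_lit 341) (nat_lit 221)) (XT.lf (nat_lit 0) (nat_lit 2671229773965) (nat_lit 152) (nat_lit 2646848566994) (nat_lit 0) (nat_lit 2659795076778) (nat_lit 1) (nat_lit 5) (nat_lit 3) (nat_lit 4) (nat_lit 1) (nat_lit 4) (nat_lit 459) (nat_lit 341) (nat_lit 220)))))) (XT.nd (nat_lit 390) (nat_lit 684) (nat_lit 0) (XT.nd (nat_lit 156) (nat_lit 304)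 (nat_lit 0) (XT.nd (nat_lit 78) (nat_lit 228) (nat_lit 0) (XT.lf (nat_lit 0) (nat_lit 2368669564) (nat_lit 228) (nat_lit 454590437) (nat_lit 228) (nat_lit 454590437) (nat_lit 81) (nat_lit 3) (nat_lit 84) (nat_lit 3) (nat_lit 84) (nat_lit 5) (nat_lit 342) (nat_lit 342) (nat_lit 336)) (XT.lf (nat_lit 0) (nat_lit 635278286) (nat_lit 228) (nat_lit 4242945661) (nat_lit 304) (nat_lit 1744633403) (nat_lit 78) (nat_lit 5) (nat_lit 81) (nat_lit 3) (nat_lit 82) (nat_lit 5) (nat_lit 343) (nat_lit 342) (nat_lit 335))) (XT.nd (nat_lit 78) (nat_lit 304) (nat_lit 0) (XT.lf (nat_lit 0) (nat_lit 2971853587) (nat_lit 228) (nat_lit 902040720) (nat_lit 304) (nat_lit 2835340003) (nat_lit 78) (nat_lit 5) (nat_lit 81) (nat_lit 3) (nat_lit 82) (nat_lit 5) (nat_lit 344) (nat_lit 342) (nat_lit 334)) (XT.nd (nat_lit 78) (nat_lit 304) (nat_lit 0) (XT.lf (nat_lit 76) (nat_lit 2707693056) (nat_lit 0) (nat_lit 2629984282)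 (nat_lit 304) (nat_lit 1477844415) (nat_lit 79) (nat_lit 5) (nat_lit 78) (nat_lit 5) (nat_lit 82) (nat_lit 5) (nat_lit 345) (nat_lit 342) (nat_lit 333)) (XT.lf (nat_lit 0) (nat_lit 724400720) (nat_lit 304) (nat_lit 436788756) (nat_lit 380) (nat_lit 5782794642) (nat_lit 74) (nat_lit 5) (nat_lit 78) (nat_lit 5) (nat_lit 79) (nat_lit 5) (nat_lit 346) (nat_lit 342) (nat_lit 332))))) (XT.nd (nat_lit 156) (nat_lit 456) (nat_lit 0) (XT.nd (nat_lit 78) (nat_lit 304) (nat_lit 0) (XT.lf (nat_lit 0) (nat_lit 2923778951) (nat_lit 304) (nat_lit 3569421439) (nat_lit 76) (nat_lit 594695114) (nat_lit 75) (nat_lit 5) (nat_lit 79) (nat_lit 5) (nat_lit 76) (nat_lit 5) (nat_lit 347) (nat_lit 342) (nat_lit 331)) (XT.lf (nat_lit 0) (nat_lit 418054619) (nat_lit 304) (nat_lit 4747351076) (nat_lit 380) (nat_lit 2088894057) (nat_lit 71) (nat_lit 5) (nat_lit 75) (nat_lit 5) (nat_lit 76) (nat_lit 5) (nat_lit 348)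 (nat_lit 342) (nat_lit 330))) (XT.nd (nat_lit 78) (nat_lit 380) (nat_lit 0) (XT.lf (nat_lit 0) (nat_lit 64260522) (nat_lit 380) (nat_lit 2655985661) (nat_lit 76) (nat_lit 4720157542) (nat_lit 70) (nat_lit 5) (nat_lit 75) (nat_lit 5) (nat_lit 71) (nat_lit 5) (nat_lit 349) (nat_lit 342) (nat_lit 329)) (XT.nd (nat_lit 78) (nat_lit 0) (nat_lit 0) (XT.lf (nat_lit 0) (nat_lit 1752178516) (nat_lit 380) (nat_lit 399557718) (nat_lit 456) (nat_lit 5495550658) (nat_lit 65) (nat_lit 5) (nat_lit 70) (nat_lit 5) (nat_lit 71) (nat_lit 5) (nat_lit 350) (nat_lit 342) (nat_lit 328)) (XT.lf (nat_lit 0) (nat_lit 4373796842) (nat_lit 456) (nat_lit 1403169934) (nat_lit 76) (nat_lit 2096555596) (nat_lit 65) (nat_lit 5) (nat_lit 71) (nat_lit 5) (nat_lit 66) (nat_lit 5) (nat_lit 351) (nat_lit 342) (nat_lit 327))))))))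
noncomputable def xc100 : XT := (XT.nd (nat_lit 1482) (nat_lit 1064) (nat_lit 0) (XT.nd (nat_lit 702) (nat_lit 1064) (nat_lit 0) (XT.nd (nat_lit 312) (nat_lit 684) (nat_lit 0) (XT.nd (nat_lit 156) (nat_lit 228) (nat_lit 0) (XT.nd (nat_lit 78) (nat_lit 456) (nat_lit 0) (XT.lf (nat_lit 0) (nat_lit 3472813751) (nat_lit 456) (nat_lit 3248794050) (nat_lit 532) (nat_lit 1400603206) (nat_lit 59) (nat_lit 5) (nat_lit 65) (nat_lit 5) (nat_lit 66) (nat_lit 5) (nat_lit 352) (nat_lit 342) (nat_lit 326)) (XT.lf (nat_lit 0) (nat_lit 280344490) (nat_lit 380) (nat_lit 446745821) (nat_lit 456) (nat_lit 7669884199) (nat_lit 53) (nat_lit 5) (nat_lit 58) (nat_lit 5) (nat_lit 59) (nat_lit 5) (nat_lit 353) (nat_lit 342) (nat_lit 325))) (XT.nd (nat_lit 78) (nat_lit 228) (nat_lit 0) (XT.lf (nat_lit 0) (nat_lit 3006750068) (nat_lit 456) (nat_lit 3066412176) (nat_lit 76) (nat_lit 2613206262) (nat_lit 53) (nat_lit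 5) (nat_lit 59) (nat_lit 5) (nat_lit 54) (nat_lit 5) (nat_lit 354) (nat_lit 342) (nat_lit 324)) (XT.lf (nat_lit 0) (nat_lit 2355118537) (nat_lit 228) (nat_lit 3056870392) (nat_lit 304) (nat_lit 3591610561) (nat_lit 50) (nat_lit 5) (nat_lit 53) (nat_lit 5) (nat_lit 54) (nat_lit 5) (nat_lit 355) (nat_lit 342) (nat_lit 323)))) (XT.nd (nat_lit 156) (nat_lit 380) (nat_lit 0) (XT.nd (nat_lit 78) (nat_lit 304) (nat_lit 0) (XT.lf (nat_lit 0) (nat_lit 7981067285) (nat_lit 304) (nat_lit 1106402535) (nat_lit 76) (nat_lit 261156962) (nat_lit 50) (nat_lit 5) (nat_lit 54) (nat_lit 5) (nat_lit 51) (nat_lit 5) (nat_lit 356) (nat_lit 342) (nat_lit 322)) (XT.lf (nat_lit 0) (nat_lit 1071751232) (nat_lit 304) (nat_lit 4830167033) (nat_lit 76) (nat_lit 3810333980) (nat_lit 46) (nat_lit 5) (nat_lit 50) (nat_lit 5) (nat_lit 47) (nat_lit 5) (nat_lit 357) (nat_lit 342) (nat_lit 321))) (XT.nd (nat_lit 78) (nat_lit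 228) (nat_lit 0) (XT.lf (nat_lit 0) (nat_lit 1197248854) (nat_lit 152) (nat_lit 2386528586) (nat_lit 228) (nat_lit 6522336632) (nat_lit 44) (nat_lit 5) (nat_lit 46) (nat_lit 5) (nat_lit 47) (nat_lit 5) (nat_lit 358) (nat_lit 342) (nat_lit 320)) (XT.nd (nat_lit 78) (nat_lit 228) (nat_lit 0) (XT.lf (nat_lit 0) (nat_lit 6361922996) (nat_lit 228) (nat_lit 2717292555) (nat_lit 76) (nat_lit 1447153340) (nat_lit 44) (nat_lit 5) (nat_lit 47) (nat_lit 5) (nat_lit 45) (nat_lit 5) (nat_lit 359) (nat_lit 342) (nat_lit 319)) (XT.lf (nat_lit 0) (nat_lit 3976361689) (nat_lit 228) (nat_lit 5447049061) (nat_lit 304) (nat_lit 1552035569) (nat_lit 41) (nat_lit 5) (nat_lit 44) (nat_lit 5) (nat_lit 45) (nat_lit 5) (nat_lit 360) (nat_lit 342) (nat_lit 318)))))) (XT.nd (nat_lit 390) (nat_lit 456) (nat_lit 0) (XT.nd (nat_lit 156) (nat_lit 380) (nat_lit 0) (XT.nd (nat_lit 78) (nat_lit 152) (nat_lit 0) (XT.lf (nat_lit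 0) (nat_lit 1187184697) (nat_lit 304) (nat_lit 258870471) (nat_lit 76) (nat_lit 10013523932) (nat_lit 40) (nat_lit 5) (nat_lit 44) (nat_lit 5) (nat_lit 41) (nat_lit 5) (nat_lit 361) (nat_lit 342) (nat_lit 317)) (XT.lf (nat_lit 0) (nat_lit 4221311627) (nat_lit 228) (nat_lit 4827098260) (nat_lit 76) (nat_lit 2918109088) (nat_lit 38) (nat_lit 5) (nat_lit 41) (nat_lit 5) (nat_lit 39) (nat_lit 5) (nat_lit 362) (nat_lit 342) (nat_lit 316))) (XT.nd (nat_lit 78) (nat_lit 228) (nat_lit 0) (XT.lf (nat_lit 0) (nat_lit 2598020931) (nat_lit 152) (nat_lit 4922380449) (nat_lit 228) (nat_lit 4991899809) (nat_lit 36) (nat_lit 5) (nat_lit 38) (nat_lit 5) (nat_lit 39) (nat_lit 5) (nat_lit 363) (nat_lit 342) (nat_lit 315)) (XT.nd (nat_lit 78) (nat_lit 228) (nat_lit 0) (XT.lf (nat_lit 0) (nat_lit 10769788330) (nat_lit 152) (nat_lit 363910223) (nat_lit 228) (nat_lit 1964085899) (nat_lit 36) (nat_lit 5) (nat_lit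 38) (nat_lit 5) (nat_lit 39) (nat_lit 5) (nat_lit 364) (nat_lit 342) (nat_lit 314)) (XT.lf (nat_lit 0) (nat_lit 1420964008) (nat_lit 228) (nat_lit 7817737965) (nat_lit 76) (nat_lit 4474516756) (nat_lit 33) (nat_lit 5) (nat_lit 36) (nat_lit 5) (nat_lit 34) (nat_lit 5) (nat_lit 365) (nat_lit 342) (nat_lit 313))))) (XT.nd (nat_lit 156) (nat_lit 304) (nat_lit 0) (XT.nd (nat_lit 78) (nat_lit 0) (nat_lit 0) (XT.lf (nat_lit 0) (nat_lit 373910870) (nat_lit 152) (nat_lit 4604940879) (nat_lit 228) (nat_lit 9394351479) (nat_lit 31) (nat_lit 5) (nat_lit 33) (nat_lit 5) (nat_lit 34) (nat_lit 5) (nat_lit 366) (nat_lit 342) (nat_lit 312)) (XT.lf (nat_lit 0) (nat_lit 8976444640) (nat_lit 228) (nat_lit 5539473642) (nat_lit 76) (nat_lit 557707030) (nat_lit 31) (nat_lit 5) (nat_lit 34) (nat_lit 5) (nat_lit 32) (nat_lit 4) (nat_lit 367) (nat_lit 342) (nat_lit 311))) (XT.nd (nat_lit 78) (nat_lit 228) (nat_lit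 0) (XT.lf (nat_lit 0) (nat_lit 3542783059) (nat_lit 76) (nat_lit 9887507052) (nat_lit 152) (nat_lit 2388916882) (nat_lit 30) (nat_lit 5) (nat_lit 31) (nat_lit 5) (nat_lit 32) (nat_lit 4) (nat_lit 368) (nat_lit 342) (nat_lit 310)) (XT.nd (nat_lit 78) (nat_lit 152) (nat_lit 0) (XT.lf (nat_lit 0) (nat_lit 1622884914) (nat_lit 152) (nat_lit 3101190229) (nat_lit 76) (nat_lit 11890269099) (nat_lit 29) (nat_lit 5) (nat_lit 31) (nat_lit 5) (nat_lit 30) (nat_lit 5) (nat_lit 369) (nat_lit 342) (nat_lit 309)) (XT.lf (nat_lit 0) (nat_lit 5957522988) (nat_lit 228) (nat_lit 10493828346) (nat_lit 76) (nat_lit 1006333594) (nat_lit 27) (nat_lit 5) (nat_lit 30) (nat_lit 5) (nat_lit 28) (nat_lit 4) (nat_lit 370) (nat_lit 342) (nat_lit 308))))))) (XT.nd (nat_lit 702) (nat_lit 456) (nat_lit 0) (XT.nd (nat_lit 312) (nat_lit 304) (nat_lit 0) (XT.nd (nat_lit 156) (nat_lit 228) (nat_lit 0) (XT.nd (nat_lit 78)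 (nat_lit 76) (nat_lit 0) (XT.lf (nat_lit 0) (nat_lit 10787168601) (nat_lit 228) (nat_lit 581751179) (nat_lit 76) (nat_lit 6987744632) (nat_lit 27) (nat_lit 5) (nat_lit 30) (nat_lit 5) (nat_lit 28) (nat_lit 4) (nat_lit 371) (nat_lit 342) (nat_lit 307)) (XT.lf (nat_lit 0) (nat_lit 10553429866) (nat_lit 76) (nat_lit 5646657731) (nat_lit 152) (nat_lit 3111750722) (nat_lit 26) (nat_lit 5) (nat_lit 27) (nat_lit 5) (nat_lit 28) (nat_lit 4) (nat_lit 372) (nat_lit 342) (nat_lit 306))) (XT.nd (nat_lit 78) (nat_lit 0) (nat_lit 0) (XT.lf (nat_lit 0) (nat_lit 1645974212) (nat_lit 228) (nat_lit 18110892665) (nat_lit 76) (nat_lit 581025060) (nat_lit 23) (nat_lit 5) (nat_lit 26) (nat_lit 5) (nat_lit 24) (nat_lit 4) (nat_lit 373) (nat_lit 342) (nat_lit 305)) (XT.lf (nat_lit 0) (nat_lit 6953004242) (nat_lit 228) (nat_lit 7170459683) (nat_lit 76) (nat_lit 7289178134) (nat_lit 23) (nat_lit 5) (nat_lit 26)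 (nat_lit 5) (nat_lit 24) (nat_lit 4) (nat_lit 374) (nat_lit 342) (nat_lit 304)))) (XT.nd (nat_lit 156) (nat_lit 228) (nat_lit 0) (XT.nd (nat_lit 78) (nat_lit 0) (nat_lit 0) (XT.lf (nat_lit 0) (nat_lit 4793113710) (nat_lit 76) (nat_lit 7955318215) (nat_lit 152) (nat_lit 9819854180) (nat_lit 22) (nat_lit 5) (nat_lit 23) (nat_lit 5) (nat_lit 24) (nat_lit 4) (nat_lit 375) (nat_lit 342) (nat_lit 303)) (XT.lf (nat_lit 0) (nat_lit 18032023886) (nat_lit 76) (nat_lit 1121740650) (nat_lit 152) (nat_lit 4650934675) (nat_lit 22) (nat_lit 5) (nat_lit 23) (nat_lit 5) (nat_lit 24) (nat_lit 4) (nat_lit 376) (nat_lit 342) (nat_lit 302))) (XT.nd (nat_lit 78) (nat_lit 76) (nat_lit 0) (XT.lf (nat_lit 0) (nat_lit 1171728571) (nat_lit 152) (nat_lit 17827390059) (nat_lit 76) (nat_lit 6116184788) (nat_lit 20) (nat_lit 5) (nat_lit 22) (nat_lit 5) (nat_lit 21) (nat_lit 4) (nat_lit 377) (nat_lit 342) (nat_lit 301))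 (XT.nd (nat_lit 78) (nat_lit 76) (nat_lit 0) (XT.lf (nat_lit 0) (nat_lit 7353297164) (nat_lit 152) (nat_lit 5036553496) (nat_lit 76) (nat_lit 14119707174) (nat_lit 20) (nat_lit 5) (nat_lit 22) (nat_lit 5) (nat_lit 21) (nat_lit 4) (nat_lit 378) (nat_lit 342) (nat_lit 300)) (XT.lf (nat_lit 0) (nat_lit 9155906815) (nat_lit 76) (nat_lit 5050436666) (nat_lit 152) (nat_lit 13794867053) (nat_lit 19) (nat_lit 5) (nat_lit 20) (nat_lit 5) (nat_lit 21) (nat_lit 4) (nat_lit 379) (nat_lit 342) (nat_lit 299)))))) (XT.nd (nat_lit 390) (nat_lit 228) (nat_lit 0) (XT.nd (nat_lit 156) (nat_lit 152) (nat_lit 0) (XT.nd (nat_lit 78) (nat_lit 76) (nat_lit 0) (XT.lf (nat_lit 0) (nat_lit 21775319011) (nat_lit 152) (nat_lit 4983878105) (nat_lit 0) (nat_lit 2839596559) (nat_lit 19) (nat_lit 5) (nat_lit 21) (nat_lit 4) (nat_lit 19) (nat_lit 4) (nat_lit 380) (nat_lit 342) (nat_lit 298)) (XT.lf (nat_lit 0) (nat_lit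 10296123434) (nat_lit 76) (nat_lit 19992888893) (nat_lit 76) (nat_lit 1008047255) (nat_lit 18) (nat_lit 4) (nat_lit 19) (nat_lit 5) (nat_lit 19) (nat_lit 4) (nat_lit 381) (nat_lit 342) (nat_lit 297))) (XT.nd (nat_lit 78) (nat_lit 76) (nat_lit 0) (XT.lf (nat_lit 0) (nat_lit 6135221536) (nat_lit 152) (nat_lit 6269061572) (nat_lit 76) (nat_lit 20706660328) (nat_lit 17) (nat_lit 5) (nat_lit 19) (nat_lit 5) (nat_lit 18) (nat_lit 4) (nat_lit 382) (nat_lit 342) (nat_lit 296)) (XT.nd (nat_lit 78) (nat_lit 0) (nat_lit 0) (XT.lf (nat_lit 0) (nat_lit 10048963327) (nat_lit 76) (nat_lit 3951708537) (nat_lit 152) (nat_lit 21050766629) (nat_lit 16) (nat_lit 5) (nat_lit 17) (nat_lit 5) (nat_lit 18) (nat_lit 4) (nat_lit 383) (nat_lit 342) (nat_lit 295)) (XT.lf (nat_lit 0) (nat_lit 22759553850) (nat_lit 152) (nat_lit 9302704020) (nat_lit 0) (nat_lit 5063788529) (nat_lit 16) (nat_lit 5) (nat_lit 18) (nat_lit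 4) (nat_lit 16) (nat_lit 4) (nat_lit 384) (nat_lit 342) (nat_lit 294))))) (XT.nd (nat_lit 156) (nat_lit 76) (nat_lit 0) (XT.nd (nat_lit 78) (nat_lit 76) (nat_lit 0) (XT.lf (nat_lit 0) (nat_lit 7880511096) (nat_lit 76) (nat_lit 24597310534) (nat_lit 76) (nat_lit 6868115519) (nat_lit 15) (nat_lit 4) (nat_lit 16) (nat_lit 5) (nat_lit 16) (nat_lit 4) (nat_lit 385) (nat_lit 342) (nat_lit 293)) (XT.lf (nat_lit 0) (nat_lit 1396187792) (nat_lit 152) (nat_lit 14856077825) (nat_lit 76) (nat_lit 25470586442) (nat_lit 14) (nat_lit 5) (nat_lit 16) (nat_lit 5) (nat_lit 15) (nat_lit 4) (nat_lit 386) (nat_lit 342) (nat_lit 292))) (XT.nd (nat_lit 78) (nat_lit 0) (nat_lit 0) (XT.lf (nat_lit 0) (nat_lit 2993900018) (nat_lit 76) (nat_lit 6997787013) (nat_lit 152) (nat_lit 34280679594) (nat_lit 13) (nat_lit 5) (nat_lit 14) (nat_lit 5) (nat_lit 15) (nat_lit 4) (nat_lit 387) (nat_lit 342) (nat_lit 291)) (XT.nd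 (nat_lit 78) (nat_lit 0) (nat_lit 0) (XT.lf (nat_lit 0) (nat_lit 19732973078) (nat_lit 152) (nat_lit 24018941776) (nat_lit 0) (nat_lit 3237281804) (nat_lit 13) (nat_lit 5) (nat_lit 15) (nat_lit 4) (nat_lit 13) (nat_lit 4) (nat_lit 388) (nat_lit 342) (nat_lit 290)) (XT.lf (nat_lit 0) (nat_lit 30406920695) (nat_lit 152) (nat_lit 5615711572) (nat_lit 0) (nat_lit 13888477733) (nat_lit 13) (nat_lit 5) (nat_lit 15) (nat_lit 4) (nat_lit 13) (nat_lit 4) (nat_lit 389) (nat_lit 342) (nat_lit 289))))))))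
noncomputable def xc101 : XT := (XT.nd (nat_lit 1482) (nat_lit 228) (nat_lit 0) (XT.nd (nat_lit 702) (nat_lit 304) (nat_lit 0) (XT.nd (nat_lit 312) (nat_lit 152) (nat_lit 0) (XT.nd (nat_lit 156) (nat_lit 152) (nat_lit 0) (XT.nd (nat_lit 78) (nat_lit 0) (nat_lit 0) (XT.lf (nat_lit 0) (nat_lit 14956775618) (nat_lit 76) (nat_lit 27311421155) (nat_lit 76) (nat_lit 10771911815) (nat_lit 12) (nat_lit 4) (nat_lit 13) (nat_lit 5) (nat_lit 13) (nat_lit 4) (nat_lit 390) (nat_lit 342) (nat_lit 288)) (XT.lf (nat_lit 0) (nat_lit 37444528558) (nat_lit 76) (nat_lit 17761839549) (nat_lit 76) (nat_lit 1202824305) (nat_lit 12) (nat_lit 4) (nat_lit 13) (nat_lit 5) (nat_lit 13) (nat_lit 4) (nat_lit 391) (nat_lit 342) (nat_lit 287))) (XT.nd (nat_lit 78) (nat_lit 0) (nat_lit 0) (XT.lf (nat_lit 0) (nat_lit 1490973952) (nat_lit 76) (nat_lit 7195588653) (nat_lit 152) (nat_lit 51342748350) (nat_lit 10) (nat_lit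 5) (nat_lit 11) (nat_lit 5) (nat_lit 12) (nat_lit 4) (nat_lit 392) (nat_lit 342) (nat_lit 286)) (XT.lf (nat_lit 0) (nat_lit 19911369248) (nat_lit 152) (nat_lit 39429693829) (nat_lit 0) (nat_lit 4546740140) (nat_lit 10) (nat_lit 5) (nat_lit 12) (nat_lit 4) (nat_lit 10) (nat_lit 4) (nat_lit 393) (nat_lit 342) (nat_lit 285)))) (XT.nd (nat_lit 156) (nat_lit 76) (nat_lit 0) (XT.nd (nat_lit 78) (nat_lit 76) (nat_lit 0) (XT.lf (nat_lit 0) (nat_lit 32198709546) (nat_lit 152) (nat_lit 19023361900) (nat_lit 0) (nat_lit 16819743016) (nat_lit 10) (nat_lit 5) (nat_lit 12) (nat_lit 4) (nat_lit 10) (nat_lit 4) (nat_lit 394) (nat_lit 342) (nat_lit 284)) (XT.lf (nat_lit 0) (nat_lit 3131278506) (nat_lit 76) (nat_lit 42392372103) (nat_lit 76) (nat_lit 27000130182) (nat_lit 9) (nat_lit 4) (nat_lit 10) (nat_lit 5) (nat_lit 10) (nat_lit 4) (nat_lit 395) (nat_lit 342) (nat_lit 283))) (XT.nd (nat_lit 78) (nat_lit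 76) (nat_lit 0) (XT.lf (nat_lit 0) (nat_lit 28100362140) (nat_lit 76) (nat_lit 32314239063) (nat_lit 76) (nat_lit 16909705112) (nat_lit 9) (nat_lit 4) (nat_lit 10) (nat_lit 5) (nat_lit 10) (nat_lit 4) (nat_lit 396) (nat_lit 342) (nat_lit 282)) (XT.nd (nat_lit 78) (nat_lit 76) (nat_lit 0) (XT.lf (nat_lit 0) (nat_lit 55030117416) (nat_lit 76) (nat_lit 21448082481) (nat_lit 76) (nat_lit 6032167022) (nat_lit 9) (nat_lit 4) (nat_lit 10) (nat_lit 5) (nat_lit 10) (nat_lit 4) (nat_lit 397) (nat_lit 342) (nat_lit 281)) (XT.lf (nat_lit 0) (nat_lit 5411959382) (nat_lit 152) (nat_lit 4169578377) (nat_lit 76) (nat_lit 78520196126) (nat_lit 8) (nat_lit 5) (nat_lit 10) (nat_lit 5) (nat_lit 9) (nat_lit 4) (nat_lit 398) (nat_lit 342) (nat_lit 280)))))) (XT.nd (nat_lit 390) (nat_lit 152) (nat_lit 0) (XT.nd (nat_lit 156) (nat_lit 76) (nat_lit 0) (XT.nd (nat_lit 78) (nat_lit 0) (nat_lit 0) (XT.lf (nat_lit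 0) (nat_lit 18051499583) (nat_lit 152) (nat_lit 72269205314) (nat_lit 0) (nat_lit 3758710971) (nat_lit 7) (nat_lit 5) (nat_lit 9) (nat_lit 4) (nat_lit 7) (nat_lit 4) (nat_lit 399) (nat_lit 342) (nat_lit 279)) (XT.lf (nat_lit 0) (nat_lit 32051726553) (nat_lit 152) (nat_lit 50705053841) (nat_lit 0) (nat_lit 17750572193) (nat_lit 7) (nat_lit 5) (nat_lit 9) (nat_lit 4) (nat_lit 7) (nat_lit 4) (nat_lit 400) (nat_lit 342) (nat_lit 278))) (XT.nd (nat_lit 78) (nat_lit 76) (nat_lit 0) (XT.lf (nat_lit 0) (nat_lit 47156867649) (nat_lit 152) (nat_lit 27445899599) (nat_lit 0) (nat_lit 32847967226) (nat_lit 7) (nat_lit 5) (nat_lit 9) (nat_lit 4) (nat_lit 7) (nat_lit 4) (nat_lit 401) (nat_lit 342) (nat_lit 277)) (XT.nd (nat_lit 78) (nat_lit 76) (nat_lit 0) (XT.lf (nat_lit 0) (nat_lit 63456434818) (nat_lit 152) (nat_lit 2353910562) (nat_lit 0) (nat_lit 49140362114) (nat_lit 7) (nat_lit 5) (nat_lit 9)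 (nat_lit 4) (nat_lit 7) (nat_lit 4) (nat_lit 402) (nat_lit 342) (nat_lit 276)) (XT.lf (nat_lit 0) (nat_lit 26021297209) (nat_lit 76) (nat_lit 55651533701) (nat_lit 76) (nat_lit 41328819997) (nat_lit 6) (nat_lit 4) (nat_lit 7) (nat_lit 5) (nat_lit 7) (nat_lit 4) (nat_lit 403) (nat_lit 342) (nat_lit 275))))) (XT.nd (nat_lit 156) (nat_lit 152) (nat_lit 0) (XT.nd (nat_lit 78) (nat_lit 0) (nat_lit 0) (XT.lf (nat_lit 0) (nat_lit 56775213473) (nat_lit 76) (nat_lit 44623089727) (nat_lit 76) (nat_lit 30294226947) (nat_lit 6) (nat_lit 4) (nat_lit 7) (nat_lit 5) (nat_lit 7) (nat_lit 4) (nat_lit 404) (nat_lit 342) (nat_lit 274)) (XT.lf (nat_lit 0) (nat_lit 89966130899) (nat_lit 76) (nat_lit 32724019801) (nat_lit 76) (nat_lit 18389463434) (nat_lit 6) (nat_lit 4) (nat_lit 7) (nat_lit 5) (nat_lit 7) (nat_lit 4) (nat_lit 405) (nat_lit 342) (nat_lit 273))) (XT.nd (nat_lit 78) (nat_lit 152) (nat_lit 0)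 (XT.lf (nat_lit 0) (nat_lit 125790736407) (nat_lit 76) (nat_lit 19883810917) (nat_lit 76) (nat_lit 5543982709) (nat_lit 6) (nat_lit 4) (nat_lit 7) (nat_lit 5) (nat_lit 7) (nat_lit 4) (nat_lit 406) (nat_lit 342) (nat_lit 272)) (XT.nd (nat_lit 78) (nat_lit 0) (nat_lit 0) (XT.lf (nat_lit 0) (nat_lit 2202063588) (nat_lit 76) (nat_lit 5753115800) (nat_lit 152) (nat_lit 154193939649) (nat_lit 4) (nat_lit 5) (nat_lit 5) (nat_lit 5) (nat_lit 6) (nat_lit 4) (nat_lit 407) (nat_lit 342) (nat_lit 271)) (XT.lf (nat_lit 0) (nat_lit 23166501001) (nat_lit 152) (nat_lit 140821417999) (nat_lit 0) (nat_lit 9880177580) (nat_lit 4) (nat_lit 5) (nat_lit 6) (nat_lit 4) (nat_lit 4) (nat_lit 4) (nat_lit 408) (nat_lit 342) (nat_lit 270))))))) (XT.nd (nat_lit 780) (nat_lit 152) (nat_lit 0) (XT.nd (nat_lit 390) (nat_lit 76) (nat_lit 0) (XT.nd (nat_lit 156) (nat_lit 0) (nat_lit 0) (XT.nd (nat_lit 78) (nat_lit 0) (nat_lit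 0) (XT.lf (nat_lit 0) (nat_lit 39734695104) (nat_lit 152) (nat_lit 120334204114) (nat_lit 0) (nat_lit 26444496722) (nat_lit 4) (nat_lit 5) (nat_lit 6) (nat_lit 4) (nat_lit 4) (nat_lit 4) (nat_lit 409) (nat_lit 342) (nat_lit 269)) (XT.lf (nat_lit 0) (nat_lit 57619581014) (nat_lit 152) (nat_lit 98225645509) (nat_lit 0) (nat_lit 44325794706) (nat_lit 4) (nat_lit 5) (nat_lit 6) (nat_lit 4) (nat_lit 4) (nat_lit 4) (nat_lit 410) (nat_lit 342) (nat_lit 268))) (XT.nd (nat_lit 78) (nat_lit 0) (nat_lit 0) (XT.lf (nat_lit 0) (nat_lit 76927143241) (nat_lit 152) (nat_lit 74364728503) (nat_lit 0) (nat_lit 63630034780) (nat_lit 4) (nat_lit 5) (nat_lit 6) (nat_lit 4) (nat_lit 4) (nat_lit 4) (nat_lit 411) (nat_lit 342) (nat_lit 267)) (XT.nd (nat_lit 78) (nat_lit 0) (nat_lit 0) (XT.lf (nat_lit 0) (nat_lit 97771796969) (nat_lit 152) (nat_lit 48610055071) (nat_lit 0) (nat_lit 84471612439) (nat_lit 4) (nat_lit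 5) (nat_lit 6) (nat_lit 4) (nat_lit 4) (nat_lit 4) (nat_lit 412) (nat_lit 342) (nat_lit 266)) (XT.lf (nat_lit 0) (nat_lit 120277066070) (nat_lit 152) (nat_lit 20809004925) (nat_lit 0) (nat_lit 106974033330) (nat_lit 4) (nat_lit 5) (nat_lit 6) (nat_lit 4) (nat_lit 4) (nat_lit 4) (nat_lit 413) (nat_lit 342) (nat_lit 265))))) (XT.nd (nat_lit 156) (nat_lit 0) (nat_lit 0) (XT.nd (nat_lit 78) (nat_lit 0) (nat_lit 0) (XT.lf (nat_lit 0) (nat_lit 9687791463) (nat_lit 76) (nat_lit 135121515258) (nat_lit 76) (nat_lit 121815845285) (nat_lit 3) (nat_lit 4) (nat_lit 4) (nat_lit 5) (nat_lit 4) (nat_lit 4) (nat_lit 414) (nat_lit 342) (nat_lit 264)) (XT.lf (nat_lit 0) (nat_lit 43795125888) (nat_lit 76) (nat_lit 128071687563) (nat_lit 76) (nat_lit 114763575707) (nat_lit 3) (nat_lit 4) (nat_lit 4) (nat_lit 5) (nat_lit 4) (nat_lit 4) (nat_lit 415) (nat_lit 342) (nat_lit 263))) (XT.nd (nat_lit 78) (nat_lit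 0) (nat_lit 0) (XT.lf (nat_lit 0) (nat_lit 80619350562) (nat_lit 76) (nat_lit 120463766224) (nat_lit 76) (nat_lit 107153393366) (nat_lit 3) (nat_lit 4) (nat_lit 4) (nat_lit 5) (nat_lit 4) (nat_lit 4) (nat_lit 416) (nat_lit 342) (nat_lit 262)) (XT.nd (nat_lit 78) (nat_lit 0) (nat_lit 0) (XT.lf (nat_lit 0) (nat_lit 120378683115) (nat_lit 76) (nat_lit 112252667264) (nat_lit 76) (nat_lit 98940200885) (nat_lit 3) (nat_lit 4) (nat_lit 4) (nat_lit 5) (nat_lit 4) (nat_lit 4) (nat_lit 417) (nat_lit 342) (nat_lit 261)) (XT.lf (nat_lit 0) (nat_lit 163308734404) (nat_lit 76) (nat_lit 103389732317) (nat_lit 76) (nat_lit 90075327494) (nat_lit 3) (nat_lit 4) (nat_lit 4) (nat_lit 5) (nat_lit 4) (nat_lit 4) (nat_lit 418) (nat_lit 342) (nat_lit 260)))))) (XT.nd (nat_lit 390) (nat_lit 152) (nat_lit 0) (XT.nd (nat_lit 156) (nat_lit 0) (nat_lit 0) (XT.nd (nat_lit 78) (nat_lit 0) (nat_lit 0) (XT.lf (nat_lit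 0) (nat_lit 209663904735) (nat_lit 76) (nat_lit 93822440289) (nat_lit 76) (nat_lit 80506240610) (nat_lit 3) (nat_lit 4) (nat_lit 4) (nat_lit 5) (nat_lit 4) (nat_lit 4) (nat_lit 419) (nat_lit 342) (nat_lit 259)) (XT.lf (nat_lit 0) (nat_lit 259718891413) (nat_lit 76) (nat_lit 83494096115) (nat_lit 76) (nat_lit 70176234532) (nat_lit 3) (nat_lit 4) (nat_lit 4) (nat_lit 5) (nat_lit 4) (nat_lit 4) (nat_lit 420) (nat_lit 342) (nat_lit 258))) (XT.nd (nat_lit 78) (nat_lit 0) (nat_lit 0) (XT.lf (nat_lit 0) (nat_lit 313770316581) (nat_lit 76) (nat_lit 72343494792) (nat_lit 76) (nat_lit 59024094409) (nat_lit 3) (nat_lit 4) (nat_lit 4) (nat_lit 5) (nat_lit 4) (nat_lit 4) (nat_lit 421) (nat_lit 342) (nat_lit 257)) (XT.nd (nat_lit 78) (nat_lit 0) (nat_lit 0) (XT.lf (nat_lit 0) (nat_lit 372138484981) (nat_lit 76) (nat_lit 60304558684) (nat_lit 76) (nat_lit 46983733486) (nat_lit 3) (nat_lit 4) (nat_lit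 4) (nat_lit 5) (nat_lit 4) (nat_lit 4) (nat_lit 422) (nat_lit 342) (nat_lit 256)) (XT.lf (nat_lit 0) (nat_lit 435169282056) (nat_lit 76) (nat_lit 47305945947) (nat_lit 76) (nat_lit 33983801476) (nat_lit 3) (nat_lit 4) (nat_lit 4) (nat_lit 5) (nat_lit 4) (nat_lit 4) (nat_lit 423) (nat_lit 342) (nat_lit 255))))) (XT.nd (nat_lit 156) (nat_lit 152) (nat_lit 0) (XT.nd (nat_lit 78) (nat_lit 0) (nat_lit 0) (XT.lf (nat_lit 0) (nat_lit 503236223639) (nat_lit 76) (nat_lit 33270627764) (nat_lit 76) (nat_lit 19947261744) (nat_lit 3) (nat_lit 4) (nat_lit 4) (nat_lit 5) (nat_lit 4) (nat_lit 4) (nat_lit 424) (nat_lit 342) (nat_lit 254)) (XT.lf (nat_lit 0) (nat_lit 576742669385) (nat_lit 76) (nat_lit 18115431879) (nat_lit 76) (nat_lit 4790934796) (nat_lit 3) (nat_lit 4) (nat_lit 4) (nat_lit 5) (nat_lit 4) (nat_lit 4) (nat_lit 425) (nat_lit 342) (nat_lit 253))) (XT.nd (nat_lit 78) (nat_lit 0) (nat_lit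 0) (XT.lf (nat_lit 0) (nat_lit 10048744933) (nat_lit 76) (nat_lit 1188894152) (nat_lit 152) (nat_lit 635020524930) (nat_lit 1) (nat_lit 5) (nat_lit 2) (nat_lit 5) (nat_lit 3) (nat_lit 4) (nat_lit 426) (nat_lit 342) (nat_lit 252)) (XT.nd (nat_lit 78) (nat_lit 0) (nat_lit 0) (XT.lf (nat_lit 0) (nat_lit 29340539221) (nat_lit 152) (nat_lit 650160283655) (nat_lit 0) (nat_lit 17001174341) (nat_lit 1) (nat_lit 5) (nat_lit 3) (nat_lit 4) (nat_lit 1) (nat_lit 4) (nat_lit 427) (nat_lit 342) (nat_lit 251)) (XT.lf (nat_lit 0) (nat_lit 48920005121) (nat_lit 152) (nat_lit 665263256585) (nat_lit 0) (nat_lit 36579808875) (nat_lit 1) (nat_lit 5) (nat_lit 3) (nat_lit 4) (nat_lit 1) (nat_lit 4) (nat_lit 428) (nat_lit 342) (nat_lit 250))))))))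
noncomputable def xc102 : XT := (XT.nd (nat_lit 1482) (nat_lit 0) (nat_lit 0) (XT.nd (nat_lit 702) (nat_lit 0) (nat_lit 0) (XT.nd (nat_lit 312) (nat_lit 0) (nat_lit 0) (XT.nd (nat_lit 156) (nat_lit 0) (nat_lit 0) (XT.nd (nat_lit 78) (nat_lit 0) (nat_lit 0) (XT.lf (nat_lit 0) (nat_lit 70063470316) (nat_lit 152) (nat_lit 681579244037) (nat_lit 0) (nat_lit 57722504288) (nat_lit 1) (nat_lit 5) (nat_lit 3) (nat_lit 4) (nat_lit 1) (nat_lit 4) (nat_lit 429) (nat_lit 342) (nat_lit 249)) (XT.lf (nat_lit 0) (nat_lit 92896229416) (nat_lit 152) (nat_lit 699204933345) (nat_lit 0) (nat_lit 80554550625) (nat_lit 1) (nat_lit 5) (nat_lit 3) (nat_lit 4) (nat_lit 1) (nat_lit 4) (nat_lit 430) (nat_lit 342) (nat_lit 248))) (XT.nd (nat_lit 78) (nat_lit 0) (nat_lit 0) (XT.lf (nat_lit 0) (nat_lit 117553587659) (nat_lit 152) (nat_lit 718244773038) (nat_lit 0) (nat_lit 105211248903) (nat_lit 1) (nat_lit 5) (nat_lit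 3) (nat_lit 4) (nat_lit 1) (nat_lit 4) (nat_lit 431) (nat_lit 342) (nat_lit 247)) (XT.lf (nat_lit 0) (nat_lit 144181662723) (nat_lit 152) (nat_lit 738811591796) (nat_lit 0) (nat_lit 131838712889) (nat_lit 1) (nat_lit 5) (nat_lit 3) (nat_lit 4) (nat_lit 1) (nat_lit 4) (nat_lit 432) (nat_lit 342) (nat_lit 246)))) (XT.nd (nat_lit 156) (nat_lit 0) (nat_lit 0) (XT.nd (nat_lit 78) (nat_lit 0) (nat_lit 0) (XT.lf (nat_lit 0) (nat_lit 172938250610) (nat_lit 152) (nat_lit 761027267063) (nat_lit 0) (nat_lit 160594734962) (nat_lit 1) (nat_lit 5) (nat_lit 3) (nat_lit 4) (nat_lit 1) (nat_lit 4) (nat_lit 433) (nat_lit 342) (nat_lit 245)) (XT.lf (nat_lit 0) (nat_lit 203993760729) (nat_lit 152) (nat_lit 785023447286) (nat_lit 0) (nat_lit 191649721179) (nat_lit 1) (nat_lit 5) (nat_lit 3) (nat_lit 4) (nat_lit 1) (nat_lit 4) (nat_lit 434) (nat_lit 342) (nat_lit 244))) (XT.nd (nat_lit 78) (nat_lit 0) (nat_lit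 0) (XT.lf (nat_lit 0) (nat_lit 237532225732) (nat_lit 152) (nat_lit 810942332050) (nat_lit 0) (nat_lit 225187701089) (nat_lit 1) (nat_lit 5) (nat_lit 3) (nat_lit 4) (nat_lit 1) (nat_lit 4) (nat_lit 435) (nat_lit 342) (nat_lit 243)) (XT.nd (nat_lit 78) (nat_lit 0) (nat_lit 0) (XT.lf (nat_lit 0) (nat_lit 273752392079) (nat_lit 152) (nat_lit 838937514747) (nat_lit 0) (nat_lit 261407418274) (nat_lit 1) (nat_lit 5) (nat_lit 3) (nat_lit 4) (nat_lit 1) (nat_lit 4) (nat_lit 436) (nat_lit 342) (nat_lit 242)) (XT.lf (nat_lit 0) (nat_lit 312868897792) (nat_lit 152) (nat_lit 869174892756) (nat_lit 0) (nat_lit 300523508098) (nat_lit 1) (nat_lit 5) (nat_lit 3) (nat_lit 4) (nat_lit 1) (nat_lit 4) (nat_lit 437) (nat_lit 342) (nat_lit 241)))))) (XT.nd (nat_lit 390) (nat_lit 0) (nat_lit 0) (XT.nd (nat_lit 156) (nat_lit 0) (nat_lit 0) (XT.nd (nat_lit 78) (nat_lit 0) (nat_lit 0) (XT.lf (nat_lit 0) (nat_lit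 355113544387) (nat_lit 152) (nat_lit 901833650540) (nat_lit 0) (nat_lit 342767769610) (nat_lit 1) (nat_lit 5) (nat_lit 3) (nat_lit 4) (nat_lit 1) (nat_lit 4) (nat_lit 438) (nat_lit 342) (nat_lit 240)) (XT.lf (nat_lit 0) (nat_lit 400736670510) (nat_lit 152) (nat_lit 937107321477) (nat_lit 0) (nat_lit 388390539175) (nat_lit 1) (nat_lit 5) (nat_lit 3) (nat_lit 4) (nat_lit 1) (nat_lit 4) (nat_lit 439) (nat_lit 342) (nat_lit 239))) (XT.nd (nat_lit 78) (nat_lit 0) (nat_lit 0) (XT.lf (nat_lit 0) (nat_lit 450008635428) (nat_lit 152) (nat_lit 975204934729) (nat_lit 0) (nat_lit 437662173945) (nat_lit 1) (nat_lit 5) (nat_lit 3) (nat_lit 4) (nat_lit 1) (nat_lit 4) (nat_lit 440) (nat_lit 342) (nat_lit 238)) (XT.nd (nat_lit 78) (nat_lit 0) (nat_lit 0) (XT.lf (nat_lit 0) (nat_lit 503221421154) (nat_lit 152) (nat_lit 1016352253929) (nat_lit 0) (nat_lit 490874653980) (nat_lit 1) (nat_lit 5) (nat_lit 3)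 (nat_lit 4) (nat_lit 1) (nat_lit 4) (nat_lit 441) (nat_lit 342) (nat_lit 237)) (XT.lf (nat_lit 0) (nat_lit 560690362716) (nat_lit 152) (nat_lit 1060793115044) (nat_lit 0) (nat_lit 548343312494) (nat_lit 1) (nat_lit 5) (nat_lit 3) (nat_lit 4) (nat_lit 1) (nat_lit 4) (nat_lit 442) (nat_lit 342) (nat_lit 236))))) (XT.nd (nat_lit 156) (nat_lit 0) (nat_lit 0) (XT.nd (nat_lit 78) (nat_lit 0) (nat_lit 0) (XT.lf (nat_lit 0) (nat_lit 622756016803) (nat_lit 152) (nat_lit 1108790871325) (nat_lit 0) (nat_lit 610408704500) (nat_lit 1) (nat_lit 5) (nat_lit 3) (nat_lit 4) (nat_lit 1) (nat_lit 4) (nat_lit 443) (nat_lit 342) (nat_lit 235)) (XT.lf (nat_lit 0) (nat_lit 689786179884) (nat_lit 152) (nat_lit 1160629953920) (nat_lit 0) (nat_lit 677438624914) (nat_lit 1) (nat_lit 5) (nat_lit 3) (nat_lit 4) (nat_lit 1) (nat_lit 4) (nat_lit 444) (nat_lit 342) (nat_lit 234))) (XT.nd (nat_lit 78) (nat_lit 0) (nat_lit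 0) (XT.lf (nat_lit 0) (nat_lit 762178067742) (nat_lit 152) (nat_lit 1216617557392) (nat_lit 0) (nat_lit 749830288079) (nat_lit 1) (nat_lit 5) (nat_lit 3) (nat_lit 4) (nat_lit 1) (nat_lit 4) (nat_lit 445) (nat_lit 342) (nat_lit 233)) (XT.nd (nat_lit 78) (nat_lit 0) (nat_lit 0) (XT.lf (nat_lit 0) (nat_lit 840360669340) (nat_lit 152) (nat_lit 1277085460132) (nat_lit 0) (nat_lit 828012681628) (nat_lit 1) (nat_lit 5) (nat_lit 3) (nat_lit 4) (nat_lit 1) (nat_lit 4) (nat_lit 446) (nat_lit 342) (nat_lit 232)) (XT.lf (nat_lit 0) (nat_lit 924797288984) (nat_lit 152) (nat_lit 1342391990453) (nat_lit 0) (nat_lit 912449108635) (nat_lit 1) (nat_lit 5) (nat_lit 3) (nat_lit 4) (nat_lit 1) (nat_lit 4) (nat_lit 447) (nat_lit 342) (nat_lit 231))))))) (XT.nd (nat_lit 780) (nat_lit 0) (nat_lit 0) (XT.nd (nat_lit 390) (nat_lit 0) (nat_lit 0) (XT.nd (nat_lit 156) (nat_lit 0) (nat_lit 0) (XT.nd (nat_lit 78) (nat_lit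 0) (nat_lit 0) (XT.lf (nat_lit 0) (nat_lit 1015988291829) (nat_lit 152) (nat_lit 1412924150017) (nat_lit 0) (nat_lit 1003639933112) (nat_lit 1) (nat_lit 5) (nat_lit 3) (nat_lit 4) (nat_lit 1) (nat_lit 4) (nat_lit 448) (nat_lit 342) (nat_lit 230)) (XT.lf (nat_lit 0) (nat_lit 1114474069002) (nat_lit 152) (nat_lit 1489099907175) (nat_lit 0) (nat_lit 1102125545129) (nat_lit 1) (nat_lit 5) (nat_lit 3) (nat_lit 4) (nat_lit 1) (nat_lit 4) (nat_lit 449) (nat_lit 342) (nat_lit 229))) (XT.nd (nat_lit 78) (nat_lit 0) (nat_lit 0) (XT.lf (nat_lit 0) (nat_lit 1220838239923) (nat_lit 152) (nat_lit 1571370673822) (nat_lit 0) (nat_lit 1208489563128) (nat_lit 1) (nat_lit 5) (nat_lit 3) (nat_lit 4) (nat_lit 1) (nat_lit 4) (nat_lit 450) (nat_lit 342) (nat_lit 228)) (XT.nd (nat_lit 78) (nat_lit 0) (nat_lit 0) (XT.lf (nat_lit 0) (nat_lit 1335711110790) (nat_lit 152) (nat_lit 1660223980428) (nat_lit 0) (nat_lit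 1323362292401) (nat_lit 1) (nat_lit 5) (nat_lit 3) (nat_lit 4) (nat_lit 1) (nat_lit 4) (nat_lit 451) (nat_lit 342) (nat_lit 227)) (XT.lf (nat_lit 0) (nat_lit 1459773409727) (nat_lit 152) (nat_lit 1756186365106) (nat_lit 0) (nat_lit 1447424460232) (nat_lit 1) (nat_lit 5) (nat_lit 3) (nat_lit 4) (nat_lit 1) (nat_lit 4) (nat_lit 452) (nat_lit 342) (nat_lit 226))))) (XT.nd (nat_lit 156) (nat_lit 0) (nat_lit 0) (XT.nd (nat_lit 78) (nat_lit 0) (nat_lit 0) (XT.lf (nat_lit 0) (nat_lit 1593760320728) (nat_lit 152) (nat_lit 1859826493838) (nat_lit 0) (nat_lit 1581411249839) (nat_lit 1) (nat_lit 5) (nat_lit 3) (nat_lit 4) (nat_lit 1) (nat_lit 4) (nat_lit 453) (nat_lit 342) (nat_lit 225)) (XT.lf (nat_lit 0) (nat_lit 1738465840302) (nat_lit 152) (nat_lit 1971758530351) (nat_lit 0) (nat_lit 1726116657011) (nat_lit 1) (nat_lit 5) (nat_lit 3) (nat_lit 4) (nat_lit 1) (nat_lit 4) (nat_lit 454) (nat_lit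 342) (nat_lit 224))) (XT.nd (nat_lit 78) (nat_lit 0) (nat_lit 0) (XT.lf (nat_lit 0) (nat_lit 1894747482639) (nat_lit 152) (nat_lit 2092645775601) (nat_lit 0) (nat_lit 1882398195272) (nat_lit 1) (nat_lit 5) (nat_lit 3) (nat_lit 4) (nat_lit 1) (nat_lit 4) (nat_lit 455) (nat_lit 342) (nat_lit 223)) (XT.nd (nat_lit 78) (nat_lit 0) (nat_lit 0) (XT.lf (nat_lit 0) (nat_lit 2063531361176) (nat_lit 152) (nat_lit 2223204598450) (nat_lit 0) (nat_lit 2051181977443) (nat_lit 1) (nat_lit 5) (nat_lit 3) (nat_lit 4) (nat_lit 1) (nat_lit 4) (nat_lit 456) (nat_lit 342) (nat_lit 222)) (XT.lf (nat_lit 0) (nat_lit 2245817676674) (nat_lit 152) (nat_lit 2364208680811) (nat_lit 0) (nat_lit 2233468203712) (nat_lit 1) (nat_lit 5) (nat_lit 3) (nat_lit 4) (nat_lit 1) (nat_lit 4) (nat_lit 457) (nat_lit 342) (nat_lit 221)))))) (XT.nd (nat_lit 44382) (nat_lit 0) (nat_lit 5244) (XT.nd (nat_lit 44148) (nat_lit 0) (nat_lit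 5548) (XT.nd (nat_lit 78) (nat_lit 0) (nat_lit 0) (XT.lf (nat_lit 0) (nat_lit 2442686644337) (nat_lit 152) (nat_lit 2516493602431) (nat_lit 0) (nat_lit 2430337088755) (nat_lit 1) (nat_lit 5) (nat_lit 3) (nat_lit 4) (nat_lit 1) (nat_lit 4) (nat_lit 458) (nat_lit 342) (nat_lit 220)) (XT.lf (nat_lit 0) (nat_lit 2655304895082) (nat_lit 152) (nat_lit 2680961792474) (nat_lit 0) (nat_lit 2642955263002) (nat_lit 1) (nat_lit 5) (nat_lit 3) (nat_lit 4) (nat_lit 1) (nat_lit 4) (nat_lit 459) (nat_lit 342) (nat_lit 219))) (XT.nd (nat_lit 78) (nat_lit 304) (nat_lit 0) (XT.lf (nat_lit 0) (nat_lit 709364139) (nat_lit 0) (nat_lit 709364139) (nat_lit 228) (nat_lit 1931049608) (nat_lit 78) (nat_lit 5) (nat_lit 78) (nat_lit 3) (nat_lit 81) (nat_lit 3) (nat_lit 343) (nat_lit 343) (nat_lit 334)) (XT.nd (nat_lit 78) (nat_lit 304) (nat_lit 0) (XT.lf (nat_lit 0) (nat_lit 4821623037) (nat_lit 0) (nat_lit 216378009)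 (nat_lit 228) (nat_lit 1758999786) (nat_lit 78) (nat_lit 5) (nat_lit 78) (nat_lit 3) (nat_lit 81) (nat_lit 3) (nat_lit 344) (nat_lit 343) (nat_lit 333)) (XT.lf (nat_lit 0) (nat_lit 338947477) (nat_lit 304) (nat_lit 5402104085) (nat_lit 380) (nat_lit 1172356845) (nat_lit 74) (nat_lit 5) (nat_lit 78) (nat_lit 5) (nat_lit 79) (nat_lit 5) (nat_lit 345) (nat_lit 343) (nat_lit 332))))) (XT.nd (nat_lit 156) (nat_lit 304) (nat_lit 0) (XT.nd (nat_lit 78) (nat_lit 0) (nat_lit 0) (XT.lf (nat_lit 0) (nat_lit 2371461704) (nat_lit 304) (nat_lit 1829893088) (nat_lit 380) (nat_lit 2845484220) (nat_lit 74) (nat_lit 5) (nat_lit 78) (nat_lit 5) (nat_lit 79) (nat_lit 5) (nat_lit 346) (nat_lit 343) (nat_lit 331)) (XT.lf (nat_lit 76) (nat_lit 2006586793) (nat_lit 0) (nat_lit 2423738973) (nat_lit 380) (nat_lit 2771802214) (nat_lit 75) (nat_lit 5) (nat_lit 74) (nat_lit 5) (nat_lit 79) (nat_lit 5) (nat_lit 347)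 (nat_lit 343) (nat_lit 330))) (XT.nd (nat_lit 78) (nat_lit 304) (nat_lit 0) (XT.lf (nat_lit 76) (nat_lit 6135252825) (nat_lit 0) (nat_lit 394979134) (nat_lit 380) (nat_lit 849764252) (nat_lit 75) (nat_lit 5) (nat_lit 74) (nat_lit 5) (nat_lit 79) (nat_lit 5) (nat_lit 348) (nat_lit 343) (nat_lit 329)) (XT.nd (nat_lit 78) (nat_lit 0) (nat_lit 0) (XT.lf (nat_lit 0) (nat_lit 1119181169) (nat_lit 380) (nat_lit 4599294930) (nat_lit 76) (nat_lit 1855126143) (nat_lit 70) (nat_lit 5) (nat_lit 75) (nat_lit 5) (nat_lit 71) (nat_lit 5) (nat_lit 349) (nat_lit 343) (nat_lit 328)) (XT.lf (nat_lit 0) (nat_lit 3090079341) (nat_lit 380) (nat_lit 341063749) (nat_lit 76) (nat_lit 4358768813) (nat_lit 70) (nat_lit 5) (nat_lit 75) (nat_lit 5) (nat_lit 71) (nat_lit 5) (nat_lit 350) (nat_lit 343) (nat_lit 327))))))))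
noncomputable def xc103 : XT := (XT.nd (nat_lit 1482) (nat_lit 1292) (nat_lit 0) (XT.nd (nat_lit 702) (nat_lit 1064) (nat_lit 0) (XT.nd (nat_lit 312) (nat_lit 684) (nat_lit 0) (XT.nd (nat_lit 156) (nat_lit 456) (nat_lit 0) (XT.nd (nat_lit 78) (nat_lit 456) (nat_lit 0) (XT.lf (nat_lit 0) (nat_lit 4355768732) (nat_lit 380) (nat_lit 824275665) (nat_lit 456) (nat_lit 2846763494) (nat_lit 65) (nat_lit 5) (nat_lit 70) (nat_lit 5) (nat_lit 71) (nat_lit 5) (nat_lit 351) (nat_lit 343) (nat_lit 326)) (XT.lf (nat_lit 0) (nat_lit 1041416424) (nat_lit 456) (nat_lit 6343185383) (nat_lit 532) (nat_lit 902440990) (nat_lit 59) (nat_lit 5) (nat_lit 65) (nat_lit 5) (nat_lit 66) (nat_lit 5) (nat_lit 352) (nat_lit 343) (nat_lit 325))) (XT.nd (nat_lit 78) (nat_lit 380) (nat_lit 0) (XT.lf (nat_lit 0) (nat_lit 1130324809) (nat_lit 532) (nat_lit 2405455551) (nat_lit 76) (nat_lit 5030741802) (nat_lit 58) (nat_lit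 5) (nat_lit 65) (nat_lit 5) (nat_lit 59) (nat_lit 5) (nat_lit 353) (nat_lit 343) (nat_lit 324)) (XT.lf (nat_lit 0) (nat_lit 2816982075) (nat_lit 380) (nat_lit 405878681) (nat_lit 456) (nat_lit 5648093564) (nat_lit 53) (nat_lit 5) (nat_lit 58) (nat_lit 5) (nat_lit 59) (nat_lit 5) (nat_lit 354) (nat_lit 343) (nat_lit 323)))) (XT.nd (nat_lit 156) (nat_lit 456) (nat_lit 0) (XT.nd (nat_lit 78) (nat_lit 228) (nat_lit 0) (XT.lf (nat_lit 0) (nat_lit 5506036013) (nat_lit 456) (nat_lit 802330909) (nat_lit 76) (nat_lit 2889646673) (nat_lit 53) (nat_lit 5) (nat_lit 59) (nat_lit 5) (nat_lit 54) (nat_lit 5) (nat_lit 355) (nat_lit 343) (nat_lit 322)) (XT.lf (nat_lit 0) (nat_lit 4989393293) (nat_lit 228) (nat_lit 3005809294) (nat_lit 304) (nat_lit 1554289761) (nat_lit 50) (nat_lit 5) (nat_lit 53) (nat_lit 5) (nat_lit 54) (nat_lit 5) (nat_lit 356) (nat_lit 343) (nat_lit 321))) (XT.nd (nat_lit 78) (nat_lit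 152) (nat_lit 0) (XT.lf (nat_lit 0) (nat_lit 680261814) (nat_lit 304) (nat_lit 8660096452) (nat_lit 76) (nat_lit 590297000) (nat_lit 46) (nat_lit 5) (nat_lit 50) (nat_lit 5) (nat_lit 47) (nat_lit 5) (nat_lit 357) (nat_lit 343) (nat_lit 320)) (XT.nd (nat_lit 78) (nat_lit 152) (nat_lit 0) (XT.lf (nat_lit 0) (nat_lit 3115249742) (nat_lit 304) (nat_lit 2753274267) (nat_lit 76) (nat_lit 4462202600) (nat_lit 46) (nat_lit 5) (nat_lit 50) (nat_lit 5) (nat_lit 47) (nat_lit 5) (nat_lit 358) (nat_lit 343) (nat_lit 319)) (XT.lf (nat_lit 0) (nat_lit 3693972711) (nat_lit 152) (nat_lit 2046988954) (nat_lit 228) (nat_lit 5022257468) (nat_lit 44) (nat_lit 5) (nat_lit 46) (nat_lit 5) (nat_lit 47) (nat_lit 5) (nat_lit 359) (nat_lit 343) (nat_lit 318)))))) (XT.nd (nat_lit 390) (nat_lit 456) (nat_lit 0) (XT.nd (nat_lit 156) (nat_lit 304) (nat_lit 0) (XT.nd (nat_lit 78) (nat_lit 304) (nat_lit 0) (XT.lf (nat_lit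 0) (nat_lit 8614617253) (nat_lit 228) (nat_lit 583221893) (nat_lit 76) (nat_lit 2029523816) (nat_lit 44) (nat_lit 5) (nat_lit 47) (nat_lit 5) (nat_lit 45) (nat_lit 5) (nat_lit 360) (nat_lit 343) (nat_lit 317)) (XT.lf (nat_lit 0) (nat_lit 122137431) (nat_lit 304) (nat_lit 5135107796) (nat_lit 76) (nat_lit 6460917322) (nat_lit 40) (nat_lit 5) (nat_lit 44) (nat_lit 5) (nat_lit 41) (nat_lit 5) (nat_lit 361) (nat_lit 343) (nat_lit 316))) (XT.nd (nat_lit 78) (nat_lit 152) (nat_lit 0) (XT.lf (nat_lit 0) (nat_lit 2028944615) (nat_lit 152) (nat_lit 889497703) (nat_lit 228) (nat_lit 9325717485) (nat_lit 38) (nat_lit 5) (nat_lit 40) (nat_lit 5) (nat_lit 41) (nat_lit 5) (nat_lit 362) (nat_lit 343) (nat_lit 315)) (XT.nd (nat_lit 78) (nat_lit 152) (nat_lit 0) (XT.lf (nat_lit 0) (nat_lit 6095787021) (nat_lit 228) (nat_lit 2954333247) (nat_lit 76) (nat_lit 3749590628) (nat_lit 38) (nat_lit 5) (nat_lit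 41) (nat_lit 5) (nat_lit 39) (nat_lit 5) (nat_lit 363) (nat_lit 343) (nat_lit 314)) (XT.lf (nat_lit 0) (nat_lit 5007607305) (nat_lit 152) (nat_lit 4590313813) (nat_lit 228) (nat_lit 3796193194) (nat_lit 36) (nat_lit 5) (nat_lit 38) (nat_lit 5) (nat_lit 39) (nat_lit 5) (nat_lit 364) (nat_lit 343) (nat_lit 313))))) (XT.nd (nat_lit 156) (nat_lit 228) (nat_lit 0) (XT.nd (nat_lit 78) (nat_lit 228) (nat_lit 0) (XT.lf (nat_lit 0) (nat_lit 13397668620) (nat_lit 228) (nat_lit 371951384) (nat_lit 76) (nat_lit 265106786) (nat_lit 36) (nat_lit 5) (nat_lit 39) (nat_lit 5) (nat_lit 37) (nat_lit 4) (nat_lit 365) (nat_lit 343) (nat_lit 312)) (XT.lf (nat_lit 0) (nat_lit 2900388482) (nat_lit 228) (nat_lit 6291529518) (nat_lit 76) (nat_lit 5508225253) (nat_lit 33) (nat_lit 5) (nat_lit 36) (nat_lit 5) (nat_lit 34) (nat_lit 5) (nat_lit 366) (nat_lit 343) (nat_lit 311))) (XT.nd (nat_lit 78) (nat_lit 76) (nat_lit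 0) (XT.lf (nat_lit 0) (nat_lit 2500979641) (nat_lit 152) (nat_lit 4191197780) (nat_lit 228) (nat_lit 8724872156) (nat_lit 31) (nat_lit 5) (nat_lit 33) (nat_lit 5) (nat_lit 34) (nat_lit 5) (nat_lit 367) (nat_lit 343) (nat_lit 310)) (XT.nd (nat_lit 78) (nat_lit 76) (nat_lit 0) (XT.lf (nat_lit 0) (nat_lit 10929586118) (nat_lit 228) (nat_lit 3960080271) (nat_lit 76) (nat_lit 1290298260) (nat_lit 31) (nat_lit 5) (nat_lit 34) (nat_lit 5) (nat_lit 32) (nat_lit 4) (nat_lit 368) (nat_lit 343) (nat_lit 309)) (XT.lf (nat_lit 0) (nat_lit 5797553136) (nat_lit 76) (nat_lit 9898113642) (nat_lit 152) (nat_lit 1293107334) (nat_lit 30) (nat_lit 5) (nat_lit 31) (nat_lit 5) (nat_lit 32) (nat_lit 4) (nat_lit 369) (nat_lit 343) (nat_lit 308))))))) (XT.nd (nat_lit 780) (nat_lit 532) (nat_lit 0) (XT.nd (nat_lit 390) (nat_lit 228) (nat_lit 0) (XT.nd (nat_lit 156) (nat_lit 304) (nat_lit 0) (XT.nd (nat_lit 78) (nat_lit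 152) (nat_lit 0) (XT.lf (nat_lit 0) (nat_lit 2884702562) (nat_lit 152) (nat_lit 1463761053) (nat_lit 76) (nat_lit 13503874942) (nat_lit 29) (nat_lit 5) (nat_lit 31) (nat_lit 5) (nat_lit 30) (nat_lit 5) (nat_lit 370) (nat_lit 343) (nat_lit 307)) (XT.lf (nat_lit 0) (nat_lit 7544387893) (nat_lit 228) (nat_lit 9425536174) (nat_lit 76) (nat_lit 1795004355) (nat_lit 27) (nat_lit 5) (nat_lit 30) (nat_lit 5) (nat_lit 28) (nat_lit 4) (nat_lit 371) (nat_lit 343) (nat_lit 306))) (XT.nd (nat_lit 78) (nat_lit 228) (nat_lit 0) (XT.lf (nat_lit 0) (nat_lit 1198123766) (nat_lit 76) (nat_lit 11508854585) (nat_lit 152) (nat_lit 7033162818) (nat_lit 26) (nat_lit 5) (nat_lit 27) (nat_lit 5) (nat_lit 28) (nat_lit 4) (nat_lit 372) (nat_lit 343) (nat_lit 305)) (XT.nd (nat_lit 78) (nat_lit 228) (nat_lit 0) (XT.lf (nat_lit 0) (nat_lit 13119463278) (nat_lit 76) (nat_lit 5369911300) (nat_lit 152) (nat_lit 2287476654)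 (nat_lit 26) (nat_lit 5) (nat_lit 27) (nat_lit 5) (nat_lit 28) (nat_lit 4) (nat_lit 373) (nat_lit 343) (nat_lit 304)) (XT.lf (nat_lit 0) (nat_lit 2781212124) (nat_lit 228) (nat_lit 17767509639) (nat_lit 76) (nat_lit 1335512276) (nat_lit 23) (nat_lit 5) (nat_lit 26) (nat_lit 5) (nat_lit 24) (nat_lit 4) (nat_lit 374) (nat_lit 343) (nat_lit 303))))) (XT.nd (nat_lit 156) (nat_lit 152) (nat_lit 0) (XT.nd (nat_lit 78) (nat_lit 76) (nat_lit 0) (XT.lf (nat_lit 0) (nat_lit 8438466781) (nat_lit 228) (nat_lit 6084601608) (nat_lit 76) (nat_lit 8527872766) (nat_lit 23) (nat_lit 5) (nat_lit 26) (nat_lit 5) (nat_lit 24) (nat_lit 4) (nat_lit 375) (nat_lit 343) (nat_lit 302)) (XT.lf (nat_lit 0) (nat_lit 6794045129) (nat_lit 76) (nat_lit 7873552764) (nat_lit 152) (nat_lit 9633861033) (nat_lit 22) (nat_lit 5) (nat_lit 23) (nat_lit 5) (nat_lit 24) (nat_lit 4) (nat_lit 376) (nat_lit 343) (nat_lit 301))) (XT.nd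 (nat_lit 78) (nat_lit 152) (nat_lit 0) (XT.lf (nat_lit 0) (nat_lit 20972254614) (nat_lit 76) (nat_lit 546488320) (nat_lit 152) (nat_lit 4123396967) (nat_lit 22) (nat_lit 5) (nat_lit 23) (nat_lit 5) (nat_lit 24) (nat_lit 4) (nat_lit 377) (nat_lit 343) (nat_lit 300)) (XT.nd (nat_lit 78) (nat_lit 0) (nat_lit 0) (XT.lf (nat_lit 0) (nat_lit 2109209775) (nat_lit 152) (nat_lit 17699470333) (nat_lit 76) (nat_lit 7248072885) (nat_lit 20) (nat_lit 5) (nat_lit 22) (nat_lit 5) (nat_lit 21) (nat_lit 4) (nat_lit 378) (nat_lit 343) (nat_lit 299)) (XT.lf (nat_lit 0) (nat_lit 8722804381) (nat_lit 152) (nat_lit 4000486173) (nat_lit 76) (nat_lit 15844277557) (nat_lit 20) (nat_lit 5) (nat_lit 22) (nat_lit 5) (nat_lit 21) (nat_lit 4) (nat_lit 379) (nat_lit 343) (nat_lit 298)))))) (XT.nd (nat_lit 390) (nat_lit 228) (nat_lit 0) (XT.nd (nat_lit 156) (nat_lit 228) (nat_lit 0) (XT.nd (nat_lit 78) (nat_lit 0) (nat_lit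 0) (XT.lf (nat_lit 0) (nat_lit 11290940796) (nat_lit 76) (nat_lit 4809015360) (nat_lit 152) (nat_lit 14080546811) (nat_lit 19) (nat_lit 5) (nat_lit 20) (nat_lit 5) (nat_lit 21) (nat_lit 4) (nat_lit 380) (nat_lit 343) (nat_lit 297)) (XT.lf (nat_lit 0) (nat_lit 24232741229) (nat_lit 152) (nat_lit 4041993346) (nat_lit 0) (nat_lit 3634512344) (nat_lit 19) (nat_lit 5) (nat_lit 21) (nat_lit 4) (nat_lit 19) (nat_lit 4) (nat_lit 381) (nat_lit 343) (nat_lit 296))) (XT.nd (nat_lit 78) (nat_lit 152) (nat_lit 0) (XT.lf (nat_lit 0) (nat_lit 12426469201) (nat_lit 76) (nat_lit 20979493567) (nat_lit 76) (nat_lit 339152896) (nat_lit 18) (nat_lit 4) (nat_lit 19) (nat_lit 5) (nat_lit 19) (nat_lit 4) (nat_lit 382) (nat_lit 343) (nat_lit 295)) (XT.nd (nat_lit 78) (nat_lit 76) (nat_lit 0) (XT.lf (nat_lit 0) (nat_lit 7285338523) (nat_lit 152) (nat_lit 5525828936) (nat_lit 76) (nat_lit 22895734047) (nat_lit 17)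 (nat_lit 5) (nat_lit 19) (nat_lit 5) (nat_lit 18) (nat_lit 4) (nat_lit 383) (nat_lit 343) (nat_lit 294)) (XT.lf (nat_lit 0) (nat_lit 12066125106) (nat_lit 76) (nat_lit 3694241355) (nat_lit 152) (nat_lit 22043855231) (nat_lit 16) (nat_lit 5) (nat_lit 17) (nat_lit 5) (nat_lit 18) (nat_lit 4) (nat_lit 384) (nat_lit 343) (nat_lit 293))))) (XT.nd (nat_lit 156) (nat_lit 152) (nat_lit 0) (XT.nd (nat_lit 78) (nat_lit 76) (nat_lit 0) (XT.lf (nat_lit 0) (nat_lit 25185351522) (nat_lit 152) (nat_lit 8888789409) (nat_lit 0) (nat_lit 5973437794) (nat_lit 16) (nat_lit 5) (nat_lit 18) (nat_lit 4) (nat_lit 16) (nat_lit 4) (nat_lit 385) (nat_lit 343) (nat_lit 292)) (XT.lf (nat_lit 0) (nat_lit 9639763146) (nat_lit 76) (nat_lit 26023648228) (nat_lit 76) (nat_lit 6783073925) (nat_lit 15) (nat_lit 4) (nat_lit 16) (nat_lit 5) (nat_lit 16) (nat_lit 4) (nat_lit 386) (nat_lit 343) (nat_lit 291))) (XT.nd (nat_lit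 78) (nat_lit 76) (nat_lit 0) (XT.lf (nat_lit 0) (nat_lit 2065985625) (nat_lit 152) (nat_lit 14969861769) (nat_lit 76) (nat_lit 27980066549) (nat_lit 14) (nat_lit 5) (nat_lit 16) (nat_lit 5) (nat_lit 15) (nat_lit 4) (nat_lit 387) (nat_lit 343) (nat_lit 290)) (XT.nd (nat_lit 78) (nat_lit 0) (nat_lit 0) (XT.lf (nat_lit 0) (nat_lit 4280906648) (nat_lit 76) (nat_lit 7052069477) (nat_lit 152) (nat_lit 36437714188) (nat_lit 13) (nat_lit 5) (nat_lit 14) (nat_lit 5) (nat_lit 15) (nat_lit 4) (nat_lit 388) (nat_lit 343) (nat_lit 289)) (XT.lf (nat_lit 0) (nat_lit 21824677955) (nat_lit 152) (nat_lit 24941566368) (nat_lit 0) (nat_lit 3940941491) (nat_lit 13) (nat_lit 5) (nat_lit 15) (nat_lit 4) (nat_lit 13) (nat_lit 4) (nat_lit 389) (nat_lit 343) (nat_lit 288))))))))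
noncomputable def xc104 : XT := (XT.nd (nat_lit 1482) (nat_lit 228) (nat_lit 0) (XT.nd (nat_lit 702) (nat_lit 380) (nat_lit 0) (XT.nd (nat_lit 312) (nat_lit 76) (nat_lit 0) (XT.nd (nat_lit 156) (nat_lit 152) (nat_lit 0) (XT.nd (nat_lit 78) (nat_lit 76) (nat_lit 0) (XT.lf (nat_lit 0) (nat_lit 33314536416) (nat_lit 152) (nat_lit 5140069656) (nat_lit 0) (nat_lit 15411294048) (nat_lit 13) (nat_lit 5) (nat_lit 15) (nat_lit 4) (nat_lit 13) (nat_lit 4) (nat_lit 390) (nat_lit 343) (nat_lit 287)) (XT.lf (nat_lit 0) (nat_lit 17054801349) (nat_lit 76) (nat_lit 29056404152) (nat_lit 76) (nat_lit 11135100760) (nat_lit 12) (nat_lit 4) (nat_lit 13) (nat_lit 5) (nat_lit 13) (nat_lit 4) (nat_lit 391) (nat_lit 343) (nat_lit 286))) (XT.nd (nat_lit 78) (nat_lit 152) (nat_lit 0) (XT.lf (nat_lit 0) (nat_lit 41274797955) (nat_lit 76) (nat_lit 18775443476) (nat_lit 76) (nat_lit 837416915) (nat_lit 12) (nat_lit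 4) (nat_lit 13) (nat_lit 5) (nat_lit 13) (nat_lit 4) (nat_lit 392) (nat_lit 343) (nat_lit 285)) (XT.lf (nat_lit 0) (nat_lit 2446407809) (nat_lit 76) (nat_lit 7361245453) (nat_lit 152) (nat_lit 54989840433) (nat_lit 10) (nat_lit 5) (nat_lit 11) (nat_lit 5) (nat_lit 12) (nat_lit 4) (nat_lit 393) (nat_lit 343) (nat_lit 284)))) (XT.nd (nat_lit 156) (nat_lit 76) (nat_lit 0) (XT.nd (nat_lit 78) (nat_lit 0) (nat_lit 0) (XT.lf (nat_lit 0) (nat_lit 21908006497) (nat_lit 152) (nat_lit 41787349148) (nat_lit 0) (nat_lit 5271109831) (nat_lit 10) (nat_lit 5) (nat_lit 12) (nat_lit 4) (nat_lit 10) (nat_lit 4) (nat_lit 394) (nat_lit 343) (nat_lit 283)) (XT.lf (nat_lit 0) (nat_lit 35148428262) (nat_lit 152) (nat_lit 19807526976) (nat_lit 0) (nat_lit 18499239567) (nat_lit 10) (nat_lit 5) (nat_lit 12) (nat_lit 4) (nat_lit 10) (nat_lit 4) (nat_lit 395) (nat_lit 343) (nat_lit 282))) (XT.nd (nat_lit 78) (nat_lit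 0) (nat_lit 0) (XT.lf (nat_lit 0) (nat_lit 4100808615) (nat_lit 76) (nat_lit 45428158117) (nat_lit 76) (nat_lit 28767587914) (nat_lit 9) (nat_lit 4) (nat_lit 10) (nat_lit 5) (nat_lit 10) (nat_lit 4) (nat_lit 396) (nat_lit 343) (nat_lit 281)) (XT.nd (nat_lit 78) (nat_lit 0) (nat_lit 0) (XT.lf (nat_lit 0) (nat_lit 31014157619) (nat_lit 76) (nat_lit 34570115452) (nat_lit 76) (nat_lit 17899006815) (nat_lit 9) (nat_lit 4) (nat_lit 10) (nat_lit 5) (nat_lit 10) (nat_lit 4) (nat_lit 397) (nat_lit 343) (nat_lit 280)) (XT.lf (nat_lit 0) (nat_lit 60048977280) (nat_lit 76) (nat_lit 22859056176) (nat_lit 76) (nat_lit 6178189730) (nat_lit 9) (nat_lit 4) (nat_lit 10) (nat_lit 5) (nat_lit 10) (nat_lit 4) (nat_lit 398) (nat_lit 343) (nat_lit 279)))))) (XT.nd (nat_lit 390) (nat_lit 228) (nat_lit 0) (XT.nd (nat_lit 156) (nat_lit 0) (nat_lit 0) (XT.nd (nat_lit 78) (nat_lit 76) (nat_lit 0) (XT.lf (nat_lit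 0) (nat_lit 6140948565) (nat_lit 152) (nat_lit 3916728437) (nat_lit 76) (nat_lit 85068472805) (nat_lit 8) (nat_lit 5) (nat_lit 10) (nat_lit 5) (nat_lit 9) (nat_lit 4) (nat_lit 399) (nat_lit 343) (nat_lit 278)) (XT.lf (nat_lit 0) (nat_lit 19790293401) (nat_lit 152) (nat_lit 77462929732) (nat_lit 0) (nat_lit 4328934881) (nat_lit 7) (nat_lit 5) (nat_lit 9) (nat_lit 4) (nat_lit 7) (nat_lit 4) (nat_lit 400) (nat_lit 343) (nat_lit 277))) (XT.nd (nat_lit 78) (nat_lit 0) (nat_lit 0) (XT.lf (nat_lit 0) (nat_lit 34888710836) (nat_lit 152) (nat_lit 54217187771) (nat_lit 0) (nat_lit 19420180035) (nat_lit 7) (nat_lit 5) (nat_lit 9) (nat_lit 4) (nat_lit 7) (nat_lit 4) (nat_lit 401) (nat_lit 343) (nat_lit 276)) (XT.nd (nat_lit 78) (nat_lit 0) (nat_lit 0) (XT.lf (nat_lit 0) (nat_lit 51182052393) (nat_lit 152) (nat_lit 29137617514) (nat_lit 0) (nat_lit 35706880591) (nat_lit 7) (nat_lit 5) (nat_lit 9) (nat_lit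 4) (nat_lit 7) (nat_lit 4) (nat_lit 402) (nat_lit 343) (nat_lit 275)) (XT.lf (nat_lit 0) (nat_lit 68766871207) (nat_lit 152) (nat_lit 2075599284) (nat_lit 0) (nat_lit 53285550330) (nat_lit 7) (nat_lit 5) (nat_lit 9) (nat_lit 4) (nat_lit 7) (nat_lit 4) (nat_lit 403) (nat_lit 343) (nat_lit 274))))) (XT.nd (nat_lit 156) (nat_lit 152) (nat_lit 0) (XT.nd (nat_lit 78) (nat_lit 0) (nat_lit 0) (XT.lf (nat_lit 0) (nat_lit 28557811840) (nat_lit 76) (nat_lit 59876377833) (nat_lit 76) (nat_lit 44389363369) (nat_lit 6) (nat_lit 4) (nat_lit 7) (nat_lit 5) (nat_lit 7) (nat_lit 4) (nat_lit 404) (nat_lit 343) (nat_lit 273)) (XT.lf (nat_lit 0) (nat_lit 61738351712) (nat_lit 76) (nat_lit 47982493790) (nat_lit 76) (nat_lit 32490207485) (nat_lit 6) (nat_lit 4) (nat_lit 7) (nat_lit 5) (nat_lit 7) (nat_lit 4) (nat_lit 405) (nat_lit 343) (nat_lit 272))) (XT.nd (nat_lit 78) (nat_lit 152) (nat_lit 0) (XT.lf (nat_lit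 0) (nat_lit 97553348372) (nat_lit 76) (nat_lit 35147086649) (nat_lit 76) (nat_lit 19649919010) (nat_lit 6) (nat_lit 4) (nat_lit 7) (nat_lit 5) (nat_lit 7) (nat_lit 4) (nat_lit 406) (nat_lit 343) (nat_lit 271)) (XT.nd (nat_lit 78) (nat_lit 152) (nat_lit 0) (XT.lf (nat_lit 0) (nat_lit 136215038839) (nat_lit 76) (nat_lit 21294094738) (nat_lit 76) (nat_lit 5792407346) (nat_lit 6) (nat_lit 4) (nat_lit 7) (nat_lit 5) (nat_lit 7) (nat_lit 4) (nat_lit 407) (nat_lit 343) (nat_lit 270)) (XT.lf (nat_lit 0) (nat_lit 2739663768) (nat_lit 76) (nat_lit 6032228595) (nat_lit 152) (nat_lit 166334713690) (nat_lit 4) (nat_lit 5) (nat_lit 5) (nat_lit 5) (nat_lit 6) (nat_lit 4) (nat_lit 408) (nat_lit 343) (nat_lit 269))))))) (XT.nd (nat_lit 702) (nat_lit 152) (nat_lit 0) (XT.nd (nat_lit 312) (nat_lit 76) (nat_lit 0) (XT.nd (nat_lit 156) (nat_lit 0) (nat_lit 0) (XT.nd (nat_lit 78) (nat_lit 0) (nat_lit 0) (XT.lf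 (nat_lit 0) (nat_lit 25190797896) (nat_lit 152) (nat_lit 151743130269) (nat_lit 0) (nat_lit 10829920758) (nat_lit 4) (nat_lit 5) (nat_lit 6) (nat_lit 4) (nat_lit 4) (nat_lit 4) (nat_lit 409) (nat_lit 343) (nat_lit 268)) (XT.lf (nat_lit 0) (nat_lit 43071782578) (nat_lit 152) (nat_lit 129642420841) (nat_lit 0) (nat_lit 28707583286) (nat_lit 4) (nat_lit 5) (nat_lit 6) (nat_lit 4) (nat_lit 4) (nat_lit 4) (nat_lit 410) (nat_lit 343) (nat_lit 267))) (XT.nd (nat_lit 78) (nat_lit 0) (nat_lit 0) (XT.lf (nat_lit 0) (nat_lit 62375732556) (nat_lit 152) (nat_lit 105788771592) (nat_lit 0) (nat_lit 48008457196) (nat_lit 4) (nat_lit 5) (nat_lit 6) (nat_lit 4) (nat_lit 4) (nat_lit 4) (nat_lit 411) (nat_lit 343) (nat_lit 266)) (XT.lf (nat_lit 0) (nat_lit 83217041608) (nat_lit 152) (nat_lit 80040827564) (nat_lit 0) (nat_lit 68846918037) (nat_lit 4) (nat_lit 5) (nat_lit 6) (nat_lit 4) (nat_lit 4) (nat_lit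 4) (nat_lit 412) (nat_lit 343) (nat_lit 265)))) (XT.nd (nat_lit 156) (nat_lit 76) (nat_lit 0) (XT.nd (nat_lit 78) (nat_lit 0) (nat_lit 0) (XT.lf (nat_lit 0) (nat_lit 105719213789) (nat_lit 152) (nat_lit 52246008347) (nat_lit 0) (nat_lit 91346452985) (nat_lit 4) (nat_lit 5) (nat_lit 6) (nat_lit 4) (nat_lit 4) (nat_lit 4) (nat_lit 413) (nat_lit 343) (nat_lit 264)) (XT.lf (nat_lit 0) (nat_lit 130015595303) (nat_lit 152) (nat_lit 22239603902) (nat_lit 0) (nat_lit 115640392617) (nat_lit 4) (nat_lit 5) (nat_lit 6) (nat_lit 4) (nat_lit 4) (nat_lit 4) (nat_lit 414) (nat_lit 343) (nat_lit 263))) (XT.nd (nat_lit 78) (nat_lit 0) (nat_lit 0) (XT.lf (nat_lit 0) (nat_lit 10691009072) (nat_lit 76) (nat_lit 145816274661) (nat_lit 76) (nat_lit 131438810973) (nat_lit 3) (nat_lit 4) (nat_lit 4) (nat_lit 5) (nat_lit 4) (nat_lit 4) (nat_lit 415) (nat_lit 343) (nat_lit 262)) (XT.nd (nat_lit 78) (nat_lit 0)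 (nat_lit 0) (XT.lf (nat_lit 0) (nat_lit 47510026970) (nat_lit 76) (nat_lit 138210976440) (nat_lit 76) (nat_lit 123831419232) (nat_lit 3) (nat_lit 4) (nat_lit 4) (nat_lit 5) (nat_lit 4) (nat_lit 4) (nat_lit 416) (nat_lit 343) (nat_lit 261)) (XT.lf (nat_lit 0) (nat_lit 87264538432) (nat_lit 76) (nat_lit 130002306293) (nat_lit 76) (nat_lit 115620810639) (nat_lit 3) (nat_lit 4) (nat_lit 4) (nat_lit 5) (nat_lit 4) (nat_lit 4) (nat_lit 417) (nat_lit 343) (nat_lit 260)))))) (XT.nd (nat_lit 390) (nat_lit 152) (nat_lit 0) (XT.nd (nat_lit 156) (nat_lit 0) (nat_lit 0) (XT.nd (nat_lit 78) (nat_lit 0) (nat_lit 0) (XT.lf (nat_lit 0) (nat_lit 130190125750) (nat_lit 76) (nat_lit 121141620247) (nat_lit 76) (nat_lit 106758329737) (nat_lit 3) (nat_lit 4) (nat_lit 4) (nat_lit 5) (nat_lit 4) (nat_lit 4) (nat_lit 418) (nat_lit 343) (nat_lit 259)) (XT.lf (nat_lit 0) (nat_lit 176541162773) (nat_lit 76) (nat_lit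 111576410534) (nat_lit 76) (nat_lit 97191458121) (nat_lit 3) (nat_lit 4) (nat_lit 4) (nat_lit 5) (nat_lit 4) (nat_lit 4) (nat_lit 419) (nat_lit 343) (nat_lit 258))) (XT.nd (nat_lit 78) (nat_lit 0) (nat_lit 0) (XT.lf (nat_lit 0) (nat_lit 226592322315) (nat_lit 76) (nat_lit 101249994430) (nat_lit 76) (nat_lit 86863503217) (nat_lit 3) (nat_lit 4) (nat_lit 4) (nat_lit 5) (nat_lit 4) (nat_lit 4) (nat_lit 420) (nat_lit 343) (nat_lit 257)) (XT.nd (nat_lit 78) (nat_lit 0) (nat_lit 0) (XT.lf (nat_lit 0) (nat_lit 280640203838) (nat_lit 76) (nat_lit 90101178358) (nat_lit 76) (nat_lit 75713262330) (nat_lit 3) (nat_lit 4) (nat_lit 4) (nat_lit 5) (nat_lit 4) (nat_lit 4) (nat_lit 421) (nat_lit 343) (nat_lit 256)) (XT.lf (nat_lit 0) (nat_lit 339005091085) (nat_lit 76) (nat_lit 78063895259) (nat_lit 76) (nat_lit 63674659958) (nat_lit 3) (nat_lit 4) (nat_lit 4) (nat_lit 5) (nat_lit 4) (nat_lit 4) (nat_lit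 422) (nat_lit 343) (nat_lit 255))))) (XT.nd (nat_lit 156) (nat_lit 152) (nat_lit 0) (XT.nd (nat_lit 78) (nat_lit 0) (nat_lit 0) (XT.lf (nat_lit 0) (nat_lit 402032850055) (nat_lit 76) (nat_lit 65066813086) (nat_lit 76) (nat_lit 50676356236) (nat_lit 3) (nat_lit 4) (nat_lit 4) (nat_lit 5) (nat_lit 4) (nat_lit 4) (nat_lit 423) (nat_lit 343) (nat_lit 254)) (XT.lf (nat_lit 0) (nat_lit 470096978579) (nat_lit 76) (nat_lit 51032912092) (nat_lit 76) (nat_lit 36641324178) (nat_lit 3) (nat_lit 4) (nat_lit 4) (nat_lit 5) (nat_lit 4) (nat_lit 4) (nat_lit 424) (nat_lit 343) (nat_lit 253))) (XT.nd (nat_lit 78) (nat_lit 152) (nat_lit 0) (XT.lf (nat_lit 0) (nat_lit 543600819640) (nat_lit 76) (nat_lit 35879028420) (nat_lit 76) (nat_lit 21486393224) (nat_lit 3) (nat_lit 4) (nat_lit 4) (nat_lit 5) (nat_lit 4) (nat_lit 4) (nat_lit 425) (nat_lit 343) (nat_lit 252)) (XT.nd (nat_lit 78) (nat_lit 152) (nat_lit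 0) (XT.lf (nat_lit 0) (nat_lit 622979951556) (nat_lit 76) (nat_lit 19515361277) (nat_lit 76) (nat_lit 5121756376) (nat_lit 3) (nat_lit 4) (nat_lit 4) (nat_lit 5) (nat_lit 4) (nat_lit 4) (nat_lit 426) (nat_lit 343) (nat_lit 251)) (XT.lf (nat_lit 0) (nat_lit 10950597159) (nat_lit 76) (nat_lit 1234547040) (nat_lit 152) (nat_lit 685769789425) (nat_lit 1) (nat_lit 5) (nat_lit 2) (nat_lit 5) (nat_lit 3) (nat_lit 4) (nat_lit 427) (nat_lit 343) (nat_lit 250))))))))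
noncomputable def xc105 : XT := (XT.nd (nat_lit 1482) (nat_lit 0) (nat_lit 0) (XT.nd (nat_lit 702) (nat_lit 0) (nat_lit 0) (XT.nd (nat_lit 312) (nat_lit 0) (nat_lit 0) (XT.nd (nat_lit 156) (nat_lit 0) (nat_lit 0) (XT.nd (nat_lit 78) (nat_lit 0) (nat_lit 0) (XT.lf (nat_lit 0) (nat_lit 31733785571) (nat_lit 152) (nat_lit 702079914993) (nat_lit 0) (nat_lit 18404772476) (nat_lit 1) (nat_lit 5) (nat_lit 3) (nat_lit 4) (nat_lit 1) (nat_lit 4) (nat_lit 428) (nat_lit 343) (nat_lit 249)) (XT.lf (nat_lit 0) (nat_lit 52876201097) (nat_lit 152) (nat_lit 718398028820) (nat_lit 0) (nat_lit 39546475241) (nat_lit 1) (nat_lit 5) (nat_lit 3) (nat_lit 4) (nat_lit 1) (nat_lit 4) (nat_lit 429) (nat_lit 343) (nat_lit 248))) (XT.nd (nat_lit 78) (nat_lit 0) (nat_lit 0) (XT.lf (nat_lit 0) (nat_lit 75707988281) (nat_lit 152) (nat_lit 736025686994) (nat_lit 0) (nat_lit 62377602460) (nat_lit 1) (nat_lit 5) (nat_lit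 3) (nat_lit 4) (nat_lit 1) (nat_lit 4) (nat_lit 430) (nat_lit 343) (nat_lit 247)) (XT.lf (nat_lit 0) (nat_lit 100364446602) (nat_lit 152) (nat_lit 755067349710) (nat_lit 0) (nat_lit 87033449702) (nat_lit 1) (nat_lit 5) (nat_lit 3) (nat_lit 4) (nat_lit 1) (nat_lit 4) (nat_lit 431) (nat_lit 343) (nat_lit 246)))) (XT.nd (nat_lit 156) (nat_lit 0) (nat_lit 0) (XT.nd (nat_lit 78) (nat_lit 0) (nat_lit 0) (XT.lf (nat_lit 0) (nat_lit 126991688405) (nat_lit 152) (nat_lit 775635856453) (nat_lit 0) (nat_lit 113660125692) (nat_lit 1) (nat_lit 5) (nat_lit 3) (nat_lit 4) (nat_lit 1) (nat_lit 4) (nat_lit 432) (nat_lit 343) (nat_lit 245)) (XT.lf (nat_lit 0) (nat_lit 155747504754) (nat_lit 152) (nat_lit 797853094669) (nat_lit 0) (nat_lit 142415418139) (nat_lit 1) (nat_lit 5) (nat_lit 3) (nat_lit 4) (nat_lit 1) (nat_lit 4) (nat_lit 433) (nat_lit 343) (nat_lit 244))) (XT.nd (nat_lit 78) (nat_lit 0) (nat_lit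 0) (XT.lf (nat_lit 0) (nat_lit 186802300486) (nat_lit 152) (nat_lit 821850722067) (nat_lit 0) (nat_lit 173469728777) (nat_lit 1) (nat_lit 5) (nat_lit 3) (nat_lit 4) (nat_lit 1) (nat_lit 4) (nat_lit 434) (nat_lit 343) (nat_lit 243)) (XT.nd (nat_lit 78) (nat_lit 0) (nat_lit 0) (XT.lf (nat_lit 0) (nat_lit 220340104019) (nat_lit 152) (nat_lit 847770946808) (nat_lit 0) (nat_lit 207007083150) (nat_lit 1) (nat_lit 5) (nat_lit 3) (nat_lit 4) (nat_lit 1) (nat_lit 4) (nat_lit 435) (nat_lit 343) (nat_lit 242)) (XT.lf (nat_lit 0) (nat_lit 256559657894) (nat_lit 152) (nat_lit 875767370225) (nat_lit 0) (nat_lit 243226221135) (nat_lit 1) (nat_lit 5) (nat_lit 3) (nat_lit 4) (nat_lit 1) (nat_lit 4) (nat_lit 436) (nat_lit 343) (nat_lit 241)))))) (XT.nd (nat_lit 390) (nat_lit 0) (nat_lit 0) (XT.nd (nat_lit 156) (nat_lit 0) (nat_lit 0) (XT.nd (nat_lit 78) (nat_lit 0) (nat_lit 0) (XT.lf (nat_lit 0) (nat_lit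 295675596504) (nat_lit 152) (nat_lit 906005897048) (nat_lit 0) (nat_lit 282341774661) (nat_lit 1) (nat_lit 5) (nat_lit 3) (nat_lit 4) (nat_lit 1) (nat_lit 4) (nat_lit 437) (nat_lit 343) (nat_lit 240)) (XT.lf (nat_lit 0) (nat_lit 337919718003) (nat_lit 152) (nat_lit 938665718548) (nat_lit 0) (nat_lit 324585539602) (nat_lit 1) (nat_lit 5) (nat_lit 3) (nat_lit 4) (nat_lit 1) (nat_lit 4) (nat_lit 438) (nat_lit 343) (nat_lit 239))) (XT.nd (nat_lit 78) (nat_lit 0) (nat_lit 0) (XT.lf (nat_lit 0) (nat_lit 383542357927) (nat_lit 152) (nat_lit 973940374408) (nat_lit 0) (nat_lit 370207849379) (nat_lit 1) (nat_lit 5) (nat_lit 3) (nat_lit 4) (nat_lit 1) (nat_lit 4) (nat_lit 439) (nat_lit 343) (nat_lit 238)) (XT.nd (nat_lit 78) (nat_lit 0) (nat_lit 0) (XT.lf (nat_lit 0) (nat_lit 432813872660) (nat_lit 152) (nat_lit 1012038899626) (nat_lit 0) (nat_lit 419479058420) (nat_lit 1) (nat_lit 5) (nat_lit 3)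 (nat_lit 4) (nat_lit 1) (nat_lit 4) (nat_lit 440) (nat_lit 343) (nat_lit 237)) (XT.lf (nat_lit 0) (nat_lit 486026241548) (nat_lit 152) (nat_lit 1053187063239) (nat_lit 0) (nat_lit 472691144261) (nat_lit 1) (nat_lit 5) (nat_lit 3) (nat_lit 4) (nat_lit 1) (nat_lit 4) (nat_lit 441) (nat_lit 343) (nat_lit 236))))) (XT.nd (nat_lit 156) (nat_lit 0) (nat_lit 0) (XT.nd (nat_lit 78) (nat_lit 0) (nat_lit 0) (XT.lf (nat_lit 0) (nat_lit 543494797148) (nat_lit 152) (nat_lit 1097628706218) (nat_lit 0) (nat_lit 530159437780) (nat_lit 1) (nat_lit 5) (nat_lit 3) (nat_lit 4) (nat_lit 1) (nat_lit 4) (nat_lit 442) (nat_lit 343) (nat_lit 235)) (XT.lf (nat_lit 0) (nat_lit 605560093864) (nat_lit 152) (nat_lit 1145627186446) (nat_lit 0) (nat_lit 592224491828) (nat_lit 1) (nat_lit 5) (nat_lit 3) (nat_lit 4) (nat_lit 1) (nat_lit 4) (nat_lit 443) (nat_lit 343) (nat_lit 234))) (XT.nd (nat_lit 78) (nat_lit 0) (nat_lit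 0) (XT.lf (nat_lit 0) (nat_lit 672589926046) (nat_lit 152) (nat_lit 1197466939363) (nat_lit 0) (nat_lit 659254099318) (nat_lit 1) (nat_lit 5) (nat_lit 3) (nat_lit 4) (nat_lit 1) (nat_lit 4) (nat_lit 444) (nat_lit 343) (nat_lit 233)) (XT.nd (nat_lit 78) (nat_lit 0) (nat_lit 0) (XT.lf (nat_lit 0) (nat_lit 744981507515) (nat_lit 152) (nat_lit 1253455163504) (nat_lit 0) (nat_lit 731645472738) (nat_lit 1) (nat_lit 5) (nat_lit 3) (nat_lit 4) (nat_lit 1) (nat_lit 4) (nat_lit 445) (nat_lit 343) (nat_lit 232)) (XT.lf (nat_lit 0) (nat_lit 823163825420) (nat_lit 152) (nat_lit 1313923640937) (nat_lit 0) (nat_lit 809827598006) (nat_lit 1) (nat_lit 5) (nat_lit 3) (nat_lit 4) (nat_lit 1) (nat_lit 4) (nat_lit 446) (nat_lit 343) (nat_lit 231))))))) (XT.nd (nat_lit 780) (nat_lit 0) (nat_lit 0) (XT.nd (nat_lit 390) (nat_lit 0) (nat_lit 0) (XT.nd (nat_lit 156) (nat_lit 0) (nat_lit 0) (XT.nd (nat_lit 78) (nat_lit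 0) (nat_lit 0) (XT.lf (nat_lit 0) (nat_lit 907600182386) (nat_lit 152) (nat_lit 1379230703381) (nat_lit 0) (nat_lit 894263776604) (nat_lit 1) (nat_lit 5) (nat_lit 3) (nat_lit 4) (nat_lit 1) (nat_lit 4) (nat_lit 447) (nat_lit 343) (nat_lit 230)) (XT.lf (nat_lit 0) (nat_lit 998790942010) (nat_lit 152) (nat_lit 1449763355651) (nat_lit 0) (nat_lit 985454371072) (nat_lit 1) (nat_lit 5) (nat_lit 3) (nat_lit 4) (nat_lit 1) (nat_lit 4) (nat_lit 448) (nat_lit 343) (nat_lit 229))) (XT.nd (nat_lit 78) (nat_lit 0) (nat_lit 0) (XT.lf (nat_lit 0) (nat_lit 1097276493978) (nat_lit 152) (nat_lit 1525939569020) (nat_lit 0) (nat_lit 1083939770118) (nat_lit 1) (nat_lit 5) (nat_lit 3) (nat_lit 4) (nat_lit 1) (nat_lit 4) (nat_lit 449) (nat_lit 343) (nat_lit 228)) (XT.nd (nat_lit 78) (nat_lit 0) (nat_lit 0) (XT.lf (nat_lit 0) (nat_lit 1203640456376) (nat_lit 152) (nat_lit 1608210758084) (nat_lit 0) (nat_lit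 1190303590922) (nat_lit 1) (nat_lit 5) (nat_lit 3) (nat_lit 4) (nat_lit 1) (nat_lit 4) (nat_lit 450) (nat_lit 343) (nat_lit 227)) (XT.lf (nat_lit 0) (nat_lit 1318513134167) (nat_lit 152) (nat_lit 1697064455816) (nat_lit 0) (nat_lit 1305176137607) (nat_lit 1) (nat_lit 5) (nat_lit 3) (nat_lit 4) (nat_lit 1) (nat_lit 4) (nat_lit 451) (nat_lit 343) (nat_lit 226))))) (XT.nd (nat_lit 156) (nat_lit 0) (nat_lit 0) (XT.nd (nat_lit 78) (nat_lit 0) (nat_lit 0) (XT.lf (nat_lit 0) (nat_lit 1442575254329) (nat_lit 152) (nat_lit 1793027202648) (nat_lit 0) (nat_lit 1429238136375) (nat_lit 1) (nat_lit 5) (nat_lit 3) (nat_lit 4) (nat_lit 1) (nat_lit 4) (nat_lit 452) (nat_lit 343) (nat_lit 225)) (XT.lf (nat_lit 0) (nat_lit 1576561999798) (nat_lit 152) (nat_lit 1896667666708) (nat_lit 0) (nat_lit 1563224769441) (nat_lit 1) (nat_lit 5) (nat_lit 3) (nat_lit 4) (nat_lit 1) (nat_lit 4) (nat_lit 453) (nat_lit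 343) (nat_lit 224))) (XT.nd (nat_lit 78) (nat_lit 0) (nat_lit 0) (XT.lf (nat_lit 0) (nat_lit 1721267366101) (nat_lit 152) (nat_lit 2008600013709) (nat_lit 0) (nat_lit 1707930031669) (nat_lit 1) (nat_lit 5) (nat_lit 3) (nat_lit 4) (nat_lit 1) (nat_lit 4) (nat_lit 454) (nat_lit 343) (nat_lit 223)) (XT.nd (nat_lit 78) (nat_lit 0) (nat_lit 0) (XT.lf (nat_lit 0) (nat_lit 1877548866522) (nat_lit 152) (nat_lit 2129487546450) (nat_lit 0) (nat_lit 1864211435723) (nat_lit 1) (nat_lit 5) (nat_lit 3) (nat_lit 4) (nat_lit 1) (nat_lit 4) (nat_lit 455) (nat_lit 343) (nat_lit 222)) (XT.lf (nat_lit 0) (nat_lit 2046332613654) (nat_lit 152) (nat_lit 2260046635493) (nat_lit 0) (nat_lit 2032995093626) (nat_lit 1) (nat_lit 5) (nat_lit 3) (nat_lit 4) (nat_lit 1) (nat_lit 4) (nat_lit 456) (nat_lit 343) (nat_lit 221)))))) (XT.nd (nat_lit 44460) (nat_lit 0) (nat_lit 5168) (XT.nd (nat_lit 156) (nat_lit 0) (nat_lit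 0) (XT.nd (nat_lit 78) (nat_lit 0) (nat_lit 0) (XT.lf (nat_lit 0) (nat_lit 2228618807481) (nat_lit 152) (nat_lit 2401050964329) (nat_lit 0) (nat_lit 2215281204835) (nat_lit 1) (nat_lit 5) (nat_lit 3) (nat_lit 4) (nat_lit 1) (nat_lit 4) (nat_lit 457) (nat_lit 343) (nat_lit 220)) (XT.lf (nat_lit 0) (nat_lit 2425487662485) (nat_lit 152) (nat_lit 2553336114168) (nat_lit 0) (nat_lit 2412149983339) (nat_lit 1) (nat_lit 5) (nat_lit 3) (nat_lit 4) (nat_lit 1) (nat_lit 4) (nat_lit 458) (nat_lit 343) (nat_lit 219))) (XT.nd (nat_lit 44148) (nat_lit 0) (nat_lit 5472) (XT.lf (nat_lit 0) (nat_lit 2638105808917) (nat_lit 152) (nat_lit 2717804515525) (nat_lit 0) (nat_lit 2624768058939) (nat_lit 1) (nat_lit 5) (nat_lit 3) (nat_lit 4) (nat_lit 1) (nat_lit 4) (nat_lit 459) (nat_lit 343) (nat_lit 218)) (XT.nd (nat_lit 78) (nat_lit 0) (nat_lit 0) (XT.lf (nat_lit 0) (nat_lit 111864310) (nat_lit 380) (nat_lit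 1669616749) (nat_lit 380) (nat_lit 1669616749) (nat_lit 73) (nat_lit 3) (nat_lit 78) (nat_lit 3) (nat_lit 78) (nat_lit 5) (nat_lit 344) (nat_lit 344) (nat_lit 332)) (XT.lf (nat_lit 76) (nat_lit 8780574) (nat_lit 0) (nat_lit 2062800009) (nat_lit 380) (nat_lit 4956753894) (nat_lit 74) (nat_lit 5) (nat_lit 73) (nat_lit 3) (nat_lit 78) (nat_lit 5) (nat_lit 345) (nat_lit 344) (nat_lit 331))))) (XT.nd (nat_lit 156) (nat_lit 304) (nat_lit 0) (XT.nd (nat_lit 78) (nat_lit 0) (nat_lit 76) (XT.lf (nat_lit 76) (nat_lit 3709823539) (nat_lit 0) (nat_lit 262261663) (nat_lit 380) (nat_lit 3200377095) (nat_lit 74) (nat_lit 5) (nat_lit 73) (nat_lit 3) (nat_lit 78) (nat_lit 5) (nat_lit 346) (nat_lit 344) (nat_lit 330)) (XT.lf (nat_lit 76) (nat_lit 237387836) (nat_lit 0) (nat_lit 5662568994) (nat_lit 380) (nat_lit 1438400169) (nat_lit 75) (nat_lit 5) (nat_lit 74) (nat_lit 5) (nat_lit 79) (nat_lit 5) (nat_lit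 347) (nat_lit 344) (nat_lit 329))) (XT.nd (nat_lit 78) (nat_lit 0) (nat_lit 0) (XT.lf (nat_lit 0) (nat_lit 380001237) (nat_lit 380) (nat_lit 3218979073) (nat_lit 456) (nat_lit 3922778160) (nat_lit 69) (nat_lit 5) (nat_lit 74) (nat_lit 5) (nat_lit 75) (nat_lit 5) (nat_lit 348) (nat_lit 344) (nat_lit 328)) (XT.nd (nat_lit 78) (nat_lit 0) (nat_lit 76) (XT.lf (nat_lit 76) (nat_lit 869592582) (nat_lit 0) (nat_lit 1264483528) (nat_lit 456) (nat_lit 5593542688) (nat_lit 70) (nat_lit 5) (nat_lit 69) (nat_lit 5) (nat_lit 75) (nat_lit 5) (nat_lit 349) (nat_lit 344) (nat_lit 327)) (XT.lf (nat_lit 0) (nat_lit 4005639715) (nat_lit 380) (nat_lit 2627052631) (nat_lit 76) (nat_lit 1319275742) (nat_lit 70) (nat_lit 5) (nat_lit 75) (nat_lit 5) (nat_lit 71) (nat_lit 5) (nat_lit 350) (nat_lit 344) (nat_lit 326))))))))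
noncomputable def xc106 : XT := (XT.nd (nat_lit 1482) (nat_lit 1368) (nat_lit 0) (XT.nd (nat_lit 702) (nat_lit 1140) (nat_lit 0) (XT.nd (nat_lit 312) (nat_lit 912) (nat_lit 0) (XT.nd (nat_lit 156) (nat_lit 532) (nat_lit 0) (XT.nd (nat_lit 78) (nat_lit 0) (nat_lit 0) (XT.lf (nat_lit 0) (nat_lit 1893195234) (nat_lit 380) (nat_lit 4079366339) (nat_lit 456) (nat_lit 2226231945) (nat_lit 65) (nat_lit 5) (nat_lit 70) (nat_lit 5) (nat_lit 71) (nat_lit 5) (nat_lit 351) (nat_lit 344) (nat_lit 325)) (XT.lf (nat_lit 0) (nat_lit 6816212343) (nat_lit 380) (nat_lit 1226940395) (nat_lit 456) (nat_lit 426672599) (nat_lit 65) (nat_lit 5) (nat_lit 70) (nat_lit 5) (nat_lit 71) (nat_lit 5) (nat_lit 352) (nat_lit 344) (nat_lit 324))) (XT.nd (nat_lit 78) (nat_lit 0) (nat_lit 0) (XT.lf (nat_lit 0) (nat_lit 1451255391) (nat_lit 532) (nat_lit 5413397401) (nat_lit 76) (nat_lit 1894287825) (nat_lit 58) (nat_lit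 5) (nat_lit 65) (nat_lit 5) (nat_lit 59) (nat_lit 5) (nat_lit 353) (nat_lit 344) (nat_lit 323)) (XT.lf (nat_lit 0) (nat_lit 3421803024) (nat_lit 532) (nat_lit 386374350) (nat_lit 76) (nat_lit 5265017668) (nat_lit 58) (nat_lit 5) (nat_lit 65) (nat_lit 5) (nat_lit 59) (nat_lit 5) (nat_lit 354) (nat_lit 344) (nat_lit 322)))) (XT.nd (nat_lit 156) (nat_lit 304) (nat_lit 0) (XT.nd (nat_lit 78) (nat_lit 228) (nat_lit 0) (XT.lf (nat_lit 0) (nat_lit 5197870498) (nat_lit 380) (nat_lit 372670987) (nat_lit 456) (nat_lit 3840526294) (nat_lit 53) (nat_lit 5) (nat_lit 58) (nat_lit 5) (nat_lit 59) (nat_lit 5) (nat_lit 355) (nat_lit 344) (nat_lit 321)) (XT.lf (nat_lit 0) (nat_lit 1352543415) (nat_lit 228) (nat_lit 6563014759) (nat_lit 304) (nat_lit 1858574535) (nat_lit 50) (nat_lit 5) (nat_lit 53) (nat_lit 5) (nat_lit 54) (nat_lit 5) (nat_lit 356) (nat_lit 344) (nat_lit 320))) (XT.nd (nat_lit 78) (nat_lit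 228) (nat_lit 0) (XT.lf (nat_lit 0) (nat_lit 298652908) (nat_lit 304) (nat_lit 2686016876) (nat_lit 76) (nat_lit 7178661397) (nat_lit 49) (nat_lit 5) (nat_lit 53) (nat_lit 5) (nat_lit 50) (nat_lit 5) (nat_lit 357) (nat_lit 344) (nat_lit 319)) (XT.nd (nat_lit 78) (nat_lit 0) (nat_lit 0) (XT.lf (nat_lit 0) (nat_lit 2547422029) (nat_lit 304) (nat_lit 7072065160) (nat_lit 76) (nat_lit 958855854) (nat_lit 46) (nat_lit 5) (nat_lit 50) (nat_lit 5) (nat_lit 47) (nat_lit 5) (nat_lit 358) (nat_lit 344) (nat_lit 318)) (XT.lf (nat_lit 0) (nat_lit 5042932008) (nat_lit 304) (nat_lit 861648239) (nat_lit 76) (nat_lit 5116711302) (nat_lit 46) (nat_lit 5) (nat_lit 50) (nat_lit 5) (nat_lit 47) (nat_lit 5) (nat_lit 359) (nat_lit 344) (nat_lit 317)))))) (XT.nd (nat_lit 390) (nat_lit 532) (nat_lit 0) (XT.nd (nat_lit 156) (nat_lit 228) (nat_lit 0) (XT.nd (nat_lit 78) (nat_lit 228) (nat_lit 0) (XT.lf (nat_lit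 0) (nat_lit 6047912980) (nat_lit 152) (nat_lit 1755962475) (nat_lit 228) (nat_lit 3690613773) (nat_lit 44) (nat_lit 5) (nat_lit 46) (nat_lit 5) (nat_lit 47) (nat_lit 5) (nat_lit 360) (nat_lit 344) (nat_lit 316)) (XT.lf (nat_lit 0) (nat_lit 1459103474) (nat_lit 228) (nat_lit 9374750986) (nat_lit 304) (nat_lit 1167906478) (nat_lit 41) (nat_lit 5) (nat_lit 44) (nat_lit 5) (nat_lit 45) (nat_lit 5) (nat_lit 361) (nat_lit 344) (nat_lit 315))) (XT.nd (nat_lit 78) (nat_lit 152) (nat_lit 0) (XT.lf (nat_lit 0) (nat_lit 1601803499) (nat_lit 304) (nat_lit 3502371329) (nat_lit 76) (nat_lit 7432661159) (nat_lit 40) (nat_lit 5) (nat_lit 44) (nat_lit 5) (nat_lit 41) (nat_lit 5) (nat_lit 362) (nat_lit 344) (nat_lit 314)) (XT.nd (nat_lit 78) (nat_lit 0) (nat_lit 0) (XT.lf (nat_lit 0) (nat_lit 4183069956) (nat_lit 152) (nat_lit 377764778) (nat_lit 228) (nat_lit 8549044529) (nat_lit 38) (nat_lit 5) (nat_lit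 40) (nat_lit 5) (nat_lit 41) (nat_lit 5) (nat_lit 363) (nat_lit 344) (nat_lit 313)) (XT.lf (nat_lit 0) (nat_lit 7900982959) (nat_lit 228) (nat_lit 1254009063) (nat_lit 76) (nat_lit 4562274625) (nat_lit 38) (nat_lit 5) (nat_lit 41) (nat_lit 5) (nat_lit 39) (nat_lit 5) (nat_lit 364) (nat_lit 344) (nat_lit 312))))) (XT.nd (nat_lit 156) (nat_lit 152) (nat_lit 0) (XT.nd (nat_lit 78) (nat_lit 228) (nat_lit 0) (XT.lf (nat_lit 0) (nat_lit 7295857092) (nat_lit 152) (nat_lit 4335233473) (nat_lit 228) (nat_lit 2732382991) (nat_lit 36) (nat_lit 5) (nat_lit 38) (nat_lit 5) (nat_lit 39) (nat_lit 5) (nat_lit 365) (nat_lit 344) (nat_lit 311)) (XT.lf (nat_lit 0) (nat_lit 600541784) (nat_lit 228) (nat_lit 13572120433) (nat_lit 76) (nat_lit 885026214) (nat_lit 33) (nat_lit 5) (nat_lit 36) (nat_lit 5) (nat_lit 34) (nat_lit 5) (nat_lit 366) (nat_lit 344) (nat_lit 310))) (XT.nd (nat_lit 78) (nat_lit 152) (nat_lit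 0) (XT.lf (nat_lit 0) (nat_lit 4303327785) (nat_lit 228) (nat_lit 4950178111) (nat_lit 76) (nat_lit 6528227543) (nat_lit 33) (nat_lit 5) (nat_lit 36) (nat_lit 5) (nat_lit 34) (nat_lit 5) (nat_lit 367) (nat_lit 344) (nat_lit 309)) (XT.nd (nat_lit 78) (nat_lit 0) (nat_lit 0) (XT.lf (nat_lit 0) (nat_lit 4499031179) (nat_lit 152) (nat_lit 3855936015) (nat_lit 228) (nat_lit 8204559939) (nat_lit 31) (nat_lit 5) (nat_lit 33) (nat_lit 5) (nat_lit 34) (nat_lit 5) (nat_lit 368) (nat_lit 344) (nat_lit 308)) (XT.lf (nat_lit 0) (nat_lit 12862788661) (nat_lit 228) (nat_lit 2542874979) (nat_lit 76) (nat_lit 1983349510) (nat_lit 31) (nat_lit 5) (nat_lit 34) (nat_lit 5) (nat_lit 32) (nat_lit 4) (nat_lit 369) (nat_lit 344) (nat_lit 307))))))) (XT.nd (nat_lit 780) (nat_lit 532) (nat_lit 0) (XT.nd (nat_lit 390) (nat_lit 456) (nat_lit 0) (XT.nd (nat_lit 156) (nat_lit 76) (nat_lit 0) (XT.nd (nat_lit 78) (nat_lit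 228) (nat_lit 0) (XT.lf (nat_lit 0) (nat_lit 7951470070) (nat_lit 76) (nat_lit 10020900685) (nat_lit 152) (nat_lit 293226960) (nat_lit 30) (nat_lit 5) (nat_lit 31) (nat_lit 5) (nat_lit 32) (nat_lit 4) (nat_lit 370) (nat_lit 344) (nat_lit 306)) (XT.lf (nat_lit 0) (nat_lit 37549711) (nat_lit 152) (nat_lit 4049328402) (nat_lit 228) (nat_lit 15115426085) (nat_lit 27) (nat_lit 5) (nat_lit 29) (nat_lit 5) (nat_lit 30) (nat_lit 5) (nat_lit 371) (nat_lit 344) (nat_lit 305))) (XT.nd (nat_lit 78) (nat_lit 76) (nat_lit 0) (XT.lf (nat_lit 0) (nat_lit 9099810551) (nat_lit 228) (nat_lit 8543949405) (nat_lit 76) (nat_lit 2545741254) (nat_lit 27) (nat_lit 5) (nat_lit 30) (nat_lit 5) (nat_lit 28) (nat_lit 4) (nat_lit 372) (nat_lit 344) (nat_lit 304)) (XT.nd (nat_lit 78) (nat_lit 0) (nat_lit 0) (XT.lf (nat_lit 0) (nat_lit 2888194984) (nat_lit 76) (nat_lit 11755045313) (nat_lit 152) (nat_lit 6602099060)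 (nat_lit 26) (nat_lit 5) (nat_lit 27) (nat_lit 5) (nat_lit 28) (nat_lit 4) (nat_lit 373) (nat_lit 344) (nat_lit 303)) (XT.lf (nat_lit 0) (nat_lit 15645151190) (nat_lit 76) (nat_lit 5174950834) (nat_lit 152) (nat_lit 1550366654) (nat_lit 26) (nat_lit 5) (nat_lit 27) (nat_lit 5) (nat_lit 28) (nat_lit 4) (nat_lit 374) (nat_lit 344) (nat_lit 302))))) (XT.nd (nat_lit 156) (nat_lit 228) (nat_lit 0) (XT.nd (nat_lit 78) (nat_lit 0) (nat_lit 0) (XT.lf (nat_lit 0) (nat_lit 3864100019) (nat_lit 228) (nat_lit 17652341105) (nat_lit 76) (nat_lit 2049353611) (nat_lit 23) (nat_lit 5) (nat_lit 26) (nat_lit 5) (nat_lit 24) (nat_lit 4) (nat_lit 375) (nat_lit 344) (nat_lit 301)) (XT.lf (nat_lit 0) (nat_lit 9910202387) (nat_lit 228) (nat_lit 5148620379) (nat_lit 76) (nat_lit 9772139952) (nat_lit 23) (nat_lit 5) (nat_lit 26) (nat_lit 5) (nat_lit 24) (nat_lit 4) (nat_lit 376) (nat_lit 344) (nat_lit 300))) (XT.nd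 (nat_lit 78) (nat_lit 152) (nat_lit 0) (XT.lf (nat_lit 0) (nat_lit 8724299125) (nat_lit 76) (nat_lit 7887704038) (nat_lit 152) (nat_lit 9571595396) (nat_lit 22) (nat_lit 5) (nat_lit 23) (nat_lit 5) (nat_lit 24) (nat_lit 4) (nat_lit 377) (nat_lit 344) (nat_lit 299)) (XT.nd (nat_lit 78) (nat_lit 152) (nat_lit 0) (XT.lf (nat_lit 0) (nat_lit 23934044600) (nat_lit 76) (nat_lit 20084286) (nat_lit 152) (nat_lit 3681996020) (nat_lit 22) (nat_lit 5) (nat_lit 23) (nat_lit 5) (nat_lit 24) (nat_lit 4) (nat_lit 378) (nat_lit 344) (nat_lit 298)) (XT.lf (nat_lit 0) (nat_lit 3001320116) (nat_lit 152) (nat_lit 17783028328) (nat_lit 76) (nat_lit 8378838909) (nat_lit 20) (nat_lit 5) (nat_lit 22) (nat_lit 5) (nat_lit 21) (nat_lit 4) (nat_lit 379) (nat_lit 344) (nat_lit 297)))))) (XT.nd (nat_lit 390) (nat_lit 304) (nat_lit 0) (XT.nd (nat_lit 156) (nat_lit 152) (nat_lit 0) (XT.nd (nat_lit 78) (nat_lit 76) (nat_lit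 0) (XT.lf (nat_lit 0) (nat_lit 10090419064) (nat_lit 152) (nat_lit 3086821704) (nat_lit 76) (nat_lit 17621931052) (nat_lit 20) (nat_lit 5) (nat_lit 22) (nat_lit 5) (nat_lit 21) (nat_lit 4) (nat_lit 380) (nat_lit 344) (nat_lit 296)) (XT.lf (nat_lit 0) (nat_lit 13396686426) (nat_lit 76) (nat_lit 4640361897) (nat_lit 152) (nat_lit 14505764900) (nat_lit 19) (nat_lit 5) (nat_lit 20) (nat_lit 5) (nat_lit 21) (nat_lit 4) (nat_lit 381) (nat_lit 344) (nat_lit 295))) (XT.nd (nat_lit 78) (nat_lit 152) (nat_lit 0) (XT.lf (nat_lit 0) (nat_lit 26784697888) (nat_lit 152) (nat_lit 3216008672) (nat_lit 0) (nat_lit 4412025783) (nat_lit 19) (nat_lit 5) (nat_lit 21) (nat_lit 4) (nat_lit 19) (nat_lit 4) (nat_lit 382) (nat_lit 344) (nat_lit 294)) (XT.nd (nat_lit 78) (nat_lit 0) (nat_lit 0) (XT.lf (nat_lit 0) (nat_lit 262500219) (nat_lit 152) (nat_lit 21862775716) (nat_lit 76) (nat_lit 14271156119) (nat_lit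 17) (nat_lit 5) (nat_lit 19) (nat_lit 5) (nat_lit 18) (nat_lit 4) (nat_lit 383) (nat_lit 344) (nat_lit 293)) (XT.lf (nat_lit 0) (nat_lit 8433408459) (nat_lit 152) (nat_lit 4900716271) (nat_lit 76) (nat_lit 25183960751) (nat_lit 17) (nat_lit 5) (nat_lit 19) (nat_lit 5) (nat_lit 18) (nat_lit 4) (nat_lit 384) (nat_lit 344) (nat_lit 292))))) (XT.nd (nat_lit 156) (nat_lit 228) (nat_lit 0) (XT.nd (nat_lit 78) (nat_lit 0) (nat_lit 0) (XT.lf (nat_lit 0) (nat_lit 14071576905) (nat_lit 76) (nat_lit 3498007802) (nat_lit 152) (nat_lit 23214965906) (nat_lit 16) (nat_lit 5) (nat_lit 17) (nat_lit 5) (nat_lit 18) (nat_lit 4) (nat_lit 385) (nat_lit 344) (nat_lit 291)) (XT.lf (nat_lit 0) (nat_lit 27718898235) (nat_lit 152) (nat_lit 8606981954) (nat_lit 0) (nat_lit 6883879846) (nat_lit 16) (nat_lit 5) (nat_lit 18) (nat_lit 4) (nat_lit 16) (nat_lit 4) (nat_lit 386) (nat_lit 344) (nat_lit 290))) (XT.nd (nat_lit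 78) (nat_lit 152) (nat_lit 0) (XT.lf (nat_lit 0) (nat_lit 11378717828) (nat_lit 76) (nat_lit 27641336426) (nat_lit 76) (nat_lit 6781746215) (nat_lit 15) (nat_lit 4) (nat_lit 16) (nat_lit 5) (nat_lit 16) (nat_lit 4) (nat_lit 387) (nat_lit 344) (nat_lit 289)) (XT.nd (nat_lit 78) (nat_lit 76) (nat_lit 0) (XT.lf (nat_lit 0) (nat_lit 2709747679) (nat_lit 152) (nat_lit 15246066724) (nat_lit 76) (nat_lit 30622992785) (nat_lit 14) (nat_lit 5) (nat_lit 16) (nat_lit 5) (nat_lit 15) (nat_lit 4) (nat_lit 388) (nat_lit 344) (nat_lit 288)) (XT.lf (nat_lit 0) (nat_lit 5521436990) (nat_lit 76) (nat_lit 7182815541) (nat_lit 152) (nat_lit 38850828225) (nat_lit 13) (nat_lit 5) (nat_lit 14) (nat_lit 5) (nat_lit 15) (nat_lit 4) (nat_lit 389) (nat_lit 344) (nat_lit 287))))))))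
noncomputable def xc107 : XT := (XT.nd (nat_lit 1482) (nat_lit 380) (nat_lit 0) (XT.nd (nat_lit 702) (nat_lit 228) (nat_lit 0) (XT.nd (nat_lit 312) (nat_lit 228) (nat_lit 0) (XT.nd (nat_lit 156) (nat_lit 76) (nat_lit 0) (XT.nd (nat_lit 78) (nat_lit 0) (nat_lit 0) (XT.lf (nat_lit 0) (nat_lit 24010524474) (nat_lit 152) (nat_lit 26080503860) (nat_lit 0) (nat_lit 4637455788) (nat_lit 13) (nat_lit 5) (nat_lit 15) (nat_lit 4) (nat_lit 13) (nat_lit 4) (nat_lit 390) (nat_lit 344) (nat_lit 286)) (XT.lf (nat_lit 0) (nat_lit 36386988480) (nat_lit 152) (nat_lit 4758323545) (nat_lit 0) (nat_lit 16997196624) (nat_lit 13) (nat_lit 5) (nat_lit 15) (nat_lit 4) (nat_lit 13) (nat_lit 4) (nat_lit 391) (nat_lit 344) (nat_lit 285))) (XT.nd (nat_lit 78) (nat_lit 0) (nat_lit 0) (XT.lf (nat_lit 0) (nat_lit 19192062414) (nat_lit 76) (nat_lit 31003746820) (nat_lit 76) (nat_lit 11598470549) (nat_lit 12) (nat_lit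 4) (nat_lit 13) (nat_lit 5) (nat_lit 13) (nat_lit 4) (nat_lit 392) (nat_lit 344) (nat_lit 284)) (XT.lf (nat_lit 0) (nat_lit 45292408603) (nat_lit 76) (nat_lit 19928247785) (nat_lit 76) (nat_lit 508634091) (nat_lit 12) (nat_lit 4) (nat_lit 13) (nat_lit 5) (nat_lit 13) (nat_lit 4) (nat_lit 393) (nat_lit 344) (nat_lit 283)))) (XT.nd (nat_lit 156) (nat_lit 76) (nat_lit 0) (XT.nd (nat_lit 78) (nat_lit 0) (nat_lit 0) (XT.lf (nat_lit 0) (nat_lit 3358989382) (nat_lit 76) (nat_lit 7598644495) (nat_lit 152) (nat_lit 58994370787) (nat_lit 10) (nat_lit 5) (nat_lit 11) (nat_lit 5) (nat_lit 12) (nat_lit 4) (nat_lit 394) (nat_lit 344) (nat_lit 282)) (XT.lf (nat_lit 0) (nat_lit 24006778454) (nat_lit 152) (nat_lit 44447277935) (nat_lit 0) (nat_lit 6001981126) (nat_lit 10) (nat_lit 5) (nat_lit 12) (nat_lit 4) (nat_lit 10) (nat_lit 4) (nat_lit 395) (nat_lit 344) (nat_lit 281))) (XT.nd (nat_lit 78) (nat_lit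 76) (nat_lit 0) (XT.lf (nat_lit 0) (nat_lit 38280794595) (nat_lit 152) (nat_lit 20759666962) (nat_lit 0) (nat_lit 20265458834) (nat_lit 10) (nat_lit 5) (nat_lit 12) (nat_lit 4) (nat_lit 10) (nat_lit 4) (nat_lit 396) (nat_lit 344) (nat_lit 280)) (XT.nd (nat_lit 78) (nat_lit 0) (nat_lit 0) (XT.lf (nat_lit 0) (nat_lit 5045323775) (nat_lit 76) (nat_lit 48757537863) (nat_lit 76) (nat_lit 30732444293) (nat_lit 9) (nat_lit 4) (nat_lit 10) (nat_lit 5) (nat_lit 10) (nat_lit 4) (nat_lit 397) (nat_lit 344) (nat_lit 279)) (XT.lf (nat_lit 0) (nat_lit 34066077702) (nat_lit 76) (nat_lit 37053434962) (nat_lit 76) (nat_lit 19019306384) (nat_lit 9) (nat_lit 4) (nat_lit 10) (nat_lit 5) (nat_lit 10) (nat_lit 4) (nat_lit 398) (nat_lit 344) (nat_lit 278)))))) (XT.nd (nat_lit 390) (nat_lit 76) (nat_lit 0) (XT.nd (nat_lit 156) (nat_lit 76) (nat_lit 0) (XT.nd (nat_lit 78) (nat_lit 76) (nat_lit 0) (XT.lf (nat_lit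 0) (nat_lit 65381402381) (nat_lit 76) (nat_lit 24426401294) (nat_lit 76) (nat_lit 6383906968) (nat_lit 9) (nat_lit 4) (nat_lit 10) (nat_lit 5) (nat_lit 10) (nat_lit 4) (nat_lit 399) (nat_lit 344) (nat_lit 277)) (XT.lf (nat_lit 0) (nat_lit 6886024547) (nat_lit 152) (nat_lit 3727309331) (nat_lit 76) (nat_lit 92102569447) (nat_lit 8) (nat_lit 5) (nat_lit 10) (nat_lit 5) (nat_lit 9) (nat_lit 4) (nat_lit 400) (nat_lit 344) (nat_lit 276))) (XT.nd (nat_lit 78) (nat_lit 0) (nat_lit 0) (XT.lf (nat_lit 0) (nat_lit 21626152205) (nat_lit 152) (nat_lit 83156010057) (nat_lit 0) (nat_lit 4906325659) (nat_lit 7) (nat_lit 5) (nat_lit 9) (nat_lit 4) (nat_lit 7) (nat_lit 4) (nat_lit 401) (nat_lit 344) (nat_lit 275)) (XT.nd (nat_lit 78) (nat_lit 0) (nat_lit 0) (XT.lf (nat_lit 0) (nat_lit 37913729307) (nat_lit 152) (nat_lit 58087938669) (nat_lit 0) (nat_lit 21187753685) (nat_lit 7) (nat_lit 5) (nat_lit 9)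 (nat_lit 4) (nat_lit 7) (nat_lit 4) (nat_lit 402) (nat_lit 344) (nat_lit 274)) (XT.lf (nat_lit 0) (nat_lit 55493210662) (nat_lit 152) (nat_lit 31036567541) (nat_lit 0) (nat_lit 38761541453) (nat_lit 7) (nat_lit 5) (nat_lit 9) (nat_lit 4) (nat_lit 7) (nat_lit 4) (nat_lit 403) (nat_lit 344) (nat_lit 273))))) (XT.nd (nat_lit 156) (nat_lit 0) (nat_lit 0) (XT.nd (nat_lit 78) (nat_lit 76) (nat_lit 0) (XT.lf (nat_lit 0) (nat_lit 74468770975) (nat_lit 152) (nat_lit 1841592252) (nat_lit 0) (nat_lit 57731829926) (nat_lit 7) (nat_lit 5) (nat_lit 9) (nat_lit 4) (nat_lit 7) (nat_lit 4) (nat_lit 404) (nat_lit 344) (nat_lit 272)) (XT.lf (nat_lit 0) (nat_lit 31232363788) (nat_lit 76) (nat_lit 64471633323) (nat_lit 76) (nat_lit 47729810940) (nat_lit 6) (nat_lit 4) (nat_lit 7) (nat_lit 5) (nat_lit 7) (nat_lit 4) (nat_lit 405) (nat_lit 344) (nat_lit 271))) (XT.nd (nat_lit 78) (nat_lit 0) (nat_lit 0) (XT.lf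 (nat_lit 0) (nat_lit 67038463368) (nat_lit 76) (nat_lit 51640672241) (nat_lit 76) (nat_lit 34894330104) (nat_lit 6) (nat_lit 4) (nat_lit 7) (nat_lit 5) (nat_lit 7) (nat_lit 4) (nat_lit 406) (nat_lit 344) (nat_lit 270)) (XT.nd (nat_lit 78) (nat_lit 0) (nat_lit 0) (XT.lf (nat_lit 0) (nat_lit 105691915797) (nat_lit 76) (nat_lit 37791797051) (nat_lit 76) (nat_lit 21041269957) (nat_lit 6) (nat_lit 4) (nat_lit 7) (nat_lit 5) (nat_lit 7) (nat_lit 4) (nat_lit 407) (nat_lit 344) (nat_lit 269)) (XT.lf (nat_lit 0) (nat_lit 147421778571) (nat_lit 76) (nat_lit 22842940345) (nat_lit 76) (nat_lit 6088538291) (nat_lit 6) (nat_lit 4) (nat_lit 7) (nat_lit 5) (nat_lit 7) (nat_lit 4) (nat_lit 408) (nat_lit 344) (nat_lit 268))))))) (XT.nd (nat_lit 780) (nat_lit 152) (nat_lit 0) (XT.nd (nat_lit 390) (nat_lit 76) (nat_lit 0) (XT.nd (nat_lit 156) (nat_lit 0) (nat_lit 0) (XT.nd (nat_lit 78) (nat_lit 0) (nat_lit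 0) (XT.lf (nat_lit 0) (nat_lit 3268709205) (nat_lit 76) (nat_lit 6359511556) (nat_lit 152) (nat_lit 179474531654) (nat_lit 4) (nat_lit 5) (nat_lit 5) (nat_lit 5) (nat_lit 6) (nat_lit 4) (nat_lit 409) (nat_lit 344) (nat_lit 267)) (XT.lf (nat_lit 0) (nat_lit 27352646789) (nat_lit 152) (nat_lit 163587655133) (nat_lit 0) (nat_lit 11832913331) (nat_lit 4) (nat_lit 5) (nat_lit 6) (nat_lit 4) (nat_lit 4) (nat_lit 4) (nat_lit 410) (nat_lit 344) (nat_lit 266))) (XT.nd (nat_lit 78) (nat_lit 0) (nat_lit 0) (XT.lf (nat_lit 0) (nat_lit 46653252092) (nat_lit 152) (nat_lit 139740735288) (nat_lit 0) (nat_lit 31130670423) (nat_lit 4) (nat_lit 5) (nat_lit 6) (nat_lit 4) (nat_lit 4) (nat_lit 4) (nat_lit 411) (nat_lit 344) (nat_lit 265)) (XT.nd (nat_lit 78) (nat_lit 0) (nat_lit 0) (XT.lf (nat_lit 0) (nat_lit 67491464223) (nat_lit 152) (nat_lit 113999022190) (nat_lit 0) (nat_lit 51966245322) (nat_lit 4) (nat_lit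 5) (nat_lit 6) (nat_lit 4) (nat_lit 4) (nat_lit 4) (nat_lit 412) (nat_lit 344) (nat_lit 264)) (XT.lf (nat_lit 0) (nat_lit 89990768884) (nat_lit 152) (nat_lit 86209972353) (nat_lit 0) (nat_lit 74463108101) (nat_lit 4) (nat_lit 5) (nat_lit 6) (nat_lit 4) (nat_lit 4) (nat_lit 4) (nat_lit 413) (nat_lit 344) (nat_lit 263))))) (XT.nd (nat_lit 156) (nat_lit 76) (nat_lit 0) (XT.nd (nat_lit 78) (nat_lit 0) (nat_lit 0) (XT.lf (nat_lit 0) (nat_lit 114284495288) (nat_lit 152) (nat_lit 56208909926) (nat_lit 0) (nat_lit 98754573503) (nat_lit 4) (nat_lit 5) (nat_lit 6) (nat_lit 4) (nat_lit 4) (nat_lit 4) (nat_lit 414) (nat_lit 344) (nat_lit 262)) (XT.lf (nat_lit 0) (nat_lit 140516606257) (nat_lit 152) (nat_lit 23818050836) (nat_lit 0) (nat_lit 124984590951) (nat_lit 4) (nat_lit 5) (nat_lit 6) (nat_lit 4) (nat_lit 4) (nat_lit 4) (nat_lit 415) (nat_lit 344) (nat_lit 261))) (XT.nd (nat_lit 78) (nat_lit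 0) (nat_lit 0) (XT.lf (nat_lit 0) (nat_lit 11741929623) (nat_lit 76) (nat_lit 157383015405) (nat_lit 76) (nat_lit 141849061654) (nat_lit 3) (nat_lit 4) (nat_lit 4) (nat_lit 5) (nat_lit 4) (nat_lit 4) (nat_lit 416) (nat_lit 344) (nat_lit 260)) (XT.nd (nat_lit 78) (nat_lit 0) (nat_lit 0) (XT.lf (nat_lit 0) (nat_lit 51491977113) (nat_lit 76) (nat_lit 149176594158) (nat_lit 76) (nat_lit 133640845551) (nat_lit 3) (nat_lit 4) (nat_lit 4) (nat_lit 5) (nat_lit 4) (nat_lit 4) (nat_lit 417) (nat_lit 344) (nat_lit 259)) (XT.lf (nat_lit 0) (nat_lit 94413431123) (nat_lit 76) (nat_lit 140317990428) (nat_lit 76) (nat_lit 124780579917) (nat_lit 3) (nat_lit 4) (nat_lit 4) (nat_lit 5) (nat_lit 4) (nat_lit 4) (nat_lit 418) (nat_lit 344) (nat_lit 258)))))) (XT.nd (nat_lit 390) (nat_lit 152) (nat_lit 0) (XT.nd (nat_lit 156) (nat_lit 0) (nat_lit 0) (XT.nd (nat_lit 78) (nat_lit 0) (nat_lit 0) (XT.lf (nat_lit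 0) (nat_lit 140760641010) (nat_lit 76) (nat_lit 130754708785) (nat_lit 76) (nat_lit 115215759475) (nat_lit 3) (nat_lit 4) (nat_lit 4) (nat_lit 5) (nat_lit 4) (nat_lit 4) (nat_lit 419) (nat_lit 344) (nat_lit 257)) (XT.lf (nat_lit 0) (nat_lit 190808256907) (nat_lit 76) (nat_lit 120430077931) (nat_lit 76) (nat_lit 104889703806) (nat_lit 3) (nat_lit 4) (nat_lit 4) (nat_lit 5) (nat_lit 4) (nat_lit 4) (nat_lit 420) (nat_lit 344) (nat_lit 256))) (XT.nd (nat_lit 78) (nat_lit 0) (nat_lit 0) (XT.lf (nat_lit 0) (nat_lit 244852857277) (nat_lit 76) (nat_lit 109282914868) (nat_lit 76) (nat_lit 93741221470) (nat_lit 3) (nat_lit 4) (nat_lit 4) (nat_lit 5) (nat_lit 4) (nat_lit 4) (nat_lit 421) (nat_lit 344) (nat_lit 255)) (XT.nd (nat_lit 78) (nat_lit 0) (nat_lit 0) (XT.lf (nat_lit 0) (nat_lit 303214706420) (nat_lit 76) (nat_lit 97247162334) (nat_lit 76) (nat_lit 81704247386) (nat_lit 3) (nat_lit 4) (nat_lit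 4) (nat_lit 5) (nat_lit 4) (nat_lit 4) (nat_lit 422) (nat_lit 344) (nat_lit 254)) (XT.lf (nat_lit 0) (nat_lit 366239652331) (nat_lit 76) (nat_lit 84251497349) (nat_lit 76) (nat_lit 68707451338) (nat_lit 3) (nat_lit 4) (nat_lit 4) (nat_lit 5) (nat_lit 4) (nat_lit 4) (nat_lit 423) (nat_lit 344) (nat_lit 253))))) (XT.nd (nat_lit 156) (nat_lit 152) (nat_lit 0) (XT.nd (nat_lit 78) (nat_lit 0) (nat_lit 0) (XT.lf (nat_lit 0) (nat_lit 434301176170) (nat_lit 76) (nat_lit 70218908568) (nat_lit 76) (nat_lit 54673815275) (nat_lit 3) (nat_lit 4) (nat_lit 4) (nat_lit 5) (nat_lit 4) (nat_lit 4) (nat_lit 424) (nat_lit 344) (nat_lit 252)) (XT.lf (nat_lit 0) (nat_lit 507802605486) (nat_lit 76) (nat_lit 55066239906) (nat_lit 76) (nat_lit 39520176908) (nat_lit 3) (nat_lit 4) (nat_lit 4) (nat_lit 5) (nat_lit 4) (nat_lit 4) (nat_lit 425) (nat_lit 344) (nat_lit 251))) (XT.nd (nat_lit 78) (nat_lit 152) (nat_lit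 0) (XT.lf (nat_lit 0) (nat_lit 587179504304) (nat_lit 76) (nat_lit 38703697774) (nat_lit 76) (nat_lit 23156736901) (nat_lit 3) (nat_lit 4) (nat_lit 4) (nat_lit 5) (nat_lit 4) (nat_lit 4) (nat_lit 426) (nat_lit 344) (nat_lit 250)) (XT.nd (nat_lit 78) (nat_lit 152) (nat_lit 0) (XT.lf (nat_lit 0) (nat_lit 672902254248) (nat_lit 76) (nat_lit 21034318957) (nat_lit 76) (nat_lit 5486526718) (nat_lit 3) (nat_lit 4) (nat_lit 4) (nat_lit 5) (nat_lit 4) (nat_lit 4) (nat_lit 427) (nat_lit 344) (nat_lit 249)) (XT.lf (nat_lit 0) (nat_lit 11910623526) (nat_lit 76) (nat_lit 1290907987) (nat_lit 152) (nat_lit 740586467314) (nat_lit 1) (nat_lit 5) (nat_lit 2) (nat_lit 5) (nat_lit 3) (nat_lit 4) (nat_lit 428) (nat_lit 344) (nat_lit 248))))))))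
noncomputable def xc108 : XT := (XT.nd (nat_lit 1482) (nat_lit 0) (nat_lit 0) (XT.nd (nat_lit 702) (nat_lit 0) (nat_lit 0) (XT.nd (nat_lit 312) (nat_lit 0) (nat_lit 0) (XT.nd (nat_lit 156) (nat_lit 0) (nat_lit 0) (XT.nd (nat_lit 78) (nat_lit 0) (nat_lit 0) (XT.lf (nat_lit 0) (nat_lit 34311928755) (nat_lit 152) (nat_lit 758166411626) (nat_lit 0) (nat_lit 19914452104) (nat_lit 1) (nat_lit 5) (nat_lit 3) (nat_lit 4) (nat_lit 1) (nat_lit 4) (nat_lit 429) (nat_lit 344) (nat_lit 247)) (XT.lf (nat_lit 0) (nat_lit 57142816017) (nat_lit 152) (nat_lit 775795892823) (nat_lit 0) (nat_lit 42744728287) (nat_lit 1) (nat_lit 5) (nat_lit 3) (nat_lit 4) (nat_lit 1) (nat_lit 4) (nat_lit 430) (nat_lit 344) (nat_lit 246))) (XT.nd (nat_lit 78) (nat_lit 0) (nat_lit 0) (XT.lf (nat_lit 0) (nat_lit 81798441077) (nat_lit 152) (nat_lit 794839243525) (nat_lit 0) (nat_lit 67399787533) (nat_lit 1) (nat_lit 5) (nat_lit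 3) (nat_lit 4) (nat_lit 1) (nat_lit 4) (nat_lit 431) (nat_lit 344) (nat_lit 245)) (XT.lf (nat_lit 0) (nat_lit 108424911343) (nat_lit 152) (nat_lit 815409313217) (nat_lit 0) (nat_lit 94025733897) (nat_lit 1) (nat_lit 5) (nat_lit 3) (nat_lit 4) (nat_lit 1) (nat_lit 4) (nat_lit 432) (nat_lit 344) (nat_lit 244)))) (XT.nd (nat_lit 156) (nat_lit 0) (nat_lit 0) (XT.nd (nat_lit 78) (nat_lit 0) (nat_lit 0) (XT.lf (nat_lit 0) (nat_lit 137180013305) (nat_lit 152) (nat_lit 837627998608) (nat_lit 0) (nat_lit 122780350765) (nat_lit 1) (nat_lit 5) (nat_lit 3) (nat_lit 4) (nat_lit 1) (nat_lit 4) (nat_lit 433) (nat_lit 344) (nat_lit 243)) (XT.lf (nat_lit 0) (nat_lit 168234147567) (nat_lit 152) (nat_lit 861626965982) (nat_lit 0) (nat_lit 153834035866) (nat_lit 1) (nat_lit 5) (nat_lit 3) (nat_lit 4) (nat_lit 1) (nat_lit 4) (nat_lit 434) (nat_lit 344) (nat_lit 242))) (XT.nd (nat_lit 78) (nat_lit 0) (nat_lit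 0) (XT.lf (nat_lit 0) (nat_lit 201771338629) (nat_lit 152) (nat_lit 887548431443) (nat_lit 0) (nat_lit 187370811038) (nat_lit 1) (nat_lit 5) (nat_lit 3) (nat_lit 4) (nat_lit 1) (nat_lit 4) (nat_lit 435) (nat_lit 344) (nat_lit 241)) (XT.nd (nat_lit 78) (nat_lit 0) (nat_lit 0) (XT.lf (nat_lit 0) (nat_lit 237990325400) (nat_lit 152) (nat_lit 915546003674) (nat_lit 0) (nat_lit 223589412727) (nat_lit 1) (nat_lit 5) (nat_lit 3) (nat_lit 4) (nat_lit 1) (nat_lit 4) (nat_lit 436) (nat_lit 344) (nat_lit 240)) (XT.lf (nat_lit 0) (nat_lit 277105738914) (nat_lit 152) (nat_lit 945785594214) (nat_lit 0) (nat_lit 262704469682) (nat_lit 1) (nat_lit 5) (nat_lit 3) (nat_lit 4) (nat_lit 1) (nat_lit 4) (nat_lit 437) (nat_lit 344) (nat_lit 239)))))) (XT.nd (nat_lit 390) (nat_lit 0) (nat_lit 0) (XT.nd (nat_lit 156) (nat_lit 0) (nat_lit 0) (XT.nd (nat_lit 78) (nat_lit 0) (nat_lit 0) (XT.lf (nat_lit 0) (nat_lit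 319349374214) (nat_lit 152) (nat_lit 978446400637) (nat_lit 0) (nat_lit 304947774835) (nat_lit 1) (nat_lit 5) (nat_lit 3) (nat_lit 4) (nat_lit 1) (nat_lit 4) (nat_lit 438) (nat_lit 344) (nat_lit 238)) (XT.lf (nat_lit 0) (nat_lit 364971563952) (nat_lit 152) (nat_lit 1013721968463) (nat_lit 0) (nat_lit 350569658882) (nat_lit 1) (nat_lit 5) (nat_lit 3) (nat_lit 4) (nat_lit 1) (nat_lit 4) (nat_lit 439) (nat_lit 344) (nat_lit 237))) (XT.nd (nat_lit 78) (nat_lit 0) (nat_lit 0) (XT.lf (nat_lit 0) (nat_lit 414242661847) (nat_lit 152) (nat_lit 1051821338093) (nat_lit 0) (nat_lit 399840473729) (nat_lit 1) (nat_lit 5) (nat_lit 3) (nat_lit 4) (nat_lit 1) (nat_lit 4) (nat_lit 440) (nat_lit 344) (nat_lit 236)) (XT.nd (nat_lit 78) (nat_lit 0) (nat_lit 0) (XT.lf (nat_lit 0) (nat_lit 467454644774) (nat_lit 152) (nat_lit 1092970283570) (nat_lit 0) (nat_lit 453052194575) (nat_lit 1) (nat_lit 5) (nat_lit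 3) (nat_lit 4) (nat_lit 1) (nat_lit 4) (nat_lit 441) (nat_lit 344) (nat_lit 235)) (XT.lf (nat_lit 0) (nat_lit 524922843003) (nat_lit 152) (nat_lit 1137412650497) (nat_lit 0) (nat_lit 510520150136) (nat_lit 1) (nat_lit 5) (nat_lit 3) (nat_lit 4) (nat_lit 1) (nat_lit 4) (nat_lit 442) (nat_lit 344) (nat_lit 234))))) (XT.nd (nat_lit 156) (nat_lit 0) (nat_lit 0) (XT.nd (nat_lit 78) (nat_lit 0) (nat_lit 0) (XT.lf (nat_lit 0) (nat_lit 586987808819) (nat_lit 152) (nat_lit 1185411801047) (nat_lit 0) (nat_lit 572584891260) (nat_lit 1) (nat_lit 5) (nat_lit 3) (nat_lit 4) (nat_lit 1) (nat_lit 4) (nat_lit 443) (nat_lit 344) (nat_lit 233)) (XT.lf (nat_lit 0) (nat_lit 654017334613) (nat_lit 152) (nat_lit 1237252174632) (nat_lit 0) (nat_lit 639614209005) (nat_lit 1) (nat_lit 5) (nat_lit 3) (nat_lit 4) (nat_lit 1) (nat_lit 4) (nat_lit 444) (nat_lit 344) (nat_lit 232))) (XT.nd (nat_lit 78) (nat_lit 0) (nat_lit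 0) (XT.lf (nat_lit 0) (nat_lit 726408632389) (nat_lit 152) (nat_lit 1293240973466) (nat_lit 0) (nat_lit 712005314144) (nat_lit 1) (nat_lit 5) (nat_lit 3) (nat_lit 4) (nat_lit 1) (nat_lit 4) (nat_lit 445) (nat_lit 344) (nat_lit 231)) (XT.nd (nat_lit 78) (nat_lit 0) (nat_lit 0) (XT.lf (nat_lit 0) (nat_lit 804590687615) (nat_lit 152) (nat_lit 1353709983023) (nat_lit 0) (nat_lit 790187191002) (nat_lit 1) (nat_lit 5) (nat_lit 3) (nat_lit 4) (nat_lit 1) (nat_lit 4) (nat_lit 446) (nat_lit 344) (nat_lit 230)) (XT.lf (nat_lit 0) (nat_lit 889026801360) (nat_lit 152) (nat_lit 1419017538174) (nat_lit 0) (nat_lit 874623139592) (nat_lit 1) (nat_lit 5) (nat_lit 3) (nat_lit 4) (nat_lit 1) (nat_lit 4) (nat_lit 447) (nat_lit 344) (nat_lit 229))))))) (XT.nd (nat_lit 702) (nat_lit 0) (nat_lit 0) (XT.nd (nat_lit 312) (nat_lit 0) (nat_lit 0) (XT.nd (nat_lit 156) (nat_lit 0) (nat_lit 0) (XT.nd (nat_lit 78) (nat_lit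 0) (nat_lit 0) (XT.lf (nat_lit 0) (nat_lit 980217335779) (nat_lit 152) (nat_lit 1489550646654) (nat_lit 0) (nat_lit 965813521089) (nat_lit 1) (nat_lit 5) (nat_lit 3) (nat_lit 4) (nat_lit 1) (nat_lit 4) (nat_lit 448) (nat_lit 344) (nat_lit 228)) (XT.lf (nat_lit 0) (nat_lit 1078702679225) (nat_lit 152) (nat_lit 1565727282439) (nat_lit 0) (nat_lit 1064298722940) (nat_lit 1) (nat_lit 5) (nat_lit 3) (nat_lit 4) (nat_lit 1) (nat_lit 4) (nat_lit 449) (nat_lit 344) (nat_lit 227))) (XT.nd (nat_lit 78) (nat_lit 0) (nat_lit 0) (XT.lf (nat_lit 0) (nat_lit 1185066448546) (nat_lit 152) (nat_lit 1647998862629) (nat_lit 0) (nat_lit 1170662361156) (nat_lit 1) (nat_lit 5) (nat_lit 3) (nat_lit 4) (nat_lit 1) (nat_lit 4) (nat_lit 450) (nat_lit 344) (nat_lit 226)) (XT.lf (nat_lit 0) (nat_lit 1299938947562) (nat_lit 152) (nat_lit 1736852922516) (nat_lit 0) (nat_lit 1285534738777) (nat_lit 1) (nat_lit 5) (nat_lit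 3) (nat_lit 4) (nat_lit 1) (nat_lit 4) (nat_lit 451) (nat_lit 344) (nat_lit 225)))) (XT.nd (nat_lit 156) (nat_lit 0) (nat_lit 0) (XT.nd (nat_lit 78) (nat_lit 0) (nat_lit 0) (XT.lf (nat_lit 0) (nat_lit 1424000902192) (nat_lit 152) (nat_lit 1832816004675) (nat_lit 0) (nat_lit 1409596581005) (nat_lit 1) (nat_lit 5) (nat_lit 3) (nat_lit 4) (nat_lit 1) (nat_lit 4) (nat_lit 452) (nat_lit 344) (nat_lit 224)) (XT.lf (nat_lit 0) (nat_lit 1557987494391) (nat_lit 152) (nat_lit 1936456779224) (nat_lit 0) (nat_lit 1543583069128) (nat_lit 1) (nat_lit 5) (nat_lit 3) (nat_lit 4) (nat_lit 1) (nat_lit 4) (nat_lit 453) (nat_lit 344) (nat_lit 223))) (XT.nd (nat_lit 78) (nat_lit 0) (nat_lit 0) (XT.lf (nat_lit 0) (nat_lit 1702692718777) (nat_lit 152) (nat_lit 2048389413715) (nat_lit 0) (nat_lit 1688288197148) (nat_lit 1) (nat_lit 5) (nat_lit 3) (nat_lit 4) (nat_lit 1) (nat_lit 4) (nat_lit 454) (nat_lit 344)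 (nat_lit 222)) (XT.nd (nat_lit 78) (nat_lit 0) (nat_lit 0) (XT.lf (nat_lit 0) (nat_lit 1858974087793) (nat_lit 152) (nat_lit 2169277212649) (nat_lit 0) (nat_lit 1844569476935) (nat_lit 1) (nat_lit 5) (nat_lit 3) (nat_lit 4) (nat_lit 1) (nat_lit 4) (nat_lit 455) (nat_lit 344) (nat_lit 221)) (XT.lf (nat_lit 0) (nat_lit 2027757713254) (nat_lit 152) (nat_lit 2299836548169) (nat_lit 0) (nat_lit 2013353019777) (nat_lit 1) (nat_lit 5) (nat_lit 3) (nat_lit 4) (nat_lit 1) (nat_lit 4) (nat_lit 456) (nat_lit 344) (nat_lit 220)))))) (XT.nd (nat_lit 44538) (nat_lit 0) (nat_lit 5168) (XT.nd (nat_lit 156) (nat_lit 0) (nat_lit 0) (XT.nd (nat_lit 78) (nat_lit 0) (nat_lit 0) (XT.lf (nat_lit 0) (nat_lit 2210043794423) (nat_lit 152) (nat_lit 2440841105224) (nat_lit 0) (nat_lit 2195639024447) (nat_lit 1) (nat_lit 5) (nat_lit 3) (nat_lit 4) (nat_lit 1) (nat_lit 4) (nat_lit 457) (nat_lit 344) (nat_lit 219))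 (XT.lf (nat_lit 0) (nat_lit 2406912545113) (nat_lit 152) (nat_lit 2593126466376) (nat_lit 0) (nat_lit 2392507704305) (nat_lit 1) (nat_lit 5) (nat_lit 3) (nat_lit 4) (nat_lit 1) (nat_lit 4) (nat_lit 458) (nat_lit 344) (nat_lit 218))) (XT.nd (nat_lit 44226) (nat_lit 0) (nat_lit 5472) (XT.lf (nat_lit 0) (nat_lit 2619530594959) (nat_lit 152) (nat_lit 2757595063393) (nat_lit 0) (nat_lit 2605125688565) (nat_lit 1) (nat_lit 5) (nat_lit 3) (nat_lit 4) (nat_lit 1) (nat_lit 4) (nat_lit 459) (nat_lit 344) (nat_lit 217)) (XT.nd (nat_lit 78) (nat_lit 0) (nat_lit 0) (XT.lf (nat_lit 0) (nat_lit 1915284521) (nat_lit 380) (nat_lit 832787455) (nat_lit 380) (nat_lit 832787455) (nat_lit 73) (nat_lit 3) (nat_lit 78) (nat_lit 3) (nat_lit 78) (nat_lit 5) (nat_lit 345) (nat_lit 345) (nat_lit 330)) (XT.lf (nat_lit 76) (nat_lit 1901146178) (nat_lit 0) (nat_lit 3704749963) (nat_lit 380) (nat_lit 1710091086) (nat_lit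 74) (nat_lit 5) (nat_lit 73) (nat_lit 3) (nat_lit 78) (nat_lit 5) (nat_lit 346) (nat_lit 345) (nat_lit 329))))) (XT.nd (nat_lit 156) (nat_lit 0) (nat_lit 0) (XT.nd (nat_lit 78) (nat_lit 304) (nat_lit 0) (XT.lf (nat_lit 76) (nat_lit 5758149383) (nat_lit 0) (nat_lit 1650766627) (nat_lit 380) (nat_lit 83071041) (nat_lit 74) (nat_lit 5) (nat_lit 73) (nat_lit 3) (nat_lit 78) (nat_lit 5) (nat_lit 347) (nat_lit 345) (nat_lit 328)) (XT.lf (nat_lit 0) (nat_lit 1509237226) (nat_lit 380) (nat_lit 5483342555) (nat_lit 456) (nat_lit 692964905) (nat_lit 69) (nat_lit 5) (nat_lit 74) (nat_lit 5) (nat_lit 75) (nat_lit 5) (nat_lit 348) (nat_lit 345) (nat_lit 327))) (XT.nd (nat_lit 78) (nat_lit 0) (nat_lit 0) (XT.lf (nat_lit 0) (nat_lit 3174288780) (nat_lit 380) (nat_lit 1487290826) (nat_lit 456) (nat_lit 3237040137) (nat_lit 69) (nat_lit 5) (nat_lit 74) (nat_lit 5) (nat_lit 75) (nat_lit 5) (nat_lit 349)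 (nat_lit 345) (nat_lit 326)) (XT.nd (nat_lit 78) (nat_lit 0) (nat_lit 76) (XT.lf (nat_lit 76) (nat_lit 2878006901) (nat_lit 0) (nat_lit 2032579653) (nat_lit 456) (nat_lit 3223289731) (nat_lit 70) (nat_lit 5) (nat_lit 69) (nat_lit 5) (nat_lit 75) (nat_lit 5) (nat_lit 350) (nat_lit 345) (nat_lit 325)) (XT.lf (nat_lit 0) (nat_lit 6724002461) (nat_lit 380) (nat_lit 830884628) (nat_lit 76) (nat_lit 838174717) (nat_lit 70) (nat_lit 5) (nat_lit 75) (nat_lit 5) (nat_lit 71) (nat_lit 5) (nat_lit 351) (nat_lit 345) (nat_lit 324))))))))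
noncomputable def xc109 : XT := (XT.nd (nat_lit 1482) (nat_lit 1368) (nat_lit 0) (XT.nd (nat_lit 702) (nat_lit 988) (nat_lit 0) (XT.nd (nat_lit 312) (nat_lit 684) (nat_lit 0) (XT.nd (nat_lit 156) (nat_lit 380) (nat_lit 0) (XT.nd (nat_lit 78) (nat_lit 456) (nat_lit 0) (XT.lf (nat_lit 0) (nat_lit 44996344) (nat_lit 456) (nat_lit 4671269278) (nat_lit 76) (nat_lit 3953963221) (nat_lit 64) (nat_lit 5) (nat_lit 70) (nat_lit 5) (nat_lit 65) (nat_lit 5) (nat_lit 352) (nat_lit 345) (nat_lit 323)) (XT.lf (nat_lit 0) (nat_lit 159991831) (nat_lit 456) (nat_lit 1562631060) (nat_lit 532) (nat_lit 7250280118) (nat_lit 58) (nat_lit 5) (nat_lit 64) (nat_lit 5) (nat_lit 65) (nat_lit 5) (nat_lit 353) (nat_lit 345) (nat_lit 322))) (XT.nd (nat_lit 78) (nat_lit 380) (nat_lit 0) (XT.lf (nat_lit 0) (nat_lit 3605367146) (nat_lit 532) (nat_lit 3798767669) (nat_lit 76) (nat_lit 1890105408) (nat_lit 58) (nat_lit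 5) (nat_lit 65) (nat_lit 5) (nat_lit 59) (nat_lit 5) (nat_lit 354) (nat_lit 345) (nat_lit 321)) (XT.lf (nat_lit 0) (nat_lit 1556603229) (nat_lit 380) (nat_lit 4063427904) (nat_lit 456) (nat_lit 4022861973) (nat_lit 53) (nat_lit 5) (nat_lit 58) (nat_lit 5) (nat_lit 59) (nat_lit 5) (nat_lit 355) (nat_lit 345) (nat_lit 320)))) (XT.nd (nat_lit 156) (nat_lit 456) (nat_lit 0) (XT.nd (nat_lit 78) (nat_lit 228) (nat_lit 0) (XT.lf (nat_lit 0) (nat_lit 7461719563) (nat_lit 380) (nat_lit 346176377) (nat_lit 456) (nat_lit 2210684417) (nat_lit 53) (nat_lit 5) (nat_lit 58) (nat_lit 5) (nat_lit 59) (nat_lit 5) (nat_lit 356) (nat_lit 345) (nat_lit 319)) (XT.lf (nat_lit 0) (nat_lit 3402353600) (nat_lit 228) (nat_lit 6853390613) (nat_lit 304) (nat_lit 161878660) (nat_lit 50) (nat_lit 5) (nat_lit 53) (nat_lit 5) (nat_lit 54) (nat_lit 5) (nat_lit 357) (nat_lit 345) (nat_lit 318))) (XT.nd (nat_lit 78) (nat_lit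 380) (nat_lit 0) (XT.lf (nat_lit 0) (nat_lit 1945756589) (nat_lit 304) (nat_lit 1016022590) (nat_lit 76) (nat_lit 7883145374) (nat_lit 49) (nat_lit 5) (nat_lit 53) (nat_lit 5) (nat_lit 50) (nat_lit 5) (nat_lit 358) (nat_lit 345) (nat_lit 317)) (XT.nd (nat_lit 78) (nat_lit 152) (nat_lit 0) (XT.lf (nat_lit 0) (nat_lit 4305347538) (nat_lit 304) (nat_lit 5682378549) (nat_lit 76) (nat_lit 1311057373) (nat_lit 46) (nat_lit 5) (nat_lit 50) (nat_lit 5) (nat_lit 47) (nat_lit 5) (nat_lit 359) (nat_lit 345) (nat_lit 316)) (XT.lf (nat_lit 0) (nat_lit 926363917) (nat_lit 152) (nat_lit 5981292603) (nat_lit 228) (nat_lit 4877049521) (nat_lit 44) (nat_lit 5) (nat_lit 46) (nat_lit 5) (nat_lit 47) (nat_lit 5) (nat_lit 360) (nat_lit 345) (nat_lit 315)))))) (XT.nd (nat_lit 390) (nat_lit 380) (nat_lit 0) (XT.nd (nat_lit 156) (nat_lit 304) (nat_lit 0) (XT.nd (nat_lit 78) (nat_lit 304) (nat_lit 0) (XT.lf (nat_lit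 0) (nat_lit 8296511495) (nat_lit 152) (nat_lit 1506534127) (nat_lit 228) (nat_lit 2499730937) (nat_lit 44) (nat_lit 5) (nat_lit 46) (nat_lit 5) (nat_lit 47) (nat_lit 5) (nat_lit 361) (nat_lit 345) (nat_lit 314)) (XT.lf (nat_lit 0) (nat_lit 162772245) (nat_lit 304) (nat_lit 9463563448) (nat_lit 76) (nat_lit 3228011859) (nat_lit 40) (nat_lit 5) (nat_lit 44) (nat_lit 5) (nat_lit 41) (nat_lit 5) (nat_lit 362) (nat_lit 345) (nat_lit 313))) (XT.nd (nat_lit 78) (nat_lit 304) (nat_lit 0) (XT.lf (nat_lit 0) (nat_lit 2990145887) (nat_lit 304) (nat_lit 2030550499) (nat_lit 76) (nat_lit 8417252148) (nat_lit 40) (nat_lit 5) (nat_lit 44) (nat_lit 5) (nat_lit 41) (nat_lit 5) (nat_lit 363) (nat_lit 345) (nat_lit 312)) (XT.nd (nat_lit 78) (nat_lit 152) (nat_lit 0) (XT.lf (nat_lit 0) (nat_lit 6135827382) (nat_lit 228) (nat_lit 7837928235) (nat_lit 76) (nat_lit 87160877) (nat_lit 38) (nat_lit 5) (nat_lit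 41) (nat_lit 5) (nat_lit 39) (nat_lit 5) (nat_lit 364) (nat_lit 345) (nat_lit 311)) (XT.lf (nat_lit 0) (nat_lit 322169534) (nat_lit 152) (nat_lit 9348212414) (nat_lit 228) (nat_lit 5052407216) (nat_lit 36) (nat_lit 5) (nat_lit 38) (nat_lit 5) (nat_lit 39) (nat_lit 5) (nat_lit 365) (nat_lit 345) (nat_lit 310))))) (XT.nd (nat_lit 156) (nat_lit 152) (nat_lit 0) (XT.nd (nat_lit 78) (nat_lit 228) (nat_lit 0) (XT.lf (nat_lit 0) (nat_lit 9497873742) (nat_lit 152) (nat_lit 4148525534) (nat_lit 228) (nat_lit 1778557942) (nat_lit 36) (nat_lit 5) (nat_lit 38) (nat_lit 5) (nat_lit 39) (nat_lit 5) (nat_lit 366) (nat_lit 345) (nat_lit 309)) (XT.lf (nat_lit 0) (nat_lit 1732759409) (nat_lit 228) (nat_lit 12949858801) (nat_lit 76) (nat_lit 1492258191) (nat_lit 33) (nat_lit 5) (nat_lit 36) (nat_lit 5) (nat_lit 34) (nat_lit 5) (nat_lit 367) (nat_lit 345) (nat_lit 308))) (XT.nd (nat_lit 78) (nat_lit 152)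 (nat_lit 0) (XT.lf (nat_lit 0) (nat_lit 5651459084) (nat_lit 228) (nat_lit 3764681927) (nat_lit 76) (nat_lit 7547180079) (nat_lit 33) (nat_lit 5) (nat_lit 36) (nat_lit 5) (nat_lit 34) (nat_lit 5) (nat_lit 368) (nat_lit 345) (nat_lit 307)) (XT.nd (nat_lit 78) (nat_lit 0) (nat_lit 0) (XT.lf (nat_lit 0) (nat_lit 6400425868) (nat_lit 152) (nat_lit 3589515846) (nat_lit 228) (nat_lit 7816427144) (nat_lit 31) (nat_lit 5) (nat_lit 33) (nat_lit 5) (nat_lit 34) (nat_lit 5) (nat_lit 369) (nat_lit 345) (nat_lit 306)) (XT.lf (nat_lit 0) (nat_lit 14799592664) (nat_lit 228) (nat_lit 1259669421) (nat_lit 76) (nat_lit 2647699389) (nat_lit 31) (nat_lit 5) (nat_lit 34) (nat_lit 5) (nat_lit 32) (nat_lit 4) (nat_lit 370) (nat_lit 345) (nat_lit 305))))))) (XT.nd (nat_lit 780) (nat_lit 532) (nat_lit 0) (XT.nd (nat_lit 390) (nat_lit 456) (nat_lit 0) (XT.nd (nat_lit 156) (nat_lit 76) (nat_lit 0) (XT.nd (nat_lit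 78) (nat_lit 152) (nat_lit 0) (XT.lf (nat_lit 0) (nat_lit 597764416) (nat_lit 152) (nat_lit 9634851517) (nat_lit 76) (nat_lit 9422478534) (nat_lit 29) (nat_lit 5) (nat_lit 31) (nat_lit 5) (nat_lit 30) (nat_lit 5) (nat_lit 371) (nat_lit 345) (nat_lit 304)) (XT.lf (nat_lit 0) (nat_lit 1499450324) (nat_lit 152) (nat_lit 3781508669) (nat_lit 228) (nat_lit 15387722280) (nat_lit 27) (nat_lit 5) (nat_lit 29) (nat_lit 5) (nat_lit 30) (nat_lit 5) (nat_lit 372) (nat_lit 345) (nat_lit 303))) (XT.nd (nat_lit 78) (nat_lit 76) (nat_lit 0) (XT.lf (nat_lit 0) (nat_lit 10643871893) (nat_lit 228) (nat_lit 7825176551) (nat_lit 76) (nat_lit 3269922289) (nat_lit 27) (nat_lit 5) (nat_lit 30) (nat_lit 5) (nat_lit 28) (nat_lit 4) (nat_lit 373) (nat_lit 345) (nat_lit 302)) (XT.nd (nat_lit 78) (nat_lit 0) (nat_lit 0) (XT.lf (nat_lit 0) (nat_lit 4486038407) (nat_lit 76) (nat_lit 12117158781) (nat_lit 152) (nat_lit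 6278315010) (nat_lit 26) (nat_lit 5) (nat_lit 27) (nat_lit 5) (nat_lit 28) (nat_lit 4) (nat_lit 374) (nat_lit 345) (nat_lit 301)) (XT.lf (nat_lit 0) (nat_lit 18162307566) (nat_lit 76) (nat_lit 5053493052) (nat_lit 152) (nat_lit 885551565) (nat_lit 26) (nat_lit 5) (nat_lit 27) (nat_lit 5) (nat_lit 28) (nat_lit 4) (nat_lit 375) (nat_lit 345) (nat_lit 300))))) (XT.nd (nat_lit 156) (nat_lit 228) (nat_lit 0) (XT.nd (nat_lit 78) (nat_lit 0) (nat_lit 0) (XT.lf (nat_lit 0) (nat_lit 4910874561) (nat_lit 228) (nat_lit 17747167877) (nat_lit 76) (nat_lit 2733706867) (nat_lit 23) (nat_lit 5) (nat_lit 26) (nat_lit 5) (nat_lit 24) (nat_lit 4) (nat_lit 376) (nat_lit 345) (nat_lit 299)) (XT.lf (nat_lit 0) (nat_lit 11386024634) (nat_lit 228) (nat_lit 4340731754) (nat_lit 76) (nat_lit 11035767598) (nat_lit 23) (nat_lit 5) (nat_lit 26) (nat_lit 5) (nat_lit 24) (nat_lit 4) (nat_lit 377) (nat_lit 345) (nat_lit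 298))) (XT.nd (nat_lit 78) (nat_lit 152) (nat_lit 0) (XT.lf (nat_lit 0) (nat_lit 10611140849) (nat_lit 76) (nat_lit 7990828603) (nat_lit 152) (nat_lit 9623181634) (nat_lit 22) (nat_lit 5) (nat_lit 23) (nat_lit 5) (nat_lit 24) (nat_lit 4) (nat_lit 378) (nat_lit 345) (nat_lit 297)) (XT.nd (nat_lit 78) (nat_lit 152) (nat_lit 0) (XT.lf (nat_lit 0) (nat_lit 26493735533) (nat_lit 152) (nat_lit 2859449746) (nat_lit 0) (nat_lit 443731519) (nat_lit 22) (nat_lit 5) (nat_lit 24) (nat_lit 4) (nat_lit 22) (nat_lit 4) (nat_lit 379) (nat_lit 345) (nat_lit 296)) (XT.lf (nat_lit 0) (nat_lit 3861601959) (nat_lit 152) (nat_lit 18063352666) (nat_lit 76) (nat_lit 9521471290) (nat_lit 20) (nat_lit 5) (nat_lit 22) (nat_lit 5) (nat_lit 21) (nat_lit 4) (nat_lit 380) (nat_lit 345) (nat_lit 295)))))) (XT.nd (nat_lit 390) (nat_lit 304) (nat_lit 0) (XT.nd (nat_lit 156) (nat_lit 152) (nat_lit 0) (XT.nd (nat_lit 78)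 (nat_lit 76) (nat_lit 0) (XT.lf (nat_lit 0) (nat_lit 11471889842) (nat_lit 152) (nat_lit 2276065655) (nat_lit 76) (nat_lit 19469023748) (nat_lit 20) (nat_lit 5) (nat_lit 22) (nat_lit 5) (nat_lit 21) (nat_lit 4) (nat_lit 381) (nat_lit 345) (nat_lit 294)) (XT.lf (nat_lit 0) (nat_lit 15499345865) (nat_lit 76) (nat_lit 4537161243) (nat_lit 152) (nat_lit 15065038115) (nat_lit 19) (nat_lit 5) (nat_lit 20) (nat_lit 5) (nat_lit 21) (nat_lit 4) (nat_lit 382) (nat_lit 345) (nat_lit 293))) (XT.nd (nat_lit 78) (nat_lit 152) (nat_lit 0) (XT.lf (nat_lit 0) (nat_lit 29453311648) (nat_lit 152) (nat_lit 2487912015) (nat_lit 0) (nat_lit 5182299619) (nat_lit 19) (nat_lit 5) (nat_lit 21) (nat_lit 4) (nat_lit 19) (nat_lit 4) (nat_lit 383) (nat_lit 345) (nat_lit 292)) (XT.nd (nat_lit 78) (nat_lit 0) (nat_lit 0) (XT.lf (nat_lit 0) (nat_lit 806873249) (nat_lit 152) (nat_lit 22623669088) (nat_lit 76) (nat_lit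 15835596739) (nat_lit 17) (nat_lit 5) (nat_lit 19) (nat_lit 5) (nat_lit 18) (nat_lit 4) (nat_lit 384) (nat_lit 345) (nat_lit 291)) (XT.lf (nat_lit 0) (nat_lit 9592685777) (nat_lit 152) (nat_lit 4377839605) (nat_lit 76) (nat_lit 27590111065) (nat_lit 17) (nat_lit 5) (nat_lit 19) (nat_lit 5) (nat_lit 18) (nat_lit 4) (nat_lit 385) (nat_lit 345) (nat_lit 290))))) (XT.nd (nat_lit 156) (nat_lit 228) (nat_lit 0) (XT.nd (nat_lit 78) (nat_lit 0) (nat_lit 0) (XT.lf (nat_lit 0) (nat_lit 16089074139) (nat_lit 76) (nat_lit 3356232461) (nat_lit 152) (nat_lit 24564277595) (nat_lit 16) (nat_lit 5) (nat_lit 17) (nat_lit 5) (nat_lit 18) (nat_lit 4) (nat_lit 386) (nat_lit 345) (nat_lit 289)) (XT.lf (nat_lit 0) (nat_lit 30381127678) (nat_lit 152) (nat_lit 8444279701) (nat_lit 0) (nat_lit 7805446740) (nat_lit 16) (nat_lit 5) (nat_lit 18) (nat_lit 4) (nat_lit 16) (nat_lit 4) (nat_lit 387) (nat_lit 345) (nat_lit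 288))) (XT.nd (nat_lit 78) (nat_lit 152) (nat_lit 0) (XT.lf (nat_lit 0) (nat_lit 13118725157) (nat_lit 76) (nat_lit 29454663522) (nat_lit 76) (nat_lit 6857916207) (nat_lit 15) (nat_lit 4) (nat_lit 16) (nat_lit 5) (nat_lit 16) (nat_lit 4) (nat_lit 388) (nat_lit 345) (nat_lit 287)) (XT.nd (nat_lit 78) (nat_lit 76) (nat_lit 0) (XT.lf (nat_lit 0) (nat_lit 3336749720) (nat_lit 152) (nat_lit 15675813802) (nat_lit 76) (nat_lit 33419643689) (nat_lit 14) (nat_lit 5) (nat_lit 16) (nat_lit 5) (nat_lit 15) (nat_lit 4) (nat_lit 389) (nat_lit 345) (nat_lit 286)) (XT.lf (nat_lit 0) (nat_lit 6733091772) (nat_lit 76) (nat_lit 7385853427) (nat_lit 152) (nat_lit 41528593473) (nat_lit 13) (nat_lit 5) (nat_lit 14) (nat_lit 5) (nat_lit 15) (nat_lit 4) (nat_lit 390) (nat_lit 345) (nat_lit 285))))))))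
noncomputable def xc110 : XT := (XT.nd (nat_lit 1482) (nat_lit 380) (nat_lit 0) (XT.nd (nat_lit 702) (nat_lit 228) (nat_lit 0) (XT.nd (nat_lit 312) (nat_lit 228) (nat_lit 0) (XT.nd (nat_lit 156) (nat_lit 76) (nat_lit 0) (XT.nd (nat_lit 78) (nat_lit 0) (nat_lit 0) (XT.lf (nat_lit 0) (nat_lit 26308486015) (nat_lit 152) (nat_lit 27432729648) (nat_lit 0) (nat_lit 5335303226) (nat_lit 13) (nat_lit 5) (nat_lit 15) (nat_lit 4) (nat_lit 13) (nat_lit 4) (nat_lit 391) (nat_lit 345) (nat_lit 284)) (XT.lf (nat_lit 0) (nat_lit 39647132358) (nat_lit 152) (nat_lit 4459161169) (nat_lit 0) (nat_lit 18659612146) (nat_lit 13) (nat_lit 5) (nat_lit 15) (nat_lit 4) (nat_lit 13) (nat_lit 4) (nat_lit 392) (nat_lit 345) (nat_lit 283))) (XT.nd (nat_lit 78) (nat_lit 0) (nat_lit 0) (XT.lf (nat_lit 0) (nat_lit 21390044825) (nat_lit 76) (nat_lit 33160684372) (nat_lit 76) (nat_lit 12159888769) (nat_lit 12) (nat_lit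 4) (nat_lit 13) (nat_lit 5) (nat_lit 13) (nat_lit 4) (nat_lit 393) (nat_lit 345) (nat_lit 282)) (XT.lf (nat_lit 0) (nat_lit 49529335938) (nat_lit 76) (nat_lit 21223098169) (nat_lit 76) (nat_lit 210010537) (nat_lit 12) (nat_lit 4) (nat_lit 13) (nat_lit 5) (nat_lit 13) (nat_lit 4) (nat_lit 394) (nat_lit 345) (nat_lit 281)))) (XT.nd (nat_lit 156) (nat_lit 76) (nat_lit 0) (XT.nd (nat_lit 78) (nat_lit 0) (nat_lit 0) (XT.lf (nat_lit 0) (nat_lit 4242308112) (nat_lit 76) (nat_lit 7905180951) (nat_lit 152) (nat_lit 63375565785) (nat_lit 10) (nat_lit 5) (nat_lit 11) (nat_lit 5) (nat_lit 12) (nat_lit 4) (nat_lit 395) (nat_lit 345) (nat_lit 280)) (XT.lf (nat_lit 0) (nat_lit 26224072649) (nat_lit 152) (nat_lit 47417447049) (nat_lit 0) (nat_lit 6747213785) (nat_lit 10) (nat_lit 5) (nat_lit 12) (nat_lit 4) (nat_lit 10) (nat_lit 4) (nat_lit 396) (nat_lit 345) (nat_lit 279))) (XT.nd (nat_lit 78) (nat_lit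 76) (nat_lit 0) (XT.lf (nat_lit 0) (nat_lit 41618028457) (nat_lit 152) (nat_lit 21878205948) (nat_lit 0) (nat_lit 22132134585) (nat_lit 10) (nat_lit 5) (nat_lit 12) (nat_lit 4) (nat_lit 10) (nat_lit 4) (nat_lit 397) (nat_lit 345) (nat_lit 278)) (XT.nd (nat_lit 78) (nat_lit 0) (nat_lit 0) (XT.lf (nat_lit 0) (nat_lit 5977456597) (nat_lit 76) (nat_lit 52396761516) (nat_lit 76) (nat_lit 32902501895) (nat_lit 9) (nat_lit 4) (nat_lit 10) (nat_lit 5) (nat_lit 10) (nat_lit 4) (nat_lit 398) (nat_lit 345) (nat_lit 277)) (XT.lf (nat_lit 0) (nat_lit 37280722177) (nat_lit 76) (nat_lit 39775691819) (nat_lit 76) (nat_lit 20273686135) (nat_lit 9) (nat_lit 4) (nat_lit 10) (nat_lit 5) (nat_lit 10) (nat_lit 4) (nat_lit 399) (nat_lit 345) (nat_lit 276)))))) (XT.nd (nat_lit 390) (nat_lit 76) (nat_lit 0) (XT.nd (nat_lit 156) (nat_lit 76) (nat_lit 0) (XT.nd (nat_lit 78) (nat_lit 76) (nat_lit 0) (XT.lf (nat_lit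 0) (nat_lit 71065024071) (nat_lit 76) (nat_lit 26156422712) (nat_lit 76) (nat_lit 6647244748) (nat_lit 9) (nat_lit 4) (nat_lit 10) (nat_lit 5) (nat_lit 10) (nat_lit 4) (nat_lit 400) (nat_lit 345) (nat_lit 275)) (XT.lf (nat_lit 0) (nat_lit 7654499186) (nat_lit 152) (nat_lit 3594460657) (nat_lit 76) (nat_lit 99666778790) (nat_lit 8) (nat_lit 5) (nat_lit 10) (nat_lit 5) (nat_lit 9) (nat_lit 4) (nat_lit 401) (nat_lit 345) (nat_lit 274))) (XT.nd (nat_lit 78) (nat_lit 0) (nat_lit 0) (XT.lf (nat_lit 0) (nat_lit 23572838459) (nat_lit 152) (nat_lit 89376431489) (nat_lit 0) (nat_lit 5496942126) (nat_lit 7) (nat_lit 5) (nat_lit 9) (nat_lit 4) (nat_lit 7) (nat_lit 4) (nat_lit 402) (nat_lit 345) (nat_lit 273)) (XT.nd (nat_lit 78) (nat_lit 0) (nat_lit 0) (XT.lf (nat_lit 0) (nat_lit 41147377723) (nat_lit 152) (nat_lit 62334918788) (nat_lit 0) (nat_lit 23066209549) (nat_lit 7) (nat_lit 5) (nat_lit 9)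 (nat_lit 4) (nat_lit 7) (nat_lit 4) (nat_lit 403) (nat_lit 345) (nat_lit 272)) (XT.lf (nat_lit 0) (nat_lit 60118362026) (nat_lit 152) (nat_lit 33149071671) (nat_lit 0) (nat_lit 42032312518) (nat_lit 7) (nat_lit 5) (nat_lit 9) (nat_lit 4) (nat_lit 7) (nat_lit 4) (nat_lit 404) (nat_lit 345) (nat_lit 271))))) (XT.nd (nat_lit 156) (nat_lit 0) (nat_lit 0) (XT.nd (nat_lit 78) (nat_lit 76) (nat_lit 0) (XT.lf (nat_lit 0) (nat_lit 80598212015) (nat_lit 152) (nat_lit 1645936971) (nat_lit 0) (nat_lit 62507642754) (nat_lit 7) (nat_lit 5) (nat_lit 9) (nat_lit 4) (nat_lit 7) (nat_lit 4) (nat_lit 405) (nat_lit 345) (nat_lit 270)) (XT.lf (nat_lit 0) (nat_lit 34065252446) (nat_lit 76) (nat_lit 69462307459) (nat_lit 76) (nat_lit 51367553241) (nat_lit 6) (nat_lit 4) (nat_lit 7) (nat_lit 5) (nat_lit 7) (nat_lit 4) (nat_lit 406) (nat_lit 345) (nat_lit 269))) (XT.nd (nat_lit 78) (nat_lit 0) (nat_lit 0) (XT.lf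 (nat_lit 0) (nat_lit 72711077063) (nat_lit 76) (nat_lit 55617244048) (nat_lit 76) (nat_lit 37518614869) (nat_lit 6) (nat_lit 4) (nat_lit 7) (nat_lit 5) (nat_lit 7) (nat_lit 4) (nat_lit 407) (nat_lit 345) (nat_lit 268)) (XT.nd (nat_lit 78) (nat_lit 0) (nat_lit 0) (XT.lf (nat_lit 0) (nat_lit 114433877047) (nat_lit 76) (nat_lit 40671916767) (nat_lit 76) (nat_lit 22569699662) (nat_lit 6) (nat_lit 4) (nat_lit 7) (nat_lit 5) (nat_lit 7) (nat_lit 4) (nat_lit 408) (nat_lit 345) (nat_lit 267)) (XT.lf (nat_lit 0) (nat_lit 159480898622) (nat_lit 76) (nat_lit 24537760713) (nat_lit 76) (nat_lit 6432221455) (nat_lit 6) (nat_lit 4) (nat_lit 7) (nat_lit 5) (nat_lit 7) (nat_lit 4) (nat_lit 409) (nat_lit 345) (nat_lit 266))))))) (XT.nd (nat_lit 780) (nat_lit 152) (nat_lit 0) (XT.nd (nat_lit 390) (nat_lit 76) (nat_lit 0) (XT.nd (nat_lit 156) (nat_lit 0) (nat_lit 0) (XT.nd (nat_lit 78) (nat_lit 0) (nat_lit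 0) (XT.lf (nat_lit 0) (nat_lit 3795871525) (nat_lit 76) (nat_lit 6735131768) (nat_lit 152) (nat_lit 193689353642) (nat_lit 4) (nat_lit 5) (nat_lit 5) (nat_lit 5) (nat_lit 6) (nat_lit 4) (nat_lit 410) (nat_lit 345) (nat_lit 265)) (XT.lf (nat_lit 0) (nat_lit 29666531595) (nat_lit 152) (nat_lit 176421816415) (nat_lit 0) (nat_lit 12896657949) (nat_lit 4) (nat_lit 5) (nat_lit 6) (nat_lit 4) (nat_lit 4) (nat_lit 4) (nat_lit 411) (nat_lit 345) (nat_lit 264))) (XT.nd (nat_lit 78) (nat_lit 0) (nat_lit 0) (XT.lf (nat_lit 0) (nat_lit 50501876207) (nat_lit 152) (nat_lit 150685872695) (nat_lit 0) (nat_lit 33729560678) (nat_lit 4) (nat_lit 5) (nat_lit 6) (nat_lit 4) (nat_lit 4) (nat_lit 4) (nat_lit 412) (nat_lit 345) (nat_lit 263)) (XT.nd (nat_lit 78) (nat_lit 0) (nat_lit 0) (XT.lf (nat_lit 0) (nat_lit 72998525757) (nat_lit 152) (nat_lit 122902164876) (nat_lit 0) (nat_lit 56223949227) (nat_lit 4) (nat_lit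 5) (nat_lit 6) (nat_lit 4) (nat_lit 4) (nat_lit 4) (nat_lit 413) (nat_lit 345) (nat_lit 262)) (XT.lf (nat_lit 0) (nat_lit 97289793724) (nat_lit 152) (nat_lit 92906048762) (nat_lit 0) (nat_lit 80513123674) (nat_lit 4) (nat_lit 5) (nat_lit 6) (nat_lit 4) (nat_lit 4) (nat_lit 4) (nat_lit 414) (nat_lit 345) (nat_lit 261))))) (XT.nd (nat_lit 156) (nat_lit 76) (nat_lit 0) (XT.nd (nat_lit 78) (nat_lit 0) (nat_lit 0) (XT.lf (nat_lit 0) (nat_lit 123519628364) (nat_lit 152) (nat_lit 60519769592) (nat_lit 0) (nat_lit 106741019869) (nat_lit 4) (nat_lit 5) (nat_lit 6) (nat_lit 4) (nat_lit 4) (nat_lit 4) (nat_lit 415) (nat_lit 345) (nat_lit 260)) (XT.lf (nat_lit 0) (nat_lit 151843465733) (nat_lit 152) (nat_lit 25551408673) (nat_lit 0) (nat_lit 135063062381) (nat_lit 4) (nat_lit 5) (nat_lit 6) (nat_lit 4) (nat_lit 4) (nat_lit 4) (nat_lit 416) (nat_lit 345) (nat_lit 259))) (XT.nd (nat_lit 78) (nat_lit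 0) (nat_lit 0) (XT.lf (nat_lit 0) (nat_lit 12849013609) (nat_lit 76) (nat_lit 169889156269) (nat_lit 76) (nat_lit 153107091013) (nat_lit 3) (nat_lit 4) (nat_lit 4) (nat_lit 5) (nat_lit 4) (nat_lit 4) (nat_lit 417) (nat_lit 345) (nat_lit 258)) (XT.nd (nat_lit 78) (nat_lit 0) (nat_lit 0) (XT.lf (nat_lit 0) (nat_lit 55766640483) (nat_lit 76) (nat_lit 161032480609) (nat_lit 76) (nat_lit 144248876553) (nat_lit 3) (nat_lit 4) (nat_lit 4) (nat_lit 5) (nat_lit 4) (nat_lit 4) (nat_lit 418) (nat_lit 345) (nat_lit 257)) (XT.lf (nat_lit 0) (nat_lit 102110306725) (nat_lit 76) (nat_lit 151470984216) (nat_lit 76) (nat_lit 134685955346) (nat_lit 3) (nat_lit 4) (nat_lit 4) (nat_lit 5) (nat_lit 4) (nat_lit 4) (nat_lit 419) (nat_lit 345) (nat_lit 256)))))) (XT.nd (nat_lit 390) (nat_lit 152) (nat_lit 0) (XT.nd (nat_lit 156) (nat_lit 0) (nat_lit 0) (XT.nd (nat_lit 78) (nat_lit 0) (nat_lit 0) (XT.lf (nat_lit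 0) (nat_lit 152154641469) (nat_lit 76) (nat_lit 141148006372) (nat_lit 76) (nat_lit 124361658228) (nat_lit 3) (nat_lit 4) (nat_lit 4) (nat_lit 5) (nat_lit 4) (nat_lit 4) (nat_lit 420) (nat_lit 345) (nat_lit 255)) (XT.lf (nat_lit 0) (nat_lit 206196203735) (nat_lit 76) (nat_lit 130002373873) (nat_lit 76) (nat_lit 113214804180) (nat_lit 3) (nat_lit 4) (nat_lit 4) (nat_lit 5) (nat_lit 4) (nat_lit 4) (nat_lit 421) (nat_lit 345) (nat_lit 254))) (XT.nd (nat_lit 78) (nat_lit 0) (nat_lit 0) (XT.lf (nat_lit 0) (nat_lit 264555239818) (nat_lit 76) (nat_lit 117968038527) (nat_lit 76) (nat_lit 101179337771) (nat_lit 3) (nat_lit 4) (nat_lit 4) (nat_lit 5) (nat_lit 4) (nat_lit 4) (nat_lit 422) (nat_lit 345) (nat_lit 253)) (XT.nd (nat_lit 78) (nat_lit 0) (nat_lit 0) (XT.lf (nat_lit 0) (nat_lit 327577581044) (nat_lit 76) (nat_lit 104973685755) (nat_lit 76) (nat_lit 88183937717) (nat_lit 3) (nat_lit 4) (nat_lit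 4) (nat_lit 5) (nat_lit 4) (nat_lit 4) (nat_lit 423) (nat_lit 345) (nat_lit 252)) (XT.lf (nat_lit 0) (nat_lit 395636693138) (nat_lit 76) (nat_lit 90942311984) (nat_lit 76) (nat_lit 74151594242) (nat_lit 3) (nat_lit 4) (nat_lit 4) (nat_lit 5) (nat_lit 4) (nat_lit 4) (nat_lit 424) (nat_lit 345) (nat_lit 251))))) (XT.nd (nat_lit 156) (nat_lit 152) (nat_lit 0) (XT.nd (nat_lit 78) (nat_lit 0) (nat_lit 0) (XT.lf (nat_lit 0) (nat_lit 469135889356) (nat_lit 76) (nat_lit 75790768333) (nat_lit 76) (nat_lit 58999152716) (nat_lit 3) (nat_lit 4) (nat_lit 4) (nat_lit 5) (nat_lit 4) (nat_lit 4) (nat_lit 425) (nat_lit 345) (nat_lit 250)) (XT.lf (nat_lit 0) (nat_lit 548510720492) (nat_lit 76) (nat_lit 59429267877) (nat_lit 76) (nat_lit 42636820893) (nat_lit 3) (nat_lit 4) (nat_lit 4) (nat_lit 5) (nat_lit 4) (nat_lit 4) (nat_lit 426) (nat_lit 345) (nat_lit 249))) (XT.nd (nat_lit 78) (nat_lit 152) (nat_lit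 0) (XT.lf (nat_lit 0) (nat_lit 634231555915) (nat_lit 76) (nat_lit 41760853575) (nat_lit 76) (nat_lit 24967636809) (nat_lit 3) (nat_lit 4) (nat_lit 4) (nat_lit 5) (nat_lit 4) (nat_lit 4) (nat_lit 427) (nat_lit 345) (nat_lit 248)) (XT.nd (nat_lit 78) (nat_lit 152) (nat_lit 0) (XT.lf (nat_lit 0) (nat_lit 726806370946) (nat_lit 76) (nat_lit 22680823714) (nat_lit 76) (nat_lit 5886894185) (nat_lit 3) (nat_lit 4) (nat_lit 4) (nat_lit 5) (nat_lit 4) (nat_lit 4) (nat_lit 428) (nat_lit 345) (nat_lit 247)) (XT.lf (nat_lit 0) (nat_lit 12935471516) (nat_lit 76) (nat_lit 1357827046) (nat_lit 152) (nat_lit 799794885673) (nat_lit 1) (nat_lit 5) (nat_lit 2) (nat_lit 5) (nat_lit 3) (nat_lit 4) (nat_lit 429) (nat_lit 345) (nat_lit 246))))))))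
noncomputable def xc111 : XT := (XT.nd (nat_lit 1482) (nat_lit 0) (nat_lit 0) (XT.nd (nat_lit 702) (nat_lit 0) (nat_lit 0) (XT.nd (nat_lit 312) (nat_lit 0) (nat_lit 0) (XT.nd (nat_lit 156) (nat_lit 0) (nat_lit 0) (XT.nd (nat_lit 78) (nat_lit 0) (nat_lit 0) (XT.lf (nat_lit 0) (nat_lit 37090696790) (nat_lit 152) (nat_lit 818751226128) (nat_lit 0) (nat_lit 21539585149) (nat_lit 1) (nat_lit 5) (nat_lit 3) (nat_lit 4) (nat_lit 1) (nat_lit 4) (nat_lit 430) (nat_lit 345) (nat_lit 245)) (XT.lf (nat_lit 0) (nat_lit 61745550312) (nat_lit 152) (nat_lit 837796139779) (nat_lit 0) (nat_lit 46193914769) (nat_lit 1) (nat_lit 5) (nat_lit 3) (nat_lit 4) (nat_lit 1) (nat_lit 4) (nat_lit 431) (nat_lit 345) (nat_lit 244))) (XT.nd (nat_lit 78) (nat_lit 0) (nat_lit 0) (XT.lf (nat_lit 0) (nat_lit 88371306190) (nat_lit 152) (nat_lit 858367656646) (nat_lit 0) (nat_lit 72819185554) (nat_lit 1) (nat_lit 5) (nat_lit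 3) (nat_lit 4) (nat_lit 1) (nat_lit 4) (nat_lit 432) (nat_lit 345) (nat_lit 243)) (XT.lf (nat_lit 0) (nat_lit 117125746682) (nat_lit 152) (nat_lit 880587682014) (nat_lit 0) (nat_lit 101573176885) (nat_lit 1) (nat_lit 5) (nat_lit 3) (nat_lit 4) (nat_lit 1) (nat_lit 4) (nat_lit 433) (nat_lit 345) (nat_lit 242)))) (XT.nd (nat_lit 156) (nat_lit 0) (nat_lit 0) (XT.nd (nat_lit 78) (nat_lit 0) (nat_lit 0) (XT.lf (nat_lit 0) (nat_lit 148179268473) (nat_lit 152) (nat_lit 904587890107) (nat_lit 0) (nat_lit 132626282785) (nat_lit 1) (nat_lit 5) (nat_lit 3) (nat_lit 4) (nat_lit 1) (nat_lit 4) (nat_lit 434) (nat_lit 345) (nat_lit 241)) (XT.lf (nat_lit 0) (nat_lit 181715892431) (nat_lit 152) (nat_lit 930510504382) (nat_lit 0) (nat_lit 166162521661) (nat_lit 1) (nat_lit 5) (nat_lit 3) (nat_lit 4) (nat_lit 1) (nat_lit 4) (nat_lit 435) (nat_lit 345) (nat_lit 240))) (XT.nd (nat_lit 78) (nat_lit 0) (nat_lit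 0) (XT.lf (nat_lit 0) (nat_lit 217934354107) (nat_lit 152) (nat_lit 958509140330) (nat_lit 0) (nat_lit 202380626778) (nat_lit 1) (nat_lit 5) (nat_lit 3) (nat_lit 4) (nat_lit 1) (nat_lit 4) (nat_lit 436) (nat_lit 345) (nat_lit 239)) (XT.nd (nat_lit 78) (nat_lit 0) (nat_lit 0) (XT.lf (nat_lit 0) (nat_lit 257049281421) (nat_lit 152) (nat_lit 988749715793) (nat_lit 0) (nat_lit 241495223945) (nat_lit 1) (nat_lit 5) (nat_lit 3) (nat_lit 4) (nat_lit 1) (nat_lit 4) (nat_lit 437) (nat_lit 345) (nat_lit 238)) (XT.lf (nat_lit 0) (nat_lit 299292466536) (nat_lit 152) (nat_lit 1021411434182) (nat_lit 0) (nat_lit 283738103368) (nat_lit 1) (nat_lit 5) (nat_lit 3) (nat_lit 4) (nat_lit 1) (nat_lit 4) (nat_lit 438) (nat_lit 345) (nat_lit 237)))))) (XT.nd (nat_lit 390) (nat_lit 0) (nat_lit 0) (XT.nd (nat_lit 156) (nat_lit 0) (nat_lit 0) (XT.nd (nat_lit 78) (nat_lit 0) (nat_lit 0) (XT.lf (nat_lit 0) (nat_lit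 344914239436) (nat_lit 152) (nat_lit 1056687846420) (nat_lit 0) (nat_lit 329359593221) (nat_lit 1) (nat_lit 5) (nat_lit 3) (nat_lit 4) (nat_lit 1) (nat_lit 4) (nat_lit 439) (nat_lit 345) (nat_lit 236)) (XT.lf (nat_lit 0) (nat_lit 394184951370) (nat_lit 152) (nat_lit 1094787997914) (nat_lit 0) (nat_lit 378630043074) (nat_lit 1) (nat_lit 5) (nat_lit 3) (nat_lit 4) (nat_lit 1) (nat_lit 4) (nat_lit 440) (nat_lit 345) (nat_lit 235))) (XT.nd (nat_lit 78) (nat_lit 0) (nat_lit 0) (XT.lf (nat_lit 0) (nat_lit 447396576925) (nat_lit 152) (nat_lit 1135937667339) (nat_lit 0) (nat_lit 431841425962) (nat_lit 1) (nat_lit 5) (nat_lit 3) (nat_lit 4) (nat_lit 1) (nat_lit 4) (nat_lit 441) (nat_lit 345) (nat_lit 234)) (XT.nd (nat_lit 78) (nat_lit 0) (nat_lit 0) (XT.lf (nat_lit 0) (nat_lit 504864444255) (nat_lit 152) (nat_lit 1180380704587) (nat_lit 0) (nat_lit 489309068599) (nat_lit 1) (nat_lit 5) (nat_lit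 3) (nat_lit 4) (nat_lit 1) (nat_lit 4) (nat_lit 442) (nat_lit 345) (nat_lit 233)) (XT.lf (nat_lit 0) (nat_lit 566929103683) (nat_lit 152) (nat_lit 1228380475807) (nat_lit 0) (nat_lit 551373519978) (nat_lit 1) (nat_lit 5) (nat_lit 3) (nat_lit 4) (nat_lit 1) (nat_lit 4) (nat_lit 443) (nat_lit 345) (nat_lit 232))))) (XT.nd (nat_lit 156) (nat_lit 0) (nat_lit 0) (XT.nd (nat_lit 78) (nat_lit 0) (nat_lit 0) (XT.lf (nat_lit 0) (nat_lit 633958345784) (nat_lit 152) (nat_lit 1280221424085) (nat_lit 0) (nat_lit 618402569441) (nat_lit 1) (nat_lit 5) (nat_lit 3) (nat_lit 4) (nat_lit 1) (nat_lit 4) (nat_lit 444) (nat_lit 345) (nat_lit 231)) (XT.lf (nat_lit 0) (nat_lit 706349380881) (nat_lit 152) (nat_lit 1336210755042) (nat_lit 0) (nat_lit 690793426171) (nat_lit 1) (nat_lit 5) (nat_lit 3) (nat_lit 4) (nat_lit 1) (nat_lit 4) (nat_lit 445) (nat_lit 345) (nat_lit 230))) (XT.nd (nat_lit 78) (nat_lit 0) (nat_lit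 0) (XT.lf (nat_lit 0) (nat_lit 784531192887) (nat_lit 152) (nat_lit 1396680257305) (nat_lit 0) (nat_lit 768975073021) (nat_lit 1) (nat_lit 5) (nat_lit 3) (nat_lit 4) (nat_lit 1) (nat_lit 4) (nat_lit 446) (nat_lit 345) (nat_lit 229)) (XT.nd (nat_lit 78) (nat_lit 0) (nat_lit 0) (XT.lf (nat_lit 0) (nat_lit 868967081427) (nat_lit 152) (nat_lit 1461988268666) (nat_lit 0) (nat_lit 853410808639) (nat_lit 1) (nat_lit 5) (nat_lit 3) (nat_lit 4) (nat_lit 1) (nat_lit 4) (nat_lit 447) (nat_lit 345) (nat_lit 228)) (XT.lf (nat_lit 0) (nat_lit 960157407323) (nat_lit 152) (nat_lit 1532521799563) (nat_lit 0) (nat_lit 944600992941) (nat_lit 1) (nat_lit 5) (nat_lit 3) (nat_lit 4) (nat_lit 1) (nat_lit 4) (nat_lit 448) (nat_lit 345) (nat_lit 227))))))) (XT.nd (nat_lit 45084) (nat_lit 0) (nat_lit 4332) (XT.nd (nat_lit 390) (nat_lit 0) (nat_lit 0) (XT.nd (nat_lit 156) (nat_lit 0) (nat_lit 0) (XT.nd (nat_lit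 78) (nat_lit 0) (nat_lit 0) (XT.lf (nat_lit 0) (nat_lit 1058642557692) (nat_lit 152) (nat_lit 1608698826474) (nat_lit 0) (nat_lit 1043086012204) (nat_lit 1) (nat_lit 5) (nat_lit 3) (nat_lit 4) (nat_lit 1) (nat_lit 4) (nat_lit 449) (nat_lit 345) (nat_lit 226)) (XT.lf (nat_lit 0) (nat_lit 1165006148239) (nat_lit 152) (nat_lit 1690970768819) (nat_lit 0) (nat_lit 1149449481357) (nat_lit 1) (nat_lit 5) (nat_lit 3) (nat_lit 4) (nat_lit 1) (nat_lit 4) (nat_lit 450) (nat_lit 345) (nat_lit 225))) (XT.nd (nat_lit 78) (nat_lit 0) (nat_lit 0) (XT.lf (nat_lit 0) (nat_lit 1279878481723) (nat_lit 152) (nat_lit 1779825164033) (nat_lit 0) (nat_lit 1264321702438) (nat_lit 1) (nat_lit 5) (nat_lit 3) (nat_lit 4) (nat_lit 1) (nat_lit 4) (nat_lit 451) (nat_lit 345) (nat_lit 224)) (XT.nd (nat_lit 78) (nat_lit 0) (nat_lit 0) (XT.lf (nat_lit 0) (nat_lit 1403940283082) (nat_lit 152) (nat_lit 1875788556681) (nat_lit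 0) (nat_lit 1388383399722) (nat_lit 1) (nat_lit 5) (nat_lit 3) (nat_lit 4) (nat_lit 1) (nat_lit 4) (nat_lit 452) (nat_lit 345) (nat_lit 223)) (XT.lf (nat_lit 0) (nat_lit 1537926733364) (nat_lit 152) (nat_lit 1979429618720) (nat_lit 0) (nat_lit 1522369753637) (nat_lit 1) (nat_lit 5) (nat_lit 3) (nat_lit 4) (nat_lit 1) (nat_lit 4) (nat_lit 453) (nat_lit 345) (nat_lit 222))))) (XT.nd (nat_lit 156) (nat_lit 0) (nat_lit 0) (XT.nd (nat_lit 78) (nat_lit 0) (nat_lit 0) (XT.lf (nat_lit 0) (nat_lit 1682631826345) (nat_lit 152) (nat_lit 2091362519405) (nat_lit 0) (nat_lit 1667074757390) (nat_lit 1) (nat_lit 5) (nat_lit 3) (nat_lit 4) (nat_lit 1) (nat_lit 4) (nat_lit 454) (nat_lit 345) (nat_lit 221)) (XT.lf (nat_lit 0) (nat_lit 1838913073690) (nat_lit 152) (nat_lit 2212250564816) (nat_lit 0) (nat_lit 1823355922116) (nat_lit 1) (nat_lit 5) (nat_lit 3) (nat_lit 4) (nat_lit 1) (nat_lit 4) (nat_lit 455)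 (nat_lit 345) (nat_lit 220))) (XT.nd (nat_lit 78) (nat_lit 0) (nat_lit 0) (XT.lf (nat_lit 0) (nat_lit 2007696586493) (nat_lit 152) (nat_lit 2342810128553) (nat_lit 0) (nat_lit 1992139358420) (nat_lit 1) (nat_lit 5) (nat_lit 3) (nat_lit 4) (nat_lit 1) (nat_lit 4) (nat_lit 456) (nat_lit 345) (nat_lit 219)) (XT.nd (nat_lit 78) (nat_lit 0) (nat_lit 0) (XT.lf (nat_lit 0) (nat_lit 2189982563348) (nat_lit 152) (nat_lit 2483814896922) (nat_lit 0) (nat_lit 2174425264443) (nat_lit 1) (nat_lit 5) (nat_lit 3) (nat_lit 4) (nat_lit 1) (nat_lit 4) (nat_lit 457) (nat_lit 345) (nat_lit 218)) (XT.lf (nat_lit 0) (nat_lit 2386851217452) (nat_lit 152) (nat_lit 2636100453734) (nat_lit 0) (nat_lit 2371293852961) (nat_lit 1) (nat_lit 5) (nat_lit 3) (nat_lit 4) (nat_lit 1) (nat_lit 4) (nat_lit 458) (nat_lit 345) (nat_lit 217)))))) (XT.nd (nat_lit 390) (nat_lit 760) (nat_lit 0) (XT.nd (nat_lit 156) (nat_lit 0)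 (nat_lit 0) (XT.nd (nat_lit 78) (nat_lit 380) (nat_lit 0) (XT.lf (nat_lit 0) (nat_lit 3606976990) (nat_lit 380) (nat_lit 67450032) (nat_lit 380) (nat_lit 67450032) (nat_lit 73) (nat_lit 3) (nat_lit 78) (nat_lit 3) (nat_lit 78) (nat_lit 5) (nat_lit 346) (nat_lit 346) (nat_lit 328)) (XT.lf (nat_lit 0) (nat_lit 1212702335) (nat_lit 380) (nat_lit 4021496149) (nat_lit 456) (nat_lit 2429174367) (nat_lit 68) (nat_lit 5) (nat_lit 73) (nat_lit 3) (nat_lit 74) (nat_lit 5) (nat_lit 347) (nat_lit 346) (nat_lit 327))) (XT.nd (nat_lit 78) (nat_lit 0) (nat_lit 0) (XT.lf (nat_lit 0) (nat_lit 2662189206) (nat_lit 380) (nat_lit 220281220) (nat_lit 456) (nat_lit 4985486361) (nat_lit 68) (nat_lit 5) (nat_lit 73) (nat_lit 3) (nat_lit 74) (nat_lit 5) (nat_lit 348) (nat_lit 346) (nat_lit 326)) (XT.nd (nat_lit 78) (nat_lit 0) (nat_lit 76) (XT.lf (nat_lit 76) (nat_lit 4007171885) (nat_lit 0) (nat_lit 186443325)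 (nat_lit 456) (nat_lit 3898192662) (nat_lit 69) (nat_lit 5) (nat_lit 68) (nat_lit 5) (nat_lit 74) (nat_lit 5) (nat_lit 349) (nat_lit 346) (nat_lit 325)) (XT.lf (nat_lit 76) (nat_lit 104370983) (nat_lit 0) (nat_lit 5695959023) (nat_lit 456) (nat_lit 2537180662) (nat_lit 70) (nat_lit 5) (nat_lit 69) (nat_lit 5) (nat_lit 75) (nat_lit 5) (nat_lit 350) (nat_lit 346) (nat_lit 324))))) (XT.nd (nat_lit 156) (nat_lit 456) (nat_lit 0) (XT.nd (nat_lit 78) (nat_lit 380) (nat_lit 0) (XT.lf (nat_lit 76) (nat_lit 4770496178) (nat_lit 0) (nat_lit 2766977385) (nat_lit 456) (nat_lit 1065398133) (nat_lit 70) (nat_lit 5) (nat_lit 69) (nat_lit 5) (nat_lit 75) (nat_lit 5) (nat_lit 351) (nat_lit 346) (nat_lit 323)) (XT.lf (nat_lit 0) (nat_lit 420810619) (nat_lit 456) (nat_lit 8040182437) (nat_lit 76) (nat_lit 433759380) (nat_lit 64) (nat_lit 5) (nat_lit 70) (nat_lit 5) (nat_lit 65) (nat_lit 5) (nat_lit 352)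 (nat_lit 346) (nat_lit 322))) (XT.nd (nat_lit 78) (nat_lit 456) (nat_lit 0) (XT.lf (nat_lit 0) (nat_lit 2045383172) (nat_lit 456) (nat_lit 3260889319) (nat_lit 76) (nat_lit 3895456953) (nat_lit 64) (nat_lit 5) (nat_lit 70) (nat_lit 5) (nat_lit 65) (nat_lit 5) (nat_lit 353) (nat_lit 346) (nat_lit 321)) (XT.nd (nat_lit 78) (nat_lit 0) (nat_lit 0) (XT.lf (nat_lit 0) (nat_lit 1911706058) (nat_lit 456) (nat_lit 1839424572) (nat_lit 532) (nat_lit 5786149956) (nat_lit 58) (nat_lit 5) (nat_lit 64) (nat_lit 5) (nat_lit 65) (nat_lit 5) (nat_lit 354) (nat_lit 346) (nat_lit 320)) (XT.lf (nat_lit 0) (nat_lit 5641062742) (nat_lit 532) (nat_lit 2347095074) (nat_lit 76) (nat_lit 1907804373) (nat_lit 58) (nat_lit 5) (nat_lit 65) (nat_lit 5) (nat_lit 59) (nat_lit 5) (nat_lit 355) (nat_lit 346) (nat_lit 319))))))))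
noncomputable def xc112 : XT := (XT.nd (nat_lit 1482) (nat_lit 1064) (nat_lit 0) (XT.nd (nat_lit 702) (nat_lit 988) (nat_lit 0) (XT.nd (nat_lit 312) (nat_lit 456) (nat_lit 0) (XT.nd (nat_lit 156) (nat_lit 532) (nat_lit 0) (XT.nd (nat_lit 78) (nat_lit 0) (nat_lit 0) (XT.lf (nat_lit 0) (nat_lit 3392260584) (nat_lit 380) (nat_lit 4336364831) (nat_lit 456) (nat_lit 2551094652) (nat_lit 53) (nat_lit 5) (nat_lit 58) (nat_lit 5) (nat_lit 59) (nat_lit 5) (nat_lit 356) (nat_lit 346) (nat_lit 318)) (XT.lf (nat_lit 0) (nat_lit 9643035922) (nat_lit 380) (nat_lit 325595205) (nat_lit 456) (nat_lit 726801876) (nat_lit 53) (nat_lit 5) (nat_lit 58) (nat_lit 5) (nat_lit 59) (nat_lit 5) (nat_lit 357) (nat_lit 346) (nat_lit 317))) (XT.nd (nat_lit 78) (nat_lit 228) (nat_lit 0) (XT.lf (nat_lit 0) (nat_lit 1336890261) (nat_lit 304) (nat_lit 5827030957) (nat_lit 76) (nat_lit 3965713485) (nat_lit 49) (nat_lit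 5) (nat_lit 53) (nat_lit 5) (nat_lit 50) (nat_lit 5) (nat_lit 358) (nat_lit 346) (nat_lit 316)) (XT.lf (nat_lit 0) (nat_lit 545985039) (nat_lit 228) (nat_lit 2960205218) (nat_lit 304) (nat_lit 8092560774) (nat_lit 46) (nat_lit 5) (nat_lit 49) (nat_lit 5) (nat_lit 50) (nat_lit 5) (nat_lit 359) (nat_lit 346) (nat_lit 315)))) (XT.nd (nat_lit 156) (nat_lit 304) (nat_lit 0) (XT.nd (nat_lit 78) (nat_lit 152) (nat_lit 0) (XT.lf (nat_lit 0) (nat_lit 5982192820) (nat_lit 304) (nat_lit 4460484073) (nat_lit 76) (nat_lit 1652132849) (nat_lit 46) (nat_lit 5) (nat_lit 50) (nat_lit 5) (nat_lit 47) (nat_lit 5) (nat_lit 360) (nat_lit 346) (nat_lit 314)) (XT.lf (nat_lit 0) (nat_lit 2634515139) (nat_lit 152) (nat_lit 6098772543) (nat_lit 228) (nat_lit 3891165392) (nat_lit 44) (nat_lit 5) (nat_lit 46) (nat_lit 5) (nat_lit 47) (nat_lit 5) (nat_lit 361) (nat_lit 346) (nat_lit 313))) (XT.nd (nat_lit 78) (nat_lit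 304) (nat_lit 0) (XT.lf (nat_lit 0) (nat_lit 10473234366) (nat_lit 152) (nat_lit 1292775868) (nat_lit 228) (nat_lit 1425590810) (nat_lit 44) (nat_lit 5) (nat_lit 46) (nat_lit 5) (nat_lit 47) (nat_lit 5) (nat_lit 362) (nat_lit 346) (nat_lit 312)) (XT.nd (nat_lit 78) (nat_lit 0) (nat_lit 0) (XT.lf (nat_lit 0) (nat_lit 1342644125) (nat_lit 304) (nat_lit 8598416545) (nat_lit 76) (nat_lit 3847343638) (nat_lit 40) (nat_lit 5) (nat_lit 44) (nat_lit 5) (nat_lit 41) (nat_lit 5) (nat_lit 363) (nat_lit 346) (nat_lit 311)) (XT.lf (nat_lit 0) (nat_lit 4309774318) (nat_lit 304) (nat_lit 690927892) (nat_lit 76) (nat_lit 9424975680) (nat_lit 40) (nat_lit 5) (nat_lit 44) (nat_lit 5) (nat_lit 41) (nat_lit 5) (nat_lit 364) (nat_lit 346) (nat_lit 310)))))) (XT.nd (nat_lit 390) (nat_lit 456) (nat_lit 0) (XT.nd (nat_lit 156) (nat_lit 228) (nat_lit 0) (XT.nd (nat_lit 78) (nat_lit 152) (nat_lit 0) (XT.lf (nat_lit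 0) (nat_lit 7672593728) (nat_lit 228) (nat_lit 6927570737) (nat_lit 76) (nat_lit 501144831) (nat_lit 38) (nat_lit 5) (nat_lit 41) (nat_lit 5) (nat_lit 39) (nat_lit 5) (nat_lit 365) (nat_lit 346) (nat_lit 309)) (XT.lf (nat_lit 0) (nat_lit 1846413543) (nat_lit 152) (nat_lit 9602063281) (nat_lit 228) (nat_lit 4371029712) (nat_lit 36) (nat_lit 5) (nat_lit 38) (nat_lit 5) (nat_lit 39) (nat_lit 5) (nat_lit 366) (nat_lit 346) (nat_lit 308))) (XT.nd (nat_lit 78) (nat_lit 228) (nat_lit 0) (XT.lf (nat_lit 0) (nat_lit 11645176277) (nat_lit 152) (nat_lit 4022994496) (nat_lit 228) (nat_lit 915685094) (nat_lit 36) (nat_lit 5) (nat_lit 38) (nat_lit 5) (nat_lit 39) (nat_lit 5) (nat_lit 367) (nat_lit 346) (nat_lit 307)) (XT.nd (nat_lit 78) (nat_lit 0) (nat_lit 0) (XT.lf (nat_lit 0) (nat_lit 2800884862) (nat_lit 228) (nat_lit 12521485993) (nat_lit 76) (nat_lit 2071541006) (nat_lit 33) (nat_lit 5) (nat_lit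 36) (nat_lit 5) (nat_lit 34) (nat_lit 5) (nat_lit 368) (nat_lit 346) (nat_lit 306)) (XT.lf (nat_lit 0) (nat_lit 6964228311) (nat_lit 228) (nat_lit 2709966193) (nat_lit 76) (nat_lit 8576789819) (nat_lit 33) (nat_lit 5) (nat_lit 36) (nat_lit 5) (nat_lit 34) (nat_lit 5) (nat_lit 369) (nat_lit 346) (nat_lit 305))))) (XT.nd (nat_lit 156) (nat_lit 304) (nat_lit 0) (XT.nd (nat_lit 78) (nat_lit 0) (nat_lit 0) (XT.lf (nat_lit 0) (nat_lit 8234023889) (nat_lit 152) (nat_lit 3383797270) (nat_lit 228) (nat_lit 7546252984) (nat_lit 31) (nat_lit 5) (nat_lit 33) (nat_lit 5) (nat_lit 34) (nat_lit 5) (nat_lit 370) (nat_lit 346) (nat_lit 304)) (XT.lf (nat_lit 0) (nat_lit 16761835892) (nat_lit 228) (nat_lit 85892600) (nat_lit 76) (nat_lit 3293056079) (nat_lit 31) (nat_lit 5) (nat_lit 34) (nat_lit 5) (nat_lit 32) (nat_lit 4) (nat_lit 371) (nat_lit 346) (nat_lit 303))) (XT.nd (nat_lit 78) (nat_lit 152) (nat_lit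 0) (XT.lf (nat_lit 0) (nat_lit 1415996802) (nat_lit 152) (nat_lit 9122383418) (nat_lit 76) (nat_lit 10627084451) (nat_lit 29) (nat_lit 5) (nat_lit 31) (nat_lit 5) (nat_lit 30) (nat_lit 5) (nat_lit 372) (nat_lit 346) (nat_lit 302)) (XT.nd (nat_lit 78) (nat_lit 0) (nat_lit 0) (XT.lf (nat_lit 0) (nat_lit 2870175071) (nat_lit 152) (nat_lit 3576685393) (nat_lit 228) (nat_lit 15815466836) (nat_lit 27) (nat_lit 5) (nat_lit 29) (nat_lit 5) (nat_lit 30) (nat_lit 5) (nat_lit 373) (nat_lit 346) (nat_lit 301)) (XT.lf (nat_lit 0) (nat_lit 12195035707) (nat_lit 228) (nat_lit 7248954044) (nat_lit 76) (nat_lit 3977779563) (nat_lit 27) (nat_lit 5) (nat_lit 30) (nat_lit 5) (nat_lit 28) (nat_lit 4) (nat_lit 374) (nat_lit 346) (nat_lit 300))))))) (XT.nd (nat_lit 702) (nat_lit 456) (nat_lit 0) (XT.nd (nat_lit 312) (nat_lit 304) (nat_lit 0) (XT.nd (nat_lit 156) (nat_lit 228) (nat_lit 0) (XT.nd (nat_lit 78)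 (nat_lit 0) (nat_lit 0) (XT.lf (nat_lit 0) (nat_lit 6016721740) (nat_lit 76) (nat_lit 12590740882) (nat_lit 152) (nat_lit 6050168710) (nat_lit 26) (nat_lit 5) (nat_lit 27) (nat_lit 5) (nat_lit 28) (nat_lit 4) (nat_lit 375) (nat_lit 346) (nat_lit 299)) (XT.lf (nat_lit 0) (nat_lit 20700292413) (nat_lit 76) (nat_lit 4998707125) (nat_lit 152) (nat_lit 280088746) (nat_lit 26) (nat_lit 5) (nat_lit 27) (nat_lit 5) (nat_lit 28) (nat_lit 4) (nat_lit 376) (nat_lit 346) (nat_lit 298))) (XT.nd (nat_lit 78) (nat_lit 0) (nat_lit 0) (XT.lf (nat_lit 0) (nat_lit 5936157540) (nat_lit 228) (nat_lit 18037516997) (nat_lit 76) (nat_lit 3398566796) (nat_lit 23) (nat_lit 5) (nat_lit 26) (nat_lit 5) (nat_lit 24) (nat_lit 4) (nat_lit 377) (nat_lit 346) (nat_lit 297)) (XT.lf (nat_lit 0) (nat_lit 12882474211) (nat_lit 228) (nat_lit 3642227044) (nat_lit 76) (nat_lit 12331743247) (nat_lit 23) (nat_lit 5) (nat_lit 26)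 (nat_lit 5) (nat_lit 24) (nat_lit 4) (nat_lit 378) (nat_lit 346) (nat_lit 296)))) (XT.nd (nat_lit 156) (nat_lit 228) (nat_lit 0) (XT.nd (nat_lit 78) (nat_lit 0) (nat_lit 0) (XT.lf (nat_lit 0) (nat_lit 12479320348) (nat_lit 76) (nat_lit 8177512795) (nat_lit 152) (nat_lit 9780775026) (nat_lit 22) (nat_lit 5) (nat_lit 23) (nat_lit 5) (nat_lit 24) (nat_lit 4) (nat_lit 379) (nat_lit 346) (nat_lit 295)) (XT.lf (nat_lit 0) (nat_lit 29148040621) (nat_lit 152) (nat_lit 2112318109) (nat_lit 0) (nat_lit 877324585) (nat_lit 22) (nat_lit 5) (nat_lit 24) (nat_lit 4) (nat_lit 22) (nat_lit 4) (nat_lit 380) (nat_lit 346) (nat_lit 294))) (XT.nd (nat_lit 78) (nat_lit 76) (nat_lit 0) (XT.lf (nat_lit 0) (nat_lit 4702231276) (nat_lit 152) (nat_lit 18529067374) (nat_lit 76) (nat_lit 10688131782) (nat_lit 20) (nat_lit 5) (nat_lit 22) (nat_lit 5) (nat_lit 21) (nat_lit 4) (nat_lit 381) (nat_lit 346) (nat_lit 293))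 (XT.nd (nat_lit 78) (nat_lit 76) (nat_lit 0) (XT.lf (nat_lit 0) (nat_lit 12881956919) (nat_lit 152) (nat_lit 1551342106) (nat_lit 76) (nat_lit 21401492674) (nat_lit 20) (nat_lit 5) (nat_lit 22) (nat_lit 5) (nat_lit 21) (nat_lit 4) (nat_lit 382) (nat_lit 346) (nat_lit 292)) (XT.lf (nat_lit 0) (nat_lit 17623145151) (nat_lit 76) (nat_lit 4493387225) (nat_lit 152) (nat_lit 15754819373) (nat_lit 19) (nat_lit 5) (nat_lit 20) (nat_lit 5) (nat_lit 21) (nat_lit 4) (nat_lit 383) (nat_lit 346) (nat_lit 291)))))) (XT.nd (nat_lit 390) (nat_lit 228) (nat_lit 0) (XT.nd (nat_lit 156) (nat_lit 76) (nat_lit 0) (XT.nd (nat_lit 78) (nat_lit 152) (nat_lit 0) (XT.lf (nat_lit 0) (nat_lit 32260397850) (nat_lit 152) (nat_lit 1842142720) (nat_lit 0) (nat_lit 5954661172) (nat_lit 19) (nat_lit 5) (nat_lit 21) (nat_lit 4) (nat_lit 19) (nat_lit 4) (nat_lit 384) (nat_lit 346) (nat_lit 290)) (XT.lf (nat_lit 0) (nat_lit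 1320131111) (nat_lit 152) (nat_lit 23586401534) (nat_lit 76) (nat_lit 17464882861) (nat_lit 17) (nat_lit 5) (nat_lit 19) (nat_lit 5) (nat_lit 18) (nat_lit 4) (nat_lit 385) (nat_lit 346) (nat_lit 289))) (XT.nd (nat_lit 78) (nat_lit 76) (nat_lit 0) (XT.lf (nat_lit 0) (nat_lit 10775571011) (nat_lit 152) (nat_lit 3943658365) (nat_lit 76) (nat_lit 30132911046) (nat_lit 17) (nat_lit 5) (nat_lit 19) (nat_lit 5) (nat_lit 18) (nat_lit 4) (nat_lit 386) (nat_lit 346) (nat_lit 288)) (XT.nd (nat_lit 78) (nat_lit 0) (nat_lit 0) (XT.lf (nat_lit 0) (nat_lit 18140750038) (nat_lit 76) (nat_lit 3263263324) (nat_lit 152) (nat_lit 26093989776) (nat_lit 16) (nat_lit 5) (nat_lit 17) (nat_lit 5) (nat_lit 18) (nat_lit 4) (nat_lit 387) (nat_lit 346) (nat_lit 287)) (XT.lf (nat_lit 0) (nat_lit 33192891542) (nat_lit 152) (nat_lit 8390003139) (nat_lit 0) (nat_lit 8747832159) (nat_lit 16) (nat_lit 5) (nat_lit 18) (nat_lit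 4) (nat_lit 16) (nat_lit 4) (nat_lit 388) (nat_lit 346) (nat_lit 286))))) (XT.nd (nat_lit 156) (nat_lit 76) (nat_lit 0) (XT.nd (nat_lit 78) (nat_lit 76) (nat_lit 0) (XT.lf (nat_lit 0) (nat_lit 14879565679) (nat_lit 76) (nat_lit 31469833056) (nat_lit 76) (nat_lit 7006712650) (nat_lit 15) (nat_lit 4) (nat_lit 16) (nat_lit 5) (nat_lit 16) (nat_lit 4) (nat_lit 389) (nat_lit 346) (nat_lit 285)) (XT.lf (nat_lit 0) (nat_lit 3955389136) (nat_lit 152) (nat_lit 16252634170) (nat_lit 76) (nat_lit 36390550130) (nat_lit 14) (nat_lit 5) (nat_lit 16) (nat_lit 5) (nat_lit 15) (nat_lit 4) (nat_lit 390) (nat_lit 346) (nat_lit 284))) (XT.nd (nat_lit 78) (nat_lit 0) (nat_lit 0) (XT.lf (nat_lit 0) (nat_lit 7931838414) (nat_lit 76) (nat_lit 7658145434) (nat_lit 152) (nat_lit 44481967191) (nat_lit 13) (nat_lit 5) (nat_lit 14) (nat_lit 5) (nat_lit 15) (nat_lit 4) (nat_lit 391) (nat_lit 346) (nat_lit 283)) (XT.nd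 (nat_lit 78) (nat_lit 0) (nat_lit 0) (XT.lf (nat_lit 0) (nat_lit 28736484156) (nat_lit 152) (nat_lit 28997877408) (nat_lit 0) (nat_lit 6042349513) (nat_lit 13) (nat_lit 5) (nat_lit 15) (nat_lit 4) (nat_lit 13) (nat_lit 4) (nat_lit 392) (nat_lit 346) (nat_lit 282)) (XT.lf (nat_lit 0) (nat_lit 43118272631) (nat_lit 152) (nat_lit 4233050904) (nat_lit 0) (nat_lit 20411845960) (nat_lit 13) (nat_lit 5) (nat_lit 15) (nat_lit 4) (nat_lit 13) (nat_lit 4) (nat_lit 393) (nat_lit 346) (nat_lit 281))))))))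
noncomputable def xc113 : XT := (XT.nd (nat_lit 1482) (nat_lit 228) (nat_lit 0) (XT.nd (nat_lit 702) (nat_lit 304) (nat_lit 0) (XT.nd (nat_lit 312) (nat_lit 152) (nat_lit 0) (XT.nd (nat_lit 156) (nat_lit 76) (nat_lit 0) (XT.nd (nat_lit 78) (nat_lit 76) (nat_lit 0) (XT.lf (nat_lit 0) (nat_lit 23669336046) (nat_lit 76) (nat_lit 35536308160) (nat_lit 76) (nat_lit 12818499980) (nat_lit 12) (nat_lit 4) (nat_lit 13) (nat_lit 5) (nat_lit 13) (nat_lit 4) (nat_lit 394) (nat_lit 346) (nat_lit 280)) (XT.lf (nat_lit 0) (nat_lit 60889587) (nat_lit 152) (nat_lit 22601696270) (nat_lit 76) (nat_lit 53955135466) (nat_lit 11) (nat_lit 5) (nat_lit 13) (nat_lit 5) (nat_lit 12) (nat_lit 4) (nat_lit 395) (nat_lit 346) (nat_lit 279))) (XT.nd (nat_lit 78) (nat_lit 0) (nat_lit 0) (XT.lf (nat_lit 0) (nat_lit 5108612838) (nat_lit 76) (nat_lit 8279231998) (nat_lit 152) (nat_lit 68155526459) (nat_lit 10) (nat_lit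 5) (nat_lit 11) (nat_lit 5) (nat_lit 12) (nat_lit 4) (nat_lit 396) (nat_lit 346) (nat_lit 278)) (XT.lf (nat_lit 0) (nat_lit 28576415400) (nat_lit 152) (nat_lit 50708773950) (nat_lit 0) (nat_lit 7514249262) (nat_lit 10) (nat_lit 5) (nat_lit 12) (nat_lit 4) (nat_lit 10) (nat_lit 4) (nat_lit 397) (nat_lit 346) (nat_lit 277)))) (XT.nd (nat_lit 156) (nat_lit 76) (nat_lit 0) (XT.nd (nat_lit 78) (nat_lit 76) (nat_lit 0) (XT.lf (nat_lit 0) (nat_lit 45183041974) (nat_lit 152) (nat_lit 23163583847) (nat_lit 0) (nat_lit 24113129772) (nat_lit 10) (nat_lit 5) (nat_lit 12) (nat_lit 4) (nat_lit 10) (nat_lit 4) (nat_lit 398) (nat_lit 346) (nat_lit 276)) (XT.lf (nat_lit 0) (nat_lit 6908762623) (nat_lit 76) (nat_lit 56364411752) (nat_lit 76) (nat_lit 35287327269) (nat_lit 9) (nat_lit 4) (nat_lit 10) (nat_lit 5) (nat_lit 10) (nat_lit 4) (nat_lit 399) (nat_lit 346) (nat_lit 275))) (XT.nd (nat_lit 78) (nat_lit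 76) (nat_lit 0) (XT.lf (nat_lit 0) (nat_lit 40682725783) (nat_lit 76) (nat_lit 42750255789) (nat_lit 76) (nat_lit 21666530306) (nat_lit 9) (nat_lit 4) (nat_lit 10) (nat_lit 5) (nat_lit 10) (nat_lit 4) (nat_lit 400) (nat_lit 346) (nat_lit 274)) (XT.nd (nat_lit 78) (nat_lit 76) (nat_lit 0) (XT.lf (nat_lit 0) (nat_lit 77138694360) (nat_lit 76) (nat_lit 28056814885) (nat_lit 76) (nat_lit 6966940327) (nat_lit 9) (nat_lit 4) (nat_lit 10) (nat_lit 5) (nat_lit 10) (nat_lit 4) (nat_lit 401) (nat_lit 346) (nat_lit 273)) (XT.lf (nat_lit 0) (nat_lit 8453409769) (nat_lit 152) (nat_lit 3512475826) (nat_lit 76) (nat_lit 107808162749) (nat_lit 8) (nat_lit 5) (nat_lit 10) (nat_lit 5) (nat_lit 9) (nat_lit 4) (nat_lit 402) (nat_lit 346) (nat_lit 272)))))) (XT.nd (nat_lit 390) (nat_lit 152) (nat_lit 0) (XT.nd (nat_lit 156) (nat_lit 76) (nat_lit 0) (XT.nd (nat_lit 78) (nat_lit 0) (nat_lit 0) (XT.lf (nat_lit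 0) (nat_lit 25644360047) (nat_lit 152) (nat_lit 96156124734) (nat_lit 0) (nat_lit 6106545245) (nat_lit 7) (nat_lit 5) (nat_lit 9) (nat_lit 4) (nat_lit 7) (nat_lit 4) (nat_lit 403) (nat_lit 346) (nat_lit 271)) (XT.lf (nat_lit 0) (nat_lit 44611107303) (nat_lit 152) (nat_lit 66978729630) (nat_lit 0) (nat_lit 25068772747) (nat_lit 7) (nat_lit 5) (nat_lit 9) (nat_lit 4) (nat_lit 7) (nat_lit 4) (nat_lit 404) (nat_lit 346) (nat_lit 270))) (XT.nd (nat_lit 78) (nat_lit 76) (nat_lit 0) (XT.lf (nat_lit 0) (nat_lit 65087034101) (nat_lit 152) (nat_lit 35483420868) (nat_lit 0) (nat_lit 45540514588) (nat_lit 7) (nat_lit 5) (nat_lit 9) (nat_lit 4) (nat_lit 7) (nat_lit 4) (nat_lit 405) (nat_lit 346) (nat_lit 269)) (XT.nd (nat_lit 78) (nat_lit 76) (nat_lit 0) (XT.lf (nat_lit 0) (nat_lit 87193479266) (nat_lit 152) (nat_lit 1483559580) (nat_lit 0) (nat_lit 67643084794) (nat_lit 7) (nat_lit 5) (nat_lit 9)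 (nat_lit 4) (nat_lit 7) (nat_lit 4) (nat_lit 406) (nat_lit 346) (nat_lit 268)) (XT.lf (nat_lit 0) (nat_lit 37077080628) (nat_lit 76) (nat_lit 74876068008) (nat_lit 76) (nat_lit 55322085609) (nat_lit 6) (nat_lit 4) (nat_lit 7) (nat_lit 5) (nat_lit 7) (nat_lit 4) (nat_lit 407) (nat_lit 346) (nat_lit 267))))) (XT.nd (nat_lit 156) (nat_lit 152) (nat_lit 0) (XT.nd (nat_lit 78) (nat_lit 0) (nat_lit 0) (XT.lf (nat_lit 0) (nat_lit 78793340993) (nat_lit 76) (nat_lit 59934008712) (nat_lit 76) (nat_lit 40376704160) (nat_lit 6) (nat_lit 4) (nat_lit 7) (nat_lit 5) (nat_lit 7) (nat_lit 4) (nat_lit 408) (nat_lit 346) (nat_lit 266)) (XT.lf (nat_lit 0) (nat_lit 123834307364) (nat_lit 76) (nat_lit 43802878571) (nat_lit 76) (nat_lit 24242497951) (nat_lit 6) (nat_lit 4) (nat_lit 7) (nat_lit 5) (nat_lit 7) (nat_lit 4) (nat_lit 409) (nat_lit 346) (nat_lit 265))) (XT.nd (nat_lit 78) (nat_lit 152) (nat_lit 0)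 (XT.lf (nat_lit 0) (nat_lit 172466889172) (nat_lit 76) (nat_lit 26387085703) (nat_lit 76) (nat_lit 6823856871) (nat_lit 6) (nat_lit 4) (nat_lit 7) (nat_lit 5) (nat_lit 7) (nat_lit 4) (nat_lit 410) (nat_lit 346) (nat_lit 264)) (XT.nd (nat_lit 78) (nat_lit 0) (nat_lit 0) (XT.lf (nat_lit 0) (nat_lit 4327306665) (nat_lit 76) (nat_lit 7159795608) (nat_lit 152) (nat_lit 209061781988) (nat_lit 4) (nat_lit 5) (nat_lit 5) (nat_lit 5) (nat_lit 6) (nat_lit 4) (nat_lit 411) (nat_lit 346) (nat_lit 263)) (XT.lf (nat_lit 0) (nat_lit 32147598518) (nat_lit 152) (nat_lit 190318782639) (nat_lit 0) (nat_lit 14028794863) (nat_lit 4) (nat_lit 5) (nat_lit 6) (nat_lit 4) (nat_lit 4) (nat_lit 4) (nat_lit 412) (nat_lit 346) (nat_lit 262))))))) (XT.nd (nat_lit 780) (nat_lit 152) (nat_lit 0) (XT.nd (nat_lit 390) (nat_lit 76) (nat_lit 0) (XT.nd (nat_lit 156) (nat_lit 0) (nat_lit 0) (XT.nd (nat_lit 78) (nat_lit 0)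 (nat_lit 0) (XT.lf (nat_lit 0) (nat_lit 54641789632) (nat_lit 152) (nat_lit 162540021132) (nat_lit 0) (nat_lit 36520892457) (nat_lit 4) (nat_lit 5) (nat_lit 6) (nat_lit 4) (nat_lit 4) (nat_lit 4) (nat_lit 413) (nat_lit 346) (nat_lit 261)) (XT.lf (nat_lit 0) (nat_lit 78930781270) (nat_lit 152) (nat_lit 132548484938) (nat_lit 0) (nat_lit 60807945651) (nat_lit 4) (nat_lit 5) (nat_lit 6) (nat_lit 4) (nat_lit 4) (nat_lit 4) (nat_lit 414) (nat_lit 346) (nat_lit 260))) (XT.nd (nat_lit 78) (nat_lit 0) (nat_lit 0) (XT.lf (nat_lit 0) (nat_lit 105158508197) (nat_lit 152) (nat_lit 100166446433) (nat_lit 0) (nat_lit 87033877721) (nat_lit 4) (nat_lit 5) (nat_lit 6) (nat_lit 4) (nat_lit 4) (nat_lit 4) (nat_lit 415) (nat_lit 346) (nat_lit 259)) (XT.nd (nat_lit 78) (nat_lit 0) (nat_lit 0) (XT.lf (nat_lit 0) (nat_lit 133480393980) (nat_lit 152) (nat_lit 65202012057) (nat_lit 0) (nat_lit 115354101600) (nat_lit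 4) (nat_lit 5) (nat_lit 6) (nat_lit 4) (nat_lit 4) (nat_lit 4) (nat_lit 416) (nat_lit 346) (nat_lit 258)) (XT.lf (nat_lit 0) (nat_lit 164064272017) (nat_lit 152) (nat_lit 27447985161) (nat_lit 0) (nat_lit 145936440836) (nat_lit 4) (nat_lit 5) (nat_lit 6) (nat_lit 4) (nat_lit 4) (nat_lit 4) (nat_lit 417) (nat_lit 346) (nat_lit 257))))) (XT.nd (nat_lit 156) (nat_lit 0) (nat_lit 0) (XT.nd (nat_lit 78) (nat_lit 0) (nat_lit 0) (XT.lf (nat_lit 0) (nat_lit 14020735810) (nat_lit 76) (nat_lit 183407843325) (nat_lit 76) (nat_lit 165278587330) (nat_lit 3) (nat_lit 4) (nat_lit 4) (nat_lit 5) (nat_lit 4) (nat_lit 4) (nat_lit 418) (nat_lit 346) (nat_lit 256)) (XT.lf (nat_lit 0) (nat_lit 60361120899) (nat_lit 76) (nat_lit 173847999941) (nat_lit 76) (nat_lit 155717424673) (nat_lit 3) (nat_lit 4) (nat_lit 4) (nat_lit 5) (nat_lit 4) (nat_lit 4) (nat_lit 419) (nat_lit 346) (nat_lit 255))) (XT.nd (nat_lit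 78) (nat_lit 0) (nat_lit 0) (XT.lf (nat_lit 0) (nat_lit 110402417538) (nat_lit 76) (nat_lit 163526552661) (nat_lit 76) (nat_lit 145394755844) (nat_lit 3) (nat_lit 4) (nat_lit 4) (nat_lit 5) (nat_lit 4) (nat_lit 4) (nat_lit 420) (nat_lit 346) (nat_lit 254)) (XT.nd (nat_lit 78) (nat_lit 0) (nat_lit 0) (XT.lf (nat_lit 0) (nat_lit 164441166745) (nat_lit 76) (nat_lit 152382337351) (nat_lit 76) (nat_lit 134249409470) (nat_lit 3) (nat_lit 4) (nat_lit 4) (nat_lit 5) (nat_lit 4) (nat_lit 4) (nat_lit 421) (nat_lit 346) (nat_lit 253)) (XT.lf (nat_lit 0) (nat_lit 222797598144) (nat_lit 76) (nat_lit 140349314217) (nat_lit 76) (nat_lit 122215339055) (nat_lit 3) (nat_lit 4) (nat_lit 4) (nat_lit 5) (nat_lit 4) (nat_lit 4) (nat_lit 422) (nat_lit 346) (nat_lit 252)))))) (XT.nd (nat_lit 390) (nat_lit 152) (nat_lit 0) (XT.nd (nat_lit 156) (nat_lit 0) (nat_lit 0) (XT.nd (nat_lit 78) (nat_lit 0) (nat_lit 0)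 (XT.lf (nat_lit 0) (nat_lit 285817527624) (nat_lit 76) (nat_lit 127356176456) (nat_lit 76) (nat_lit 109221231589) (nat_lit 3) (nat_lit 4) (nat_lit 4) (nat_lit 5) (nat_lit 4) (nat_lit 4) (nat_lit 423) (nat_lit 346) (nat_lit 251)) (XT.lf (nat_lit 0) (nat_lit 353874406620) (nat_lit 76) (nat_lit 113325927696) (nat_lit 76) (nat_lit 95190084954) (nat_lit 3) (nat_lit 4) (nat_lit 4) (nat_lit 5) (nat_lit 4) (nat_lit 4) (nat_lit 424) (nat_lit 346) (nat_lit 250))) (XT.nd (nat_lit 78) (nat_lit 0) (nat_lit 0) (XT.lf (nat_lit 0) (nat_lit 427371535156) (nat_lit 76) (nat_lit 98175425721) (nat_lit 76) (nat_lit 80038751613) (nat_lit 3) (nat_lit 4) (nat_lit 4) (nat_lit 5) (nat_lit 4) (nat_lit 4) (nat_lit 425) (nat_lit 346) (nat_lit 249)) (XT.nd (nat_lit 78) (nat_lit 0) (nat_lit 0) (XT.lf (nat_lit 0) (nat_lit 506744451771) (nat_lit 76) (nat_lit 81814889780) (nat_lit 76) (nat_lit 63677445889) (nat_lit 3) (nat_lit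 4) (nat_lit 4) (nat_lit 5) (nat_lit 4) (nat_lit 4) (nat_lit 426) (nat_lit 346) (nat_lit 248)) (XT.lf (nat_lit 0) (nat_lit 592463514489) (nat_lit 76) (nat_lit 64147368548) (nat_lit 76) (nat_lit 46009211895) (nat_lit 3) (nat_lit 4) (nat_lit 4) (nat_lit 5) (nat_lit 4) (nat_lit 4) (nat_lit 427) (nat_lit 346) (nat_lit 247))))) (XT.nd (nat_lit 156) (nat_lit 152) (nat_lit 0) (XT.nd (nat_lit 78) (nat_lit 0) (nat_lit 0) (XT.lf (nat_lit 0) (nat_lit 685036688127) (nat_lit 76) (nat_lit 45068165603) (nat_lit 76) (nat_lit 26929348985) (nat_lit 3) (nat_lit 4) (nat_lit 4) (nat_lit 5) (nat_lit 4) (nat_lit 4) (nat_lit 428) (nat_lit 346) (nat_lit 246)) (XT.lf (nat_lit 0) (nat_lit 785012554453) (nat_lit 76) (nat_lit 24464219001) (nat_lit 76) (nat_lit 6324791305) (nat_lit 3) (nat_lit 4) (nat_lit 4) (nat_lit 5) (nat_lit 4) (nat_lit 4) (nat_lit 429) (nat_lit 346) (nat_lit 245))) (XT.nd (nat_lit 78) (nat_lit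 0) (nat_lit 0) (XT.lf (nat_lit 0) (nat_lit 14032036011) (nat_lit 76) (nat_lit 1435285874) (nat_lit 152) (nat_lit 863745469817) (nat_lit 1) (nat_lit 5) (nat_lit 2) (nat_lit 5) (nat_lit 3) (nat_lit 4) (nat_lit 430) (nat_lit 346) (nat_lit 244)) (XT.nd (nat_lit 78) (nat_lit 0) (nat_lit 0) (XT.lf (nat_lit 0) (nat_lit 40086942360) (nat_lit 152) (nat_lit 884192597857) (nat_lit 0) (nat_lit 23290166979) (nat_lit 1) (nat_lit 5) (nat_lit 3) (nat_lit 4) (nat_lit 1) (nat_lit 4) (nat_lit 431) (nat_lit 346) (nat_lit 243)) (XT.lf (nat_lit 0) (nat_lit 66712036769) (nat_lit 152) (nat_lit 904765454701) (nat_lit 0) (nat_lit 49914812227) (nat_lit 1) (nat_lit 5) (nat_lit 3) (nat_lit 4) (nat_lit 1) (nat_lit 4) (nat_lit 432) (nat_lit 346) (nat_lit 242))))))))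
noncomputable def xc114 : XT := (XT.nd (nat_lit 1482) (nat_lit 0) (nat_lit 0) (XT.nd (nat_lit 702) (nat_lit 0) (nat_lit 0) (XT.nd (nat_lit 312) (nat_lit 0) (nat_lit 0) (XT.nd (nat_lit 156) (nat_lit 0) (nat_lit 0) (XT.nd (nat_lit 78) (nat_lit 0) (nat_lit 0) (XT.lf (nat_lit 0) (nat_lit 95465864789) (nat_lit 152) (nat_lit 926986720788) (nat_lit 0) (nat_lit 78668224357) (nat_lit 1) (nat_lit 5) (nat_lit 3) (nat_lit 4) (nat_lit 1) (nat_lit 4) (nat_lit 433) (nat_lit 346) (nat_lit 241)) (XT.lf (nat_lit 0) (nat_lit 126518819476) (nat_lit 152) (nat_lit 950988077696) (nat_lit 0) (nat_lit 109720793961) (nat_lit 1) (nat_lit 5) (nat_lit 3) (nat_lit 4) (nat_lit 1) (nat_lit 4) (nat_lit 434) (nat_lit 346) (nat_lit 240))) (XT.nd (nat_lit 78) (nat_lit 0) (nat_lit 0) (XT.lf (nat_lit 0) (nat_lit 160054918339) (nat_lit 152) (nat_lit 976911755687) (nat_lit 0) (nat_lit 143256536265) (nat_lit 1) (nat_lit 5) (nat_lit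 3) (nat_lit 4) (nat_lit 1) (nat_lit 4) (nat_lit 435) (nat_lit 346) (nat_lit 239)) (XT.lf (nat_lit 0) (nat_lit 196272893815) (nat_lit 152) (nat_lit 1004911376558) (nat_lit 0) (nat_lit 179474181594) (nat_lit 1) (nat_lit 5) (nat_lit 3) (nat_lit 4) (nat_lit 1) (nat_lit 4) (nat_lit 436) (nat_lit 346) (nat_lit 238)))) (XT.nd (nat_lit 156) (nat_lit 0) (nat_lit 0) (XT.nd (nat_lit 78) (nat_lit 0) (nat_lit 0) (XT.lf (nat_lit 0) (nat_lit 235387370944) (nat_lit 152) (nat_lit 1035152863987) (nat_lit 0) (nat_lit 218588353032) (nat_lit 1) (nat_lit 5) (nat_lit 3) (nat_lit 4) (nat_lit 1) (nat_lit 4) (nat_lit 437) (nat_lit 346) (nat_lit 237)) (XT.lf (nat_lit 0) (nat_lit 277630139220) (nat_lit 152) (nat_lit 1067815426788) (nat_lit 0) (nat_lit 260830838260) (nat_lit 1) (nat_lit 5) (nat_lit 3) (nat_lit 4) (nat_lit 1) (nat_lit 4) (nat_lit 438) (nat_lit 346) (nat_lit 236))) (XT.nd (nat_lit 78) (nat_lit 0) (nat_lit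 0) (XT.lf (nat_lit 0) (nat_lit 323251526160) (nat_lit 152) (nat_lit 1103092620890) (nat_lit 0) (nat_lit 306451963119) (nat_lit 1) (nat_lit 5) (nat_lit 3) (nat_lit 4) (nat_lit 1) (nat_lit 4) (nat_lit 439) (nat_lit 346) (nat_lit 235)) (XT.nd (nat_lit 78) (nat_lit 0) (nat_lit 0) (XT.lf (nat_lit 0) (nat_lit 372521880722) (nat_lit 152) (nat_lit 1141193496332) (nat_lit 0) (nat_lit 355722075013) (nat_lit 1) (nat_lit 5) (nat_lit 3) (nat_lit 4) (nat_lit 1) (nat_lit 4) (nat_lit 440) (nat_lit 346) (nat_lit 234)) (XT.lf (nat_lit 0) (nat_lit 425733175378) (nat_lit 152) (nat_lit 1182343836079) (nat_lit 0) (nat_lit 408933144977) (nat_lit 1) (nat_lit 5) (nat_lit 3) (nat_lit 4) (nat_lit 1) (nat_lit 4) (nat_lit 441) (nat_lit 346) (nat_lit 233)))))) (XT.nd (nat_lit 390) (nat_lit 0) (nat_lit 0) (XT.nd (nat_lit 156) (nat_lit 0) (nat_lit 0) (XT.nd (nat_lit 78) (nat_lit 0) (nat_lit 0) (XT.lf (nat_lit 0) (nat_lit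 483200736319) (nat_lit 152) (nat_lit 1226787493996) (nat_lit 0) (nat_lit 466400497870) (nat_lit 1) (nat_lit 5) (nat_lit 3) (nat_lit 4) (nat_lit 1) (nat_lit 4) (nat_lit 442) (nat_lit 346) (nat_lit 232)) (XT.lf (nat_lit 0) (nat_lit 545265112054) (nat_lit 152) (nat_lit 1274787839908) (nat_lit 0) (nat_lit 528464680967) (nat_lit 1) (nat_lit 5) (nat_lit 3) (nat_lit 4) (nat_lit 1) (nat_lit 4) (nat_lit 443) (nat_lit 346) (nat_lit 231))) (XT.nd (nat_lit 78) (nat_lit 0) (nat_lit 0) (XT.lf (nat_lit 0) (nat_lit 612294091476) (nat_lit 152) (nat_lit 1326629320310) (nat_lit 0) (nat_lit 595493482021) (nat_lit 1) (nat_lit 5) (nat_lit 3) (nat_lit 4) (nat_lit 1) (nat_lit 4) (nat_lit 444) (nat_lit 346) (nat_lit 230)) (XT.nd (nat_lit 78) (nat_lit 0) (nat_lit 0) (XT.lf (nat_lit 0) (nat_lit 684684883353) (nat_lit 152) (nat_lit 1382619143974) (nat_lit 0) (nat_lit 667884108742) (nat_lit 1) (nat_lit 5) (nat_lit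 3) (nat_lit 4) (nat_lit 1) (nat_lit 4) (nat_lit 445) (nat_lit 346) (nat_lit 229)) (XT.lf (nat_lit 0) (nat_lit 762866470154) (nat_lit 152) (nat_lit 1443089102447) (nat_lit 0) (nat_lit 746065542621) (nat_lit 1) (nat_lit 5) (nat_lit 3) (nat_lit 4) (nat_lit 1) (nat_lit 4) (nat_lit 446) (nat_lit 346) (nat_lit 228))))) (XT.nd (nat_lit 156) (nat_lit 0) (nat_lit 0) (XT.nd (nat_lit 78) (nat_lit 0) (nat_lit 0) (XT.lf (nat_lit 0) (nat_lit 847302150172) (nat_lit 152) (nat_lit 1508397536225) (nat_lit 0) (nat_lit 830501081045) (nat_lit 1) (nat_lit 5) (nat_lit 3) (nat_lit 4) (nat_lit 1) (nat_lit 4) (nat_lit 447) (nat_lit 346) (nat_lit 227)) (XT.lf (nat_lit 0) (nat_lit 938492282991) (nat_lit 152) (nat_lit 1578931458247) (nat_lit 0) (nat_lit 921691082759) (nat_lit 1) (nat_lit 5) (nat_lit 3) (nat_lit 4) (nat_lit 1) (nat_lit 4) (nat_lit 448) (nat_lit 346) (nat_lit 226))) (XT.nd (nat_lit 78) (nat_lit 0) (nat_lit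 0) (XT.lf (nat_lit 0) (nat_lit 1036977254585) (nat_lit 152) (nat_lit 1655108847313) (nat_lit 0) (nat_lit 1020175932958) (nat_lit 1) (nat_lit 5) (nat_lit 3) (nat_lit 4) (nat_lit 1) (nat_lit 4) (nat_lit 449) (nat_lit 346) (nat_lit 225)) (XT.nd (nat_lit 78) (nat_lit 0) (nat_lit 0) (XT.lf (nat_lit 0) (nat_lit 1143340679600) (nat_lit 152) (nat_lit 1737381124986) (nat_lit 0) (nat_lit 1126539245571) (nat_lit 1) (nat_lit 5) (nat_lit 3) (nat_lit 4) (nat_lit 1) (nat_lit 4) (nat_lit 450) (nat_lit 346) (nat_lit 224)) (XT.lf (nat_lit 0) (nat_lit 1258212859813) (nat_lit 152) (nat_lit 1826235830689) (nat_lit 0) (nat_lit 1241411321708) (nat_lit 1) (nat_lit 5) (nat_lit 3) (nat_lit 4) (nat_lit 1) (nat_lit 4) (nat_lit 451) (nat_lit 346) (nat_lit 223))))))) (XT.nd (nat_lit 45162) (nat_lit 0) (nat_lit 3648) (XT.nd (nat_lit 390) (nat_lit 0) (nat_lit 0) (XT.nd (nat_lit 156) (nat_lit 0) (nat_lit 0) (XT.nd (nat_lit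 78) (nat_lit 0) (nat_lit 0) (XT.lf (nat_lit 0) (nat_lit 1382274519256) (nat_lit 152) (nat_lit 1922199510827) (nat_lit 0) (nat_lit 1365472884784) (nat_lit 1) (nat_lit 5) (nat_lit 3) (nat_lit 4) (nat_lit 1) (nat_lit 4) (nat_lit 452) (nat_lit 346) (nat_lit 222)) (XT.lf (nat_lit 0) (nat_lit 1516260838133) (nat_lit 152) (nat_lit 2025840839059) (nat_lit 0) (nat_lit 1499459114432) (nat_lit 1) (nat_lit 5) (nat_lit 3) (nat_lit 4) (nat_lit 1) (nat_lit 4) (nat_lit 453) (nat_lit 346) (nat_lit 221))) (XT.nd (nat_lit 78) (nat_lit 0) (nat_lit 0) (XT.lf (nat_lit 0) (nat_lit 1660965809443) (nat_lit 152) (nat_lit 2137773986221) (nat_lit 0) (nat_lit 1644164003124) (nat_lit 1) (nat_lit 5) (nat_lit 3) (nat_lit 4) (nat_lit 1) (nat_lit 4) (nat_lit 454) (nat_lit 346) (nat_lit 220)) (XT.nd (nat_lit 78) (nat_lit 0) (nat_lit 0) (XT.lf (nat_lit 0) (nat_lit 1817246944130) (nat_lit 152) (nat_lit 2258662259849) (nat_lit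 0) (nat_lit 1800445061312) (nat_lit 1) (nat_lit 5) (nat_lit 3) (nat_lit 4) (nat_lit 1) (nat_lit 4) (nat_lit 455) (nat_lit 346) (nat_lit 219)) (XT.lf (nat_lit 0) (nat_lit 1986030352619) (nat_lit 152) (nat_lit 2389222034901) (nat_lit 0) (nat_lit 1969228398969) (nat_lit 1) (nat_lit 5) (nat_lit 3) (nat_lit 4) (nat_lit 1) (nat_lit 4) (nat_lit 456) (nat_lit 346) (nat_lit 218))))) (XT.nd (nat_lit 44538) (nat_lit 0) (nat_lit 5092) (XT.nd (nat_lit 78) (nat_lit 0) (nat_lit 0) (XT.lf (nat_lit 0) (nat_lit 2168316232888) (nat_lit 152) (nat_lit 2530226998930) (nat_lit 0) (nat_lit 2151514213652) (nat_lit 1) (nat_lit 5) (nat_lit 3) (nat_lit 4) (nat_lit 1) (nat_lit 4) (nat_lit 457) (nat_lit 346) (nat_lit 217)) (XT.lf (nat_lit 0) (nat_lit 2365184797560) (nat_lit 152) (nat_lit 2682512736909) (nat_lit 0) (nat_lit 2348382717597) (nat_lit 1) (nat_lit 5) (nat_lit 3) (nat_lit 4) (nat_lit 1) (nat_lit 4) (nat_lit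 458) (nat_lit 346) (nat_lit 216))) (XT.nd (nat_lit 78) (nat_lit 0) (nat_lit 0) (XT.lf (nat_lit 0) (nat_lit 624212614) (nat_lit 0) (nat_lit 624212614) (nat_lit 380) (nat_lit 2680251764) (nat_lit 68) (nat_lit 5) (nat_lit 68) (nat_lit 3) (nat_lit 73) (nat_lit 3) (nat_lit 347) (nat_lit 347) (nat_lit 326)) (XT.nd (nat_lit 78) (nat_lit 0) (nat_lit 0) (XT.lf (nat_lit 0) (nat_lit 3853624019) (nat_lit 380) (nat_lit 2815340125) (nat_lit 456) (nat_lit 1400476827) (nat_lit 68) (nat_lit 5) (nat_lit 73) (nat_lit 3) (nat_lit 74) (nat_lit 5) (nat_lit 348) (nat_lit 347) (nat_lit 325)) (XT.lf (nat_lit 76) (nat_lit 1238764011) (nat_lit 0) (nat_lit 4021660688) (nat_lit 456) (nat_lit 3042916998) (nat_lit 69) (nat_lit 5) (nat_lit 68) (nat_lit 5) (nat_lit 74) (nat_lit 5) (nat_lit 349) (nat_lit 347) (nat_lit 324)))))) (XT.nd (nat_lit 390) (nat_lit 1064) (nat_lit 0) (XT.nd (nat_lit 156) (nat_lit 380) (nat_lit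 0) (XT.nd (nat_lit 78) (nat_lit 0) (nat_lit 76) (XT.lf (nat_lit 76) (nat_lit 5706630190) (nat_lit 0) (nat_lit 1036625383) (nat_lit 456) (nat_lit 1815773354) (nat_lit 69) (nat_lit 5) (nat_lit 68) (nat_lit 5) (nat_lit 74) (nat_lit 5) (nat_lit 350) (nat_lit 347) (nat_lit 323)) (XT.lf (nat_lit 76) (nat_lit 1651839851) (nat_lit 0) (nat_lit 6681072190) (nat_lit 456) (nat_lit 503345137) (nat_lit 70) (nat_lit 5) (nat_lit 69) (nat_lit 5) (nat_lit 75) (nat_lit 5) (nat_lit 351) (nat_lit 347) (nat_lit 322))) (XT.nd (nat_lit 78) (nat_lit 0) (nat_lit 76) (XT.lf (nat_lit 0) (nat_lit 874443709) (nat_lit 456) (nat_lit 2580201956) (nat_lit 532) (nat_lit 5678893683) (nat_lit 63) (nat_lit 5) (nat_lit 69) (nat_lit 5) (nat_lit 70) (nat_lit 5) (nat_lit 352) (nat_lit 347) (nat_lit 321)) (XT.nd (nat_lit 78) (nat_lit 0) (nat_lit 0) (XT.lf (nat_lit 0) (nat_lit 2303352432) (nat_lit 456) (nat_lit 7031469717) (nat_lit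 76) (nat_lit 121401497) (nat_lit 64) (nat_lit 5) (nat_lit 70) (nat_lit 5) (nat_lit 65) (nat_lit 5) (nat_lit 353) (nat_lit 347) (nat_lit 320)) (XT.lf (nat_lit 0) (nat_lit 3920936939) (nat_lit 456) (nat_lit 1992198135) (nat_lit 76) (nat_lit 3885742922) (nat_lit 64) (nat_lit 5) (nat_lit 70) (nat_lit 5) (nat_lit 65) (nat_lit 5) (nat_lit 354) (nat_lit 347) (nat_lit 319))))) (XT.nd (nat_lit 156) (nat_lit 684) (nat_lit 0) (XT.nd (nat_lit 78) (nat_lit 0) (nat_lit 0) (XT.lf (nat_lit 0) (nat_lit 3555481776) (nat_lit 456) (nat_lit 2116708019) (nat_lit 532) (nat_lit 4496510600) (nat_lit 58) (nat_lit 5) (nat_lit 64) (nat_lit 5) (nat_lit 65) (nat_lit 5) (nat_lit 355) (nat_lit 347) (nat_lit 318)) (XT.lf (nat_lit 0) (nat_lit 7590346925) (nat_lit 532) (nat_lit 1029740930) (nat_lit 76) (nat_lit 1945965874) (nat_lit 58) (nat_lit 5) (nat_lit 65) (nat_lit 5) (nat_lit 59) (nat_lit 5) (nat_lit 356) (nat_lit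 347) (nat_lit 317))) (XT.nd (nat_lit 78) (nat_lit 304) (nat_lit 0) (XT.lf (nat_lit 0) (nat_lit 5130658832) (nat_lit 380) (nat_lit 4638574682) (nat_lit 456) (nat_lit 1217462507) (nat_lit 53) (nat_lit 5) (nat_lit 58) (nat_lit 5) (nat_lit 59) (nat_lit 5) (nat_lit 357) (nat_lit 347) (nat_lit 316)) (XT.nd (nat_lit 78) (nat_lit 0) (nat_lit 0) (XT.lf (nat_lit 0) (nat_lit 329744322) (nat_lit 228) (nat_lit 285095772) (nat_lit 304) (nat_lit 10827510555) (nat_lit 49) (nat_lit 5) (nat_lit 52) (nat_lit 5) (nat_lit 53) (nat_lit 5) (nat_lit 358) (nat_lit 347) (nat_lit 315)) (XT.lf (nat_lit 0) (nat_lit 2732399064) (nat_lit 304) (nat_lit 4796918383) (nat_lit 76) (nat_lit 4386320429) (nat_lit 49) (nat_lit 5) (nat_lit 53) (nat_lit 5) (nat_lit 50) (nat_lit 5) (nat_lit 359) (nat_lit 347) (nat_lit 314))))))))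
noncomputable def xc115 : XT := (XT.nd (nat_lit 1482) (nat_lit 988) (nat_lit 0) (XT.nd (nat_lit 702) (nat_lit 988) (nat_lit 0) (XT.nd (nat_lit 312) (nat_lit 608) (nat_lit 0) (XT.nd (nat_lit 156) (nat_lit 152) (nat_lit 0) (XT.nd (nat_lit 78) (nat_lit 0) (nat_lit 0) (XT.lf (nat_lit 0) (nat_lit 2048058511) (nat_lit 228) (nat_lit 2966810265) (nat_lit 304) (nat_lit 7412339713) (nat_lit 46) (nat_lit 5) (nat_lit 49) (nat_lit 5) (nat_lit 50) (nat_lit 5) (nat_lit 360) (nat_lit 347) (nat_lit 313)) (XT.lf (nat_lit 0) (nat_lit 7603101475) (nat_lit 304) (nat_lit 3380007332) (nat_lit 76) (nat_lit 1986799094) (nat_lit 46) (nat_lit 5) (nat_lit 50) (nat_lit 5) (nat_lit 47) (nat_lit 5) (nat_lit 361) (nat_lit 347) (nat_lit 312))) (XT.nd (nat_lit 78) (nat_lit 0) (nat_lit 0) (XT.lf (nat_lit 0) (nat_lit 4246204083) (nat_lit 152) (nat_lit 6277154912) (nat_lit 228) (nat_lit 3022719177) (nat_lit 44) (nat_lit 5)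 (nat_lit 46) (nat_lit 5) (nat_lit 47) (nat_lit 5) (nat_lit 362) (nat_lit 347) (nat_lit 311)) (XT.lf (nat_lit 0) (nat_lit 12608248424) (nat_lit 152) (nat_lit 1109605869) (nat_lit 228) (nat_lit 447286735) (nat_lit 44) (nat_lit 5) (nat_lit 46) (nat_lit 5) (nat_lit 47) (nat_lit 5) (nat_lit 363) (nat_lit 347) (nat_lit 310)))) (XT.nd (nat_lit 156) (nat_lit 152) (nat_lit 0) (XT.nd (nat_lit 78) (nat_lit 152) (nat_lit 0) (XT.lf (nat_lit 0) (nat_lit 2450441543) (nat_lit 304) (nat_lit 7895487417) (nat_lit 76) (nat_lit 4464708315) (nat_lit 40) (nat_lit 5) (nat_lit 44) (nat_lit 5) (nat_lit 41) (nat_lit 5) (nat_lit 364) (nat_lit 347) (nat_lit 309)) (XT.lf (nat_lit 0) (nat_lit 570096457) (nat_lit 152) (nat_lit 5024453870) (nat_lit 228) (nat_lit 9909233654) (nat_lit 38) (nat_lit 5) (nat_lit 40) (nat_lit 5) (nat_lit 41) (nat_lit 5) (nat_lit 365) (nat_lit 347) (nat_lit 308))) (XT.nd (nat_lit 78) (nat_lit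 152) (nat_lit 0) (XT.lf (nat_lit 0) (nat_lit 9183092031) (nat_lit 228) (nat_lit 6163710761) (nat_lit 76) (nat_lit 890182820) (nat_lit 38) (nat_lit 5) (nat_lit 41) (nat_lit 5) (nat_lit 39) (nat_lit 5) (nat_lit 366) (nat_lit 347) (nat_lit 307)) (XT.nd (nat_lit 78) (nat_lit 0) (nat_lit 0) (XT.lf (nat_lit 0) (nat_lit 3278823511) (nat_lit 152) (nat_lit 9946697714) (nat_lit 228) (nat_lit 3790010716) (nat_lit 36) (nat_lit 5) (nat_lit 38) (nat_lit 5) (nat_lit 39) (nat_lit 5) (nat_lit 367) (nat_lit 347) (nat_lit 306)) (XT.lf (nat_lit 0) (nat_lit 13766324532) (nat_lit 152) (nat_lit 3952676065) (nat_lit 228) (nat_lit 127179371) (nat_lit 36) (nat_lit 5) (nat_lit 38) (nat_lit 5) (nat_lit 39) (nat_lit 5) (nat_lit 368) (nat_lit 347) (nat_lit 305)))))) (XT.nd (nat_lit 390) (nat_lit 456) (nat_lit 0) (XT.nd (nat_lit 156) (nat_lit 304) (nat_lit 0) (XT.nd (nat_lit 78) (nat_lit 0) (nat_lit 0) (XT.lf (nat_lit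 0) (nat_lit 3821856114) (nat_lit 228) (nat_lit 12267750901) (nat_lit 76) (nat_lit 2631556262) (nat_lit 33) (nat_lit 5) (nat_lit 36) (nat_lit 5) (nat_lit 34) (nat_lit 5) (nat_lit 369) (nat_lit 347) (nat_lit 304)) (XT.lf (nat_lit 0) (nat_lit 8259237375) (nat_lit 228) (nat_lit 1764306108) (nat_lit 76) (nat_lit 9628018167) (nat_lit 33) (nat_lit 5) (nat_lit 36) (nat_lit 5) (nat_lit 34) (nat_lit 5) (nat_lit 370) (nat_lit 347) (nat_lit 303))) (XT.nd (nat_lit 78) (nat_lit 152) (nat_lit 0) (XT.lf (nat_lit 0) (nat_lit 10025773880) (nat_lit 152) (nat_lit 3231936027) (nat_lit 228) (nat_lit 7382216312) (nat_lit 31) (nat_lit 5) (nat_lit 33) (nat_lit 5) (nat_lit 34) (nat_lit 5) (nat_lit 371) (nat_lit 347) (nat_lit 302)) (XT.nd (nat_lit 78) (nat_lit 76) (nat_lit 0) (XT.lf (nat_lit 0) (nat_lit 1052613495) (nat_lit 76) (nat_lit 17742730717) (nat_lit 152) (nat_lit 2900893756) (nat_lit 30) (nat_lit 5) (nat_lit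 31) (nat_lit 5) (nat_lit 32) (nat_lit 4) (nat_lit 372) (nat_lit 347) (nat_lit 301)) (XT.lf (nat_lit 0) (nat_lit 2189780004) (nat_lit 152) (nat_lit 8751988717) (nat_lit 76) (nat_lit 11863746093) (nat_lit 29) (nat_lit 5) (nat_lit 31) (nat_lit 5) (nat_lit 30) (nat_lit 5) (nat_lit 373) (nat_lit 347) (nat_lit 300))))) (XT.nd (nat_lit 156) (nat_lit 304) (nat_lit 0) (XT.nd (nat_lit 78) (nat_lit 0) (nat_lit 0) (XT.lf (nat_lit 0) (nat_lit 4172121657) (nat_lit 152) (nat_lit 3427854545) (nat_lit 228) (nat_lit 16392026862) (nat_lit 27) (nat_lit 5) (nat_lit 29) (nat_lit 5) (nat_lit 30) (nat_lit 5) (nat_lit 374) (nat_lit 347) (nat_lit 299)) (XT.lf (nat_lit 0) (nat_lit 13770479151) (nat_lit 228) (nat_lit 6798146233) (nat_lit 76) (nat_lit 4678600942) (nat_lit 27) (nat_lit 5) (nat_lit 30) (nat_lit 5) (nat_lit 28) (nat_lit 4) (nat_lit 375) (nat_lit 347) (nat_lit 298))) (XT.nd (nat_lit 78) (nat_lit 228)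 (nat_lit 0) (XT.lf (nat_lit 0) (nat_lit 7502689332) (nat_lit 76) (nat_lit 13172939624) (nat_lit 152) (nat_lit 5907972073) (nat_lit 26) (nat_lit 5) (nat_lit 27) (nat_lit 5) (nat_lit 28) (nat_lit 4) (nat_lit 376) (nat_lit 347) (nat_lit 297)) (XT.nd (nat_lit 78) (nat_lit 152) (nat_lit 0) (XT.lf (nat_lit 0) (nat_lit 263455265) (nat_lit 152) (nat_lit 4734370532) (nat_lit 76) (nat_lit 23015870033) (nat_lit 25) (nat_lit 5) (nat_lit 27) (nat_lit 5) (nat_lit 26) (nat_lit 5) (nat_lit 377) (nat_lit 347) (nat_lit 296)) (XT.lf (nat_lit 0) (nat_lit 6953242371) (nat_lit 228) (nat_lit 18512219050) (nat_lit 76) (nat_lit 4052965326) (nat_lit 23) (nat_lit 5) (nat_lit 26) (nat_lit 5) (nat_lit 24) (nat_lit 4) (nat_lit 378) (nat_lit 347) (nat_lit 295))))))) (XT.nd (nat_lit 780) (nat_lit 456) (nat_lit 0) (XT.nd (nat_lit 390) (nat_lit 304) (nat_lit 0) (XT.nd (nat_lit 156) (nat_lit 152) (nat_lit 0) (XT.nd (nat_lit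 78) (nat_lit 76) (nat_lit 0) (XT.lf (nat_lit 0) (nat_lit 14415101988) (nat_lit 228) (nat_lit 3037031776) (nat_lit 76) (nat_lit 13672461583) (nat_lit 23) (nat_lit 5) (nat_lit 26) (nat_lit 5) (nat_lit 24) (nat_lit 4) (nat_lit 379) (nat_lit 347) (nat_lit 294)) (XT.lf (nat_lit 0) (nat_lit 14351541346) (nat_lit 76) (nat_lit 8443697617) (nat_lit 152) (nat_lit 10038321785) (nat_lit 22) (nat_lit 5) (nat_lit 23) (nat_lit 5) (nat_lit 24) (nat_lit 4) (nat_lit 380) (nat_lit 347) (nat_lit 293))) (XT.nd (nat_lit 78) (nat_lit 152) (nat_lit 0) (XT.lf (nat_lit 0) (nat_lit 31938394026) (nat_lit 152) (nat_lit 1444637219) (nat_lit 0) (nat_lit 1288812458) (nat_lit 22) (nat_lit 5) (nat_lit 24) (nat_lit 4) (nat_lit 22) (nat_lit 4) (nat_lit 381) (nat_lit 347) (nat_lit 292)) (XT.nd (nat_lit 78) (nat_lit 0) (nat_lit 0) (XT.lf (nat_lit 0) (nat_lit 5534257824) (nat_lit 152) (nat_lit 19171754985) (nat_lit 76) (nat_lit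 11890355497) (nat_lit 20) (nat_lit 5) (nat_lit 22) (nat_lit 5) (nat_lit 21) (nat_lit 4) (nat_lit 382) (nat_lit 347) (nat_lit 291)) (XT.lf (nat_lit 0) (nat_lit 14334594996) (nat_lit 152) (nat_lit 898007087) (nat_lit 76) (nat_lit 23435068729) (nat_lit 20) (nat_lit 5) (nat_lit 22) (nat_lit 5) (nat_lit 21) (nat_lit 4) (nat_lit 383) (nat_lit 347) (nat_lit 290))))) (XT.nd (nat_lit 156) (nat_lit 228) (nat_lit 0) (XT.nd (nat_lit 78) (nat_lit 0) (nat_lit 0) (XT.lf (nat_lit 0) (nat_lit 19790757065) (nat_lit 76) (nat_lit 4504138280) (nat_lit 152) (nat_lit 16573313812) (nat_lit 19) (nat_lit 5) (nat_lit 20) (nat_lit 5) (nat_lit 21) (nat_lit 4) (nat_lit 384) (nat_lit 347) (nat_lit 289)) (XT.lf (nat_lit 0) (nat_lit 35227736253) (nat_lit 152) (nat_lit 1265232369) (nat_lit 0) (nat_lit 6737770677) (nat_lit 19) (nat_lit 5) (nat_lit 21) (nat_lit 4) (nat_lit 19) (nat_lit 4) (nat_lit 385) (nat_lit 347) (nat_lit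 288))) (XT.nd (nat_lit 78) (nat_lit 76) (nat_lit 0) (XT.lf (nat_lit 0) (nat_lit 1810436388) (nat_lit 152) (nat_lit 24747009575) (nat_lit 76) (nat_lit 19172805986) (nat_lit 17) (nat_lit 5) (nat_lit 19) (nat_lit 5) (nat_lit 18) (nat_lit 4) (nat_lit 386) (nat_lit 347) (nat_lit 287)) (XT.nd (nat_lit 78) (nat_lit 76) (nat_lit 0) (XT.lf (nat_lit 0) (nat_lit 11993815570) (nat_lit 152) (nat_lit 3586647255) (nat_lit 76) (nat_lit 32831259204) (nat_lit 17) (nat_lit 5) (nat_lit 19) (nat_lit 5) (nat_lit 18) (nat_lit 4) (nat_lit 387) (nat_lit 347) (nat_lit 286)) (XT.lf (nat_lit 0) (nat_lit 20247488409) (nat_lit 76) (nat_lit 3214424069) (nat_lit 152) (nat_lit 27808197893) (nat_lit 16) (nat_lit 5) (nat_lit 17) (nat_lit 5) (nat_lit 18) (nat_lit 4) (nat_lit 388) (nat_lit 347) (nat_lit 285)))))) (XT.nd (nat_lit 390) (nat_lit 228) (nat_lit 0) (XT.nd (nat_lit 156) (nat_lit 152) (nat_lit 0) (XT.nd (nat_lit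 78) (nat_lit 76) (nat_lit 0) (XT.lf (nat_lit 0) (nat_lit 36175203566) (nat_lit 152) (nat_lit 8435501283) (nat_lit 0) (nat_lit 9720249335) (nat_lit 16) (nat_lit 5) (nat_lit 18) (nat_lit 4) (nat_lit 16) (nat_lit 4) (nat_lit 389) (nat_lit 347) (nat_lit 284)) (XT.lf (nat_lit 0) (nat_lit 16679792481) (nat_lit 76) (nat_lit 33694892654) (nat_lit 76) (nat_lit 7224454007) (nat_lit 15) (nat_lit 4) (nat_lit 16) (nat_lit 5) (nat_lit 16) (nat_lit 4) (nat_lit 390) (nat_lit 347) (nat_lit 283))) (XT.nd (nat_lit 78) (nat_lit 76) (nat_lit 0) (XT.lf (nat_lit 0) (nat_lit 4573345850) (nat_lit 152) (nat_lit 16972216701) (nat_lit 76) (nat_lit 39556710933) (nat_lit 14) (nat_lit 5) (nat_lit 16) (nat_lit 5) (nat_lit 15) (nat_lit 4) (nat_lit 391) (nat_lit 347) (nat_lit 282)) (XT.nd (nat_lit 78) (nat_lit 0) (nat_lit 0) (XT.lf (nat_lit 0) (nat_lit 9132314242) (nat_lit 76) (nat_lit 7997669268) (nat_lit 152) (nat_lit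 47724240478) (nat_lit 13) (nat_lit 5) (nat_lit 14) (nat_lit 5) (nat_lit 15) (nat_lit 4) (nat_lit 392) (nat_lit 347) (nat_lit 281)) (XT.lf (nat_lit 0) (nat_lit 31312597040) (nat_lit 152) (nat_lit 30778038010) (nat_lit 0) (nat_lit 6765982698) (nat_lit 13) (nat_lit 5) (nat_lit 15) (nat_lit 4) (nat_lit 13) (nat_lit 4) (nat_lit 393) (nat_lit 347) (nat_lit 280))))) (XT.nd (nat_lit 156) (nat_lit 152) (nat_lit 0) (XT.nd (nat_lit 78) (nat_lit 76) (nat_lit 0) (XT.lf (nat_lit 0) (nat_lit 46824395693) (nat_lit 152) (nat_lit 4072000910) (nat_lit 0) (nat_lit 22267242918) (nat_lit 13) (nat_lit 5) (nat_lit 15) (nat_lit 4) (nat_lit 13) (nat_lit 4) (nat_lit 394) (nat_lit 347) (nat_lit 279)) (XT.lf (nat_lit 0) (nat_lit 26049926513) (nat_lit 76) (nat_lit 38141531946) (nat_lit 76) (nat_lit 13574621362) (nat_lit 12) (nat_lit 4) (nat_lit 13) (nat_lit 5) (nat_lit 13) (nat_lit 4) (nat_lit 395) (nat_lit 347) (nat_lit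 278))) (XT.nd (nat_lit 78) (nat_lit 76) (nat_lit 0) (XT.lf (nat_lit 0) (nat_lit 302690576) (nat_lit 152) (nat_lit 23946349193) (nat_lit 76) (nat_lit 58479104681) (nat_lit 11) (nat_lit 5) (nat_lit 13) (nat_lit 5) (nat_lit 12) (nat_lit 4) (nat_lit 396) (nat_lit 347) (nat_lit 277)) (XT.nd (nat_lit 78) (nat_lit 0) (nat_lit 0) (XT.lf (nat_lit 0) (nat_lit 5969050903) (nat_lit 76) (nat_lit 8720065560) (nat_lit 152) (nat_lit 73359267796) (nat_lit 10) (nat_lit 5) (nat_lit 11) (nat_lit 5) (nat_lit 12) (nat_lit 4) (nat_lit 397) (nat_lit 347) (nat_lit 276)) (XT.lf (nat_lit 0) (nat_lit 31080650151) (nat_lit 152) (nat_lit 54335032740) (nat_lit 0) (nat_lit 8310226629) (nat_lit 10) (nat_lit 5) (nat_lit 12) (nat_lit 4) (nat_lit 10) (nat_lit 4) (nat_lit 398) (nat_lit 347) (nat_lit 275))))))))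
noncomputable def xc116 : XT := (XT.nd (nat_lit 1482) (nat_lit 228) (nat_lit 0) (XT.nd (nat_lit 702) (nat_lit 228) (nat_lit 0) (XT.nd (nat_lit 312) (nat_lit 152) (nat_lit 0) (XT.nd (nat_lit 156) (nat_lit 0) (nat_lit 0) (XT.nd (nat_lit 78) (nat_lit 76) (nat_lit 0) (XT.lf (nat_lit 0) (nat_lit 48999649702) (nat_lit 152) (nat_lit 24618112104) (nat_lit 0) (nat_lit 26222585179) (nat_lit 10) (nat_lit 5) (nat_lit 12) (nat_lit 4) (nat_lit 10) (nat_lit 4) (nat_lit 399) (nat_lit 347) (nat_lit 274)) (XT.lf (nat_lit 0) (nat_lit 7849931996) (nat_lit 76) (nat_lit 60681443048) (nat_lit 76) (nat_lit 37898229451) (nat_lit 9) (nat_lit 4) (nat_lit 10) (nat_lit 5) (nat_lit 10) (nat_lit 4) (nat_lit 400) (nat_lit 347) (nat_lit 273))) (XT.nd (nat_lit 78) (nat_lit 0) (nat_lit 0) (XT.lf (nat_lit 0) (nat_lit 44297036774) (nat_lit 76) (nat_lit 45992385841) (nat_lit 76) (nat_lit 23203478656) (nat_lit 9) (nat_lit 4)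 (nat_lit 10) (nat_lit 5) (nat_lit 10) (nat_lit 4) (nat_lit 401) (nat_lit 347) (nat_lit 272)) (XT.lf (nat_lit 0) (nat_lit 83642838916) (nat_lit 76) (nat_lit 30136646733) (nat_lit 76) (nat_lit 7342467707) (nat_lit 9) (nat_lit 4) (nat_lit 10) (nat_lit 5) (nat_lit 10) (nat_lit 4) (nat_lit 402) (nat_lit 347) (nat_lit 271)))) (XT.nd (nat_lit 156) (nat_lit 0) (nat_lit 0) (XT.nd (nat_lit 78) (nat_lit 76) (nat_lit 0) (XT.lf (nat_lit 0) (nat_lit 9289619662) (nat_lit 152) (nat_lit 3476651460) (nat_lit 76) (nat_lit 116576884404) (nat_lit 8) (nat_lit 5) (nat_lit 10) (nat_lit 5) (nat_lit 9) (nat_lit 4) (nat_lit 403) (nat_lit 347) (nat_lit 270)) (XT.lf (nat_lit 0) (nat_lit 27855111964) (nat_lit 152) (nat_lit 103531038176) (nat_lit 0) (nat_lit 6740685933) (nat_lit 7) (nat_lit 5) (nat_lit 9) (nat_lit 4) (nat_lit 7) (nat_lit 4) (nat_lit 404) (nat_lit 347) (nat_lit 269))) (XT.nd (nat_lit 78) (nat_lit 0)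 (nat_lit 0) (XT.lf (nat_lit 0) (nat_lit 48327406177) (nat_lit 152) (nat_lit 72042975651) (nat_lit 0) (nat_lit 27209105186) (nat_lit 7) (nat_lit 5) (nat_lit 9) (nat_lit 4) (nat_lit 7) (nat_lit 4) (nat_lit 405) (nat_lit 347) (nat_lit 268)) (XT.nd (nat_lit 78) (nat_lit 0) (nat_lit 0) (XT.lf (nat_lit 0) (nat_lit 70430487838) (nat_lit 152) (nat_lit 38049823843) (nat_lit 0) (nat_lit 49308598921) (nat_lit 7) (nat_lit 5) (nat_lit 9) (nat_lit 4) (nat_lit 7) (nat_lit 4) (nat_lit 406) (nat_lit 347) (nat_lit 267)) (XT.lf (nat_lit 0) (nat_lit 94295338171) (nat_lit 152) (nat_lit 1350141851) (nat_lit 0) (nat_lit 73170127101) (nat_lit 7) (nat_lit 5) (nat_lit 9) (nat_lit 4) (nat_lit 7) (nat_lit 4) (nat_lit 407) (nat_lit 347) (nat_lit 266)))))) (XT.nd (nat_lit 390) (nat_lit 0) (nat_lit 0) (XT.nd (nat_lit 156) (nat_lit 152) (nat_lit 0) (XT.nd (nat_lit 78) (nat_lit 0) (nat_lit 0) (XT.lf (nat_lit 0) (nat_lit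 40288967232) (nat_lit 76) (nat_lit 80743361912) (nat_lit 76) (nat_lit 59615074773) (nat_lit 6) (nat_lit 4) (nat_lit 7) (nat_lit 5) (nat_lit 7) (nat_lit 4) (nat_lit 408) (nat_lit 347) (nat_lit 265)) (XT.lf (nat_lit 0) (nat_lit 85324326933) (nat_lit 76) (nat_lit 64615033542) (nat_lit 76) (nat_lit 43483898192) (nat_lit 6) (nat_lit 4) (nat_lit 7) (nat_lit 5) (nat_lit 7) (nat_lit 4) (nat_lit 409) (nat_lit 347) (nat_lit 264))) (XT.nd (nat_lit 78) (nat_lit 152) (nat_lit 0) (XT.lf (nat_lit 0) (nat_lit 133951717379) (nat_lit 76) (nat_lit 47201834906) (nat_lit 76) (nat_lit 26068062323) (nat_lit 6) (nat_lit 4) (nat_lit 7) (nat_lit 5) (nat_lit 7) (nat_lit 4) (nat_lit 410) (nat_lit 347) (nat_lit 263)) (XT.nd (nat_lit 78) (nat_lit 152) (nat_lit 0) (XT.lf (nat_lit 0) (nat_lit 186459300885) (nat_lit 76) (nat_lit 28400576679) (nat_lit 76) (nat_lit 7264362214) (nat_lit 6) (nat_lit 4) (nat_lit 7) (nat_lit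 5) (nat_lit 7) (nat_lit 4) (nat_lit 411) (nat_lit 347) (nat_lit 262)) (XT.lf (nat_lit 0) (nat_lit 4868763332) (nat_lit 76) (nat_lit 7634716859) (nat_lit 152) (nat_lit 225681511973) (nat_lit 4) (nat_lit 5) (nat_lit 5) (nat_lit 5) (nat_lit 6) (nat_lit 4) (nat_lit 412) (nat_lit 347) (nat_lit 261))))) (XT.nd (nat_lit 156) (nat_lit 0) (nat_lit 0) (XT.nd (nat_lit 78) (nat_lit 0) (nat_lit 0) (XT.lf (nat_lit 0) (nat_lit 34811779853) (nat_lit 152) (nat_lit 205358432121) (nat_lit 0) (nat_lit 15237178938) (nat_lit 4) (nat_lit 5) (nat_lit 6) (nat_lit 4) (nat_lit 4) (nat_lit 4) (nat_lit 413) (nat_lit 347) (nat_lit 260)) (XT.lf (nat_lit 0) (nat_lit 59098663778) (nat_lit 152) (nat_lit 175371136593) (nat_lit 0) (nat_lit 39522268008) (nat_lit 4) (nat_lit 5) (nat_lit 6) (nat_lit 4) (nat_lit 4) (nat_lit 4) (nat_lit 414) (nat_lit 347) (nat_lit 259))) (XT.nd (nat_lit 78) (nat_lit 0) (nat_lit 0) (XT.lf (nat_lit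 0) (nat_lit 85324439119) (nat_lit 152) (nat_lit 142993024631) (nat_lit 0) (nat_lit 65746381445) (nat_lit 4) (nat_lit 5) (nat_lit 6) (nat_lit 4) (nat_lit 4) (nat_lit 4) (nat_lit 415) (nat_lit 347) (nat_lit 258)) (XT.nd (nat_lit 78) (nat_lit 0) (nat_lit 0) (XT.lf (nat_lit 0) (nat_lit 113644517879) (nat_lit 152) (nat_lit 108032225943) (nat_lit 0) (nat_lit 94064921404) (nat_lit 4) (nat_lit 5) (nat_lit 6) (nat_lit 4) (nat_lit 4) (nat_lit 4) (nat_lit 416) (nat_lit 347) (nat_lit 257)) (XT.lf (nat_lit 0) (nat_lit 144226722745) (nat_lit 152) (nat_lit 70281565424) (nat_lit 0) (nat_lit 124645701455) (nat_lit 4) (nat_lit 5) (nat_lit 6) (nat_lit 4) (nat_lit 4) (nat_lit 4) (nat_lit 417) (nat_lit 347) (nat_lit 256))))))) (XT.nd (nat_lit 702) (nat_lit 152) (nat_lit 0) (XT.nd (nat_lit 312) (nat_lit 0) (nat_lit 0) (XT.nd (nat_lit 156) (nat_lit 0) (nat_lit 0) (XT.nd (nat_lit 78) (nat_lit 76) (nat_lit 0)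 (XT.lf (nat_lit 0) (nat_lit 177252281598) (nat_lit 152) (nat_lit 29517335458) (nat_lit 0) (nat_lit 157669941036) (nat_lit 4) (nat_lit 5) (nat_lit 6) (nat_lit 4) (nat_lit 4) (nat_lit 4) (nat_lit 418) (nat_lit 347) (nat_lit 255)) (XT.lf (nat_lit 0) (nat_lit 15265680950) (nat_lit 76) (nat_lit 198018360498) (nat_lit 76) (nat_lit 178434798386) (nat_lit 3) (nat_lit 4) (nat_lit 4) (nat_lit 5) (nat_lit 4) (nat_lit 4) (nat_lit 419) (nat_lit 347) (nat_lit 254))) (XT.nd (nat_lit 78) (nat_lit 0) (nat_lit 0) (XT.lf (nat_lit 0) (nat_lit 65304164530) (nat_lit 76) (nat_lit 187698330406) (nat_lit 76) (nat_lit 168113637231) (nat_lit 3) (nat_lit 4) (nat_lit 4) (nat_lit 5) (nat_lit 4) (nat_lit 4) (nat_lit 420) (nat_lit 347) (nat_lit 253)) (XT.lf (nat_lit 0) (nat_lit 119340309052) (nat_lit 76) (nat_lit 176555427308) (nat_lit 76) (nat_lit 156969686852) (nat_lit 3) (nat_lit 4) (nat_lit 4) (nat_lit 5) (nat_lit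 4) (nat_lit 4) (nat_lit 421) (nat_lit 347) (nat_lit 252)))) (XT.nd (nat_lit 156) (nat_lit 0) (nat_lit 0) (XT.nd (nat_lit 78) (nat_lit 0) (nat_lit 0) (XT.lf (nat_lit 0) (nat_lit 177694328705) (nat_lit 76) (nat_lit 164523619186) (nat_lit 76) (nat_lit 144936909024) (nat_lit 3) (nat_lit 4) (nat_lit 4) (nat_lit 5) (nat_lit 4) (nat_lit 4) (nat_lit 422) (nat_lit 347) (nat_lit 251)) (XT.lf (nat_lit 0) (nat_lit 240712025088) (nat_lit 76) (nat_lit 151531606435) (nat_lit 76) (nat_lit 131943998399) (nat_lit 3) (nat_lit 4) (nat_lit 4) (nat_lit 5) (nat_lit 4) (nat_lit 4) (nat_lit 423) (nat_lit 347) (nat_lit 250))) (XT.nd (nat_lit 78) (nat_lit 0) (nat_lit 0) (XT.lf (nat_lit 0) (nat_lit 308766836401) (nat_lit 76) (nat_lit 137502399351) (nat_lit 76) (nat_lit 117913959949) (nat_lit 3) (nat_lit 4) (nat_lit 4) (nat_lit 5) (nat_lit 4) (nat_lit 4) (nat_lit 424) (nat_lit 347) (nat_lit 249)) (XT.nd (nat_lit 78)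 (nat_lit 0) (nat_lit 0) (XT.lf (nat_lit 0) (nat_lit 382262050416) (nat_lit 76) (nat_lit 122352861891) (nat_lit 76) (nat_lit 102763652706) (nat_lit 3) (nat_lit 4) (nat_lit 4) (nat_lit 5) (nat_lit 4) (nat_lit 4) (nat_lit 425) (nat_lit 347) (nat_lit 248)) (XT.lf (nat_lit 0) (nat_lit 461633194326) (nat_lit 76) (nat_lit 105993219020) (nat_lit 76) (nat_lit 86403297072) (nat_lit 3) (nat_lit 4) (nat_lit 4) (nat_lit 5) (nat_lit 4) (nat_lit 4) (nat_lit 426) (nat_lit 347) (nat_lit 247)))))) (XT.nd (nat_lit 390) (nat_lit 0) (nat_lit 0) (XT.nd (nat_lit 156) (nat_lit 152) (nat_lit 0) (XT.nd (nat_lit 78) (nat_lit 0) (nat_lit 0) (XT.lf (nat_lit 0) (nat_lit 547350615651) (nat_lit 76) (nat_lit 88326524704) (nat_lit 76) (nat_lit 68735942791) (nat_lit 3) (nat_lit 4) (nat_lit 4) (nat_lit 5) (nat_lit 4) (nat_lit 4) (nat_lit 427) (nat_lit 347) (nat_lit 246)) (XT.lf (nat_lit 0) (nat_lit 639922269480) (nat_lit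 76) (nat_lit 69248087422) (nat_lit 76) (nat_lit 49656894430) (nat_lit 3) (nat_lit 4) (nat_lit 4) (nat_lit 5) (nat_lit 4) (nat_lit 4) (nat_lit 428) (nat_lit 347) (nat_lit 245))) (XT.nd (nat_lit 78) (nat_lit 152) (nat_lit 0) (XT.lf (nat_lit 0) (nat_lit 739896728577) (nat_lit 76) (nat_lit 48644849768) (nat_lit 76) (nat_lit 29053090963) (nat_lit 3) (nat_lit 4) (nat_lit 4) (nat_lit 5) (nat_lit 4) (nat_lit 4) (nat_lit 429) (nat_lit 347) (nat_lit 244)) (XT.nd (nat_lit 78) (nat_lit 152) (nat_lit 0) (XT.lf (nat_lit 0) (nat_lit 847866434180) (nat_lit 76) (nat_lit 26394718481) (nat_lit 76) (nat_lit 6802435775) (nat_lit 3) (nat_lit 4) (nat_lit 4) (nat_lit 5) (nat_lit 4) (nat_lit 4) (nat_lit 430) (nat_lit 347) (nat_lit 243)) (XT.lf (nat_lit 0) (nat_lit 15207519651) (nat_lit 76) (nat_lit 1523387777) (nat_lit 152) (nat_lit 932816809469) (nat_lit 1) (nat_lit 5) (nat_lit 2) (nat_lit 5) (nat_lit 3) (nat_lit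 4) (nat_lit 431) (nat_lit 347) (nat_lit 242))))) (XT.nd (nat_lit 156) (nat_lit 0) (nat_lit 0) (XT.nd (nat_lit 78) (nat_lit 0) (nat_lit 0) (XT.lf (nat_lit 0) (nat_lit 43318751853) (nat_lit 152) (nat_lit 954877657296) (nat_lit 0) (nat_lit 25176884296) (nat_lit 1) (nat_lit 5) (nat_lit 3) (nat_lit 4) (nat_lit 1) (nat_lit 4) (nat_lit 432) (nat_lit 347) (nat_lit 241)) (XT.lf (nat_lit 0) (nat_lit 72072012770) (nat_lit 152) (nat_lit 977100072198) (nat_lit 0) (nat_lit 53929760130) (nat_lit 1) (nat_lit 5) (nat_lit 3) (nat_lit 4) (nat_lit 1) (nat_lit 4) (nat_lit 433) (nat_lit 347) (nat_lit 240))) (XT.nd (nat_lit 78) (nat_lit 0) (nat_lit 0) (XT.lf (nat_lit 0) (nat_lit 103124442361) (nat_lit 152) (nat_lit 1001102492822) (nat_lit 0) (nat_lit 84981833162) (nat_lit 1) (nat_lit 5) (nat_lit 3) (nat_lit 4) (nat_lit 1) (nat_lit 4) (nat_lit 434) (nat_lit 347) (nat_lit 239)) (XT.nd (nat_lit 78) (nat_lit 0)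 (nat_lit 0) (XT.lf (nat_lit 0) (nat_lit 136660055023) (nat_lit 152) (nat_lit 1027027155737) (nat_lit 0) (nat_lit 118517115678) (nat_lit 1) (nat_lit 5) (nat_lit 3) (nat_lit 4) (nat_lit 1) (nat_lit 4) (nat_lit 435) (nat_lit 347) (nat_lit 238)) (XT.lf (nat_lit 0) (nat_lit 172877580314) (nat_lit 152) (nat_lit 1055027688573) (nat_lit 0) (nat_lit 154734335278) (nat_lit 1) (nat_lit 5) (nat_lit 3) (nat_lit 4) (nat_lit 1) (nat_lit 4) (nat_lit 436) (nat_lit 347) (nat_lit 237))))))))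
noncomputable def xc117 : XT := (XT.nd (nat_lit 1482) (nat_lit 0) (nat_lit 0) (XT.nd (nat_lit 702) (nat_lit 0) (nat_lit 0) (XT.nd (nat_lit 312) (nat_lit 0) (nat_lit 0) (XT.nd (nat_lit 156) (nat_lit 0) (nat_lit 0) (XT.nd (nat_lit 78) (nat_lit 0) (nat_lit 0) (XT.lf (nat_lit 0) (nat_lit 211991640605) (nat_lit 152) (nat_lit 1085270020415) (nat_lit 0) (nat_lit 193848112521) (nat_lit 1) (nat_lit 5) (nat_lit 3) (nat_lit 4) (nat_lit 1) (nat_lit 4) (nat_lit 437) (nat_lit 347) (nat_lit 236)) (XT.lf (nat_lit 0) (nat_lit 254234022921) (nat_lit 152) (nat_lit 1117933365080) (nat_lit 0) (nat_lit 236090232755) (nat_lit 1) (nat_lit 5) (nat_lit 3) (nat_lit 4) (nat_lit 1) (nat_lit 4) (nat_lit 438) (nat_lit 347) (nat_lit 235))) (XT.nd (nat_lit 78) (nat_lit 0) (nat_lit 0) (XT.lf (nat_lit 0) (nat_lit 299855052489) (nat_lit 152) (nat_lit 1153211283130) (nat_lit 0) (nat_lit 281711019656) (nat_lit 1) (nat_lit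 5) (nat_lit 3) (nat_lit 4) (nat_lit 1) (nat_lit 4) (nat_lit 439) (nat_lit 347) (nat_lit 234)) (XT.lf (nat_lit 0) (nat_lit 349125076152) (nat_lit 152) (nat_lit 1191312828894) (nat_lit 0) (nat_lit 330980818626) (nat_lit 1) (nat_lit 5) (nat_lit 3) (nat_lit 4) (nat_lit 1) (nat_lit 4) (nat_lit 440) (nat_lit 347) (nat_lit 233)))) (XT.nd (nat_lit 156) (nat_lit 0) (nat_lit 0) (XT.nd (nat_lit 78) (nat_lit 0) (nat_lit 0) (XT.lf (nat_lit 0) (nat_lit 402336064420) (nat_lit 152) (nat_lit 1232463789309) (nat_lit 0) (nat_lit 384191598846) (nat_lit 1) (nat_lit 5) (nat_lit 3) (nat_lit 4) (nat_lit 1) (nat_lit 4) (nat_lit 441) (nat_lit 347) (nat_lit 232)) (XT.lf (nat_lit 0) (nat_lit 459803341668) (nat_lit 152) (nat_lit 1276908021919) (nat_lit 0) (nat_lit 441658683456) (nat_lit 1) (nat_lit 5) (nat_lit 3) (nat_lit 4) (nat_lit 1) (nat_lit 4) (nat_lit 442) (nat_lit 347) (nat_lit 231))) (XT.nd (nat_lit 78) (nat_lit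 0) (nat_lit 0) (XT.lf (nat_lit 0) (nat_lit 521867454724) (nat_lit 152) (nat_lit 1324908899955) (nat_lit 0) (nat_lit 503722618145) (nat_lit 1) (nat_lit 5) (nat_lit 3) (nat_lit 4) (nat_lit 1) (nat_lit 4) (nat_lit 443) (nat_lit 347) (nat_lit 230)) (XT.nd (nat_lit 78) (nat_lit 0) (nat_lit 0) (XT.lf (nat_lit 0) (nat_lit 588896190925) (nat_lit 152) (nat_lit 1376750873063) (nat_lit 0) (nat_lit 570751189190) (nat_lit 1) (nat_lit 5) (nat_lit 3) (nat_lit 4) (nat_lit 1) (nat_lit 4) (nat_lit 444) (nat_lit 347) (nat_lit 229)) (XT.lf (nat_lit 0) (nat_lit 661286757597) (nat_lit 152) (nat_lit 1432741152936) (nat_lit 0) (nat_lit 643141602940) (nat_lit 1) (nat_lit 5) (nat_lit 3) (nat_lit 4) (nat_lit 1) (nat_lit 4) (nat_lit 445) (nat_lit 347) (nat_lit 228)))))) (XT.nd (nat_lit 390) (nat_lit 0) (nat_lit 0) (XT.nd (nat_lit 156) (nat_lit 0) (nat_lit 0) (XT.nd (nat_lit 78) (nat_lit 0) (nat_lit 0) (XT.lf (nat_lit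 0) (nat_lit 739468135875) (nat_lit 152) (nat_lit 1493211533826) (nat_lit 0) (nat_lit 721322839624) (nat_lit 1) (nat_lit 5) (nat_lit 3) (nat_lit 4) (nat_lit 1) (nat_lit 4) (nat_lit 446) (nat_lit 347) (nat_lit 227)) (XT.lf (nat_lit 0) (nat_lit 823903622816) (nat_lit 152) (nat_lit 1558520358730) (nat_lit 0) (nat_lit 805758195459) (nat_lit 1) (nat_lit 5) (nat_lit 3) (nat_lit 4) (nat_lit 1) (nat_lit 4) (nat_lit 447) (nat_lit 347) (nat_lit 226))) (XT.nd (nat_lit 78) (nat_lit 0) (nat_lit 0) (XT.lf (nat_lit 0) (nat_lit 915093576861) (nat_lit 152) (nat_lit 1629054642908) (nat_lit 0) (nat_lit 896948028110) (nat_lit 1) (nat_lit 5) (nat_lit 3) (nat_lit 4) (nat_lit 1) (nat_lit 4) (nat_lit 448) (nat_lit 347) (nat_lit 225)) (XT.nd (nat_lit 78) (nat_lit 0) (nat_lit 0) (XT.lf (nat_lit 0) (nat_lit 1013578382923) (nat_lit 152) (nat_lit 1705232367301) (nat_lit 0) (nat_lit 995432721770) (nat_lit 1) (nat_lit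 5) (nat_lit 3) (nat_lit 4) (nat_lit 1) (nat_lit 4) (nat_lit 449) (nat_lit 347) (nat_lit 224)) (XT.lf (nat_lit 0) (nat_lit 1119941654667) (nat_lit 152) (nat_lit 1787504955462) (nat_lit 0) (nat_lit 1101795889438) (nat_lit 1) (nat_lit 5) (nat_lit 3) (nat_lit 4) (nat_lit 1) (nat_lit 4) (nat_lit 450) (nat_lit 347) (nat_lit 223))))) (XT.nd (nat_lit 156) (nat_lit 0) (nat_lit 0) (XT.nd (nat_lit 78) (nat_lit 0) (nat_lit 0) (XT.lf (nat_lit 0) (nat_lit 1234813692964) (nat_lit 152) (nat_lit 1876359948655) (nat_lit 0) (nat_lit 1216667831368) (nat_lit 1) (nat_lit 5) (nat_lit 3) (nat_lit 4) (nat_lit 1) (nat_lit 4) (nat_lit 451) (nat_lit 347) (nat_lit 222)) (XT.lf (nat_lit 0) (nat_lit 1358875221002) (nat_lit 152) (nat_lit 1972323894987) (nat_lit 0) (nat_lit 1340729270177) (nat_lit 1) (nat_lit 5) (nat_lit 3) (nat_lit 4) (nat_lit 1) (nat_lit 4) (nat_lit 452) (nat_lit 347) (nat_lit 221))) (XT.nd (nat_lit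 78) (nat_lit 0) (nat_lit 0) (XT.lf (nat_lit 0) (nat_lit 1492861418207) (nat_lit 152) (nat_lit 2075965469696) (nat_lit 0) (nat_lit 1474715384764) (nat_lit 1) (nat_lit 5) (nat_lit 3) (nat_lit 4) (nat_lit 1) (nat_lit 4) (nat_lit 453) (nat_lit 347) (nat_lit 220)) (XT.nd (nat_lit 78) (nat_lit 0) (nat_lit 0) (XT.lf (nat_lit 0) (nat_lit 1637566276860) (nat_lit 152) (nat_lit 2187898845076) (nat_lit 0) (nat_lit 1619420166917) (nat_lit 1) (nat_lit 5) (nat_lit 3) (nat_lit 4) (nat_lit 1) (nat_lit 4) (nat_lit 454) (nat_lit 347) (nat_lit 219)) (XT.lf (nat_lit 0) (nat_lit 1793847307233) (nat_lit 152) (nat_lit 2308787330018) (nat_lit 0) (nat_lit 1775701126458) (nat_lit 1) (nat_lit 5) (nat_lit 3) (nat_lit 4) (nat_lit 1) (nat_lit 4) (nat_lit 455) (nat_lit 347) (nat_lit 218))))))) (XT.nd (nat_lit 45240) (nat_lit 0) (nat_lit 3192) (XT.nd (nat_lit 44850) (nat_lit 0) (nat_lit 4636) (XT.nd (nat_lit 156) (nat_lit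 0) (nat_lit 0) (XT.nd (nat_lit 78) (nat_lit 0) (nat_lit 0) (XT.lf (nat_lit 0) (nat_lit 1962630619136) (nat_lit 152) (nat_lit 2439347300730) (nat_lit 0) (nat_lit 1944484372775) (nat_lit 1) (nat_lit 5) (nat_lit 3) (nat_lit 4) (nat_lit 1) (nat_lit 4) (nat_lit 456) (nat_lit 347) (nat_lit 217)) (XT.lf (nat_lit 0) (nat_lit 2144916409973) (nat_lit 152) (nat_lit 2580352445926) (nat_lit 0) (nat_lit 2126770102885) (nat_lit 1) (nat_lit 5) (nat_lit 3) (nat_lit 4) (nat_lit 1) (nat_lit 4) (nat_lit 457) (nat_lit 347) (nat_lit 216))) (XT.nd (nat_lit 44538) (nat_lit 0) (nat_lit 5092) (XT.lf (nat_lit 0) (nat_lit 2341784891838) (nat_lit 152) (nat_lit 2732638351653) (nat_lit 0) (nat_lit 2323638528521) (nat_lit 1) (nat_lit 5) (nat_lit 3) (nat_lit 4) (nat_lit 1) (nat_lit 4) (nat_lit 458) (nat_lit 347) (nat_lit 215)) (XT.nd (nat_lit 78) (nat_lit 0) (nat_lit 0) (XT.lf (nat_lit 0) (nat_lit 1270183956) (nat_lit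 0) (nat_lit 1270183956) (nat_lit 380) (nat_lit 1605622343) (nat_lit 68) (nat_lit 5) (nat_lit 68) (nat_lit 3) (nat_lit 73) (nat_lit 3) (nat_lit 348) (nat_lit 348) (nat_lit 324)) (XT.lf (nat_lit 0) (nat_lit 6342902879) (nat_lit 380) (nat_lit 1730660171) (nat_lit 456) (nat_lit 463962599) (nat_lit 68) (nat_lit 5) (nat_lit 73) (nat_lit 3) (nat_lit 74) (nat_lit 5) (nat_lit 349) (nat_lit 348) (nat_lit 323))))) (XT.nd (nat_lit 156) (nat_lit 0) (nat_lit 76) (XT.nd (nat_lit 78) (nat_lit 456) (nat_lit 0) (XT.lf (nat_lit 76) (nat_lit 2614610089) (nat_lit 0) (nat_lit 5116788535) (nat_lit 456) (nat_lit 1069429320) (nat_lit 69) (nat_lit 5) (nat_lit 68) (nat_lit 5) (nat_lit 74) (nat_lit 5) (nat_lit 350) (nat_lit 348) (nat_lit 322)) (XT.lf (nat_lit 0) (nat_lit 87083765) (nat_lit 456) (nat_lit 1746197097) (nat_lit 532) (nat_lit 7255867071) (nat_lit 62) (nat_lit 5) (nat_lit 68) (nat_lit 5) (nat_lit 69) (nat_lit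 5) (nat_lit 351) (nat_lit 348) (nat_lit 321))) (XT.nd (nat_lit 78) (nat_lit 0) (nat_lit 0) (XT.lf (nat_lit 0) (nat_lit 1305353668) (nat_lit 456) (nat_lit 6328420031) (nat_lit 532) (nat_lit 1762489319) (nat_lit 63) (nat_lit 5) (nat_lit 69) (nat_lit 5) (nat_lit 70) (nat_lit 5) (nat_lit 352) (nat_lit 348) (nat_lit 320)) (XT.nd (nat_lit 78) (nat_lit 0) (nat_lit 0) (XT.lf (nat_lit 0) (nat_lit 2631225785) (nat_lit 456) (nat_lit 1473954424) (nat_lit 532) (nat_lit 5622060205) (nat_lit 63) (nat_lit 5) (nat_lit 69) (nat_lit 5) (nat_lit 70) (nat_lit 5) (nat_lit 353) (nat_lit 348) (nat_lit 319)) (XT.lf (nat_lit 76) (nat_lit 3901750818) (nat_lit 0) (nat_lit 175197301) (nat_lit 532) (nat_lit 6006742075) (nat_lit 64) (nat_lit 5) (nat_lit 63) (nat_lit 5) (nat_lit 70) (nat_lit 5) (nat_lit 354) (nat_lit 348) (nat_lit 318)))))) (XT.nd (nat_lit 390) (nat_lit 456) (nat_lit 0) (XT.nd (nat_lit 156) (nat_lit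 684) (nat_lit 0) (XT.nd (nat_lit 78) (nat_lit 456) (nat_lit 0) (XT.lf (nat_lit 0) (nat_lit 5702310037) (nat_lit 456) (nat_lit 840220822) (nat_lit 76) (nat_lit 3921096022) (nat_lit 64) (nat_lit 5) (nat_lit 70) (nat_lit 5) (nat_lit 65) (nat_lit 5) (nat_lit 355) (nat_lit 348) (nat_lit 317)) (XT.lf (nat_lit 0) (nat_lit 5118074667) (nat_lit 456) (nat_lit 2397609716) (nat_lit 532) (nat_lit 3353718285) (nat_lit 58) (nat_lit 5) (nat_lit 64) (nat_lit 5) (nat_lit 65) (nat_lit 5) (nat_lit 356) (nat_lit 348) (nat_lit 316))) (XT.nd (nat_lit 78) (nat_lit 304) (nat_lit 0) (XT.lf (nat_lit 0) (nat_lit 187666961) (nat_lit 380) (nat_lit 9298713948) (nat_lit 456) (nat_lit 1820356133) (nat_lit 53) (nat_lit 5) (nat_lit 58) (nat_lit 5) (nat_lit 59) (nat_lit 5) (nat_lit 357) (nat_lit 348) (nat_lit 315)) (XT.nd (nat_lit 78) (nat_lit 228) (nat_lit 0) (XT.lf (nat_lit 0) (nat_lit 3312851) (nat_lit 456) (nat_lit 4967934750)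 (nat_lit 76) (nat_lit 6795439076) (nat_lit 52) (nat_lit 5) (nat_lit 58) (nat_lit 5) (nat_lit 53) (nat_lit 5) (nat_lit 358) (nat_lit 348) (nat_lit 314)) (XT.lf (nat_lit 0) (nat_lit 1647543512) (nat_lit 228) (nat_lit 207170021) (nat_lit 304) (nat_lit 10406582310) (nat_lit 49) (nat_lit 5) (nat_lit 52) (nat_lit 5) (nat_lit 53) (nat_lit 5) (nat_lit 359) (nat_lit 348) (nat_lit 313))))) (XT.nd (nat_lit 156) (nat_lit 228) (nat_lit 0) (XT.nd (nat_lit 78) (nat_lit 228) (nat_lit 0) (XT.lf (nat_lit 0) (nat_lit 4055721425) (nat_lit 304) (nat_lit 3897857167) (nat_lit 76) (nat_lit 4825831915) (nat_lit 49) (nat_lit 5) (nat_lit 53) (nat_lit 5) (nat_lit 50) (nat_lit 5) (nat_lit 360) (nat_lit 348) (nat_lit 312)) (XT.lf (nat_lit 0) (nat_lit 3462241557) (nat_lit 228) (nat_lit 3006785941) (nat_lit 304) (nat_lit 6867101648) (nat_lit 46) (nat_lit 5) (nat_lit 49) (nat_lit 5) (nat_lit 50) (nat_lit 5) (nat_lit 361)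 (nat_lit 348) (nat_lit 311))) (XT.nd (nat_lit 78) (nat_lit 228) (nat_lit 0) (XT.lf (nat_lit 0) (nat_lit 9190716216) (nat_lit 304) (nat_lit 2418141572) (nat_lit 76) (nat_lit 2319350374) (nat_lit 46) (nat_lit 5) (nat_lit 50) (nat_lit 5) (nat_lit 47) (nat_lit 5) (nat_lit 362) (nat_lit 348) (nat_lit 310)) (XT.nd (nat_lit 78) (nat_lit 76) (nat_lit 0) (XT.lf (nat_lit 0) (nat_lit 5786970140) (nat_lit 152) (nat_lit 6513964278) (nat_lit 228) (nat_lit 2253100286) (nat_lit 44) (nat_lit 5) (nat_lit 46) (nat_lit 5) (nat_lit 47) (nat_lit 5) (nat_lit 363) (nat_lit 348) (nat_lit 309)) (XT.lf (nat_lit 0) (nat_lit 430762352) (nat_lit 228) (nat_lit 510127674) (nat_lit 76) (nat_lit 14286469742) (nat_lit 43) (nat_lit 5) (nat_lit 46) (nat_lit 5) (nat_lit 44) (nat_lit 5) (nat_lit 364) (nat_lit 348) (nat_lit 308))))))))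
noncomputable def xc118 : XT := (XT.nd (nat_lit 1482) (nat_lit 836) (nat_lit 0) (XT.nd (nat_lit 702) (nat_lit 760) (nat_lit 0) (XT.nd (nat_lit 312) (nat_lit 456) (nat_lit 0) (XT.nd (nat_lit 156) (nat_lit 152) (nat_lit 0) (XT.nd (nat_lit 78) (nat_lit 152) (nat_lit 0) (XT.lf (nat_lit 0) (nat_lit 3504146524) (nat_lit 304) (nat_lit 7334737478) (nat_lit 76) (nat_lit 5087297519) (nat_lit 40) (nat_lit 5) (nat_lit 44) (nat_lit 5) (nat_lit 41) (nat_lit 5) (nat_lit 365) (nat_lit 348) (nat_lit 307)) (XT.lf (nat_lit 0) (nat_lit 1777906044) (nat_lit 152) (nat_lit 5086297863) (nat_lit 228) (nat_lit 9813473809) (nat_lit 38) (nat_lit 5) (nat_lit 40) (nat_lit 5) (nat_lit 41) (nat_lit 5) (nat_lit 366) (nat_lit 348) (nat_lit 306))) (XT.nd (nat_lit 78) (nat_lit 152) (nat_lit 0) (XT.lf (nat_lit 0) (nat_lit 10686507231) (nat_lit 228) (nat_lit 5526778785) (nat_lit 76) (nat_lit 1260562743) (nat_lit 38) (nat_lit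 5) (nat_lit 41) (nat_lit 5) (nat_lit 39) (nat_lit 5) (nat_lit 367) (nat_lit 348) (nat_lit 305)) (XT.lf (nat_lit 0) (nat_lit 4642549904) (nat_lit 152) (nat_lit 10379324280) (nat_lit 228) (nat_lit 3295285156) (nat_lit 36) (nat_lit 5) (nat_lit 38) (nat_lit 5) (nat_lit 39) (nat_lit 5) (nat_lit 368) (nat_lit 348) (nat_lit 304)))) (XT.nd (nat_lit 156) (nat_lit 228) (nat_lit 0) (XT.nd (nat_lit 78) (nat_lit 152) (nat_lit 0) (XT.lf (nat_lit 0) (nat_lit 571379218) (nat_lit 228) (nat_lit 3345676143) (nat_lit 76) (nat_lit 15300462563) (nat_lit 35) (nat_lit 5) (nat_lit 38) (nat_lit 5) (nat_lit 36) (nat_lit 5) (nat_lit 369) (nat_lit 348) (nat_lit 303)) (XT.lf (nat_lit 0) (nat_lit 4810818306) (nat_lit 228) (nat_lit 12172821547) (nat_lit 76) (nat_lit 3180122580) (nat_lit 33) (nat_lit 5) (nat_lit 36) (nat_lit 5) (nat_lit 34) (nat_lit 5) (nat_lit 370) (nat_lit 348) (nat_lit 302))) (XT.nd (nat_lit 78) (nat_lit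 228) (nat_lit 0) (XT.lf (nat_lit 0) (nat_lit 9552581646) (nat_lit 228) (nat_lit 908830757) (nat_lit 76) (nat_lit 10711261303) (nat_lit 33) (nat_lit 5) (nat_lit 36) (nat_lit 5) (nat_lit 34) (nat_lit 5) (nat_lit 371) (nat_lit 348) (nat_lit 301)) (XT.nd (nat_lit 78) (nat_lit 76) (nat_lit 0) (XT.lf (nat_lit 0) (nat_lit 11799224748) (nat_lit 152) (nat_lit 3128209510) (nat_lit 228) (nat_lit 7314582960) (nat_lit 31) (nat_lit 5) (nat_lit 33) (nat_lit 5) (nat_lit 34) (nat_lit 5) (nat_lit 372) (nat_lit 348) (nat_lit 300)) (XT.lf (nat_lit 0) (nat_lit 2122987092) (nat_lit 76) (nat_lit 18771757895) (nat_lit 152) (nat_lit 2489183405) (nat_lit 30) (nat_lit 5) (nat_lit 31) (nat_lit 5) (nat_lit 32) (nat_lit 4) (nat_lit 373) (nat_lit 348) (nat_lit 299)))))) (XT.nd (nat_lit 390) (nat_lit 380) (nat_lit 0) (XT.nd (nat_lit 156) (nat_lit 152) (nat_lit 0) (XT.nd (nat_lit 78) (nat_lit 152) (nat_lit 0) (XT.lf (nat_lit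 0) (nat_lit 2931237660) (nat_lit 152) (nat_lit 8508916184) (nat_lit 76) (nat_lit 13144202851) (nat_lit 29) (nat_lit 5) (nat_lit 31) (nat_lit 5) (nat_lit 30) (nat_lit 5) (nat_lit 374) (nat_lit 348) (nat_lit 298)) (XT.lf (nat_lit 0) (nat_lit 5425243739) (nat_lit 152) (nat_lit 3329169945) (nat_lit 228) (nat_lit 17112959210) (nat_lit 27) (nat_lit 5) (nat_lit 29) (nat_lit 5) (nat_lit 30) (nat_lit 5) (nat_lit 375) (nat_lit 348) (nat_lit 297))) (XT.nd (nat_lit 78) (nat_lit 152) (nat_lit 0) (XT.lf (nat_lit 0) (nat_lit 15386384105) (nat_lit 228) (nat_lit 6458318118) (nat_lit 76) (nat_lit 5380906004) (nat_lit 27) (nat_lit 5) (nat_lit 30) (nat_lit 5) (nat_lit 28) (nat_lit 4) (nat_lit 376) (nat_lit 348) (nat_lit 296)) (XT.nd (nat_lit 78) (nat_lit 76) (nat_lit 0) (XT.lf (nat_lit 0) (nat_lit 8964212651) (nat_lit 76) (nat_lit 13862353902) (nat_lit 152) (nat_lit 5843735581) (nat_lit 26) (nat_lit 5) (nat_lit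 27) (nat_lit 5) (nat_lit 28) (nat_lit 4) (nat_lit 377) (nat_lit 348) (nat_lit 295)) (XT.lf (nat_lit 0) (nat_lit 756770235) (nat_lit 152) (nat_lit 4290543034) (nat_lit 76) (nat_lit 25169496815) (nat_lit 25) (nat_lit 5) (nat_lit 27) (nat_lit 5) (nat_lit 26) (nat_lit 5) (nat_lit 378) (nat_lit 348) (nat_lit 294))))) (XT.nd (nat_lit 156) (nat_lit 228) (nat_lit 0) (XT.nd (nat_lit 78) (nat_lit 0) (nat_lit 0) (XT.lf (nat_lit 0) (nat_lit 7974344206) (nat_lit 228) (nat_lit 19163035990) (nat_lit 76) (nat_lit 4705145956) (nat_lit 23) (nat_lit 5) (nat_lit 26) (nat_lit 5) (nat_lit 24) (nat_lit 4) (nat_lit 379) (nat_lit 348) (nat_lit 293)) (XT.lf (nat_lit 0) (nat_lit 15998719819) (nat_lit 228) (nat_lit 2511327110) (nat_lit 76) (nat_lit 15069909809) (nat_lit 23) (nat_lit 5) (nat_lit 26) (nat_lit 5) (nat_lit 24) (nat_lit 4) (nat_lit 380) (nat_lit 348) (nat_lit 292))) (XT.nd (nat_lit 78) (nat_lit 152) (nat_lit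 0) (XT.lf (nat_lit 0) (nat_lit 16248871933) (nat_lit 76) (nat_lit 8786532074) (nat_lit 152) (nat_lit 10391357313) (nat_lit 22) (nat_lit 5) (nat_lit 23) (nat_lit 5) (nat_lit 24) (nat_lit 4) (nat_lit 381) (nat_lit 348) (nat_lit 291)) (XT.nd (nat_lit 78) (nat_lit 152) (nat_lit 0) (XT.lf (nat_lit 0) (nat_lit 34886564104) (nat_lit 152) (nat_lit 842901666) (nat_lit 0) (nat_lit 1684528829) (nat_lit 22) (nat_lit 5) (nat_lit 24) (nat_lit 4) (nat_lit 22) (nat_lit 4) (nat_lit 382) (nat_lit 348) (nat_lit 290)) (XT.lf (nat_lit 0) (nat_lit 6367814676) (nat_lit 152) (nat_lit 19985641321) (nat_lit 76) (nat_lit 13139228975) (nat_lit 20) (nat_lit 5) (nat_lit 22) (nat_lit 5) (nat_lit 21) (nat_lit 4) (nat_lit 383) (nat_lit 348) (nat_lit 289))))))) (XT.nd (nat_lit 780) (nat_lit 304) (nat_lit 0) (XT.nd (nat_lit 390) (nat_lit 304) (nat_lit 0) (XT.nd (nat_lit 156) (nat_lit 152) (nat_lit 0) (XT.nd (nat_lit 78)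 (nat_lit 76) (nat_lit 0) (XT.lf (nat_lit 0) (nat_lit 15843229472) (nat_lit 152) (nat_lit 303316114) (nat_lit 76) (nat_lit 25585471485) (nat_lit 20) (nat_lit 5) (nat_lit 22) (nat_lit 5) (nat_lit 21) (nat_lit 4) (nat_lit 384) (nat_lit 348) (nat_lit 288)) (XT.lf (nat_lit 0) (nat_lit 22023674954) (nat_lit 76) (nat_lit 4565498215) (nat_lit 152) (nat_lit 17520328514) (nat_lit 19) (nat_lit 5) (nat_lit 20) (nat_lit 5) (nat_lit 21) (nat_lit 4) (nat_lit 385) (nat_lit 348) (nat_lit 287))) (XT.nd (nat_lit 78) (nat_lit 152) (nat_lit 0) (XT.lf (nat_lit 0) (nat_lit 38377322245) (nat_lit 152) (nat_lit 745496081) (nat_lit 0) (nat_lit 7539769535) (nat_lit 19) (nat_lit 5) (nat_lit 21) (nat_lit 4) (nat_lit 19) (nat_lit 4) (nat_lit 386) (nat_lit 348) (nat_lit 286)) (XT.nd (nat_lit 78) (nat_lit 0) (nat_lit 0) (XT.lf (nat_lit 0) (nat_lit 2285085075) (nat_lit 152) (nat_lit 26104081656) (nat_lit 76) (nat_lit 20973033497)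 (nat_lit 17) (nat_lit 5) (nat_lit 19) (nat_lit 5) (nat_lit 18) (nat_lit 4) (nat_lit 387) (nat_lit 348) (nat_lit 285)) (XT.lf (nat_lit 0) (nat_lit 13258703941) (nat_lit 152) (nat_lit 3297015438) (nat_lit 76) (nat_lit 35704429414) (nat_lit 17) (nat_lit 5) (nat_lit 19) (nat_lit 5) (nat_lit 18) (nat_lit 4) (nat_lit 388) (nat_lit 348) (nat_lit 284))))) (XT.nd (nat_lit 156) (nat_lit 228) (nat_lit 0) (XT.nd (nat_lit 78) (nat_lit 0) (nat_lit 0) (XT.lf (nat_lit 0) (nat_lit 22429254532) (nat_lit 76) (nat_lit 3205888419) (nat_lit 152) (nat_lit 29712799656) (nat_lit 16) (nat_lit 5) (nat_lit 17) (nat_lit 5) (nat_lit 18) (nat_lit 4) (nat_lit 389) (nat_lit 348) (nat_lit 283)) (XT.lf (nat_lit 0) (nat_lit 39349467366) (nat_lit 152) (nat_lit 8573902679) (nat_lit 0) (nat_lit 10731571788) (nat_lit 16) (nat_lit 5) (nat_lit 18) (nat_lit 4) (nat_lit 16) (nat_lit 4) (nat_lit 390) (nat_lit 348) (nat_lit 282)))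 (XT.nd (nat_lit 78) (nat_lit 152) (nat_lit 0) (XT.lf (nat_lit 0) (nat_lit 18537033859) (nat_lit 76) (nat_lit 36139689272) (nat_lit 76) (nat_lit 7508518304) (nat_lit 15) (nat_lit 4) (nat_lit 16) (nat_lit 5) (nat_lit 16) (nat_lit 4) (nat_lit 391) (nat_lit 348) (nat_lit 281)) (XT.nd (nat_lit 78) (nat_lit 76) (nat_lit 0) (XT.lf (nat_lit 0) (nat_lit 5197723105) (nat_lit 152) (nat_lit 17832198938) (nat_lit 76) (nat_lit 42939797869) (nat_lit 14) (nat_lit 5) (nat_lit 16) (nat_lit 5) (nat_lit 15) (nat_lit 4) (nat_lit 392) (nat_lit 348) (nat_lit 280)) (XT.lf (nat_lit 0) (nat_lit 10348092072) (nat_lit 76) (nat_lit 8403319743) (nat_lit 152) (nat_lit 51271017090) (nat_lit 13) (nat_lit 5) (nat_lit 14) (nat_lit 5) (nat_lit 15) (nat_lit 4) (nat_lit 393) (nat_lit 348) (nat_lit 279)))))) (XT.nd (nat_lit 390) (nat_lit 76) (nat_lit 0) (XT.nd (nat_lit 156) (nat_lit 228) (nat_lit 0) (XT.nd (nat_lit 78) (nat_lit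 0) (nat_lit 0) (XT.lf (nat_lit 0) (nat_lit 34055254111) (nat_lit 152) (nat_lit 32777601360) (nat_lit 0) (nat_lit 7513232871) (nat_lit 13) (nat_lit 5) (nat_lit 15) (nat_lit 4) (nat_lit 13) (nat_lit 4) (nat_lit 394) (nat_lit 348) (nat_lit 278)) (XT.lf (nat_lit 0) (nat_lit 50790393004) (nat_lit 152) (nat_lit 3969353862) (nat_lit 0) (nat_lit 24239336756) (nat_lit 13) (nat_lit 5) (nat_lit 15) (nat_lit 4) (nat_lit 13) (nat_lit 4) (nat_lit 395) (nat_lit 348) (nat_lit 277))) (XT.nd (nat_lit 78) (nat_lit 152) (nat_lit 0) (XT.lf (nat_lit 0) (nat_lit 28551482006) (nat_lit 76) (nat_lit 40989081469) (nat_lit 76) (nat_lit 14429659473) (nat_lit 12) (nat_lit 4) (nat_lit 13) (nat_lit 5) (nat_lit 13) (nat_lit 4) (nat_lit 396) (nat_lit 348) (nat_lit 276)) (XT.nd (nat_lit 78) (nat_lit 76) (nat_lit 0) (XT.lf (nat_lit 0) (nat_lit 530034956) (nat_lit 152) (nat_lit 25464695349) (nat_lit 76) (nat_lit 63335380910)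 (nat_lit 11) (nat_lit 5) (nat_lit 13) (nat_lit 5) (nat_lit 12) (nat_lit 4) (nat_lit 397) (nat_lit 348) (nat_lit 275)) (XT.lf (nat_lit 0) (nat_lit 6833876962) (nat_lit 76) (nat_lit 9227765971) (nat_lit 152) (nat_lit 79014788387) (nat_lit 10) (nat_lit 5) (nat_lit 11) (nat_lit 5) (nat_lit 12) (nat_lit 4) (nat_lit 398) (nat_lit 348) (nat_lit 274))))) (XT.nd (nat_lit 156) (nat_lit 76) (nat_lit 0) (XT.nd (nat_lit 78) (nat_lit 0) (nat_lit 0) (XT.lf (nat_lit 0) (nat_lit 33754106209) (nat_lit 152) (nat_lit 58312799757) (nat_lit 0) (nat_lit 9142086449) (nat_lit 10) (nat_lit 5) (nat_lit 12) (nat_lit 4) (nat_lit 10) (nat_lit 4) (nat_lit 399) (nat_lit 348) (nat_lit 273)) (XT.lf (nat_lit 0) (nat_lit 53092773572) (nat_lit 152) (nat_lit 26245861441) (nat_lit 0) (nat_lit 28475060224) (nat_lit 10) (nat_lit 5) (nat_lit 12) (nat_lit 4) (nat_lit 10) (nat_lit 4) (nat_lit 400) (nat_lit 348) (nat_lit 272))) (XT.nd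 (nat_lit 78) (nat_lit 0) (nat_lit 0) (XT.lf (nat_lit 0) (nat_lit 8810975564) (nat_lit 76) (nat_lit 65371245148) (nat_lit 76) (nat_lit 40748259960) (nat_lit 9) (nat_lit 4) (nat_lit 10) (nat_lit 5) (nat_lit 10) (nat_lit 4) (nat_lit 401) (nat_lit 348) (nat_lit 271)) (XT.nd (nat_lit 78) (nat_lit 0) (nat_lit 0) (XT.lf (nat_lit 0) (nat_lit 48149178428) (nat_lit 76) (nat_lit 49519264353) (nat_lit 76) (nat_lit 24891397831) (nat_lit 9) (nat_lit 4) (nat_lit 10) (nat_lit 5) (nat_lit 10) (nat_lit 4) (nat_lit 402) (nat_lit 348) (nat_lit 270)) (XT.lf (nat_lit 0) (nat_lit 90619801874) (nat_lit 76) (nat_lit 32406363328) (nat_lit 76) (nat_lit 7773977052) (nat_lit 9) (nat_lit 4) (nat_lit 10) (nat_lit 5) (nat_lit 10) (nat_lit 4) (nat_lit 403) (nat_lit 348) (nat_lit 269))))))))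
noncomputable def xc119 : XT := (XT.nd (nat_lit 1482) (nat_lit 152) (nat_lit 0) (XT.nd (nat_lit 702) (nat_lit 228) (nat_lit 0) (XT.nd (nat_lit 312) (nat_lit 76) (nat_lit 0) (XT.nd (nat_lit 156) (nat_lit 0) (nat_lit 0) (XT.nd (nat_lit 78) (nat_lit 76) (nat_lit 0) (XT.lf (nat_lit 0) (nat_lit 10169909530) (nat_lit 152) (nat_lit 3483159407) (nat_lit 76) (nat_lit 126026550790) (nat_lit 8) (nat_lit 5) (nat_lit 10) (nat_lit 5) (nat_lit 9) (nat_lit 4) (nat_lit 404) (nat_lit 348) (nat_lit 268)) (XT.lf (nat_lit 0) (nat_lit 30220011930) (nat_lit 152) (nat_lit 111541250536) (nat_lit 0) (nat_lit 7404783974) (nat_lit 7) (nat_lit 5) (nat_lit 9) (nat_lit 4) (nat_lit 7) (nat_lit 4) (nat_lit 405) (nat_lit 348) (nat_lit 267))) (XT.nd (nat_lit 78) (nat_lit 0) (nat_lit 0) (XT.lf (nat_lit 0) (nat_lit 52319979235) (nat_lit 152) (nat_lit 77554311209) (nat_lit 0) (nat_lit 29501429125) (nat_lit 7) (nat_lit 5) (nat_lit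 9) (nat_lit 4) (nat_lit 7) (nat_lit 4) (nat_lit 406) (nat_lit 348) (nat_lit 266)) (XT.lf (nat_lit 0) (nat_lit 76181945906) (nat_lit 152) (nat_lit 40860381515) (nat_lit 0) (nat_lit 53360319728) (nat_lit 7) (nat_lit 5) (nat_lit 9) (nat_lit 4) (nat_lit 7) (nat_lit 4) (nat_lit 407) (nat_lit 348) (nat_lit 265)))) (XT.nd (nat_lit 156) (nat_lit 0) (nat_lit 0) (XT.nd (nat_lit 78) (nat_lit 76) (nat_lit 0) (XT.lf (nat_lit 0) (nat_lit 101947316189) (nat_lit 152) (nat_lit 1242015944) (nat_lit 0) (nat_lit 79122841799) (nat_lit 7) (nat_lit 5) (nat_lit 9) (nat_lit 4) (nat_lit 7) (nat_lit 4) (nat_lit 408) (nat_lit 348) (nat_lit 264)) (XT.lf (nat_lit 0) (nat_lit 43722750036) (nat_lit 76) (nat_lit 87097556913) (nat_lit 76) (nat_lit 64270445291) (nat_lit 6) (nat_lit 4) (nat_lit 7) (nat_lit 5) (nat_lit 7) (nat_lit 4) (nat_lit 409) (nat_lit 348) (nat_lit 263))) (XT.nd (nat_lit 78) (nat_lit 0) (nat_lit 0) (XT.lf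 (nat_lit 0) (nat_lit 92345333667) (nat_lit 76) (nat_lit 69686760345) (nat_lit 76) (nat_lit 46857206840) (nat_lit 6) (nat_lit 4) (nat_lit 7) (nat_lit 5) (nat_lit 7) (nat_lit 4) (nat_lit 410) (nat_lit 348) (nat_lit 262)) (XT.nd (nat_lit 78) (nat_lit 0) (nat_lit 0) (XT.lf (nat_lit 0) (nat_lit 144848466417) (nat_lit 76) (nat_lit 50887726254) (nat_lit 76) (nat_lit 28055911747) (nat_lit 6) (nat_lit 4) (nat_lit 7) (nat_lit 5) (nat_lit 7) (nat_lit 4) (nat_lit 411) (nat_lit 348) (nat_lit 261)) (XT.lf (nat_lit 0) (nat_lit 201543277963) (nat_lit 76) (nat_lit 30589052957) (nat_lit 76) (nat_lit 7755144930) (nat_lit 6) (nat_lit 4) (nat_lit 7) (nat_lit 5) (nat_lit 7) (nat_lit 4) (nat_lit 412) (nat_lit 348) (nat_lit 260)))))) (XT.nd (nat_lit 390) (nat_lit 76) (nat_lit 0) (XT.nd (nat_lit 156) (nat_lit 0) (nat_lit 0) (XT.nd (nat_lit 78) (nat_lit 0) (nat_lit 0) (XT.lf (nat_lit 0) (nat_lit 5425678780) (nat_lit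 76) (nat_lit 8161592975) (nat_lit 152) (nat_lit 243645830107) (nat_lit 4) (nat_lit 5) (nat_lit 5) (nat_lit 5) (nat_lit 6) (nat_lit 4) (nat_lit 413) (nat_lit 348) (nat_lit 259)) (XT.lf (nat_lit 0) (nat_lit 37675917588) (nat_lit 152) (nat_lit 221627767589) (nat_lit 0) (nat_lit 16529953396) (nat_lit 4) (nat_lit 5) (nat_lit 6) (nat_lit 4) (nat_lit 4) (nat_lit 4) (nat_lit 414) (nat_lit 348) (nat_lit 258))) (XT.nd (nat_lit 78) (nat_lit 0) (nat_lit 0) (XT.lf (nat_lit 0) (nat_lit 63899885906) (nat_lit 152) (nat_lit 189253291315) (nat_lit 0) (nat_lit 42752382913) (nat_lit 4) (nat_lit 5) (nat_lit 6) (nat_lit 4) (nat_lit 4) (nat_lit 4) (nat_lit 415) (nat_lit 348) (nat_lit 257)) (XT.nd (nat_lit 78) (nat_lit 0) (nat_lit 0) (XT.lf (nat_lit 0) (nat_lit 92218291495) (nat_lit 152) (nat_lit 154295859004) (nat_lit 0) (nat_lit 71069363687) (nat_lit 4) (nat_lit 5) (nat_lit 6) (nat_lit 4) (nat_lit 4) (nat_lit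 4) (nat_lit 416) (nat_lit 348) (nat_lit 256)) (XT.lf (nat_lit 0) (nat_lit 122798947129) (nat_lit 152) (nat_lit 116548315502) (nat_lit 0) (nat_lit 101648700049) (nat_lit 4) (nat_lit 5) (nat_lit 6) (nat_lit 4) (nat_lit 4) (nat_lit 4) (nat_lit 417) (nat_lit 348) (nat_lit 255))))) (XT.nd (nat_lit 156) (nat_lit 76) (nat_lit 0) (XT.nd (nat_lit 78) (nat_lit 0) (nat_lit 0) (XT.lf (nat_lit 0) (nat_lit 155823071509) (nat_lit 152) (nat_lit 75786971661) (nat_lit 0) (nat_lit 134671602879) (nat_lit 4) (nat_lit 5) (nat_lit 6) (nat_lit 4) (nat_lit 4) (nat_lit 4) (nat_lit 418) (nat_lit 348) (nat_lit 254)) (XT.lf (nat_lit 0) (nat_lit 191486363148) (nat_lit 152) (nat_lit 31770278779) (nat_lit 0) (nat_lit 170333763455) (nat_lit 4) (nat_lit 5) (nat_lit 6) (nat_lit 4) (nat_lit 4) (nat_lit 4) (nat_lit 419) (nat_lit 348) (nat_lit 253))) (XT.nd (nat_lit 78) (nat_lit 0) (nat_lit 0) (XT.lf (nat_lit 0) (nat_lit 16592633536)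 (nat_lit 76) (nat_lit 213806579772) (nat_lit 76) (nat_lit 192652932797) (nat_lit 3) (nat_lit 4) (nat_lit 4) (nat_lit 5) (nat_lit 4) (nat_lit 4) (nat_lit 420) (nat_lit 348) (nat_lit 252)) (XT.nd (nat_lit 78) (nat_lit 0) (nat_lit 0) (XT.lf (nat_lit 0) (nat_lit 70626366313) (nat_lit 76) (nat_lit 202664891685) (nat_lit 76) (nat_lit 181510275006) (nat_lit 3) (nat_lit 4) (nat_lit 4) (nat_lit 5) (nat_lit 4) (nat_lit 4) (nat_lit 421) (nat_lit 348) (nat_lit 251)) (XT.lf (nat_lit 0) (nat_lit 128978152869) (nat_lit 76) (nat_lit 190634208573) (nat_lit 76) (nat_lit 169478694019) (nat_lit 3) (nat_lit 4) (nat_lit 4) (nat_lit 5) (nat_lit 4) (nat_lit 4) (nat_lit 422) (nat_lit 348) (nat_lit 250))))))) (XT.nd (nat_lit 780) (nat_lit 0) (nat_lit 0) (XT.nd (nat_lit 390) (nat_lit 152) (nat_lit 0) (XT.nd (nat_lit 156) (nat_lit 0) (nat_lit 0) (XT.nd (nat_lit 78) (nat_lit 0) (nat_lit 0) (XT.lf (nat_lit 0) (nat_lit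 191993781569) (nat_lit 76) (nat_lit 177643237499) (nat_lit 76) (nat_lit 156486891579) (nat_lit 3) (nat_lit 4) (nat_lit 4) (nat_lit 5) (nat_lit 4) (nat_lit 4) (nat_lit 423) (nat_lit 348) (nat_lit 249)) (XT.lf (nat_lit 0) (nat_lit 260046678361) (nat_lit 76) (nat_lit 163614994930) (nat_lit 76) (nat_lit 142457879226) (nat_lit 3) (nat_lit 4) (nat_lit 4) (nat_lit 5) (nat_lit 4) (nat_lit 4) (nat_lit 424) (nat_lit 348) (nat_lit 248))) (XT.nd (nat_lit 78) (nat_lit 0) (nat_lit 0) (XT.lf (nat_lit 0) (nat_lit 333540119671) (nat_lit 76) (nat_lit 148466350540) (nat_lit 76) (nat_lit 127308522074) (nat_lit 3) (nat_lit 4) (nat_lit 4) (nat_lit 5) (nat_lit 4) (nat_lit 4) (nat_lit 425) (nat_lit 348) (nat_lit 247)) (XT.nd (nat_lit 78) (nat_lit 0) (nat_lit 0) (XT.lf (nat_lit 0) (nat_lit 412909622188) (nat_lit 76) (nat_lit 132107534584) (nat_lit 76) (nat_lit 110949046153) (nat_lit 3) (nat_lit 4) (nat_lit 4)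 (nat_lit 5) (nat_lit 4) (nat_lit 4) (nat_lit 426) (nat_lit 348) (nat_lit 246)) (XT.lf (nat_lit 0) (nat_lit 498625523704) (nat_lit 76) (nat_lit 114441605931) (nat_lit 76) (nat_lit 93282506422) (nat_lit 3) (nat_lit 4) (nat_lit 4) (nat_lit 5) (nat_lit 4) (nat_lit 4) (nat_lit 427) (nat_lit 348) (nat_lit 245))))) (XT.nd (nat_lit 156) (nat_lit 152) (nat_lit 0) (XT.nd (nat_lit 78) (nat_lit 0) (nat_lit 0) (XT.lf (nat_lit 0) (nat_lit 591195770303) (nat_lit 76) (nat_lit 95363877597) (nat_lit 76) (nat_lit 74204212274) (nat_lit 3) (nat_lit 4) (nat_lit 4) (nat_lit 5) (nat_lit 4) (nat_lit 4) (nat_lit 428) (nat_lit 348) (nat_lit 244)) (XT.lf (nat_lit 0) (nat_lit 691168926409) (nat_lit 76) (nat_lit 74761296375) (nat_lit 76) (nat_lit 53601107151) (nat_lit 3) (nat_lit 4) (nat_lit 4) (nat_lit 5) (nat_lit 4) (nat_lit 4) (nat_lit 429) (nat_lit 348) (nat_lit 243))) (XT.nd (nat_lit 78) (nat_lit 152) (nat_lit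 0) (XT.lf (nat_lit 0) (nat_lit 799137425539) (nat_lit 76) (nat_lit 52511772897) (nat_lit 76) (nat_lit 31351098579) (nat_lit 3) (nat_lit 4) (nat_lit 4) (nat_lit 5) (nat_lit 4) (nat_lit 4) (nat_lit 430) (nat_lit 348) (nat_lit 242)) (XT.nd (nat_lit 78) (nat_lit 152) (nat_lit 0) (XT.lf (nat_lit 0) (nat_lit 915741081022) (nat_lit 76) (nat_lit 28483458134) (nat_lit 76) (nat_lit 7322334655) (nat_lit 3) (nat_lit 4) (nat_lit 4) (nat_lit 5) (nat_lit 4) (nat_lit 4) (nat_lit 431) (nat_lit 348) (nat_lit 241)) (XT.lf (nat_lit 0) (nat_lit 16469492244) (nat_lit 76) (nat_lit 1622349877) (nat_lit 152) (nat_lit 1007417893309) (nat_lit 1) (nat_lit 5) (nat_lit 2) (nat_lit 5) (nat_lit 3) (nat_lit 4) (nat_lit 432) (nat_lit 348) (nat_lit 240)))))) (XT.nd (nat_lit 390) (nat_lit 0) (nat_lit 0) (XT.nd (nat_lit 156) (nat_lit 0) (nat_lit 0) (XT.nd (nat_lit 78) (nat_lit 0) (nat_lit 0) (XT.lf (nat_lit 0) (nat_lit 46805560389)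 (nat_lit 152) (nat_lit 1031224704251) (nat_lit 0) (nat_lit 27211185896) (nat_lit 1) (nat_lit 5) (nat_lit 3) (nat_lit 4) (nat_lit 1) (nat_lit 4) (nat_lit 433) (nat_lit 348) (nat_lit 239)) (XT.lf (nat_lit 0) (nat_lit 77857503780) (nat_lit 152) (nat_lit 1055228109799) (nat_lit 0) (nat_lit 58262799141) (nat_lit 1) (nat_lit 5) (nat_lit 3) (nat_lit 4) (nat_lit 1) (nat_lit 4) (nat_lit 434) (nat_lit 348) (nat_lit 238))) (XT.nd (nat_lit 78) (nat_lit 0) (nat_lit 0) (XT.lf (nat_lit 0) (nat_lit 111392666258) (nat_lit 152) (nat_lit 1081153684679) (nat_lit 0) (nat_lit 91797655927) (nat_lit 1) (nat_lit 5) (nat_lit 3) (nat_lit 4) (nat_lit 1) (nat_lit 4) (nat_lit 435) (nat_lit 348) (nat_lit 237)) (XT.nd (nat_lit 78) (nat_lit 0) (nat_lit 0) (XT.lf (nat_lit 0) (nat_lit 147609774711) (nat_lit 152) (nat_lit 1109155061928) (nat_lit 0) (nat_lit 128014481332) (nat_lit 1) (nat_lit 5) (nat_lit 3) (nat_lit 4) (nat_lit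 1) (nat_lit 4) (nat_lit 436) (nat_lit 348) (nat_lit 236)) (XT.lf (nat_lit 0) (nat_lit 186723449041) (nat_lit 152) (nat_lit 1139398175633) (nat_lit 0) (nat_lit 167127893581) (nat_lit 1) (nat_lit 5) (nat_lit 3) (nat_lit 4) (nat_lit 1) (nat_lit 4) (nat_lit 437) (nat_lit 348) (nat_lit 235))))) (XT.nd (nat_lit 156) (nat_lit 0) (nat_lit 0) (XT.nd (nat_lit 78) (nat_lit 0) (nat_lit 0) (XT.lf (nat_lit 0) (nat_lit 228965473985) (nat_lit 152) (nat_lit 1172062244246) (nat_lit 0) (nat_lit 209369675857) (nat_lit 1) (nat_lit 5) (nat_lit 3) (nat_lit 4) (nat_lit 1) (nat_lit 4) (nat_lit 438) (nat_lit 348) (nat_lit 234)) (XT.lf (nat_lit 0) (nat_lit 274586172653) (nat_lit 152) (nat_lit 1207340832618) (nat_lit 0) (nat_lit 254990149834) (nat_lit 1) (nat_lit 5) (nat_lit 3) (nat_lit 4) (nat_lit 1) (nat_lit 4) (nat_lit 439) (nat_lit 348) (nat_lit 233))) (XT.nd (nat_lit 78) (nat_lit 0) (nat_lit 0) (XT.lf (nat_lit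 0) (nat_lit 323855889928) (nat_lit 152) (nat_lit 1245442999050) (nat_lit 0) (nat_lit 304259659059) (nat_lit 1) (nat_lit 5) (nat_lit 3) (nat_lit 4) (nat_lit 1) (nat_lit 4) (nat_lit 440) (nat_lit 348) (nat_lit 232)) (XT.nd (nat_lit 78) (nat_lit 0) (nat_lit 0) (XT.lf (nat_lit 0) (nat_lit 377066594503) (nat_lit 152) (nat_lit 1286594534159) (nat_lit 0) (nat_lit 357470170997) (nat_lit 1) (nat_lit 5) (nat_lit 3) (nat_lit 4) (nat_lit 1) (nat_lit 4) (nat_lit 441) (nat_lit 348) (nat_lit 231)) (XT.lf (nat_lit 0) (nat_lit 434533609072) (nat_lit 152) (nat_lit 1331039298893) (nat_lit 0) (nat_lit 414937007198) (nat_lit 1) (nat_lit 5) (nat_lit 3) (nat_lit 4) (nat_lit 1) (nat_lit 4) (nat_lit 442) (nat_lit 348) (nat_lit 230))))))))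
noncomputable def xc120 : XT := (XT.nd (nat_lit 46020) (nat_lit 0) (nat_lit 2584) (XT.nd (nat_lit 702) (nat_lit 0) (nat_lit 0) (XT.nd (nat_lit 312) (nat_lit 0) (nat_lit 0) (XT.nd (nat_lit 156) (nat_lit 0) (nat_lit 0) (XT.nd (nat_lit 78) (nat_lit 0) (nat_lit 0) (XT.lf (nat_lit 0) (nat_lit 496597478908) (nat_lit 152) (nat_lit 1379040669635) (nat_lit 0) (nat_lit 477000711878) (nat_lit 1) (nat_lit 5) (nat_lit 3) (nat_lit 4) (nat_lit 1) (nat_lit 4) (nat_lit 443) (nat_lit 348) (nat_lit 229)) (XT.lf (nat_lit 0) (nat_lit 563625989904) (nat_lit 152) (nat_lit 1430883098953) (nat_lit 0) (nat_lit 544029069953) (nat_lit 1) (nat_lit 5) (nat_lit 3) (nat_lit 4) (nat_lit 1) (nat_lit 4) (nat_lit 444) (nat_lit 348) (nat_lit 228))) (XT.nd (nat_lit 78) (nat_lit 0) (nat_lit 0) (XT.lf (nat_lit 0) (nat_lit 636016348053) (nat_lit 152) (nat_lit 1486873801243) (nat_lit 0) (nat_lit 616419286508) (nat_lit 1) (nat_lit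 5) (nat_lit 3) (nat_lit 4) (nat_lit 1) (nat_lit 4) (nat_lit 445) (nat_lit 348) (nat_lit 227)) (XT.lf (nat_lit 0) (nat_lit 714197533255) (nat_lit 152) (nat_lit 1547344573259) (nat_lit 0) (nat_lit 694600340604) (nat_lit 1) (nat_lit 5) (nat_lit 3) (nat_lit 4) (nat_lit 1) (nat_lit 4) (nat_lit 446) (nat_lit 348) (nat_lit 226)))) (XT.nd (nat_lit 156) (nat_lit 0) (nat_lit 0) (XT.nd (nat_lit 78) (nat_lit 0) (nat_lit 0) (XT.lf (nat_lit 0) (nat_lit 798632841421) (nat_lit 152) (nat_lit 1612653760318) (nat_lit 0) (nat_lit 779035527376) (nat_lit 1) (nat_lit 5) (nat_lit 3) (nat_lit 4) (nat_lit 1) (nat_lit 4) (nat_lit 447) (nat_lit 348) (nat_lit 225)) (XT.lf (nat_lit 0) (nat_lit 889822629934) (nat_lit 152) (nat_lit 1683188379823) (nat_lit 0) (nat_lit 870225203486) (nat_lit 1) (nat_lit 5) (nat_lit 3) (nat_lit 4) (nat_lit 1) (nat_lit 4) (nat_lit 448) (nat_lit 348) (nat_lit 224))) (XT.nd (nat_lit 78) (nat_lit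 0) (nat_lit 0) (XT.lf (nat_lit 0) (nat_lit 988307282726) (nat_lit 152) (nat_lit 1759366414705) (nat_lit 0) (nat_lit 968709752202) (nat_lit 1) (nat_lit 5) (nat_lit 3) (nat_lit 4) (nat_lit 1) (nat_lit 4) (nat_lit 449) (nat_lit 348) (nat_lit 223)) (XT.nd (nat_lit 78) (nat_lit 0) (nat_lit 0) (XT.lf (nat_lit 0) (nat_lit 1094670412553) (nat_lit 152) (nat_lit 1841639290356) (nat_lit 0) (nat_lit 1075072785662) (nat_lit 1) (nat_lit 5) (nat_lit 3) (nat_lit 4) (nat_lit 1) (nat_lit 4) (nat_lit 450) (nat_lit 348) (nat_lit 222)) (XT.lf (nat_lit 0) (nat_lit 1209542319444) (nat_lit 152) (nat_lit 1930494549743) (nat_lit 0) (nat_lit 1189944603325) (nat_lit 1) (nat_lit 5) (nat_lit 3) (nat_lit 4) (nat_lit 1) (nat_lit 4) (nat_lit 451) (nat_lit 348) (nat_lit 221)))))) (XT.nd (nat_lit 390) (nat_lit 0) (nat_lit 0) (XT.nd (nat_lit 156) (nat_lit 0) (nat_lit 0) (XT.nd (nat_lit 78) (nat_lit 0) (nat_lit 0) (XT.lf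 (nat_lit 0) (nat_lit 1333603725811) (nat_lit 152) (nat_lit 2026458742551) (nat_lit 0) (nat_lit 1314005927074) (nat_lit 1) (nat_lit 5) (nat_lit 3) (nat_lit 4) (nat_lit 1) (nat_lit 4) (nat_lit 452) (nat_lit 348) (nat_lit 220)) (XT.lf (nat_lit 0) (nat_lit 1467589810358) (nat_lit 152) (nat_lit 2130100545478) (nat_lit 0) (nat_lit 1447991935122) (nat_lit 1) (nat_lit 5) (nat_lit 3) (nat_lit 4) (nat_lit 1) (nat_lit 4) (nat_lit 453) (nat_lit 348) (nat_lit 219))) (XT.nd (nat_lit 78) (nat_lit 0) (nat_lit 0) (XT.lf (nat_lit 0) (nat_lit 1612294564698) (nat_lit 152) (nat_lit 2242034132171) (nat_lit 0) (nat_lit 1592696618628) (nat_lit 1) (nat_lit 5) (nat_lit 3) (nat_lit 4) (nat_lit 1) (nat_lit 4) (nat_lit 454) (nat_lit 348) (nat_lit 218)) (XT.nd (nat_lit 78) (nat_lit 0) (nat_lit 0) (XT.lf (nat_lit 0) (nat_lit 1768575498484) (nat_lit 152) (nat_lit 2362922812774) (nat_lit 0) (nat_lit 1748977486829) (nat_lit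 1) (nat_lit 5) (nat_lit 3) (nat_lit 4) (nat_lit 1) (nat_lit 4) (nat_lit 455) (nat_lit 348) (nat_lit 217)) (XT.lf (nat_lit 0) (nat_lit 1937358720955) (nat_lit 152) (nat_lit 2493482964653) (nat_lit 0) (nat_lit 1917760648573) (nat_lit 1) (nat_lit 5) (nat_lit 3) (nat_lit 4) (nat_lit 1) (nat_lit 4) (nat_lit 456) (nat_lit 348) (nat_lit 216))))) (XT.nd (nat_lit 44694) (nat_lit 0) (nat_lit 4636) (XT.nd (nat_lit 78) (nat_lit 0) (nat_lit 0) (XT.lf (nat_lit 0) (nat_lit 2119644428985) (nat_lit 152) (nat_lit 2634488277597) (nat_lit 0) (nat_lit 2100046300374) (nat_lit 1) (nat_lit 5) (nat_lit 3) (nat_lit 4) (nat_lit 1) (nat_lit 4) (nat_lit 457) (nat_lit 348) (nat_lit 215)) (XT.lf (nat_lit 0) (nat_lit 2316512834177) (nat_lit 152) (nat_lit 2786774338646) (nat_lit 0) (nat_lit 2296914653502) (nat_lit 1) (nat_lit 5) (nat_lit 3) (nat_lit 4) (nat_lit 1) (nat_lit 4) (nat_lit 458) (nat_lit 348) (nat_lit 214)))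 (XT.nd (nat_lit 78) (nat_lit 456) (nat_lit 0) (XT.lf (nat_lit 0) (nat_lit 1882802045) (nat_lit 0) (nat_lit 1882802045) (nat_lit 380) (nat_lit 628919900) (nat_lit 68) (nat_lit 5) (nat_lit 68) (nat_lit 3) (nat_lit 73) (nat_lit 3) (nat_lit 349) (nat_lit 349) (nat_lit 322)) (XT.nd (nat_lit 78) (nat_lit 456) (nat_lit 0) (XT.lf (nat_lit 0) (nat_lit 8311417662) (nat_lit 0) (nat_lit 418836969) (nat_lit 380) (nat_lit 337314792) (nat_lit 68) (nat_lit 5) (nat_lit 68) (nat_lit 3) (nat_lit 73) (nat_lit 3) (nat_lit 350) (nat_lit 349) (nat_lit 321)) (XT.lf (nat_lit 0) (nat_lit 708367427) (nat_lit 456) (nat_lit 5461457719) (nat_lit 532) (nat_lit 3190646463) (nat_lit 62) (nat_lit 5) (nat_lit 68) (nat_lit 5) (nat_lit 69) (nat_lit 5) (nat_lit 351) (nat_lit 349) (nat_lit 320))))))) (XT.nd (nat_lit 702) (nat_lit 1064) (nat_lit 0) (XT.nd (nat_lit 312) (nat_lit 988) (nat_lit 0) (XT.nd (nat_lit 156) (nat_lit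 0) (nat_lit 76) (XT.nd (nat_lit 78) (nat_lit 0) (nat_lit 76) (XT.lf (nat_lit 0) (nat_lit 1765878368) (nat_lit 456) (nat_lit 782300106) (nat_lit 532) (nat_lit 7132319109) (nat_lit 62) (nat_lit 5) (nat_lit 68) (nat_lit 5) (nat_lit 69) (nat_lit 5) (nat_lit 352) (nat_lit 349) (nat_lit 319)) (XT.lf (nat_lit 0) (nat_lit 2971658424) (nat_lit 456) (nat_lit 5619264292) (nat_lit 532) (nat_lit 1430206083) (nat_lit 63) (nat_lit 5) (nat_lit 69) (nat_lit 5) (nat_lit 70) (nat_lit 5) (nat_lit 353) (nat_lit 349) (nat_lit 318))) (XT.nd (nat_lit 78) (nat_lit 0) (nat_lit 0) (XT.lf (nat_lit 0) (nat_lit 4287905758) (nat_lit 456) (nat_lit 466473240) (nat_lit 532) (nat_lit 5633600595) (nat_lit 63) (nat_lit 5) (nat_lit 69) (nat_lit 5) (nat_lit 70) (nat_lit 5) (nat_lit 354) (nat_lit 349) (nat_lit 317)) (XT.lf (nat_lit 76) (nat_lit 5310797344) (nat_lit 0) (nat_lit 457744575) (nat_lit 532) (nat_lit 5010992248) (nat_lit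 64) (nat_lit 5) (nat_lit 63) (nat_lit 5) (nat_lit 70) (nat_lit 5) (nat_lit 355) (nat_lit 349) (nat_lit 316)))) (XT.nd (nat_lit 156) (nat_lit 684) (nat_lit 0) (XT.nd (nat_lit 78) (nat_lit 0) (nat_lit 0) (XT.lf (nat_lit 0) (nat_lit 228253657) (nat_lit 456) (nat_lit 7194045282) (nat_lit 532) (nat_lit 3775817278) (nat_lit 58) (nat_lit 5) (nat_lit 64) (nat_lit 5) (nat_lit 65) (nat_lit 5) (nat_lit 356) (nat_lit 349) (nat_lit 315)) (XT.lf (nat_lit 0) (nat_lit 6623331982) (nat_lit 456) (nat_lit 2685067546) (nat_lit 532) (nat_lit 2333852885) (nat_lit 58) (nat_lit 5) (nat_lit 64) (nat_lit 5) (nat_lit 65) (nat_lit 5) (nat_lit 357) (nat_lit 349) (nat_lit 314))) (XT.nd (nat_lit 78) (nat_lit 304) (nat_lit 0) (XT.lf (nat_lit 0) (nat_lit 1367246030) (nat_lit 380) (nat_lit 10007127290) (nat_lit 456) (nat_lit 745293134) (nat_lit 53) (nat_lit 5) (nat_lit 58) (nat_lit 5) (nat_lit 59) (nat_lit 5) (nat_lit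 358) (nat_lit 349) (nat_lit 313)) (XT.nd (nat_lit 78) (nat_lit 228) (nat_lit 0) (XT.lf (nat_lit 0) (nat_lit 1077307099) (nat_lit 456) (nat_lit 4229427305) (nat_lit 76) (nat_lit 7314288908) (nat_lit 52) (nat_lit 5) (nat_lit 58) (nat_lit 5) (nat_lit 53) (nat_lit 5) (nat_lit 359) (nat_lit 349) (nat_lit 312)) (XT.lf (nat_lit 0) (nat_lit 2886531187) (nat_lit 228) (nat_lit 137380956) (nat_lit 304) (nat_lit 10135603160) (nat_lit 49) (nat_lit 5) (nat_lit 52) (nat_lit 5) (nat_lit 53) (nat_lit 5) (nat_lit 360) (nat_lit 349) (nat_lit 311)))))) (XT.nd (nat_lit 390) (nat_lit 380) (nat_lit 0) (XT.nd (nat_lit 156) (nat_lit 456) (nat_lit 0) (XT.nd (nat_lit 78) (nat_lit 228) (nat_lit 0) (XT.lf (nat_lit 0) (nat_lit 5327307429) (nat_lit 304) (nat_lit 3109878910) (nat_lit 76) (nat_lit 5287863705) (nat_lit 49) (nat_lit 5) (nat_lit 53) (nat_lit 5) (nat_lit 50) (nat_lit 5) (nat_lit 361) (nat_lit 349) (nat_lit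 310)) (XT.lf (nat_lit 0) (nat_lit 4811184501) (nat_lit 228) (nat_lit 3078116587) (nat_lit 304) (nat_lit 6440625094) (nat_lit 46) (nat_lit 5) (nat_lit 49) (nat_lit 5) (nat_lit 50) (nat_lit 5) (nat_lit 362) (nat_lit 349) (nat_lit 309))) (XT.nd (nat_lit 78) (nat_lit 456) (nat_lit 0) (XT.lf (nat_lit 0) (nat_lit 10765622539) (nat_lit 304) (nat_lit 1555123122) (nat_lit 76) (nat_lit 2653738727) (nat_lit 46) (nat_lit 5) (nat_lit 50) (nat_lit 5) (nat_lit 47) (nat_lit 5) (nat_lit 363) (nat_lit 349) (nat_lit 308)) (XT.nd (nat_lit 78) (nat_lit 304) (nat_lit 0) (XT.lf (nat_lit 0) (nat_lit 7279651457) (nat_lit 152) (nat_lit 6807575396) (nat_lit 228) (nat_lit 1566204597) (nat_lit 44) (nat_lit 5) (nat_lit 46) (nat_lit 5) (nat_lit 47) (nat_lit 5) (nat_lit 364) (nat_lit 349) (nat_lit 307)) (XT.lf (nat_lit 0) (nat_lit 466660926) (nat_lit 228) (nat_lit 772531612) (nat_lit 304) (nat_lit 15143796658) (nat_lit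 40) (nat_lit 5) (nat_lit 43) (nat_lit 5) (nat_lit 44) (nat_lit 5) (nat_lit 365) (nat_lit 349) (nat_lit 306))))) (XT.nd (nat_lit 156) (nat_lit 228) (nat_lit 0) (XT.nd (nat_lit 78) (nat_lit 152) (nat_lit 0) (XT.lf (nat_lit 0) (nat_lit 4519791739) (nat_lit 304) (nat_lit 6899235156) (nat_lit 76) (nat_lit 5721829794) (nat_lit 40) (nat_lit 5) (nat_lit 44) (nat_lit 5) (nat_lit 41) (nat_lit 5) (nat_lit 366) (nat_lit 349) (nat_lit 305)) (XT.lf (nat_lit 0) (nat_lit 2916539309) (nat_lit 152) (nat_lit 5201610200) (nat_lit 228) (nat_lit 9836807427) (nat_lit 38) (nat_lit 5) (nat_lit 40) (nat_lit 5) (nat_lit 41) (nat_lit 5) (nat_lit 367) (nat_lit 349) (nat_lit 304))) (XT.nd (nat_lit 78) (nat_lit 228) (nat_lit 0) (XT.lf (nat_lit 0) (nat_lit 12200522320) (nat_lit 228) (nat_lit 5000103498) (nat_lit 76) (nat_lit 1617893785) (nat_lit 38) (nat_lit 5) (nat_lit 41) (nat_lit 5) (nat_lit 39) (nat_lit 5) (nat_lit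 368) (nat_lit 349) (nat_lit 303)) (XT.nd (nat_lit 78) (nat_lit 76) (nat_lit 0) (XT.lf (nat_lit 0) (nat_lit 5958244458) (nat_lit 152) (nat_lit 10898362566) (nat_lit 228) (nat_lit 2874814676) (nat_lit 36) (nat_lit 5) (nat_lit 38) (nat_lit 5) (nat_lit 39) (nat_lit 5) (nat_lit 369) (nat_lit 349) (nat_lit 302)) (XT.lf (nat_lit 0) (nat_lit 1218823051) (nat_lit 228) (nat_lit 2706896448) (nat_lit 76) (nat_lit 16780656725) (nat_lit 35) (nat_lit 5) (nat_lit 38) (nat_lit 5) (nat_lit 36) (nat_lit 5) (nat_lit 370) (nat_lit 349) (nat_lit 301))))))))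
noncomputable def xc121 : XT := (XT.nd (nat_lit 1482) (nat_lit 760) (nat_lit 0) (XT.nd (nat_lit 702) (nat_lit 608) (nat_lit 0) (XT.nd (nat_lit 312) (nat_lit 380) (nat_lit 0) (XT.nd (nat_lit 156) (nat_lit 228) (nat_lit 0) (XT.nd (nat_lit 78) (nat_lit 0) (nat_lit 0) (XT.lf (nat_lit 0) (nat_lit 5781429401) (nat_lit 228) (nat_lit 12223851124) (nat_lit 76) (nat_lit 3724348759) (nat_lit 33) (nat_lit 5) (nat_lit 36) (nat_lit 5) (nat_lit 34) (nat_lit 5) (nat_lit 371) (nat_lit 349) (nat_lit 300)) (XT.lf (nat_lit 0) (nat_lit 10859145242) (nat_lit 228) (nat_lit 127096341) (nat_lit 76) (nat_lit 11836510700) (nat_lit 33) (nat_lit 5) (nat_lit 36) (nat_lit 5) (nat_lit 34) (nat_lit 5) (nat_lit 372) (nat_lit 349) (nat_lit 299))) (XT.nd (nat_lit 78) (nat_lit 76) (nat_lit 0) (XT.lf (nat_lit 0) (nat_lit 13575972191) (nat_lit 152) (nat_lit 3067868363) (nat_lit 228) (nat_lit 7335440049) (nat_lit 31) (nat_lit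 5) (nat_lit 33) (nat_lit 5) (nat_lit 34) (nat_lit 5) (nat_lit 373) (nat_lit 349) (nat_lit 298)) (XT.lf (nat_lit 0) (nat_lit 3138303183) (nat_lit 76) (nat_lit 19938800928) (nat_lit 152) (nat_lit 2136378905) (nat_lit 30) (nat_lit 5) (nat_lit 31) (nat_lit 5) (nat_lit 32) (nat_lit 4) (nat_lit 374) (nat_lit 349) (nat_lit 297)))) (XT.nd (nat_lit 156) (nat_lit 152) (nat_lit 0) (XT.nd (nat_lit 78) (nat_lit 152) (nat_lit 0) (XT.lf (nat_lit 0) (nat_lit 3651226432) (nat_lit 152) (nat_lit 8380960385) (nat_lit 76) (nat_lit 14479824358) (nat_lit 29) (nat_lit 5) (nat_lit 31) (nat_lit 5) (nat_lit 30) (nat_lit 5) (nat_lit 375) (nat_lit 349) (nat_lit 296)) (XT.lf (nat_lit 0) (nat_lit 6647459696) (nat_lit 152) (nat_lit 3275790781) (nat_lit 228) (nat_lit 17975797557) (nat_lit 27) (nat_lit 5) (nat_lit 29) (nat_lit 5) (nat_lit 30) (nat_lit 5) (nat_lit 376) (nat_lit 349) (nat_lit 295))) (XT.nd (nat_lit 78) (nat_lit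 152) (nat_lit 0) (XT.lf (nat_lit 0) (nat_lit 17058195573) (nat_lit 228) (nat_lit 6217370559) (nat_lit 76) (nat_lit 6092600182) (nat_lit 27) (nat_lit 5) (nat_lit 30) (nat_lit 5) (nat_lit 28) (nat_lit 4) (nat_lit 377) (nat_lit 349) (nat_lit 294)) (XT.nd (nat_lit 78) (nat_lit 76) (nat_lit 0) (XT.lf (nat_lit 0) (nat_lit 10419782596) (nat_lit 76) (nat_lit 14658910036) (nat_lit 152) (nat_lit 5850951284) (nat_lit 26) (nat_lit 5) (nat_lit 27) (nat_lit 5) (nat_lit 28) (nat_lit 4) (nat_lit 378) (nat_lit 349) (nat_lit 293)) (XT.lf (nat_lit 0) (nat_lit 1222180295) (nat_lit 152) (nat_lit 3928559162) (nat_lit 76) (nat_lit 27450852496) (nat_lit 25) (nat_lit 5) (nat_lit 27) (nat_lit 5) (nat_lit 26) (nat_lit 5) (nat_lit 379) (nat_lit 349) (nat_lit 292)))))) (XT.nd (nat_lit 390) (nat_lit 228) (nat_lit 0) (XT.nd (nat_lit 156) (nat_lit 228) (nat_lit 0) (XT.nd (nat_lit 78) (nat_lit 0) (nat_lit 0) (XT.lf (nat_lit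 0) (nat_lit 9010819217) (nat_lit 228) (nat_lit 19984349972) (nat_lit 76) (nat_lit 5362716243) (nat_lit 23) (nat_lit 5) (nat_lit 26) (nat_lit 5) (nat_lit 24) (nat_lit 4) (nat_lit 380) (nat_lit 349) (nat_lit 291)) (XT.lf (nat_lit 0) (nat_lit 17647624324) (nat_lit 228) (nat_lit 2053225041) (nat_lit 76) (nat_lit 16535834641) (nat_lit 23) (nat_lit 5) (nat_lit 26) (nat_lit 5) (nat_lit 24) (nat_lit 4) (nat_lit 381) (nat_lit 349) (nat_lit 290))) (XT.nd (nat_lit 78) (nat_lit 152) (nat_lit 0) (XT.lf (nat_lit 0) (nat_lit 18191106172) (nat_lit 76) (nat_lit 9204251149) (nat_lit 152) (nat_lit 10836837525) (nat_lit 22) (nat_lit 5) (nat_lit 23) (nat_lit 5) (nat_lit 24) (nat_lit 4) (nat_lit 382) (nat_lit 349) (nat_lit 289)) (XT.nd (nat_lit 78) (nat_lit 152) (nat_lit 0) (XT.lf (nat_lit 0) (nat_lit 38014507884) (nat_lit 152) (nat_lit 295359064) (nat_lit 0) (nat_lit 2070158226) (nat_lit 22) (nat_lit 5) (nat_lit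 24) (nat_lit 4) (nat_lit 22) (nat_lit 4) (nat_lit 383) (nat_lit 349) (nat_lit 288)) (XT.lf (nat_lit 0) (nat_lit 7212301772) (nat_lit 152) (nat_lit 20967333794) (nat_lit 76) (nat_lit 14445549939) (nat_lit 20) (nat_lit 5) (nat_lit 22) (nat_lit 5) (nat_lit 21) (nat_lit 4) (nat_lit 384) (nat_lit 349) (nat_lit 287))))) (XT.nd (nat_lit 156) (nat_lit 152) (nat_lit 0) (XT.nd (nat_lit 78) (nat_lit 0) (nat_lit 0) (XT.lf (nat_lit 0) (nat_lit 256703298) (nat_lit 76) (nat_lit 17170400771) (nat_lit 152) (nat_lit 27618059854) (nat_lit 19) (nat_lit 5) (nat_lit 20) (nat_lit 5) (nat_lit 21) (nat_lit 4) (nat_lit 385) (nat_lit 349) (nat_lit 286)) (XT.lf (nat_lit 0) (nat_lit 24342545393) (nat_lit 76) (nat_lit 4674418519) (nat_lit 152) (nat_lit 18597151637) (nat_lit 19) (nat_lit 5) (nat_lit 20) (nat_lit 5) (nat_lit 21) (nat_lit 4) (nat_lit 386) (nat_lit 349) (nat_lit 285))) (XT.nd (nat_lit 78) (nat_lit 152)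 (nat_lit 0) (XT.lf (nat_lit 0) (nat_lit 41731601896) (nat_lit 152) (nat_lit 272767045) (nat_lit 0) (nat_lit 8368411664) (nat_lit 19) (nat_lit 5) (nat_lit 21) (nat_lit 4) (nat_lit 19) (nat_lit 4) (nat_lit 387) (nat_lit 349) (nat_lit 284)) (XT.nd (nat_lit 78) (nat_lit 0) (nat_lit 0) (XT.lf (nat_lit 0) (nat_lit 2750654035) (nat_lit 152) (nat_lit 27658553007) (nat_lit 76) (nat_lit 22879273837) (nat_lit 17) (nat_lit 5) (nat_lit 19) (nat_lit 5) (nat_lit 18) (nat_lit 4) (nat_lit 388) (nat_lit 349) (nat_lit 283)) (XT.lf (nat_lit 0) (nat_lit 14581217066) (nat_lit 152) (nat_lit 3066466319) (nat_lit 76) (nat_lit 38772263083) (nat_lit 17) (nat_lit 5) (nat_lit 19) (nat_lit 5) (nat_lit 18) (nat_lit 4) (nat_lit 389) (nat_lit 349) (nat_lit 282))))))) (XT.nd (nat_lit 780) (nat_lit 228) (nat_lit 0) (XT.nd (nat_lit 390) (nat_lit 228) (nat_lit 0) (XT.nd (nat_lit 156) (nat_lit 228) (nat_lit 0) (XT.nd (nat_lit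 78) (nat_lit 0) (nat_lit 0) (XT.lf (nat_lit 0) (nat_lit 24705391062) (nat_lit 76) (nat_lit 3234573505) (nat_lit 152) (nat_lit 31815428851) (nat_lit 16) (nat_lit 5) (nat_lit 17) (nat_lit 5) (nat_lit 18) (nat_lit 4) (nat_lit 390) (nat_lit 349) (nat_lit 281)) (XT.lf (nat_lit 0) (nat_lit 42737691828) (nat_lit 152) (nat_lit 8799905166) (nat_lit 0) (nat_lit 11790459763) (nat_lit 16) (nat_lit 5) (nat_lit 18) (nat_lit 4) (nat_lit 16) (nat_lit 4) (nat_lit 391) (nat_lit 349) (nat_lit 280))) (XT.nd (nat_lit 78) (nat_lit 152) (nat_lit 0) (XT.lf (nat_lit 0) (nat_lit 20468263011) (nat_lit 76) (nat_lit 38815848302) (nat_lit 76) (nat_lit 7857234728) (nat_lit 15) (nat_lit 4) (nat_lit 16) (nat_lit 5) (nat_lit 16) (nat_lit 4) (nat_lit 392) (nat_lit 349) (nat_lit 279)) (XT.nd (nat_lit 78) (nat_lit 76) (nat_lit 0) (XT.lf (nat_lit 0) (nat_lit 5835171257) (nat_lit 152) (nat_lit 18831995790) (nat_lit 76) (nat_lit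 46562353151) (nat_lit 14) (nat_lit 5) (nat_lit 16) (nat_lit 5) (nat_lit 15) (nat_lit 4) (nat_lit 393) (nat_lit 349) (nat_lit 278)) (XT.lf (nat_lit 0) (nat_lit 11591913967) (nat_lit 76) (nat_lit 8874828236) (nat_lit 152) (nat_lit 55140220210) (nat_lit 13) (nat_lit 5) (nat_lit 14) (nat_lit 5) (nat_lit 15) (nat_lit 4) (nat_lit 394) (nat_lit 349) (nat_lit 277))))) (XT.nd (nat_lit 156) (nat_lit 228) (nat_lit 0) (XT.nd (nat_lit 78) (nat_lit 0) (nat_lit 0) (XT.lf (nat_lit 0) (nat_lit 36983420417) (nat_lit 152) (nat_lit 35003136209) (nat_lit 0) (nat_lit 8290878913) (nat_lit 13) (nat_lit 5) (nat_lit 15) (nat_lit 4) (nat_lit 13) (nat_lit 4) (nat_lit 395) (nat_lit 349) (nat_lit 276)) (XT.lf (nat_lit 0) (nat_lit 55042278127) (nat_lit 152) (nat_lit 3919612116) (nat_lit 0) (nat_lit 26341990559) (nat_lit 13) (nat_lit 5) (nat_lit 15) (nat_lit 4) (nat_lit 13) (nat_lit 4) (nat_lit 396) (nat_lit 349) (nat_lit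 275))) (XT.nd (nat_lit 78) (nat_lit 152) (nat_lit 0) (XT.lf (nat_lit 0) (nat_lit 31193592140) (nat_lit 76) (nat_lit 44093505455) (nat_lit 76) (nat_lit 15386045606) (nat_lit 12) (nat_lit 4) (nat_lit 13) (nat_lit 5) (nat_lit 13) (nat_lit 4) (nat_lit 397) (nat_lit 349) (nat_lit 274)) (XT.nd (nat_lit 78) (nat_lit 76) (nat_lit 0) (XT.lf (nat_lit 0) (nat_lit 746588245) (nat_lit 152) (nat_lit 27161197298) (nat_lit 76) (nat_lit 68554772987) (nat_lit 11) (nat_lit 5) (nat_lit 13) (nat_lit 5) (nat_lit 12) (nat_lit 4) (nat_lit 398) (nat_lit 349) (nat_lit 273)) (XT.lf (nat_lit 0) (nat_lit 7712636148) (nat_lit 76) (nat_lit 9803174463) (nat_lit 152) (nat_lit 85153168961) (nat_lit 10) (nat_lit 5) (nat_lit 11) (nat_lit 5) (nat_lit 12) (nat_lit 4) (nat_lit 399) (nat_lit 349) (nat_lit 272)))))) (XT.nd (nat_lit 390) (nat_lit 152) (nat_lit 0) (XT.nd (nat_lit 156) (nat_lit 76) (nat_lit 0) (XT.nd (nat_lit 78)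 (nat_lit 0) (nat_lit 0) (XT.lf (nat_lit 0) (nat_lit 36614760534) (nat_lit 152) (nat_lit 62661435189) (nat_lit 0) (nat_lit 10016664690) (nat_lit 10) (nat_lit 5) (nat_lit 12) (nat_lit 4) (nat_lit 10) (nat_lit 4) (nat_lit 400) (nat_lit 349) (nat_lit 271)) (XT.lf (nat_lit 0) (nat_lit 57488645298) (nat_lit 152) (nat_lit 28052577997) (nat_lit 0) (nat_lit 30885668121) (nat_lit 10) (nat_lit 5) (nat_lit 12) (nat_lit 4) (nat_lit 10) (nat_lit 4) (nat_lit 401) (nat_lit 349) (nat_lit 270))) (XT.nd (nat_lit 78) (nat_lit 0) (nat_lit 0) (XT.lf (nat_lit 0) (nat_lit 9801389453) (nat_lit 76) (nat_lit 70459729617) (nat_lit 76) (nat_lit 43852232686) (nat_lit 9) (nat_lit 4) (nat_lit 10) (nat_lit 5) (nat_lit 10) (nat_lit 4) (nat_lit 402) (nat_lit 349) (nat_lit 269)) (XT.nd (nat_lit 78) (nat_lit 0) (nat_lit 0) (XT.lf (nat_lit 0) (nat_lit 52265497742) (nat_lit 76) (nat_lit 53350050739) (nat_lit 76) (nat_lit 26738368851)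 (nat_lit 9) (nat_lit 4) (nat_lit 10) (nat_lit 5) (nat_lit 10) (nat_lit 4) (nat_lit 403) (nat_lit 349) (nat_lit 268)) (XT.lf (nat_lit 0) (nat_lit 98114186987) (nat_lit 76) (nat_lit 34877803169) (nat_lit 76) (nat_lit 8262246321) (nat_lit 9) (nat_lit 4) (nat_lit 10) (nat_lit 5) (nat_lit 10) (nat_lit 4) (nat_lit 404) (nat_lit 349) (nat_lit 267))))) (XT.nd (nat_lit 156) (nat_lit 0) (nat_lit 0) (XT.nd (nat_lit 78) (nat_lit 76) (nat_lit 0) (XT.lf (nat_lit 0) (nat_lit 11101060845) (nat_lit 152) (nat_lit 3528938215) (nat_lit 76) (nat_lit 136214569601) (nat_lit 8) (nat_lit 5) (nat_lit 10) (nat_lit 5) (nat_lit 9) (nat_lit 4) (nat_lit 405) (nat_lit 349) (nat_lit 266)) (XT.lf (nat_lit 0) (nat_lit 32754631925) (nat_lit 152) (nat_lit 120231122343) (nat_lit 0) (nat_lit 8104199584) (nat_lit 7) (nat_lit 5) (nat_lit 9) (nat_lit 4) (nat_lit 7) (nat_lit 4) (nat_lit 406) (nat_lit 349) (nat_lit 265))) (XT.nd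 (nat_lit 78) (nat_lit 0) (nat_lit 0) (XT.lf (nat_lit 0) (nat_lit 56613928537) (nat_lit 152) (nat_lit 83542518850) (nat_lit 0) (nat_lit 31960647986) (nat_lit 7) (nat_lit 5) (nat_lit 9) (nat_lit 4) (nat_lit 7) (nat_lit 4) (nat_lit 407) (nat_lit 349) (nat_lit 264)) (XT.nd (nat_lit 78) (nat_lit 0) (nat_lit 0) (XT.lf (nat_lit 0) (nat_lit 82376826544) (nat_lit 152) (nat_lit 43929084948) (nat_lit 0) (nat_lit 57720908760) (nat_lit 7) (nat_lit 5) (nat_lit 9) (nat_lit 4) (nat_lit 7) (nat_lit 4) (nat_lit 408) (nat_lit 349) (nat_lit 263)) (XT.lf (nat_lit 0) (nat_lit 110195994971) (nat_lit 152) (nat_lit 1156074361) (nat_lit 0) (nat_lit 85537635304) (nat_lit 7) (nat_lit 5) (nat_lit 9) (nat_lit 4) (nat_lit 7) (nat_lit 4) (nat_lit 409) (nat_lit 349) (nat_lit 262))))))))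
noncomputable def xc122 : XT := (XT.nd (nat_lit 1482) (nat_lit 152) (nat_lit 0) (XT.nd (nat_lit 702) (nat_lit 76) (nat_lit 0) (XT.nd (nat_lit 312) (nat_lit 152) (nat_lit 0) (XT.nd (nat_lit 156) (nat_lit 0) (nat_lit 0) (XT.nd (nat_lit 78) (nat_lit 0) (nat_lit 0) (XT.lf (nat_lit 0) (nat_lit 47401181687) (nat_lit 76) (nat_lit 93975106022) (nat_lit 76) (nat_lit 69314485353) (nat_lit 6) (nat_lit 4) (nat_lit 7) (nat_lit 5) (nat_lit 7) (nat_lit 4) (nat_lit 410) (nat_lit 349) (nat_lit 261)) (XT.lf (nat_lit 0) (nat_lit 99900193368) (nat_lit 76) (nat_lit 75178131316) (nat_lit 76) (nat_lit 50515417126) (nat_lit 6) (nat_lit 4) (nat_lit 7) (nat_lit 5) (nat_lit 7) (nat_lit 4) (nat_lit 411) (nat_lit 349) (nat_lit 260))) (XT.nd (nat_lit 78) (nat_lit 0) (nat_lit 0) (XT.lf (nat_lit 0) (nat_lit 156591189108) (nat_lit 76) (nat_lit 54881364857) (nat_lit 76) (nat_lit 30216712223) (nat_lit 6) (nat_lit 4) (nat_lit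 7) (nat_lit 5) (nat_lit 7) (nat_lit 4) (nat_lit 412) (nat_lit 349) (nat_lit 259)) (XT.lf (nat_lit 0) (nat_lit 217810115549) (nat_lit 76) (nat_lit 32964529511) (nat_lit 76) (nat_lit 8298082021) (nat_lit 6) (nat_lit 4) (nat_lit 7) (nat_lit 5) (nat_lit 7) (nat_lit 4) (nat_lit 413) (nat_lit 349) (nat_lit 258)))) (XT.nd (nat_lit 156) (nat_lit 0) (nat_lit 0) (XT.nd (nat_lit 78) (nat_lit 0) (nat_lit 0) (XT.lf (nat_lit 0) (nat_lit 6003263931) (nat_lit 76) (nat_lit 8742588628) (nat_lit 152) (nat_lit 263060162133) (nat_lit 4) (nat_lit 5) (nat_lit 5) (nat_lit 5) (nat_lit 6) (nat_lit 4) (nat_lit 414) (nat_lit 349) (nat_lit 257)) (XT.lf (nat_lit 0) (nat_lit 40757888241) (nat_lit 152) (nat_lit 239221381399) (nat_lit 0) (nat_lit 17915621394) (nat_lit 4) (nat_lit 5) (nat_lit 6) (nat_lit 4) (nat_lit 4) (nat_lit 4) (nat_lit 415) (nat_lit 349) (nat_lit 256))) (XT.nd (nat_lit 78) (nat_lit 0) (nat_lit 0) (XT.lf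 (nat_lit 0) (nat_lit 69074744598) (nat_lit 152) (nat_lit 204267066104) (nat_lit 0) (nat_lit 46231158479) (nat_lit 4) (nat_lit 5) (nat_lit 6) (nat_lit 4) (nat_lit 4) (nat_lit 4) (nat_lit 416) (nat_lit 349) (nat_lit 255)) (XT.nd (nat_lit 78) (nat_lit 0) (nat_lit 0) (XT.lf (nat_lit 0) (nat_lit 99653965759) (nat_lit 152) (nat_lit 166522408728) (nat_lit 0) (nat_lit 76809158090) (nat_lit 4) (nat_lit 5) (nat_lit 6) (nat_lit 4) (nat_lit 4) (nat_lit 4) (nat_lit 417) (nat_lit 349) (nat_lit 254)) (XT.lf (nat_lit 0) (nat_lit 132676761922) (nat_lit 152) (nat_lit 125763737226) (nat_lit 0) (nat_lit 109830823189) (nat_lit 4) (nat_lit 5) (nat_lit 6) (nat_lit 4) (nat_lit 4) (nat_lit 4) (nat_lit 418) (nat_lit 349) (nat_lit 253)))))) (XT.nd (nat_lit 390) (nat_lit 0) (nat_lit 0) (XT.nd (nat_lit 156) (nat_lit 76) (nat_lit 0) (XT.nd (nat_lit 78) (nat_lit 0) (nat_lit 0) (XT.lf (nat_lit 0) (nat_lit 168338823732)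 (nat_lit 152) (nat_lit 81749518732) (nat_lit 0) (nat_lit 145491837718) (nat_lit 4) (nat_lit 5) (nat_lit 6) (nat_lit 4) (nat_lit 4) (nat_lit 4) (nat_lit 419) (nat_lit 349) (nat_lit 252)) (XT.lf (nat_lit 0) (nat_lit 206851481925) (nat_lit 152) (nat_lit 34218928246) (nat_lit 0) (nat_lit 184003526206) (nat_lit 4) (nat_lit 5) (nat_lit 6) (nat_lit 4) (nat_lit 4) (nat_lit 4) (nat_lit 420) (nat_lit 349) (nat_lit 251))) (XT.nd (nat_lit 78) (nat_lit 0) (nat_lit 0) (XT.lf (nat_lit 0) (nat_lit 18010663312) (nat_lit 76) (nat_lit 230865453234) (nat_lit 76) (nat_lit 208016599640) (nat_lit 3) (nat_lit 4) (nat_lit 4) (nat_lit 5) (nat_lit 4) (nat_lit 4) (nat_lit 421) (nat_lit 349) (nat_lit 250)) (XT.nd (nat_lit 78) (nat_lit 0) (nat_lit 0) (XT.lf (nat_lit 0) (nat_lit 76360382185) (nat_lit 76) (nat_lit 218835811798) (nat_lit 76) (nat_lit 195986126839) (nat_lit 3) (nat_lit 4) (nat_lit 4) (nat_lit 5) (nat_lit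 4) (nat_lit 4) (nat_lit 422) (nat_lit 349) (nat_lit 249)) (XT.lf (nat_lit 0) (nat_lit 139374096364) (nat_lit 76) (nat_lit 205845805239) (nat_lit 76) (nat_lit 182995350496) (nat_lit 3) (nat_lit 4) (nat_lit 4) (nat_lit 5) (nat_lit 4) (nat_lit 4) (nat_lit 423) (nat_lit 349) (nat_lit 248))))) (XT.nd (nat_lit 156) (nat_lit 0) (nat_lit 0) (XT.nd (nat_lit 78) (nat_lit 0) (nat_lit 0) (XT.lf (nat_lit 0) (nat_lit 207425220452) (nat_lit 76) (nat_lit 191818455739) (nat_lit 76) (nat_lit 168967288234) (nat_lit 3) (nat_lit 4) (nat_lit 4) (nat_lit 5) (nat_lit 4) (nat_lit 4) (nat_lit 424) (nat_lit 349) (nat_lit 247)) (XT.lf (nat_lit 0) (nat_lit 280917020369) (nat_lit 76) (nat_lit 176670638265) (nat_lit 76) (nat_lit 153818810796) (nat_lit 3) (nat_lit 4) (nat_lit 4) (nat_lit 5) (nat_lit 4) (nat_lit 4) (nat_lit 425) (nat_lit 349) (nat_lit 246))) (XT.nd (nat_lit 78) (nat_lit 0) (nat_lit 0) (XT.lf (nat_lit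 0) (nat_lit 360285003077) (nat_lit 76) (nat_lit 160312587973) (nat_lit 76) (nat_lit 137460149424) (nat_lit 3) (nat_lit 4) (nat_lit 4) (nat_lit 5) (nat_lit 4) (nat_lit 4) (nat_lit 426) (nat_lit 349) (nat_lit 245)) (XT.nd (nat_lit 78) (nat_lit 0) (nat_lit 0) (XT.lf (nat_lit 0) (nat_lit 445999497363) (nat_lit 76) (nat_lit 142647368267) (nat_lit 76) (nat_lit 119794363905) (nat_lit 3) (nat_lit 4) (nat_lit 4) (nat_lit 5) (nat_lit 4) (nat_lit 4) (nat_lit 427) (nat_lit 349) (nat_lit 244)) (XT.lf (nat_lit 0) (nat_lit 538568440971) (nat_lit 76) (nat_lit 123570296366) (nat_lit 76) (nat_lit 100716768102) (nat_lit 3) (nat_lit 4) (nat_lit 4) (nat_lit 5) (nat_lit 4) (nat_lit 4) (nat_lit 428) (nat_lit 349) (nat_lit 243))))))) (XT.nd (nat_lit 780) (nat_lit 0) (nat_lit 0) (XT.nd (nat_lit 390) (nat_lit 0) (nat_lit 0) (XT.nd (nat_lit 156) (nat_lit 152) (nat_lit 0) (XT.nd (nat_lit 78) (nat_lit 0) (nat_lit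 0) (XT.lf (nat_lit 0) (nat_lit 638540390604) (nat_lit 76) (nat_lit 102968322952) (nat_lit 76) (nat_lit 80114309595) (nat_lit 3) (nat_lit 4) (nat_lit 4) (nat_lit 5) (nat_lit 4) (nat_lit 4) (nat_lit 429) (nat_lit 349) (nat_lit 242)) (XT.lf (nat_lit 0) (nat_lit 746507772629) (nat_lit 76) (nat_lit 80719362260) (nat_lit 76) (nat_lit 57864899741) (nat_lit 3) (nat_lit 4) (nat_lit 4) (nat_lit 5) (nat_lit 4) (nat_lit 4) (nat_lit 430) (nat_lit 349) (nat_lit 241))) (XT.nd (nat_lit 78) (nat_lit 152) (nat_lit 0) (XT.lf (nat_lit 0) (nat_lit 863110393756) (nat_lit 76) (nat_lit 56691568594) (nat_lit 76) (nat_lit 33836690186) (nat_lit 3) (nat_lit 4) (nat_lit 4) (nat_lit 5) (nat_lit 4) (nat_lit 4) (nat_lit 431) (nat_lit 349) (nat_lit 240)) (XT.nd (nat_lit 78) (nat_lit 152) (nat_lit 0) (XT.lf (nat_lit 0) (nat_lit 989039232480) (nat_lit 76) (nat_lit 30742555030) (nat_lit 76) (nat_lit 7887291539) (nat_lit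 3) (nat_lit 4) (nat_lit 4) (nat_lit 5) (nat_lit 4) (nat_lit 4) (nat_lit 432) (nat_lit 349) (nat_lit 239)) (XT.lf (nat_lit 0) (nat_lit 17825949961) (nat_lit 76) (nat_lit 1732497159) (nat_lit 152) (nat_lit 1087990524948) (nat_lit 1) (nat_lit 5) (nat_lit 2) (nat_lit 5) (nat_lit 3) (nat_lit 4) (nat_lit 433) (nat_lit 349) (nat_lit 238))))) (XT.nd (nat_lit 156) (nat_lit 0) (nat_lit 0) (XT.nd (nat_lit 78) (nat_lit 0) (nat_lit 0) (XT.lf (nat_lit 0) (nat_lit 50568273728) (nat_lit 152) (nat_lit 1113685673022) (nat_lit 0) (nat_lit 29405356879) (nat_lit 1) (nat_lit 5) (nat_lit 3) (nat_lit 4) (nat_lit 1) (nat_lit 4) (nat_lit 434) (nat_lit 349) (nat_lit 237)) (XT.lf (nat_lit 0) (nat_lit 84103019368) (nat_lit 152) (nat_lit 1139612092315) (nat_lit 0) (nat_lit 62939819472) (nat_lit 1) (nat_lit 5) (nat_lit 3) (nat_lit 4) (nat_lit 1) (nat_lit 4) (nat_lit 435) (nat_lit 349) (nat_lit 236))) (XT.nd (nat_lit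 78) (nat_lit 0) (nat_lit 0) (XT.lf (nat_lit 0) (nat_lit 120319741860) (nat_lit 152) (nat_lit 1167614251428) (nat_lit 0) (nat_lit 99156279882) (nat_lit 1) (nat_lit 5) (nat_lit 3) (nat_lit 4) (nat_lit 1) (nat_lit 4) (nat_lit 436) (nat_lit 349) (nat_lit 235)) (XT.nd (nat_lit 78) (nat_lit 0) (nat_lit 0) (XT.lf (nat_lit 0) (nat_lit 159433058819) (nat_lit 152) (nat_lit 1197858089081) (nat_lit 0) (nat_lit 138269354173) (nat_lit 1) (nat_lit 5) (nat_lit 3) (nat_lit 4) (nat_lit 1) (nat_lit 4) (nat_lit 437) (nat_lit 349) (nat_lit 234)) (XT.lf (nat_lit 0) (nat_lit 201674752863) (nat_lit 152) (nat_lit 1230522828016) (nat_lit 0) (nat_lit 180510823525) (nat_lit 1) (nat_lit 5) (nat_lit 3) (nat_lit 4) (nat_lit 1) (nat_lit 4) (nat_lit 438) (nat_lit 349) (nat_lit 233)))))) (XT.nd (nat_lit 390) (nat_lit 0) (nat_lit 0) (XT.nd (nat_lit 156) (nat_lit 0) (nat_lit 0) (XT.nd (nat_lit 78) (nat_lit 0) (nat_lit 0)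 (XT.lf (nat_lit 0) (nat_lit 247295145143) (nat_lit 152) (nat_lit 1265802037056) (nat_lit 0) (nat_lit 226131007757) (nat_lit 1) (nat_lit 5) (nat_lit 3) (nat_lit 4) (nat_lit 1) (nat_lit 4) (nat_lit 439) (nat_lit 349) (nat_lit 232)) (XT.lf (nat_lit 0) (nat_lit 296564578725) (nat_lit 152) (nat_lit 1303904778182) (nat_lit 0) (nat_lit 275400248701) (nat_lit 1) (nat_lit 5) (nat_lit 3) (nat_lit 4) (nat_lit 1) (nat_lit 4) (nat_lit 440) (nat_lit 349) (nat_lit 231))) (XT.nd (nat_lit 78) (nat_lit 0) (nat_lit 0) (XT.lf (nat_lit 0) (nat_lit 349775020621) (nat_lit 152) (nat_lit 1345056845413) (nat_lit 0) (nat_lit 328610512229) (nat_lit 1) (nat_lit 5) (nat_lit 3) (nat_lit 4) (nat_lit 1) (nat_lit 4) (nat_lit 441) (nat_lit 349) (nat_lit 230)) (XT.nd (nat_lit 78) (nat_lit 0) (nat_lit 0) (XT.lf (nat_lit 0) (nat_lit 407241791970) (nat_lit 152) (nat_lit 1389502102854) (nat_lit 0) (nat_lit 386077118422) (nat_lit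 1) (nat_lit 5) (nat_lit 3) (nat_lit 4) (nat_lit 1) (nat_lit 4) (nat_lit 442) (nat_lit 349) (nat_lit 229)) (XT.lf (nat_lit 0) (nat_lit 469305436601) (nat_lit 152) (nat_lit 1437503929806) (nat_lit 0) (nat_lit 448140610131) (nat_lit 1) (nat_lit 5) (nat_lit 3) (nat_lit 4) (nat_lit 1) (nat_lit 4) (nat_lit 443) (nat_lit 349) (nat_lit 228))))) (XT.nd (nat_lit 156) (nat_lit 0) (nat_lit 0) (XT.nd (nat_lit 78) (nat_lit 0) (nat_lit 0) (XT.lf (nat_lit 0) (nat_lit 536333739074) (nat_lit 152) (nat_lit 1489346781540) (nat_lit 0) (nat_lit 515168771011) (nat_lit 1) (nat_lit 5) (nat_lit 3) (nat_lit 4) (nat_lit 1) (nat_lit 4) (nat_lit 444) (nat_lit 349) (nat_lit 227)) (XT.lf (nat_lit 0) (nat_lit 608723904147) (nat_lit 152) (nat_lit 1545337874957) (nat_lit 0) (nat_lit 587558804977) (nat_lit 1) (nat_lit 5) (nat_lit 3) (nat_lit 4) (nat_lit 1) (nat_lit 4) (nat_lit 445) (nat_lit 349) (nat_lit 226))) (XT.nd (nat_lit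 78) (nat_lit 0) (nat_lit 0) (XT.lf (nat_lit 0) (nat_lit 686904910574) (nat_lit 152) (nat_lit 1605809009127) (nat_lit 0) (nat_lit 665739690010) (nat_lit 1) (nat_lit 5) (nat_lit 3) (nat_lit 4) (nat_lit 1) (nat_lit 4) (nat_lit 446) (nat_lit 349) (nat_lit 225)) (XT.nd (nat_lit 78) (nat_lit 0) (nat_lit 0) (XT.lf (nat_lit 0) (nat_lit 771340053208) (nat_lit 152) (nat_lit 1671118531514) (nat_lit 0) (nat_lit 750174720242) (nat_lit 1) (nat_lit 5) (nat_lit 3) (nat_lit 4) (nat_lit 1) (nat_lit 4) (nat_lit 447) (nat_lit 349) (nat_lit 224)) (XT.lf (nat_lit 0) (nat_lit 862529688450) (nat_lit 152) (nat_lit 1741653461507) (nat_lit 0) (nat_lit 841364251409) (nat_lit 1) (nat_lit 5) (nat_lit 3) (nat_lit 4) (nat_lit 1) (nat_lit 4) (nat_lit 448) (nat_lit 349) (nat_lit 223))))))))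
noncomputable def xc123 : XT := (XT.nd (nat_lit 46098) (nat_lit 0) (nat_lit 1976) (XT.nd (nat_lit 702) (nat_lit 0) (nat_lit 0) (XT.nd (nat_lit 312) (nat_lit 0) (nat_lit 0) (XT.nd (nat_lit 156) (nat_lit 0) (nat_lit 0) (XT.nd (nat_lit 78) (nat_lit 0) (nat_lit 0) (XT.lf (nat_lit 0) (nat_lit 961014199325) (nat_lit 152) (nat_lit 1817831783879) (nat_lit 0) (nat_lit 939848665916) (nat_lit 1) (nat_lit 5) (nat_lit 3) (nat_lit 4) (nat_lit 1) (nat_lit 4) (nat_lit 449) (nat_lit 349) (nat_lit 222)) (XT.lf (nat_lit 0) (nat_lit 1067377197747) (nat_lit 152) (nat_lit 1900104925724) (nat_lit 0) (nat_lit 1046211575110) (nat_lit 1) (nat_lit 5) (nat_lit 3) (nat_lit 4) (nat_lit 1) (nat_lit 4) (nat_lit 450) (nat_lit 349) (nat_lit 221))) (XT.nd (nat_lit 78) (nat_lit 0) (nat_lit 0) (XT.lf (nat_lit 0) (nat_lit 1182248982968) (nat_lit 152) (nat_lit 1988960431587) (nat_lit 0) (nat_lit 1161083277712) (nat_lit 1) (nat_lit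 5) (nat_lit 3) (nat_lit 4) (nat_lit 1) (nat_lit 4) (nat_lit 451) (nat_lit 349) (nat_lit 220)) (XT.lf (nat_lit 0) (nat_lit 1306310276676) (nat_lit 152) (nat_lit 2084924852614) (nat_lit 0) (nat_lit 1285144494922) (nat_lit 1) (nat_lit 5) (nat_lit 3) (nat_lit 4) (nat_lit 1) (nat_lit 4) (nat_lit 452) (nat_lit 349) (nat_lit 219)))) (XT.nd (nat_lit 156) (nat_lit 0) (nat_lit 0) (XT.nd (nat_lit 78) (nat_lit 0) (nat_lit 0) (XT.lf (nat_lit 0) (nat_lit 1440296256910) (nat_lit 152) (nat_lit 2188566866855) (nat_lit 0) (nat_lit 1419130404323) (nat_lit 1) (nat_lit 5) (nat_lit 3) (nat_lit 4) (nat_lit 1) (nat_lit 4) (nat_lit 453) (nat_lit 349) (nat_lit 218)) (XT.lf (nat_lit 0) (nat_lit 1585000914663) (nat_lit 152) (nat_lit 2300500649208) (nat_lit 0) (nat_lit 1563834996490) (nat_lit 1) (nat_lit 5) (nat_lit 3) (nat_lit 4) (nat_lit 1) (nat_lit 4) (nat_lit 454) (nat_lit 349) (nat_lit 217))) (XT.nd (nat_lit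 78) (nat_lit 0) (nat_lit 0) (XT.lf (nat_lit 0) (nat_lit 1741281759018) (nat_lit 152) (nat_lit 2421389510979) (nat_lit 0) (nat_lit 1720115780118) (nat_lit 1) (nat_lit 5) (nat_lit 3) (nat_lit 4) (nat_lit 1) (nat_lit 4) (nat_lit 455) (nat_lit 349) (nat_lit 216)) (XT.nd (nat_lit 78) (nat_lit 0) (nat_lit 0) (XT.lf (nat_lit 0) (nat_lit 1910064898682) (nat_lit 152) (nat_lit 2551949830605) (nat_lit 0) (nat_lit 1888898863552) (nat_lit 1) (nat_lit 5) (nat_lit 3) (nat_lit 4) (nat_lit 1) (nat_lit 4) (nat_lit 456) (nat_lit 349) (nat_lit 215)) (XT.lf (nat_lit 0) (nat_lit 2092350530038) (nat_lit 152) (nat_lit 2692955298871) (nat_lit 0) (nat_lit 2071184442845) (nat_lit 1) (nat_lit 5) (nat_lit 3) (nat_lit 4) (nat_lit 1) (nat_lit 4) (nat_lit 457) (nat_lit 349) (nat_lit 214)))))) (XT.nd (nat_lit 45006) (nat_lit 0) (nat_lit 4332) (XT.nd (nat_lit 44772) (nat_lit 0) (nat_lit 4560) (XT.nd (nat_lit 44694) (nat_lit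 0) (nat_lit 4560) (XT.lf (nat_lit 0) (nat_lit 2289218864236) (nat_lit 152) (nat_lit 2845241503736) (nat_lit 0) (nat_lit 2268052728835) (nat_lit 1) (nat_lit 5) (nat_lit 3) (nat_lit 4) (nat_lit 1) (nat_lit 4) (nat_lit 458) (nat_lit 349) (nat_lit 213)) (XT.lf (nat_lit 0) (nat_lit 254837144) (nat_lit 532) (nat_lit 2209724393) (nat_lit 532) (nat_lit 2209724393) (nat_lit 61) (nat_lit 3) (nat_lit 68) (nat_lit 3) (nat_lit 68) (nat_lit 5) (nat_lit 350) (nat_lit 350) (nat_lit 320))) (XT.nd (nat_lit 78) (nat_lit 0) (nat_lit 76) (XT.lf (nat_lit 76) (nat_lit 98137351) (nat_lit 0) (nat_lit 1224984836) (nat_lit 532) (nat_lit 8334981877) (nat_lit 62) (nat_lit 5) (nat_lit 61) (nat_lit 3) (nat_lit 68) (nat_lit 5) (nat_lit 351) (nat_lit 350) (nat_lit 319)) (XT.nd (nat_lit 78) (nat_lit 0) (nat_lit 0) (XT.lf (nat_lit 0) (nat_lit 2313025619) (nat_lit 456) (nat_lit 4876529189) (nat_lit 532) (nat_lit 2794030284)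 (nat_lit 62) (nat_lit 5) (nat_lit 68) (nat_lit 5) (nat_lit 69) (nat_lit 5) (nat_lit 352) (nat_lit 350) (nat_lit 318)) (XT.lf (nat_lit 76) (nat_lit 106601435) (nat_lit 0) (nat_lit 3236433930) (nat_lit 532) (nat_lit 6995285584) (nat_lit 63) (nat_lit 5) (nat_lit 62) (nat_lit 5) (nat_lit 69) (nat_lit 5) (nat_lit 353) (nat_lit 350) (nat_lit 317))))) (XT.nd (nat_lit 156) (nat_lit 380) (nat_lit 0) (XT.nd (nat_lit 78) (nat_lit 0) (nat_lit 0) (XT.lf (nat_lit 0) (nat_lit 4548448422) (nat_lit 456) (nat_lit 5026770678) (nat_lit 532) (nat_lit 1138859211) (nat_lit 63) (nat_lit 5) (nat_lit 69) (nat_lit 5) (nat_lit 70) (nat_lit 5) (nat_lit 354) (nat_lit 350) (nat_lit 316)) (XT.lf (nat_lit 76) (nat_lit 485334284) (nat_lit 0) (nat_lit 5397144128) (nat_lit 532) (nat_lit 5234919846) (nat_lit 64) (nat_lit 5) (nat_lit 63) (nat_lit 5) (nat_lit 70) (nat_lit 5) (nat_lit 355) (nat_lit 350) (nat_lit 315))) (XT.nd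 (nat_lit 78) (nat_lit 380) (nat_lit 0) (XT.lf (nat_lit 76) (nat_lit 6676081623) (nat_lit 0) (nat_lit 724586612) (nat_lit 532) (nat_lit 4146191593) (nat_lit 64) (nat_lit 5) (nat_lit 63) (nat_lit 5) (nat_lit 70) (nat_lit 5) (nat_lit 356) (nat_lit 350) (nat_lit 314)) (XT.nd (nat_lit 78) (nat_lit 0) (nat_lit 0) (XT.lf (nat_lit 0) (nat_lit 1261154081) (nat_lit 456) (nat_lit 7858132843) (nat_lit 532) (nat_lit 2885139268) (nat_lit 58) (nat_lit 5) (nat_lit 64) (nat_lit 5) (nat_lit 65) (nat_lit 5) (nat_lit 357) (nat_lit 350) (nat_lit 313)) (XT.lf (nat_lit 0) (nat_lit 8092680143) (nat_lit 456) (nat_lit 2981876596) (nat_lit 532) (nat_lit 1416169087) (nat_lit 58) (nat_lit 5) (nat_lit 64) (nat_lit 5) (nat_lit 65) (nat_lit 5) (nat_lit 358) (nat_lit 350) (nat_lit 312))))))) (XT.nd (nat_lit 780) (nat_lit 836) (nat_lit 0) (XT.nd (nat_lit 390) (nat_lit 608) (nat_lit 0) (XT.nd (nat_lit 156) (nat_lit 456)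 (nat_lit 0) (XT.nd (nat_lit 78) (nat_lit 0) (nat_lit 0) (XT.lf (nat_lit 0) (nat_lit 229542324) (nat_lit 456) (nat_lit 10541457438) (nat_lit 76) (nat_lit 2239234688) (nat_lit 52) (nat_lit 5) (nat_lit 58) (nat_lit 5) (nat_lit 53) (nat_lit 5) (nat_lit 359) (nat_lit 350) (nat_lit 311)) (XT.lf (nat_lit 0) (nat_lit 2084041410) (nat_lit 456) (nat_lit 3593894122) (nat_lit 76) (nat_lit 7878182625) (nat_lit 52) (nat_lit 5) (nat_lit 58) (nat_lit 5) (nat_lit 53) (nat_lit 5) (nat_lit 360) (nat_lit 350) (nat_lit 310))) (XT.nd (nat_lit 78) (nat_lit 228) (nat_lit 0) (XT.lf (nat_lit 0) (nat_lit 4066685673) (nat_lit 228) (nat_lit 74329367) (nat_lit 304) (nat_lit 10000373108) (nat_lit 49) (nat_lit 5) (nat_lit 52) (nat_lit 5) (nat_lit 53) (nat_lit 5) (nat_lit 361) (nat_lit 350) (nat_lit 309)) (XT.nd (nat_lit 78) (nat_lit 228) (nat_lit 0) (XT.lf (nat_lit 0) (nat_lit 6565501874) (nat_lit 304) (nat_lit 2415762133)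 (nat_lit 76) (nat_lit 5776020748) (nat_lit 49) (nat_lit 5) (nat_lit 53) (nat_lit 5) (nat_lit 50) (nat_lit 5) (nat_lit 362) (nat_lit 350) (nat_lit 308)) (XT.lf (nat_lit 0) (nat_lit 6115115286) (nat_lit 228) (nat_lit 3179293700) (nat_lit 304) (nat_lit 6119245569) (nat_lit 46) (nat_lit 5) (nat_lit 49) (nat_lit 5) (nat_lit 50) (nat_lit 5) (nat_lit 363) (nat_lit 350) (nat_lit 307))))) (XT.nd (nat_lit 156) (nat_lit 456) (nat_lit 0) (XT.nd (nat_lit 78) (nat_lit 152) (nat_lit 0) (XT.lf (nat_lit 0) (nat_lit 12346736047) (nat_lit 304) (nat_lit 773780421) (nat_lit 76) (nat_lit 2993644412) (nat_lit 46) (nat_lit 5) (nat_lit 50) (nat_lit 5) (nat_lit 47) (nat_lit 5) (nat_lit 364) (nat_lit 350) (nat_lit 306)) (XT.lf (nat_lit 0) (nat_lit 8744845680) (nat_lit 152) (nat_lit 7157131681) (nat_lit 228) (nat_lit 948064998) (nat_lit 44) (nat_lit 5) (nat_lit 46) (nat_lit 5) (nat_lit 47) (nat_lit 5) (nat_lit 365)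 (nat_lit 350) (nat_lit 305))) (XT.nd (nat_lit 78) (nat_lit 152) (nat_lit 0) (XT.lf (nat_lit 0) (nat_lit 1401293378) (nat_lit 228) (nat_lit 612546388) (nat_lit 304) (nat_lit 15625197364) (nat_lit 40) (nat_lit 5) (nat_lit 43) (nat_lit 5) (nat_lit 44) (nat_lit 5) (nat_lit 366) (nat_lit 350) (nat_lit 304)) (XT.nd (nat_lit 78) (nat_lit 152) (nat_lit 0) (XT.lf (nat_lit 0) (nat_lit 5511787880) (nat_lit 304) (nat_lit 6574732507) (nat_lit 76) (nat_lit 6374662318) (nat_lit 40) (nat_lit 5) (nat_lit 44) (nat_lit 5) (nat_lit 41) (nat_lit 5) (nat_lit 367) (nat_lit 350) (nat_lit 303)) (XT.lf (nat_lit 0) (nat_lit 4004115524) (nat_lit 152) (nat_lit 5367746310) (nat_lit 228) (nat_lit 9970679072) (nat_lit 38) (nat_lit 5) (nat_lit 40) (nat_lit 5) (nat_lit 41) (nat_lit 5) (nat_lit 368) (nat_lit 350) (nat_lit 302)))))) (XT.nd (nat_lit 390) (nat_lit 304) (nat_lit 0) (XT.nd (nat_lit 156) (nat_lit 380) (nat_lit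 0) (XT.nd (nat_lit 78) (nat_lit 152) (nat_lit 0) (XT.lf (nat_lit 0) (nat_lit 13741631415) (nat_lit 228) (nat_lit 4569506849) (nat_lit 76) (nat_lit 1967220712) (nat_lit 38) (nat_lit 5) (nat_lit 41) (nat_lit 5) (nat_lit 39) (nat_lit 5) (nat_lit 369) (nat_lit 350) (nat_lit 301)) (XT.lf (nat_lit 0) (nat_lit 7244480971) (nat_lit 152) (nat_lit 11503335432) (nat_lit 228) (nat_lit 2518300113) (nat_lit 36) (nat_lit 5) (nat_lit 38) (nat_lit 5) (nat_lit 39) (nat_lit 5) (nat_lit 370) (nat_lit 350) (nat_lit 300))) (XT.nd (nat_lit 78) (nat_lit 304) (nat_lit 0) (XT.lf (nat_lit 0) (nat_lit 1832218382) (nat_lit 228) (nat_lit 2146327291) (nat_lit 76) (nat_lit 18342722737) (nat_lit 35) (nat_lit 5) (nat_lit 38) (nat_lit 5) (nat_lit 36) (nat_lit 5) (nat_lit 371) (nat_lit 350) (nat_lit 299)) (XT.nd (nat_lit 78) (nat_lit 152) (nat_lit 0) (XT.lf (nat_lit 0) (nat_lit 6746126221) (nat_lit 228) (nat_lit 12410610253)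 (nat_lit 76) (nat_lit 4270767487) (nat_lit 33) (nat_lit 5) (nat_lit 36) (nat_lit 5) (nat_lit 34) (nat_lit 5) (nat_lit 372) (nat_lit 350) (nat_lit 298)) (XT.lf (nat_lit 0) (nat_lit 626627743) (nat_lit 152) (nat_lit 11581303297) (nat_lit 228) (nat_lit 12401939806) (nat_lit 31) (nat_lit 5) (nat_lit 33) (nat_lit 5) (nat_lit 34) (nat_lit 5) (nat_lit 373) (nat_lit 350) (nat_lit 297))))) (XT.nd (nat_lit 156) (nat_lit 228) (nat_lit 0) (XT.nd (nat_lit 78) (nat_lit 76) (nat_lit 0) (XT.lf (nat_lit 0) (nat_lit 15376049848) (nat_lit 152) (nat_lit 3047010188) (nat_lit 228) (nat_lit 7438470771) (nat_lit 31) (nat_lit 5) (nat_lit 33) (nat_lit 5) (nat_lit 34) (nat_lit 5) (nat_lit 374) (nat_lit 350) (nat_lit 296)) (XT.lf (nat_lit 0) (nat_lit 4114227798) (nat_lit 76) (nat_lit 21246955757) (nat_lit 152) (nat_lit 1834090338) (nat_lit 30) (nat_lit 5) (nat_lit 31) (nat_lit 5) (nat_lit 32) (nat_lit 4) (nat_lit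 375) (nat_lit 350) (nat_lit 295))) (XT.nd (nat_lit 78) (nat_lit 152) (nat_lit 0) (XT.lf (nat_lit 0) (nat_lit 4359553764) (nat_lit 152) (nat_lit 8358133809) (nat_lit 76) (nat_lit 15881767644) (nat_lit 29) (nat_lit 5) (nat_lit 31) (nat_lit 5) (nat_lit 30) (nat_lit 5) (nat_lit 376) (nat_lit 350) (nat_lit 294)) (XT.nd (nat_lit 78) (nat_lit 0) (nat_lit 0) (XT.lf (nat_lit 0) (nat_lit 7855007894) (nat_lit 152) (nat_lit 3263751883) (nat_lit 228) (nat_lit 18979877832) (nat_lit 27) (nat_lit 5) (nat_lit 29) (nat_lit 5) (nat_lit 30) (nat_lit 5) (nat_lit 377) (nat_lit 350) (nat_lit 293)) (XT.lf (nat_lit 0) (nat_lit 18800852538) (nat_lit 228) (nat_lit 6065229160) (nat_lit 76) (nat_lit 6821110474) (nat_lit 27) (nat_lit 5) (nat_lit 30) (nat_lit 5) (nat_lit 28) (nat_lit 4) (nat_lit 378) (nat_lit 350) (nat_lit 292))))))))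
noncomputable def xc124 : XT := (XT.nd (nat_lit 1482) (nat_lit 684) (nat_lit 0) (XT.nd (nat_lit 702) (nat_lit 456) (nat_lit 0) (XT.nd (nat_lit 312) (nat_lit 304) (nat_lit 0) (XT.nd (nat_lit 156) (nat_lit 152) (nat_lit 0) (XT.nd (nat_lit 78) (nat_lit 76) (nat_lit 0) (XT.lf (nat_lit 0) (nat_lit 11886452424) (nat_lit 76) (nat_lit 15563762604) (nat_lit 152) (nat_lit 5924408780) (nat_lit 26) (nat_lit 5) (nat_lit 27) (nat_lit 5) (nat_lit 28) (nat_lit 4) (nat_lit 379) (nat_lit 350) (nat_lit 291)) (XT.lf (nat_lit 0) (nat_lit 1667064150) (nat_lit 152) (nat_lit 3638225141) (nat_lit 76) (nat_lit 29876512547) (nat_lit 25) (nat_lit 5) (nat_lit 27) (nat_lit 5) (nat_lit 26) (nat_lit 5) (nat_lit 380) (nat_lit 350) (nat_lit 290))) (XT.nd (nat_lit 78) (nat_lit 0) (nat_lit 0) (XT.lf (nat_lit 0) (nat_lit 10073357828) (nat_lit 228) (nat_lit 20972905158) (nat_lit 76) (nat_lit 6032781734) (nat_lit 23) (nat_lit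 5) (nat_lit 26) (nat_lit 5) (nat_lit 24) (nat_lit 4) (nat_lit 381) (nat_lit 350) (nat_lit 289)) (XT.lf (nat_lit 0) (nat_lit 19375798228) (nat_lit 228) (nat_lit 1652489699) (nat_lit 76) (nat_lit 18081894182) (nat_lit 23) (nat_lit 5) (nat_lit 26) (nat_lit 5) (nat_lit 24) (nat_lit 4) (nat_lit 382) (nat_lit 350) (nat_lit 288)))) (XT.nd (nat_lit 156) (nat_lit 152) (nat_lit 0) (XT.nd (nat_lit 78) (nat_lit 76) (nat_lit 0) (XT.lf (nat_lit 0) (nat_lit 20197084382) (nat_lit 76) (nat_lit 9696075216) (nat_lit 152) (nat_lit 11372998884) (nat_lit 22) (nat_lit 5) (nat_lit 23) (nat_lit 5) (nat_lit 24) (nat_lit 4) (nat_lit 383) (nat_lit 350) (nat_lit 287)) (XT.lf (nat_lit 0) (nat_lit 219220207) (nat_lit 76) (nat_lit 41130659733) (nat_lit 76) (nat_lit 2236901023) (nat_lit 21) (nat_lit 4) (nat_lit 22) (nat_lit 5) (nat_lit 22) (nat_lit 4) (nat_lit 384) (nat_lit 350) (nat_lit 286))) (XT.nd (nat_lit 78) (nat_lit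 76) (nat_lit 0) (XT.lf (nat_lit 0) (nat_lit 8076547506) (nat_lit 152) (nat_lit 22115606272) (nat_lit 76) (nat_lit 15819971923) (nat_lit 20) (nat_lit 5) (nat_lit 22) (nat_lit 5) (nat_lit 21) (nat_lit 4) (nat_lit 385) (nat_lit 350) (nat_lit 285)) (XT.nd (nat_lit 78) (nat_lit 0) (nat_lit 0) (XT.lf (nat_lit 0) (nat_lit 792958491) (nat_lit 76) (nat_lit 18306699913) (nat_lit 152) (nat_lit 29526760977) (nat_lit 19) (nat_lit 5) (nat_lit 20) (nat_lit 5) (nat_lit 21) (nat_lit 4) (nat_lit 386) (nat_lit 350) (nat_lit 284)) (XT.lf (nat_lit 0) (nat_lit 26767466552) (nat_lit 76) (nat_lit 4828619297) (nat_lit 152) (nat_lit 19806457412) (nat_lit 19) (nat_lit 5) (nat_lit 20) (nat_lit 5) (nat_lit 21) (nat_lit 4) (nat_lit 387) (nat_lit 350) (nat_lit 283)))))) (XT.nd (nat_lit 390) (nat_lit 228) (nat_lit 0) (XT.nd (nat_lit 156) (nat_lit 76) (nat_lit 0) (XT.nd (nat_lit 78) (nat_lit 76) (nat_lit 0) (XT.lf (nat_lit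 0) (nat_lit 170353747) (nat_lit 76) (nat_lit 45147438017) (nat_lit 76) (nat_lit 9064923958) (nat_lit 18) (nat_lit 4) (nat_lit 19) (nat_lit 5) (nat_lit 19) (nat_lit 4) (nat_lit 388) (nat_lit 350) (nat_lit 282)) (XT.lf (nat_lit 0) (nat_lit 3213129329) (nat_lit 152) (nat_lit 29413542475) (nat_lit 76) (nat_lit 24905429925) (nat_lit 17) (nat_lit 5) (nat_lit 19) (nat_lit 5) (nat_lit 18) (nat_lit 4) (nat_lit 389) (nat_lit 350) (nat_lit 281))) (XT.nd (nat_lit 78) (nat_lit 76) (nat_lit 0) (XT.lf (nat_lit 0) (nat_lit 15972180145) (nat_lit 152) (nat_lit 2887992169) (nat_lit 76) (nat_lit 42055353557) (nat_lit 17) (nat_lit 5) (nat_lit 19) (nat_lit 5) (nat_lit 18) (nat_lit 4) (nat_lit 390) (nat_lit 350) (nat_lit 280)) (XT.nd (nat_lit 78) (nat_lit 0) (nat_lit 0) (XT.lf (nat_lit 0) (nat_lit 27094884905) (nat_lit 76) (nat_lit 3298049616) (nat_lit 152) (nat_lit 34125413865) (nat_lit 16) (nat_lit 5) (nat_lit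 17) (nat_lit 5) (nat_lit 18) (nat_lit 4) (nat_lit 391) (nat_lit 350) (nat_lit 279)) (XT.lf (nat_lit 0) (nat_lit 46362697464) (nat_lit 152) (nat_lit 9109599116) (nat_lit 0) (nat_lit 12905474862) (nat_lit 16) (nat_lit 5) (nat_lit 18) (nat_lit 4) (nat_lit 16) (nat_lit 4) (nat_lit 392) (nat_lit 350) (nat_lit 278))))) (XT.nd (nat_lit 156) (nat_lit 76) (nat_lit 0) (XT.nd (nat_lit 78) (nat_lit 76) (nat_lit 0) (XT.lf (nat_lit 0) (nat_lit 22490040276) (nat_lit 76) (nat_lit 41736774506) (nat_lit 76) (nat_lit 8269794095) (nat_lit 15) (nat_lit 4) (nat_lit 16) (nat_lit 5) (nat_lit 16) (nat_lit 4) (nat_lit 393) (nat_lit 350) (nat_lit 277)) (XT.lf (nat_lit 0) (nat_lit 6491997222) (nat_lit 152) (nat_lit 19972661196) (nat_lit 76) (nat_lit 50447982222) (nat_lit 14) (nat_lit 5) (nat_lit 16) (nat_lit 5) (nat_lit 15) (nat_lit 4) (nat_lit 394) (nat_lit 350) (nat_lit 276))) (XT.nd (nat_lit 78) (nat_lit 0) (nat_lit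 0) (XT.lf (nat_lit 0) (nat_lit 12875898197) (nat_lit 76) (nat_lit 9412697650) (nat_lit 152) (nat_lit 59352125201) (nat_lit 13) (nat_lit 5) (nat_lit 14) (nat_lit 5) (nat_lit 15) (nat_lit 4) (nat_lit 395) (nat_lit 350) (nat_lit 275)) (XT.nd (nat_lit 78) (nat_lit 0) (nat_lit 0) (XT.lf (nat_lit 0) (nat_lit 40116773386) (nat_lit 152) (nat_lit 37463303721) (nat_lit 0) (nat_lit 9105544469) (nat_lit 13) (nat_lit 5) (nat_lit 15) (nat_lit 4) (nat_lit 13) (nat_lit 4) (nat_lit 396) (nat_lit 350) (nat_lit 274)) (XT.lf (nat_lit 0) (nat_lit 59607400502) (nat_lit 152) (nat_lit 3918289062) (nat_lit 0) (nat_lit 28589530585) (nat_lit 13) (nat_lit 5) (nat_lit 15) (nat_lit 4) (nat_lit 13) (nat_lit 4) (nat_lit 397) (nat_lit 350) (nat_lit 273))))))) (XT.nd (nat_lit 780) (nat_lit 228) (nat_lit 0) (XT.nd (nat_lit 390) (nat_lit 228) (nat_lit 0) (XT.nd (nat_lit 156) (nat_lit 76) (nat_lit 0) (XT.nd (nat_lit 78) (nat_lit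 76) (nat_lit 0) (XT.lf (nat_lit 0) (nat_lit 33995999584) (nat_lit 76) (nat_lit 47471206628) (nat_lit 76) (nat_lit 16447187636) (nat_lit 12) (nat_lit 4) (nat_lit 13) (nat_lit 5) (nat_lit 13) (nat_lit 4) (nat_lit 398) (nat_lit 350) (nat_lit 272)) (XT.lf (nat_lit 0) (nat_lit 955621282) (nat_lit 152) (nat_lit 29042020312) (nat_lit 76) (nat_lit 74169951812) (nat_lit 11) (nat_lit 5) (nat_lit 13) (nat_lit 5) (nat_lit 12) (nat_lit 4) (nat_lit 399) (nat_lit 350) (nat_lit 271))) (XT.nd (nat_lit 78) (nat_lit 0) (nat_lit 0) (XT.lf (nat_lit 0) (nat_lit 8614325562) (nat_lit 76) (nat_lit 10447842698) (nat_lit 152) (nat_lit 91808698801) (nat_lit 10) (nat_lit 5) (nat_lit 11) (nat_lit 5) (nat_lit 12) (nat_lit 4) (nat_lit 400) (nat_lit 350) (nat_lit 270)) (XT.nd (nat_lit 78) (nat_lit 0) (nat_lit 0) (XT.lf (nat_lit 0) (nat_lit 39681394933) (nat_lit 152) (nat_lit 67403097820) (nat_lit 0) (nat_lit 10940778494)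 (nat_lit 10) (nat_lit 5) (nat_lit 12) (nat_lit 4) (nat_lit 10) (nat_lit 4) (nat_lit 401) (nat_lit 350) (nat_lit 269)) (XT.lf (nat_lit 0) (nat_lit 62215008734) (nat_lit 152) (nat_lit 30045624807) (nat_lit 0) (nat_lit 33470207338) (nat_lit 10) (nat_lit 5) (nat_lit 12) (nat_lit 4) (nat_lit 10) (nat_lit 4) (nat_lit 402) (nat_lit 350) (nat_lit 268))))) (XT.nd (nat_lit 156) (nat_lit 152) (nat_lit 0) (XT.nd (nat_lit 78) (nat_lit 0) (nat_lit 0) (XT.lf (nat_lit 0) (nat_lit 10830301573) (nat_lit 76) (nat_lit 75975438761) (nat_lit 76) (nat_lit 47226762405) (nat_lit 9) (nat_lit 4) (nat_lit 10) (nat_lit 5) (nat_lit 10) (nat_lit 4) (nat_lit 403) (nat_lit 350) (nat_lit 267)) (XT.lf (nat_lit 0) (nat_lit 56673405121) (nat_lit 76) (nat_lit 57505953664) (nat_lit 76) (nat_lit 28753689382) (nat_lit 9) (nat_lit 4) (nat_lit 10) (nat_lit 5) (nat_lit 10) (nat_lit 4) (nat_lit 404) (nat_lit 350) (nat_lit 266)))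 (XT.nd (nat_lit 78) (nat_lit 152) (nat_lit 0) (XT.lf (nat_lit 0) (nat_lit 106173199315) (nat_lit 76) (nat_lit 37564230077) (nat_lit 76) (nat_lit 8808643641) (nat_lit 9) (nat_lit 4) (nat_lit 10) (nat_lit 5) (nat_lit 10) (nat_lit 4) (nat_lit 405) (nat_lit 350) (nat_lit 265)) (XT.nd (nat_lit 78) (nat_lit 76) (nat_lit 0) (XT.lf (nat_lit 0) (nat_lit 12089933223) (nat_lit 152) (nat_lit 3611601399) (nat_lit 76) (nat_lit 147202522847) (nat_lit 8) (nat_lit 5) (nat_lit 10) (nat_lit 5) (nat_lit 9) (nat_lit 4) (nat_lit 406) (nat_lit 350) (nat_lit 264)) (XT.lf (nat_lit 0) (nat_lit 35475327445) (nat_lit 152) (nat_lit 129649485042) (nat_lit 0) (nat_lit 8844299005) (nat_lit 7) (nat_lit 5) (nat_lit 9) (nat_lit 4) (nat_lit 7) (nat_lit 4) (nat_lit 407) (nat_lit 350) (nat_lit 263)))))) (XT.nd (nat_lit 390) (nat_lit 152) (nat_lit 0) (XT.nd (nat_lit 156) (nat_lit 76) (nat_lit 0) (XT.nd (nat_lit 78) (nat_lit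 0) (nat_lit 0) (XT.lf (nat_lit 0) (nat_lit 61235936308) (nat_lit 152) (nat_lit 90040617499) (nat_lit 0) (nat_lit 34602465985) (nat_lit 7) (nat_lit 5) (nat_lit 9) (nat_lit 4) (nat_lit 7) (nat_lit 4) (nat_lit 408) (nat_lit 350) (nat_lit 262)) (XT.lf (nat_lit 0) (nat_lit 89052985156) (nat_lit 152) (nat_lit 47271835022) (nat_lit 0) (nat_lit 62417253832) (nat_lit 7) (nat_lit 5) (nat_lit 9) (nat_lit 4) (nat_lit 7) (nat_lit 4) (nat_lit 409) (nat_lit 350) (nat_lit 261))) (XT.nd (nat_lit 78) (nat_lit 76) (nat_lit 0) (XT.lf (nat_lit 0) (nat_lit 119091315762) (nat_lit 152) (nat_lit 1089692975) (nat_lit 0) (nat_lit 92453490917) (nat_lit 7) (nat_lit 5) (nat_lit 9) (nat_lit 4) (nat_lit 7) (nat_lit 4) (nat_lit 410) (nat_lit 350) (nat_lit 260)) (XT.nd (nat_lit 78) (nat_lit 0) (nat_lit 0) (XT.lf (nat_lit 0) (nat_lit 51348121599) (nat_lit 76) (nat_lit 101415735006) (nat_lit 76) (nat_lit 74775971717) (nat_lit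 6) (nat_lit 4) (nat_lit 7) (nat_lit 5) (nat_lit 7) (nat_lit 4) (nat_lit 411) (nat_lit 350) (nat_lit 259)) (XT.lf (nat_lit 0) (nat_lit 108035584186) (nat_lit 76) (nat_lit 81120734139) (nat_lit 76) (nat_lit 54479175993) (nat_lit 6) (nat_lit 4) (nat_lit 7) (nat_lit 5) (nat_lit 7) (nat_lit 4) (nat_lit 412) (nat_lit 350) (nat_lit 258))))) (XT.nd (nat_lit 156) (nat_lit 152) (nat_lit 0) (XT.nd (nat_lit 78) (nat_lit 0) (nat_lit 0) (XT.lf (nat_lit 0) (nat_lit 169251239190) (nat_lit 76) (nat_lit 59205533599) (nat_lit 76) (nat_lit 32562313549) (nat_lit 6) (nat_lit 4) (nat_lit 7) (nat_lit 5) (nat_lit 7) (nat_lit 4) (nat_lit 413) (nat_lit 350) (nat_lit 257)) (XT.lf (nat_lit 0) (nat_lit 235357846046) (nat_lit 76) (nat_lit 35540265533) (nat_lit 76) (nat_lit 8895506683) (nat_lit 6) (nat_lit 4) (nat_lit 7) (nat_lit 5) (nat_lit 7) (nat_lit 4) (nat_lit 414) (nat_lit 350) (nat_lit 256))) (XT.nd (nat_lit 78)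 (nat_lit 0) (nat_lit 0) (XT.lf (nat_lit 0) (nat_lit 6606579614) (nat_lit 76) (nat_lit 9380325808) (nat_lit 152) (nat_lit 284038673336) (nat_lit 4) (nat_lit 5) (nat_lit 5) (nat_lit 5) (nat_lit 6) (nat_lit 4) (nat_lit 415) (nat_lit 350) (nat_lit 255)) (XT.nd (nat_lit 78) (nat_lit 0) (nat_lit 0) (XT.lf (nat_lit 0) (nat_lit 44076730244) (nat_lit 152) (nat_lit 258241972914) (nat_lit 0) (nat_lit 19403116413) (nat_lit 4) (nat_lit 5) (nat_lit 6) (nat_lit 4) (nat_lit 4) (nat_lit 4) (nat_lit 416) (nat_lit 350) (nat_lit 254)) (XT.lf (nat_lit 0) (nat_lit 74654623189) (nat_lit 152) (nat_lit 220499987877) (nat_lit 0) (nat_lit 49979878294) (nat_lit 4) (nat_lit 5) (nat_lit 6) (nat_lit 4) (nat_lit 4) (nat_lit 4) (nat_lit 417) (nat_lit 350) (nat_lit 253))))))))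
noncomputable def xc125 : XT := (XT.nd (nat_lit 1482) (nat_lit 0) (nat_lit 0) (XT.nd (nat_lit 702) (nat_lit 152) (nat_lit 0) (XT.nd (nat_lit 312) (nat_lit 76) (nat_lit 0) (XT.nd (nat_lit 156) (nat_lit 0) (nat_lit 0) (XT.nd (nat_lit 78) (nat_lit 0) (nat_lit 0) (XT.lf (nat_lit 0) (nat_lit 107676189522) (nat_lit 152) (nat_lit 179743790763) (nat_lit 0) (nat_lit 83000397345) (nat_lit 4) (nat_lit 5) (nat_lit 6) (nat_lit 4) (nat_lit 4) (nat_lit 4) (nat_lit 418) (nat_lit 350) (nat_lit 252)) (XT.lf (nat_lit 0) (nat_lit 143337112600) (nat_lit 152) (nat_lit 135731863369) (nat_lit 0) (nat_lit 118660350719) (nat_lit 4) (nat_lit 5) (nat_lit 6) (nat_lit 4) (nat_lit 4) (nat_lit 4) (nat_lit 419) (nat_lit 350) (nat_lit 251))) (XT.nd (nat_lit 78) (nat_lit 0) (nat_lit 0) (XT.lf (nat_lit 0) (nat_lit 181848716412) (nat_lit 152) (nat_lit 88203394272) (nat_lit 0) (nat_lit 157171056656) (nat_lit 4) (nat_lit 5)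 (nat_lit 6) (nat_lit 4) (nat_lit 4) (nat_lit 4) (nat_lit 420) (nat_lit 350) (nat_lit 250)) (XT.lf (nat_lit 0) (nat_lit 223439217870) (nat_lit 152) (nat_lit 36876733284) (nat_lit 0) (nat_lit 198760726747) (nat_lit 4) (nat_lit 5) (nat_lit 6) (nat_lit 4) (nat_lit 4) (nat_lit 4) (nat_lit 421) (nat_lit 350) (nat_lit 249)))) (XT.nd (nat_lit 156) (nat_lit 0) (nat_lit 0) (XT.nd (nat_lit 78) (nat_lit 0) (nat_lit 0) (XT.lf (nat_lit 0) (nat_lit 19529207643) (nat_lit 76) (nat_lit 249295549473) (nat_lit 76) (nat_lit 224616288567) (nat_lit 3) (nat_lit 4) (nat_lit 4) (nat_lit 5) (nat_lit 4) (nat_lit 4) (nat_lit 422) (nat_lit 350) (nat_lit 248)) (XT.lf (nat_lit 0) (nat_lit 82541149118) (nat_lit 76) (nat_lit 236306435983) (nat_lit 76) (nat_lit 211626462315) (nat_lit 3) (nat_lit 4) (nat_lit 4) (nat_lit 5) (nat_lit 4) (nat_lit 4) (nat_lit 423) (nat_lit 350) (nat_lit 247))) (XT.nd (nat_lit 78) (nat_lit 0)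 (nat_lit 0) (XT.lf (nat_lit 0) (nat_lit 150590631812) (nat_lit 76) (nat_lit 222279913399) (nat_lit 76) (nat_lit 197599279767) (nat_lit 3) (nat_lit 4) (nat_lit 4) (nat_lit 5) (nat_lit 4) (nat_lit 4) (nat_lit 424) (nat_lit 350) (nat_lit 246)) (XT.nd (nat_lit 78) (nat_lit 0) (nat_lit 0) (XT.lf (nat_lit 0) (nat_lit 224080911920) (nat_lit 76) (nat_lit 207132861589) (nat_lit 76) (nat_lit 182451616878) (nat_lit 3) (nat_lit 4) (nat_lit 4) (nat_lit 5) (nat_lit 4) (nat_lit 4) (nat_lit 425) (nat_lit 350) (nat_lit 245)) (XT.lf (nat_lit 0) (nat_lit 303447487398) (nat_lit 76) (nat_lit 190775520243) (nat_lit 76) (nat_lit 166093709719) (nat_lit 3) (nat_lit 4) (nat_lit 4) (nat_lit 5) (nat_lit 4) (nat_lit 4) (nat_lit 426) (nat_lit 350) (nat_lit 244)))))) (XT.nd (nat_lit 390) (nat_lit 152) (nat_lit 0) (XT.nd (nat_lit 156) (nat_lit 0) (nat_lit 0) (XT.nd (nat_lit 78) (nat_lit 0) (nat_lit 0) (XT.lf (nat_lit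 0) (nat_lit 389160678693) (nat_lit 76) (nat_lit 173110956971) (nat_lit 76) (nat_lit 148428622545) (nat_lit 3) (nat_lit 4) (nat_lit 4) (nat_lit 5) (nat_lit 4) (nat_lit 4) (nat_lit 427) (nat_lit 350) (nat_lit 243)) (XT.lf (nat_lit 0) (nat_lit 481728415828) (nat_lit 76) (nat_lit 154034492877) (nat_lit 76) (nat_lit 129351673357) (nat_lit 3) (nat_lit 4) (nat_lit 4) (nat_lit 5) (nat_lit 4) (nat_lit 4) (nat_lit 428) (nat_lit 350) (nat_lit 242))) (XT.nd (nat_lit 78) (nat_lit 0) (nat_lit 0) (XT.lf (nat_lit 0) (nat_lit 581699248356) (nat_lit 76) (nat_lit 133433082249) (nat_lit 76) (nat_lit 108749813568) (nat_lit 3) (nat_lit 4) (nat_lit 4) (nat_lit 5) (nat_lit 4) (nat_lit 4) (nat_lit 429) (nat_lit 350) (nat_lit 241)) (XT.nd (nat_lit 78) (nat_lit 0) (nat_lit 0) (XT.lf (nat_lit 0) (nat_lit 689665596026) (nat_lit 76) (nat_lit 111184642654) (nat_lit 76) (nat_lit 86500958083) (nat_lit 3) (nat_lit 4) (nat_lit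 4) (nat_lit 5) (nat_lit 4) (nat_lit 4) (nat_lit 430) (nat_lit 350) (nat_lit 240)) (XT.lf (nat_lit 0) (nat_lit 806267259415) (nat_lit 76) (nat_lit 87157331486) (nat_lit 76) (nat_lit 62473261832) (nat_lit 3) (nat_lit 4) (nat_lit 4) (nat_lit 5) (nat_lit 4) (nat_lit 4) (nat_lit 431) (nat_lit 350) (nat_lit 239))))) (XT.nd (nat_lit 156) (nat_lit 152) (nat_lit 0) (XT.nd (nat_lit 78) (nat_lit 0) (nat_lit 0) (XT.lf (nat_lit 0) (nat_lit 932195211345) (nat_lit 76) (nat_lit 61208764679) (nat_lit 76) (nat_lit 36524338466) (nat_lit 3) (nat_lit 4) (nat_lit 4) (nat_lit 5) (nat_lit 4) (nat_lit 4) (nat_lit 432) (nat_lit 350) (nat_lit 238)) (XT.lf (nat_lit 0) (nat_lit 1068195691530) (nat_lit 76) (nat_lit 33185172949) (nat_lit 76) (nat_lit 8500416590) (nat_lit 3) (nat_lit 4) (nat_lit 4) (nat_lit 5) (nat_lit 4) (nat_lit 4) (nat_lit 433) (nat_lit 350) (nat_lit 237))) (XT.nd (nat_lit 78) (nat_lit 0) (nat_lit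 0) (XT.lf (nat_lit 0) (nat_lit 19285375013) (nat_lit 76) (nat_lit 1854258190) (nat_lit 152) (nat_lit 1175011934446) (nat_lit 1) (nat_lit 5) (nat_lit 2) (nat_lit 5) (nat_lit 3) (nat_lit 4) (nat_lit 434) (nat_lit 350) (nat_lit 236)) (XT.nd (nat_lit 78) (nat_lit 0) (nat_lit 0) (XT.lf (nat_lit 0) (nat_lit 54629397928) (nat_lit 152) (nat_lit 1202748798838) (nat_lit 0) (nat_lit 31772596911) (nat_lit 1) (nat_lit 5) (nat_lit 3) (nat_lit 4) (nat_lit 1) (nat_lit 4) (nat_lit 435) (nat_lit 350) (nat_lit 235)) (XT.lf (nat_lit 0) (nat_lit 90845763048) (nat_lit 152) (nat_lit 1230751681899) (nat_lit 0) (nat_lit 67988719364) (nat_lit 1) (nat_lit 5) (nat_lit 3) (nat_lit 4) (nat_lit 1) (nat_lit 4) (nat_lit 436) (nat_lit 350) (nat_lit 234))))))) (XT.nd (nat_lit 780) (nat_lit 0) (nat_lit 0) (XT.nd (nat_lit 390) (nat_lit 0) (nat_lit 0) (XT.nd (nat_lit 156) (nat_lit 0) (nat_lit 0) (XT.nd (nat_lit 78) (nat_lit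 0) (nat_lit 0) (XT.lf (nat_lit 0) (nat_lit 129958749108) (nat_lit 152) (nat_lit 1260996189874) (nat_lit 0) (nat_lit 107101480731) (nat_lit 1) (nat_lit 5) (nat_lit 3) (nat_lit 4) (nat_lit 1) (nat_lit 4) (nat_lit 437) (nat_lit 350) (nat_lit 233)) (XT.lf (nat_lit 0) (nat_lit 172200136764) (nat_lit 152) (nat_lit 1293661549477) (nat_lit 0) (nat_lit 149342660338) (nat_lit 1) (nat_lit 5) (nat_lit 3) (nat_lit 4) (nat_lit 1) (nat_lit 4) (nat_lit 438) (nat_lit 350) (nat_lit 232))) (XT.nd (nat_lit 78) (nat_lit 0) (nat_lit 0) (XT.lf (nat_lit 0) (nat_lit 217820245351) (nat_lit 152) (nat_lit 1328941333211) (nat_lit 0) (nat_lit 194962576288) (nat_lit 1) (nat_lit 5) (nat_lit 3) (nat_lit 4) (nat_lit 1) (nat_lit 4) (nat_lit 439) (nat_lit 350) (nat_lit 231)) (XT.nd (nat_lit 78) (nat_lit 0) (nat_lit 0) (XT.lf (nat_lit 0) (nat_lit 267089416254) (nat_lit 152) (nat_lit 1367044606460) (nat_lit 0) (nat_lit 244231568823)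 (nat_lit 1) (nat_lit 5) (nat_lit 3) (nat_lit 4) (nat_lit 1) (nat_lit 4) (nat_lit 440) (nat_lit 350) (nat_lit 230)) (XT.lf (nat_lit 0) (nat_lit 320299614929) (nat_lit 152) (nat_lit 1408197166398) (nat_lit 0) (nat_lit 297441602343) (nat_lit 1) (nat_lit 5) (nat_lit 3) (nat_lit 4) (nat_lit 1) (nat_lit 4) (nat_lit 441) (nat_lit 350) (nat_lit 229))))) (XT.nd (nat_lit 156) (nat_lit 0) (nat_lit 0) (XT.nd (nat_lit 78) (nat_lit 0) (nat_lit 0) (XT.lf (nat_lit 0) (nat_lit 377766161073) (nat_lit 152) (nat_lit 1452642880048) (nat_lit 0) (nat_lit 354907995565) (nat_lit 1) (nat_lit 5) (nat_lit 3) (nat_lit 4) (nat_lit 1) (nat_lit 4) (nat_lit 442) (nat_lit 350) (nat_lit 228)) (XT.lf (nat_lit 0) (nat_lit 439829597181) (nat_lit 152) (nat_lit 1500645129417) (nat_lit 0) (nat_lit 416971290079) (nat_lit 1) (nat_lit 5) (nat_lit 3) (nat_lit 4) (nat_lit 1) (nat_lit 4) (nat_lit 443) (nat_lit 350) (nat_lit 227)))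 (XT.nd (nat_lit 78) (nat_lit 0) (nat_lit 0) (XT.lf (nat_lit 0) (nat_lit 506857706579) (nat_lit 152) (nat_lit 1552488372278) (nat_lit 0) (nat_lit 483999268370) (nat_lit 1) (nat_lit 5) (nat_lit 3) (nat_lit 4) (nat_lit 1) (nat_lit 4) (nat_lit 444) (nat_lit 350) (nat_lit 226)) (XT.nd (nat_lit 78) (nat_lit 0) (nat_lit 0) (XT.lf (nat_lit 0) (nat_lit 579247692876) (nat_lit 152) (nat_lit 1608479827849) (nat_lit 0) (nat_lit 556389133273) (nat_lit 1) (nat_lit 5) (nat_lit 3) (nat_lit 4) (nat_lit 1) (nat_lit 4) (nat_lit 445) (nat_lit 350) (nat_lit 225)) (XT.lf (nat_lit 0) (nat_lit 657428533771) (nat_lit 152) (nat_lit 1668951297347) (nat_lit 0) (nat_lit 634569861766) (nat_lit 1) (nat_lit 5) (nat_lit 3) (nat_lit 4) (nat_lit 1) (nat_lit 4) (nat_lit 446) (nat_lit 350) (nat_lit 224)))))) (XT.nd (nat_lit 390) (nat_lit 0) (nat_lit 0) (XT.nd (nat_lit 156) (nat_lit 0) (nat_lit 0) (XT.nd (nat_lit 78) (nat_lit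 0) (nat_lit 0) (XT.lf (nat_lit 0) (nat_lit 741863523135) (nat_lit 152) (nat_lit 1734261130222) (nat_lit 0) (nat_lit 719004747054) (nat_lit 1) (nat_lit 5) (nat_lit 3) (nat_lit 4) (nat_lit 1) (nat_lit 4) (nat_lit 447) (nat_lit 350) (nat_lit 223)) (XT.lf (nat_lit 0) (nat_lit 833053016460) (nat_lit 152) (nat_lit 1804796347706) (nat_lit 0) (nat_lit 810194144013) (nat_lit 1) (nat_lit 5) (nat_lit 3) (nat_lit 4) (nat_lit 1) (nat_lit 4) (nat_lit 448) (nat_lit 350) (nat_lit 222))) (XT.nd (nat_lit 78) (nat_lit 0) (nat_lit 0) (XT.lf (nat_lit 0) (nat_lit 931537395930) (nat_lit 152) (nat_lit 1880974936271) (nat_lit 0) (nat_lit 908678434254) (nat_lit 1) (nat_lit 5) (nat_lit 3) (nat_lit 4) (nat_lit 1) (nat_lit 4) (nat_lit 449) (nat_lit 350) (nat_lit 221)) (XT.nd (nat_lit 78) (nat_lit 0) (nat_lit 0) (XT.lf (nat_lit 0) (nat_lit 1037900272681) (nat_lit 152) (nat_lit 1963248324593) (nat_lit 0) (nat_lit 1015041228386)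 (nat_lit 1) (nat_lit 5) (nat_lit 3) (nat_lit 4) (nat_lit 1) (nat_lit 4) (nat_lit 450) (nat_lit 350) (nat_lit 220)) (XT.lf (nat_lit 0) (nat_lit 1152771945243) (nat_lit 152) (nat_lit 2052104058674) (nat_lit 0) (nat_lit 1129912824449) (nat_lit 1) (nat_lit 5) (nat_lit 3) (nat_lit 4) (nat_lit 1) (nat_lit 4) (nat_lit 451) (nat_lit 350) (nat_lit 219))))) (XT.nd (nat_lit 156) (nat_lit 0) (nat_lit 0) (XT.nd (nat_lit 78) (nat_lit 0) (nat_lit 0) (XT.lf (nat_lit 0) (nat_lit 1276833134639) (nat_lit 152) (nat_lit 2148068691014) (nat_lit 0) (nat_lit 1253973943012) (nat_lit 1) (nat_lit 5) (nat_lit 3) (nat_lit 4) (nat_lit 1) (nat_lit 4) (nat_lit 452) (nat_lit 350) (nat_lit 218)) (XT.lf (nat_lit 0) (nat_lit 1410819018286) (nat_lit 152) (nat_lit 2251710900915) (nat_lit 0) (nat_lit 1387959761074) (nat_lit 1) (nat_lit 5) (nat_lit 3) (nat_lit 4) (nat_lit 1) (nat_lit 4) (nat_lit 453) (nat_lit 350) (nat_lit 217)))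 (XT.nd (nat_lit 78) (nat_lit 0) (nat_lit 0) (XT.lf (nat_lit 0) (nat_lit 1555523586607) (nat_lit 152) (nat_lit 2363644864437) (nat_lit 0) (nat_lit 1532664268668) (nat_lit 1) (nat_lit 5) (nat_lit 3) (nat_lit 4) (nat_lit 1) (nat_lit 4) (nat_lit 454) (nat_lit 350) (nat_lit 216)) (XT.nd (nat_lit 78) (nat_lit 0) (nat_lit 0) (XT.lf (nat_lit 0) (nat_lit 1711804348155) (nat_lit 152) (nat_lit 2484533893954) (nat_lit 0) (nat_lit 1688944973986) (nat_lit 1) (nat_lit 5) (nat_lit 3) (nat_lit 4) (nat_lit 1) (nat_lit 4) (nat_lit 455) (nat_lit 350) (nat_lit 215)) (XT.lf (nat_lit 0) (nat_lit 1880587411145) (nat_lit 152) (nat_lit 2615094368902) (nat_lit 0) (nat_lit 1857727984913) (nat_lit 1) (nat_lit 5) (nat_lit 3) (nat_lit 4) (nat_lit 1) (nat_lit 4) (nat_lit 456) (nat_lit 350) (nat_lit 214))))))))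
noncomputable def xc126 : XT := (XT.nd (nat_lit 46176) (nat_lit 0) (nat_lit 1368) (XT.nd (nat_lit 45396) (nat_lit 0) (nat_lit 2964) (XT.nd (nat_lit 45006) (nat_lit 0) (nat_lit 4636) (XT.nd (nat_lit 44850) (nat_lit 0) (nat_lit 4560) (XT.nd (nat_lit 78) (nat_lit 0) (nat_lit 0) (XT.lf (nat_lit 0) (nat_lit 2062872971508) (nat_lit 152) (nat_lit 2756099980984) (nat_lit 0) (nat_lit 2040013497068) (nat_lit 1) (nat_lit 5) (nat_lit 3) (nat_lit 4) (nat_lit 1) (nat_lit 4) (nat_lit 457) (nat_lit 350) (nat_lit 213)) (XT.lf (nat_lit 0) (nat_lit 2259741239971) (nat_lit 152) (nat_lit 2908386319013) (nat_lit 0) (nat_lit 2236881720894) (nat_lit 1) (nat_lit 5) (nat_lit 3) (nat_lit 4) (nat_lit 1) (nat_lit 4) (nat_lit 458) (nat_lit 350) (nat_lit 212))) (XT.nd (nat_lit 78) (nat_lit 0) (nat_lit 0) (XT.lf (nat_lit 0) (nat_lit 1046908466) (nat_lit 532) (nat_lit 1969321510) (nat_lit 532) (nat_lit 1969321510) (nat_lit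 61) (nat_lit 3) (nat_lit 68) (nat_lit 3) (nat_lit 68) (nat_lit 5) (nat_lit 351) (nat_lit 351) (nat_lit 318)) (XT.lf (nat_lit 76) (nat_lit 919226930) (nat_lit 0) (nat_lit 1958348535) (nat_lit 532) (nat_lit 7435543143) (nat_lit 62) (nat_lit 5) (nat_lit 61) (nat_lit 3) (nat_lit 68) (nat_lit 5) (nat_lit 352) (nat_lit 351) (nat_lit 317)))) (XT.nd (nat_lit 156) (nat_lit 0) (nat_lit 76) (XT.nd (nat_lit 78) (nat_lit 0) (nat_lit 0) (XT.lf (nat_lit 0) (nat_lit 3825218558) (nat_lit 456) (nat_lit 4390584011) (nat_lit 532) (nat_lit 2458681053) (nat_lit 62) (nat_lit 5) (nat_lit 68) (nat_lit 5) (nat_lit 69) (nat_lit 5) (nat_lit 353) (nat_lit 351) (nat_lit 316)) (XT.lf (nat_lit 76) (nat_lit 969018138) (nat_lit 0) (nat_lit 3890839513) (nat_lit 532) (nat_lit 6204082130) (nat_lit 63) (nat_lit 5) (nat_lit 62) (nat_lit 5) (nat_lit 69) (nat_lit 5) (nat_lit 354) (nat_lit 351) (nat_lit 315))) (XT.nd (nat_lit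 78) (nat_lit 0) (nat_lit 0) (XT.lf (nat_lit 0) (nat_lit 6060350122) (nat_lit 456) (nat_lit 4535535483) (nat_lit 532) (nat_lit 882091269) (nat_lit 63) (nat_lit 5) (nat_lit 69) (nat_lit 5) (nat_lit 70) (nat_lit 5) (nat_lit 355) (nat_lit 351) (nat_lit 314)) (XT.nd (nat_lit 78) (nat_lit 0) (nat_lit 0) (XT.lf (nat_lit 76) (nat_lit 1394920740) (nat_lit 0) (nat_lit 6042084613) (nat_lit 532) (nat_lit 4481787475) (nat_lit 64) (nat_lit 5) (nat_lit 63) (nat_lit 5) (nat_lit 70) (nat_lit 5) (nat_lit 356) (nat_lit 351) (nat_lit 313)) (XT.lf (nat_lit 76) (nat_lit 8016427148) (nat_lit 0) (nat_lit 979932202) (nat_lit 532) (nat_lit 3392770293) (nat_lit 64) (nat_lit 5) (nat_lit 63) (nat_lit 5) (nat_lit 70) (nat_lit 5) (nat_lit 357) (nat_lit 351) (nat_lit 312)))))) (XT.nd (nat_lit 390) (nat_lit 684) (nat_lit 0) (XT.nd (nat_lit 156) (nat_lit 684) (nat_lit 0) (XT.nd (nat_lit 78) (nat_lit 0) (nat_lit 0) (XT.lf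 (nat_lit 0) (nat_lit 2231936781) (nat_lit 456) (nat_lit 8562712773) (nat_lit 532) (nat_lit 2093365198) (nat_lit 58) (nat_lit 5) (nat_lit 64) (nat_lit 5) (nat_lit 65) (nat_lit 5) (nat_lit 358) (nat_lit 351) (nat_lit 311)) (XT.lf (nat_lit 0) (nat_lit 9545548604) (nat_lit 456) (nat_lit 3290731634) (nat_lit 532) (nat_lit 582624454) (nat_lit 58) (nat_lit 5) (nat_lit 64) (nat_lit 5) (nat_lit 65) (nat_lit 5) (nat_lit 359) (nat_lit 351) (nat_lit 310))) (XT.nd (nat_lit 78) (nat_lit 228) (nat_lit 0) (XT.lf (nat_lit 0) (nat_lit 1100266582) (nat_lit 456) (nat_lit 10483026471) (nat_lit 76) (nat_lit 2398698097) (nat_lit 52) (nat_lit 5) (nat_lit 58) (nat_lit 5) (nat_lit 53) (nat_lit 5) (nat_lit 360) (nat_lit 351) (nat_lit 309)) (XT.nd (nat_lit 78) (nat_lit 228) (nat_lit 0) (XT.lf (nat_lit 0) (nat_lit 3039987753) (nat_lit 456) (nat_lit 3046454205) (nat_lit 76) (nat_lit 8490219304) (nat_lit 52) (nat_lit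 5) (nat_lit 58) (nat_lit 5) (nat_lit 53) (nat_lit 5) (nat_lit 361) (nat_lit 351) (nat_lit 308)) (XT.lf (nat_lit 0) (nat_lit 5205833962) (nat_lit 228) (nat_lit 16796579) (nat_lit 304) (nat_lit 9989293299) (nat_lit 49) (nat_lit 5) (nat_lit 52) (nat_lit 5) (nat_lit 53) (nat_lit 5) (nat_lit 362) (nat_lit 351) (nat_lit 307))))) (XT.nd (nat_lit 156) (nat_lit 456) (nat_lit 0) (XT.nd (nat_lit 78) (nat_lit 228) (nat_lit 0) (XT.lf (nat_lit 0) (nat_lit 7786909591) (nat_lit 304) (nat_lit 1800632252) (nat_lit 76) (nat_lit 6293939125) (nat_lit 49) (nat_lit 5) (nat_lit 53) (nat_lit 5) (nat_lit 50) (nat_lit 5) (nat_lit 363) (nat_lit 351) (nat_lit 306)) (XT.lf (nat_lit 0) (nat_lit 7392249770) (nat_lit 228) (nat_lit 3309261156) (nat_lit 304) (nat_lit 5891510239) (nat_lit 46) (nat_lit 5) (nat_lit 49) (nat_lit 5) (nat_lit 50) (nat_lit 5) (nat_lit 364) (nat_lit 351) (nat_lit 305))) (XT.nd (nat_lit 78) (nat_lit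 456) (nat_lit 0) (XT.lf (nat_lit 0) (nat_lit 13951642030) (nat_lit 304) (nat_lit 59146031) (nat_lit 76) (nat_lit 3342538046) (nat_lit 46) (nat_lit 5) (nat_lit 50) (nat_lit 5) (nat_lit 47) (nat_lit 5) (nat_lit 365) (nat_lit 351) (nat_lit 304)) (XT.nd (nat_lit 78) (nat_lit 304) (nat_lit 0) (XT.lf (nat_lit 0) (nat_lit 10201310998) (nat_lit 152) (nat_lit 7562478496) (nat_lit 228) (nat_lit 386533683) (nat_lit 44) (nat_lit 5) (nat_lit 46) (nat_lit 5) (nat_lit 47) (nat_lit 5) (nat_lit 366) (nat_lit 351) (nat_lit 303)) (XT.lf (nat_lit 0) (nat_lit 2282686610) (nat_lit 228) (nat_lit 471402849) (nat_lit 304) (nat_lit 16249267485) (nat_lit 40) (nat_lit 5) (nat_lit 43) (nat_lit 5) (nat_lit 44) (nat_lit 5) (nat_lit 367) (nat_lit 351) (nat_lit 302))))))) (XT.nd (nat_lit 780) (nat_lit 760) (nat_lit 0) (XT.nd (nat_lit 390) (nat_lit 456) (nat_lit 0) (XT.nd (nat_lit 156) (nat_lit 228) (nat_lit 0) (XT.nd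 (nat_lit 78) (nat_lit 152) (nat_lit 0) (XT.lf (nat_lit 0) (nat_lit 6493208278) (nat_lit 304) (nat_lit 6349303819) (nat_lit 76) (nat_lit 7051890224) (nat_lit 40) (nat_lit 5) (nat_lit 44) (nat_lit 5) (nat_lit 41) (nat_lit 5) (nat_lit 368) (nat_lit 351) (nat_lit 301)) (XT.lf (nat_lit 0) (nat_lit 5056829085) (nat_lit 152) (nat_lit 5582837563) (nat_lit 228) (nat_lit 10208428607) (nat_lit 38) (nat_lit 5) (nat_lit 40) (nat_lit 5) (nat_lit 41) (nat_lit 5) (nat_lit 369) (nat_lit 351) (nat_lit 300))) (XT.nd (nat_lit 78) (nat_lit 228) (nat_lit 0) (XT.lf (nat_lit 0) (nat_lit 15325416070) (nat_lit 228) (nat_lit 4222957547) (nat_lit 76) (nat_lit 2313123253) (nat_lit 38) (nat_lit 5) (nat_lit 41) (nat_lit 5) (nat_lit 39) (nat_lit 5) (nat_lit 370) (nat_lit 351) (nat_lit 299)) (XT.nd (nat_lit 78) (nat_lit 76) (nat_lit 0) (XT.lf (nat_lit 0) (nat_lit 8518121202) (nat_lit 152) (nat_lit 12194781846) (nat_lit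 228) (nat_lit 2216935129) (nat_lit 36) (nat_lit 5) (nat_lit 38) (nat_lit 5) (nat_lit 39) (nat_lit 5) (nat_lit 371) (nat_lit 351) (nat_lit 298)) (XT.lf (nat_lit 0) (nat_lit 2421087935) (nat_lit 228) (nat_lit 1651777581) (nat_lit 76) (nat_lit 19998423713) (nat_lit 35) (nat_lit 5) (nat_lit 38) (nat_lit 5) (nat_lit 36) (nat_lit 5) (nat_lit 372) (nat_lit 351) (nat_lit 297))))) (XT.nd (nat_lit 156) (nat_lit 152) (nat_lit 0) (XT.nd (nat_lit 78) (nat_lit 152) (nat_lit 0) (XT.lf (nat_lit 0) (nat_lit 7716356842) (nat_lit 228) (nat_lit 12725176357) (nat_lit 76) (nat_lit 4825452572) (nat_lit 33) (nat_lit 5) (nat_lit 36) (nat_lit 5) (nat_lit 34) (nat_lit 5) (nat_lit 373) (nat_lit 351) (nat_lit 296)) (XT.lf (nat_lit 0) (nat_lit 1337868964) (nat_lit 152) (nat_lit 12261244928) (nat_lit 228) (nat_lit 12946127877) (nat_lit 31) (nat_lit 5) (nat_lit 33) (nat_lit 5) (nat_lit 34) (nat_lit 5) (nat_lit 374) (nat_lit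 351) (nat_lit 295))) (XT.nd (nat_lit 78) (nat_lit 152) (nat_lit 0) (XT.lf (nat_lit 0) (nat_lit 17218273653) (nat_lit 152) (nat_lit 3062472269) (nat_lit 228) (nat_lit 7618764069) (nat_lit 31) (nat_lit 5) (nat_lit 33) (nat_lit 5) (nat_lit 34) (nat_lit 5) (nat_lit 375) (nat_lit 351) (nat_lit 294)) (XT.nd (nat_lit 78) (nat_lit 76) (nat_lit 0) (XT.lf (nat_lit 0) (nat_lit 5064816947) (nat_lit 76) (nat_lit 22700699491) (nat_lit 152) (nat_lit 1575125797) (nat_lit 30) (nat_lit 5) (nat_lit 31) (nat_lit 5) (nat_lit 32) (nat_lit 4) (nat_lit 376) (nat_lit 351) (nat_lit 293)) (XT.lf (nat_lit 0) (nat_lit 5065167531) (nat_lit 152) (nat_lit 8432388589) (nat_lit 76) (nat_lit 17361120217) (nat_lit 29) (nat_lit 5) (nat_lit 31) (nat_lit 5) (nat_lit 30) (nat_lit 5) (nat_lit 377) (nat_lit 351) (nat_lit 292)))))) (XT.nd (nat_lit 390) (nat_lit 304) (nat_lit 0) (XT.nd (nat_lit 156) (nat_lit 304) (nat_lit 0) (XT.nd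 (nat_lit 78) (nat_lit 0) (nat_lit 0) (XT.lf (nat_lit 0) (nat_lit 9062756452) (nat_lit 152) (nat_lit 3289853611) (nat_lit 228) (nat_lit 20126197130) (nat_lit 27) (nat_lit 5) (nat_lit 29) (nat_lit 5) (nat_lit 30) (nat_lit 5) (nat_lit 378) (nat_lit 351) (nat_lit 291)) (XT.lf (nat_lit 0) (nat_lit 20628995946) (nat_lit 228) (nat_lit 5993579314) (nat_lit 76) (nat_lit 7573505655) (nat_lit 27) (nat_lit 5) (nat_lit 30) (nat_lit 5) (nat_lit 28) (nat_lit 4) (nat_lit 379) (nat_lit 351) (nat_lit 290))) (XT.nd (nat_lit 78) (nat_lit 228) (nat_lit 0) (XT.lf (nat_lit 0) (nat_lit 13380138868) (nat_lit 76) (nat_lit 16579216634) (nat_lit 152) (nat_lit 6060039632) (nat_lit 26) (nat_lit 5) (nat_lit 27) (nat_lit 5) (nat_lit 28) (nat_lit 4) (nat_lit 380) (nat_lit 351) (nat_lit 289)) (XT.nd (nat_lit 78) (nat_lit 152) (nat_lit 0) (XT.lf (nat_lit 0) (nat_lit 2098019672) (nat_lit 152) (nat_lit 3410920022) (nat_lit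 76) (nat_lit 32463471559) (nat_lit 25) (nat_lit 5) (nat_lit 27) (nat_lit 5) (nat_lit 26) (nat_lit 5) (nat_lit 381) (nat_lit 351) (nat_lit 288)) (XT.lf (nat_lit 0) (nat_lit 11172156044) (nat_lit 228) (nat_lit 22127595584) (nat_lit 76) (nat_lit 6722064245) (nat_lit 23) (nat_lit 5) (nat_lit 26) (nat_lit 5) (nat_lit 24) (nat_lit 4) (nat_lit 382) (nat_lit 351) (nat_lit 287))))) (XT.nd (nat_lit 156) (nat_lit 228) (nat_lit 0) (XT.nd (nat_lit 78) (nat_lit 76) (nat_lit 0) (XT.lf (nat_lit 0) (nat_lit 21197093188) (nat_lit 228) (nat_lit 1300298148) (nat_lit 76) (nat_lit 19719797543) (nat_lit 23) (nat_lit 5) (nat_lit 26) (nat_lit 5) (nat_lit 24) (nat_lit 4) (nat_lit 383) (nat_lit 351) (nat_lit 286)) (XT.lf (nat_lit 0) (nat_lit 22284978804) (nat_lit 76) (nat_lit 10262128153) (nat_lit 152) (nat_lit 11999243422) (nat_lit 22) (nat_lit 5) (nat_lit 23) (nat_lit 5) (nat_lit 24) (nat_lit 4) (nat_lit 384)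 (nat_lit 351) (nat_lit 285))) (XT.nd (nat_lit 78) (nat_lit 152) (nat_lit 0) (XT.lf (nat_lit 0) (nat_lit 712585437) (nat_lit 76) (nat_lit 44204447334) (nat_lit 76) (nat_lit 2135863958) (nat_lit 21) (nat_lit 4) (nat_lit 22) (nat_lit 5) (nat_lit 22) (nat_lit 4) (nat_lit 385) (nat_lit 351) (nat_lit 284)) (XT.nd (nat_lit 78) (nat_lit 76) (nat_lit 0) (XT.lf (nat_lit 0) (nat_lit 8968951822) (nat_lit 152) (nat_lit 23431224607) (nat_lit 76) (nat_lit 17273136540) (nat_lit 20) (nat_lit 5) (nat_lit 22) (nat_lit 5) (nat_lit 21) (nat_lit 4) (nat_lit 386) (nat_lit 351) (nat_lit 283)) (XT.lf (nat_lit 0) (nat_lit 1298541029) (nat_lit 76) (nat_lit 19567761181) (nat_lit 152) (nat_lit 31631062637) (nat_lit 19) (nat_lit 5) (nat_lit 20) (nat_lit 5) (nat_lit 21) (nat_lit 4) (nat_lit 387) (nat_lit 351) (nat_lit 282))))))))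
noncomputable def xc127 : XT := (XT.nd (nat_lit 1482) (nat_lit 456) (nat_lit 0) (XT.nd (nat_lit 702) (nat_lit 304) (nat_lit 0) (XT.nd (nat_lit 312) (nat_lit 304) (nat_lit 0) (XT.nd (nat_lit 156) (nat_lit 76) (nat_lit 0) (XT.nd (nat_lit 78) (nat_lit 76) (nat_lit 0) (XT.lf (nat_lit 0) (nat_lit 29318258189) (nat_lit 76) (nat_lit 5026506317) (nat_lit 152) (nat_lit 21152233988) (nat_lit 19) (nat_lit 5) (nat_lit 20) (nat_lit 5) (nat_lit 21) (nat_lit 4) (nat_lit 388) (nat_lit 351) (nat_lit 281)) (XT.lf (nat_lit 0) (nat_lit 595894478) (nat_lit 76) (nat_lit 48566044607) (nat_lit 76) (nat_lit 9553832194) (nat_lit 18) (nat_lit 4) (nat_lit 19) (nat_lit 5) (nat_lit 19) (nat_lit 4) (nat_lit 389) (nat_lit 351) (nat_lit 280))) (XT.nd (nat_lit 78) (nat_lit 0) (nat_lit 0) (XT.lf (nat_lit 0) (nat_lit 3678018300) (nat_lit 152) (nat_lit 31374226377) (nat_lit 76) (nat_lit 27065743418) (nat_lit 17) (nat_lit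 5) (nat_lit 19) (nat_lit 5) (nat_lit 18) (nat_lit 4) (nat_lit 390) (nat_lit 351) (nat_lit 279)) (XT.lf (nat_lit 0) (nat_lit 17442397728) (nat_lit 152) (nat_lit 2755698676) (nat_lit 76) (nat_lit 45575225451) (nat_lit 17) (nat_lit 5) (nat_lit 19) (nat_lit 5) (nat_lit 18) (nat_lit 4) (nat_lit 391) (nat_lit 351) (nat_lit 278)))) (XT.nd (nat_lit 156) (nat_lit 228) (nat_lit 0) (XT.nd (nat_lit 78) (nat_lit 0) (nat_lit 0) (XT.lf (nat_lit 0) (nat_lit 29616610264) (nat_lit 76) (nat_lit 3394464085) (nat_lit 152) (nat_lit 36653758621) (nat_lit 16) (nat_lit 5) (nat_lit 17) (nat_lit 5) (nat_lit 18) (nat_lit 4) (nat_lit 392) (nat_lit 351) (nat_lit 277)) (XT.lf (nat_lit 0) (nat_lit 50248316733) (nat_lit 152) (nat_lit 9500319665) (nat_lit 0) (nat_lit 14085185073) (nat_lit 16) (nat_lit 5) (nat_lit 18) (nat_lit 4) (nat_lit 16) (nat_lit 4) (nat_lit 393) (nat_lit 351) (nat_lit 276))) (XT.nd (nat_lit 78) (nat_lit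 152) (nat_lit 0) (XT.lf (nat_lit 0) (nat_lit 24618732716) (nat_lit 76) (nat_lit 44917673205) (nat_lit 76) (nat_lit 8746175796) (nat_lit 15) (nat_lit 4) (nat_lit 16) (nat_lit 5) (nat_lit 16) (nat_lit 4) (nat_lit 394) (nat_lit 351) (nat_lit 275)) (XT.nd (nat_lit 78) (nat_lit 76) (nat_lit 0) (XT.lf (nat_lit 0) (nat_lit 7174261890) (nat_lit 152) (nat_lit 21256778740) (nat_lit 76) (nat_lit 54621544411) (nat_lit 14) (nat_lit 5) (nat_lit 16) (nat_lit 5) (nat_lit 15) (nat_lit 4) (nat_lit 395) (nat_lit 351) (nat_lit 274)) (XT.lf (nat_lit 0) (nat_lit 14211723750) (nat_lit 76) (nat_lit 10018151010) (nat_lit 152) (nat_lit 63929416766) (nat_lit 13) (nat_lit 5) (nat_lit 14) (nat_lit 5) (nat_lit 15) (nat_lit 4) (nat_lit 396) (nat_lit 351) (nat_lit 273)))))) (XT.nd (nat_lit 390) (nat_lit 76) (nat_lit 0) (XT.nd (nat_lit 156) (nat_lit 228) (nat_lit 0) (XT.nd (nat_lit 78) (nat_lit 0) (nat_lit 0) (XT.lf (nat_lit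 0) (nat_lit 43475874632) (nat_lit 152) (nat_lit 40168801330) (nat_lit 0) (nat_lit 9963785046) (nat_lit 13) (nat_lit 5) (nat_lit 15) (nat_lit 4) (nat_lit 13) (nat_lit 4) (nat_lit 397) (nat_lit 351) (nat_lit 272)) (XT.lf (nat_lit 0) (nat_lit 64514658631) (nat_lit 152) (nat_lit 3961783031) (nat_lit 0) (nat_lit 30996875457) (nat_lit 13) (nat_lit 5) (nat_lit 15) (nat_lit 4) (nat_lit 13) (nat_lit 4) (nat_lit 398) (nat_lit 351) (nat_lit 271))) (XT.nd (nat_lit 78) (nat_lit 152) (nat_lit 0) (XT.lf (nat_lit 0) (nat_lit 36978814044) (nat_lit 76) (nat_lit 51140491582) (nat_lit 76) (nat_lit 17617436568) (nat_lit 12) (nat_lit 4) (nat_lit 13) (nat_lit 5) (nat_lit 13) (nat_lit 4) (nat_lit 399) (nat_lit 351) (nat_lit 270)) (XT.nd (nat_lit 78) (nat_lit 76) (nat_lit 0) (XT.lf (nat_lit 0) (nat_lit 1160076795) (nat_lit 152) (nat_lit 31114976613) (nat_lit 76) (nat_lit 80215685290) (nat_lit 11) (nat_lit 5) (nat_lit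 13) (nat_lit 5) (nat_lit 12) (nat_lit 4) (nat_lit 400) (nat_lit 351) (nat_lit 269)) (XT.lf (nat_lit 0) (nat_lit 9547537556) (nat_lit 76) (nat_lit 11163997856) (nat_lit 152) (nat_lit 99019029412) (nat_lit 10) (nat_lit 5) (nat_lit 11) (nat_lit 5) (nat_lit 12) (nat_lit 4) (nat_lit 401) (nat_lit 351) (nat_lit 268))))) (XT.nd (nat_lit 156) (nat_lit 76) (nat_lit 0) (XT.nd (nat_lit 78) (nat_lit 0) (nat_lit 0) (XT.lf (nat_lit 0) (nat_lit 42973750797) (nat_lit 152) (nat_lit 72562790618) (nat_lit 0) (nat_lit 11921305373) (nat_lit 10) (nat_lit 5) (nat_lit 12) (nat_lit 4) (nat_lit 10) (nat_lit 4) (nat_lit 402) (nat_lit 351) (nat_lit 267)) (XT.lf (nat_lit 0) (nat_lit 67301324497) (nat_lit 152) (nat_lit 32233946062) (nat_lit 0) (nat_lit 36245291146) (nat_lit 10) (nat_lit 5) (nat_lit 12) (nat_lit 4) (nat_lit 10) (nat_lit 4) (nat_lit 403) (nat_lit 351) (nat_lit 266))) (XT.nd (nat_lit 78) (nat_lit 0) (nat_lit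 0) (XT.lf (nat_lit 0) (nat_lit 11906603068) (nat_lit 76) (nat_lit 81949676516) (nat_lit 76) (nat_lit 50890321012) (nat_lit 9) (nat_lit 4) (nat_lit 10) (nat_lit 5) (nat_lit 10) (nat_lit 4) (nat_lit 404) (nat_lit 351) (nat_lit 265)) (XT.nd (nat_lit 78) (nat_lit 0) (nat_lit 0) (XT.lf (nat_lit 0) (nat_lit 61401608428) (nat_lit 76) (nat_lit 62010321303) (nat_lit 76) (nat_lit 30947889731) (nat_lit 9) (nat_lit 4) (nat_lit 10) (nat_lit 5) (nat_lit 10) (nat_lit 4) (nat_lit 405) (nat_lit 351) (nat_lit 264)) (XT.lf (nat_lit 0) (nat_lit 114846991276) (nat_lit 76) (nat_lit 40480378988) (nat_lit 76) (nat_lit 9415099204) (nat_lit 9) (nat_lit 4) (nat_lit 10) (nat_lit 5) (nat_lit 10) (nat_lit 4) (nat_lit 406) (nat_lit 351) (nat_lit 263))))))) (XT.nd (nat_lit 780) (nat_lit 76) (nat_lit 0) (XT.nd (nat_lit 390) (nat_lit 228) (nat_lit 0) (XT.nd (nat_lit 156) (nat_lit 0) (nat_lit 0) (XT.nd (nat_lit 78) (nat_lit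 76) (nat_lit 0) (XT.lf (nat_lit 0) (nat_lit 13143536926) (nat_lit 152) (nat_lit 3729360209) (nat_lit 76) (nat_lit 159056560475) (nat_lit 8) (nat_lit 5) (nat_lit 10) (nat_lit 5) (nat_lit 9) (nat_lit 4) (nat_lit 407) (nat_lit 351) (nat_lit 262)) (XT.lf (nat_lit 0) (nat_lit 38399366129) (nat_lit 152) (nat_lit 139849867124) (nat_lit 0) (nat_lit 9630515297) (nat_lit 7) (nat_lit 5) (nat_lit 9) (nat_lit 4) (nat_lit 7) (nat_lit 4) (nat_lit 408) (nat_lit 351) (nat_lit 261))) (XT.nd (nat_lit 78) (nat_lit 0) (nat_lit 0) (XT.lf (nat_lit 0) (nat_lit 66214452405) (nat_lit 152) (nat_lit 97084999564) (nat_lit 0) (nat_lit 37443508053) (nat_lit 7) (nat_lit 5) (nat_lit 9) (nat_lit 4) (nat_lit 7) (nat_lit 4) (nat_lit 409) (nat_lit 351) (nat_lit 260)) (XT.nd (nat_lit 78) (nat_lit 0) (nat_lit 0) (XT.lf (nat_lit 0) (nat_lit 96250965814) (nat_lit 152) (nat_lit 50906482440) (nat_lit 0) (nat_lit 67478083016) (nat_lit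 7) (nat_lit 5) (nat_lit 9) (nat_lit 4) (nat_lit 7) (nat_lit 4) (nat_lit 410) (nat_lit 351) (nat_lit 259)) (XT.lf (nat_lit 0) (nat_lit 128686900509) (nat_lit 152) (nat_lit 1040665279) (nat_lit 0) (nat_lit 99912222855) (nat_lit 7) (nat_lit 5) (nat_lit 9) (nat_lit 4) (nat_lit 7) (nat_lit 4) (nat_lit 411) (nat_lit 351) (nat_lit 258))))) (XT.nd (nat_lit 156) (nat_lit 152) (nat_lit 0) (XT.nd (nat_lit 78) (nat_lit 0) (nat_lit 0) (XT.lf (nat_lit 0) (nat_lit 55588726280) (nat_lit 76) (nat_lit 109462653361) (nat_lit 76) (nat_lit 80686313803) (nat_lit 6) (nat_lit 4) (nat_lit 7) (nat_lit 5) (nat_lit 7) (nat_lit 4) (nat_lit 412) (nat_lit 351) (nat_lit 257)) (XT.lf (nat_lit 0) (nat_lit 116801352174) (nat_lit 76) (nat_lit 87548966531) (nat_lit 76) (nat_lit 58771088173) (nat_lit 6) (nat_lit 4) (nat_lit 7) (nat_lit 5) (nat_lit 7) (nat_lit 4) (nat_lit 413) (nat_lit 351) (nat_lit 256))) (XT.nd (nat_lit 78)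 (nat_lit 152) (nat_lit 0) (XT.lf (nat_lit 0) (nat_lit 182905154299) (nat_lit 76) (nat_lit 63885100047) (nat_lit 76) (nat_lit 35105796874) (nat_lit 6) (nat_lit 4) (nat_lit 7) (nat_lit 5) (nat_lit 7) (nat_lit 4) (nat_lit 414) (nat_lit 351) (nat_lit 255)) (XT.nd (nat_lit 78) (nat_lit 152) (nat_lit 0) (XT.lf (nat_lit 0) (nat_lit 254291858891) (nat_lit 76) (nat_lit 38330823590) (nat_lit 76) (nat_lit 9550201144) (nat_lit 6) (nat_lit 4) (nat_lit 7) (nat_lit 5) (nat_lit 7) (nat_lit 4) (nat_lit 415) (nat_lit 351) (nat_lit 254)) (XT.lf (nat_lit 0) (nat_lit 7240605441) (nat_lit 76) (nat_lit 10077879864) (nat_lit 152) (nat_lit 306704924123) (nat_lit 4) (nat_lit 5) (nat_lit 5) (nat_lit 5) (nat_lit 6) (nat_lit 4) (nat_lit 416) (nat_lit 351) (nat_lit 253)))))) (XT.nd (nat_lit 390) (nat_lit 76) (nat_lit 0) (XT.nd (nat_lit 156) (nat_lit 0) (nat_lit 0) (XT.nd (nat_lit 78) (nat_lit 0) (nat_lit 0) (XT.lf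 (nat_lit 0) (nat_lit 47652775166) (nat_lit 152) (nat_lit 278800920085) (nat_lit 0) (nat_lit 21001872335) (nat_lit 4) (nat_lit 5) (nat_lit 6) (nat_lit 4) (nat_lit 4) (nat_lit 4) (nat_lit 417) (nat_lit 351) (nat_lit 252)) (XT.lf (nat_lit 0) (nat_lit 80673202768) (nat_lit 152) (nat_lit 238047014071) (nat_lit 0) (nat_lit 54021330231) (nat_lit 4) (nat_lit 5) (nat_lit 6) (nat_lit 4) (nat_lit 4) (nat_lit 4) (nat_lit 418) (nat_lit 351) (nat_lit 251))) (XT.nd (nat_lit 78) (nat_lit 0) (nat_lit 0) (XT.lf (nat_lit 0) (nat_lit 116333071465) (nat_lit 152) (nat_lit 194037208066) (nat_lit 0) (nat_lit 89680301054) (nat_lit 4) (nat_lit 5) (nat_lit 6) (nat_lit 4) (nat_lit 4) (nat_lit 4) (nat_lit 419) (nat_lit 351) (nat_lit 250)) (XT.nd (nat_lit 78) (nat_lit 0) (nat_lit 0) (XT.lf (nat_lit 0) (nat_lit 154843698999) (nat_lit 152) (nat_lit 146510703217) (nat_lit 0) (nat_lit 128190097221) (nat_lit 4) (nat_lit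 5) (nat_lit 6) (nat_lit 4) (nat_lit 4) (nat_lit 4) (nat_lit 420) (nat_lit 351) (nat_lit 249)) (XT.lf (nat_lit 0) (nat_lit 196433296494) (nat_lit 152) (nat_lit 95185860979) (nat_lit 0) (nat_lit 169778924934) (nat_lit 4) (nat_lit 5) (nat_lit 6) (nat_lit 4) (nat_lit 4) (nat_lit 4) (nat_lit 421) (nat_lit 351) (nat_lit 248))))) (XT.nd (nat_lit 156) (nat_lit 0) (nat_lit 0) (XT.nd (nat_lit 78) (nat_lit 76) (nat_lit 0) (XT.lf (nat_lit 0) (nat_lit 241348320826) (nat_lit 152) (nat_lit 39758534138) (nat_lit 0) (nat_lit 214693236503) (nat_lit 4) (nat_lit 5) (nat_lit 6) (nat_lit 4) (nat_lit 4) (nat_lit 4) (nat_lit 422) (nat_lit 351) (nat_lit 247)) (XT.lf (nat_lit 0) (nat_lit 21158151993) (nat_lit 76) (nat_lit 269205637172) (nat_lit 76) (nat_lit 242549892884) (nat_lit 3) (nat_lit 4) (nat_lit 4) (nat_lit 5) (nat_lit 4) (nat_lit 4) (nat_lit 423) (nat_lit 351) (nat_lit 246))) (XT.nd (nat_lit 78) (nat_lit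 0) (nat_lit 0) (XT.lf (nat_lit 0) (nat_lit 89206114879) (nat_lit 76) (nat_lit 255179880252) (nat_lit 76) (nat_lit 228523524885) (nat_lit 3) (nat_lit 4) (nat_lit 4) (nat_lit 5) (nat_lit 4) (nat_lit 4) (nat_lit 424) (nat_lit 351) (nat_lit 245)) (XT.nd (nat_lit 78) (nat_lit 0) (nat_lit 0) (XT.lf (nat_lit 0) (nat_lit 162694987757) (nat_lit 76) (nat_lit 240033537388) (nat_lit 76) (nat_lit 213376616208) (nat_lit 3) (nat_lit 4) (nat_lit 4) (nat_lit 5) (nat_lit 4) (nat_lit 4) (nat_lit 425) (nat_lit 351) (nat_lit 244)) (XT.lf (nat_lit 0) (nat_lit 242060260244) (nat_lit 76) (nat_lit 223676852476) (nat_lit 76) (nat_lit 197019407394) (nat_lit 3) (nat_lit 4) (nat_lit 4) (nat_lit 5) (nat_lit 4) (nat_lit 4) (nat_lit 426) (nat_lit 351) (nat_lit 243))))))))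
noncomputable def xc128 : XT := (XT.nd (nat_lit 1482) (nat_lit 0) (nat_lit 0) (XT.nd (nat_lit 702) (nat_lit 0) (nat_lit 0) (XT.nd (nat_lit 312) (nat_lit 152) (nat_lit 0) (XT.nd (nat_lit 156) (nat_lit 0) (nat_lit 0) (XT.nd (nat_lit 78) (nat_lit 0) (nat_lit 0) (XT.lf (nat_lit 0) (nat_lit 327772245066) (nat_lit 76) (nat_lit 206012897011) (nat_lit 76) (nat_lit 179354966835) (nat_lit 3) (nat_lit 4) (nat_lit 4) (nat_lit 5) (nat_lit 4) (nat_lit 4) (nat_lit 427) (nat_lit 351) (nat_lit 242)) (XT.lf (nat_lit 0) (nat_lit 420338865097) (nat_lit 76) (nat_lit 186936995702) (nat_lit 76) (nat_lit 160278616366) (nat_lit 3) (nat_lit 4) (nat_lit 4) (nat_lit 5) (nat_lit 4) (nat_lit 4) (nat_lit 428) (nat_lit 351) (nat_lit 241))) (XT.nd (nat_lit 78) (nat_lit 0) (nat_lit 0) (XT.lf (nat_lit 0) (nat_lit 520308663268) (nat_lit 76) (nat_lit 166336106172) (nat_lit 76) (nat_lit 139677310946) (nat_lit 3) (nat_lit 4)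 (nat_lit 4) (nat_lit 5) (nat_lit 4) (nat_lit 4) (nat_lit 429) (nat_lit 351) (nat_lit 240)) (XT.lf (nat_lit 0) (nat_lit 628274053201) (nat_lit 76) (nat_lit 144088149074) (nat_lit 76) (nat_lit 117428968765) (nat_lit 3) (nat_lit 4) (nat_lit 4) (nat_lit 5) (nat_lit 4) (nat_lit 4) (nat_lit 430) (nat_lit 351) (nat_lit 239)))) (XT.nd (nat_lit 156) (nat_lit 152) (nat_lit 0) (XT.nd (nat_lit 78) (nat_lit 0) (nat_lit 0) (XT.lf (nat_lit 0) (nat_lit 744874829796) (nat_lit 76) (nat_lit 120061284663) (nat_lit 76) (nat_lit 93401747795) (nat_lit 3) (nat_lit 4) (nat_lit 4) (nat_lit 5) (nat_lit 4) (nat_lit 4) (nat_lit 431) (nat_lit 351) (nat_lit 238)) (XT.lf (nat_lit 0) (nat_lit 870801960621) (nat_lit 76) (nat_lit 94113131521) (nat_lit 76) (nat_lit 67453264506) (nat_lit 3) (nat_lit 4) (nat_lit 4) (nat_lit 5) (nat_lit 4) (nat_lit 4) (nat_lit 432) (nat_lit 351) (nat_lit 237))) (XT.nd (nat_lit 78) (nat_lit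 152) (nat_lit 0) (XT.lf (nat_lit 0) (nat_lit 1006801680523) (nat_lit 76) (nat_lit 66089922813) (nat_lit 76) (nat_lit 39429750106) (nat_lit 3) (nat_lit 4) (nat_lit 4) (nat_lit 5) (nat_lit 4) (nat_lit 4) (nat_lit 433) (nat_lit 351) (nat_lit 236)) (XT.nd (nat_lit 78) (nat_lit 152) (nat_lit 0) (XT.lf (nat_lit 0) (nat_lit 1153679913770) (nat_lit 76) (nat_lit 35825595081) (nat_lit 76) (nat_lit 9165139327) (nat_lit 3) (nat_lit 4) (nat_lit 4) (nat_lit 5) (nat_lit 4) (nat_lit 4) (nat_lit 434) (nat_lit 351) (nat_lit 235)) (XT.lf (nat_lit 0) (nat_lit 20856796454) (nat_lit 76) (nat_lit 1988162338) (nat_lit 152) (nat_lit 1268997600708) (nat_lit 1) (nat_lit 5) (nat_lit 2) (nat_lit 5) (nat_lit 3) (nat_lit 4) (nat_lit 435) (nat_lit 351) (nat_lit 234)))))) (XT.nd (nat_lit 390) (nat_lit 0) (nat_lit 0) (XT.nd (nat_lit 156) (nat_lit 0) (nat_lit 0) (XT.nd (nat_lit 78) (nat_lit 0) (nat_lit 0) (XT.lf (nat_lit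 0) (nat_lit 59013177661) (nat_lit 152) (nat_lit 1298941501077) (nat_lit 0) (nat_lit 34327103122) (nat_lit 1) (nat_lit 5) (nat_lit 3) (nat_lit 4) (nat_lit 1) (nat_lit 4) (nat_lit 436) (nat_lit 351) (nat_lit 233)) (XT.lf (nat_lit 0) (nat_lit 98125857332) (nat_lit 152) (nat_lit 1329186629721) (nat_lit 0) (nat_lit 73439574744) (nat_lit 1) (nat_lit 5) (nat_lit 3) (nat_lit 4) (nat_lit 1) (nat_lit 4) (nat_lit 437) (nat_lit 351) (nat_lit 232))) (XT.nd (nat_lit 78) (nat_lit 0) (nat_lit 0) (XT.lf (nat_lit 0) (nat_lit 140366961295) (nat_lit 152) (nat_lit 1361852564018) (nat_lit 0) (nat_lit 115680486070) (nat_lit 1) (nat_lit 5) (nat_lit 3) (nat_lit 4) (nat_lit 1) (nat_lit 4) (nat_lit 438) (nat_lit 351) (nat_lit 231)) (XT.nd (nat_lit 78) (nat_lit 0) (nat_lit 0) (XT.lf (nat_lit 0) (nat_lit 185986807204) (nat_lit 152) (nat_lit 1397132879874) (nat_lit 0) (nat_lit 161300153610) (nat_lit 1) (nat_lit 5)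 (nat_lit 3) (nat_lit 4) (nat_lit 1) (nat_lit 4) (nat_lit 439) (nat_lit 351) (nat_lit 230)) (XT.lf (nat_lit 0) (nat_lit 235255734886) (nat_lit 152) (nat_lit 1435236645830) (nat_lit 0) (nat_lit 210568916137) (nat_lit 1) (nat_lit 5) (nat_lit 3) (nat_lit 4) (nat_lit 1) (nat_lit 4) (nat_lit 440) (nat_lit 351) (nat_lit 229))))) (XT.nd (nat_lit 156) (nat_lit 0) (nat_lit 0) (XT.nd (nat_lit 78) (nat_lit 0) (nat_lit 0) (XT.lf (nat_lit 0) (nat_lit 288465708357) (nat_lit 152) (nat_lit 1476389661978) (nat_lit 0) (nat_lit 263778736686) (nat_lit 1) (nat_lit 5) (nat_lit 3) (nat_lit 4) (nat_lit 1) (nat_lit 4) (nat_lit 441) (nat_lit 351) (nat_lit 228)) (XT.lf (nat_lit 0) (nat_lit 345932045978) (nat_lit 152) (nat_lit 1520835798045) (nat_lit 0) (nat_lit 321244932713) (nat_lit 1) (nat_lit 5) (nat_lit 3) (nat_lit 4) (nat_lit 1) (nat_lit 4) (nat_lit 442) (nat_lit 351) (nat_lit 227))) (XT.nd (nat_lit 78) (nat_lit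 0) (nat_lit 0) (XT.lf (nat_lit 0) (nat_lit 407995289009) (nat_lit 152) (nat_lit 1568838438540) (nat_lit 0) (nat_lit 383308044638) (nat_lit 1) (nat_lit 5) (nat_lit 3) (nat_lit 4) (nat_lit 1) (nat_lit 4) (nat_lit 443) (nat_lit 351) (nat_lit 226)) (XT.nd (nat_lit 78) (nat_lit 0) (nat_lit 0) (XT.lf (nat_lit 0) (nat_lit 475023219632) (nat_lit 152) (nat_lit 1620682043555) (nat_lit 0) (nat_lit 450335853866) (nat_lit 1) (nat_lit 5) (nat_lit 3) (nat_lit 4) (nat_lit 1) (nat_lit 4) (nat_lit 444) (nat_lit 351) (nat_lit 225)) (XT.lf (nat_lit 0) (nat_lit 547413040398) (nat_lit 152) (nat_lit 1676673834454) (nat_lit 0) (nat_lit 522725562230) (nat_lit 1) (nat_lit 5) (nat_lit 3) (nat_lit 4) (nat_lit 1) (nat_lit 4) (nat_lit 445) (nat_lit 351) (nat_lit 224))))))) (XT.nd (nat_lit 702) (nat_lit 0) (nat_lit 0) (XT.nd (nat_lit 312) (nat_lit 0) (nat_lit 0) (XT.nd (nat_lit 156) (nat_lit 0) (nat_lit 0) (XT.nd (nat_lit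 78) (nat_lit 0) (nat_lit 0) (XT.lf (nat_lit 0) (nat_lit 625593728022) (nat_lit 152) (nat_lit 1737145614441) (nat_lit 0) (nat_lit 600906145778) (nat_lit 1) (nat_lit 5) (nat_lit 3) (nat_lit 4) (nat_lit 1) (nat_lit 4) (nat_lit 446) (nat_lit 351) (nat_lit 223)) (XT.lf (nat_lit 0) (nat_lit 710028575469) (nat_lit 152) (nat_lit 1802455734806) (nat_lit 0) (nat_lit 685340896858) (nat_lit 1) (nat_lit 5) (nat_lit 3) (nat_lit 4) (nat_lit 1) (nat_lit 4) (nat_lit 447) (nat_lit 351) (nat_lit 222))) (XT.nd (nat_lit 78) (nat_lit 0) (nat_lit 0) (XT.lf (nat_lit 0) (nat_lit 801217937389) (nat_lit 152) (nat_lit 1872991218483) (nat_lit 0) (nat_lit 776530169551) (nat_lit 1) (nat_lit 5) (nat_lit 3) (nat_lit 4) (nat_lit 1) (nat_lit 4) (nat_lit 448) (nat_lit 351) (nat_lit 221)) (XT.lf (nat_lit 0) (nat_lit 899702195188) (nat_lit 152) (nat_lit 1949170053525) (nat_lit 0) (nat_lit 875014344730) (nat_lit 1) (nat_lit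 5) (nat_lit 3) (nat_lit 4) (nat_lit 1) (nat_lit 4) (nat_lit 449) (nat_lit 351) (nat_lit 220)))) (XT.nd (nat_lit 156) (nat_lit 0) (nat_lit 0) (XT.nd (nat_lit 78) (nat_lit 0) (nat_lit 0) (XT.lf (nat_lit 0) (nat_lit 1006064959281) (nat_lit 152) (nat_lit 2031443670065) (nat_lit 0) (nat_lit 981377032324) (nat_lit 1) (nat_lit 5) (nat_lit 3) (nat_lit 4) (nat_lit 1) (nat_lit 4) (nat_lit 450) (nat_lit 351) (nat_lit 219)) (XT.lf (nat_lit 0) (nat_lit 1120936527530) (nat_lit 152) (nat_lit 2120299615460) (nat_lit 0) (nat_lit 1096248529741) (nat_lit 1) (nat_lit 5) (nat_lit 3) (nat_lit 4) (nat_lit 1) (nat_lit 4) (nat_lit 451) (nat_lit 351) (nat_lit 218))) (XT.nd (nat_lit 78) (nat_lit 0) (nat_lit 0) (XT.lf (nat_lit 0) (nat_lit 1244997620339) (nat_lit 152) (nat_lit 2216264443460) (nat_lit 0) (nat_lit 1220309556964) (nat_lit 1) (nat_lit 5) (nat_lit 3) (nat_lit 4) (nat_lit 1) (nat_lit 4) (nat_lit 452) (nat_lit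 351) (nat_lit 217)) (XT.nd (nat_lit 78) (nat_lit 0) (nat_lit 0) (XT.lf (nat_lit 0) (nat_lit 1378983414554) (nat_lit 152) (nat_lit 2319906834529) (nat_lit 0) (nat_lit 1354295290452) (nat_lit 1) (nat_lit 5) (nat_lit 3) (nat_lit 4) (nat_lit 1) (nat_lit 4) (nat_lit 453) (nat_lit 351) (nat_lit 216)) (XT.lf (nat_lit 0) (nat_lit 1523687900068) (nat_lit 152) (nat_lit 2431840965798) (nat_lit 0) (nat_lit 1498999719737) (nat_lit 1) (nat_lit 5) (nat_lit 3) (nat_lit 4) (nat_lit 1) (nat_lit 4) (nat_lit 454) (nat_lit 351) (nat_lit 215)))))) (XT.nd (nat_lit 45162) (nat_lit 0) (nat_lit 4560) (XT.nd (nat_lit 156) (nat_lit 0) (nat_lit 0) (XT.nd (nat_lit 78) (nat_lit 0) (nat_lit 0) (XT.lf (nat_lit 0) (nat_lit 1679968584942) (nat_lit 152) (nat_lit 2552730150637) (nat_lit 0) (nat_lit 1655280352547) (nat_lit 1) (nat_lit 5) (nat_lit 3) (nat_lit 4) (nat_lit 1) (nat_lit 4) (nat_lit 455) (nat_lit 351) (nat_lit 214))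 (XT.lf (nat_lit 0) (nat_lit 1848751576939) (nat_lit 152) (nat_lit 2683290769401) (nat_lit 0) (nat_lit 1824063296336) (nat_lit 1) (nat_lit 5) (nat_lit 3) (nat_lit 4) (nat_lit 1) (nat_lit 4) (nat_lit 456) (nat_lit 351) (nat_lit 213))) (XT.nd (nat_lit 78) (nat_lit 0) (nat_lit 0) (XT.lf (nat_lit 0) (nat_lit 2031037071566) (nat_lit 152) (nat_lit 2824296514647) (nat_lit 0) (nat_lit 2006348746327) (nat_lit 1) (nat_lit 5) (nat_lit 3) (nat_lit 4) (nat_lit 1) (nat_lit 4) (nat_lit 457) (nat_lit 351) (nat_lit 212)) (XT.nd (nat_lit 44850) (nat_lit 0) (nat_lit 4560) (XT.lf (nat_lit 0) (nat_lit 2227905279163) (nat_lit 152) (nat_lit 2976582975975) (nat_lit 0) (nat_lit 2203216912594) (nat_lit 1) (nat_lit 5) (nat_lit 3) (nat_lit 4) (nat_lit 1) (nat_lit 4) (nat_lit 458) (nat_lit 351) (nat_lit 211)) (XT.lf (nat_lit 0) (nat_lit 1792256095) (nat_lit 532) (nat_lit 1769201905) (nat_lit 532) (nat_lit 1769201905)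 (nat_lit 61) (nat_lit 3) (nat_lit 68) (nat_lit 3) (nat_lit 68) (nat_lit 5) (nat_lit 352) (nat_lit 352) (nat_lit 316))))) (XT.nd (nat_lit 156) (nat_lit 0) (nat_lit 76) (XT.nd (nat_lit 78) (nat_lit 0) (nat_lit 76) (XT.lf (nat_lit 76) (nat_lit 1689986098) (nat_lit 0) (nat_lit 2659739421) (nat_lit 532) (nat_lit 6687590568) (nat_lit 62) (nat_lit 5) (nat_lit 61) (nat_lit 3) (nat_lit 68) (nat_lit 5) (nat_lit 353) (nat_lit 352) (nat_lit 315)) (XT.lf (nat_lit 0) (nat_lit 5269054021) (nat_lit 456) (nat_lit 3990744044) (nat_lit 532) (nat_lit 2176233173) (nat_lit 62) (nat_lit 5) (nat_lit 68) (nat_lit 5) (nat_lit 69) (nat_lit 5) (nat_lit 354) (nat_lit 352) (nat_lit 314))) (XT.nd (nat_lit 78) (nat_lit 0) (nat_lit 76) (XT.lf (nat_lit 76) (nat_lit 1778611425) (nat_lit 0) (nat_lit 4541176348) (nat_lit 532) (nat_lit 5542292873) (nat_lit 63) (nat_lit 5) (nat_lit 62) (nat_lit 5) (nat_lit 69) (nat_lit 5) (nat_lit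 355) (nat_lit 352) (nat_lit 313)) (XT.nd (nat_lit 78) (nat_lit 0) (nat_lit 0) (XT.lf (nat_lit 0) (nat_lit 7529425239) (nat_lit 456) (nat_lit 4132451668) (nat_lit 532) (nat_lit 654410389) (nat_lit 63) (nat_lit 5) (nat_lit 69) (nat_lit 5) (nat_lit 70) (nat_lit 5) (nat_lit 356) (nat_lit 352) (nat_lit 312)) (XT.lf (nat_lit 76) (nat_lit 2253050506) (nat_lit 0) (nat_lit 6708209401) (nat_lit 532) (nat_lit 3835592855) (nat_lit 64) (nat_lit 5) (nat_lit 63) (nat_lit 5) (nat_lit 70) (nat_lit 5) (nat_lit 357) (nat_lit 352) (nat_lit 311))))))))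
noncomputable def xc129 : XT := (XT.nd (nat_lit 1482) (nat_lit 1292) (nat_lit 0) (XT.nd (nat_lit 702) (nat_lit 988) (nat_lit 0) (XT.nd (nat_lit 312) (nat_lit 608) (nat_lit 0) (XT.nd (nat_lit 156) (nat_lit 456) (nat_lit 0) (XT.nd (nat_lit 78) (nat_lit 380) (nat_lit 0) (XT.lf (nat_lit 76) (nat_lit 9348978455) (nat_lit 0) (nat_lit 1227547167) (nat_lit 532) (nat_lit 2733879307) (nat_lit 64) (nat_lit 5) (nat_lit 63) (nat_lit 5) (nat_lit 70) (nat_lit 5) (nat_lit 358) (nat_lit 352) (nat_lit 310)) (XT.lf (nat_lit 0) (nat_lit 3156282509) (nat_lit 456) (nat_lit 9312826933) (nat_lit 532) (nat_lit 1384132414) (nat_lit 58) (nat_lit 5) (nat_lit 64) (nat_lit 5) (nat_lit 65) (nat_lit 5) (nat_lit 359) (nat_lit 352) (nat_lit 309))) (XT.nd (nat_lit 78) (nat_lit 380) (nat_lit 0) (XT.lf (nat_lit 0) (nat_lit 173395974) (nat_lit 532) (nat_lit 3436128365) (nat_lit 76) (nat_lit 10821602589) (nat_lit 57) (nat_lit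 5) (nat_lit 64) (nat_lit 5) (nat_lit 58) (nat_lit 5) (nat_lit 360) (nat_lit 352) (nat_lit 308)) (XT.lf (nat_lit 0) (nat_lit 1919049974) (nat_lit 456) (nat_lit 10548565398) (nat_lit 76) (nat_lit 2573725489) (nat_lit 52) (nat_lit 5) (nat_lit 58) (nat_lit 5) (nat_lit 53) (nat_lit 5) (nat_lit 361) (nat_lit 352) (nat_lit 307)))) (XT.nd (nat_lit 156) (nat_lit 380) (nat_lit 0) (XT.nd (nat_lit 78) (nat_lit 228) (nat_lit 0) (XT.lf (nat_lit 0) (nat_lit 3959818315) (nat_lit 456) (nat_lit 2574334253) (nat_lit 76) (nat_lit 9153817908) (nat_lit 52) (nat_lit 5) (nat_lit 58) (nat_lit 5) (nat_lit 53) (nat_lit 5) (nat_lit 362) (nat_lit 352) (nat_lit 306)) (XT.lf (nat_lit 0) (nat_lit 6284604309) (nat_lit 304) (nat_lit 10057630746) (nat_lit 76) (nat_lit 34467809) (nat_lit 49) (nat_lit 5) (nat_lit 53) (nat_lit 5) (nat_lit 50) (nat_lit 5) (nat_lit 363) (nat_lit 352) (nat_lit 305))) (XT.nd (nat_lit 78) (nat_lit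 380) (nat_lit 0) (XT.lf (nat_lit 0) (nat_lit 9006713839) (nat_lit 304) (nat_lit 1251617972) (nat_lit 76) (nat_lit 6845325239) (nat_lit 49) (nat_lit 5) (nat_lit 53) (nat_lit 5) (nat_lit 50) (nat_lit 5) (nat_lit 364) (nat_lit 352) (nat_lit 304)) (XT.nd (nat_lit 78) (nat_lit 152) (nat_lit 0) (XT.lf (nat_lit 0) (nat_lit 8659148665) (nat_lit 228) (nat_lit 3467369641) (nat_lit 304) (nat_lit 5747883376) (nat_lit 46) (nat_lit 5) (nat_lit 49) (nat_lit 5) (nat_lit 50) (nat_lit 5) (nat_lit 365) (nat_lit 352) (nat_lit 303)) (XT.lf (nat_lit 0) (nat_lit 633571250) (nat_lit 152) (nat_lit 14978560858) (nat_lit 228) (nat_lit 3085401893) (nat_lit 44) (nat_lit 5) (nat_lit 46) (nat_lit 5) (nat_lit 47) (nat_lit 5) (nat_lit 366) (nat_lit 352) (nat_lit 302)))))) (XT.nd (nat_lit 390) (nat_lit 532) (nat_lit 0) (XT.nd (nat_lit 156) (nat_lit 152) (nat_lit 0) (XT.nd (nat_lit 78) (nat_lit 228) (nat_lit 0) (XT.lf (nat_lit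 0) (nat_lit 122538586) (nat_lit 228) (nat_lit 7898220381) (nat_lit 76) (nat_lit 11540427473) (nat_lit 43) (nat_lit 5) (nat_lit 46) (nat_lit 5) (nat_lit 44) (nat_lit 5) (nat_lit 367) (nat_lit 352) (nat_lit 301)) (XT.lf (nat_lit 0) (nat_lit 3124843516) (nat_lit 228) (nat_lit 346094458) (nat_lit 304) (nat_lit 17012561364) (nat_lit 40) (nat_lit 5) (nat_lit 43) (nat_lit 5) (nat_lit 44) (nat_lit 5) (nat_lit 368) (nat_lit 352) (nat_lit 300))) (XT.nd (nat_lit 78) (nat_lit 152) (nat_lit 0) (XT.lf (nat_lit 0) (nat_lit 7476037169) (nat_lit 304) (nat_lit 6213037486) (nat_lit 76) (nat_lit 7759435579) (nat_lit 40) (nat_lit 5) (nat_lit 44) (nat_lit 5) (nat_lit 41) (nat_lit 5) (nat_lit 369) (nat_lit 352) (nat_lit 299)) (XT.nd (nat_lit 78) (nat_lit 0) (nat_lit 0) (XT.lf (nat_lit 0) (nat_lit 6089276920) (nat_lit 152) (nat_lit 5845712467) (nat_lit 228) (nat_lit 10545074782) (nat_lit 38) (nat_lit 5) (nat_lit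 40) (nat_lit 5) (nat_lit 41) (nat_lit 5) (nat_lit 370) (nat_lit 352) (nat_lit 298)) (XT.lf (nat_lit 0) (nat_lit 16966790697) (nat_lit 228) (nat_lit 3950274731) (nat_lit 76) (nat_lit 2659802815) (nat_lit 38) (nat_lit 5) (nat_lit 41) (nat_lit 5) (nat_lit 39) (nat_lit 5) (nat_lit 371) (nat_lit 352) (nat_lit 297))))) (XT.nd (nat_lit 156) (nat_lit 304) (nat_lit 0) (XT.nd (nat_lit 78) (nat_lit 76) (nat_lit 0) (XT.lf (nat_lit 0) (nat_lit 9794634129) (nat_lit 152) (nat_lit 12974187764) (nat_lit 228) (nat_lit 1963195124) (nat_lit 36) (nat_lit 5) (nat_lit 38) (nat_lit 5) (nat_lit 39) (nat_lit 5) (nat_lit 372) (nat_lit 352) (nat_lit 296)) (XT.lf (nat_lit 0) (nat_lit 2993969143) (nat_lit 228) (nat_lit 1212712746) (nat_lit 76) (nat_lit 21759720070) (nat_lit 35) (nat_lit 5) (nat_lit 38) (nat_lit 5) (nat_lit 36) (nat_lit 5) (nat_lit 373) (nat_lit 352) (nat_lit 295))) (XT.nd (nat_lit 78) (nat_lit 152)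 (nat_lit 0) (XT.lf (nat_lit 0) (nat_lit 8702784495) (nat_lit 228) (nat_lit 13161672362) (nat_lit 76) (nat_lit 5394122253) (nat_lit 33) (nat_lit 5) (nat_lit 36) (nat_lit 5) (nat_lit 34) (nat_lit 5) (nat_lit 374) (nat_lit 352) (nat_lit 294)) (XT.nd (nat_lit 78) (nat_lit 0) (nat_lit 0) (XT.lf (nat_lit 0) (nat_lit 2011694608) (nat_lit 152) (nat_lit 13030756805) (nat_lit 228) (nat_lit 13597758511) (nat_lit 31) (nat_lit 5) (nat_lit 33) (nat_lit 5) (nat_lit 34) (nat_lit 5) (nat_lit 375) (nat_lit 352) (nat_lit 293)) (XT.lf (nat_lit 0) (nat_lit 19120546773) (nat_lit 152) (nat_lit 3111740683) (nat_lit 228) (nat_lit 7872654457) (nat_lit 31) (nat_lit 5) (nat_lit 33) (nat_lit 5) (nat_lit 34) (nat_lit 5) (nat_lit 376) (nat_lit 352) (nat_lit 292))))))) (XT.nd (nat_lit 780) (nat_lit 532) (nat_lit 0) (XT.nd (nat_lit 390) (nat_lit 380) (nat_lit 0) (XT.nd (nat_lit 156) (nat_lit 228) (nat_lit 0) (XT.nd (nat_lit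 78) (nat_lit 76) (nat_lit 0) (XT.lf (nat_lit 0) (nat_lit 6002796307) (nat_lit 76) (nat_lit 24305839190) (nat_lit 152) (nat_lit 1353320558) (nat_lit 30) (nat_lit 5) (nat_lit 31) (nat_lit 5) (nat_lit 32) (nat_lit 4) (nat_lit 377) (nat_lit 352) (nat_lit 291)) (XT.lf (nat_lit 0) (nat_lit 5776321834) (nat_lit 152) (nat_lit 8597380975) (nat_lit 76) (nat_lit 18929031749) (nat_lit 29) (nat_lit 5) (nat_lit 31) (nat_lit 5) (nat_lit 30) (nat_lit 5) (nat_lit 378) (nat_lit 352) (nat_lit 290))) (XT.nd (nat_lit 78) (nat_lit 76) (nat_lit 0) (XT.lf (nat_lit 0) (nat_lit 10284474436) (nat_lit 152) (nat_lit 3351568630) (nat_lit 228) (nat_lit 21417302051) (nat_lit 27) (nat_lit 5) (nat_lit 29) (nat_lit 5) (nat_lit 30) (nat_lit 5) (nat_lit 379) (nat_lit 352) (nat_lit 289)) (XT.nd (nat_lit 78) (nat_lit 76) (nat_lit 0) (XT.lf (nat_lit 0) (nat_lit 22557157876) (nat_lit 228) (nat_lit 5995640952) (nat_lit 76) (nat_lit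 8356603479) (nat_lit 27) (nat_lit 5) (nat_lit 30) (nat_lit 5) (nat_lit 28) (nat_lit 4) (nat_lit 380) (nat_lit 352) (nat_lit 288)) (XT.lf (nat_lit 0) (nat_lit 14915887983) (nat_lit 76) (nat_lit 17708668696) (nat_lit 152) (nat_lit 6254786346) (nat_lit 26) (nat_lit 5) (nat_lit 27) (nat_lit 5) (nat_lit 28) (nat_lit 4) (nat_lit 381) (nat_lit 352) (nat_lit 287))))) (XT.nd (nat_lit 156) (nat_lit 152) (nat_lit 0) (XT.nd (nat_lit 78) (nat_lit 152) (nat_lit 0) (XT.lf (nat_lit 0) (nat_lit 2520997040) (nat_lit 152) (nat_lit 3239380790) (nat_lit 76) (nat_lit 35229306148) (nat_lit 25) (nat_lit 5) (nat_lit 27) (nat_lit 5) (nat_lit 26) (nat_lit 5) (nat_lit 382) (nat_lit 352) (nat_lit 286)) (XT.lf (nat_lit 0) (nat_lit 12317068437) (nat_lit 228) (nat_lit 23449293298) (nat_lit 76) (nat_lit 7437007002) (nat_lit 23) (nat_lit 5) (nat_lit 26) (nat_lit 5) (nat_lit 24) (nat_lit 4) (nat_lit 383) (nat_lit 352) (nat_lit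 285))) (XT.nd (nat_lit 78) (nat_lit 152) (nat_lit 0) (XT.lf (nat_lit 0) (nat_lit 23125397596) (nat_lit 228) (nat_lit 989035024) (nat_lit 76) (nat_lit 21461434695) (nat_lit 23) (nat_lit 5) (nat_lit 26) (nat_lit 5) (nat_lit 24) (nat_lit 4) (nat_lit 384) (nat_lit 352) (nat_lit 284)) (XT.nd (nat_lit 78) (nat_lit 76) (nat_lit 0) (XT.lf (nat_lit 0) (nat_lit 24472550489) (nat_lit 76) (nat_lit 10903371828) (nat_lit 152) (nat_lit 12716045574) (nat_lit 22) (nat_lit 5) (nat_lit 23) (nat_lit 5) (nat_lit 24) (nat_lit 4) (nat_lit 385) (nat_lit 352) (nat_lit 283)) (XT.lf (nat_lit 0) (nat_lit 1177537756) (nat_lit 76) (nat_lit 47555047652) (nat_lit 76) (nat_lit 2066687509) (nat_lit 21) (nat_lit 4) (nat_lit 22) (nat_lit 5) (nat_lit 22) (nat_lit 4) (nat_lit 386) (nat_lit 352) (nat_lit 282)))))) (XT.nd (nat_lit 390) (nat_lit 228) (nat_lit 0) (XT.nd (nat_lit 156) (nat_lit 152) (nat_lit 0) (XT.nd (nat_lit 78)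 (nat_lit 76) (nat_lit 0) (XT.lf (nat_lit 0) (nat_lit 9897613814) (nat_lit 152) (nat_lit 24916807824) (nat_lit 76) (nat_lit 18815795816) (nat_lit 20) (nat_lit 5) (nat_lit 22) (nat_lit 5) (nat_lit 21) (nat_lit 4) (nat_lit 387) (nat_lit 352) (nat_lit 281)) (XT.lf (nat_lit 0) (nat_lit 1781493120) (nat_lit 76) (nat_lit 20958735294) (nat_lit 152) (nat_lit 33940492076) (nat_lit 19) (nat_lit 5) (nat_lit 20) (nat_lit 5) (nat_lit 21) (nat_lit 4) (nat_lit 388) (nat_lit 352) (nat_lit 280))) (XT.nd (nat_lit 78) (nat_lit 152) (nat_lit 0) (XT.lf (nat_lit 0) (nat_lit 32014708482) (nat_lit 76) (nat_lit 5267102025) (nat_lit 152) (nat_lit 22639731623) (nat_lit 19) (nat_lit 5) (nat_lit 20) (nat_lit 5) (nat_lit 21) (nat_lit 4) (nat_lit 389) (nat_lit 352) (nat_lit 279)) (XT.nd (nat_lit 78) (nat_lit 76) (nat_lit 0) (XT.lf (nat_lit 0) (nat_lit 996714555) (nat_lit 76) (nat_lit 52285700217) (nat_lit 76) (nat_lit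 10115561882) (nat_lit 18) (nat_lit 4) (nat_lit 19) (nat_lit 5) (nat_lit 19) (nat_lit 4) (nat_lit 390) (nat_lit 352) (nat_lit 278)) (XT.lf (nat_lit 0) (nat_lit 4150447885) (nat_lit 152) (nat_lit 33547745166) (nat_lit 76) (nat_lit 29374932161) (nat_lit 17) (nat_lit 5) (nat_lit 19) (nat_lit 5) (nat_lit 18) (nat_lit 4) (nat_lit 391) (nat_lit 352) (nat_lit 277))))) (XT.nd (nat_lit 156) (nat_lit 152) (nat_lit 0) (XT.nd (nat_lit 78) (nat_lit 76) (nat_lit 0) (XT.lf (nat_lit 0) (nat_lit 19002778547) (nat_lit 152) (nat_lit 2664655198) (nat_lit 76) (nat_lit 49354511329) (nat_lit 17) (nat_lit 5) (nat_lit 19) (nat_lit 5) (nat_lit 18) (nat_lit 4) (nat_lit 392) (nat_lit 352) (nat_lit 276)) (XT.lf (nat_lit 0) (nat_lit 32289552397) (nat_lit 76) (nat_lit 3522477402) (nat_lit 152) (nat_lit 39413144057) (nat_lit 16) (nat_lit 5) (nat_lit 17) (nat_lit 5) (nat_lit 18) (nat_lit 4) (nat_lit 393) (nat_lit 352)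 (nat_lit 275))) (XT.nd (nat_lit 78) (nat_lit 152) (nat_lit 0) (XT.lf (nat_lit 0) (nat_lit 54419591083) (nat_lit 152) (nat_lit 9970524097) (nat_lit 0) (nat_lit 15338262071) (nat_lit 16) (nat_lit 5) (nat_lit 18) (nat_lit 4) (nat_lit 16) (nat_lit 4) (nat_lit 394) (nat_lit 352) (nat_lit 274)) (XT.nd (nat_lit 78) (nat_lit 76) (nat_lit 0) (XT.lf (nat_lit 0) (nat_lit 26870715231) (nat_lit 76) (nat_lit 48375590438) (nat_lit 76) (nat_lit 9287089145) (nat_lit 15) (nat_lit 4) (nat_lit 16) (nat_lit 5) (nat_lit 16) (nat_lit 4) (nat_lit 395) (nat_lit 352) (nat_lit 273)) (XT.lf (nat_lit 0) (nat_lit 7887867527) (nat_lit 152) (nat_lit 22688377836) (nat_lit 76) (nat_lit 59109343762) (nat_lit 14) (nat_lit 5) (nat_lit 16) (nat_lit 5) (nat_lit 15) (nat_lit 4) (nat_lit 396) (nat_lit 352) (nat_lit 272))))))))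
noncomputable def xc130 : XT := (XT.nd (nat_lit 1482) (nat_lit 228) (nat_lit 0) (XT.nd (nat_lit 702) (nat_lit 228) (nat_lit 0) (XT.nd (nat_lit 312) (nat_lit 228) (nat_lit 0) (XT.nd (nat_lit 156) (nat_lit 76) (nat_lit 0) (XT.nd (nat_lit 78) (nat_lit 0) (nat_lit 0) (XT.lf (nat_lit 0) (nat_lit 15610796164) (nat_lit 76) (nat_lit 10693092072) (nat_lit 152) (nat_lit 68897269378) (nat_lit 13) (nat_lit 5) (nat_lit 14) (nat_lit 5) (nat_lit 15) (nat_lit 4) (nat_lit 397) (nat_lit 352) (nat_lit 271)) (XT.lf (nat_lit 0) (nat_lit 47082339129) (nat_lit 152) (nat_lit 43132333996) (nat_lit 0) (nat_lit 10872167873) (nat_lit 13) (nat_lit 5) (nat_lit 15) (nat_lit 4) (nat_lit 13) (nat_lit 4) (nat_lit 398) (nat_lit 352) (nat_lit 270))) (XT.nd (nat_lit 78) (nat_lit 76) (nat_lit 0) (XT.lf (nat_lit 0) (nat_lit 69794715142) (nat_lit 152) (nat_lit 4047270636) (nat_lit 0) (nat_lit 33579662552) (nat_lit 13) (nat_lit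 5) (nat_lit 15) (nat_lit 4) (nat_lit 13) (nat_lit 4) (nat_lit 399) (nat_lit 352) (nat_lit 269)) (XT.lf (nat_lit 0) (nat_lit 40162714584) (nat_lit 76) (nat_lit 55121638680) (nat_lit 76) (nat_lit 18902066336) (nat_lit 12) (nat_lit 4) (nat_lit 13) (nat_lit 5) (nat_lit 13) (nat_lit 4) (nat_lit 400) (nat_lit 352) (nat_lit 268)))) (XT.nd (nat_lit 156) (nat_lit 76) (nat_lit 0) (XT.nd (nat_lit 78) (nat_lit 76) (nat_lit 0) (XT.lf (nat_lit 0) (nat_lit 1362627289) (nat_lit 152) (nat_lit 33389492538) (nat_lit 76) (nat_lit 86729079802) (nat_lit 11) (nat_lit 5) (nat_lit 13) (nat_lit 5) (nat_lit 12) (nat_lit 4) (nat_lit 401) (nat_lit 352) (nat_lit 267)) (XT.lf (nat_lit 0) (nat_lit 10520587773) (nat_lit 76) (nat_lit 11954518012) (nat_lit 152) (nat_lit 106825355184) (nat_lit 10) (nat_lit 5) (nat_lit 11) (nat_lit 5) (nat_lit 12) (nat_lit 4) (nat_lit 402) (nat_lit 352) (nat_lit 266))) (XT.nd (nat_lit 78)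 (nat_lit 76) (nat_lit 0) (XT.lf (nat_lit 0) (nat_lit 46512683328) (nat_lit 152) (nat_lit 78168435414) (nat_lit 0) (nat_lit 12965257230) (nat_lit 10) (nat_lit 5) (nat_lit 12) (nat_lit 4) (nat_lit 10) (nat_lit 4) (nat_lit 403) (nat_lit 352) (nat_lit 265)) (XT.nd (nat_lit 78) (nat_lit 76) (nat_lit 0) (XT.lf (nat_lit 0) (nat_lit 72778979037) (nat_lit 152) (nat_lit 34628052068) (nat_lit 0) (nat_lit 39228476871) (nat_lit 10) (nat_lit 5) (nat_lit 12) (nat_lit 4) (nat_lit 10) (nat_lit 4) (nat_lit 404) (nat_lit 352) (nat_lit 264)) (XT.lf (nat_lit 0) (nat_lit 13039067329) (nat_lit 76) (nat_lit 88416661143) (nat_lit 76) (nat_lit 54863310765) (nat_lit 9) (nat_lit 4) (nat_lit 10) (nat_lit 5) (nat_lit 10) (nat_lit 4) (nat_lit 405) (nat_lit 352) (nat_lit 263)))))) (XT.nd (nat_lit 390) (nat_lit 76) (nat_lit 0) (XT.nd (nat_lit 156) (nat_lit 152) (nat_lit 0) (XT.nd (nat_lit 78) (nat_lit 0) (nat_lit 0) (XT.lf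 (nat_lit 0) (nat_lit 66480344524) (nat_lit 76) (nat_lit 66888749328) (nat_lit 76) (nat_lit 33332761717) (nat_lit 9) (nat_lit 4) (nat_lit 10) (nat_lit 5) (nat_lit 10) (nat_lit 4) (nat_lit 406) (nat_lit 352) (nat_lit 262)) (XT.lf (nat_lit 0) (nat_lit 124189016710) (nat_lit 76) (nat_lit 43642515159) (nat_lit 76) (nat_lit 10084085666) (nat_lit 9) (nat_lit 4) (nat_lit 10) (nat_lit 5) (nat_lit 10) (nat_lit 4) (nat_lit 407) (nat_lit 352) (nat_lit 261))) (XT.nd (nat_lit 78) (nat_lit 76) (nat_lit 0) (XT.lf (nat_lit 0) (nat_lit 14269101709) (nat_lit 152) (nat_lit 3880958939) (nat_lit 76) (nat_lit 171847816967) (nat_lit 8) (nat_lit 5) (nat_lit 10) (nat_lit 5) (nat_lit 9) (nat_lit 4) (nat_lit 408) (nat_lit 352) (nat_lit 260)) (XT.nd (nat_lit 78) (nat_lit 0) (nat_lit 0) (XT.lf (nat_lit 0) (nat_lit 41545057265) (nat_lit 152) (nat_lit 150890757110) (nat_lit 0) (nat_lit 10468405399) (nat_lit 7) (nat_lit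 5) (nat_lit 9) (nat_lit 4) (nat_lit 7) (nat_lit 4) (nat_lit 409) (nat_lit 352) (nat_lit 259)) (XT.lf (nat_lit 0) (nat_lit 71579888084) (nat_lit 152) (nat_lit 104715596396) (nat_lit 0) (nat_lit 40501441362) (nat_lit 7) (nat_lit 5) (nat_lit 9) (nat_lit 4) (nat_lit 7) (nat_lit 4) (nat_lit 410) (nat_lit 352) (nat_lit 258))))) (XT.nd (nat_lit 156) (nat_lit 76) (nat_lit 0) (XT.nd (nat_lit 78) (nat_lit 0) (nat_lit 0) (XT.lf (nat_lit 0) (nat_lit 104014264826) (nat_lit 152) (nat_lit 54852887023) (nat_lit 0) (nat_lit 72934156199) (nat_lit 7) (nat_lit 5) (nat_lit 9) (nat_lit 4) (nat_lit 7) (nat_lit 4) (nat_lit 411) (nat_lit 352) (nat_lit 257)) (XT.lf (nat_lit 0) (nat_lit 139040391204) (nat_lit 152) (nat_lit 1007146268) (nat_lit 0) (nat_lit 107958743778) (nat_lit 7) (nat_lit 5) (nat_lit 9) (nat_lit 4) (nat_lit 7) (nat_lit 4) (nat_lit 412) (nat_lit 352) (nat_lit 256))) (XT.nd (nat_lit 78) (nat_lit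 0) (nat_lit 0) (XT.lf (nat_lit 0) (nat_lit 60149640357) (nat_lit 76) (nat_lit 118162789389) (nat_lit 76) (nat_lit 87079717148) (nat_lit 6) (nat_lit 4) (nat_lit 7) (nat_lit 5) (nat_lit 7) (nat_lit 4) (nat_lit 413) (nat_lit 352) (nat_lit 255)) (XT.nd (nat_lit 78) (nat_lit 0) (nat_lit 0) (XT.lf (nat_lit 0) (nat_lit 126250845510) (nat_lit 76) (nat_lit 94500220668) (nat_lit 76) (nat_lit 63415829154) (nat_lit 6) (nat_lit 4) (nat_lit 7) (nat_lit 5) (nat_lit 7) (nat_lit 4) (nat_lit 414) (nat_lit 352) (nat_lit 254)) (XT.lf (nat_lit 0) (nat_lit 197635145497) (nat_lit 76) (nat_lit 68947145842) (nat_lit 76) (nat_lit 37861532779) (nat_lit 6) (nat_lit 4) (nat_lit 7) (nat_lit 5) (nat_lit 7) (nat_lit 4) (nat_lit 415) (nat_lit 352) (nat_lit 253))))))) (XT.nd (nat_lit 780) (nat_lit 0) (nat_lit 0) (XT.nd (nat_lit 390) (nat_lit 76) (nat_lit 0) (XT.nd (nat_lit 156) (nat_lit 0) (nat_lit 0) (XT.nd (nat_lit 78)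 (nat_lit 152) (nat_lit 0) (XT.lf (nat_lit 0) (nat_lit 274725558393) (nat_lit 76) (nat_lit 41352139284) (nat_lit 76) (nat_lit 10265395157) (nat_lit 6) (nat_lit 4) (nat_lit 7) (nat_lit 5) (nat_lit 7) (nat_lit 4) (nat_lit 416) (nat_lit 352) (nat_lit 252)) (XT.lf (nat_lit 0) (nat_lit 7910302658) (nat_lit 76) (nat_lit 10838781027) (nat_lit 152) (nat_lit 331192584274) (nat_lit 4) (nat_lit 5) (nat_lit 5) (nat_lit 5) (nat_lit 6) (nat_lit 4) (nat_lit 417) (nat_lit 352) (nat_lit 251))) (XT.nd (nat_lit 78) (nat_lit 0) (nat_lit 0) (XT.lf (nat_lit 0) (nat_lit 51507783962) (nat_lit 152) (nat_lit 301018907733) (nat_lit 0) (nat_lit 22721894042) (nat_lit 4) (nat_lit 5) (nat_lit 6) (nat_lit 4) (nat_lit 4) (nat_lit 4) (nat_lit 418) (nat_lit 352) (nat_lit 250)) (XT.nd (nat_lit 78) (nat_lit 0) (nat_lit 0) (XT.lf (nat_lit 0) (nat_lit 87166676380) (nat_lit 152) (nat_lit 257011065976) (nat_lit 0) (nat_lit 58379955095)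 (nat_lit 4) (nat_lit 5) (nat_lit 6) (nat_lit 4) (nat_lit 4) (nat_lit 4) (nat_lit 419) (nat_lit 352) (nat_lit 249)) (XT.lf (nat_lit 0) (nat_lit 125676399952) (nat_lit 152) (nat_lit 209486379877) (nat_lit 0) (nat_lit 96888908883) (nat_lit 4) (nat_lit 5) (nat_lit 6) (nat_lit 4) (nat_lit 4) (nat_lit 4) (nat_lit 420) (nat_lit 352) (nat_lit 248))))) (XT.nd (nat_lit 156) (nat_lit 76) (nat_lit 0) (XT.nd (nat_lit 78) (nat_lit 0) (nat_lit 0) (XT.lf (nat_lit 0) (nat_lit 167265160446) (nat_lit 152) (nat_lit 158163221665) (nat_lit 0) (nat_lit 138476956615) (nat_lit 4) (nat_lit 5) (nat_lit 6) (nat_lit 4) (nat_lit 4) (nat_lit 4) (nat_lit 421) (nat_lit 352) (nat_lit 247)) (XT.lf (nat_lit 0) (nat_lit 212179409776) (nat_lit 152) (nat_lit 102737454108) (nat_lit 0) (nat_lit 183390545980) (nat_lit 4) (nat_lit 5) (nat_lit 6) (nat_lit 4) (nat_lit 4) (nat_lit 4) (nat_lit 422) (nat_lit 352) (nat_lit 246))) (XT.nd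 (nat_lit 78) (nat_lit 76) (nat_lit 0) (XT.lf (nat_lit 0) (nat_lit 260685306457) (nat_lit 152) (nat_lit 42880628211) (nat_lit 0) (nat_lit 231895831583) (nat_lit 4) (nat_lit 5) (nat_lit 6) (nat_lit 4) (nat_lit 4) (nat_lit 4) (nat_lit 423) (nat_lit 352) (nat_lit 245)) (XT.nd (nat_lit 78) (nat_lit 0) (nat_lit 0) (XT.lf (nat_lit 0) (nat_lit 22907909553) (nat_lit 76) (nat_lit 290713319062) (nat_lit 76) (nat_lit 261923278374) (nat_lit 3) (nat_lit 4) (nat_lit 4) (nat_lit 5) (nat_lit 4) (nat_lit 4) (nat_lit 424) (nat_lit 352) (nat_lit 244)) (XT.lf (nat_lit 0) (nat_lit 96395479440) (nat_lit 76) (nat_lit 275567632632) (nat_lit 76) (nat_lit 246777068042) (nat_lit 3) (nat_lit 4) (nat_lit 4) (nat_lit 5) (nat_lit 4) (nat_lit 4) (nat_lit 425) (nat_lit 352) (nat_lit 243)))))) (XT.nd (nat_lit 390) (nat_lit 0) (nat_lit 0) (XT.nd (nat_lit 156) (nat_lit 0) (nat_lit 0) (XT.nd (nat_lit 78) (nat_lit 0) (nat_lit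 0) (XT.lf (nat_lit 0) (nat_lit 175759545454) (nat_lit 76) (nat_lit 259211555527) (nat_lit 76) (nat_lit 230420505844) (nat_lit 3) (nat_lit 4) (nat_lit 4) (nat_lit 5) (nat_lit 4) (nat_lit 4) (nat_lit 426) (nat_lit 352) (nat_lit 242)) (XT.lf (nat_lit 0) (nat_lit 261470413171) (nat_lit 76) (nat_lit 241548162848) (nat_lit 76) (nat_lit 212756664003) (nat_lit 3) (nat_lit 4) (nat_lit 4) (nat_lit 5) (nat_lit 4) (nat_lit 4) (nat_lit 427) (nat_lit 352) (nat_lit 241))) (XT.nd (nat_lit 78) (nat_lit 0) (nat_lit 0) (XT.lf (nat_lit 0) (nat_lit 354035998845) (nat_lit 76) (nat_lit 222472782637) (nat_lit 76) (nat_lit 193680867902) (nat_lit 3) (nat_lit 4) (nat_lit 4) (nat_lit 5) (nat_lit 4) (nat_lit 4) (nat_lit 428) (nat_lit 352) (nat_lit 240)) (XT.nd (nat_lit 78) (nat_lit 0) (nat_lit 0) (XT.lf (nat_lit 0) (nat_lit 454004839280) (nat_lit 76) (nat_lit 201872375604) (nat_lit 76) (nat_lit 173080075786) (nat_lit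 3) (nat_lit 4) (nat_lit 4) (nat_lit 5) (nat_lit 4) (nat_lit 4) (nat_lit 429) (nat_lit 352) (nat_lit 239)) (XT.lf (nat_lit 0) (nat_lit 561969342418) (nat_lit 76) (nat_lit 179624865263) (nat_lit 76) (nat_lit 150832208887) (nat_lit 3) (nat_lit 4) (nat_lit 4) (nat_lit 5) (nat_lit 4) (nat_lit 4) (nat_lit 430) (nat_lit 352) (nat_lit 238))))) (XT.nd (nat_lit 156) (nat_lit 0) (nat_lit 0) (XT.nd (nat_lit 78) (nat_lit 0) (nat_lit 0) (XT.lf (nat_lit 0) (nat_lit 678569297909) (nat_lit 76) (nat_lit 155598414516) (nat_lit 76) (nat_lit 126805427994) (nat_lit 3) (nat_lit 4) (nat_lit 4) (nat_lit 5) (nat_lit 4) (nat_lit 4) (nat_lit 431) (nat_lit 352) (nat_lit 237)) (XT.lf (nat_lit 0) (nat_lit 804495668451) (nat_lit 76) (nat_lit 129650644396) (nat_lit 76) (nat_lit 100857352182) (nat_lit 3) (nat_lit 4) (nat_lit 4) (nat_lit 5) (nat_lit 4) (nat_lit 4) (nat_lit 432) (nat_lit 352) (nat_lit 236))) (XT.nd (nat_lit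 78) (nat_lit 0) (nat_lit 0) (XT.lf (nat_lit 0) (nat_lit 940494684388) (nat_lit 76) (nat_lit 101627790338) (nat_lit 76) (nat_lit 72834215076) (nat_lit 3) (nat_lit 4) (nat_lit 4) (nat_lit 5) (nat_lit 4) (nat_lit 4) (nat_lit 433) (nat_lit 352) (nat_lit 235)) (XT.nd (nat_lit 78) (nat_lit 0) (nat_lit 0) (XT.lf (nat_lit 0) (nat_lit 1087372265815) (nat_lit 76) (nat_lit 71363790986) (nat_lit 76) (nat_lit 42569953643) (nat_lit 3) (nat_lit 4) (nat_lit 4) (nat_lit 5) (nat_lit 4) (nat_lit 4) (nat_lit 434) (nat_lit 352) (nat_lit 234)) (XT.lf (nat_lit 0) (nat_lit 1245998798399) (nat_lit 76) (nat_lit 38679304120) (nat_lit 76) (nat_lit 9885224110) (nat_lit 3) (nat_lit 4) (nat_lit 4) (nat_lit 5) (nat_lit 4) (nat_lit 4) (nat_lit 435) (nat_lit 352) (nat_lit 233))))))))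
noncomputable def xc131 : XT := (XT.nd (nat_lit 1482) (nat_lit 0) (nat_lit 0) (XT.nd (nat_lit 702) (nat_lit 0) (nat_lit 0) (XT.nd (nat_lit 312) (nat_lit 0) (nat_lit 0) (XT.nd (nat_lit 156) (nat_lit 0) (nat_lit 0) (XT.nd (nat_lit 78) (nat_lit 0) (nat_lit 0) (XT.lf (nat_lit 0) (nat_lit 22549852721) (nat_lit 76) (nat_lit 2134838348) (nat_lit 152) (nat_lit 1370504301346) (nat_lit 1) (nat_lit 5) (nat_lit 2) (nat_lit 5) (nat_lit 3) (nat_lit 4) (nat_lit 436) (nat_lit 352) (nat_lit 232)) (XT.lf (nat_lit 0) (nat_lit 63745744133) (nat_lit 152) (nat_lit 1402833500117) (nat_lit 0) (nat_lit 37084158252) (nat_lit 1) (nat_lit 5) (nat_lit 3) (nat_lit 4) (nat_lit 1) (nat_lit 4) (nat_lit 437) (nat_lit 352) (nat_lit 231))) (XT.nd (nat_lit 78) (nat_lit 0) (nat_lit 0) (XT.lf (nat_lit 0) (nat_lit 105986585418) (nat_lit 152) (nat_lit 1435499966537) (nat_lit 0) (nat_lit 79324821169) (nat_lit 1) (nat_lit 5) (nat_lit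 3) (nat_lit 4) (nat_lit 1) (nat_lit 4) (nat_lit 438) (nat_lit 352) (nat_lit 230)) (XT.lf (nat_lit 0) (nat_lit 151606188106) (nat_lit 152) (nat_lit 1470780775101) (nat_lit 0) (nat_lit 124944258701) (nat_lit 1) (nat_lit 5) (nat_lit 3) (nat_lit 4) (nat_lit 1) (nat_lit 4) (nat_lit 439) (nat_lit 352) (nat_lit 229)))) (XT.nd (nat_lit 156) (nat_lit 0) (nat_lit 0) (XT.nd (nat_lit 78) (nat_lit 0) (nat_lit 0) (XT.lf (nat_lit 0) (nat_lit 200874890583) (nat_lit 152) (nat_lit 1508884997266) (nat_lit 0) (nat_lit 174212808256) (nat_lit 1) (nat_lit 5) (nat_lit 3) (nat_lit 4) (nat_lit 1) (nat_lit 4) (nat_lit 440) (nat_lit 352) (nat_lit 228)) (XT.lf (nat_lit 0) (nat_lit 254084655531) (nat_lit 152) (nat_lit 1550038435831) (nat_lit 0) (nat_lit 227422431610) (nat_lit 1) (nat_lit 5) (nat_lit 3) (nat_lit 4) (nat_lit 1) (nat_lit 4) (nat_lit 441) (nat_lit 352) (nat_lit 227))) (XT.nd (nat_lit 78) (nat_lit 0) (nat_lit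 0) (XT.lf (nat_lit 0) (nat_lit 311550800075) (nat_lit 152) (nat_lit 1594484963024) (nat_lit 0) (nat_lit 284888445049) (nat_lit 1) (nat_lit 5) (nat_lit 3) (nat_lit 4) (nat_lit 1) (nat_lit 4) (nat_lit 442) (nat_lit 352) (nat_lit 226)) (XT.nd (nat_lit 78) (nat_lit 0) (nat_lit 0) (XT.lf (nat_lit 0) (nat_lit 373613864332) (nat_lit 152) (nat_lit 1642487965674) (nat_lit 0) (nat_lit 346951387911) (nat_lit 1) (nat_lit 5) (nat_lit 3) (nat_lit 4) (nat_lit 1) (nat_lit 4) (nat_lit 443) (nat_lit 352) (nat_lit 225)) (XT.lf (nat_lit 0) (nat_lit 440641629423) (nat_lit 152) (nat_lit 1694331906017) (nat_lit 0) (nat_lit 413979040600) (nat_lit 1) (nat_lit 5) (nat_lit 3) (nat_lit 4) (nat_lit 1) (nat_lit 4) (nat_lit 444) (nat_lit 352) (nat_lit 224)))))) (XT.nd (nat_lit 390) (nat_lit 0) (nat_lit 0) (XT.nd (nat_lit 156) (nat_lit 0) (nat_lit 0) (XT.nd (nat_lit 78) (nat_lit 0) (nat_lit 0) (XT.lf (nat_lit 0) (nat_lit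 513031296918) (nat_lit 152) (nat_lit 1750324007404) (nat_lit 0) (nat_lit 486368604019) (nat_lit 1) (nat_lit 5) (nat_lit 3) (nat_lit 4) (nat_lit 1) (nat_lit 4) (nat_lit 445) (nat_lit 352) (nat_lit 223)) (XT.lf (nat_lit 0) (nat_lit 591211842625) (nat_lit 152) (nat_lit 1810796074881) (nat_lit 0) (nat_lit 564549053359) (nat_lit 1) (nat_lit 5) (nat_lit 3) (nat_lit 4) (nat_lit 1) (nat_lit 4) (nat_lit 446) (nat_lit 352) (nat_lit 222))) (XT.nd (nat_lit 78) (nat_lit 0) (nat_lit 0) (XT.lf (nat_lit 0) (nat_lit 675646558667) (nat_lit 152) (nat_lit 1876106461440) (nat_lit 0) (nat_lit 648983680173) (nat_lit 1) (nat_lit 5) (nat_lit 3) (nat_lit 4) (nat_lit 1) (nat_lit 4) (nat_lit 447) (nat_lit 352) (nat_lit 221)) (XT.nd (nat_lit 78) (nat_lit 0) (nat_lit 0) (XT.lf (nat_lit 0) (nat_lit 766835798917) (nat_lit 152) (nat_lit 1946642191593) (nat_lit 0) (nat_lit 740172837804) (nat_lit 1) (nat_lit 5) (nat_lit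 3) (nat_lit 4) (nat_lit 1) (nat_lit 4) (nat_lit 448) (nat_lit 352) (nat_lit 220)) (XT.lf (nat_lit 0) (nat_lit 865319944057) (nat_lit 152) (nat_lit 2022821254854) (nat_lit 0) (nat_lit 838656906445) (nat_lit 1) (nat_lit 5) (nat_lit 3) (nat_lit 4) (nat_lit 1) (nat_lit 4) (nat_lit 449) (nat_lit 352) (nat_lit 219))))) (XT.nd (nat_lit 156) (nat_lit 0) (nat_lit 0) (XT.nd (nat_lit 78) (nat_lit 0) (nat_lit 0) (XT.lf (nat_lit 0) (nat_lit 971682603837) (nat_lit 152) (nat_lit 2105095082707) (nat_lit 0) (nat_lit 945019495392) (nat_lit 1) (nat_lit 5) (nat_lit 3) (nat_lit 4) (nat_lit 1) (nat_lit 4) (nat_lit 450) (nat_lit 352) (nat_lit 218)) (XT.lf (nat_lit 0) (nat_lit 1086554075499) (nat_lit 152) (nat_lit 2193951223762) (nat_lit 0) (nat_lit 1059890901469) (nat_lit 1) (nat_lit 5) (nat_lit 3) (nat_lit 4) (nat_lit 1) (nat_lit 4) (nat_lit 451) (nat_lit 352) (nat_lit 217))) (XT.nd (nat_lit 78) (nat_lit 0)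 (nat_lit 0) (XT.lf (nat_lit 0) (nat_lit 1210615078876) (nat_lit 152) (nat_lit 2289916232930) (nat_lit 0) (nat_lit 1183951844119) (nat_lit 1) (nat_lit 5) (nat_lit 3) (nat_lit 4) (nat_lit 1) (nat_lit 4) (nat_lit 452) (nat_lit 352) (nat_lit 216)) (XT.nd (nat_lit 78) (nat_lit 0) (nat_lit 0) (XT.lf (nat_lit 0) (nat_lit 1344600790285) (nat_lit 152) (nat_lit 2393558791746) (nat_lit 0) (nat_lit 1317937499298) (nat_lit 1) (nat_lit 5) (nat_lit 3) (nat_lit 4) (nat_lit 1) (nat_lit 4) (nat_lit 453) (nat_lit 352) (nat_lit 215)) (XT.lf (nat_lit 0) (nat_lit 1489305199125) (nat_lit 152) (nat_lit 2505493078337) (nat_lit 0) (nat_lit 1462641856074) (nat_lit 1) (nat_lit 5) (nat_lit 3) (nat_lit 4) (nat_lit 1) (nat_lit 4) (nat_lit 454) (nat_lit 352) (nat_lit 214))))))) (XT.nd (nat_lit 45630) (nat_lit 0) (nat_lit 3192) (XT.nd (nat_lit 45240) (nat_lit 0) (nat_lit 4560) (XT.nd (nat_lit 156) (nat_lit 0) (nat_lit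 0) (XT.nd (nat_lit 78) (nat_lit 0) (nat_lit 0) (XT.lf (nat_lit 0) (nat_lit 1645585813005) (nat_lit 152) (nat_lit 2626382406992) (nat_lit 0) (nat_lit 1618922421747) (nat_lit 1) (nat_lit 5) (nat_lit 3) (nat_lit 4) (nat_lit 1) (nat_lit 4) (nat_lit 455) (nat_lit 352) (nat_lit 213)) (XT.lf (nat_lit 0) (nat_lit 1814368739267) (nat_lit 152) (nat_lit 2756943158920) (nat_lit 0) (nat_lit 1787705303372) (nat_lit 1) (nat_lit 5) (nat_lit 3) (nat_lit 4) (nat_lit 1) (nat_lit 4) (nat_lit 456) (nat_lit 352) (nat_lit 212))) (XT.nd (nat_lit 78) (nat_lit 0) (nat_lit 0) (XT.lf (nat_lit 0) (nat_lit 1996654173028) (nat_lit 152) (nat_lit 2897949027465) (nat_lit 0) (nat_lit 1969990695804) (nat_lit 1) (nat_lit 5) (nat_lit 3) (nat_lit 4) (nat_lit 1) (nat_lit 4) (nat_lit 457) (nat_lit 352) (nat_lit 211)) (XT.nd (nat_lit 44928) (nat_lit 0) (nat_lit 4560) (XT.lf (nat_lit 0) (nat_lit 2193522324268) (nat_lit 152) (nat_lit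 3050235602959) (nat_lit 0) (nat_lit 2166858808775) (nat_lit 1) (nat_lit 5) (nat_lit 3) (nat_lit 4) (nat_lit 1) (nat_lit 4) (nat_lit 458) (nat_lit 352) (nat_lit 210)) (XT.lf (nat_lit 0) (nat_lit 2502847617) (nat_lit 532) (nat_lit 1604097690) (nat_lit 532) (nat_lit 1604097690) (nat_lit 61) (nat_lit 3) (nat_lit 68) (nat_lit 3) (nat_lit 68) (nat_lit 5) (nat_lit 353) (nat_lit 353) (nat_lit 314))))) (XT.nd (nat_lit 156) (nat_lit 0) (nat_lit 76) (XT.nd (nat_lit 78) (nat_lit 0) (nat_lit 76) (XT.lf (nat_lit 76) (nat_lit 2422939627) (nat_lit 0) (nat_lit 3339530753) (nat_lit 532) (nat_lit 6071366653) (nat_lit 62) (nat_lit 5) (nat_lit 61) (nat_lit 3) (nat_lit 68) (nat_lit 5) (nat_lit 354) (nat_lit 353) (nat_lit 313)) (XT.lf (nat_lit 0) (nat_lit 6666073865) (nat_lit 456) (nat_lit 3666067792) (nat_lit 532) (nat_lit 1939544478) (nat_lit 62) (nat_lit 5) (nat_lit 68) (nat_lit 5) (nat_lit 69) (nat_lit 5)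 (nat_lit 355) (nat_lit 353) (nat_lit 312))) (XT.nd (nat_lit 78) (nat_lit 0) (nat_lit 76) (XT.lf (nat_lit 76) (nat_lit 2548533943) (nat_lit 0) (nat_lit 5195168051) (nat_lit 532) (nat_lit 4992778645) (nat_lit 63) (nat_lit 5) (nat_lit 62) (nat_lit 5) (nat_lit 69) (nat_lit 5) (nat_lit 356) (nat_lit 353) (nat_lit 311)) (XT.nd (nat_lit 78) (nat_lit 0) (nat_lit 0) (XT.lf (nat_lit 0) (nat_lit 8975612513) (nat_lit 456) (nat_lit 3806389147) (nat_lit 532) (nat_lit 451063476) (nat_lit 63) (nat_lit 5) (nat_lit 69) (nat_lit 5) (nat_lit 70) (nat_lit 5) (nat_lit 357) (nat_lit 353) (nat_lit 310)) (XT.lf (nat_lit 76) (nat_lit 3073328931) (nat_lit 0) (nat_lit 7401551699) (nat_lit 532) (nat_lit 3281039719) (nat_lit 64) (nat_lit 5) (nat_lit 63) (nat_lit 5) (nat_lit 70) (nat_lit 5) (nat_lit 358) (nat_lit 353) (nat_lit 309)))))) (XT.nd (nat_lit 390) (nat_lit 684) (nat_lit 0) (XT.nd (nat_lit 156) (nat_lit 456)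 (nat_lit 0) (XT.nd (nat_lit 78) (nat_lit 380) (nat_lit 0) (XT.lf (nat_lit 76) (nat_lit 10689521161) (nat_lit 0) (nat_lit 1470830149) (nat_lit 532) (nat_lit 2154996536) (nat_lit 64) (nat_lit 5) (nat_lit 63) (nat_lit 5) (nat_lit 70) (nat_lit 5) (nat_lit 359) (nat_lit 353) (nat_lit 308)) (XT.lf (nat_lit 0) (nat_lit 4048180503) (nat_lit 456) (nat_lit 10113663392) (nat_lit 532) (nat_lit 743232350) (nat_lit 58) (nat_lit 5) (nat_lit 64) (nat_lit 5) (nat_lit 65) (nat_lit 5) (nat_lit 360) (nat_lit 353) (nat_lit 307))) (XT.nd (nat_lit 78) (nat_lit 380) (nat_lit 0) (XT.lf (nat_lit 0) (nat_lit 848407512) (nat_lit 532) (nat_lit 3083478246) (nat_lit 76) (nat_lit 11600146972) (nat_lit 57) (nat_lit 5) (nat_lit 64) (nat_lit 5) (nat_lit 58) (nat_lit 5) (nat_lit 361) (nat_lit 353) (nat_lit 306)) (XT.nd (nat_lit 78) (nat_lit 0) (nat_lit 0) (XT.lf (nat_lit 0) (nat_lit 2699084659) (nat_lit 456) (nat_lit 10729639251)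 (nat_lit 76) (nat_lit 2765161547) (nat_lit 52) (nat_lit 5) (nat_lit 58) (nat_lit 5) (nat_lit 53) (nat_lit 5) (nat_lit 362) (nat_lit 353) (nat_lit 305)) (XT.lf (nat_lit 0) (nat_lit 4856706268) (nat_lit 456) (nat_lit 2166566755) (nat_lit 76) (nat_lit 9872732617) (nat_lit 52) (nat_lit 5) (nat_lit 58) (nat_lit 5) (nat_lit 53) (nat_lit 5) (nat_lit 363) (nat_lit 353) (nat_lit 304))))) (XT.nd (nat_lit 156) (nat_lit 456) (nat_lit 0) (XT.nd (nat_lit 78) (nat_lit 0) (nat_lit 0) (XT.lf (nat_lit 0) (nat_lit 7340012914) (nat_lit 304) (nat_lit 10220514484) (nat_lit 76) (nat_lit 81550220) (nat_lit 49) (nat_lit 5) (nat_lit 53) (nat_lit 5) (nat_lit 50) (nat_lit 5) (nat_lit 364) (nat_lit 353) (nat_lit 303)) (XT.lf (nat_lit 0) (nat_lit 10238954891) (nat_lit 304) (nat_lit 757556001) (nat_lit 76) (nat_lit 7433992912) (nat_lit 49) (nat_lit 5) (nat_lit 53) (nat_lit 5) (nat_lit 50) (nat_lit 5) (nat_lit 365) (nat_lit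 353) (nat_lit 302))) (XT.nd (nat_lit 78) (nat_lit 228) (nat_lit 0) (XT.lf (nat_lit 0) (nat_lit 9931029147) (nat_lit 228) (nat_lit 3653339109) (nat_lit 304) (nat_lit 5680495526) (nat_lit 46) (nat_lit 5) (nat_lit 49) (nat_lit 5) (nat_lit 50) (nat_lit 5) (nat_lit 366) (nat_lit 353) (nat_lit 301)) (XT.nd (nat_lit 78) (nat_lit 76) (nat_lit 0) (XT.lf (nat_lit 0) (nat_lit 1285090842) (nat_lit 152) (nat_lit 16044098147) (nat_lit 228) (nat_lit 2826264017) (nat_lit 44) (nat_lit 5) (nat_lit 46) (nat_lit 5) (nat_lit 47) (nat_lit 5) (nat_lit 367) (nat_lit 353) (nat_lit 300)) (XT.lf (nat_lit 0) (nat_lit 577396633) (nat_lit 228) (nat_lit 7949940033) (nat_lit 76) (nat_lit 12562765797) (nat_lit 43) (nat_lit 5) (nat_lit 46) (nat_lit 5) (nat_lit 44) (nat_lit 5) (nat_lit 368) (nat_lit 353) (nat_lit 299))))))))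
noncomputable def xc132 : XT := (XT.nd (nat_lit 1482) (nat_lit 912) (nat_lit 0) (XT.nd (nat_lit 702) (nat_lit 760) (nat_lit 0) (XT.nd (nat_lit 312) (nat_lit 532) (nat_lit 0) (XT.nd (nat_lit 156) (nat_lit 152) (nat_lit 0) (XT.nd (nat_lit 78) (nat_lit 0) (nat_lit 0) (XT.lf (nat_lit 0) (nat_lit 3940281937) (nat_lit 228) (nat_lit 234018109) (nat_lit 304) (nat_lit 17913477521) (nat_lit 40) (nat_lit 5) (nat_lit 43) (nat_lit 5) (nat_lit 44) (nat_lit 5) (nat_lit 369) (nat_lit 353) (nat_lit 298)) (XT.lf (nat_lit 0) (nat_lit 8471387143) (nat_lit 304) (nat_lit 6157773696) (nat_lit 76) (nat_lit 8503127785) (nat_lit 40) (nat_lit 5) (nat_lit 44) (nat_lit 5) (nat_lit 41) (nat_lit 5) (nat_lit 370) (nat_lit 353) (nat_lit 297))) (XT.nd (nat_lit 78) (nat_lit 0) (nat_lit 0) (XT.lf (nat_lit 0) (nat_lit 7114743412) (nat_lit 152) (nat_lit 6155831654) (nat_lit 228) (nat_lit 10977134029) (nat_lit 38) (nat_lit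 5) (nat_lit 40) (nat_lit 5) (nat_lit 41) (nat_lit 5) (nat_lit 371) (nat_lit 353) (nat_lit 296)) (XT.lf (nat_lit 0) (nat_lit 18680222209) (nat_lit 228) (nat_lit 3742874711) (nat_lit 76) (nat_lit 3011158457) (nat_lit 38) (nat_lit 5) (nat_lit 41) (nat_lit 5) (nat_lit 39) (nat_lit 5) (nat_lit 372) (nat_lit 353) (nat_lit 295)))) (XT.nd (nat_lit 156) (nat_lit 304) (nat_lit 0) (XT.nd (nat_lit 78) (nat_lit 76) (nat_lit 0) (XT.lf (nat_lit 0) (nat_lit 11088375668) (nat_lit 152) (nat_lit 13843932945) (nat_lit 228) (nat_lit 1750656414) (nat_lit 36) (nat_lit 5) (nat_lit 38) (nat_lit 5) (nat_lit 39) (nat_lit 5) (nat_lit 373) (nat_lit 353) (nat_lit 294)) (XT.lf (nat_lit 0) (nat_lit 3558584560) (nat_lit 228) (nat_lit 820011795) (nat_lit 76) (nat_lit 23638891417) (nat_lit 35) (nat_lit 5) (nat_lit 38) (nat_lit 5) (nat_lit 36) (nat_lit 5) (nat_lit 374) (nat_lit 353) (nat_lit 293))) (XT.nd (nat_lit 78) (nat_lit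 152) (nat_lit 0) (XT.lf (nat_lit 0) (nat_lit 9715467393) (nat_lit 228) (nat_lit 13716048105) (nat_lit 76) (nat_lit 5982230801) (nat_lit 33) (nat_lit 5) (nat_lit 36) (nat_lit 5) (nat_lit 34) (nat_lit 5) (nat_lit 375) (nat_lit 353) (nat_lit 292)) (XT.nd (nat_lit 78) (nat_lit 0) (nat_lit 0) (XT.lf (nat_lit 0) (nat_lit 2658566499) (nat_lit 152) (nat_lit 13891986454) (nat_lit 228) (nat_lit 14356309991) (nat_lit 31) (nat_lit 5) (nat_lit 33) (nat_lit 5) (nat_lit 34) (nat_lit 5) (nat_lit 376) (nat_lit 353) (nat_lit 291)) (XT.lf (nat_lit 0) (nat_lit 21100131555) (nat_lit 152) (nat_lit 3192873553) (nat_lit 228) (nat_lit 8197587923) (nat_lit 31) (nat_lit 5) (nat_lit 33) (nat_lit 5) (nat_lit 34) (nat_lit 5) (nat_lit 377) (nat_lit 353) (nat_lit 290)))))) (XT.nd (nat_lit 390) (nat_lit 380) (nat_lit 0) (XT.nd (nat_lit 156) (nat_lit 228) (nat_lit 0) (XT.nd (nat_lit 78) (nat_lit 76) (nat_lit 0) (XT.lf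 (nat_lit 0) (nat_lit 6939804994) (nat_lit 76) (nat_lit 26069479627) (nat_lit 152) (nat_lit 1163390641) (nat_lit 30) (nat_lit 5) (nat_lit 31) (nat_lit 5) (nat_lit 32) (nat_lit 4) (nat_lit 378) (nat_lit 353) (nat_lit 289)) (XT.lf (nat_lit 0) (nat_lit 6500722592) (nat_lit 152) (nat_lit 8848272704) (nat_lit 76) (nat_lit 20596836725) (nat_lit 29) (nat_lit 5) (nat_lit 31) (nat_lit 5) (nat_lit 30) (nat_lit 5) (nat_lit 379) (nat_lit 353) (nat_lit 288))) (XT.nd (nat_lit 78) (nat_lit 76) (nat_lit 0) (XT.lf (nat_lit 0) (nat_lit 11533070412) (nat_lit 152) (nat_lit 3446963264) (nat_lit 228) (nat_lit 22857202975) (nat_lit 27) (nat_lit 5) (nat_lit 29) (nat_lit 5) (nat_lit 30) (nat_lit 5) (nat_lit 380) (nat_lit 353) (nat_lit 287)) (XT.nd (nat_lit 78) (nat_lit 76) (nat_lit 0) (XT.lf (nat_lit 0) (nat_lit 24599935457) (nat_lit 228) (nat_lit 6065977493) (nat_lit 76) (nat_lit 9177067090) (nat_lit 27) (nat_lit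 5) (nat_lit 30) (nat_lit 5) (nat_lit 28) (nat_lit 4) (nat_lit 381) (nat_lit 353) (nat_lit 286)) (XT.lf (nat_lit 0) (nat_lit 16508111358) (nat_lit 76) (nat_lit 18956564807) (nat_lit 152) (nat_lit 6506492594) (nat_lit 26) (nat_lit 5) (nat_lit 27) (nat_lit 5) (nat_lit 28) (nat_lit 4) (nat_lit 382) (nat_lit 353) (nat_lit 285))))) (XT.nd (nat_lit 156) (nat_lit 152) (nat_lit 0) (XT.nd (nat_lit 78) (nat_lit 152) (nat_lit 0) (XT.lf (nat_lit 0) (nat_lit 2941414624) (nat_lit 152) (nat_lit 3117518879) (nat_lit 76) (nat_lit 38192332451) (nat_lit 25) (nat_lit 5) (nat_lit 27) (nat_lit 5) (nat_lit 26) (nat_lit 5) (nat_lit 383) (nat_lit 353) (nat_lit 284)) (XT.lf (nat_lit 0) (nat_lit 13517745906) (nat_lit 228) (nat_lit 24940711785) (nat_lit 76) (nat_lit 8183868811) (nat_lit 23) (nat_lit 5) (nat_lit 26) (nat_lit 5) (nat_lit 24) (nat_lit 4) (nat_lit 384) (nat_lit 353) (nat_lit 283))) (XT.nd (nat_lit 78)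 (nat_lit 152) (nat_lit 0) (XT.lf (nat_lit 0) (nat_lit 25174792361) (nat_lit 228) (nat_lit 712116181) (nat_lit 76) (nat_lit 23318998775) (nat_lit 23) (nat_lit 5) (nat_lit 26) (nat_lit 5) (nat_lit 24) (nat_lit 4) (nat_lit 385) (nat_lit 353) (nat_lit 282)) (XT.nd (nat_lit 78) (nat_lit 76) (nat_lit 0) (XT.lf (nat_lit 0) (nat_lit 26777382461) (nat_lit 76) (nat_lit 11621555002) (nat_lit 152) (nat_lit 13524878155) (nat_lit 22) (nat_lit 5) (nat_lit 23) (nat_lit 5) (nat_lit 24) (nat_lit 4) (nat_lit 386) (nat_lit 353) (nat_lit 281)) (XT.lf (nat_lit 0) (nat_lit 1621488278) (nat_lit 76) (nat_lit 51200196091) (nat_lit 76) (nat_lit 2026222128) (nat_lit 21) (nat_lit 4) (nat_lit 22) (nat_lit 5) (nat_lit 22) (nat_lit 4) (nat_lit 387) (nat_lit 353) (nat_lit 280))))))) (XT.nd (nat_lit 702) (nat_lit 456) (nat_lit 0) (XT.nd (nat_lit 312) (nat_lit 228) (nat_lit 0) (XT.nd (nat_lit 156) (nat_lit 76) (nat_lit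 0) (XT.nd (nat_lit 78) (nat_lit 76) (nat_lit 0) (XT.lf (nat_lit 0) (nat_lit 10870446450) (nat_lit 152) (nat_lit 26576720736) (nat_lit 76) (nat_lit 20458926725) (nat_lit 20) (nat_lit 5) (nat_lit 22) (nat_lit 5) (nat_lit 21) (nat_lit 4) (nat_lit 388) (nat_lit 353) (nat_lit 279)) (XT.lf (nat_lit 0) (nat_lit 2249002974) (nat_lit 76) (nat_lit 22485874120) (nat_lit 152) (nat_lit 36466211920) (nat_lit 19) (nat_lit 5) (nat_lit 20) (nat_lit 5) (nat_lit 21) (nat_lit 4) (nat_lit 389) (nat_lit 353) (nat_lit 278))) (XT.nd (nat_lit 78) (nat_lit 76) (nat_lit 0) (XT.lf (nat_lit 0) (nat_lit 34876802202) (nat_lit 76) (nat_lit 5549988707) (nat_lit 152) (nat_lit 24275429113) (nat_lit 19) (nat_lit 5) (nat_lit 20) (nat_lit 5) (nat_lit 21) (nat_lit 4) (nat_lit 390) (nat_lit 353) (nat_lit 277)) (XT.lf (nat_lit 0) (nat_lit 1379219653) (nat_lit 76) (nat_lit 56326556956) (nat_lit 76) (nat_lit 10751129803) (nat_lit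 18) (nat_lit 4) (nat_lit 19) (nat_lit 5) (nat_lit 19) (nat_lit 4) (nat_lit 391) (nat_lit 353) (nat_lit 276)))) (XT.nd (nat_lit 156) (nat_lit 152) (nat_lit 0) (XT.nd (nat_lit 78) (nat_lit 0) (nat_lit 0) (XT.lf (nat_lit 0) (nat_lit 4635251309) (nat_lit 152) (nat_lit 35943139435) (nat_lit 76) (nat_lit 31848322883) (nat_lit 17) (nat_lit 5) (nat_lit 19) (nat_lit 5) (nat_lit 18) (nat_lit 4) (nat_lit 392) (nat_lit 353) (nat_lit 275)) (XT.lf (nat_lit 0) (nat_lit 20664452306) (nat_lit 152) (nat_lit 2610767111) (nat_lit 76) (nat_lit 53417127929) (nat_lit 17) (nat_lit 5) (nat_lit 19) (nat_lit 5) (nat_lit 18) (nat_lit 4) (nat_lit 393) (nat_lit 353) (nat_lit 274))) (XT.nd (nat_lit 78) (nat_lit 76) (nat_lit 0) (XT.lf (nat_lit 0) (nat_lit 35133016067) (nat_lit 76) (nat_lit 3681209913) (nat_lit 152) (nat_lit 42417948621) (nat_lit 16) (nat_lit 5) (nat_lit 17) (nat_lit 5) (nat_lit 18) (nat_lit 4) (nat_lit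 394) (nat_lit 353) (nat_lit 273)) (XT.nd (nat_lit 78) (nat_lit 76) (nat_lit 0) (XT.lf (nat_lit 0) (nat_lit 58902967194) (nat_lit 152) (nat_lit 10519691109) (nat_lit 0) (nat_lit 16673572515) (nat_lit 16) (nat_lit 5) (nat_lit 18) (nat_lit 4) (nat_lit 16) (nat_lit 4) (nat_lit 395) (nat_lit 353) (nat_lit 272)) (XT.lf (nat_lit 0) (nat_lit 29262556861) (nat_lit 76) (nat_lit 52129471158) (nat_lit 76) (nat_lit 9893927405) (nat_lit 15) (nat_lit 4) (nat_lit 16) (nat_lit 5) (nat_lit 16) (nat_lit 4) (nat_lit 396) (nat_lit 353) (nat_lit 271)))))) (XT.nd (nat_lit 390) (nat_lit 228) (nat_lit 0) (XT.nd (nat_lit 156) (nat_lit 76) (nat_lit 0) (XT.nd (nat_lit 78) (nat_lit 76) (nat_lit 0) (XT.lf (nat_lit 0) (nat_lit 8638636886) (nat_lit 152) (nat_lit 24272872615) (nat_lit 76) (nat_lit 63939322229) (nat_lit 14) (nat_lit 5) (nat_lit 16) (nat_lit 5) (nat_lit 15) (nat_lit 4) (nat_lit 397) (nat_lit 353) (nat_lit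 270)) (XT.lf (nat_lit 0) (nat_lit 17084397952) (nat_lit 76) (nat_lit 11440076630) (nat_lit 152) (nat_lit 74283450165) (nat_lit 13) (nat_lit 5) (nat_lit 14) (nat_lit 5) (nat_lit 15) (nat_lit 4) (nat_lit 398) (nat_lit 353) (nat_lit 269))) (XT.nd (nat_lit 78) (nat_lit 76) (nat_lit 0) (XT.lf (nat_lit 0) (nat_lit 50959003871) (nat_lit 152) (nat_lit 46368610496) (nat_lit 0) (nat_lit 11837345986) (nat_lit 13) (nat_lit 5) (nat_lit 15) (nat_lit 4) (nat_lit 13) (nat_lit 4) (nat_lit 399) (nat_lit 353) (nat_lit 268)) (XT.nd (nat_lit 78) (nat_lit 76) (nat_lit 0) (XT.lf (nat_lit 0) (nat_lit 75480216068) (nat_lit 152) (nat_lit 4172616898) (nat_lit 0) (nat_lit 36354373226) (nat_lit 13) (nat_lit 5) (nat_lit 15) (nat_lit 4) (nat_lit 13) (nat_lit 4) (nat_lit 400) (nat_lit 353) (nat_lit 267)) (XT.lf (nat_lit 0) (nat_lit 43569143459) (nat_lit 76) (nat_lit 59436983432) (nat_lit 76) (nat_lit 20307265631) (nat_lit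 12) (nat_lit 4) (nat_lit 13) (nat_lit 5) (nat_lit 13) (nat_lit 4) (nat_lit 401) (nat_lit 353) (nat_lit 266))))) (XT.nd (nat_lit 156) (nat_lit 76) (nat_lit 0) (XT.nd (nat_lit 78) (nat_lit 76) (nat_lit 0) (XT.lf (nat_lit 0) (nat_lit 1565725564) (nat_lit 152) (nat_lit 35876596552) (nat_lit 76) (nat_lit 93749830474) (nat_lit 11) (nat_lit 5) (nat_lit 13) (nat_lit 5) (nat_lit 12) (nat_lit 4) (nat_lit 402) (nat_lit 353) (nat_lit 265)) (XT.lf (nat_lit 0) (nat_lit 11541630553) (nat_lit 76) (nat_lit 12822916770) (nat_lit 152) (nat_lit 115272621097) (nat_lit 10) (nat_lit 5) (nat_lit 11) (nat_lit 5) (nat_lit 12) (nat_lit 4) (nat_lit 403) (nat_lit 353) (nat_lit 264))) (XT.nd (nat_lit 78) (nat_lit 76) (nat_lit 0) (XT.lf (nat_lit 0) (nat_lit 50320317051) (nat_lit 152) (nat_lit 84250975359) (nat_lit 0) (nat_lit 14079850431) (nat_lit 10) (nat_lit 5) (nat_lit 12) (nat_lit 4) (nat_lit 10) (nat_lit 4) (nat_lit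 404) (nat_lit 353) (nat_lit 263)) (XT.nd (nat_lit 78) (nat_lit 76) (nat_lit 0) (XT.lf (nat_lit 0) (nat_lit 78681500190) (nat_lit 152) (nat_lit 37240023189) (nat_lit 0) (nat_lit 42438396338) (nat_lit 10) (nat_lit 5) (nat_lit 12) (nat_lit 4) (nat_lit 10) (nat_lit 4) (nat_lit 405) (nat_lit 353) (nat_lit 262)) (XT.lf (nat_lit 0) (nat_lit 14236458847) (nat_lit 76) (nat_lit 95413699886) (nat_lit 76) (nat_lit 59168154152) (nat_lit 9) (nat_lit 4) (nat_lit 10) (nat_lit 5) (nat_lit 10) (nat_lit 4) (nat_lit 406) (nat_lit 353) (nat_lit 261))))))))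
noncomputable def xc133 : XT := (XT.nd (nat_lit 1482) (nat_lit 152) (nat_lit 0) (XT.nd (nat_lit 702) (nat_lit 228) (nat_lit 0) (XT.nd (nat_lit 312) (nat_lit 76) (nat_lit 0) (XT.nd (nat_lit 156) (nat_lit 152) (nat_lit 0) (XT.nd (nat_lit 78) (nat_lit 0) (nat_lit 0) (XT.lf (nat_lit 0) (nat_lit 71941611097) (nat_lit 76) (nat_lit 72169206544) (nat_lit 76) (nat_lit 35921399807) (nat_lit 9) (nat_lit 4) (nat_lit 10) (nat_lit 5) (nat_lit 10) (nat_lit 4) (nat_lit 407) (nat_lit 353) (nat_lit 260)) (XT.lf (nat_lit 0) (nat_lit 134256396391) (nat_lit 76) (nat_lit 47068506437) (nat_lit 76) (nat_lit 10818606180) (nat_lit 9) (nat_lit 4) (nat_lit 10) (nat_lit 5) (nat_lit 10) (nat_lit 4) (nat_lit 408) (nat_lit 353) (nat_lit 259))) (XT.nd (nat_lit 78) (nat_lit 76) (nat_lit 0) (XT.lf (nat_lit 0) (nat_lit 15474143074) (nat_lit 152) (nat_lit 4065621107) (nat_lit 76) (nat_lit 185652853961) (nat_lit 8) (nat_lit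 5) (nat_lit 10) (nat_lit 5) (nat_lit 9) (nat_lit 4) (nat_lit 409) (nat_lit 353) (nat_lit 258)) (XT.lf (nat_lit 0) (nat_lit 44931883593) (nat_lit 152) (nat_lit 162835903666) (nat_lit 0) (nat_lit 11363704372) (nat_lit 7) (nat_lit 5) (nat_lit 9) (nat_lit 4) (nat_lit 7) (nat_lit 4) (nat_lit 410) (nat_lit 353) (nat_lit 257)))) (XT.nd (nat_lit 156) (nat_lit 76) (nat_lit 0) (XT.nd (nat_lit 78) (nat_lit 0) (nat_lit 0) (XT.lf (nat_lit 0) (nat_lit 77364817785) (nat_lit 152) (nat_lit 112976071874) (nat_lit 0) (nat_lit 43795099765) (nat_lit 7) (nat_lit 5) (nat_lit 9) (nat_lit 4) (nat_lit 7) (nat_lit 4) (nat_lit 411) (nat_lit 353) (nat_lit 256)) (XT.lf (nat_lit 0) (nat_lit 112389608469) (nat_lit 152) (nat_lit 59132995546) (nat_lit 0) (nat_lit 78818465634) (nat_lit 7) (nat_lit 5) (nat_lit 9) (nat_lit 4) (nat_lit 7) (nat_lit 4) (nat_lit 412) (nat_lit 353) (nat_lit 255))) (XT.nd (nat_lit 78) (nat_lit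 76) (nat_lit 0) (XT.lf (nat_lit 0) (nat_lit 150213809961) (nat_lit 152) (nat_lit 987604600) (nat_lit 0) (nat_lit 116641347853) (nat_lit 7) (nat_lit 5) (nat_lit 9) (nat_lit 4) (nat_lit 7) (nat_lit 4) (nat_lit 413) (nat_lit 353) (nat_lit 254)) (XT.nd (nat_lit 78) (nat_lit 0) (nat_lit 0) (XT.lf (nat_lit 0) (nat_lit 65059190439) (nat_lit 76) (nat_lit 127567050332) (nat_lit 76) (nat_lit 93993366675) (nat_lit 6) (nat_lit 4) (nat_lit 7) (nat_lit 5) (nat_lit 7) (nat_lit 4) (nat_lit 414) (nat_lit 353) (nat_lit 253)) (XT.lf (nat_lit 0) (nat_lit 136441263941) (nat_lit 76) (nat_lit 102015088128) (nat_lit 76) (nat_lit 68440273407) (nat_lit 6) (nat_lit 4) (nat_lit 7) (nat_lit 5) (nat_lit 7) (nat_lit 4) (nat_lit 415) (nat_lit 353) (nat_lit 252)))))) (XT.nd (nat_lit 390) (nat_lit 76) (nat_lit 0) (XT.nd (nat_lit 156) (nat_lit 152) (nat_lit 0) (XT.nd (nat_lit 78) (nat_lit 0) (nat_lit 0) (XT.lf (nat_lit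 0) (nat_lit 213529615276) (nat_lit 76) (nat_lit 74421111775) (nat_lit 76) (nat_lit 40845249773) (nat_lit 6) (nat_lit 4) (nat_lit 7) (nat_lit 5) (nat_lit 7) (nat_lit 4) (nat_lit 416) (nat_lit 353) (nat_lit 251)) (XT.lf (nat_lit 0) (nat_lit 296781064304) (nat_lit 76) (nat_lit 44621601413) (nat_lit 76) (nat_lit 11044769706) (nat_lit 6) (nat_lit 4) (nat_lit 7) (nat_lit 5) (nat_lit 7) (nat_lit 4) (nat_lit 417) (nat_lit 353) (nat_lit 250))) (XT.nd (nat_lit 78) (nat_lit 0) (nat_lit 0) (XT.lf (nat_lit 0) (nat_lit 8620672122) (nat_lit 76) (nat_lit 11667021005) (nat_lit 152) (nat_lit 357646209655) (nat_lit 4) (nat_lit 5) (nat_lit 5) (nat_lit 5) (nat_lit 6) (nat_lit 4) (nat_lit 418) (nat_lit 353) (nat_lit 249)) (XT.nd (nat_lit 78) (nat_lit 0) (nat_lit 0) (XT.lf (nat_lit 0) (nat_lit 55665089448) (nat_lit 152) (nat_lit 325026615517) (nat_lit 0) (nat_lit 24573829310) (nat_lit 4) (nat_lit 5) (nat_lit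 6) (nat_lit 4) (nat_lit 4) (nat_lit 4) (nat_lit 419) (nat_lit 353) (nat_lit 248)) (XT.lf (nat_lit 0) (nat_lit 94173976018) (nat_lit 152) (nat_lit 277503613445) (nat_lit 0) (nat_lit 63082003118) (nat_lit 4) (nat_lit 5) (nat_lit 6) (nat_lit 4) (nat_lit 4) (nat_lit 4) (nat_lit 420) (nat_lit 353) (nat_lit 247))))) (XT.nd (nat_lit 156) (nat_lit 76) (nat_lit 0) (XT.nd (nat_lit 78) (nat_lit 0) (nat_lit 0) (XT.lf (nat_lit 0) (nat_lit 135761961510) (nat_lit 152) (nat_lit 226182014517) (nat_lit 0) (nat_lit 104669328646) (nat_lit 4) (nat_lit 5) (nat_lit 6) (nat_lit 4) (nat_lit 4) (nat_lit 4) (nat_lit 421) (nat_lit 353) (nat_lit 246)) (XT.lf (nat_lit 0) (nat_lit 180675493246) (nat_lit 152) (nat_lit 170757690741) (nat_lit 0) (nat_lit 149582249303) (nat_lit 4) (nat_lit 5) (nat_lit 6) (nat_lit 4) (nat_lit 4) (nat_lit 4) (nat_lit 422) (nat_lit 353) (nat_lit 245))) (XT.nd (nat_lit 78) (nat_lit 76) (nat_lit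 0) (XT.lf (nat_lit 0) (nat_lit 229180725489) (nat_lit 152) (nat_lit 110902201680) (nat_lit 0) (nat_lit 198086915732) (nat_lit 4) (nat_lit 5) (nat_lit 6) (nat_lit 4) (nat_lit 4) (nat_lit 4) (nat_lit 423) (nat_lit 353) (nat_lit 244)) (XT.nd (nat_lit 78) (nat_lit 76) (nat_lit 0) (XT.lf (nat_lit 0) (nat_lit 281565096650) (nat_lit 152) (nat_lit 46260848138) (nat_lit 0) (nat_lit 250470762992) (nat_lit 4) (nat_lit 5) (nat_lit 6) (nat_lit 4) (nat_lit 4) (nat_lit 4) (nat_lit 424) (nat_lit 353) (nat_lit 243)) (XT.lf (nat_lit 0) (nat_lit 24789500993) (nat_lit 76) (nat_lit 313945719735) (nat_lit 76) (nat_lit 282850900983) (nat_lit 3) (nat_lit 4) (nat_lit 4) (nat_lit 5) (nat_lit 4) (nat_lit 4) (nat_lit 425) (nat_lit 353) (nat_lit 242))))))) (XT.nd (nat_lit 780) (nat_lit 152) (nat_lit 0) (XT.nd (nat_lit 390) (nat_lit 0) (nat_lit 0) (XT.nd (nat_lit 156) (nat_lit 0) (nat_lit 0) (XT.nd (nat_lit 78) (nat_lit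 0) (nat_lit 0) (XT.lf (nat_lit 0) (nat_lit 104152449902) (nat_lit 76) (nat_lit 297590205416) (nat_lit 76) (nat_lit 266494937503) (nat_lit 3) (nat_lit 4) (nat_lit 4) (nat_lit 5) (nat_lit 4) (nat_lit 4) (nat_lit 426) (nat_lit 353) (nat_lit 241)) (XT.lf (nat_lit 0) (nat_lit 189862283264) (nat_lit 76) (nat_lit 279927333834) (nat_lit 76) (nat_lit 248831650031) (nat_lit 3) (nat_lit 4) (nat_lit 4) (nat_lit 5) (nat_lit 4) (nat_lit 4) (nat_lit 427) (nat_lit 353) (nat_lit 240))) (XT.nd (nat_lit 78) (nat_lit 0) (nat_lit 0) (XT.lf (nat_lit 0) (nat_lit 282426911201) (nat_lit 76) (nat_lit 260852436121) (nat_lit 76) (nat_lit 229756367235) (nat_lit 3) (nat_lit 4) (nat_lit 4) (nat_lit 5) (nat_lit 4) (nat_lit 4) (nat_lit 428) (nat_lit 353) (nat_lit 239)) (XT.nd (nat_lit 78) (nat_lit 0) (nat_lit 0) (XT.lf (nat_lit 0) (nat_lit 382394864842) (nat_lit 76) (nat_lit 240252475845) (nat_lit 76) (nat_lit 209156050401)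 (nat_lit 3) (nat_lit 4) (nat_lit 4) (nat_lit 5) (nat_lit 4) (nat_lit 4) (nat_lit 429) (nat_lit 353) (nat_lit 238)) (XT.lf (nat_lit 0) (nat_lit 490358546875) (nat_lit 76) (nat_lit 218005379169) (nat_lit 76) (nat_lit 186908623577) (nat_lit 3) (nat_lit 4) (nat_lit 4) (nat_lit 5) (nat_lit 4) (nat_lit 4) (nat_lit 430) (nat_lit 353) (nat_lit 237))))) (XT.nd (nat_lit 156) (nat_lit 0) (nat_lit 0) (XT.nd (nat_lit 78) (nat_lit 0) (nat_lit 0) (XT.lf (nat_lit 0) (nat_lit 606957742083) (nat_lit 76) (nat_lit 193979311444) (nat_lit 76) (nat_lit 162882250161) (nat_lit 3) (nat_lit 4) (nat_lit 4) (nat_lit 5) (nat_lit 4) (nat_lit 4) (nat_lit 431) (nat_lit 353) (nat_lit 236)) (XT.lf (nat_lit 0) (nat_lit 732883408659) (nat_lit 76) (nat_lit 168031895974) (nat_lit 76) (nat_lit 136934551643) (nat_lit 3) (nat_lit 4) (nat_lit 4) (nat_lit 5) (nat_lit 4) (nat_lit 4) (nat_lit 432) (nat_lit 353) (nat_lit 235))) (XT.nd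 (nat_lit 78) (nat_lit 0) (nat_lit 0) (XT.lf (nat_lit 0) (nat_lit 868881772776) (nat_lit 76) (nat_lit 140009370296) (nat_lit 76) (nat_lit 108911763884) (nat_lit 3) (nat_lit 4) (nat_lit 4) (nat_lit 5) (nat_lit 4) (nat_lit 4) (nat_lit 433) (nat_lit 353) (nat_lit 234)) (XT.nd (nat_lit 78) (nat_lit 0) (nat_lit 0) (XT.lf (nat_lit 0) (nat_lit 1015758750666) (nat_lit 76) (nat_lit 109745674999) (nat_lit 76) (nat_lit 78647825919) (nat_lit 3) (nat_lit 4) (nat_lit 4) (nat_lit 5) (nat_lit 4) (nat_lit 4) (nat_lit 434) (nat_lit 353) (nat_lit 233)) (XT.lf (nat_lit 0) (nat_lit 1174384724420) (nat_lit 76) (nat_lit 77061469666) (nat_lit 76) (nat_lit 45963395894) (nat_lit 3) (nat_lit 4) (nat_lit 4) (nat_lit 5) (nat_lit 4) (nat_lit 4) (nat_lit 435) (nat_lit 353) (nat_lit 232)))))) (XT.nd (nat_lit 390) (nat_lit 0) (nat_lit 0) (XT.nd (nat_lit 156) (nat_lit 0) (nat_lit 0) (XT.nd (nat_lit 78) (nat_lit 152) (nat_lit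 0) (XT.lf (nat_lit 0) (nat_lit 1345699699808) (nat_lit 76) (nat_lit 41763070118) (nat_lit 76) (nat_lit 10664788298) (nat_lit 3) (nat_lit 4) (nat_lit 4) (nat_lit 5) (nat_lit 4) (nat_lit 4) (nat_lit 436) (nat_lit 353) (nat_lit 231)) (XT.lf (nat_lit 0) (nat_lit 24374856500) (nat_lit 76) (nat_lit 2295014152) (nat_lit 152) (nat_lit 1480133407955) (nat_lit 1) (nat_lit 5) (nat_lit 2) (nat_lit 5) (nat_lit 3) (nat_lit 4) (nat_lit 437) (nat_lit 353) (nat_lit 230))) (XT.nd (nat_lit 78) (nat_lit 0) (nat_lit 0) (XT.lf (nat_lit 0) (nat_lit 68855273571) (nat_lit 152) (nat_lit 1515040186089) (nat_lit 0) (nat_lit 40060224658) (nat_lit 1) (nat_lit 5) (nat_lit 3) (nat_lit 4) (nat_lit 1) (nat_lit 4) (nat_lit 438) (nat_lit 353) (nat_lit 229)) (XT.nd (nat_lit 78) (nat_lit 0) (nat_lit 0) (XT.lf (nat_lit 0) (nat_lit 114474651054) (nat_lit 152) (nat_lit 1550321450862) (nat_lit 0) (nat_lit 85679449219) (nat_lit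 1) (nat_lit 5) (nat_lit 3) (nat_lit 4) (nat_lit 1) (nat_lit 4) (nat_lit 439) (nat_lit 353) (nat_lit 228)) (XT.lf (nat_lit 0) (nat_lit 163743145008) (nat_lit 152) (nat_lit 1588426095444) (nat_lit 0) (nat_lit 134947801579) (nat_lit 1) (nat_lit 5) (nat_lit 3) (nat_lit 4) (nat_lit 1) (nat_lit 4) (nat_lit 440) (nat_lit 353) (nat_lit 227))))) (XT.nd (nat_lit 156) (nat_lit 0) (nat_lit 0) (XT.nd (nat_lit 78) (nat_lit 0) (nat_lit 0) (XT.lf (nat_lit 0) (nat_lit 216952716880) (nat_lit 152) (nat_lit 1629579925135) (nat_lit 0) (nat_lit 188157242345) (nat_lit 1) (nat_lit 5) (nat_lit 3) (nat_lit 4) (nat_lit 1) (nat_lit 4) (nat_lit 441) (nat_lit 353) (nat_lit 226)) (XT.lf (nat_lit 0) (nat_lit 274418682650) (nat_lit 152) (nat_lit 1674026814483) (nat_lit 0) (nat_lit 245623086721) (nat_lit 1) (nat_lit 5) (nat_lit 3) (nat_lit 4) (nat_lit 1) (nat_lit 4) (nat_lit 442) (nat_lit 353) (nat_lit 225))) (XT.nd (nat_lit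 78) (nat_lit 0) (nat_lit 0) (XT.lf (nat_lit 0) (nat_lit 336481581374) (nat_lit 152) (nat_lit 1722030152460) (nat_lit 0) (nat_lit 307685873043) (nat_lit 1) (nat_lit 5) (nat_lit 3) (nat_lit 4) (nat_lit 1) (nat_lit 4) (nat_lit 443) (nat_lit 353) (nat_lit 224)) (XT.nd (nat_lit 78) (nat_lit 0) (nat_lit 0) (XT.lf (nat_lit 0) (nat_lit 403509193194) (nat_lit 152) (nat_lit 1773874403292) (nat_lit 0) (nat_lit 374713380787) (nat_lit 1) (nat_lit 5) (nat_lit 3) (nat_lit 4) (nat_lit 1) (nat_lit 4) (nat_lit 444) (nat_lit 353) (nat_lit 223)) (XT.lf (nat_lit 0) (nat_lit 475898718772) (nat_lit 152) (nat_lit 1829866792169) (nat_lit 0) (nat_lit 447102809998) (nat_lit 1) (nat_lit 5) (nat_lit 3) (nat_lit 4) (nat_lit 1) (nat_lit 4) (nat_lit 445) (nat_lit 353) (nat_lit 222))))))))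
noncomputable def xc134 : XT := (XT.nd (nat_lit 46410) (nat_lit 0) (nat_lit 2204) (XT.nd (nat_lit 702) (nat_lit 0) (nat_lit 0) (XT.nd (nat_lit 312) (nat_lit 0) (nat_lit 0) (XT.nd (nat_lit 156) (nat_lit 0) (nat_lit 0) (XT.nd (nat_lit 78) (nat_lit 0) (nat_lit 0) (XT.lf (nat_lit 0) (nat_lit 554079133075) (nat_lit 152) (nat_lit 1890339125840) (nat_lit 0) (nat_lit 525283135073) (nat_lit 1) (nat_lit 5) (nat_lit 3) (nat_lit 4) (nat_lit 1) (nat_lit 4) (nat_lit 446) (nat_lit 353) (nat_lit 221)) (XT.lf (nat_lit 0) (nat_lit 638513727446) (nat_lit 152) (nat_lit 1955649758875) (nat_lit 0) (nat_lit 609717646825) (nat_lit 1) (nat_lit 5) (nat_lit 3) (nat_lit 4) (nat_lit 1) (nat_lit 4) (nat_lit 447) (nat_lit 353) (nat_lit 220))) (XT.nd (nat_lit 78) (nat_lit 0) (nat_lit 0) (XT.lf (nat_lit 0) (nat_lit 729702855037) (nat_lit 152) (nat_lit 2026185717247) (nat_lit 0) (nat_lit 700906697917) (nat_lit 1) (nat_lit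 5) (nat_lit 3) (nat_lit 4) (nat_lit 1) (nat_lit 4) (nat_lit 448) (nat_lit 353) (nat_lit 219)) (XT.lf (nat_lit 0) (nat_lit 828186895864) (nat_lit 152) (nat_lit 2102364991821) (nat_lit 0) (nat_lit 799390667911) (nat_lit 1) (nat_lit 5) (nat_lit 3) (nat_lit 4) (nat_lit 1) (nat_lit 4) (nat_lit 449) (nat_lit 353) (nat_lit 218)))) (XT.nd (nat_lit 156) (nat_lit 0) (nat_lit 0) (XT.nd (nat_lit 78) (nat_lit 0) (nat_lit 0) (XT.lf (nat_lit 0) (nat_lit 934549459057) (nat_lit 152) (nat_lit 2184639015334) (nat_lit 0) (nat_lit 905753165519) (nat_lit 1) (nat_lit 5) (nat_lit 3) (nat_lit 4) (nat_lit 1) (nat_lit 4) (nat_lit 450) (nat_lit 353) (nat_lit 217)) (XT.lf (nat_lit 0) (nat_lit 1049420841288) (nat_lit 152) (nat_lit 2273495337557) (nat_lit 0) (nat_lit 1020624487022) (nat_lit 1) (nat_lit 5) (nat_lit 3) (nat_lit 4) (nat_lit 1) (nat_lit 4) (nat_lit 451) (nat_lit 353) (nat_lit 216))) (XT.nd (nat_lit 78)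 (nat_lit 0) (nat_lit 0) (XT.lf (nat_lit 0) (nat_lit 1173481761858) (nat_lit 152) (nat_lit 2369460514472) (nat_lit 0) (nat_lit 1144685351363) (nat_lit 1) (nat_lit 5) (nat_lit 3) (nat_lit 4) (nat_lit 1) (nat_lit 4) (nat_lit 452) (nat_lit 353) (nat_lit 215)) (XT.nd (nat_lit 78) (nat_lit 0) (nat_lit 0) (XT.lf (nat_lit 0) (nat_lit 1307467396593) (nat_lit 152) (nat_lit 2473103228610) (nat_lit 0) (nat_lit 1278670934034) (nat_lit 1) (nat_lit 5) (nat_lit 3) (nat_lit 4) (nat_lit 1) (nat_lit 4) (nat_lit 453) (nat_lit 353) (nat_lit 214)) (XT.lf (nat_lit 0) (nat_lit 1452171734439) (nat_lit 152) (nat_lit 2585037659017) (nat_lit 0) (nat_lit 1423375223673) (nat_lit 1) (nat_lit 5) (nat_lit 3) (nat_lit 4) (nat_lit 1) (nat_lit 4) (nat_lit 454) (nat_lit 353) (nat_lit 213)))))) (XT.nd (nat_lit 45318) (nat_lit 0) (nat_lit 4560) (XT.nd (nat_lit 156) (nat_lit 0) (nat_lit 0) (XT.nd (nat_lit 78) (nat_lit 0) (nat_lit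 0) (XT.lf (nat_lit 0) (nat_lit 1608452282584) (nat_lit 152) (nat_lit 2705927120836) (nat_lit 0) (nat_lit 1579655727182) (nat_lit 1) (nat_lit 5) (nat_lit 3) (nat_lit 4) (nat_lit 1) (nat_lit 4) (nat_lit 455) (nat_lit 353) (nat_lit 212)) (XT.lf (nat_lit 0) (nat_lit 1777235147980) (nat_lit 152) (nat_lit 2836487996063) (nat_lit 0) (nat_lit 1748438551248) (nat_lit 1) (nat_lit 5) (nat_lit 3) (nat_lit 4) (nat_lit 1) (nat_lit 4) (nat_lit 456) (nat_lit 353) (nat_lit 211))) (XT.nd (nat_lit 78) (nat_lit 0) (nat_lit 0) (XT.lf (nat_lit 0) (nat_lit 1959520525384) (nat_lit 152) (nat_lit 2977493978774) (nat_lit 0) (nat_lit 1930723890384) (nat_lit 1) (nat_lit 5) (nat_lit 3) (nat_lit 4) (nat_lit 1) (nat_lit 4) (nat_lit 457) (nat_lit 353) (nat_lit 210)) (XT.nd (nat_lit 45006) (nat_lit 0) (nat_lit 4560) (XT.lf (nat_lit 0) (nat_lit 2156388624441) (nat_lit 152) (nat_lit 3129780659977) (nat_lit 0) (nat_lit 2127591954007)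 (nat_lit 1) (nat_lit 5) (nat_lit 3) (nat_lit 4) (nat_lit 1) (nat_lit 4) (nat_lit 458) (nat_lit 353) (nat_lit 209)) (XT.lf (nat_lit 0) (nat_lit 3189367466) (nat_lit 532) (nat_lit 1469530814) (nat_lit 532) (nat_lit 1469530814) (nat_lit 61) (nat_lit 3) (nat_lit 68) (nat_lit 3) (nat_lit 68) (nat_lit 5) (nat_lit 354) (nat_lit 354) (nat_lit 312))))) (XT.nd (nat_lit 156) (nat_lit 0) (nat_lit 76) (XT.nd (nat_lit 78) (nat_lit 0) (nat_lit 76) (XT.lf (nat_lit 76) (nat_lit 3129253056) (nat_lit 0) (nat_lit 4007080883) (nat_lit 532) (nat_lit 5570080820) (nat_lit 62) (nat_lit 5) (nat_lit 61) (nat_lit 3) (nat_lit 68) (nat_lit 5) (nat_lit 355) (nat_lit 354) (nat_lit 311)) (XT.lf (nat_lit 0) (nat_lit 8035689955) (nat_lit 456) (nat_lit 3407282078) (nat_lit 532) (nat_lit 1742524095) (nat_lit 62) (nat_lit 5) (nat_lit 68) (nat_lit 5) (nat_lit 69) (nat_lit 5) (nat_lit 356) (nat_lit 354) (nat_lit 310))) (XT.nd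 (nat_lit 78) (nat_lit 0) (nat_lit 76) (XT.lf (nat_lit 76) (nat_lit 3290511311) (nat_lit 0) (nat_lit 5860007828) (nat_lit 532) (nat_lit 4540951231) (nat_lit 63) (nat_lit 5) (nat_lit 62) (nat_lit 5) (nat_lit 69) (nat_lit 5) (nat_lit 357) (nat_lit 354) (nat_lit 309)) (XT.nd (nat_lit 78) (nat_lit 0) (nat_lit 0) (XT.lf (nat_lit 0) (nat_lit 10417112520) (nat_lit 456) (nat_lit 3547921323) (nat_lit 532) (nat_lit 267927237) (nat_lit 63) (nat_lit 5) (nat_lit 69) (nat_lit 5) (nat_lit 70) (nat_lit 5) (nat_lit 358) (nat_lit 354) (nat_lit 308)) (XT.lf (nat_lit 76) (nat_lit 3867921569) (nat_lit 0) (nat_lit 8128008435) (nat_lit 532) (nat_lit 2805010753) (nat_lit 64) (nat_lit 5) (nat_lit 63) (nat_lit 5) (nat_lit 70) (nat_lit 5) (nat_lit 359) (nat_lit 354) (nat_lit 307))))))) (XT.nd (nat_lit 780) (nat_lit 988) (nat_lit 0) (XT.nd (nat_lit 390) (nat_lit 684) (nat_lit 0) (XT.nd (nat_lit 156) (nat_lit 456)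 (nat_lit 0) (XT.nd (nat_lit 78) (nat_lit 380) (nat_lit 0) (XT.lf (nat_lit 76) (nat_lit 12052762784) (nat_lit 0) (nat_lit 1712878598) (nat_lit 532) (nat_lit 1643588718) (nat_lit 64) (nat_lit 5) (nat_lit 63) (nat_lit 5) (nat_lit 70) (nat_lit 5) (nat_lit 360) (nat_lit 354) (nat_lit 306)) (XT.lf (nat_lit 0) (nat_lit 4920213435) (nat_lit 456) (nat_lit 10970604803) (nat_lit 532) (nat_lit 158288796) (nat_lit 58) (nat_lit 5) (nat_lit 64) (nat_lit 5) (nat_lit 65) (nat_lit 5) (nat_lit 361) (nat_lit 354) (nat_lit 305))) (XT.nd (nat_lit 78) (nat_lit 380) (nat_lit 0) (XT.lf (nat_lit 0) (nat_lit 1483100980) (nat_lit 532) (nat_lit 2792141770) (nat_lit 76) (nat_lit 12453412653) (nat_lit 57) (nat_lit 5) (nat_lit 64) (nat_lit 5) (nat_lit 58) (nat_lit 5) (nat_lit 362) (nat_lit 354) (nat_lit 304)) (XT.nd (nat_lit 78) (nat_lit 0) (nat_lit 0) (XT.lf (nat_lit 0) (nat_lit 3452143364) (nat_lit 456) (nat_lit 11019756467)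 (nat_lit 76) (nat_lit 2973975653) (nat_lit 52) (nat_lit 5) (nat_lit 58) (nat_lit 5) (nat_lit 53) (nat_lit 5) (nat_lit 363) (nat_lit 354) (nat_lit 303)) (XT.lf (nat_lit 0) (nat_lit 5742587152) (nat_lit 456) (nat_lit 1813731054) (nat_lit 76) (nat_lit 10651070840) (nat_lit 52) (nat_lit 5) (nat_lit 58) (nat_lit 5) (nat_lit 53) (nat_lit 5) (nat_lit 364) (nat_lit 354) (nat_lit 302))))) (XT.nd (nat_lit 156) (nat_lit 456) (nat_lit 0) (XT.nd (nat_lit 78) (nat_lit 0) (nat_lit 0) (XT.lf (nat_lit 0) (nat_lit 8401013895) (nat_lit 304) (nat_lit 10487978412) (nat_lit 76) (nat_lit 126075769) (nat_lit 49) (nat_lit 5) (nat_lit 53) (nat_lit 5) (nat_lit 50) (nat_lit 5) (nat_lit 365) (nat_lit 354) (nat_lit 301)) (XT.lf (nat_lit 0) (nat_lit 11496774938) (nat_lit 304) (nat_lit 308737119) (nat_lit 76) (nat_lit 8063898948) (nat_lit 49) (nat_lit 5) (nat_lit 53) (nat_lit 5) (nat_lit 50) (nat_lit 5) (nat_lit 366)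 (nat_lit 354) (nat_lit 300))) (XT.nd (nat_lit 78) (nat_lit 228) (nat_lit 0) (XT.lf (nat_lit 0) (nat_lit 11222038047) (nat_lit 228) (nat_lit 3867228235) (nat_lit 304) (nat_lit 5682930265) (nat_lit 46) (nat_lit 5) (nat_lit 49) (nat_lit 5) (nat_lit 50) (nat_lit 5) (nat_lit 367) (nat_lit 354) (nat_lit 299)) (XT.nd (nat_lit 78) (nat_lit 76) (nat_lit 0) (XT.lf (nat_lit 0) (nat_lit 1903016330) (nat_lit 152) (nat_lit 17213816345) (nat_lit 228) (nat_lit 2618577393) (nat_lit 44) (nat_lit 5) (nat_lit 46) (nat_lit 5) (nat_lit 47) (nat_lit 5) (nat_lit 368) (nat_lit 354) (nat_lit 298)) (XT.lf (nat_lit 0) (nat_lit 1005151259) (nat_lit 228) (nat_lit 8088560427) (nat_lit 76) (nat_lit 13652752875) (nat_lit 43) (nat_lit 5) (nat_lit 46) (nat_lit 5) (nat_lit 44) (nat_lit 5) (nat_lit 369) (nat_lit 354) (nat_lit 297)))))) (XT.nd (nat_lit 390) (nat_lit 456) (nat_lit 0) (XT.nd (nat_lit 156) (nat_lit 304) (nat_lit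 0) (XT.nd (nat_lit 78) (nat_lit 0) (nat_lit 0) (XT.lf (nat_lit 0) (nat_lit 4740287534) (nat_lit 228) (nat_lit 132914536) (nat_lit 304) (nat_lit 18952103775) (nat_lit 40) (nat_lit 5) (nat_lit 43) (nat_lit 5) (nat_lit 44) (nat_lit 5) (nat_lit 370) (nat_lit 354) (nat_lit 296)) (XT.lf (nat_lit 0) (nat_lit 9489690536) (nat_lit 304) (nat_lit 6176881541) (nat_lit 76) (nat_lit 9288776979) (nat_lit 40) (nat_lit 5) (nat_lit 44) (nat_lit 5) (nat_lit 41) (nat_lit 5) (nat_lit 371) (nat_lit 354) (nat_lit 295))) (XT.nd (nat_lit 78) (nat_lit 152) (nat_lit 0) (XT.lf (nat_lit 0) (nat_lit 8145449238) (nat_lit 152) (nat_lit 6513234906) (nat_lit 228) (nat_lit 11502469757) (nat_lit 38) (nat_lit 5) (nat_lit 40) (nat_lit 5) (nat_lit 41) (nat_lit 5) (nat_lit 372) (nat_lit 354) (nat_lit 294)) (XT.nd (nat_lit 78) (nat_lit 152) (nat_lit 0) (XT.lf (nat_lit 0) (nat_lit 20479928271) (nat_lit 228) (nat_lit 3593554690)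 (nat_lit 76) (nat_lit 3370853789) (nat_lit 38) (nat_lit 5) (nat_lit 41) (nat_lit 5) (nat_lit 39) (nat_lit 5) (nat_lit 373) (nat_lit 354) (nat_lit 293)) (XT.lf (nat_lit 0) (nat_lit 12412834961) (nat_lit 152) (nat_lit 14807251901) (nat_lit 228) (nat_lit 1573841368) (nat_lit 36) (nat_lit 5) (nat_lit 38) (nat_lit 5) (nat_lit 39) (nat_lit 5) (nat_lit 374) (nat_lit 354) (nat_lit 292))))) (XT.nd (nat_lit 156) (nat_lit 228) (nat_lit 0) (XT.nd (nat_lit 78) (nat_lit 152) (nat_lit 0) (XT.lf (nat_lit 0) (nat_lit 4121990361) (nat_lit 228) (nat_lit 465758512) (nat_lit 76) (nat_lit 25648653057) (nat_lit 35) (nat_lit 5) (nat_lit 38) (nat_lit 5) (nat_lit 36) (nat_lit 5) (nat_lit 375) (nat_lit 354) (nat_lit 291)) (XT.lf (nat_lit 0) (nat_lit 10764018346) (nat_lit 228) (nat_lit 14385898787) (nat_lit 76) (nat_lit 6595050322) (nat_lit 33) (nat_lit 5) (nat_lit 36) (nat_lit 5) (nat_lit 34) (nat_lit 5) (nat_lit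 376) (nat_lit 354) (nat_lit 290))) (XT.nd (nat_lit 78) (nat_lit 76) (nat_lit 0) (XT.lf (nat_lit 0) (nat_lit 3287863893) (nat_lit 152) (nat_lit 14847969088) (nat_lit 228) (nat_lit 15222519521) (nat_lit 31) (nat_lit 5) (nat_lit 33) (nat_lit 5) (nat_lit 34) (nat_lit 5) (nat_lit 377) (nat_lit 354) (nat_lit 289)) (XT.nd (nat_lit 78) (nat_lit 76) (nat_lit 0) (XT.lf (nat_lit 0) (nat_lit 23173893999) (nat_lit 152) (nat_lit 3304436509) (nat_lit 228) (nat_lit 8592010449) (nat_lit 31) (nat_lit 5) (nat_lit 33) (nat_lit 5) (nat_lit 34) (nat_lit 5) (nat_lit 378) (nat_lit 354) (nat_lit 288)) (XT.lf (nat_lit 0) (nat_lit 7886608892) (nat_lit 76) (nat_lit 28000008248) (nat_lit 152) (nat_lit 1000807262) (nat_lit 30) (nat_lit 5) (nat_lit 31) (nat_lit 5) (nat_lit 32) (nat_lit 4) (nat_lit 379) (nat_lit 354) (nat_lit 287))))))))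
noncomputable def xc135 : XT := (XT.nd (nat_lit 1482) (nat_lit 608) (nat_lit 0) (XT.nd (nat_lit 702) (nat_lit 532) (nat_lit 0) (XT.nd (nat_lit 312) (nat_lit 380) (nat_lit 0) (XT.nd (nat_lit 156) (nat_lit 76) (nat_lit 0) (XT.nd (nat_lit 78) (nat_lit 152) (nat_lit 0) (XT.lf (nat_lit 0) (nat_lit 7245656094) (nat_lit 152) (nat_lit 9181564262) (nat_lit 76) (nat_lit 22376170115) (nat_lit 29) (nat_lit 5) (nat_lit 31) (nat_lit 5) (nat_lit 30) (nat_lit 5) (nat_lit 380) (nat_lit 354) (nat_lit 286)) (XT.lf (nat_lit 0) (nat_lit 12820803512) (nat_lit 152) (nat_lit 3574631457) (nat_lit 228) (nat_lit 24451311416) (nat_lit 27) (nat_lit 5) (nat_lit 29) (nat_lit 5) (nat_lit 30) (nat_lit 5) (nat_lit 381) (nat_lit 354) (nat_lit 285))) (XT.nd (nat_lit 78) (nat_lit 76) (nat_lit 0) (XT.lf (nat_lit 0) (nat_lit 26772152645) (nat_lit 228) (nat_lit 6200334281) (nat_lit 76) (nat_lit 10041492516) (nat_lit 27) (nat_lit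 5) (nat_lit 30) (nat_lit 5) (nat_lit 28) (nat_lit 4) (nat_lit 382) (nat_lit 354) (nat_lit 284)) (XT.lf (nat_lit 0) (nat_lit 18170797593) (nat_lit 76) (nat_lit 20328373442) (nat_lit 152) (nat_lit 6813811847) (nat_lit 26) (nat_lit 5) (nat_lit 27) (nat_lit 5) (nat_lit 28) (nat_lit 4) (nat_lit 383) (nat_lit 354) (nat_lit 283)))) (XT.nd (nat_lit 156) (nat_lit 152) (nat_lit 0) (XT.nd (nat_lit 78) (nat_lit 152) (nat_lit 0) (XT.lf (nat_lit 0) (nat_lit 3364260220) (nat_lit 152) (nat_lit 3040263689) (nat_lit 76) (nat_lit 41371760381) (nat_lit 25) (nat_lit 5) (nat_lit 27) (nat_lit 5) (nat_lit 26) (nat_lit 5) (nat_lit 384) (nat_lit 354) (nat_lit 282)) (XT.lf (nat_lit 0) (nat_lit 14783760909) (nat_lit 228) (nat_lit 26606300538) (nat_lit 76) (nat_lit 8968809153) (nat_lit 23) (nat_lit 5) (nat_lit 26) (nat_lit 5) (nat_lit 24) (nat_lit 4) (nat_lit 385) (nat_lit 354) (nat_lit 281))) (XT.nd (nat_lit 78)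 (nat_lit 152) (nat_lit 0) (XT.lf (nat_lit 0) (nat_lit 27359697353) (nat_lit 228) (nat_lit 463837151) (nat_lit 76) (nat_lit 25305102786) (nat_lit 23) (nat_lit 5) (nat_lit 26) (nat_lit 5) (nat_lit 24) (nat_lit 4) (nat_lit 386) (nat_lit 354) (nat_lit 280)) (XT.nd (nat_lit 78) (nat_lit 76) (nat_lit 0) (XT.lf (nat_lit 0) (nat_lit 29217093577) (nat_lit 76) (nat_lit 12419175002) (nat_lit 152) (nat_lit 14428155217) (nat_lit 22) (nat_lit 5) (nat_lit 23) (nat_lit 5) (nat_lit 24) (nat_lit 4) (nat_lit 387) (nat_lit 354) (nat_lit 279)) (XT.lf (nat_lit 0) (nat_lit 2051059449) (nat_lit 76) (nat_lit 55159675964) (nat_lit 76) (nat_lit 2011879242) (nat_lit 21) (nat_lit 4) (nat_lit 22) (nat_lit 5) (nat_lit 22) (nat_lit 4) (nat_lit 388) (nat_lit 354) (nat_lit 278)))))) (XT.nd (nat_lit 390) (nat_lit 228) (nat_lit 0) (XT.nd (nat_lit 156) (nat_lit 152) (nat_lit 0) (XT.nd (nat_lit 78) (nat_lit 76) (nat_lit 0)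 (XT.lf (nat_lit 0) (nat_lit 11895280667) (nat_lit 152) (nat_lit 28416994442) (nat_lit 76) (nat_lit 22213839803) (nat_lit 20) (nat_lit 5) (nat_lit 22) (nat_lit 5) (nat_lit 21) (nat_lit 4) (nat_lit 389) (nat_lit 354) (nat_lit 277)) (XT.lf (nat_lit 0) (nat_lit 2707550103) (nat_lit 76) (nat_lit 24156520457) (nat_lit 152) (nat_lit 39221026429) (nat_lit 19) (nat_lit 5) (nat_lit 20) (nat_lit 5) (nat_lit 21) (nat_lit 4) (nat_lit 390) (nat_lit 354) (nat_lit 276))) (XT.nd (nat_lit 78) (nat_lit 152) (nat_lit 0) (XT.lf (nat_lit 0) (nat_lit 37924934240) (nat_lit 76) (nat_lit 5875262256) (nat_lit 152) (nat_lit 26067016734) (nat_lit 19) (nat_lit 5) (nat_lit 20) (nat_lit 5) (nat_lit 21) (nat_lit 4) (nat_lit 391) (nat_lit 354) (nat_lit 275)) (XT.nd (nat_lit 78) (nat_lit 76) (nat_lit 0) (XT.lf (nat_lit 0) (nat_lit 1749131928) (nat_lit 76) (nat_lit 60710940018) (nat_lit 76) (nat_lit 11462320128) (nat_lit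 18) (nat_lit 4) (nat_lit 19) (nat_lit 5) (nat_lit 19) (nat_lit 4) (nat_lit 392) (nat_lit 354) (nat_lit 274)) (XT.lf (nat_lit 0) (nat_lit 5137045002) (nat_lit 152) (nat_lit 38571312346) (nat_lit 76) (nat_lit 34501981023) (nat_lit 17) (nat_lit 5) (nat_lit 19) (nat_lit 5) (nat_lit 18) (nat_lit 4) (nat_lit 393) (nat_lit 354) (nat_lit 273))))) (XT.nd (nat_lit 156) (nat_lit 152) (nat_lit 0) (XT.nd (nat_lit 78) (nat_lit 76) (nat_lit 0) (XT.lf (nat_lit 0) (nat_lit 22438880332) (nat_lit 152) (nat_lit 2590667142) (nat_lit 76) (nat_lit 57788454006) (nat_lit 17) (nat_lit 5) (nat_lit 19) (nat_lit 5) (nat_lit 18) (nat_lit 4) (nat_lit 394) (nat_lit 354) (nat_lit 272)) (XT.lf (nat_lit 0) (nat_lit 38166822200) (nat_lit 76) (nat_lit 3870197720) (nat_lit 152) (nat_lit 45684286637) (nat_lit 16) (nat_lit 5) (nat_lit 17) (nat_lit 5) (nat_lit 18) (nat_lit 4) (nat_lit 395) (nat_lit 354) (nat_lit 271))) (XT.nd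 (nat_lit 78) (nat_lit 152) (nat_lit 0) (XT.lf (nat_lit 0) (nat_lit 63726494713) (nat_lit 152) (nat_lit 11148239207) (nat_lit 0) (nat_lit 18100264797) (nat_lit 16) (nat_lit 5) (nat_lit 18) (nat_lit 4) (nat_lit 16) (nat_lit 4) (nat_lit 396) (nat_lit 354) (nat_lit 270)) (XT.nd (nat_lit 78) (nat_lit 76) (nat_lit 0) (XT.lf (nat_lit 0) (nat_lit 31811195507) (nat_lit 76) (nat_lit 56200234788) (nat_lit 76) (nat_lit 10568733031) (nat_lit 15) (nat_lit 4) (nat_lit 16) (nat_lit 5) (nat_lit 16) (nat_lit 4) (nat_lit 397) (nat_lit 354) (nat_lit 269)) (XT.lf (nat_lit 0) (nat_lit 9432385551) (nat_lit 152) (nat_lit 26017021142) (nat_lit 76) (nat_lit 69141257243) (nat_lit 14) (nat_lit 5) (nat_lit 16) (nat_lit 5) (nat_lit 15) (nat_lit 4) (nat_lit 398) (nat_lit 354) (nat_lit 268))))))) (XT.nd (nat_lit 780) (nat_lit 228) (nat_lit 0) (XT.nd (nat_lit 390) (nat_lit 152) (nat_lit 0) (XT.nd (nat_lit 156) (nat_lit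 152) (nat_lit 0) (XT.nd (nat_lit 78) (nat_lit 0) (nat_lit 0) (XT.lf (nat_lit 0) (nat_lit 18643826482) (nat_lit 76) (nat_lit 12262293385) (nat_lit 152) (nat_lit 80118443768) (nat_lit 13) (nat_lit 5) (nat_lit 14) (nat_lit 5) (nat_lit 15) (nat_lit 4) (nat_lit 399) (nat_lit 354) (nat_lit 267)) (XT.lf (nat_lit 0) (nat_lit 55130097990) (nat_lit 152) (nat_lit 49894362865) (nat_lit 0) (nat_lit 12866127804) (nat_lit 13) (nat_lit 5) (nat_lit 15) (nat_lit 4) (nat_lit 13) (nat_lit 4) (nat_lit 400) (nat_lit 354) (nat_lit 266))) (XT.nd (nat_lit 78) (nat_lit 152) (nat_lit 0) (XT.lf (nat_lit 0) (nat_lit 81606016510) (nat_lit 152) (nat_lit 4336299888) (nat_lit 0) (nat_lit 39338458399) (nat_lit 13) (nat_lit 5) (nat_lit 15) (nat_lit 4) (nat_lit 13) (nat_lit 4) (nat_lit 401) (nat_lit 354) (nat_lit 265)) (XT.nd (nat_lit 78) (nat_lit 76) (nat_lit 0) (XT.lf (nat_lit 0) (nat_lit 47220494301) (nat_lit 76) (nat_lit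 64111021031) (nat_lit 76) (nat_lit 21840140766) (nat_lit 12) (nat_lit 4) (nat_lit 13) (nat_lit 5) (nat_lit 13) (nat_lit 4) (nat_lit 402) (nat_lit 354) (nat_lit 264)) (XT.lf (nat_lit 0) (nat_lit 1771648983) (nat_lit 152) (nat_lit 38588926447) (nat_lit 76) (nat_lit 101320482453) (nat_lit 11) (nat_lit 5) (nat_lit 13) (nat_lit 5) (nat_lit 12) (nat_lit 4) (nat_lit 403) (nat_lit 354) (nat_lit 263))))) (XT.nd (nat_lit 156) (nat_lit 76) (nat_lit 0) (XT.nd (nat_lit 78) (nat_lit 0) (nat_lit 0) (XT.lf (nat_lit 0) (nat_lit 12618763945) (nat_lit 76) (nat_lit 13773336290) (nat_lit 152) (nat_lit 124409757859) (nat_lit 10) (nat_lit 5) (nat_lit 11) (nat_lit 5) (nat_lit 12) (nat_lit 4) (nat_lit 404) (nat_lit 354) (nat_lit 262)) (XT.lf (nat_lit 0) (nat_lit 54420204294) (nat_lit 152) (nat_lit 90844504273) (nat_lit 0) (nat_lit 15272573019) (nat_lit 10) (nat_lit 5) (nat_lit 12) (nat_lit 4) (nat_lit 10) (nat_lit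 4) (nat_lit 405) (nat_lit 354) (nat_lit 261))) (XT.nd (nat_lit 78) (nat_lit 76) (nat_lit 0) (XT.lf (nat_lit 0) (nat_lit 85044781205) (nat_lit 152) (nat_lit 40083531420) (nat_lit 0) (nat_lit 45894888927) (nat_lit 10) (nat_lit 5) (nat_lit 12) (nat_lit 4) (nat_lit 10) (nat_lit 4) (nat_lit 406) (nat_lit 354) (nat_lit 260)) (XT.nd (nat_lit 78) (nat_lit 0) (nat_lit 0) (XT.lf (nat_lit 0) (nat_lit 15507633899) (nat_lit 76) (nat_lit 102981385942) (nat_lit 76) (nat_lit 63829400144) (nat_lit 9) (nat_lit 4) (nat_lit 10) (nat_lit 5) (nat_lit 10) (nat_lit 4) (nat_lit 407) (nat_lit 354) (nat_lit 259)) (XT.lf (nat_lit 0) (nat_lit 77819401414) (nat_lit 76) (nat_lit 77882178313) (nat_lit 76) (nat_lit 38728254070) (nat_lit 9) (nat_lit 4) (nat_lit 10) (nat_lit 5) (nat_lit 10) (nat_lit 4) (nat_lit 408) (nat_lit 354) (nat_lit 258)))))) (XT.nd (nat_lit 390) (nat_lit 76) (nat_lit 0) (XT.nd (nat_lit 156) (nat_lit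 76) (nat_lit 0) (XT.nd (nat_lit 78) (nat_lit 76) (nat_lit 0) (XT.lf (nat_lit 0) (nat_lit 145110298314) (nat_lit 76) (nat_lit 50777908476) (nat_lit 76) (nat_lit 11622189376) (nat_lit 9) (nat_lit 4) (nat_lit 10) (nat_lit 5) (nat_lit 10) (nat_lit 4) (nat_lit 409) (nat_lit 354) (nat_lit 257)) (XT.lf (nat_lit 0) (nat_lit 16766526875) (nat_lit 152) (nat_lit 4283005101) (nat_lit 76) (nat_lit 200554132036) (nat_lit 8) (nat_lit 5) (nat_lit 10) (nat_lit 5) (nat_lit 9) (nat_lit 4) (nat_lit 410) (nat_lit 354) (nat_lit 256))) (XT.nd (nat_lit 78) (nat_lit 0) (nat_lit 0) (XT.lf (nat_lit 0) (nat_lit 48580636738) (nat_lit 152) (nat_lit 175754653521) (nat_lit 0) (nat_lit 12322377661) (nat_lit 7) (nat_lit 5) (nat_lit 9) (nat_lit 4) (nat_lit 7) (nat_lit 4) (nat_lit 411) (nat_lit 354) (nat_lit 255)) (XT.nd (nat_lit 78) (nat_lit 0) (nat_lit 0) (XT.lf (nat_lit 0) (nat_lit 83604190669) (nat_lit 152) (nat_lit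 121914044255) (nat_lit 0) (nat_lit 47344612319) (nat_lit 7) (nat_lit 5) (nat_lit 9) (nat_lit 4) (nat_lit 7) (nat_lit 4) (nat_lit 412) (nat_lit 354) (nat_lit 254)) (XT.lf (nat_lit 0) (nat_lit 121427247018) (nat_lit 152) (nat_lit 63770937625) (nat_lit 0) (nat_lit 85166447119) (nat_lit 7) (nat_lit 5) (nat_lit 9) (nat_lit 4) (nat_lit 7) (nat_lit 4) (nat_lit 413) (nat_lit 354) (nat_lit 253))))) (XT.nd (nat_lit 156) (nat_lit 0) (nat_lit 0) (XT.nd (nat_lit 78) (nat_lit 76) (nat_lit 0) (XT.lf (nat_lit 0) (nat_lit 162273942417) (nat_lit 152) (nat_lit 980781890) (nat_lit 0) (nat_lit 126012011454) (nat_lit 7) (nat_lit 5) (nat_lit 9) (nat_lit 4) (nat_lit 7) (nat_lit 4) (nat_lit 414) (nat_lit 354) (nat_lit 252)) (XT.lf (nat_lit 0) (nat_lit 70347583813) (nat_lit 76) (nat_lit 137730608624) (nat_lit 76) (nat_lit 101467630380) (nat_lit 6) (nat_lit 4) (nat_lit 7) (nat_lit 5) (nat_lit 7) (nat_lit 4) (nat_lit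 415) (nat_lit 354) (nat_lit 251))) (XT.nd (nat_lit 78) (nat_lit 0) (nat_lit 0) (XT.lf (nat_lit 0) (nat_lit 147434026296) (nat_lit 76) (nat_lit 110137586165) (nat_lit 76) (nat_lit 73873638216) (nat_lit 6) (nat_lit 4) (nat_lit 7) (nat_lit 5) (nat_lit 7) (nat_lit 4) (nat_lit 416) (nat_lit 354) (nat_lit 250)) (XT.nd (nat_lit 78) (nat_lit 0) (nat_lit 0) (XT.lf (nat_lit 0) (nat_lit 230683707868) (nat_lit 76) (nat_lit 80338959038) (nat_lit 76) (nat_lit 44074113214) (nat_lit 6) (nat_lit 4) (nat_lit 7) (nat_lit 5) (nat_lit 7) (nat_lit 4) (nat_lit 417) (nat_lit 354) (nat_lit 249)) (XT.lf (nat_lit 0) (nat_lit 320589959977) (nat_lit 76) (nat_lit 48158142787) (nat_lit 76) (nat_lit 11892465597) (nat_lit 6) (nat_lit 4) (nat_lit 7) (nat_lit 5) (nat_lit 7) (nat_lit 4) (nat_lit 418) (nat_lit 354) (nat_lit 248))))))))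
noncomputable def xc136 : XT := (XT.nd (nat_lit 1482) (nat_lit 152) (nat_lit 0) (XT.nd (nat_lit 702) (nat_lit 0) (nat_lit 0) (XT.nd (nat_lit 312) (nat_lit 76) (nat_lit 0) (XT.nd (nat_lit 156) (nat_lit 0) (nat_lit 0) (XT.nd (nat_lit 78) (nat_lit 0) (nat_lit 0) (XT.lf (nat_lit 0) (nat_lit 9376808446) (nat_lit 76) (nat_lit 12567064351) (nat_lit 152) (nat_lit 386222085646) (nat_lit 4) (nat_lit 5) (nat_lit 5) (nat_lit 5) (nat_lit 6) (nat_lit 4) (nat_lit 419) (nat_lit 354) (nat_lit 247)) (XT.lf (nat_lit 0) (nat_lit 60149746166) (nat_lit 152) (nat_lit 350965469009) (nat_lit 0) (nat_lit 26569042707) (nat_lit 4) (nat_lit 5) (nat_lit 6) (nat_lit 4) (nat_lit 4) (nat_lit 4) (nat_lit 420) (nat_lit 354) (nat_lit 246))) (XT.nd (nat_lit 78) (nat_lit 0) (nat_lit 0) (XT.lf (nat_lit 0) (nat_lit 101737014064) (nat_lit 152) (nat_lit 299645313863) (nat_lit 0) (nat_lit 68155699527) (nat_lit 4) (nat_lit 5) (nat_lit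 6) (nat_lit 4) (nat_lit 4) (nat_lit 4) (nat_lit 421) (nat_lit 354) (nat_lit 245)) (XT.lf (nat_lit 0) (nat_lit 146649881361) (nat_lit 152) (nat_lit 244222326922) (nat_lit 0) (nat_lit 113068001011) (nat_lit 4) (nat_lit 5) (nat_lit 6) (nat_lit 4) (nat_lit 4) (nat_lit 4) (nat_lit 422) (nat_lit 354) (nat_lit 244)))) (XT.nd (nat_lit 156) (nat_lit 76) (nat_lit 0) (XT.nd (nat_lit 78) (nat_lit 0) (nat_lit 0) (XT.lf (nat_lit 0) (nat_lit 195154498382) (nat_lit 152) (nat_lit 184368075671) (nat_lit 0) (nat_lit 161572094130) (nat_lit 4) (nat_lit 5) (nat_lit 6) (nat_lit 4) (nat_lit 4) (nat_lit 4) (nat_lit 423) (nat_lit 354) (nat_lit 243)) (XT.lf (nat_lit 0) (nat_lit 247538299895) (nat_lit 152) (nat_lit 119727868249) (nat_lit 0) (nat_lit 213955410548) (nat_lit 4) (nat_lit 5) (nat_lit 6) (nat_lit 4) (nat_lit 4) (nat_lit 4) (nat_lit 424) (nat_lit 354) (nat_lit 242))) (XT.nd (nat_lit 78) (nat_lit 76) (nat_lit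 0) (XT.lf (nat_lit 0) (nat_lit 304111708425) (nat_lit 152) (nat_lit 49918651577) (nat_lit 0) (nat_lit 270528369918) (nat_lit 4) (nat_lit 5) (nat_lit 6) (nat_lit 4) (nat_lit 4) (nat_lit 4) (nat_lit 425) (nat_lit 354) (nat_lit 241)) (XT.nd (nat_lit 78) (nat_lit 0) (nat_lit 0) (XT.lf (nat_lit 0) (nat_lit 26814635246) (nat_lit 76) (nat_lit 339040231179) (nat_lit 76) (nat_lit 305456476782) (nat_lit 3) (nat_lit 4) (nat_lit 4) (nat_lit 5) (nat_lit 4) (nat_lit 4) (nat_lit 426) (nat_lit 354) (nat_lit 240)) (XT.lf (nat_lit 0) (nat_lit 112523510870) (nat_lit 76) (nat_lit 321377842095) (nat_lit 76) (nat_lit 287793702615) (nat_lit 3) (nat_lit 4) (nat_lit 4) (nat_lit 5) (nat_lit 4) (nat_lit 4) (nat_lit 427) (nat_lit 354) (nat_lit 239)))))) (XT.nd (nat_lit 390) (nat_lit 0) (nat_lit 0) (XT.nd (nat_lit 156) (nat_lit 0) (nat_lit 0) (XT.nd (nat_lit 78) (nat_lit 0) (nat_lit 0) (XT.lf (nat_lit 0) (nat_lit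 205087252014) (nat_lit 76) (nat_lit 302303391139) (nat_lit 76) (nat_lit 268718895100) (nat_lit 3) (nat_lit 4) (nat_lit 4) (nat_lit 5) (nat_lit 4) (nat_lit 4) (nat_lit 428) (nat_lit 354) (nat_lit 238)) (XT.lf (nat_lit 0) (nat_lit 305054384549) (nat_lit 76) (nat_lit 281703844527) (nat_lit 76) (nat_lit 248119018341) (nat_lit 3) (nat_lit 4) (nat_lit 4) (nat_lit 5) (nat_lit 4) (nat_lit 4) (nat_lit 429) (nat_lit 354) (nat_lit 237))) (XT.nd (nat_lit 78) (nat_lit 0) (nat_lit 0) (XT.lf (nat_lit 0) (nat_lit 413017306300) (nat_lit 76) (nat_lit 259457130872) (nat_lit 76) (nat_lit 225871998995) (nat_lit 3) (nat_lit 4) (nat_lit 4) (nat_lit 5) (nat_lit 4) (nat_lit 4) (nat_lit 430) (nat_lit 354) (nat_lit 236)) (XT.nd (nat_lit 78) (nat_lit 0) (nat_lit 0) (XT.lf (nat_lit 0) (nat_lit 529615797542) (nat_lit 76) (nat_lit 235431417798) (nat_lit 76) (nat_lit 201846002873) (nat_lit 3) (nat_lit 4) (nat_lit 4)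 (nat_lit 5) (nat_lit 4) (nat_lit 4) (nat_lit 431) (nat_lit 354) (nat_lit 235)) (XT.lf (nat_lit 0) (nat_lit 655540812299) (nat_lit 76) (nat_lit 209484330707) (nat_lit 76) (nat_lit 175898653702) (nat_lit 3) (nat_lit 4) (nat_lit 4) (nat_lit 5) (nat_lit 4) (nat_lit 4) (nat_lit 432) (nat_lit 354) (nat_lit 234))))) (XT.nd (nat_lit 156) (nat_lit 0) (nat_lit 0) (XT.nd (nat_lit 78) (nat_lit 0) (nat_lit 0) (XT.lf (nat_lit 0) (nat_lit 791538572879) (nat_lit 76) (nat_lit 181462109085) (nat_lit 76) (nat_lit 147876189411) (nat_lit 3) (nat_lit 4) (nat_lit 4) (nat_lit 5) (nat_lit 4) (nat_lit 4) (nat_lit 433) (nat_lit 354) (nat_lit 233)) (XT.lf (nat_lit 0) (nat_lit 938414991939) (nat_lit 76) (nat_lit 151198695321) (nat_lit 76) (nat_lit 117612550955) (nat_lit 3) (nat_lit 4) (nat_lit 4) (nat_lit 5) (nat_lit 4) (nat_lit 4) (nat_lit 434) (nat_lit 354) (nat_lit 232))) (XT.nd (nat_lit 78) (nat_lit 0) (nat_lit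 0) (XT.lf (nat_lit 0) (nat_lit 1097040448257) (nat_lit 76) (nat_lit 118514750666) (nat_lit 76) (nat_lit 84928398252) (nat_lit 3) (nat_lit 4) (nat_lit 4) (nat_lit 5) (nat_lit 4) (nat_lit 4) (nat_lit 435) (nat_lit 354) (nat_lit 231)) (XT.nd (nat_lit 78) (nat_lit 0) (nat_lit 0) (XT.lf (nat_lit 0) (nat_lit 1268354944538) (nat_lit 76) (nat_lit 83216592487) (nat_lit 76) (nat_lit 49630047435) (nat_lit 3) (nat_lit 4) (nat_lit 4) (nat_lit 5) (nat_lit 4) (nat_lit 4) (nat_lit 436) (nat_lit 354) (nat_lit 230)) (XT.lf (nat_lit 0) (nat_lit 1453373677796) (nat_lit 76) (nat_lit 45095046512) (nat_lit 76) (nat_lit 11508323093) (nat_lit 3) (nat_lit 4) (nat_lit 4) (nat_lit 5) (nat_lit 4) (nat_lit 4) (nat_lit 437) (nat_lit 354) (nat_lit 229))))))) (XT.nd (nat_lit 702) (nat_lit 0) (nat_lit 0) (XT.nd (nat_lit 312) (nat_lit 0) (nat_lit 0) (XT.nd (nat_lit 156) (nat_lit 0) (nat_lit 0) (XT.nd (nat_lit 78) (nat_lit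 0) (nat_lit 0) (XT.lf (nat_lit 0) (nat_lit 26342862477) (nat_lit 76) (nat_lit 2469517836) (nat_lit 152) (nat_lit 1598534446248) (nat_lit 1) (nat_lit 5) (nat_lit 2) (nat_lit 5) (nat_lit 3) (nat_lit 4) (nat_lit 438) (nat_lit 354) (nat_lit 228)) (XT.lf (nat_lit 0) (nat_lit 74372157310) (nat_lit 152) (nat_lit 1636226259311) (nat_lit 0) (nat_lit 43273044813) (nat_lit 1) (nat_lit 5) (nat_lit 3) (nat_lit 4) (nat_lit 1) (nat_lit 4) (nat_lit 439) (nat_lit 354) (nat_lit 227))) (XT.nd (nat_lit 78) (nat_lit 0) (nat_lit 0) (XT.lf (nat_lit 0) (nat_lit 123640458188) (nat_lit 152) (nat_lit 1674331295019) (nat_lit 0) (nat_lit 92541214585) (nat_lit 1) (nat_lit 5) (nat_lit 3) (nat_lit 4) (nat_lit 1) (nat_lit 4) (nat_lit 440) (nat_lit 354) (nat_lit 226)) (XT.lf (nat_lit 0) (nat_lit 176849851285) (nat_lit 152) (nat_lit 1715485486865) (nat_lit 0) (nat_lit 145750486287) (nat_lit 1) (nat_lit 5) (nat_lit 3) (nat_lit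 4) (nat_lit 1) (nat_lit 4) (nat_lit 441) (nat_lit 354) (nat_lit 225)))) (XT.nd (nat_lit 156) (nat_lit 0) (nat_lit 0) (XT.nd (nat_lit 78) (nat_lit 0) (nat_lit 0) (XT.lf (nat_lit 0) (nat_lit 234315651523) (nat_lit 152) (nat_lit 1759932711540) (nat_lit 0) (nat_lit 203216174123) (nat_lit 1) (nat_lit 5) (nat_lit 3) (nat_lit 4) (nat_lit 1) (nat_lit 4) (nat_lit 442) (nat_lit 354) (nat_lit 224)) (XT.lf (nat_lit 0) (nat_lit 296378396977) (nat_lit 152) (nat_lit 1807936360006) (nat_lit 0) (nat_lit 265278815501) (nat_lit 1) (nat_lit 5) (nat_lit 3) (nat_lit 4) (nat_lit 1) (nat_lit 4) (nat_lit 443) (nat_lit 354) (nat_lit 223))) (XT.nd (nat_lit 78) (nat_lit 0) (nat_lit 0) (XT.lf (nat_lit 0) (nat_lit 363405866880) (nat_lit 152) (nat_lit 1859780898327) (nat_lit 0) (nat_lit 332306189037) (nat_lit 1) (nat_lit 5) (nat_lit 3) (nat_lit 4) (nat_lit 1) (nat_lit 4) (nat_lit 444) (nat_lit 354) (nat_lit 222)) (XT.nd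 (nat_lit 78) (nat_lit 0) (nat_lit 0) (XT.lf (nat_lit 0) (nat_lit 435795261053) (nat_lit 152) (nat_lit 1915773553399) (nat_lit 0) (nat_lit 404695493982) (nat_lit 1) (nat_lit 5) (nat_lit 3) (nat_lit 4) (nat_lit 1) (nat_lit 4) (nat_lit 445) (nat_lit 354) (nat_lit 221)) (XT.lf (nat_lit 0) (nat_lit 513975553685) (nat_lit 152) (nat_lit 1976246133546) (nat_lit 0) (nat_lit 482875703995) (nat_lit 1) (nat_lit 5) (nat_lit 3) (nat_lit 4) (nat_lit 1) (nat_lit 4) (nat_lit 446) (nat_lit 354) (nat_lit 220)))))) (XT.nd (nat_lit 390) (nat_lit 0) (nat_lit 0) (XT.nd (nat_lit 156) (nat_lit 0) (nat_lit 0) (XT.nd (nat_lit 78) (nat_lit 0) (nat_lit 0) (XT.lf (nat_lit 0) (nat_lit 598410035397) (nat_lit 152) (nat_lit 2041556994799) (nat_lit 0) (nat_lit 567310109209) (nat_lit 1) (nat_lit 5) (nat_lit 3) (nat_lit 4) (nat_lit 1) (nat_lit 4) (nat_lit 447) (nat_lit 354) (nat_lit 219)) (XT.lf (nat_lit 0) (nat_lit 689599058675)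 (nat_lit 152) (nat_lit 2112093164484) (nat_lit 0) (nat_lit 658499061654) (nat_lit 1) (nat_lit 5) (nat_lit 3) (nat_lit 4) (nat_lit 1) (nat_lit 4) (nat_lit 448) (nat_lit 354) (nat_lit 218))) (XT.nd (nat_lit 78) (nat_lit 0) (nat_lit 0) (XT.lf (nat_lit 0) (nat_lit 788083002916) (nat_lit 152) (nat_lit 2188272634719) (nat_lit 0) (nat_lit 756982940309) (nat_lit 1) (nat_lit 5) (nat_lit 3) (nat_lit 4) (nat_lit 1) (nat_lit 4) (nat_lit 449) (nat_lit 354) (nat_lit 217)) (XT.nd (nat_lit 78) (nat_lit 0) (nat_lit 0) (XT.lf (nat_lit 0) (nat_lit 894445476677) (nat_lit 152) (nat_lit 2270546839400) (nat_lit 0) (nat_lit 863345353343) (nat_lit 1) (nat_lit 5) (nat_lit 3) (nat_lit 4) (nat_lit 1) (nat_lit 4) (nat_lit 450) (nat_lit 354) (nat_lit 216)) (XT.lf (nat_lit 0) (nat_lit 1009316776101) (nat_lit 152) (nat_lit 2359403329370) (nat_lit 0) (nat_lit 978216596537) (nat_lit 1) (nat_lit 5) (nat_lit 3) (nat_lit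 4) (nat_lit 1) (nat_lit 4) (nat_lit 451) (nat_lit 354) (nat_lit 215))))) (XT.nd (nat_lit 156) (nat_lit 0) (nat_lit 0) (XT.nd (nat_lit 78) (nat_lit 0) (nat_lit 0) (XT.lf (nat_lit 0) (nat_lit 1133377619997) (nat_lit 152) (nat_lit 2455368661607) (nat_lit 0) (nat_lit 1102277388370) (nat_lit 1) (nat_lit 5) (nat_lit 3) (nat_lit 4) (nat_lit 1) (nat_lit 4) (nat_lit 452) (nat_lit 354) (nat_lit 214)) (XT.lf (nat_lit 0) (nat_lit 1267363183738) (nat_lit 152) (nat_lit 2559011519561) (nat_lit 0) (nat_lit 1236262903904) (nat_lit 1) (nat_lit 5) (nat_lit 3) (nat_lit 4) (nat_lit 1) (nat_lit 4) (nat_lit 453) (nat_lit 354) (nat_lit 213))) (XT.nd (nat_lit 78) (nat_lit 0) (nat_lit 0) (XT.lf (nat_lit 0) (nat_lit 1412067455849) (nat_lit 152) (nat_lit 2670946083131) (nat_lit 0) (nat_lit 1380967131379) (nat_lit 1) (nat_lit 5) (nat_lit 3) (nat_lit 4) (nat_lit 1) (nat_lit 4) (nat_lit 454) (nat_lit 354) (nat_lit 212))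 (XT.nd (nat_lit 78) (nat_lit 0) (nat_lit 0) (XT.lf (nat_lit 0) (nat_lit 1568347943129) (nat_lit 152) (nat_lit 2791835668250) (nat_lit 0) (nat_lit 1537247577328) (nat_lit 1) (nat_lit 5) (nat_lit 3) (nat_lit 4) (nat_lit 1) (nat_lit 4) (nat_lit 455) (nat_lit 354) (nat_lit 211)) (XT.lf (nat_lit 0) (nat_lit 1737130752167) (nat_lit 152) (nat_lit 2922396657643) (nat_lit 0) (nat_lit 1706030348098) (nat_lit 1) (nat_lit 5) (nat_lit 3) (nat_lit 4) (nat_lit 1) (nat_lit 4) (nat_lit 456) (nat_lit 354) (nat_lit 210))))))))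
noncomputable def xc137 : XT := (XT.nd (nat_lit 46488) (nat_lit 0) (nat_lit 1368) (XT.nd (nat_lit 45708) (nat_lit 0) (nat_lit 2964) (XT.nd (nat_lit 45318) (nat_lit 0) (nat_lit 4636) (XT.nd (nat_lit 45162) (nat_lit 0) (nat_lit 4560) (XT.nd (nat_lit 78) (nat_lit 0) (nat_lit 0) (XT.lf (nat_lit 0) (nat_lit 1919416077389) (nat_lit 152) (nat_lit 3063402746063) (nat_lit 0) (nat_lit 1888315637886) (nat_lit 1) (nat_lit 5) (nat_lit 3) (nat_lit 4) (nat_lit 1) (nat_lit 4) (nat_lit 457) (nat_lit 354) (nat_lit 209)) (XT.lf (nat_lit 0) (nat_lit 2116284128129) (nat_lit 152) (nat_lit 3215689525145) (nat_lit 0) (nat_lit 2085183655817) (nat_lit 1) (nat_lit 5) (nat_lit 3) (nat_lit 4) (nat_lit 1) (nat_lit 4) (nat_lit 458) (nat_lit 354) (nat_lit 208))) (XT.nd (nat_lit 78) (nat_lit 0) (nat_lit 0) (XT.lf (nat_lit 0) (nat_lit 3861433907) (nat_lit 532) (nat_lit 1361703455) (nat_lit 532) (nat_lit 1361703455) (nat_lit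 61) (nat_lit 3) (nat_lit 68) (nat_lit 3) (nat_lit 68) (nat_lit 5) (nat_lit 355) (nat_lit 355) (nat_lit 310)) (XT.lf (nat_lit 76) (nat_lit 3818960806) (nat_lit 0) (nat_lit 4670915245) (nat_lit 532) (nat_lit 5169498014) (nat_lit 62) (nat_lit 5) (nat_lit 61) (nat_lit 3) (nat_lit 68) (nat_lit 5) (nat_lit 356) (nat_lit 355) (nat_lit 309)))) (XT.nd (nat_lit 156) (nat_lit 0) (nat_lit 76) (XT.nd (nat_lit 78) (nat_lit 0) (nat_lit 0) (XT.lf (nat_lit 0) (nat_lit 9395563482) (nat_lit 456) (nat_lit 3206552626) (nat_lit 532) (nat_lit 1579985058) (nat_lit 62) (nat_lit 5) (nat_lit 68) (nat_lit 5) (nat_lit 69) (nat_lit 5) (nat_lit 357) (nat_lit 355) (nat_lit 308)) (XT.lf (nat_lit 76) (nat_lit 4015081652) (nat_lit 0) (nat_lit 6542479865) (nat_lit 532) (nat_lit 4174417911) (nat_lit 63) (nat_lit 5) (nat_lit 62) (nat_lit 5) (nat_lit 69) (nat_lit 5) (nat_lit 358) (nat_lit 355) (nat_lit 307))) (XT.nd (nat_lit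 78) (nat_lit 0) (nat_lit 0) (XT.lf (nat_lit 0) (nat_lit 11870724155) (nat_lit 456) (nat_lit 3349091315) (nat_lit 532) (nat_lit 101414470) (nat_lit 63) (nat_lit 5) (nat_lit 69) (nat_lit 5) (nat_lit 70) (nat_lit 5) (nat_lit 359) (nat_lit 355) (nat_lit 306)) (XT.nd (nat_lit 78) (nat_lit 0) (nat_lit 0) (XT.lf (nat_lit 76) (nat_lit 4647799674) (nat_lit 0) (nat_lit 8893417663) (nat_lit 532) (nat_lit 2396256483) (nat_lit 64) (nat_lit 5) (nat_lit 63) (nat_lit 5) (nat_lit 70) (nat_lit 5) (nat_lit 360) (nat_lit 355) (nat_lit 305)) (XT.lf (nat_lit 76) (nat_lit 13452580454) (nat_lit 0) (nat_lit 1956546435) (nat_lit 532) (nat_lit 1188821066) (nat_lit 64) (nat_lit 5) (nat_lit 63) (nat_lit 5) (nat_lit 70) (nat_lit 5) (nat_lit 361) (nat_lit 355) (nat_lit 304)))))) (XT.nd (nat_lit 390) (nat_lit 684) (nat_lit 0) (XT.nd (nat_lit 156) (nat_lit 608) (nat_lit 0) (XT.nd (nat_lit 78) (nat_lit 0) (nat_lit 0) (XT.lf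 (nat_lit 0) (nat_lit 362433942) (nat_lit 532) (nat_lit 11516931898) (nat_lit 76) (nat_lit 5411461683) (nat_lit 57) (nat_lit 5) (nat_lit 64) (nat_lit 5) (nat_lit 58) (nat_lit 5) (nat_lit 362) (nat_lit 355) (nat_lit 303)) (XT.lf (nat_lit 0) (nat_lit 2087706592) (nat_lit 532) (nat_lit 2554252193) (nat_lit 76) (nat_lit 13385602952) (nat_lit 57) (nat_lit 5) (nat_lit 64) (nat_lit 5) (nat_lit 58) (nat_lit 5) (nat_lit 363) (nat_lit 355) (nat_lit 302))) (XT.nd (nat_lit 78) (nat_lit 228) (nat_lit 0) (XT.lf (nat_lit 0) (nat_lit 4188818892) (nat_lit 456) (nat_lit 11414150834) (nat_lit 76) (nat_lit 3201263717) (nat_lit 52) (nat_lit 5) (nat_lit 58) (nat_lit 5) (nat_lit 53) (nat_lit 5) (nat_lit 364) (nat_lit 355) (nat_lit 301)) (XT.nd (nat_lit 78) (nat_lit 228) (nat_lit 0) (XT.lf (nat_lit 0) (nat_lit 6628386770) (nat_lit 456) (nat_lit 1507731251) (nat_lit 76) (nat_lit 11493313925) (nat_lit 52) (nat_lit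 5) (nat_lit 58) (nat_lit 5) (nat_lit 53) (nat_lit 5) (nat_lit 365) (nat_lit 355) (nat_lit 300)) (XT.lf (nat_lit 0) (nat_lit 9479302096) (nat_lit 304) (nat_lit 10855328387) (nat_lit 76) (nat_lit 168742018) (nat_lit 49) (nat_lit 5) (nat_lit 53) (nat_lit 5) (nat_lit 50) (nat_lit 5) (nat_lit 366) (nat_lit 355) (nat_lit 299))))) (XT.nd (nat_lit 156) (nat_lit 456) (nat_lit 0) (XT.nd (nat_lit 78) (nat_lit 0) (nat_lit 0) (XT.lf (nat_lit 0) (nat_lit 108752579) (nat_lit 228) (nat_lit 12686497531) (nat_lit 304) (nat_lit 8633040627) (nat_lit 46) (nat_lit 5) (nat_lit 49) (nat_lit 5) (nat_lit 50) (nat_lit 5) (nat_lit 367) (nat_lit 355) (nat_lit 298)) (XT.lf (nat_lit 0) (nat_lit 12545492593) (nat_lit 228) (nat_lit 4109409989) (nat_lit 304) (nat_lit 5750043335) (nat_lit 46) (nat_lit 5) (nat_lit 49) (nat_lit 5) (nat_lit 50) (nat_lit 5) (nat_lit 368) (nat_lit 355) (nat_lit 297))) (XT.nd (nat_lit 78) (nat_lit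 304) (nat_lit 0) (XT.lf (nat_lit 0) (nat_lit 2496888484) (nat_lit 152) (nat_lit 18493348218) (nat_lit 228) (nat_lit 2456160510) (nat_lit 44) (nat_lit 5) (nat_lit 46) (nat_lit 5) (nat_lit 47) (nat_lit 5) (nat_lit 369) (nat_lit 355) (nat_lit 296)) (XT.nd (nat_lit 78) (nat_lit 228) (nat_lit 0) (XT.lf (nat_lit 0) (nat_lit 1412692041) (nat_lit 228) (nat_lit 8309226529) (nat_lit 76) (nat_lit 14817817596) (nat_lit 43) (nat_lit 5) (nat_lit 46) (nat_lit 5) (nat_lit 44) (nat_lit 5) (nat_lit 370) (nat_lit 355) (nat_lit 295)) (XT.lf (nat_lit 0) (nat_lit 5535133859) (nat_lit 228) (nat_lit 40817057) (nat_lit 304) (nat_lit 20130093109) (nat_lit 40) (nat_lit 5) (nat_lit 43) (nat_lit 5) (nat_lit 44) (nat_lit 5) (nat_lit 371) (nat_lit 355) (nat_lit 294))))))) (XT.nd (nat_lit 780) (nat_lit 760) (nat_lit 0) (XT.nd (nat_lit 390) (nat_lit 456) (nat_lit 0) (XT.nd (nat_lit 156) (nat_lit 228) (nat_lit 0) (XT.nd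 (nat_lit 78) (nat_lit 152) (nat_lit 0) (XT.lf (nat_lit 0) (nat_lit 10540868884) (nat_lit 304) (nat_lit 6265070087) (nat_lit 76) (nat_lit 10122241767) (nat_lit 40) (nat_lit 5) (nat_lit 44) (nat_lit 5) (nat_lit 41) (nat_lit 5) (nat_lit 372) (nat_lit 355) (nat_lit 293)) (XT.lf (nat_lit 0) (nat_lit 9192769637) (nat_lit 152) (nat_lit 6918498705) (nat_lit 228) (nat_lit 12120168201) (nat_lit 38) (nat_lit 5) (nat_lit 40) (nat_lit 5) (nat_lit 41) (nat_lit 5) (nat_lit 373) (nat_lit 355) (nat_lit 292))) (XT.nd (nat_lit 78) (nat_lit 228) (nat_lit 0) (XT.lf (nat_lit 0) (nat_lit 22380058031) (nat_lit 228) (nat_lit 3496308270) (nat_lit 76) (nat_lit 3742376221) (nat_lit 38) (nat_lit 5) (nat_lit 41) (nat_lit 5) (nat_lit 39) (nat_lit 5) (nat_lit 374) (nat_lit 355) (nat_lit 291)) (XT.nd (nat_lit 78) (nat_lit 76) (nat_lit 0) (XT.lf (nat_lit 0) (nat_lit 13780852532) (nat_lit 152) (nat_lit 15868207500) (nat_lit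 228) (nat_lit 1428085819) (nat_lit 36) (nat_lit 5) (nat_lit 38) (nat_lit 5) (nat_lit 39) (nat_lit 5) (nat_lit 375) (nat_lit 355) (nat_lit 290)) (XT.lf (nat_lit 0) (nat_lit 4690706241) (nat_lit 228) (nat_lit 143061865) (nat_lit 76) (nat_lit 27802268833) (nat_lit 35) (nat_lit 5) (nat_lit 38) (nat_lit 5) (nat_lit 36) (nat_lit 5) (nat_lit 376) (nat_lit 355) (nat_lit 289))))) (XT.nd (nat_lit 156) (nat_lit 152) (nat_lit 0) (XT.nd (nat_lit 78) (nat_lit 152) (nat_lit 0) (XT.lf (nat_lit 0) (nat_lit 11857747462) (nat_lit 228) (nat_lit 15170315644) (nat_lit 76) (nat_lit 7237744417) (nat_lit 33) (nat_lit 5) (nat_lit 36) (nat_lit 5) (nat_lit 34) (nat_lit 5) (nat_lit 377) (nat_lit 355) (nat_lit 288)) (XT.lf (nat_lit 0) (nat_lit 3908070708) (nat_lit 152) (nat_lit 15902596496) (nat_lit 228) (nat_lit 16198298391) (nat_lit 31) (nat_lit 5) (nat_lit 33) (nat_lit 5) (nat_lit 34) (nat_lit 5) (nat_lit 378) (nat_lit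 355) (nat_lit 287))) (XT.nd (nat_lit 78) (nat_lit 152) (nat_lit 0) (XT.lf (nat_lit 0) (nat_lit 25358525615) (nat_lit 152) (nat_lit 3445448727) (nat_lit 228) (nat_lit 9055276199) (nat_lit 31) (nat_lit 5) (nat_lit 33) (nat_lit 5) (nat_lit 34) (nat_lit 5) (nat_lit 379) (nat_lit 355) (nat_lit 286)) (XT.nd (nat_lit 78) (nat_lit 76) (nat_lit 0) (XT.lf (nat_lit 0) (nat_lit 8853288202) (nat_lit 76) (nat_lit 30107095887) (nat_lit 152) (nat_lit 861689204) (nat_lit 30) (nat_lit 5) (nat_lit 31) (nat_lit 5) (nat_lit 32) (nat_lit 4) (nat_lit 380) (nat_lit 355) (nat_lit 285)) (XT.lf (nat_lit 0) (nat_lit 8018103245) (nat_lit 152) (nat_lit 9594955780) (nat_lit 76) (nat_lit 24279077897) (nat_lit 29) (nat_lit 5) (nat_lit 31) (nat_lit 5) (nat_lit 30) (nat_lit 5) (nat_lit 381) (nat_lit 355) (nat_lit 284)))))) (XT.nd (nat_lit 390) (nat_lit 304) (nat_lit 0) (XT.nd (nat_lit 156) (nat_lit 304) (nat_lit 0) (XT.nd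 (nat_lit 78) (nat_lit 0) (nat_lit 0) (XT.lf (nat_lit 0) (nat_lit 14159471451) (nat_lit 152) (nat_lit 3733639638) (nat_lit 228) (nat_lit 26206397984) (nat_lit 27) (nat_lit 5) (nat_lit 29) (nat_lit 5) (nat_lit 30) (nat_lit 5) (nat_lit 382) (nat_lit 355) (nat_lit 283)) (XT.lf (nat_lit 0) (nat_lit 29089012606) (nat_lit 228) (nat_lit 6395502474) (nat_lit 76) (nat_lit 10956488922) (nat_lit 27) (nat_lit 5) (nat_lit 30) (nat_lit 5) (nat_lit 28) (nat_lit 4) (nat_lit 383) (nat_lit 355) (nat_lit 282))) (XT.nd (nat_lit 78) (nat_lit 228) (nat_lit 0) (XT.lf (nat_lit 0) (nat_lit 19917703278) (nat_lit 76) (nat_lit 21830572201) (nat_lit 152) (nat_lit 7176132026) (nat_lit 26) (nat_lit 5) (nat_lit 27) (nat_lit 5) (nat_lit 28) (nat_lit 4) (nat_lit 384) (nat_lit 355) (nat_lit 281)) (XT.nd (nat_lit 78) (nat_lit 152) (nat_lit 0) (XT.lf (nat_lit 0) (nat_lit 3794179866) (nat_lit 152) (nat_lit 3003429314) (nat_lit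 76) (nat_lit 44787846662) (nat_lit 25) (nat_lit 5) (nat_lit 27) (nat_lit 5) (nat_lit 26) (nat_lit 5) (nat_lit 385) (nat_lit 355) (nat_lit 280)) (XT.lf (nat_lit 0) (nat_lit 16124722525) (nat_lit 228) (nat_lit 28452167244) (nat_lit 76) (nat_lit 9797965838) (nat_lit 23) (nat_lit 5) (nat_lit 26) (nat_lit 5) (nat_lit 24) (nat_lit 4) (nat_lit 386) (nat_lit 355) (nat_lit 279))))) (XT.nd (nat_lit 156) (nat_lit 228) (nat_lit 0) (XT.nd (nat_lit 78) (nat_lit 76) (nat_lit 0) (XT.lf (nat_lit 0) (nat_lit 29695010866) (nat_lit 228) (nat_lit 239242885) (nat_lit 76) (nat_lit 27432892447) (nat_lit 23) (nat_lit 5) (nat_lit 26) (nat_lit 5) (nat_lit 24) (nat_lit 4) (nat_lit 387) (nat_lit 355) (nat_lit 278)) (XT.lf (nat_lit 0) (nat_lit 31809536953) (nat_lit 76) (nat_lit 13299450772) (nat_lit 152) (nat_lit 15429189878) (nat_lit 22) (nat_lit 5) (nat_lit 23) (nat_lit 5) (nat_lit 24) (nat_lit 4) (nat_lit 388) (nat_lit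 355) (nat_lit 277))) (XT.nd (nat_lit 78) (nat_lit 152) (nat_lit 0) (XT.lf (nat_lit 0) (nat_lit 2472219059) (nat_lit 76) (nat_lit 59455392587) (nat_lit 76) (nat_lit 2021560157) (nat_lit 21) (nat_lit 4) (nat_lit 22) (nat_lit 5) (nat_lit 22) (nat_lit 4) (nat_lit 389) (nat_lit 355) (nat_lit 276)) (XT.nd (nat_lit 78) (nat_lit 76) (nat_lit 0) (XT.lf (nat_lit 0) (nat_lit 12979960819) (nat_lit 152) (nat_lit 30445271734) (nat_lit 76) (nat_lit 24092283527) (nat_lit 20) (nat_lit 5) (nat_lit 22) (nat_lit 5) (nat_lit 21) (nat_lit 4) (nat_lit 390) (nat_lit 355) (nat_lit 275)) (XT.lf (nat_lit 0) (nat_lit 3163031760) (nat_lit 76) (nat_lit 25979111031) (nat_lit 152) (nat_lit 42219406036) (nat_lit 19) (nat_lit 5) (nat_lit 20) (nat_lit 5) (nat_lit 21) (nat_lit 4) (nat_lit 391) (nat_lit 355) (nat_lit 274))))))))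
noncomputable def xc138 : XT := (XT.nd (nat_lit 1482) (nat_lit 456) (nat_lit 0) (XT.nd (nat_lit 702) (nat_lit 304) (nat_lit 0) (XT.nd (nat_lit 312) (nat_lit 304) (nat_lit 0) (XT.nd (nat_lit 156) (nat_lit 76) (nat_lit 0) (XT.nd (nat_lit 78) (nat_lit 76) (nat_lit 0) (XT.lf (nat_lit 0) (nat_lit 41180111988) (nat_lit 76) (nat_lit 6243495215) (nat_lit 152) (nat_lit 28023394270) (nat_lit 19) (nat_lit 5) (nat_lit 20) (nat_lit 5) (nat_lit 21) (nat_lit 4) (nat_lit 392) (nat_lit 355) (nat_lit 273)) (XT.lf (nat_lit 0) (nat_lit 2111605953) (nat_lit 76) (nat_lit 65463441510) (nat_lit 76) (nat_lit 12251647937) (nat_lit 18) (nat_lit 4) (nat_lit 19) (nat_lit 5) (nat_lit 19) (nat_lit 4) (nat_lit 393) (nat_lit 355) (nat_lit 272))) (XT.nd (nat_lit 78) (nat_lit 0) (nat_lit 0) (XT.lf (nat_lit 0) (nat_lit 5660297344) (nat_lit 152) (nat_lit 41445016096) (nat_lit 76) (nat_lit 37352839358) (nat_lit 17) (nat_lit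 5) (nat_lit 19) (nat_lit 5) (nat_lit 18) (nat_lit 4) (nat_lit 394) (nat_lit 355) (nat_lit 271)) (XT.lf (nat_lit 0) (nat_lit 24337961815) (nat_lit 152) (nat_lit 2601623071) (nat_lit 76) (nat_lit 62495511672) (nat_lit 17) (nat_lit 5) (nat_lit 19) (nat_lit 5) (nat_lit 18) (nat_lit 4) (nat_lit 395) (nat_lit 355) (nat_lit 270)))) (XT.nd (nat_lit 156) (nat_lit 228) (nat_lit 0) (XT.nd (nat_lit 78) (nat_lit 0) (nat_lit 0) (XT.lf (nat_lit 0) (nat_lit 41411495863) (nat_lit 76) (nat_lit 4089356588) (nat_lit 152) (nat_lit 49230063626) (nat_lit 16) (nat_lit 5) (nat_lit 17) (nat_lit 5) (nat_lit 18) (nat_lit 4) (nat_lit 396) (nat_lit 355) (nat_lit 269)) (XT.lf (nat_lit 0) (nat_lit 68920027651) (nat_lit 152) (nat_lit 11857461863) (nat_lit 0) (nat_lit 19627852580) (nat_lit 16) (nat_lit 5) (nat_lit 18) (nat_lit 4) (nat_lit 16) (nat_lit 4) (nat_lit 397) (nat_lit 355) (nat_lit 268))) (XT.nd (nat_lit 78) (nat_lit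 152) (nat_lit 0) (XT.lf (nat_lit 0) (nat_lit 34534103920) (nat_lit 76) (nat_lit 60610867714) (nat_lit 76) (nat_lit 11314172890) (nat_lit 15) (nat_lit 4) (nat_lit 16) (nat_lit 5) (nat_lit 16) (nat_lit 4) (nat_lit 398) (nat_lit 355) (nat_lit 267)) (XT.nd (nat_lit 78) (nat_lit 76) (nat_lit 0) (XT.lf (nat_lit 0) (nat_lit 10274988839) (nat_lit 152) (nat_lit 27928902996) (nat_lit 76) (nat_lit 74746965604) (nat_lit 14) (nat_lit 5) (nat_lit 16) (nat_lit 5) (nat_lit 15) (nat_lit 4) (nat_lit 399) (nat_lit 355) (nat_lit 266)) (XT.lf (nat_lit 0) (nat_lit 20300521809) (nat_lit 76) (nat_lit 13163553455) (nat_lit 152) (nat_lit 86435598959) (nat_lit 13) (nat_lit 5) (nat_lit 14) (nat_lit 5) (nat_lit 15) (nat_lit 4) (nat_lit 400) (nat_lit 355) (nat_lit 265)))))) (XT.nd (nat_lit 390) (nat_lit 76) (nat_lit 0) (XT.nd (nat_lit 156) (nat_lit 228) (nat_lit 0) (XT.nd (nat_lit 78) (nat_lit 0) (nat_lit 0) (XT.lf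 (nat_lit 0) (nat_lit 59621416160) (nat_lit 152) (nat_lit 53728387485) (nat_lit 0) (nat_lit 13965543320) (nat_lit 13) (nat_lit 5) (nat_lit 15) (nat_lit 4) (nat_lit 13) (nat_lit 4) (nat_lit 401) (nat_lit 355) (nat_lit 264)) (XT.lf (nat_lit 0) (nat_lit 88209414804) (nat_lit 152) (nat_lit 4537347945) (nat_lit 0) (nat_lit 42550465895) (nat_lit 13) (nat_lit 5) (nat_lit 15) (nat_lit 4) (nat_lit 13) (nat_lit 4) (nat_lit 402) (nat_lit 355) (nat_lit 263))) (XT.nd (nat_lit 78) (nat_lit 152) (nat_lit 0) (XT.lf (nat_lit 0) (nat_lit 51140297224) (nat_lit 76) (nat_lit 69170525935) (nat_lit 76) (nat_lit 23508728815) (nat_lit 12) (nat_lit 4) (nat_lit 13) (nat_lit 5) (nat_lit 13) (nat_lit 4) (nat_lit 403) (nat_lit 355) (nat_lit 262)) (XT.nd (nat_lit 78) (nat_lit 76) (nat_lit 0) (XT.lf (nat_lit 0) (nat_lit 1982538458) (nat_lit 152) (nat_lit 41540754358) (nat_lit 76) (nat_lit 109486705361) (nat_lit 11) (nat_lit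 5) (nat_lit 13) (nat_lit 5) (nat_lit 12) (nat_lit 4) (nat_lit 404) (nat_lit 355) (nat_lit 261)) (XT.lf (nat_lit 0) (nat_lit 13760126299) (nat_lit 76) (nat_lit 14810547996) (nat_lit 152) (nat_lit 134289945101) (nat_lit 10) (nat_lit 5) (nat_lit 11) (nat_lit 5) (nat_lit 12) (nat_lit 4) (nat_lit 405) (nat_lit 355) (nat_lit 260))))) (XT.nd (nat_lit 156) (nat_lit 76) (nat_lit 0) (XT.nd (nat_lit 78) (nat_lit 0) (nat_lit 0) (XT.lf (nat_lit 0) (nat_lit 58837488230) (nat_lit 152) (nat_lit 97986422370) (nat_lit 0) (nat_lit 16551250048) (nat_lit 10) (nat_lit 5) (nat_lit 12) (nat_lit 4) (nat_lit 10) (nat_lit 4) (nat_lit 406) (nat_lit 355) (nat_lit 259)) (XT.lf (nat_lit 0) (nat_lit 91907315176) (nat_lit 152) (nat_lit 43173878521) (nat_lit 0) (nat_lit 49619138549) (nat_lit 10) (nat_lit 5) (nat_lit 12) (nat_lit 4) (nat_lit 10) (nat_lit 4) (nat_lit 407) (nat_lit 355) (nat_lit 258))) (XT.nd (nat_lit 78)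 (nat_lit 0) (nat_lit 0) (XT.lf (nat_lit 0) (nat_lit 16861634823) (nat_lit 76) (nat_lit 111163818341) (nat_lit 76) (nat_lit 68873846858) (nat_lit 9) (nat_lit 4) (nat_lit 10) (nat_lit 5) (nat_lit 10) (nat_lit 4) (nat_lit 408) (nat_lit 355) (nat_lit 257)) (XT.nd (nat_lit 78) (nat_lit 0) (nat_lit 0) (XT.lf (nat_lit 0) (nat_lit 84149944464) (nat_lit 76) (nat_lit 84060828063) (nat_lit 76) (nat_lit 41769194676) (nat_lit 9) (nat_lit 4) (nat_lit 10) (nat_lit 5) (nat_lit 10) (nat_lit 4) (nat_lit 409) (nat_lit 355) (nat_lit 256)) (XT.lf (nat_lit 0) (nat_lit 156816336010) (nat_lit 76) (nat_lit 54792062899) (nat_lit 76) (nat_lit 12498890711) (nat_lit 9) (nat_lit 4) (nat_lit 10) (nat_lit 5) (nat_lit 10) (nat_lit 4) (nat_lit 410) (nat_lit 355) (nat_lit 255))))))) (XT.nd (nat_lit 780) (nat_lit 76) (nat_lit 0) (XT.nd (nat_lit 390) (nat_lit 228) (nat_lit 0) (XT.nd (nat_lit 156) (nat_lit 0) (nat_lit 0) (XT.nd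 (nat_lit 78) (nat_lit 76) (nat_lit 0) (XT.lf (nat_lit 0) (nat_lit 18154533144) (nat_lit 152) (nat_lit 4533168061) (nat_lit 76) (nat_lit 216640514860) (nat_lit 8) (nat_lit 5) (nat_lit 10) (nat_lit 5) (nat_lit 9) (nat_lit 4) (nat_lit 411) (nat_lit 355) (nat_lit 254)) (XT.lf (nat_lit 0) (nat_lit 52513557548) (nat_lit 152) (nat_lit 189722328238) (nat_lit 0) (nat_lit 13350672108) (nat_lit 7) (nat_lit 5) (nat_lit 9) (nat_lit 4) (nat_lit 7) (nat_lit 4) (nat_lit 412) (nat_lit 355) (nat_lit 253))) (XT.nd (nat_lit 78) (nat_lit 0) (nat_lit 0) (XT.lf (nat_lit 0) (nat_lit 90335553581) (nat_lit 152) (nat_lit 131581336717) (nat_lit 0) (nat_lit 51171537077) (nat_lit 7) (nat_lit 5) (nat_lit 9) (nat_lit 4) (nat_lit 7) (nat_lit 4) (nat_lit 413) (nat_lit 355) (nat_lit 252)) (XT.nd (nat_lit 78) (nat_lit 0) (nat_lit 0) (XT.lf (nat_lit 0) (nat_lit 131181267204) (nat_lit 152) (nat_lit 68793139415) (nat_lit 0)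 (nat_lit 92016203419) (nat_lit 7) (nat_lit 5) (nat_lit 9) (nat_lit 4) (nat_lit 7) (nat_lit 4) (nat_lit 414) (nat_lit 355) (nat_lit 251)) (XT.lf (nat_lit 0) (nat_lit 175292747092) (nat_lit 152) (nat_lit 985658127) (nat_lit 0) (nat_lit 136126713602) (nat_lit 7) (nat_lit 5) (nat_lit 9) (nat_lit 4) (nat_lit 7) (nat_lit 4) (nat_lit 415) (nat_lit 355) (nat_lit 250))))) (XT.nd (nat_lit 156) (nat_lit 152) (nat_lit 0) (XT.nd (nat_lit 78) (nat_lit 0) (nat_lit 0) (XT.lf (nat_lit 0) (nat_lit 76047113889) (nat_lit 76) (nat_lit 148713215635) (nat_lit 76) (nat_lit 109546284270) (nat_lit 6) (nat_lit 4) (nat_lit 7) (nat_lit 5) (nat_lit 7) (nat_lit 4) (nat_lit 416) (nat_lit 355) (nat_lit 249)) (XT.lf (nat_lit 0) (nat_lit 159295158928) (nat_lit 76) (nat_lit 118915406318) (nat_lit 76) (nat_lit 79747643587) (nat_lit 6) (nat_lit 4) (nat_lit 7) (nat_lit 5) (nat_lit 7) (nat_lit 4) (nat_lit 417) (nat_lit 355)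 (nat_lit 248))) (XT.nd (nat_lit 78) (nat_lit 152) (nat_lit 0) (XT.lf (nat_lit 0) (nat_lit 249199895727) (nat_lit 76) (nat_lit 86735347298) (nat_lit 76) (nat_lit 47566814784) (nat_lit 6) (nat_lit 4) (nat_lit 7) (nat_lit 5) (nat_lit 7) (nat_lit 4) (nat_lit 418) (nat_lit 355) (nat_lit 247)) (XT.nd (nat_lit 78) (nat_lit 152) (nat_lit 0) (XT.lf (nat_lit 0) (nat_lit 346294093099) (nat_lit 76) (nat_lit 51982341929) (nat_lit 76) (nat_lit 12813096653) (nat_lit 6) (nat_lit 4) (nat_lit 7) (nat_lit 5) (nat_lit 7) (nat_lit 4) (nat_lit 419) (nat_lit 355) (nat_lit 246)) (XT.lf (nat_lit 0) (nat_lit 10183951196) (nat_lit 76) (nat_lit 13543864398) (nat_lit 152) (nat_lit 417089141950) (nat_lit 4) (nat_lit 5) (nat_lit 5) (nat_lit 5) (nat_lit 6) (nat_lit 4) (nat_lit 420) (nat_lit 355) (nat_lit 245)))))) (XT.nd (nat_lit 390) (nat_lit 76) (nat_lit 0) (XT.nd (nat_lit 156) (nat_lit 0) (nat_lit 0) (XT.nd (nat_lit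 78) (nat_lit 0) (nat_lit 0) (XT.lf (nat_lit 0) (nat_lit 64988688789) (nat_lit 152) (nat_lit 378988457773) (nat_lit 0) (nat_lit 28719692197) (nat_lit 4) (nat_lit 5) (nat_lit 6) (nat_lit 4) (nat_lit 4) (nat_lit 4) (nat_lit 421) (nat_lit 355) (nat_lit 244)) (XT.lf (nat_lit 0) (nat_lit 109900940866) (nat_lit 152) (nat_lit 323566708642) (nat_lit 0) (nat_lit 73631420372) (nat_lit 4) (nat_lit 5) (nat_lit 6) (nat_lit 4) (nat_lit 4) (nat_lit 4) (nat_lit 422) (nat_lit 355) (nat_lit 243))) (XT.nd (nat_lit 78) (nat_lit 0) (nat_lit 0) (XT.lf (nat_lit 0) (nat_lit 158404988237) (nat_lit 152) (nat_lit 263713603511) (nat_lit 0) (nat_lit 122134982650) (nat_lit 4) (nat_lit 5) (nat_lit 6) (nat_lit 4) (nat_lit 4) (nat_lit 4) (nat_lit 423) (nat_lit 355) (nat_lit 242)) (XT.nd (nat_lit 78) (nat_lit 0) (nat_lit 0) (XT.lf (nat_lit 0) (nat_lit 210788262296) (nat_lit 152) (nat_lit 199074457312) (nat_lit 0) (nat_lit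 174517807548) (nat_lit 4) (nat_lit 5) (nat_lit 6) (nat_lit 4) (nat_lit 4) (nat_lit 4) (nat_lit 424) (nat_lit 355) (nat_lit 241)) (XT.lf (nat_lit 0) (nat_lit 267361182445) (nat_lit 152) (nat_lit 129266223254) (nat_lit 0) (nat_lit 231090311806) (nat_lit 4) (nat_lit 5) (nat_lit 6) (nat_lit 4) (nat_lit 4) (nat_lit 4) (nat_lit 425) (nat_lit 355) (nat_lit 240))))) (XT.nd (nat_lit 156) (nat_lit 0) (nat_lit 0) (XT.nd (nat_lit 78) (nat_lit 76) (nat_lit 0) (XT.lf (nat_lit 0) (nat_lit 328458995617) (nat_lit 152) (nat_lit 53875222911) (nat_lit 0) (nat_lit 292187739895) (nat_lit 4) (nat_lit 5) (nat_lit 6) (nat_lit 4) (nat_lit 4) (nat_lit 4) (nat_lit 426) (nat_lit 355) (nat_lit 239)) (XT.lf (nat_lit 0) (nat_lit 28995792155) (nat_lit 76) (nat_lit 366145320271) (nat_lit 76) (nat_lit 329873707991) (nat_lit 3) (nat_lit 4) (nat_lit 4) (nat_lit 5) (nat_lit 4) (nat_lit 4) (nat_lit 427) (nat_lit 355) (nat_lit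 238))) (XT.nd (nat_lit 78) (nat_lit 0) (nat_lit 0) (XT.lf (nat_lit 0) (nat_lit 121558712192) (nat_lit 76) (nat_lit 347071282979) (nat_lit 76) (nat_lit 310799340552) (nat_lit 3) (nat_lit 4) (nat_lit 4) (nat_lit 5) (nat_lit 4) (nat_lit 4) (nat_lit 428) (nat_lit 355) (nat_lit 237)) (XT.nd (nat_lit 78) (nat_lit 0) (nat_lit 0) (XT.lf (nat_lit 0) (nat_lit 221525084445) (nat_lit 76) (nat_lit 326472119389) (nat_lit 76) (nat_lit 290199871271) (nat_lit 3) (nat_lit 4) (nat_lit 4) (nat_lit 5) (nat_lit 4) (nat_lit 4) (nat_lit 429) (nat_lit 355) (nat_lit 236)) (XT.lf (nat_lit 0) (nat_lit 329487302230) (nat_lit 76) (nat_lit 304225760385) (nat_lit 76) (nat_lit 267953229219) (nat_lit 3) (nat_lit 4) (nat_lit 4) (nat_lit 5) (nat_lit 4) (nat_lit 4) (nat_lit 430) (nat_lit 355) (nat_lit 235))))))))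
noncomputable def xc139 : XT := (XT.nd (nat_lit 1482) (nat_lit 0) (nat_lit 0) (XT.nd (nat_lit 702) (nat_lit 0) (nat_lit 0) (XT.nd (nat_lit 312) (nat_lit 152) (nat_lit 0) (XT.nd (nat_lit 156) (nat_lit 0) (nat_lit 0) (XT.nd (nat_lit 78) (nat_lit 0) (nat_lit 0) (XT.lf (nat_lit 0) (nat_lit 446085141653) (nat_lit 76) (nat_lit 280200375690) (nat_lit 76) (nat_lit 243927582443) (nat_lit 3) (nat_lit 4) (nat_lit 4) (nat_lit 5) (nat_lit 4) (nat_lit 4) (nat_lit 431) (nat_lit 355) (nat_lit 234)) (XT.lf (nat_lit 0) (nat_lit 572009552873) (nat_lit 76) (nat_lit 254253592655) (nat_lit 76) (nat_lit 217980556740) (nat_lit 3) (nat_lit 4) (nat_lit 4) (nat_lit 5) (nat_lit 4) (nat_lit 4) (nat_lit 432) (nat_lit 355) (nat_lit 233))) (XT.nd (nat_lit 78) (nat_lit 0) (nat_lit 0) (XT.lf (nat_lit 0) (nat_lit 708006754623) (nat_lit 76) (nat_lit 226231652565) (nat_lit 76) (nat_lit 189958391958) (nat_lit 3) (nat_lit 4)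 (nat_lit 4) (nat_lit 5) (nat_lit 4) (nat_lit 4) (nat_lit 433) (nat_lit 355) (nat_lit 232)) (XT.lf (nat_lit 0) (nat_lit 854882656247) (nat_lit 76) (nat_lit 195968499479) (nat_lit 76) (nat_lit 159695030823) (nat_lit 3) (nat_lit 4) (nat_lit 4) (nat_lit 5) (nat_lit 4) (nat_lit 4) (nat_lit 434) (nat_lit 355) (nat_lit 231)))) (XT.nd (nat_lit 156) (nat_lit 152) (nat_lit 0) (XT.nd (nat_lit 78) (nat_lit 0) (nat_lit 0) (XT.lf (nat_lit 0) (nat_lit 1013507633458) (nat_lit 76) (nat_lit 163284796194) (nat_lit 76) (nat_lit 127011134901) (nat_lit 3) (nat_lit 4) (nat_lit 4) (nat_lit 5) (nat_lit 4) (nat_lit 4) (nat_lit 435) (nat_lit 355) (nat_lit 230)) (XT.lf (nat_lit 0) (nat_lit 1184821686121) (nat_lit 76) (nat_lit 127986861505) (nat_lit 76) (nat_lit 91713021843) (nat_lit 3) (nat_lit 4) (nat_lit 4) (nat_lit 5) (nat_lit 4) (nat_lit 4) (nat_lit 436) (nat_lit 355) (nat_lit 229))) (XT.nd (nat_lit 78) (nat_lit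 152) (nat_lit 0) (XT.lf (nat_lit 0) (nat_lit 1369840008623) (nat_lit 76) (nat_lit 89865522465) (nat_lit 76) (nat_lit 53591517648) (nat_lit 3) (nat_lit 4) (nat_lit 4) (nat_lit 5) (nat_lit 4) (nat_lit 4) (nat_lit 437) (nat_lit 355) (nat_lit 228)) (XT.nd (nat_lit 78) (nat_lit 152) (nat_lit 0) (XT.lf (nat_lit 0) (nat_lit 1569659005837) (nat_lit 76) (nat_lit 48694874843) (nat_lit 76) (nat_lit 12420717105) (nat_lit 3) (nat_lit 4) (nat_lit 4) (nat_lit 5) (nat_lit 4) (nat_lit 4) (nat_lit 438) (nat_lit 355) (nat_lit 227)) (XT.lf (nat_lit 0) (nat_lit 28465738540) (nat_lit 76) (nat_lit 2659279667) (nat_lit 152) (nat_lit 1726408942050) (nat_lit 1) (nat_lit 5) (nat_lit 2) (nat_lit 5) (nat_lit 3) (nat_lit 4) (nat_lit 439) (nat_lit 355) (nat_lit 226)))))) (XT.nd (nat_lit 390) (nat_lit 0) (nat_lit 0) (XT.nd (nat_lit 156) (nat_lit 0) (nat_lit 0) (XT.nd (nat_lit 78) (nat_lit 0) (nat_lit 0) (XT.lf (nat_lit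 0) (nat_lit 80329184571) (nat_lit 152) (nat_lit 1767109663841) (nat_lit 0) (nat_lit 46741748980) (nat_lit 1) (nat_lit 5) (nat_lit 3) (nat_lit 4) (nat_lit 1) (nat_lit 4) (nat_lit 440) (nat_lit 355) (nat_lit 225)) (XT.lf (nat_lit 0) (nat_lit 133538412136) (nat_lit 152) (nat_lit 1808264191014) (nat_lit 0) (nat_lit 99950864142) (nat_lit 1) (nat_lit 5) (nat_lit 3) (nat_lit 4) (nat_lit 1) (nat_lit 4) (nat_lit 441) (nat_lit 355) (nat_lit 224))) (XT.nd (nat_lit 78) (nat_lit 0) (nat_lit 0) (XT.lf (nat_lit 0) (nat_lit 191004059103) (nat_lit 152) (nat_lit 1852711726178) (nat_lit 0) (nat_lit 157416407033) (nat_lit 1) (nat_lit 5) (nat_lit 3) (nat_lit 4) (nat_lit 1) (nat_lit 4) (nat_lit 442) (nat_lit 355) (nat_lit 223)) (XT.nd (nat_lit 78) (nat_lit 0) (nat_lit 0) (XT.lf (nat_lit 0) (nat_lit 253066662640) (nat_lit 152) (nat_lit 1900715662134) (nat_lit 0) (nat_lit 219478914204) (nat_lit 1) (nat_lit 5)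 (nat_lit 3) (nat_lit 4) (nat_lit 1) (nat_lit 4) (nat_lit 443) (nat_lit 355) (nat_lit 222)) (XT.lf (nat_lit 0) (nat_lit 320094001139) (nat_lit 152) (nat_lit 1952560466650) (nat_lit 0) (nat_lit 286506163474) (nat_lit 1) (nat_lit 5) (nat_lit 3) (nat_lit 4) (nat_lit 1) (nat_lit 4) (nat_lit 444) (nat_lit 355) (nat_lit 221))))) (XT.nd (nat_lit 156) (nat_lit 0) (nat_lit 0) (XT.nd (nat_lit 78) (nat_lit 0) (nat_lit 0) (XT.lf (nat_lit 0) (nat_lit 392483273641) (nat_lit 152) (nat_lit 2008553368197) (nat_lit 0) (nat_lit 358895353357) (nat_lit 1) (nat_lit 5) (nat_lit 3) (nat_lit 4) (nat_lit 1) (nat_lit 4) (nat_lit 445) (nat_lit 355) (nat_lit 220)) (XT.lf (nat_lit 0) (nat_lit 470663453614) (nat_lit 152) (nat_lit 2069026176562) (nat_lit 0) (nat_lit 437075456831) (nat_lit 1) (nat_lit 5) (nat_lit 3) (nat_lit 4) (nat_lit 1) (nat_lit 4) (nat_lit 446) (nat_lit 355) (nat_lit 219))) (XT.nd (nat_lit 78) (nat_lit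 0) (nat_lit 0) (XT.lf (nat_lit 0) (nat_lit 555097831013) (nat_lit 152) (nat_lit 2134337249129) (nat_lit 0) (nat_lit 521509763398) (nat_lit 1) (nat_lit 5) (nat_lit 3) (nat_lit 4) (nat_lit 1) (nat_lit 4) (nat_lit 447) (nat_lit 355) (nat_lit 218)) (XT.nd (nat_lit 78) (nat_lit 0) (nat_lit 0) (XT.lf (nat_lit 0) (nat_lit 646286757705) (nat_lit 152) (nat_lit 2204873614475) (nat_lit 0) (nat_lit 612698624504) (nat_lit 1) (nat_lit 5) (nat_lit 3) (nat_lit 4) (nat_lit 1) (nat_lit 4) (nat_lit 448) (nat_lit 355) (nat_lit 217)) (XT.lf (nat_lit 0) (nat_lit 744770612513) (nat_lit 152) (nat_lit 2281053265877) (nat_lit 0) (nat_lit 711182418585) (nat_lit 1) (nat_lit 5) (nat_lit 3) (nat_lit 4) (nat_lit 1) (nat_lit 4) (nat_lit 449) (nat_lit 355) (nat_lit 216))))))) (XT.nd (nat_lit 45864) (nat_lit 0) (nat_lit 3876) (XT.nd (nat_lit 390) (nat_lit 0) (nat_lit 0) (XT.nd (nat_lit 156) (nat_lit 0) (nat_lit 0) (XT.nd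 (nat_lit 78) (nat_lit 0) (nat_lit 0) (XT.lf (nat_lit 0) (nat_lit 851133003468) (nat_lit 152) (nat_lit 2363327638305) (nat_lit 0) (nat_lit 817544753311) (nat_lit 1) (nat_lit 5) (nat_lit 3) (nat_lit 4) (nat_lit 1) (nat_lit 4) (nat_lit 450) (nat_lit 355) (nat_lit 215)) (XT.lf (nat_lit 0) (nat_lit 966004226218) (nat_lit 152) (nat_lit 2452184283597) (nat_lit 0) (nat_lit 932415923997) (nat_lit 1) (nat_lit 5) (nat_lit 3) (nat_lit 4) (nat_lit 1) (nat_lit 4) (nat_lit 451) (nat_lit 355) (nat_lit 214))) (XT.nd (nat_lit 78) (nat_lit 0) (nat_lit 0) (XT.lf (nat_lit 0) (nat_lit 1090064999120) (nat_lit 152) (nat_lit 2548149759651) (nat_lit 0) (nat_lit 1056476648692) (nat_lit 1) (nat_lit 5) (nat_lit 3) (nat_lit 4) (nat_lit 1) (nat_lit 4) (nat_lit 452) (nat_lit 355) (nat_lit 213)) (XT.nd (nat_lit 78) (nat_lit 0) (nat_lit 0) (XT.lf (nat_lit 0) (nat_lit 1224050497126) (nat_lit 152) (nat_lit 2651792750768)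 (nat_lit 0) (nat_lit 1190462102061) (nat_lit 1) (nat_lit 5) (nat_lit 3) (nat_lit 4) (nat_lit 1) (nat_lit 4) (nat_lit 453) (nat_lit 355) (nat_lit 212)) (XT.lf (nat_lit 0) (nat_lit 1368754708372) (nat_lit 152) (nat_lit 2763727437637) (nat_lit 0) (nat_lit 1335166271977) (nat_lit 1) (nat_lit 5) (nat_lit 3) (nat_lit 4) (nat_lit 1) (nat_lit 4) (nat_lit 454) (nat_lit 355) (nat_lit 211))))) (XT.nd (nat_lit 156) (nat_lit 0) (nat_lit 0) (XT.nd (nat_lit 78) (nat_lit 0) (nat_lit 0) (XT.lf (nat_lit 0) (nat_lit 1525035139294) (nat_lit 152) (nat_lit 2884617136922) (nat_lit 0) (nat_lit 1491446664630) (nat_lit 1) (nat_lit 5) (nat_lit 3) (nat_lit 4) (nat_lit 1) (nat_lit 4) (nat_lit 455) (nat_lit 355) (nat_lit 210)) (XT.lf (nat_lit 0) (nat_lit 1693817896150) (nat_lit 152) (nat_lit 3015178232025) (nat_lit 0) (nat_lit 1660229386052) (nat_lit 1) (nat_lit 5) (nat_lit 3) (nat_lit 4) (nat_lit 1) (nat_lit 4) (nat_lit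 456) (nat_lit 355) (nat_lit 209))) (XT.nd (nat_lit 78) (nat_lit 0) (nat_lit 0) (XT.lf (nat_lit 0) (nat_lit 1876103173054) (nat_lit 152) (nat_lit 3156184418324) (nat_lit 0) (nat_lit 1842514630148) (nat_lit 1) (nat_lit 5) (nat_lit 3) (nat_lit 4) (nat_lit 1) (nat_lit 4) (nat_lit 457) (nat_lit 355) (nat_lit 208)) (XT.nd (nat_lit 45162) (nat_lit 0) (nat_lit 4560) (XT.lf (nat_lit 0) (nat_lit 2072971179056) (nat_lit 152) (nat_lit 3308471288035) (nat_lit 0) (nat_lit 2039382605771) (nat_lit 1) (nat_lit 5) (nat_lit 3) (nat_lit 4) (nat_lit 1) (nat_lit 4) (nat_lit 458) (nat_lit 355) (nat_lit 207)) (XT.lf (nat_lit 0) (nat_lit 4527787786) (nat_lit 532) (nat_lit 1277404285) (nat_lit 532) (nat_lit 1277404285) (nat_lit 61) (nat_lit 3) (nat_lit 68) (nat_lit 3) (nat_lit 68) (nat_lit 5) (nat_lit 356) (nat_lit 356) (nat_lit 308)))))) (XT.nd (nat_lit 390) (nat_lit 684) (nat_lit 0) (XT.nd (nat_lit 156) (nat_lit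 0) (nat_lit 76) (XT.nd (nat_lit 78) (nat_lit 0) (nat_lit 76) (XT.lf (nat_lit 76) (nat_lit 4501164490) (nat_lit 0) (nat_lit 5338885355) (nat_lit 532) (nat_lit 4857586945) (nat_lit 62) (nat_lit 5) (nat_lit 61) (nat_lit 3) (nat_lit 68) (nat_lit 5) (nat_lit 357) (nat_lit 356) (nat_lit 307)) (XT.lf (nat_lit 0) (nat_lit 10761936211) (nat_lit 456) (nat_lit 3057288069) (nat_lit 532) (nat_lit 1447518152) (nat_lit 62) (nat_lit 5) (nat_lit 68) (nat_lit 5) (nat_lit 69) (nat_lit 5) (nat_lit 358) (nat_lit 356) (nat_lit 306))) (XT.nd (nat_lit 78) (nat_lit 0) (nat_lit 0) (XT.lf (nat_lit 76) (nat_lit 4731803818) (nat_lit 0) (nat_lit 7249067049) (nat_lit 532) (nat_lit 3882677398) (nat_lit 63) (nat_lit 5) (nat_lit 62) (nat_lit 5) (nat_lit 69) (nat_lit 5) (nat_lit 359) (nat_lit 356) (nat_lit 305)) (XT.nd (nat_lit 78) (nat_lit 0) (nat_lit 76) (XT.lf (nat_lit 76) (nat_lit 13299122575) (nat_lit 0) (nat_lit 54324095)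 (nat_lit 532) (nat_lit 3150194681) (nat_lit 63) (nat_lit 5) (nat_lit 62) (nat_lit 5) (nat_lit 69) (nat_lit 5) (nat_lit 360) (nat_lit 356) (nat_lit 304)) (XT.lf (nat_lit 76) (nat_lit 5422953878) (nat_lit 0) (nat_lit 9703629547) (nat_lit 532) (nat_lit 2045128529) (nat_lit 64) (nat_lit 5) (nat_lit 63) (nat_lit 5) (nat_lit 70) (nat_lit 5) (nat_lit 361) (nat_lit 356) (nat_lit 303))))) (XT.nd (nat_lit 156) (nat_lit 380) (nat_lit 0) (XT.nd (nat_lit 78) (nat_lit 456) (nat_lit 0) (XT.lf (nat_lit 76) (nat_lit 14902240806) (nat_lit 0) (nat_lit 2204494660) (nat_lit 532) (nat_lit 781307795) (nat_lit 64) (nat_lit 5) (nat_lit 63) (nat_lit 5) (nat_lit 70) (nat_lit 5) (nat_lit 362) (nat_lit 356) (nat_lit 302)) (XT.lf (nat_lit 0) (nat_lit 841389337) (nat_lit 532) (nat_lit 12011193007) (nat_lit 76) (nat_lit 5785042772) (nat_lit 57) (nat_lit 5) (nat_lit 64) (nat_lit 5) (nat_lit 58) (nat_lit 5) (nat_lit 363)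 (nat_lit 356) (nat_lit 301))) (XT.nd (nat_lit 78) (nat_lit 380) (nat_lit 0) (XT.lf (nat_lit 0) (nat_lit 2671353378) (nat_lit 532) (nat_lit 2363135477) (nat_lit 76) (nat_lit 14401510591) (nat_lit 57) (nat_lit 5) (nat_lit 64) (nat_lit 5) (nat_lit 58) (nat_lit 5) (nat_lit 364) (nat_lit 356) (nat_lit 300)) (XT.nd (nat_lit 78) (nat_lit 0) (nat_lit 0) (XT.lf (nat_lit 0) (nat_lit 4918732409) (nat_lit 456) (nat_lit 11909599302) (nat_lit 76) (nat_lit 3448251313) (nat_lit 52) (nat_lit 5) (nat_lit 58) (nat_lit 5) (nat_lit 53) (nat_lit 5) (nat_lit 365) (nat_lit 356) (nat_lit 299)) (XT.lf (nat_lit 0) (nat_lit 7524220680) (nat_lit 456) (nat_lit 1241605678) (nat_lit 76) (nat_lit 12404340612) (nat_lit 52) (nat_lit 5) (nat_lit 58) (nat_lit 5) (nat_lit 53) (nat_lit 5) (nat_lit 366) (nat_lit 356) (nat_lit 298))))))))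
noncomputable def xc140 : XT := (XT.nd (nat_lit 1482) (nat_lit 1064) (nat_lit 0) (XT.nd (nat_lit 702) (nat_lit 912) (nat_lit 0) (XT.nd (nat_lit 312) (nat_lit 456) (nat_lit 0) (XT.nd (nat_lit 156) (nat_lit 152) (nat_lit 0) (XT.nd (nat_lit 78) (nat_lit 228) (nat_lit 0) (XT.lf (nat_lit 0) (nat_lit 10585903370) (nat_lit 304) (nat_lit 11319357969) (nat_lit 76) (nat_lit 210173639) (nat_lit 49) (nat_lit 5) (nat_lit 53) (nat_lit 5) (nat_lit 50) (nat_lit 5) (nat_lit 367) (nat_lit 356) (nat_lit 297)) (XT.lf (nat_lit 0) (nat_lit 511611583) (nat_lit 228) (nat_lit 13639198347) (nat_lit 304) (nat_lit 8964867812) (nat_lit 46) (nat_lit 5) (nat_lit 49) (nat_lit 5) (nat_lit 50) (nat_lit 5) (nat_lit 368) (nat_lit 356) (nat_lit 296))) (XT.nd (nat_lit 78) (nat_lit 152) (nat_lit 0) (XT.lf (nat_lit 0) (nat_lit 13914093850) (nat_lit 228) (nat_lit 4380552617) (nat_lit 304) (nat_lit 5877809703) (nat_lit 46) (nat_lit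 5) (nat_lit 49) (nat_lit 5) (nat_lit 50) (nat_lit 5) (nat_lit 369) (nat_lit 356) (nat_lit 295)) (XT.lf (nat_lit 0) (nat_lit 3075266832) (nat_lit 152) (nat_lit 19889162583) (nat_lit 228) (nat_lit 2333806407) (nat_lit 44) (nat_lit 5) (nat_lit 46) (nat_lit 5) (nat_lit 47) (nat_lit 5) (nat_lit 370) (nat_lit 356) (nat_lit 294)))) (XT.nd (nat_lit 156) (nat_lit 152) (nat_lit 0) (XT.nd (nat_lit 78) (nat_lit 228) (nat_lit 0) (XT.lf (nat_lit 0) (nat_lit 1806167523) (nat_lit 228) (nat_lit 8608379318) (nat_lit 76) (nat_lit 16065695414) (nat_lit 43) (nat_lit 5) (nat_lit 46) (nat_lit 5) (nat_lit 44) (nat_lit 5) (nat_lit 371) (nat_lit 356) (nat_lit 293)) (XT.lf (nat_lit 0) (nat_lit 6291340051) (nat_lit 304) (nat_lit 21407632076) (nat_lit 76) (nat_lit 41791861) (nat_lit 40) (nat_lit 5) (nat_lit 44) (nat_lit 5) (nat_lit 41) (nat_lit 5) (nat_lit 372) (nat_lit 356) (nat_lit 292))) (XT.nd (nat_lit 78) (nat_lit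 152) (nat_lit 0) (XT.lf (nat_lit 0) (nat_lit 11634483992) (nat_lit 304) (nat_lit 6418228731) (nat_lit 76) (nat_lit 11009492498) (nat_lit 40) (nat_lit 5) (nat_lit 44) (nat_lit 5) (nat_lit 41) (nat_lit 5) (nat_lit 373) (nat_lit 356) (nat_lit 291)) (XT.nd (nat_lit 78) (nat_lit 0) (nat_lit 0) (XT.lf (nat_lit 0) (nat_lit 10267426855) (nat_lit 152) (nat_lit 7372703059) (nat_lit 228) (nat_lit 12830437404) (nat_lit 38) (nat_lit 5) (nat_lit 40) (nat_lit 5) (nat_lit 41) (nat_lit 5) (nat_lit 374) (nat_lit 356) (nat_lit 290)) (XT.lf (nat_lit 0) (nat_lit 24394858677) (nat_lit 228) (nat_lit 3446168286) (nat_lit 76) (nat_lit 4129089817) (nat_lit 38) (nat_lit 5) (nat_lit 41) (nat_lit 5) (nat_lit 39) (nat_lit 5) (nat_lit 375) (nat_lit 356) (nat_lit 289)))))) (XT.nd (nat_lit 390) (nat_lit 380) (nat_lit 0) (XT.nd (nat_lit 156) (nat_lit 152) (nat_lit 0) (XT.nd (nat_lit 78) (nat_lit 228) (nat_lit 0) (XT.lf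 (nat_lit 0) (nat_lit 15204814883) (nat_lit 152) (nat_lit 17031675971) (nat_lit 228) (nat_lit 1309425569) (nat_lit 36) (nat_lit 5) (nat_lit 38) (nat_lit 5) (nat_lit 39) (nat_lit 5) (nat_lit 376) (nat_lit 356) (nat_lit 288)) (XT.lf (nat_lit 0) (nat_lit 162213134) (nat_lit 152) (nat_lit 5112517648) (nat_lit 228) (nat_lit 29955349967) (nat_lit 33) (nat_lit 5) (nat_lit 35) (nat_lit 5) (nat_lit 36) (nat_lit 5) (nat_lit 377) (nat_lit 356) (nat_lit 287))) (XT.nd (nat_lit 78) (nat_lit 152) (nat_lit 0) (XT.lf (nat_lit 0) (nat_lit 13005790826) (nat_lit 228) (nat_lit 16069764758) (nat_lit 76) (nat_lit 7915435154) (nat_lit 33) (nat_lit 5) (nat_lit 36) (nat_lit 5) (nat_lit 34) (nat_lit 5) (nat_lit 378) (nat_lit 356) (nat_lit 286)) (XT.nd (nat_lit 78) (nat_lit 0) (nat_lit 0) (XT.lf (nat_lit 0) (nat_lit 4526938675) (nat_lit 152) (nat_lit 17060598010) (nat_lit 228) (nat_lit 17286666812) (nat_lit 31) (nat_lit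 5) (nat_lit 33) (nat_lit 5) (nat_lit 34) (nat_lit 5) (nat_lit 379) (nat_lit 356) (nat_lit 285)) (XT.lf (nat_lit 0) (nat_lit 27670746841) (nat_lit 152) (nat_lit 3615338138) (nat_lit 228) (nat_lit 9587572879) (nat_lit 31) (nat_lit 5) (nat_lit 33) (nat_lit 5) (nat_lit 34) (nat_lit 5) (nat_lit 380) (nat_lit 356) (nat_lit 284))))) (XT.nd (nat_lit 156) (nat_lit 228) (nat_lit 0) (XT.nd (nat_lit 78) (nat_lit 76) (nat_lit 0) (XT.lf (nat_lit 0) (nat_lit 9849403280) (nat_lit 76) (nat_lit 32401712065) (nat_lit 152) (nat_lit 742710554) (nat_lit 30) (nat_lit 5) (nat_lit 31) (nat_lit 5) (nat_lit 32) (nat_lit 4) (nat_lit 381) (nat_lit 356) (nat_lit 283)) (XT.lf (nat_lit 0) (nat_lit 8824841853) (nat_lit 152) (nat_lit 10087231920) (nat_lit 76) (nat_lit 26318124099) (nat_lit 29) (nat_lit 5) (nat_lit 31) (nat_lit 5) (nat_lit 30) (nat_lit 5) (nat_lit 382) (nat_lit 356) (nat_lit 282))) (XT.nd (nat_lit 78) (nat_lit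 76) (nat_lit 0) (XT.lf (nat_lit 0) (nat_lit 15560579355) (nat_lit 152) (nat_lit 3923481069) (nat_lit 228) (nat_lit 28130568992) (nat_lit 27) (nat_lit 5) (nat_lit 29) (nat_lit 5) (nat_lit 30) (nat_lit 5) (nat_lit 383) (nat_lit 356) (nat_lit 281)) (XT.nd (nat_lit 78) (nat_lit 76) (nat_lit 0) (XT.lf (nat_lit 0) (nat_lit 31566243139) (nat_lit 228) (nat_lit 6649204957) (nat_lit 76) (nat_lit 11928753068) (nat_lit 27) (nat_lit 5) (nat_lit 30) (nat_lit 5) (nat_lit 28) (nat_lit 4) (nat_lit 384) (nat_lit 356) (nat_lit 280)) (XT.lf (nat_lit 0) (nat_lit 21762527185) (nat_lit 76) (nat_lit 23470646992) (nat_lit 152) (nat_lit 7593514110) (nat_lit 26) (nat_lit 5) (nat_lit 27) (nat_lit 5) (nat_lit 28) (nat_lit 4) (nat_lit 385) (nat_lit 356) (nat_lit 279))))))) (XT.nd (nat_lit 702) (nat_lit 456) (nat_lit 0) (XT.nd (nat_lit 312) (nat_lit 304) (nat_lit 0) (XT.nd (nat_lit 156) (nat_lit 76) (nat_lit 0) (XT.nd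 (nat_lit 78) (nat_lit 152) (nat_lit 0) (XT.lf (nat_lit 0) (nat_lit 4235556186) (nat_lit 152) (nat_lit 3003601234) (nat_lit 76) (nat_lit 48462048478) (nat_lit 25) (nat_lit 5) (nat_lit 27) (nat_lit 5) (nat_lit 26) (nat_lit 5) (nat_lit 386) (nat_lit 356) (nat_lit 278)) (XT.lf (nat_lit 0) (nat_lit 17550383405) (nat_lit 228) (nat_lit 30486024662) (nat_lit 76) (nat_lit 10677526659) (nat_lit 23) (nat_lit 5) (nat_lit 26) (nat_lit 5) (nat_lit 24) (nat_lit 4) (nat_lit 387) (nat_lit 356) (nat_lit 277))) (XT.nd (nat_lit 78) (nat_lit 76) (nat_lit 0) (XT.lf (nat_lit 0) (nat_lit 32196244215) (nat_lit 228) (nat_lit 34015686) (nat_lit 76) (nat_lit 29716156763) (nat_lit 23) (nat_lit 5) (nat_lit 26) (nat_lit 5) (nat_lit 24) (nat_lit 4) (nat_lit 388) (nat_lit 356) (nat_lit 276)) (XT.lf (nat_lit 0) (nat_lit 34572986372) (nat_lit 76) (nat_lit 14266306156) (nat_lit 152) (nat_lit 16532165539) (nat_lit 22) (nat_lit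 5) (nat_lit 23) (nat_lit 5) (nat_lit 24) (nat_lit 4) (nat_lit 389) (nat_lit 356) (nat_lit 275)))) (XT.nd (nat_lit 156) (nat_lit 152) (nat_lit 0) (XT.nd (nat_lit 78) (nat_lit 76) (nat_lit 0) (XT.lf (nat_lit 0) (nat_lit 2890396836) (nat_lit 76) (nat_lit 64111466095) (nat_lit 76) (nat_lit 2053595820) (nat_lit 21) (nat_lit 4) (nat_lit 22) (nat_lit 5) (nat_lit 22) (nat_lit 4) (nat_lit 390) (nat_lit 356) (nat_lit 274)) (XT.lf (nat_lit 0) (nat_lit 14132433215) (nat_lit 152) (nat_lit 32670774934) (nat_lit 76) (nat_lit 26106545958) (nat_lit 20) (nat_lit 5) (nat_lit 22) (nat_lit 5) (nat_lit 21) (nat_lit 4) (nat_lit 391) (nat_lit 356) (nat_lit 273))) (XT.nd (nat_lit 78) (nat_lit 76) (nat_lit 0) (XT.lf (nat_lit 0) (nat_lit 3620873384) (nat_lit 76) (nat_lit 27963191746) (nat_lit 152) (nat_lit 45477529072) (nat_lit 19) (nat_lit 5) (nat_lit 20) (nat_lit 5) (nat_lit 21) (nat_lit 4) (nat_lit 392) (nat_lit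 356) (nat_lit 272)) (XT.nd (nat_lit 78) (nat_lit 76) (nat_lit 0) (XT.lf (nat_lit 0) (nat_lit 44664149727) (nat_lit 76) (nat_lit 6655708010) (nat_lit 152) (nat_lit 30154682991) (nat_lit 19) (nat_lit 5) (nat_lit 20) (nat_lit 5) (nat_lit 21) (nat_lit 4) (nat_lit 393) (nat_lit 356) (nat_lit 271)) (XT.lf (nat_lit 0) (nat_lit 2471329585) (nat_lit 76) (nat_lit 70611033199) (nat_lit 76) (nat_lit 13122333784) (nat_lit 18) (nat_lit 4) (nat_lit 19) (nat_lit 5) (nat_lit 19) (nat_lit 4) (nat_lit 394) (nat_lit 356) (nat_lit 270)))))) (XT.nd (nat_lit 390) (nat_lit 228) (nat_lit 0) (XT.nd (nat_lit 156) (nat_lit 152) (nat_lit 0) (XT.nd (nat_lit 78) (nat_lit 0) (nat_lit 0) (XT.lf (nat_lit 0) (nat_lit 6209390629) (nat_lit 152) (nat_lit 44578860492) (nat_lit 76) (nat_lit 40418827012) (nat_lit 17) (nat_lit 5) (nat_lit 19) (nat_lit 5) (nat_lit 18) (nat_lit 4) (nat_lit 395) (nat_lit 356) (nat_lit 269)) (XT.lf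 (nat_lit 0) (nat_lit 26374137184) (nat_lit 152) (nat_lit 2641459499) (nat_lit 76) (nat_lit 67567153074) (nat_lit 17) (nat_lit 5) (nat_lit 19) (nat_lit 5) (nat_lit 18) (nat_lit 4) (nat_lit 396) (nat_lit 356) (nat_lit 268))) (XT.nd (nat_lit 78) (nat_lit 76) (nat_lit 0) (XT.lf (nat_lit 0) (nat_lit 44888448357) (nat_lit 76) (nat_lit 4338952861) (nat_lit 152) (nat_lit 53075047985) (nat_lit 16) (nat_lit 5) (nat_lit 17) (nat_lit 5) (nat_lit 18) (nat_lit 4) (nat_lit 397) (nat_lit 356) (nat_lit 267)) (XT.nd (nat_lit 78) (nat_lit 76) (nat_lit 0) (XT.lf (nat_lit 0) (nat_lit 74515431441) (nat_lit 152) (nat_lit 12649477467) (nat_lit 0) (nat_lit 21266296320) (nat_lit 16) (nat_lit 5) (nat_lit 18) (nat_lit 4) (nat_lit 16) (nat_lit 4) (nat_lit 398) (nat_lit 356) (nat_lit 266)) (XT.lf (nat_lit 0) (nat_lit 37449449494) (nat_lit 76) (nat_lit 65386532522) (nat_lit 76) (nat_lit 12133522441) (nat_lit 15) (nat_lit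 4) (nat_lit 16) (nat_lit 5) (nat_lit 16) (nat_lit 4) (nat_lit 399) (nat_lit 356) (nat_lit 265))))) (XT.nd (nat_lit 156) (nat_lit 76) (nat_lit 0) (XT.nd (nat_lit 78) (nat_lit 76) (nat_lit 0) (XT.lf (nat_lit 0) (nat_lit 11172444430) (nat_lit 152) (nat_lit 30017913591) (nat_lit 76) (nat_lit 80790515533) (nat_lit 14) (nat_lit 5) (nat_lit 16) (nat_lit 5) (nat_lit 15) (nat_lit 4) (nat_lit 400) (nat_lit 356) (nat_lit 264)) (XT.lf (nat_lit 0) (nat_lit 22066186675) (nat_lit 76) (nat_lit 14148287764) (nat_lit 152) (nat_lit 93271297090) (nat_lit 13) (nat_lit 5) (nat_lit 14) (nat_lit 5) (nat_lit 15) (nat_lit 4) (nat_lit 401) (nat_lit 356) (nat_lit 263))) (XT.nd (nat_lit 78) (nat_lit 76) (nat_lit 0) (XT.lf (nat_lit 0) (nat_lit 64460497020) (nat_lit 152) (nat_lit 57891606692) (nat_lit 0) (nat_lit 15142907919) (nat_lit 13) (nat_lit 5) (nat_lit 15) (nat_lit 4) (nat_lit 13) (nat_lit 4) (nat_lit 402) (nat_lit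 356) (nat_lit 262)) (XT.nd (nat_lit 78) (nat_lit 76) (nat_lit 0) (XT.lf (nat_lit 0) (nat_lit 95330397217) (nat_lit 152) (nat_lit 4775287826) (nat_lit 0) (nat_lit 46010170884) (nat_lit 13) (nat_lit 5) (nat_lit 15) (nat_lit 4) (nat_lit 13) (nat_lit 4) (nat_lit 403) (nat_lit 356) (nat_lit 261)) (XT.lf (nat_lit 0) (nat_lit 55353403186) (nat_lit 76) (nat_lit 74644688604) (nat_lit 76) (nat_lit 25322020388) (nat_lit 12) (nat_lit 4) (nat_lit 13) (nat_lit 5) (nat_lit 13) (nat_lit 4) (nat_lit 404) (nat_lit 356) (nat_lit 260))))))))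
noncomputable def xc141 : XT := (XT.nd (nat_lit 1482) (nat_lit 228) (nat_lit 0) (XT.nd (nat_lit 702) (nat_lit 228) (nat_lit 0) (XT.nd (nat_lit 312) (nat_lit 228) (nat_lit 0) (XT.nd (nat_lit 156) (nat_lit 0) (nat_lit 0) (XT.nd (nat_lit 78) (nat_lit 76) (nat_lit 0) (XT.lf (nat_lit 0) (nat_lit 2200432993) (nat_lit 152) (nat_lit 44748028591) (nat_lit 76) (nat_lit 118297583073) (nat_lit 11) (nat_lit 5) (nat_lit 13) (nat_lit 5) (nat_lit 12) (nat_lit 4) (nat_lit 405) (nat_lit 356) (nat_lit 259)) (XT.lf (nat_lit 0) (nat_lit 14973986161) (nat_lit 76) (nat_lit 15939960425) (nat_lit 152) (nat_lit 144970903580) (nat_lit 10) (nat_lit 5) (nat_lit 11) (nat_lit 5) (nat_lit 12) (nat_lit 4) (nat_lit 406) (nat_lit 356) (nat_lit 258))) (XT.nd (nat_lit 78) (nat_lit 0) (nat_lit 0) (XT.lf (nat_lit 0) (nat_lit 63599071987) (nat_lit 152) (nat_lit 105717618185) (nat_lit 0) (nat_lit 17924107928) (nat_lit 10) (nat_lit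 5) (nat_lit 12) (nat_lit 4) (nat_lit 10) (nat_lit 4) (nat_lit 407) (nat_lit 356) (nat_lit 257)) (XT.lf (nat_lit 0) (nat_lit 99310441777) (nat_lit 152) (nat_lit 46528049937) (nat_lit 0) (nat_lit 53633815815) (nat_lit 10) (nat_lit 5) (nat_lit 12) (nat_lit 4) (nat_lit 10) (nat_lit 4) (nat_lit 408) (nat_lit 356) (nat_lit 256)))) (XT.nd (nat_lit 156) (nat_lit 152) (nat_lit 0) (XT.nd (nat_lit 78) (nat_lit 0) (nat_lit 0) (XT.lf (nat_lit 0) (nat_lit 18307779439) (nat_lit 76) (nat_lit 120008845554) (nat_lit 76) (nat_lit 74330680791) (nat_lit 9) (nat_lit 4) (nat_lit 10) (nat_lit 5) (nat_lit 10) (nat_lit 4) (nat_lit 409) (nat_lit 356) (nat_lit 255)) (XT.lf (nat_lit 0) (nat_lit 90971952828) (nat_lit 76) (nat_lit 90741177405) (nat_lit 76) (nat_lit 45061587828) (nat_lit 9) (nat_lit 4) (nat_lit 10) (nat_lit 5) (nat_lit 10) (nat_lit 4) (nat_lit 410) (nat_lit 356) (nat_lit 254))) (XT.nd (nat_lit 78) (nat_lit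 152) (nat_lit 0) (XT.lf (nat_lit 0) (nat_lit 169444988082) (nat_lit 76) (nat_lit 59134208576) (nat_lit 76) (nat_lit 13453299726) (nat_lit 9) (nat_lit 4) (nat_lit 10) (nat_lit 5) (nat_lit 10) (nat_lit 4) (nat_lit 411) (nat_lit 356) (nat_lit 253)) (XT.nd (nat_lit 78) (nat_lit 76) (nat_lit 0) (XT.lf (nat_lit 0) (nat_lit 19646919902) (nat_lit 152) (nat_lit 4816537000) (nat_lit 76) (nat_lit 234007809085) (nat_lit 8) (nat_lit 5) (nat_lit 10) (nat_lit 5) (nat_lit 9) (nat_lit 4) (nat_lit 412) (nat_lit 356) (nat_lit 252)) (XT.lf (nat_lit 0) (nat_lit 56754482576) (nat_lit 152) (nat_lit 204820641277) (nat_lit 0) (nat_lit 14455166407) (nat_lit 7) (nat_lit 5) (nat_lit 9) (nat_lit 4) (nat_lit 7) (nat_lit 4) (nat_lit 413) (nat_lit 356) (nat_lit 251)))))) (XT.nd (nat_lit 390) (nat_lit 152) (nat_lit 0) (XT.nd (nat_lit 156) (nat_lit 76) (nat_lit 0) (XT.nd (nat_lit 78) (nat_lit 0) (nat_lit 0) (XT.lf (nat_lit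 0) (nat_lit 97599287149) (nat_lit 152) (nat_lit 142034257340) (nat_lit 0) (nat_lit 55299001275) (nat_lit 7) (nat_lit 5) (nat_lit 9) (nat_lit 4) (nat_lit 7) (nat_lit 4) (nat_lit 414) (nat_lit 356) (nat_lit 250)) (XT.lf (nat_lit 0) (nat_lit 141709925323) (nat_lit 152) (nat_lit 74228455092) (nat_lit 0) (nat_lit 99408741574) (nat_lit 7) (nat_lit 5) (nat_lit 9) (nat_lit 4) (nat_lit 7) (nat_lit 4) (nat_lit 415) (nat_lit 356) (nat_lit 249))) (XT.nd (nat_lit 78) (nat_lit 76) (nat_lit 0) (XT.lf (nat_lit 0) (nat_lit 189347793473) (nat_lit 152) (nat_lit 1001422372) (nat_lit 0) (nat_lit 147045778357) (nat_lit 7) (nat_lit 5) (nat_lit 9) (nat_lit 4) (nat_lit 7) (nat_lit 4) (nat_lit 416) (nat_lit 356) (nat_lit 248)) (XT.nd (nat_lit 78) (nat_lit 0) (nat_lit 0) (XT.lf (nat_lit 0) (nat_lit 82192374229) (nat_lit 76) (nat_lit 160579544423) (nat_lit 76) (nat_lit 118276759525) (nat_lit 6) (nat_lit 4) (nat_lit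 7) (nat_lit 5) (nat_lit 7) (nat_lit 4) (nat_lit 417) (nat_lit 356) (nat_lit 247)) (XT.lf (nat_lit 0) (nat_lit 172095707966) (nat_lit 76) (nat_lit 128400186544) (nat_lit 76) (nat_lit 86096688883) (nat_lit 6) (nat_lit 4) (nat_lit 7) (nat_lit 5) (nat_lit 7) (nat_lit 4) (nat_lit 418) (nat_lit 356) (nat_lit 246))))) (XT.nd (nat_lit 156) (nat_lit 152) (nat_lit 0) (XT.nd (nat_lit 78) (nat_lit 0) (nat_lit 0) (XT.lf (nat_lit 0) (nat_lit 269188606204) (nat_lit 76) (nat_lit 93647830378) (nat_lit 76) (nat_lit 51343672753) (nat_lit 6) (nat_lit 4) (nat_lit 7) (nat_lit 5) (nat_lit 7) (nat_lit 4) (nat_lit 419) (nat_lit 356) (nat_lit 245)) (XT.lf (nat_lit 0) (nat_lit 374046434267) (nat_lit 76) (nat_lit 56116536039) (nat_lit 76) (nat_lit 13811767335) (nat_lit 6) (nat_lit 4) (nat_lit 7) (nat_lit 5) (nat_lit 7) (nat_lit 4) (nat_lit 420) (nat_lit 356) (nat_lit 244))) (XT.nd (nat_lit 78) (nat_lit 0) (nat_lit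 0) (XT.lf (nat_lit 0) (nat_lit 11047533954) (nat_lit 76) (nat_lit 14602883580) (nat_lit 152) (nat_lit 450429943962) (nat_lit 4) (nat_lit 5) (nat_lit 5) (nat_lit 5) (nat_lit 6) (nat_lit 4) (nat_lit 421) (nat_lit 356) (nat_lit 243)) (XT.nd (nat_lit 78) (nat_lit 0) (nat_lit 0) (XT.lf (nat_lit 0) (nat_lit 70210900260) (nat_lit 152) (nat_lit 409261024830) (nat_lit 0) (nat_lit 31038809131) (nat_lit 4) (nat_lit 5) (nat_lit 6) (nat_lit 4) (nat_lit 4) (nat_lit 4) (nat_lit 422) (nat_lit 356) (nat_lit 242)) (XT.lf (nat_lit 0) (nat_lit 118714420178) (nat_lit 152) (nat_lit 349408980921) (nat_lit 0) (nat_lit 79541879889) (nat_lit 4) (nat_lit 5) (nat_lit 6) (nat_lit 4) (nat_lit 4) (nat_lit 4) (nat_lit 423) (nat_lit 356) (nat_lit 241))))))) (XT.nd (nat_lit 780) (nat_lit 152) (nat_lit 0) (XT.nd (nat_lit 390) (nat_lit 0) (nat_lit 0) (XT.nd (nat_lit 156) (nat_lit 76) (nat_lit 0) (XT.nd (nat_lit 78) (nat_lit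 0) (nat_lit 0) (XT.lf (nat_lit 0) (nat_lit 171097205855) (nat_lit 152) (nat_lit 284770817336) (nat_lit 0) (nat_lit 131924249675) (nat_lit 4) (nat_lit 5) (nat_lit 6) (nat_lit 4) (nat_lit 4) (nat_lit 4) (nat_lit 424) (nat_lit 356) (nat_lit 240)) (XT.lf (nat_lit 0) (nat_lit 227669673798) (nat_lit 152) (nat_lit 214963493105) (nat_lit 0) (nat_lit 188496332535) (nat_lit 4) (nat_lit 5) (nat_lit 6) (nat_lit 4) (nat_lit 4) (nat_lit 4) (nat_lit 425) (nat_lit 356) (nat_lit 239))) (XT.nd (nat_lit 78) (nat_lit 76) (nat_lit 0) (XT.lf (nat_lit 0) (nat_lit 288767068260) (nat_lit 152) (nat_lit 139573335195) (nat_lit 0) (nat_lit 249593370439) (nat_lit 4) (nat_lit 5) (nat_lit 6) (nat_lit 4) (nat_lit 4) (nat_lit 4) (nat_lit 426) (nat_lit 356) (nat_lit 238)) (XT.nd (nat_lit 78) (nat_lit 76) (nat_lit 0) (XT.lf (nat_lit 0) (nat_lit 354751447877) (nat_lit 152) (nat_lit 58153587116) (nat_lit 0) (nat_lit 315577419909)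 (nat_lit 4) (nat_lit 5) (nat_lit 6) (nat_lit 4) (nat_lit 4) (nat_lit 4) (nat_lit 427) (nat_lit 356) (nat_lit 237)) (XT.lf (nat_lit 0) (nat_lit 31346307798) (nat_lit 76) (nat_lit 395421402852) (nat_lit 76) (nat_lit 356247069193) (nat_lit 3) (nat_lit 4) (nat_lit 4) (nat_lit 5) (nat_lit 4) (nat_lit 4) (nat_lit 428) (nat_lit 356) (nat_lit 236))))) (XT.nd (nat_lit 156) (nat_lit 0) (nat_lit 0) (XT.nd (nat_lit 78) (nat_lit 0) (nat_lit 0) (XT.lf (nat_lit 0) (nat_lit 131311976085) (nat_lit 76) (nat_lit 374822593913) (nat_lit 76) (nat_lit 335647977206) (nat_lit 3) (nat_lit 4) (nat_lit 4) (nat_lit 5) (nat_lit 4) (nat_lit 4) (nat_lit 429) (nat_lit 356) (nat_lit 235)) (XT.lf (nat_lit 0) (nat_lit 239273542050) (nat_lit 76) (nat_lit 352576563288) (nat_lit 76) (nat_lit 313401684500) (nat_lit 3) (nat_lit 4) (nat_lit 4) (nat_lit 5) (nat_lit 4) (nat_lit 4) (nat_lit 430) (nat_lit 356) (nat_lit 234))) (XT.nd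 (nat_lit 78) (nat_lit 0) (nat_lit 0) (XT.lf (nat_lit 0) (nat_lit 355870777936) (nat_lit 76) (nat_lit 328551482649) (nat_lit 76) (nat_lit 289376361193) (nat_lit 3) (nat_lit 4) (nat_lit 4) (nat_lit 5) (nat_lit 4) (nat_lit 4) (nat_lit 431) (nat_lit 356) (nat_lit 233)) (XT.nd (nat_lit 78) (nat_lit 0) (nat_lit 0) (XT.lf (nat_lit 0) (nat_lit 481794630325) (nat_lit 76) (nat_lit 302604981147) (nat_lit 76) (nat_lit 263429634998) (nat_lit 3) (nat_lit 4) (nat_lit 4) (nat_lit 5) (nat_lit 4) (nat_lit 4) (nat_lit 432) (nat_lit 356) (nat_lit 232)) (XT.lf (nat_lit 0) (nat_lit 617791314640) (nat_lit 76) (nat_lit 274583301735) (nat_lit 76) (nat_lit 235407747538) (nat_lit 3) (nat_lit 4) (nat_lit 4) (nat_lit 5) (nat_lit 4) (nat_lit 4) (nat_lit 433) (nat_lit 356) (nat_lit 231)))))) (XT.nd (nat_lit 390) (nat_lit 152) (nat_lit 0) (XT.nd (nat_lit 156) (nat_lit 0) (nat_lit 0) (XT.nd (nat_lit 78) (nat_lit 0) (nat_lit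 0) (XT.lf (nat_lit 0) (nat_lit 764666737156) (nat_lit 76) (nat_lit 244320390018) (nat_lit 76) (nat_lit 205144643184) (nat_lit 3) (nat_lit 4) (nat_lit 4) (nat_lit 5) (nat_lit 4) (nat_lit 4) (nat_lit 434) (nat_lit 356) (nat_lit 230)) (XT.lf (nat_lit 0) (nat_lit 923291270750) (nat_lit 76) (nat_lit 211636910223) (nat_lit 76) (nat_lit 172460985020) (nat_lit 3) (nat_lit 4) (nat_lit 4) (nat_lit 5) (nat_lit 4) (nat_lit 4) (nat_lit 435) (nat_lit 356) (nat_lit 229))) (XT.nd (nat_lit 78) (nat_lit 0) (nat_lit 0) (XT.lf (nat_lit 0) (nat_lit 1094604912656) (nat_lit 76) (nat_lit 176339182469) (nat_lit 76) (nat_lit 137163092111) (nat_lit 3) (nat_lit 4) (nat_lit 4) (nat_lit 5) (nat_lit 4) (nat_lit 4) (nat_lit 436) (nat_lit 356) (nat_lit 228)) (XT.nd (nat_lit 78) (nat_lit 0) (nat_lit 0) (XT.lf (nat_lit 0) (nat_lit 1279622854827) (nat_lit 76) (nat_lit 138218035035) (nat_lit 76) (nat_lit 99041791755) (nat_lit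 3) (nat_lit 4) (nat_lit 4) (nat_lit 5) (nat_lit 4) (nat_lit 4) (nat_lit 437) (nat_lit 356) (nat_lit 227)) (XT.lf (nat_lit 0) (nat_lit 1479441499883) (nat_lit 76) (nat_lit 97047564827) (nat_lit 76) (nat_lit 57871179953) (nat_lit 3) (nat_lit 4) (nat_lit 4) (nat_lit 5) (nat_lit 4) (nat_lit 4) (nat_lit 438) (nat_lit 356) (nat_lit 226))))) (XT.nd (nat_lit 156) (nat_lit 0) (nat_lit 0) (XT.nd (nat_lit 78) (nat_lit 152) (nat_lit 0) (XT.lf (nat_lit 0) (nat_lit 1695244958314) (nat_lit 76) (nat_lit 52583798687) (nat_lit 76) (nat_lit 13407282707) (nat_lit 3) (nat_lit 4) (nat_lit 4) (nat_lit 5) (nat_lit 4) (nat_lit 4) (nat_lit 439) (nat_lit 356) (nat_lit 225)) (XT.lf (nat_lit 0) (nat_lit 30756240992) (nat_lit 76) (nat_lit 2865335145) (nat_lit 152) (nat_lit 1864514575884) (nat_lit 1) (nat_lit 5) (nat_lit 2) (nat_lit 5) (nat_lit 3) (nat_lit 4) (nat_lit 440) (nat_lit 356) (nat_lit 224))) (XT.nd (nat_lit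 78) (nat_lit 0) (nat_lit 0) (XT.lf (nat_lit 0) (nat_lit 86761739052) (nat_lit 152) (nat_lit 1908465837312) (nat_lit 0) (nat_lit 50486970741) (nat_lit 1) (nat_lit 5) (nat_lit 3) (nat_lit 4) (nat_lit 1) (nat_lit 4) (nat_lit 441) (nat_lit 356) (nat_lit 223)) (XT.nd (nat_lit 78) (nat_lit 0) (nat_lit 0) (XT.lf (nat_lit 0) (nat_lit 144227244103) (nat_lit 152) (nat_lit 1952913659966) (nat_lit 0) (nat_lit 107952379424) (nat_lit 1) (nat_lit 5) (nat_lit 3) (nat_lit 4) (nat_lit 1) (nat_lit 4) (nat_lit 442) (nat_lit 356) (nat_lit 222)) (XT.lf (nat_lit 0) (nat_lit 206289716235) (nat_lit 152) (nat_lit 2000917862116) (nat_lit 0) (nat_lit 170014762328) (nat_lit 1) (nat_lit 5) (nat_lit 3) (nat_lit 4) (nat_lit 1) (nat_lit 4) (nat_lit 443) (nat_lit 356) (nat_lit 221))))))))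
noncomputable def xc142 : XT := (XT.nd (nat_lit 46644) (nat_lit 0) (nat_lit 2280) (XT.nd (nat_lit 702) (nat_lit 0) (nat_lit 0) (XT.nd (nat_lit 312) (nat_lit 0) (nat_lit 0) (XT.nd (nat_lit 156) (nat_lit 0) (nat_lit 0) (XT.nd (nat_lit 78) (nat_lit 0) (nat_lit 0) (XT.lf (nat_lit 0) (nat_lit 273316933062) (nat_lit 152) (nat_lit 2052762913108) (nat_lit 0) (nat_lit 237041896537) (nat_lit 1) (nat_lit 5) (nat_lit 3) (nat_lit 4) (nat_lit 1) (nat_lit 4) (nat_lit 444) (nat_lit 356) (nat_lit 220)) (XT.lf (nat_lit 0) (nat_lit 345706092906) (nat_lit 152) (nat_lit 2108756042873) (nat_lit 0) (nat_lit 309430979882) (nat_lit 1) (nat_lit 5) (nat_lit 3) (nat_lit 4) (nat_lit 1) (nat_lit 4) (nat_lit 445) (nat_lit 356) (nat_lit 219))) (XT.nd (nat_lit 78) (nat_lit 0) (nat_lit 0) (XT.lf (nat_lit 0) (nat_lit 423886168566) (nat_lit 152) (nat_lit 2169229062552) (nat_lit 0) (nat_lit 387610984709) (nat_lit 1) (nat_lit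 5) (nat_lit 3) (nat_lit 4) (nat_lit 1) (nat_lit 4) (nat_lit 446) (nat_lit 356) (nat_lit 218)) (XT.lf (nat_lit 0) (nat_lit 508320449379) (nat_lit 152) (nat_lit 2234540330780) (nat_lit 0) (nat_lit 472045199936) (nat_lit 1) (nat_lit 5) (nat_lit 3) (nat_lit 4) (nat_lit 1) (nat_lit 4) (nat_lit 447) (nat_lit 356) (nat_lit 217)))) (XT.nd (nat_lit 156) (nat_lit 0) (nat_lit 0) (XT.nd (nat_lit 78) (nat_lit 0) (nat_lit 0) (XT.lf (nat_lit 0) (nat_lit 599509286639) (nat_lit 152) (nat_lit 2305076877293) (nat_lit 0) (nat_lit 563233976469) (nat_lit 1) (nat_lit 5) (nat_lit 3) (nat_lit 4) (nat_lit 1) (nat_lit 4) (nat_lit 448) (nat_lit 356) (nat_lit 216)) (XT.lf (nat_lit 0) (nat_lit 697993058640) (nat_lit 152) (nat_lit 2381256696442) (nat_lit 0) (nat_lit 661717692241) (nat_lit 1) (nat_lit 5) (nat_lit 3) (nat_lit 4) (nat_lit 1) (nat_lit 4) (nat_lit 449) (nat_lit 356) (nat_lit 215))) (XT.nd (nat_lit 78) (nat_lit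 0) (nat_lit 0) (XT.lf (nat_lit 0) (nat_lit 804355372921) (nat_lit 152) (nat_lit 2463531224192) (nat_lit 0) (nat_lit 768079954458) (nat_lit 1) (nat_lit 5) (nat_lit 3) (nat_lit 4) (nat_lit 1) (nat_lit 4) (nat_lit 450) (nat_lit 356) (nat_lit 214)) (XT.nd (nat_lit 78) (nat_lit 0) (nat_lit 0) (XT.lf (nat_lit 0) (nat_lit 919226524677) (nat_lit 152) (nat_lit 2552388013301) (nat_lit 0) (nat_lit 882951058007) (nat_lit 1) (nat_lit 5) (nat_lit 3) (nat_lit 4) (nat_lit 1) (nat_lit 4) (nat_lit 451) (nat_lit 356) (nat_lit 213)) (XT.lf (nat_lit 0) (nat_lit 1043287231844) (nat_lit 152) (nat_lit 2648353622517) (nat_lit 0) (nat_lit 1007011720538) (nat_lit 1) (nat_lit 5) (nat_lit 3) (nat_lit 4) (nat_lit 1) (nat_lit 4) (nat_lit 452) (nat_lit 356) (nat_lit 212)))))) (XT.nd (nat_lit 390) (nat_lit 0) (nat_lit 0) (XT.nd (nat_lit 156) (nat_lit 0) (nat_lit 0) (XT.nd (nat_lit 78) (nat_lit 0) (nat_lit 0) (XT.lf (nat_lit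 0) (nat_lit 1177272668985) (nat_lit 152) (nat_lit 2751996736934) (nat_lit 0) (nat_lit 1140997116348) (nat_lit 1) (nat_lit 5) (nat_lit 3) (nat_lit 4) (nat_lit 1) (nat_lit 4) (nat_lit 453) (nat_lit 356) (nat_lit 211)) (XT.lf (nat_lit 0) (nat_lit 1321976823873) (nat_lit 152) (nat_lit 2863931537970) (nat_lit 0) (nat_lit 1285701232968) (nat_lit 1) (nat_lit 5) (nat_lit 3) (nat_lit 4) (nat_lit 1) (nat_lit 4) (nat_lit 454) (nat_lit 356) (nat_lit 210))) (XT.nd (nat_lit 78) (nat_lit 0) (nat_lit 0) (XT.lf (nat_lit 0) (nat_lit 1478257202612) (nat_lit 152) (nat_lit 2984821342963) (nat_lit 0) (nat_lit 1441981576273) (nat_lit 1) (nat_lit 5) (nat_lit 3) (nat_lit 4) (nat_lit 1) (nat_lit 4) (nat_lit 455) (nat_lit 356) (nat_lit 209)) (XT.nd (nat_lit 78) (nat_lit 0) (nat_lit 0) (XT.lf (nat_lit 0) (nat_lit 1647039911151) (nat_lit 152) (nat_lit 3115382535945) (nat_lit 0) (nat_lit 1610764252003) (nat_lit 1)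 (nat_lit 5) (nat_lit 3) (nat_lit 4) (nat_lit 1) (nat_lit 4) (nat_lit 456) (nat_lit 356) (nat_lit 208)) (XT.lf (nat_lit 0) (nat_lit 1829325143317) (nat_lit 152) (nat_lit 3256388812873) (nat_lit 0) (nat_lit 1793049453791) (nat_lit 1) (nat_lit 5) (nat_lit 3) (nat_lit 4) (nat_lit 1) (nat_lit 4) (nat_lit 457) (nat_lit 356) (nat_lit 207))))) (XT.nd (nat_lit 45318) (nat_lit 0) (nat_lit 4560) (XT.nd (nat_lit 45240) (nat_lit 0) (nat_lit 4560) (XT.lf (nat_lit 0) (nat_lit 2026193107895) (nat_lit 152) (nat_lit 3408675766499) (nat_lit 0) (nat_lit 1989917390239) (nat_lit 1) (nat_lit 5) (nat_lit 3) (nat_lit 4) (nat_lit 1) (nat_lit 4) (nat_lit 458) (nat_lit 356) (nat_lit 206)) (XT.lf (nat_lit 0) (nat_lit 5196457282) (nat_lit 532) (nat_lit 1213928378) (nat_lit 532) (nat_lit 1213928378) (nat_lit 61) (nat_lit 3) (nat_lit 68) (nat_lit 3) (nat_lit 68) (nat_lit 5) (nat_lit 357) (nat_lit 357) (nat_lit 306)))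 (XT.nd (nat_lit 78) (nat_lit 0) (nat_lit 76) (XT.lf (nat_lit 76) (nat_lit 5184205882) (nat_lit 0) (nat_lit 6018308332) (nat_lit 532) (nat_lit 4624219525) (nat_lit 62) (nat_lit 5) (nat_lit 61) (nat_lit 3) (nat_lit 68) (nat_lit 5) (nat_lit 358) (nat_lit 357) (nat_lit 305)) (XT.nd (nat_lit 78) (nat_lit 0) (nat_lit 0) (XT.lf (nat_lit 0) (nat_lit 12149920986) (nat_lit 456) (nat_lit 2953972651) (nat_lit 532) (nat_lit 1341383981) (nat_lit 62) (nat_lit 5) (nat_lit 68) (nat_lit 5) (nat_lit 69) (nat_lit 5) (nat_lit 359) (nat_lit 357) (nat_lit 304)) (XT.lf (nat_lit 76) (nat_lit 5449439030) (nat_lit 0) (nat_lit 7986047278) (nat_lit 532) (nat_lit 3656859880) (nat_lit 63) (nat_lit 5) (nat_lit 62) (nat_lit 5) (nat_lit 69) (nat_lit 5) (nat_lit 360) (nat_lit 357) (nat_lit 303))))))) (XT.nd (nat_lit 780) (nat_lit 1140) (nat_lit 0) (XT.nd (nat_lit 390) (nat_lit 836) (nat_lit 0) (XT.nd (nat_lit 156) (nat_lit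 380) (nat_lit 0) (XT.nd (nat_lit 78) (nat_lit 0) (nat_lit 76) (XT.lf (nat_lit 76) (nat_lit 14677025443) (nat_lit 0) (nat_lit 204091194) (nat_lit 532) (nat_lit 2905514228) (nat_lit 63) (nat_lit 5) (nat_lit 62) (nat_lit 5) (nat_lit 69) (nat_lit 5) (nat_lit 361) (nat_lit 357) (nat_lit 302)) (XT.lf (nat_lit 76) (nat_lit 6202580851) (nat_lit 0) (nat_lit 10564572236) (nat_lit 532) (nat_lit 1743350889) (nat_lit 64) (nat_lit 5) (nat_lit 63) (nat_lit 5) (nat_lit 70) (nat_lit 5) (nat_lit 362) (nat_lit 357) (nat_lit 301))) (XT.nd (nat_lit 78) (nat_lit 456) (nat_lit 0) (XT.lf (nat_lit 76) (nat_lit 16414596611) (nat_lit 0) (nat_lit 2459236015) (nat_lit 532) (nat_lit 412897676) (nat_lit 64) (nat_lit 5) (nat_lit 63) (nat_lit 5) (nat_lit 70) (nat_lit 5) (nat_lit 363) (nat_lit 357) (nat_lit 300)) (XT.nd (nat_lit 78) (nat_lit 0) (nat_lit 0) (XT.lf (nat_lit 0) (nat_lit 1294469241) (nat_lit 532) (nat_lit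 12605924659) (nat_lit 76) (nat_lit 6196975270) (nat_lit 57) (nat_lit 5) (nat_lit 64) (nat_lit 5) (nat_lit 58) (nat_lit 5) (nat_lit 364) (nat_lit 357) (nat_lit 299)) (XT.lf (nat_lit 0) (nat_lit 3242254943) (nat_lit 532) (nat_lit 2213145770) (nat_lit 76) (nat_lit 15506528731) (nat_lit 57) (nat_lit 5) (nat_lit 64) (nat_lit 5) (nat_lit 58) (nat_lit 5) (nat_lit 365) (nat_lit 357) (nat_lit 298))))) (XT.nd (nat_lit 156) (nat_lit 456) (nat_lit 0) (XT.nd (nat_lit 78) (nat_lit 0) (nat_lit 0) (XT.lf (nat_lit 0) (nat_lit 5650715231) (nat_lit 456) (nat_lit 12504270883) (nat_lit 76) (nat_lit 3716298060) (nat_lit 52) (nat_lit 5) (nat_lit 58) (nat_lit 5) (nat_lit 53) (nat_lit 5) (nat_lit 366) (nat_lit 357) (nat_lit 297)) (XT.lf (nat_lit 0) (nat_lit 8439569659) (nat_lit 456) (nat_lit 1009363425) (nat_lit 76) (nat_lit 13389453270) (nat_lit 52) (nat_lit 5) (nat_lit 58) (nat_lit 5) (nat_lit 53) (nat_lit 5)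 (nat_lit 367) (nat_lit 357) (nat_lit 296))) (XT.nd (nat_lit 78) (nat_lit 228) (nat_lit 0) (XT.lf (nat_lit 0) (nat_lit 11731349977) (nat_lit 304) (nat_lit 11878201626) (nat_lit 76) (nat_lit 250934941) (nat_lit 49) (nat_lit 5) (nat_lit 53) (nat_lit 5) (nat_lit 50) (nat_lit 5) (nat_lit 368) (nat_lit 357) (nat_lit 295)) (XT.nd (nat_lit 78) (nat_lit 0) (nat_lit 0) (XT.lf (nat_lit 0) (nat_lit 890468149) (nat_lit 228) (nat_lit 14676991463) (nat_lit 304) (nat_lit 9374430294) (nat_lit 46) (nat_lit 5) (nat_lit 49) (nat_lit 5) (nat_lit 50) (nat_lit 5) (nat_lit 369) (nat_lit 357) (nat_lit 294)) (XT.lf (nat_lit 0) (nat_lit 15340117320) (nat_lit 228) (nat_lit 4681605389) (nat_lit 304) (nat_lit 6063194718) (nat_lit 46) (nat_lit 5) (nat_lit 49) (nat_lit 5) (nat_lit 50) (nat_lit 5) (nat_lit 370) (nat_lit 357) (nat_lit 293)))))) (XT.nd (nat_lit 390) (nat_lit 532) (nat_lit 0) (XT.nd (nat_lit 156) (nat_lit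 380) (nat_lit 0) (XT.nd (nat_lit 78) (nat_lit 76) (nat_lit 0) (XT.lf (nat_lit 0) (nat_lit 3645900035) (nat_lit 152) (nat_lit 21408576203) (nat_lit 228) (nat_lit 2247151058) (nat_lit 44) (nat_lit 5) (nat_lit 46) (nat_lit 5) (nat_lit 47) (nat_lit 5) (nat_lit 371) (nat_lit 357) (nat_lit 292)) (XT.lf (nat_lit 0) (nat_lit 2191110272) (nat_lit 228) (nat_lit 8983619165) (nat_lit 76) (nat_lit 17404493923) (nat_lit 43) (nat_lit 5) (nat_lit 46) (nat_lit 5) (nat_lit 44) (nat_lit 5) (nat_lit 372) (nat_lit 357) (nat_lit 291))) (XT.nd (nat_lit 78) (nat_lit 152) (nat_lit 0) (XT.lf (nat_lit 0) (nat_lit 7026448734) (nat_lit 304) (nat_lit 22797976936) (nat_lit 76) (nat_lit 116867978) (nat_lit 40) (nat_lit 5) (nat_lit 44) (nat_lit 5) (nat_lit 41) (nat_lit 5) (nat_lit 373) (nat_lit 357) (nat_lit 290)) (XT.nd (nat_lit 78) (nat_lit 152) (nat_lit 0) (XT.lf (nat_lit 0) (nat_lit 12779873710) (nat_lit 304) (nat_lit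 6633292856) (nat_lit 76) (nat_lit 11956671129) (nat_lit 40) (nat_lit 5) (nat_lit 44) (nat_lit 5) (nat_lit 41) (nat_lit 5) (nat_lit 374) (nat_lit 357) (nat_lit 289)) (XT.lf (nat_lit 0) (nat_lit 11379660894) (nat_lit 152) (nat_lit 7877406527) (nat_lit 228) (nat_lit 13634526500) (nat_lit 38) (nat_lit 5) (nat_lit 40) (nat_lit 5) (nat_lit 41) (nat_lit 5) (nat_lit 375) (nat_lit 357) (nat_lit 288))))) (XT.nd (nat_lit 156) (nat_lit 380) (nat_lit 0) (XT.nd (nat_lit 78) (nat_lit 152) (nat_lit 0) (XT.lf (nat_lit 0) (nat_lit 26538830776) (nat_lit 228) (nat_lit 3439073130) (nat_lit 76) (nat_lit 4534282828) (nat_lit 38) (nat_lit 5) (nat_lit 41) (nat_lit 5) (nat_lit 39) (nat_lit 5) (nat_lit 376) (nat_lit 357) (nat_lit 287)) (XT.lf (nat_lit 0) (nat_lit 16696829488) (nat_lit 152) (nat_lit 18303342311) (nat_lit 228) (nat_lit 1214499304) (nat_lit 36) (nat_lit 5) (nat_lit 38) (nat_lit 5) (nat_lit 39) (nat_lit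 5) (nat_lit 377) (nat_lit 357) (nat_lit 286))) (XT.nd (nat_lit 78) (nat_lit 152) (nat_lit 0) (XT.lf (nat_lit 0) (nat_lit 453701848) (nat_lit 152) (nat_lit 5425345881) (nat_lit 228) (nat_lit 32154734346) (nat_lit 33) (nat_lit 5) (nat_lit 35) (nat_lit 5) (nat_lit 36) (nat_lit 5) (nat_lit 378) (nat_lit 357) (nat_lit 285)) (XT.nd (nat_lit 78) (nat_lit 152) (nat_lit 0) (XT.lf (nat_lit 0) (nat_lit 14217227658) (nat_lit 228) (nat_lit 17085990540) (nat_lit 76) (nat_lit 8633264603) (nat_lit 33) (nat_lit 5) (nat_lit 36) (nat_lit 5) (nat_lit 34) (nat_lit 5) (nat_lit 379) (nat_lit 357) (nat_lit 284)) (XT.lf (nat_lit 0) (nat_lit 5151630044) (nat_lit 152) (nat_lit 18327532436) (nat_lit 228) (nat_lit 18491706253) (nat_lit 31) (nat_lit 5) (nat_lit 33) (nat_lit 5) (nat_lit 34) (nat_lit 5) (nat_lit 380) (nat_lit 357) (nat_lit 283))))))))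
noncomputable def xc143 : XT := (XT.nd (nat_lit 1482) (nat_lit 760) (nat_lit 0) (XT.nd (nat_lit 702) (nat_lit 456) (nat_lit 0) (XT.nd (nat_lit 312) (nat_lit 380) (nat_lit 0) (XT.nd (nat_lit 156) (nat_lit 228) (nat_lit 0) (XT.nd (nat_lit 78) (nat_lit 76) (nat_lit 0) (XT.lf (nat_lit 0) (nat_lit 30127495732) (nat_lit 152) (nat_lit 3813904620) (nat_lit 228) (nat_lit 10189862132) (nat_lit 31) (nat_lit 5) (nat_lit 33) (nat_lit 5) (nat_lit 34) (nat_lit 5) (nat_lit 381) (nat_lit 357) (nat_lit 282)) (XT.lf (nat_lit 0) (nat_lit 10884142255) (nat_lit 76) (nat_lit 34896153992) (nat_lit 152) (nat_lit 641021616) (nat_lit 30) (nat_lit 5) (nat_lit 31) (nat_lit 5) (nat_lit 32) (nat_lit 4) (nat_lit 382) (nat_lit 357) (nat_lit 281))) (XT.nd (nat_lit 78) (nat_lit 152) (nat_lit 0) (XT.lf (nat_lit 0) (nat_lit 9672539034) (nat_lit 152) (nat_lit 10658167674) (nat_lit 76) (nat_lit 28506495812) (nat_lit 29) (nat_lit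 5) (nat_lit 31) (nat_lit 5) (nat_lit 30) (nat_lit 5) (nat_lit 383) (nat_lit 357) (nat_lit 280)) (XT.lf (nat_lit 0) (nat_lit 17035492736) (nat_lit 152) (nat_lit 4144038448) (nat_lit 228) (nat_lit 30233260027) (nat_lit 27) (nat_lit 5) (nat_lit 29) (nat_lit 5) (nat_lit 30) (nat_lit 5) (nat_lit 384) (nat_lit 357) (nat_lit 279)))) (XT.nd (nat_lit 156) (nat_lit 304) (nat_lit 0) (XT.nd (nat_lit 78) (nat_lit 76) (nat_lit 0) (XT.lf (nat_lit 0) (nat_lit 34220237313) (nat_lit 228) (nat_lit 6960001339) (nat_lit 76) (nat_lit 12965139246) (nat_lit 27) (nat_lit 5) (nat_lit 30) (nat_lit 5) (nat_lit 28) (nat_lit 4) (nat_lit 385) (nat_lit 357) (nat_lit 278)) (XT.lf (nat_lit 0) (nat_lit 23719070894) (nat_lit 76) (nat_lit 25257102777) (nat_lit 152) (nat_lit 8066642977) (nat_lit 26) (nat_lit 5) (nat_lit 27) (nat_lit 5) (nat_lit 28) (nat_lit 4) (nat_lit 386) (nat_lit 357) (nat_lit 277))) (XT.nd (nat_lit 78)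 (nat_lit 228) (nat_lit 0) (XT.lf (nat_lit 0) (nat_lit 4692577919) (nat_lit 152) (nat_lit 3038040202) (nat_lit 76) (nat_lit 52417179438) (nat_lit 25) (nat_lit 5) (nat_lit 27) (nat_lit 5) (nat_lit 26) (nat_lit 5) (nat_lit 387) (nat_lit 357) (nat_lit 276)) (XT.nd (nat_lit 78) (nat_lit 76) (nat_lit 0) (XT.lf (nat_lit 0) (nat_lit 19070740448) (nat_lit 228) (nat_lit 32717159755) (nat_lit 76) (nat_lit 11613796310) (nat_lit 23) (nat_lit 5) (nat_lit 26) (nat_lit 5) (nat_lit 24) (nat_lit 4) (nat_lit 388) (nat_lit 357) (nat_lit 275)) (XT.lf (nat_lit 0) (nat_lit 163816022) (nat_lit 76) (nat_lit 34719777112) (nat_lit 152) (nat_lit 32009561503) (nat_lit 22) (nat_lit 5) (nat_lit 23) (nat_lit 5) (nat_lit 24) (nat_lit 4) (nat_lit 389) (nat_lit 357) (nat_lit 274)))))) (XT.nd (nat_lit 390) (nat_lit 228) (nat_lit 0) (XT.nd (nat_lit 156) (nat_lit 152) (nat_lit 0) (XT.nd (nat_lit 78) (nat_lit 76) (nat_lit 0)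 (XT.lf (nat_lit 0) (nat_lit 37526313676) (nat_lit 76) (nat_lit 15324362468) (nat_lit 152) (nat_lit 17742119158) (nat_lit 22) (nat_lit 5) (nat_lit 23) (nat_lit 5) (nat_lit 24) (nat_lit 4) (nat_lit 390) (nat_lit 357) (nat_lit 273)) (XT.lf (nat_lit 0) (nat_lit 3310586275) (nat_lit 76) (nat_lit 69154342659) (nat_lit 76) (nat_lit 2106695942) (nat_lit 21) (nat_lit 4) (nat_lit 22) (nat_lit 5) (nat_lit 22) (nat_lit 4) (nat_lit 391) (nat_lit 357) (nat_lit 272))) (XT.nd (nat_lit 78) (nat_lit 76) (nat_lit 0) (XT.lf (nat_lit 0) (nat_lit 15360829254) (nat_lit 152) (nat_lit 35104294148) (nat_lit 76) (nat_lit 28269555017) (nat_lit 20) (nat_lit 5) (nat_lit 22) (nat_lit 5) (nat_lit 21) (nat_lit 4) (nat_lit 392) (nat_lit 357) (nat_lit 271)) (XT.nd (nat_lit 78) (nat_lit 0) (nat_lit 0) (XT.lf (nat_lit 0) (nat_lit 4086125458) (nat_lit 76) (nat_lit 30119444472) (nat_lit 152) (nat_lit 49013339897) (nat_lit 19)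 (nat_lit 5) (nat_lit 20) (nat_lit 5) (nat_lit 21) (nat_lit 4) (nat_lit 393) (nat_lit 357) (nat_lit 270)) (XT.lf (nat_lit 0) (nat_lit 48399857819) (nat_lit 76) (nat_lit 7113347417) (nat_lit 152) (nat_lit 32472250684) (nat_lit 19) (nat_lit 5) (nat_lit 20) (nat_lit 5) (nat_lit 21) (nat_lit 4) (nat_lit 394) (nat_lit 357) (nat_lit 269))))) (XT.nd (nat_lit 156) (nat_lit 76) (nat_lit 0) (XT.nd (nat_lit 78) (nat_lit 76) (nat_lit 0) (XT.lf (nat_lit 0) (nat_lit 2832612046) (nat_lit 76) (nat_lit 76183198063) (nat_lit 76) (nat_lit 14078288192) (nat_lit 18) (nat_lit 4) (nat_lit 19) (nat_lit 5) (nat_lit 19) (nat_lit 4) (nat_lit 395) (nat_lit 357) (nat_lit 268)) (XT.lf (nat_lit 0) (nat_lit 6788677457) (nat_lit 152) (nat_lit 47989342093) (nat_lit 76) (nat_lit 43719000273) (nat_lit 17) (nat_lit 5) (nat_lit 19) (nat_lit 5) (nat_lit 18) (nat_lit 4) (nat_lit 396) (nat_lit 357) (nat_lit 267))) (XT.nd (nat_lit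 78) (nat_lit 76) (nat_lit 0) (XT.lf (nat_lit 0) (nat_lit 28560489989) (nat_lit 152) (nat_lit 2708491779) (nat_lit 76) (nat_lit 73034254116) (nat_lit 17) (nat_lit 5) (nat_lit 19) (nat_lit 5) (nat_lit 18) (nat_lit 4) (nat_lit 397) (nat_lit 357) (nat_lit 266)) (XT.nd (nat_lit 78) (nat_lit 0) (nat_lit 0) (XT.lf (nat_lit 0) (nat_lit 48620155934) (nat_lit 76) (nat_lit 4619580531) (nat_lit 152) (nat_lit 57240958604) (nat_lit 16) (nat_lit 5) (nat_lit 17) (nat_lit 5) (nat_lit 18) (nat_lit 4) (nat_lit 398) (nat_lit 357) (nat_lit 265)) (XT.lf (nat_lit 0) (nat_lit 80546797625) (nat_lit 152) (nat_lit 13527192399) (nat_lit 0) (nat_lit 23026083851) (nat_lit 16) (nat_lit 5) (nat_lit 18) (nat_lit 4) (nat_lit 16) (nat_lit 4) (nat_lit 399) (nat_lit 357) (nat_lit 264))))))) (XT.nd (nat_lit 780) (nat_lit 304) (nat_lit 0) (XT.nd (nat_lit 390) (nat_lit 228) (nat_lit 0) (XT.nd (nat_lit 156) (nat_lit 76) (nat_lit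 0) (XT.nd (nat_lit 78) (nat_lit 76) (nat_lit 0) (XT.lf (nat_lit 0) (nat_lit 40576250155) (nat_lit 76) (nat_lit 70554693970) (nat_lit 76) (nat_lit 13030658043) (nat_lit 15) (nat_lit 4) (nat_lit 16) (nat_lit 5) (nat_lit 16) (nat_lit 4) (nat_lit 400) (nat_lit 357) (nat_lit 263)) (XT.lf (nat_lit 0) (nat_lit 12130931757) (nat_lit 152) (nat_lit 32294773938) (nat_lit 76) (nat_lit 87308448716) (nat_lit 14) (nat_lit 5) (nat_lit 16) (nat_lit 5) (nat_lit 15) (nat_lit 4) (nat_lit 401) (nat_lit 357) (nat_lit 262))) (XT.nd (nat_lit 78) (nat_lit 0) (nat_lit 0) (XT.lf (nat_lit 0) (nat_lit 23952900609) (nat_lit 76) (nat_lit 15221551705) (nat_lit 152) (nat_lit 100665142673) (nat_lit 13) (nat_lit 5) (nat_lit 14) (nat_lit 5) (nat_lit 15) (nat_lit 4) (nat_lit 402) (nat_lit 357) (nat_lit 261)) (XT.nd (nat_lit 78) (nat_lit 0) (nat_lit 0) (XT.lf (nat_lit 0) (nat_lit 69676808290) (nat_lit 152) (nat_lit 62407150084)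 (nat_lit 0) (nat_lit 16405884735) (nat_lit 13) (nat_lit 5) (nat_lit 15) (nat_lit 4) (nat_lit 13) (nat_lit 4) (nat_lit 403) (nat_lit 357) (nat_lit 260)) (XT.lf (nat_lit 0) (nat_lit 103011895206) (nat_lit 152) (nat_lit 5050102386) (nat_lit 0) (nat_lit 49738710649) (nat_lit 13) (nat_lit 5) (nat_lit 15) (nat_lit 4) (nat_lit 13) (nat_lit 4) (nat_lit 404) (nat_lit 357) (nat_lit 259))))) (XT.nd (nat_lit 156) (nat_lit 76) (nat_lit 0) (XT.nd (nat_lit 78) (nat_lit 76) (nat_lit 0) (XT.lf (nat_lit 0) (nat_lit 59886169769) (nat_lit 76) (nat_lit 80565269688) (nat_lit 76) (nat_lit 27289991611) (nat_lit 12) (nat_lit 4) (nat_lit 13) (nat_lit 5) (nat_lit 13) (nat_lit 4) (nat_lit 405) (nat_lit 357) (nat_lit 258)) (XT.lf (nat_lit 0) (nat_lit 2427300501) (nat_lit 152) (nat_lit 48228431479) (nat_lit 76) (nat_lit 127805920997) (nat_lit 11) (nat_lit 5) (nat_lit 13) (nat_lit 5) (nat_lit 12) (nat_lit 4) (nat_lit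 406) (nat_lit 357) (nat_lit 257))) (XT.nd (nat_lit 78) (nat_lit 0) (nat_lit 0) (XT.lf (nat_lit 0) (nat_lit 16268827000) (nat_lit 76) (nat_lit 17167633758) (nat_lit 152) (nat_lit 156515217560) (nat_lit 10) (nat_lit 5) (nat_lit 11) (nat_lit 5) (nat_lit 12) (nat_lit 4) (nat_lit 407) (nat_lit 357) (nat_lit 256)) (XT.nd (nat_lit 78) (nat_lit 0) (nat_lit 0) (XT.lf (nat_lit 0) (nat_lit 68733795326) (nat_lit 152) (nat_lit 114082676838) (nat_lit 0) (nat_lit 19399838583) (nat_lit 10) (nat_lit 5) (nat_lit 12) (nat_lit 4) (nat_lit 10) (nat_lit 4) (nat_lit 408) (nat_lit 357) (nat_lit 255)) (XT.lf (nat_lit 0) (nat_lit 107298608213) (nat_lit 152) (nat_lit 50164783931) (nat_lit 0) (nat_lit 57963226655) (nat_lit 10) (nat_lit 5) (nat_lit 12) (nat_lit 4) (nat_lit 10) (nat_lit 4) (nat_lit 409) (nat_lit 357) (nat_lit 254)))))) (XT.nd (nat_lit 390) (nat_lit 76) (nat_lit 0) (XT.nd (nat_lit 156) (nat_lit 152)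 (nat_lit 0) (XT.nd (nat_lit 78) (nat_lit 0) (nat_lit 0) (XT.lf (nat_lit 0) (nat_lit 19855746985) (nat_lit 76) (nat_lit 129568333844) (nat_lit 76) (nat_lit 80231633013) (nat_lit 9) (nat_lit 4) (nat_lit 10) (nat_lit 5) (nat_lit 10) (nat_lit 4) (nat_lit 410) (nat_lit 357) (nat_lit 253)) (XT.lf (nat_lit 0) (nat_lit 98326880527) (nat_lit 76) (nat_lit 97962305529) (nat_lit 76) (nat_lit 48624383149) (nat_lit 9) (nat_lit 4) (nat_lit 10) (nat_lit 5) (nat_lit 10) (nat_lit 4) (nat_lit 411) (nat_lit 357) (nat_lit 252))) (XT.nd (nat_lit 78) (nat_lit 152) (nat_lit 0) (XT.lf (nat_lit 0) (nat_lit 183072042196) (nat_lit 76) (nat_lit 63829606310) (nat_lit 76) (nat_lit 14490552866) (nat_lit 9) (nat_lit 4) (nat_lit 10) (nat_lit 5) (nat_lit 10) (nat_lit 4) (nat_lit 412) (nat_lit 357) (nat_lit 251)) (XT.nd (nat_lit 78) (nat_lit 76) (nat_lit 0) (XT.lf (nat_lit 0) (nat_lit 21252987715) (nat_lit 152) (nat_lit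 5133886276) (nat_lit 76) (nat_lit 252759343479) (nat_lit 8) (nat_lit 5) (nat_lit 10) (nat_lit 5) (nat_lit 9) (nat_lit 4) (nat_lit 413) (nat_lit 357) (nat_lit 250)) (XT.lf (nat_lit 0) (nat_lit 61328997925) (nat_lit 152) (nat_lit 221138157103) (nat_lit 0) (nat_lit 15642821600) (nat_lit 7) (nat_lit 5) (nat_lit 9) (nat_lit 4) (nat_lit 7) (nat_lit 4) (nat_lit 414) (nat_lit 357) (nat_lit 249))))) (XT.nd (nat_lit 156) (nat_lit 76) (nat_lit 0) (XT.nd (nat_lit 78) (nat_lit 0) (nat_lit 0) (XT.lf (nat_lit 0) (nat_lit 105438856734) (nat_lit 152) (nat_lit 153333909522) (nat_lit 0) (nat_lit 59751849044) (nat_lit 7) (nat_lit 5) (nat_lit 9) (nat_lit 4) (nat_lit 7) (nat_lit 4) (nat_lit 415) (nat_lit 357) (nat_lit 248)) (XT.lf (nat_lit 0) (nat_lit 153076003250) (nat_lit 152) (nat_lit 80108316310) (nat_lit 0) (nat_lit 107388225777) (nat_lit 7) (nat_lit 5) (nat_lit 9) (nat_lit 4) (nat_lit 7) (nat_lit 4) (nat_lit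 416) (nat_lit 357) (nat_lit 247))) (XT.nd (nat_lit 78) (nat_lit 76) (nat_lit 0) (XT.lf (nat_lit 0) (nat_lit 204522731674) (nat_lit 152) (nat_lit 1027448024) (nat_lit 0) (nat_lit 158834241439) (nat_lit 7) (nat_lit 5) (nat_lit 9) (nat_lit 4) (nat_lit 7) (nat_lit 4) (nat_lit 417) (nat_lit 357) (nat_lit 246)) (XT.nd (nat_lit 78) (nat_lit 0) (nat_lit 0) (XT.lf (nat_lit 0) (nat_lit 88820482986) (nat_lit 76) (nat_lit 173399563273) (nat_lit 76) (nat_lit 127710413072) (nat_lit 6) (nat_lit 4) (nat_lit 7) (nat_lit 5) (nat_lit 7) (nat_lit 4) (nat_lit 418) (nat_lit 357) (nat_lit 245)) (XT.lf (nat_lit 0) (nat_lit 185912178323) (nat_lit 76) (nat_lit 138647808223) (nat_lit 76) (nat_lit 92958046944) (nat_lit 6) (nat_lit 4) (nat_lit 7) (nat_lit 5) (nat_lit 7) (nat_lit 4) (nat_lit 419) (nat_lit 357) (nat_lit 244))))))))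
noncomputable def xc144 : XT := (XT.nd (nat_lit 1482) (nat_lit 152) (nat_lit 0) (XT.nd (nat_lit 702) (nat_lit 76) (nat_lit 0) (XT.nd (nat_lit 312) (nat_lit 0) (nat_lit 0) (XT.nd (nat_lit 156) (nat_lit 152) (nat_lit 0) (XT.nd (nat_lit 78) (nat_lit 0) (nat_lit 0) (XT.lf (nat_lit 0) (nat_lit 290768892590) (nat_lit 76) (nat_lit 101117070471) (nat_lit 76) (nat_lit 55426743379) (nat_lit 6) (nat_lit 4) (nat_lit 7) (nat_lit 5) (nat_lit 7) (nat_lit 4) (nat_lit 420) (nat_lit 357) (nat_lit 243)) (XT.lf (nat_lit 0) (nat_lit 404011998906) (nat_lit 76) (nat_lit 60584945647) (nat_lit 76) (nat_lit 14894094653) (nat_lit 6) (nat_lit 4) (nat_lit 7) (nat_lit 5) (nat_lit 7) (nat_lit 4) (nat_lit 421) (nat_lit 357) (nat_lit 242))) (XT.nd (nat_lit 78) (nat_lit 0) (nat_lit 0) (XT.lf (nat_lit 0) (nat_lit 11973231957) (nat_lit 76) (nat_lit 15750118064) (nat_lit 152) (nat_lit 486441766310) (nat_lit 4) (nat_lit 5)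 (nat_lit 5) (nat_lit 5) (nat_lit 6) (nat_lit 4) (nat_lit 422) (nat_lit 357) (nat_lit 241)) (XT.lf (nat_lit 0) (nat_lit 75847590839) (nat_lit 152) (nat_lit 441962032361) (nat_lit 0) (nat_lit 33540382275) (nat_lit 4) (nat_lit 5) (nat_lit 6) (nat_lit 4) (nat_lit 4) (nat_lit 4) (nat_lit 423) (nat_lit 357) (nat_lit 240)))) (XT.nd (nat_lit 156) (nat_lit 0) (nat_lit 0) (XT.nd (nat_lit 78) (nat_lit 0) (nat_lit 0) (XT.lf (nat_lit 0) (nat_lit 128229924310) (nat_lit 152) (nat_lit 377324778603) (nat_lit 0) (nat_lit 85922330663) (nat_lit 4) (nat_lit 5) (nat_lit 6) (nat_lit 4) (nat_lit 4) (nat_lit 4) (nat_lit 424) (nat_lit 357) (nat_lit 239)) (XT.lf (nat_lit 0) (nat_lit 184801973543) (nat_lit 152) (nat_lit 307518296804) (nat_lit 0) (nat_lit 142494023338) (nat_lit 4) (nat_lit 5) (nat_lit 6) (nat_lit 4) (nat_lit 4) (nat_lit 4) (nat_lit 425) (nat_lit 357) (nat_lit 238))) (XT.nd (nat_lit 78) (nat_lit 0)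 (nat_lit 0) (XT.lf (nat_lit 0) (nat_lit 245898980312) (nat_lit 152) (nat_lit 232128918925) (nat_lit 0) (nat_lit 203590699960) (nat_lit 4) (nat_lit 5) (nat_lit 6) (nat_lit 4) (nat_lit 4) (nat_lit 4) (nat_lit 426) (nat_lit 357) (nat_lit 237)) (XT.nd (nat_lit 78) (nat_lit 0) (nat_lit 0) (XT.lf (nat_lit 0) (nat_lit 311883000954) (nat_lit 152) (nat_lit 150709893096) (nat_lit 0) (nat_lit 269574414910) (nat_lit 4) (nat_lit 5) (nat_lit 6) (nat_lit 4) (nat_lit 4) (nat_lit 4) (nat_lit 427) (nat_lit 357) (nat_lit 236)) (XT.lf (nat_lit 0) (nat_lit 383145051886) (nat_lit 152) (nat_lit 62778736201) (nat_lit 0) (nat_lit 340836182794) (nat_lit 4) (nat_lit 5) (nat_lit 6) (nat_lit 4) (nat_lit 4) (nat_lit 4) (nat_lit 428) (nat_lit 357) (nat_lit 235)))))) (XT.nd (nat_lit 390) (nat_lit 0) (nat_lit 0) (XT.nd (nat_lit 156) (nat_lit 0) (nat_lit 0) (XT.nd (nat_lit 78) (nat_lit 0) (nat_lit 0) (XT.lf (nat_lit 0)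 (nat_lit 33880463271) (nat_lit 76) (nat_lit 427041789429) (nat_lit 76) (nat_lit 384732658256) (nat_lit 3) (nat_lit 4) (nat_lit 4) (nat_lit 5) (nat_lit 4) (nat_lit 4) (nat_lit 429) (nat_lit 357) (nat_lit 234)) (XT.lf (nat_lit 0) (nat_lit 141841425699) (nat_lit 76) (nat_lit 404796062859) (nat_lit 76) (nat_lit 362486689019) (nat_lit 3) (nat_lit 4) (nat_lit 4) (nat_lit 5) (nat_lit 4) (nat_lit 4) (nat_lit 430) (nat_lit 357) (nat_lit 233))) (XT.nd (nat_lit 78) (nat_lit 0) (nat_lit 0) (XT.lf (nat_lit 0) (nat_lit 258438102755) (nat_lit 76) (nat_lit 380771263753) (nat_lit 76) (nat_lit 338461665220) (nat_lit 3) (nat_lit 4) (nat_lit 4) (nat_lit 5) (nat_lit 4) (nat_lit 4) (nat_lit 431) (nat_lit 357) (nat_lit 232)) (XT.nd (nat_lit 78) (nat_lit 0) (nat_lit 0) (XT.lf (nat_lit 0) (nat_lit 384361437708) (nat_lit 76) (nat_lit 354825022929) (nat_lit 76) (nat_lit 312515216348) (nat_lit 3) (nat_lit 4) (nat_lit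 4) (nat_lit 5) (nat_lit 4) (nat_lit 4) (nat_lit 432) (nat_lit 357) (nat_lit 231)) (XT.lf (nat_lit 0) (nat_lit 520357642915) (nat_lit 76) (nat_lit 326803584886) (nat_lit 76) (nat_lit 284493585668) (nat_lit 3) (nat_lit 4) (nat_lit 4) (nat_lit 5) (nat_lit 4) (nat_lit 4) (nat_lit 433) (nat_lit 357) (nat_lit 230))))) (XT.nd (nat_lit 156) (nat_lit 0) (nat_lit 0) (XT.nd (nat_lit 78) (nat_lit 0) (nat_lit 0) (XT.lf (nat_lit 0) (nat_lit 667232621815) (nat_lit 76) (nat_lit 296540896659) (nat_lit 76) (nat_lit 254230719073) (nat_lit 3) (nat_lit 4) (nat_lit 4) (nat_lit 5) (nat_lit 4) (nat_lit 4) (nat_lit 434) (nat_lit 357) (nat_lit 229)) (XT.lf (nat_lit 0) (nat_lit 825856744651) (nat_lit 76) (nat_lit 263857623799) (nat_lit 76) (nat_lit 221547281057) (nat_lit 3) (nat_lit 4) (nat_lit 4) (nat_lit 5) (nat_lit 4) (nat_lit 4) (nat_lit 435) (nat_lit 357) (nat_lit 228))) (XT.nd (nat_lit 78) (nat_lit 0) (nat_lit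 0) (XT.lf (nat_lit 0) (nat_lit 997170006227) (nat_lit 76) (nat_lit 228560087651) (nat_lit 76) (nat_lit 186249591987) (nat_lit 3) (nat_lit 4) (nat_lit 4) (nat_lit 5) (nat_lit 4) (nat_lit 4) (nat_lit 436) (nat_lit 357) (nat_lit 227)) (XT.nd (nat_lit 78) (nat_lit 0) (nat_lit 0) (XT.lf (nat_lit 0) (nat_lit 1182187596240) (nat_lit 76) (nat_lit 190439117631) (nat_lit 76) (nat_lit 148128480373) (nat_lit 3) (nat_lit 4) (nat_lit 4) (nat_lit 5) (nat_lit 4) (nat_lit 4) (nat_lit 437) (nat_lit 357) (nat_lit 226)) (XT.lf (nat_lit 0) (nat_lit 1382005915223) (nat_lit 76) (nat_lit 149268811694) (nat_lit 76) (nat_lit 106958043330) (nat_lit 3) (nat_lit 4) (nat_lit 4) (nat_lit 5) (nat_lit 4) (nat_lit 4) (nat_lit 438) (nat_lit 357) (nat_lit 225))))))) (XT.nd (nat_lit 702) (nat_lit 0) (nat_lit 0) (XT.nd (nat_lit 312) (nat_lit 0) (nat_lit 0) (XT.nd (nat_lit 156) (nat_lit 152) (nat_lit 0) (XT.nd (nat_lit 78)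 (nat_lit 0) (nat_lit 0) (XT.lf (nat_lit 0) (nat_lit 1597809071735) (nat_lit 76) (nat_lit 104805197658) (nat_lit 76) (nat_lit 62494307900) (nat_lit 3) (nat_lit 4) (nat_lit 4) (nat_lit 5) (nat_lit 4) (nat_lit 4) (nat_lit 439) (nat_lit 357) (nat_lit 224)) (XT.lf (nat_lit 0) (nat_lit 1830875899295) (nat_lit 76) (nat_lit 56784787439) (nat_lit 76) (nat_lit 14473785278) (nat_lit 3) (nat_lit 4) (nat_lit 4) (nat_lit 5) (nat_lit 4) (nat_lit 4) (nat_lit 440) (nat_lit 357) (nat_lit 223))) (XT.nd (nat_lit 78) (nat_lit 0) (nat_lit 0) (XT.lf (nat_lit 0) (nat_lit 33228094325) (nat_lit 76) (nat_lit 3088829021) (nat_lit 152) (nat_lit 2013669670684) (nat_lit 1) (nat_lit 5) (nat_lit 2) (nat_lit 5) (nat_lit 3) (nat_lit 4) (nat_lit 441) (nat_lit 357) (nat_lit 222)) (XT.lf (nat_lit 0) (nat_lit 93708010580) (nat_lit 152) (nat_lit 2061132302141) (nat_lit 0) (nat_lit 54530971133) (nat_lit 1) (nat_lit 5) (nat_lit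 3) (nat_lit 4) (nat_lit 1) (nat_lit 4) (nat_lit 442) (nat_lit 357) (nat_lit 221)))) (XT.nd (nat_lit 156) (nat_lit 0) (nat_lit 0) (XT.nd (nat_lit 78) (nat_lit 0) (nat_lit 0) (XT.lf (nat_lit 0) (nat_lit 155770361041) (nat_lit 152) (nat_lit 2109136750766) (nat_lit 0) (nat_lit 116593238975) (nat_lit 1) (nat_lit 5) (nat_lit 3) (nat_lit 4) (nat_lit 1) (nat_lit 4) (nat_lit 443) (nat_lit 357) (nat_lit 220)) (XT.lf (nat_lit 0) (nat_lit 222797465210) (nat_lit 152) (nat_lit 2160982029977) (nat_lit 0) (nat_lit 183620266645) (nat_lit 1) (nat_lit 5) (nat_lit 3) (nat_lit 4) (nat_lit 1) (nat_lit 4) (nat_lit 444) (nat_lit 357) (nat_lit 219))) (XT.nd (nat_lit 78) (nat_lit 0) (nat_lit 0) (XT.lf (nat_lit 0) (nat_lit 295186520741) (nat_lit 152) (nat_lit 2216975371056) (nat_lit 0) (nat_lit 256009251343) (nat_lit 1) (nat_lit 5) (nat_lit 3) (nat_lit 4) (nat_lit 1) (nat_lit 4) (nat_lit 445) (nat_lit 357) (nat_lit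 218)) (XT.nd (nat_lit 78) (nat_lit 0) (nat_lit 0) (XT.lf (nat_lit 0) (nat_lit 373366499814) (nat_lit 152) (nat_lit 2277448586396) (nat_lit 0) (nat_lit 334189164831) (nat_lit 1) (nat_lit 5) (nat_lit 3) (nat_lit 4) (nat_lit 1) (nat_lit 4) (nat_lit 446) (nat_lit 357) (nat_lit 217)) (XT.lf (nat_lit 0) (nat_lit 457800691195) (nat_lit 152) (nat_lit 2342760035790) (nat_lit 0) (nat_lit 418623295485) (nat_lit 1) (nat_lit 5) (nat_lit 3) (nat_lit 4) (nat_lit 1) (nat_lit 4) (nat_lit 447) (nat_lit 357) (nat_lit 216)))))) (XT.nd (nat_lit 390) (nat_lit 0) (nat_lit 0) (XT.nd (nat_lit 156) (nat_lit 0) (nat_lit 0) (XT.nd (nat_lit 78) (nat_lit 0) (nat_lit 0) (XT.lf (nat_lit 0) (nat_lit 548989445648) (nat_lit 152) (nat_lit 2413296750051) (nat_lit 0) (nat_lit 509811993708) (nat_lit 1) (nat_lit 5) (nat_lit 3) (nat_lit 4) (nat_lit 1) (nat_lit 4) (nat_lit 448) (nat_lit 357) (nat_lit 215)) (XT.lf (nat_lit 0) (nat_lit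 647473140976) (nat_lit 152) (nat_lit 2489476724522) (nat_lit 0) (nat_lit 608295636972) (nat_lit 1) (nat_lit 5) (nat_lit 3) (nat_lit 4) (nat_lit 1) (nat_lit 4) (nat_lit 449) (nat_lit 357) (nat_lit 214))) (XT.nd (nat_lit 78) (nat_lit 0) (nat_lit 0) (XT.lf (nat_lit 0) (nat_lit 753835384263) (nat_lit 152) (nat_lit 2571751396088) (nat_lit 0) (nat_lit 714657832052) (nat_lit 1) (nat_lit 5) (nat_lit 3) (nat_lit 4) (nat_lit 1) (nat_lit 4) (nat_lit 450) (nat_lit 357) (nat_lit 213)) (XT.nd (nat_lit 78) (nat_lit 0) (nat_lit 0) (XT.lf (nat_lit 0) (nat_lit 868706470284) (nat_lit 152) (nat_lit 2660608318360) (nat_lit 0) (nat_lit 829528873436) (nat_lit 1) (nat_lit 5) (nat_lit 3) (nat_lit 4) (nat_lit 1) (nat_lit 4) (nat_lit 451) (nat_lit 357) (nat_lit 212)) (XT.lf (nat_lit 0) (nat_lit 992767116586) (nat_lit 152) (nat_lit 2756574050876) (nat_lit 0) (nat_lit 953589478408) (nat_lit 1) (nat_lit 5) (nat_lit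 3) (nat_lit 4) (nat_lit 1) (nat_lit 4) (nat_lit 452) (nat_lit 357) (nat_lit 211))))) (XT.nd (nat_lit 156) (nat_lit 0) (nat_lit 0) (XT.nd (nat_lit 78) (nat_lit 0) (nat_lit 0) (XT.lf (nat_lit 0) (nat_lit 1126752497368) (nat_lit 152) (nat_lit 2860217279459) (nat_lit 0) (nat_lit 1087574820922) (nat_lit 1) (nat_lit 5) (nat_lit 3) (nat_lit 4) (nat_lit 1) (nat_lit 4) (nat_lit 453) (nat_lit 357) (nat_lit 210)) (XT.lf (nat_lit 0) (nat_lit 1271456600074) (nat_lit 152) (nat_lit 2972152186204) (nat_lit 0) (nat_lit 1232278888194) (nat_lit 1) (nat_lit 5) (nat_lit 3) (nat_lit 4) (nat_lit 1) (nat_lit 4) (nat_lit 454) (nat_lit 357) (nat_lit 209))) (XT.nd (nat_lit 78) (nat_lit 0) (nat_lit 0) (XT.lf (nat_lit 0) (nat_lit 1427736930496) (nat_lit 152) (nat_lit 3093042089077) (nat_lit 0) (nat_lit 1388559185807) (nat_lit 1) (nat_lit 5) (nat_lit 3) (nat_lit 4) (nat_lit 1) (nat_lit 4) (nat_lit 455) (nat_lit 357)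 (nat_lit 208)) (XT.nd (nat_lit 78) (nat_lit 0) (nat_lit 0) (XT.lf (nat_lit 0) (nat_lit 1596519594297) (nat_lit 152) (nat_lit 3223603372687) (nat_lit 0) (nat_lit 1557341819229) (nat_lit 1) (nat_lit 5) (nat_lit 3) (nat_lit 4) (nat_lit 1) (nat_lit 4) (nat_lit 456) (nat_lit 357) (nat_lit 207)) (XT.lf (nat_lit 0) (nat_lit 1778804785039) (nat_lit 152) (nat_lit 3364609733530) (nat_lit 0) (nat_lit 1739626981843) (nat_lit 1) (nat_lit 5) (nat_lit 3) (nat_lit 4) (nat_lit 1) (nat_lit 4) (nat_lit 457) (nat_lit 357) (nat_lit 206))))))))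
noncomputable def xc145 : XT := (XT.nd (nat_lit 46722) (nat_lit 0) (nat_lit 1368) (XT.nd (nat_lit 45942) (nat_lit 0) (nat_lit 2964) (XT.nd (nat_lit 45552) (nat_lit 0) (nat_lit 4256) (XT.nd (nat_lit 45396) (nat_lit 0) (nat_lit 4560) (XT.nd (nat_lit 45318) (nat_lit 0) (nat_lit 4560) (XT.lf (nat_lit 0) (nat_lit 1975672711261) (nat_lit 152) (nat_lit 3516896764856) (nat_lit 0) (nat_lit 1936494882019) (nat_lit 1) (nat_lit 5) (nat_lit 3) (nat_lit 4) (nat_lit 1) (nat_lit 4) (nat_lit 458) (nat_lit 357) (nat_lit 205)) (XT.lf (nat_lit 0) (nat_lit 5874902322) (nat_lit 532) (nat_lit 1169008827) (nat_lit 532) (nat_lit 1169008827) (nat_lit 61) (nat_lit 3) (nat_lit 68) (nat_lit 3) (nat_lit 68) (nat_lit 5) (nat_lit 358) (nat_lit 358) (nat_lit 304))) (XT.nd (nat_lit 78) (nat_lit 0) (nat_lit 76) (XT.lf (nat_lit 76) (nat_lit 5875818410) (nat_lit 0) (nat_lit 6716089998) (nat_lit 532) (nat_lit 4460914310) (nat_lit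 62) (nat_lit 5) (nat_lit 61) (nat_lit 3) (nat_lit 68) (nat_lit 5) (nat_lit 359) (nat_lit 358) (nat_lit 303)) (XT.lf (nat_lit 0) (nat_lit 13573757838) (nat_lit 456) (nat_lit 2892023605) (nat_lit 532) (nat_lit 1258420675) (nat_lit 62) (nat_lit 5) (nat_lit 68) (nat_lit 5) (nat_lit 69) (nat_lit 5) (nat_lit 360) (nat_lit 358) (nat_lit 302)))) (XT.nd (nat_lit 156) (nat_lit 380) (nat_lit 0) (XT.nd (nat_lit 78) (nat_lit 0) (nat_lit 0) (XT.lf (nat_lit 76) (nat_lit 6176109951) (nat_lit 0) (nat_lit 8759580293) (nat_lit 532) (nat_lit 3489504941) (nat_lit 63) (nat_lit 5) (nat_lit 62) (nat_lit 5) (nat_lit 69) (nat_lit 5) (nat_lit 361) (nat_lit 358) (nat_lit 301)) (XT.lf (nat_lit 76) (nat_lit 16120368773) (nat_lit 0) (nat_lit 345093705) (nat_lit 532) (nat_lit 2712118581) (nat_lit 63) (nat_lit 5) (nat_lit 62) (nat_lit 5) (nat_lit 69) (nat_lit 5) (nat_lit 362) (nat_lit 358) (nat_lit 300))) (XT.nd (nat_lit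 78) (nat_lit 456) (nat_lit 0) (XT.lf (nat_lit 76) (nat_lit 6995247078) (nat_lit 0) (nat_lit 11482313739) (nat_lit 532) (nat_lit 1483823828) (nat_lit 64) (nat_lit 5) (nat_lit 63) (nat_lit 5) (nat_lit 70) (nat_lit 5) (nat_lit 363) (nat_lit 358) (nat_lit 299)) (XT.nd (nat_lit 78) (nat_lit 456) (nat_lit 0) (XT.lf (nat_lit 76) (nat_lit 18002264116) (nat_lit 0) (nat_lit 2723174641) (nat_lit 532) (nat_lit 76489553) (nat_lit 64) (nat_lit 5) (nat_lit 63) (nat_lit 5) (nat_lit 70) (nat_lit 5) (nat_lit 364) (nat_lit 358) (nat_lit 298)) (XT.lf (nat_lit 0) (nat_lit 1728761313) (nat_lit 532) (nat_lit 13300472200) (nat_lit 76) (nat_lit 6649119674) (nat_lit 57) (nat_lit 5) (nat_lit 64) (nat_lit 5) (nat_lit 58) (nat_lit 5) (nat_lit 365) (nat_lit 358) (nat_lit 297)))))) (XT.nd (nat_lit 390) (nat_lit 456) (nat_lit 0) (XT.nd (nat_lit 156) (nat_lit 456) (nat_lit 0) (XT.nd (nat_lit 78) (nat_lit 380) (nat_lit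 0) (XT.lf (nat_lit 0) (nat_lit 3807871016) (nat_lit 532) (nat_lit 2099524810) (nat_lit 76) (nat_lit 16706668050) (nat_lit 57) (nat_lit 5) (nat_lit 64) (nat_lit 5) (nat_lit 58) (nat_lit 5) (nat_lit 366) (nat_lit 358) (nat_lit 296)) (XT.lf (nat_lit 0) (nat_lit 6392968120) (nat_lit 456) (nat_lit 13197602639) (nat_lit 76) (nat_lit 4006903209) (nat_lit 52) (nat_lit 5) (nat_lit 58) (nat_lit 5) (nat_lit 53) (nat_lit 5) (nat_lit 367) (nat_lit 358) (nat_lit 295))) (XT.nd (nat_lit 78) (nat_lit 456) (nat_lit 0) (XT.lf (nat_lit 0) (nat_lit 9383434926) (nat_lit 456) (nat_lit 805844060) (nat_lit 76) (nat_lit 14454407036) (nat_lit 52) (nat_lit 5) (nat_lit 58) (nat_lit 5) (nat_lit 53) (nat_lit 5) (nat_lit 368) (nat_lit 358) (nat_lit 294)) (XT.nd (nat_lit 78) (nat_lit 228) (nat_lit 0) (XT.lf (nat_lit 0) (nat_lit 12925837345) (nat_lit 304) (nat_lit 12531214117) (nat_lit 76) (nat_lit 291540781) (nat_lit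 49) (nat_lit 5) (nat_lit 53) (nat_lit 5) (nat_lit 50) (nat_lit 5) (nat_lit 369) (nat_lit 358) (nat_lit 293)) (XT.lf (nat_lit 0) (nat_lit 1251424084) (nat_lit 228) (nat_lit 15805417968) (nat_lit 304) (nat_lit 9860644198) (nat_lit 46) (nat_lit 5) (nat_lit 49) (nat_lit 5) (nat_lit 50) (nat_lit 5) (nat_lit 370) (nat_lit 358) (nat_lit 292))))) (XT.nd (nat_lit 156) (nat_lit 304) (nat_lit 0) (XT.nd (nat_lit 78) (nat_lit 152) (nat_lit 0) (XT.lf (nat_lit 0) (nat_lit 16835584561) (nat_lit 228) (nat_lit 5013788624) (nat_lit 304) (nat_lit 6304046110) (nat_lit 46) (nat_lit 5) (nat_lit 49) (nat_lit 5) (nat_lit 50) (nat_lit 5) (nat_lit 371) (nat_lit 358) (nat_lit 291)) (XT.lf (nat_lit 0) (nat_lit 4215874384) (nat_lit 152) (nat_lit 23059774484) (nat_lit 228) (nat_lit 2192561120) (nat_lit 44) (nat_lit 5) (nat_lit 46) (nat_lit 5) (nat_lit 47) (nat_lit 5) (nat_lit 372) (nat_lit 358) (nat_lit 290))) (XT.nd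 (nat_lit 78) (nat_lit 228) (nat_lit 0) (XT.lf (nat_lit 0) (nat_lit 2572545653) (nat_lit 228) (nat_lit 9433592565) (nat_lit 76) (nat_lit 18842757823) (nat_lit 43) (nat_lit 5) (nat_lit 46) (nat_lit 5) (nat_lit 44) (nat_lit 5) (nat_lit 373) (nat_lit 358) (nat_lit 289)) (XT.nd (nat_lit 78) (nat_lit 0) (nat_lit 0) (XT.lf (nat_lit 0) (nat_lit 7787297039) (nat_lit 304) (nat_lit 24345524190) (nat_lit 76) (nat_lit 187716704) (nat_lit 40) (nat_lit 5) (nat_lit 44) (nat_lit 5) (nat_lit 41) (nat_lit 5) (nat_lit 374) (nat_lit 358) (nat_lit 288)) (XT.lf (nat_lit 0) (nat_lit 13986275095) (nat_lit 304) (nat_lit 6908131377) (nat_lit 76) (nat_lit 12970148604) (nat_lit 40) (nat_lit 5) (nat_lit 44) (nat_lit 5) (nat_lit 41) (nat_lit 5) (nat_lit 375) (nat_lit 358) (nat_lit 287))))))) (XT.nd (nat_lit 780) (nat_lit 608) (nat_lit 0) (XT.nd (nat_lit 390) (nat_lit 456) (nat_lit 0) (XT.nd (nat_lit 156) (nat_lit 380)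 (nat_lit 0) (XT.nd (nat_lit 78) (nat_lit 0) (nat_lit 0) (XT.lf (nat_lit 0) (nat_lit 12539382093) (nat_lit 152) (nat_lit 8434628561) (nat_lit 228) (nat_lit 14534662852) (nat_lit 38) (nat_lit 5) (nat_lit 40) (nat_lit 5) (nat_lit 41) (nat_lit 5) (nat_lit 376) (nat_lit 358) (nat_lit 286)) (XT.lf (nat_lit 0) (nat_lit 28826874999) (nat_lit 228) (nat_lit 3471753319) (nat_lit 76) (nat_lit 4961210832) (nat_lit 38) (nat_lit 5) (nat_lit 41) (nat_lit 5) (nat_lit 39) (nat_lit 5) (nat_lit 377) (nat_lit 358) (nat_lit 285))) (XT.nd (nat_lit 78) (nat_lit 228) (nat_lit 0) (XT.lf (nat_lit 0) (nat_lit 18268883643) (nat_lit 152) (nat_lit 19689705257) (nat_lit 228) (nat_lit 1140465566) (nat_lit 36) (nat_lit 5) (nat_lit 38) (nat_lit 5) (nat_lit 39) (nat_lit 5) (nat_lit 378) (nat_lit 358) (nat_lit 284)) (XT.nd (nat_lit 78) (nat_lit 0) (nat_lit 0) (XT.lf (nat_lit 0) (nat_lit 728776856) (nat_lit 152) (nat_lit 5776920551)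 (nat_lit 228) (nat_lit 34558179950) (nat_lit 33) (nat_lit 5) (nat_lit 35) (nat_lit 5) (nat_lit 36) (nat_lit 5) (nat_lit 379) (nat_lit 358) (nat_lit 283)) (XT.lf (nat_lit 0) (nat_lit 15501188146) (nat_lit 228) (nat_lit 18221940943) (nat_lit 76) (nat_lit 9396452037) (nat_lit 33) (nat_lit 5) (nat_lit 36) (nat_lit 5) (nat_lit 34) (nat_lit 5) (nat_lit 380) (nat_lit 358) (nat_lit 282))))) (XT.nd (nat_lit 156) (nat_lit 304) (nat_lit 0) (XT.nd (nat_lit 78) (nat_lit 0) (nat_lit 0) (XT.lf (nat_lit 0) (nat_lit 5788842988) (nat_lit 152) (nat_lit 19709790060) (nat_lit 228) (nat_lit 19818527404) (nat_lit 31) (nat_lit 5) (nat_lit 33) (nat_lit 5) (nat_lit 34) (nat_lit 5) (nat_lit 381) (nat_lit 358) (nat_lit 281)) (XT.lf (nat_lit 0) (nat_lit 32746105150) (nat_lit 152) (nat_lit 4041290165) (nat_lit 228) (nat_lit 10863833186) (nat_lit 31) (nat_lit 5) (nat_lit 33) (nat_lit 5) (nat_lit 34) (nat_lit 5) (nat_lit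 382) (nat_lit 358) (nat_lit 280))) (XT.nd (nat_lit 78) (nat_lit 228) (nat_lit 0) (XT.lf (nat_lit 0) (nat_lit 11966453465) (nat_lit 76) (nat_lit 37604088562) (nat_lit 152) (nat_lit 554181103) (nat_lit 30) (nat_lit 5) (nat_lit 31) (nat_lit 5) (nat_lit 32) (nat_lit 4) (nat_lit 383) (nat_lit 358) (nat_lit 279)) (XT.nd (nat_lit 78) (nat_lit 152) (nat_lit 0) (XT.lf (nat_lit 0) (nat_lit 10567835498) (nat_lit 152) (nat_lit 11308452432) (nat_lit 76) (nat_lit 30858107542) (nat_lit 29) (nat_lit 5) (nat_lit 31) (nat_lit 5) (nat_lit 30) (nat_lit 5) (nat_lit 384) (nat_lit 358) (nat_lit 278)) (XT.lf (nat_lit 0) (nat_lit 18595577553) (nat_lit 152) (nat_lit 4395553716) (nat_lit 228) (nat_lit 32525245174) (nat_lit 27) (nat_lit 5) (nat_lit 29) (nat_lit 5) (nat_lit 30) (nat_lit 5) (nat_lit 385) (nat_lit 358) (nat_lit 277)))))) (XT.nd (nat_lit 390) (nat_lit 228) (nat_lit 0) (XT.nd (nat_lit 156) (nat_lit 304)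 (nat_lit 0) (XT.nd (nat_lit 78) (nat_lit 76) (nat_lit 0) (XT.lf (nat_lit 0) (nat_lit 37068191280) (nat_lit 228) (nat_lit 7327209526) (nat_lit 76) (nat_lit 14072725842) (nat_lit 27) (nat_lit 5) (nat_lit 30) (nat_lit 5) (nat_lit 28) (nat_lit 4) (nat_lit 386) (nat_lit 358) (nat_lit 276)) (XT.lf (nat_lit 0) (nat_lit 25801388690) (nat_lit 76) (nat_lit 27199485150) (nat_lit 152) (nat_lit 8596789005) (nat_lit 26) (nat_lit 5) (nat_lit 27) (nat_lit 5) (nat_lit 28) (nat_lit 4) (nat_lit 387) (nat_lit 358) (nat_lit 275))) (XT.nd (nat_lit 78) (nat_lit 228) (nat_lit 0) (XT.lf (nat_lit 0) (nat_lit 5169302087) (nat_lit 152) (nat_lit 3104600967) (nat_lit 76) (nat_lit 56677569466) (nat_lit 25) (nat_lit 5) (nat_lit 27) (nat_lit 5) (nat_lit 26) (nat_lit 5) (nat_lit 388) (nat_lit 358) (nat_lit 274)) (XT.nd (nat_lit 78) (nat_lit 76) (nat_lit 0) (XT.lf (nat_lit 0) (nat_lit 20696130798) (nat_lit 228) (nat_lit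 35156423070) (nat_lit 76) (nat_lit 12613259684) (nat_lit 23) (nat_lit 5) (nat_lit 26) (nat_lit 5) (nat_lit 24) (nat_lit 4) (nat_lit 389) (nat_lit 358) (nat_lit 273)) (XT.lf (nat_lit 0) (nat_lit 350521669) (nat_lit 76) (nat_lit 37420277632) (nat_lit 152) (nat_lit 34466048994) (nat_lit 22) (nat_lit 5) (nat_lit 23) (nat_lit 5) (nat_lit 24) (nat_lit 4) (nat_lit 390) (nat_lit 358) (nat_lit 272))))) (XT.nd (nat_lit 156) (nat_lit 152) (nat_lit 0) (XT.nd (nat_lit 78) (nat_lit 76) (nat_lit 0) (XT.lf (nat_lit 0) (nat_lit 40689159849) (nat_lit 76) (nat_lit 16478939569) (nat_lit 152) (nat_lit 19064935514) (nat_lit 22) (nat_lit 5) (nat_lit 23) (nat_lit 5) (nat_lit 24) (nat_lit 4) (nat_lit 391) (nat_lit 358) (nat_lit 271)) (XT.lf (nat_lit 0) (nat_lit 3737433942) (nat_lit 76) (nat_lit 74612924020) (nat_lit 76) (nat_lit 2179906221) (nat_lit 21) (nat_lit 4) (nat_lit 22) (nat_lit 5) (nat_lit 22) (nat_lit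 4) (nat_lit 392) (nat_lit 358) (nat_lit 270))) (XT.nd (nat_lit 78) (nat_lit 76) (nat_lit 0) (XT.lf (nat_lit 0) (nat_lit 16673544515) (nat_lit 152) (nat_lit 37758194281) (nat_lit 76) (nat_lit 30594978628) (nat_lit 20) (nat_lit 5) (nat_lit 22) (nat_lit 5) (nat_lit 21) (nat_lit 4) (nat_lit 393) (nat_lit 358) (nat_lit 269)) (XT.nd (nat_lit 78) (nat_lit 0) (nat_lit 0) (XT.lf (nat_lit 0) (nat_lit 4563548934) (nat_lit 76) (nat_lit 32459724813) (nat_lit 152) (nat_lit 52846622880) (nat_lit 19) (nat_lit 5) (nat_lit 20) (nat_lit 5) (nat_lit 21) (nat_lit 4) (nat_lit 394) (nat_lit 358) (nat_lit 268)) (XT.lf (nat_lit 0) (nat_lit 52411229259) (nat_lit 76) (nat_lit 7618271490) (nat_lit 152) (nat_lit 34988749064) (nat_lit 19) (nat_lit 5) (nat_lit 20) (nat_lit 5) (nat_lit 21) (nat_lit 4) (nat_lit 395) (nat_lit 358) (nat_lit 267))))))))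
noncomputable def xc146 : XT := (XT.nd (nat_lit 1482) (nat_lit 380) (nat_lit 0) (XT.nd (nat_lit 702) (nat_lit 380) (nat_lit 0) (XT.nd (nat_lit 312) (nat_lit 228) (nat_lit 0) (XT.nd (nat_lit 156) (nat_lit 76) (nat_lit 0) (XT.nd (nat_lit 78) (nat_lit 76) (nat_lit 0) (XT.lf (nat_lit 0) (nat_lit 3199461145) (nat_lit 76) (nat_lit 82212080766) (nat_lit 76) (nat_lit 15124105178) (nat_lit 18) (nat_lit 4) (nat_lit 19) (nat_lit 5) (nat_lit 19) (nat_lit 4) (nat_lit 396) (nat_lit 358) (nat_lit 266)) (XT.lf (nat_lit 0) (nat_lit 7402532608) (nat_lit 152) (nat_lit 51694892719) (nat_lit 76) (nat_lit 47273676588) (nat_lit 17) (nat_lit 5) (nat_lit 19) (nat_lit 5) (nat_lit 18) (nat_lit 4) (nat_lit 397) (nat_lit 358) (nat_lit 265))) (XT.nd (nat_lit 78) (nat_lit 76) (nat_lit 0) (XT.lf (nat_lit 0) (nat_lit 30910848591) (nat_lit 152) (nat_lit 2801470435) (nat_lit 76) (nat_lit 78929916939) (nat_lit 17) (nat_lit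 5) (nat_lit 19) (nat_lit 5) (nat_lit 18) (nat_lit 4) (nat_lit 398) (nat_lit 358) (nat_lit 264)) (XT.lf (nat_lit 0) (nat_lit 52630337432) (nat_lit 76) (nat_lit 4932143752) (nat_lit 152) (nat_lit 61751568265) (nat_lit 16) (nat_lit 5) (nat_lit 17) (nat_lit 5) (nat_lit 18) (nat_lit 4) (nat_lit 399) (nat_lit 358) (nat_lit 263)))) (XT.nd (nat_lit 156) (nat_lit 152) (nat_lit 0) (XT.nd (nat_lit 78) (nat_lit 76) (nat_lit 0) (XT.lf (nat_lit 0) (nat_lit 87050668036) (nat_lit 152) (nat_lit 14494275828) (nat_lit 0) (nat_lit 24918311013) (nat_lit 16) (nat_lit 5) (nat_lit 18) (nat_lit 4) (nat_lit 16) (nat_lit 4) (nat_lit 400) (nat_lit 358) (nat_lit 262)) (XT.lf (nat_lit 0) (nat_lit 43934528410) (nat_lit 76) (nat_lit 76145261914) (nat_lit 76) (nat_lit 14010056679) (nat_lit 15) (nat_lit 4) (nat_lit 16) (nat_lit 5) (nat_lit 16) (nat_lit 4) (nat_lit 401) (nat_lit 358) (nat_lit 261))) (XT.nd (nat_lit 78)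 (nat_lit 76) (nat_lit 0) (XT.lf (nat_lit 0) (nat_lit 13156869067) (nat_lit 152) (nat_lit 34771554807) (nat_lit 76) (nat_lit 94340014137) (nat_lit 14) (nat_lit 5) (nat_lit 16) (nat_lit 5) (nat_lit 15) (nat_lit 4) (nat_lit 402) (nat_lit 358) (nat_lit 260)) (XT.nd (nat_lit 78) (nat_lit 0) (nat_lit 0) (XT.lf (nat_lit 0) (nat_lit 25973229880) (nat_lit 76) (nat_lit 16389036576) (nat_lit 152) (nat_lit 108660176632) (nat_lit 13) (nat_lit 5) (nat_lit 14) (nat_lit 5) (nat_lit 15) (nat_lit 4) (nat_lit 403) (nat_lit 358) (nat_lit 259)) (XT.lf (nat_lit 0) (nat_lit 75301940186) (nat_lit 152) (nat_lit 67300454993) (nat_lit 0) (nat_lit 17762546342) (nat_lit 13) (nat_lit 5) (nat_lit 15) (nat_lit 4) (nat_lit 13) (nat_lit 4) (nat_lit 404) (nat_lit 358) (nat_lit 258)))))) (XT.nd (nat_lit 390) (nat_lit 152) (nat_lit 0) (XT.nd (nat_lit 156) (nat_lit 152) (nat_lit 0) (XT.nd (nat_lit 78) (nat_lit 76) (nat_lit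 0) (XT.lf (nat_lit 0) (nat_lit 111300057224) (nat_lit 152) (nat_lit 5362196597) (nat_lit 0) (nat_lit 53758724935) (nat_lit 13) (nat_lit 5) (nat_lit 15) (nat_lit 4) (nat_lit 13) (nat_lit 4) (nat_lit 405) (nat_lit 358) (nat_lit 257)) (XT.lf (nat_lit 0) (nat_lit 64766650394) (nat_lit 76) (nat_lit 86966772124) (nat_lit 76) (nat_lit 29423644979) (nat_lit 12) (nat_lit 4) (nat_lit 13) (nat_lit 5) (nat_lit 13) (nat_lit 4) (nat_lit 406) (nat_lit 358) (nat_lit 256))) (XT.nd (nat_lit 78) (nat_lit 76) (nat_lit 0) (XT.lf (nat_lit 0) (nat_lit 2665065533) (nat_lit 152) (nat_lit 52001452740) (nat_lit 76) (nat_lit 138068573070) (nat_lit 11) (nat_lit 5) (nat_lit 13) (nat_lit 5) (nat_lit 12) (nat_lit 4) (nat_lit 407) (nat_lit 358) (nat_lit 255)) (XT.nd (nat_lit 78) (nat_lit 0) (nat_lit 0) (XT.lf (nat_lit 0) (nat_lit 17653428107) (nat_lit 76) (nat_lit 18500300717) (nat_lit 152) (nat_lit 168990688818) (nat_lit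 10) (nat_lit 5) (nat_lit 11) (nat_lit 5) (nat_lit 12) (nat_lit 4) (nat_lit 408) (nat_lit 358) (nat_lit 254)) (XT.lf (nat_lit 0) (nat_lit 74272620335) (nat_lit 152) (nat_lit 123130115058) (nat_lit 0) (nat_lit 20987664165) (nat_lit 10) (nat_lit 5) (nat_lit 12) (nat_lit 4) (nat_lit 10) (nat_lit 4) (nat_lit 409) (nat_lit 358) (nat_lit 253))))) (XT.nd (nat_lit 156) (nat_lit 76) (nat_lit 0) (XT.nd (nat_lit 78) (nat_lit 76) (nat_lit 0) (XT.lf (nat_lit 0) (nat_lit 115919646298) (nat_lit 152) (nat_lit 54104655602) (nat_lit 0) (nat_lit 62633468579) (nat_lit 10) (nat_lit 5) (nat_lit 12) (nat_lit 4) (nat_lit 10) (nat_lit 4) (nat_lit 410) (nat_lit 358) (nat_lit 252)) (XT.lf (nat_lit 0) (nat_lit 21515661812) (nat_lit 76) (nat_lit 139898461599) (nat_lit 76) (nat_lit 86611152815) (nat_lit 9) (nat_lit 4) (nat_lit 10) (nat_lit 5) (nat_lit 10) (nat_lit 4) (nat_lit 411) (nat_lit 358) (nat_lit 251))) (XT.nd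 (nat_lit 78) (nat_lit 76) (nat_lit 0) (XT.lf (nat_lit 0) (nat_lit 106259193069) (nat_lit 76) (nat_lit 105766568719) (nat_lit 76) (nat_lit 52478212654) (nat_lit 9) (nat_lit 4) (nat_lit 10) (nat_lit 5) (nat_lit 10) (nat_lit 4) (nat_lit 412) (nat_lit 358) (nat_lit 250)) (XT.nd (nat_lit 78) (nat_lit 76) (nat_lit 0) (XT.lf (nat_lit 0) (nat_lit 197779066775) (nat_lit 76) (nat_lit 68905677359) (nat_lit 76) (nat_lit 15616351589) (nat_lit 9) (nat_lit 4) (nat_lit 10) (nat_lit 5) (nat_lit 10) (nat_lit 4) (nat_lit 413) (nat_lit 358) (nat_lit 249)) (XT.lf (nat_lit 0) (nat_lit 22982645646) (nat_lit 152) (nat_lit 5486320699) (nat_lit 76) (nat_lit 273006591015) (nat_lit 8) (nat_lit 5) (nat_lit 10) (nat_lit 5) (nat_lit 9) (nat_lit 4) (nat_lit 414) (nat_lit 358) (nat_lit 248))))))) (XT.nd (nat_lit 780) (nat_lit 76) (nat_lit 0) (XT.nd (nat_lit 390) (nat_lit 152) (nat_lit 0) (XT.nd (nat_lit 156) (nat_lit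 76) (nat_lit 0) (XT.nd (nat_lit 78) (nat_lit 0) (nat_lit 0) (XT.lf (nat_lit 0) (nat_lit 66264601660) (nat_lit 152) (nat_lit 238770794482) (nat_lit 0) (nat_lit 16921032206) (nat_lit 7) (nat_lit 5) (nat_lit 9) (nat_lit 4) (nat_lit 7) (nat_lit 4) (nat_lit 415) (nat_lit 358) (nat_lit 247)) (XT.lf (nat_lit 0) (nat_lit 113901079997) (nat_lit 152) (nat_lit 165546534146) (nat_lit 0) (nat_lit 64556797780) (nat_lit 7) (nat_lit 5) (nat_lit 9) (nat_lit 4) (nat_lit 7) (nat_lit 4) (nat_lit 416) (nat_lit 358) (nat_lit 246))) (XT.nd (nat_lit 78) (nat_lit 76) (nat_lit 0) (XT.lf (nat_lit 0) (nat_lit 165347189736) (nat_lit 152) (nat_lit 86466900005) (nat_lit 0) (nat_lit 116002247554) (nat_lit 7) (nat_lit 5) (nat_lit 9) (nat_lit 4) (nat_lit 7) (nat_lit 4) (nat_lit 417) (nat_lit 358) (nat_lit 245)) (XT.nd (nat_lit 78) (nat_lit 76) (nat_lit 0) (XT.lf (nat_lit 0) (nat_lit 220907796713) (nat_lit 152) (nat_lit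 1063272005) (nat_lit 0) (nat_lit 171562243453) (nat_lit 7) (nat_lit 5) (nat_lit 9) (nat_lit 4) (nat_lit 7) (nat_lit 4) (nat_lit 418) (nat_lit 358) (nat_lit 244)) (XT.lf (nat_lit 0) (nat_lit 95971319515) (nat_lit 76) (nat_lit 187248941997) (nat_lit 76) (nat_lit 137902822924) (nat_lit 6) (nat_lit 4) (nat_lit 7) (nat_lit 5) (nat_lit 7) (nat_lit 4) (nat_lit 419) (nat_lit 358) (nat_lit 243))))) (XT.nd (nat_lit 156) (nat_lit 152) (nat_lit 0) (XT.nd (nat_lit 78) (nat_lit 0) (nat_lit 0) (XT.lf (nat_lit 0) (nat_lit 200827002487) (nat_lit 76) (nat_lit 149718719605) (nat_lit 76) (nat_lit 100372076630) (nat_lit 6) (nat_lit 4) (nat_lit 7) (nat_lit 5) (nat_lit 7) (nat_lit 4) (nat_lit 420) (nat_lit 358) (nat_lit 242)) (XT.lf (nat_lit 0) (nat_lit 314069153902) (nat_lit 76) (nat_lit 109187071965) (nat_lit 76) (nat_lit 59839943896) (nat_lit 6) (nat_lit 4) (nat_lit 7) (nat_lit 5) (nat_lit 7) (nat_lit 4)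 (nat_lit 421) (nat_lit 358) (nat_lit 241))) (XT.nd (nat_lit 78) (nat_lit 152) (nat_lit 0) (XT.lf (nat_lit 0) (nat_lit 436368838361) (nat_lit 76) (nat_lit 65413811536) (nat_lit 76) (nat_lit 16066234306) (nat_lit 6) (nat_lit 4) (nat_lit 7) (nat_lit 5) (nat_lit 7) (nat_lit 4) (nat_lit 422) (nat_lit 358) (nat_lit 240)) (XT.nd (nat_lit 78) (nat_lit 0) (nat_lit 0) (XT.lf (nat_lit 0) (nat_lit 12967008969) (nat_lit 76) (nat_lit 16992126650) (nat_lit 152) (nat_lit 525337754760) (nat_lit 4) (nat_lit 5) (nat_lit 5) (nat_lit 5) (nat_lit 6) (nat_lit 4) (nat_lit 423) (nat_lit 358) (nat_lit 239)) (XT.lf (nat_lit 0) (nat_lit 81932389326) (nat_lit 152) (nat_lit 477284809031) (nat_lit 0) (nat_lit 36239446546) (nat_lit 4) (nat_lit 5) (nat_lit 6) (nat_lit 4) (nat_lit 4) (nat_lit 4) (nat_lit 424) (nat_lit 358) (nat_lit 238)))))) (XT.nd (nat_lit 390) (nat_lit 76) (nat_lit 0) (XT.nd (nat_lit 156) (nat_lit 0)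 (nat_lit 0) (XT.nd (nat_lit 78) (nat_lit 0) (nat_lit 0) (XT.lf (nat_lit 0) (nat_lit 138504050866) (nat_lit 152) (nat_lit 407479107263) (nat_lit 0) (nat_lit 92810777938) (nat_lit 4) (nat_lit 5) (nat_lit 6) (nat_lit 4) (nat_lit 4) (nat_lit 4) (nat_lit 425) (nat_lit 358) (nat_lit 237)) (XT.lf (nat_lit 0) (nat_lit 199600698659) (nat_lit 152) (nat_lit 332090451634) (nat_lit 0) (nat_lit 153907120040) (nat_lit 4) (nat_lit 5) (nat_lit 6) (nat_lit 4) (nat_lit 4) (nat_lit 4) (nat_lit 426) (nat_lit 358) (nat_lit 236))) (XT.nd (nat_lit 78) (nat_lit 0) (nat_lit 0) (XT.lf (nat_lit 0) (nat_lit 265584386915) (nat_lit 152) (nat_lit 250672094555) (nat_lit 0) (nat_lit 219890525249) (nat_lit 4) (nat_lit 5) (nat_lit 6) (nat_lit 4) (nat_lit 4) (nat_lit 4) (nat_lit 427) (nat_lit 358) (nat_lit 235)) (XT.nd (nat_lit 78) (nat_lit 0) (nat_lit 0) (XT.lf (nat_lit 0) (nat_lit 336846130084) (nat_lit 152) (nat_lit 162741556873)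 (nat_lit 0) (nat_lit 291152006336) (nat_lit 4) (nat_lit 5) (nat_lit 6) (nat_lit 4) (nat_lit 4) (nat_lit 4) (nat_lit 428) (nat_lit 358) (nat_lit 234)) (XT.lf (nat_lit 0) (nat_lit 413808219975) (nat_lit 152) (nat_lit 67777768735) (nat_lit 0) (nat_lit 368113853560) (nat_lit 4) (nat_lit 5) (nat_lit 6) (nat_lit 4) (nat_lit 4) (nat_lit 4) (nat_lit 429) (nat_lit 358) (nat_lit 233))))) (XT.nd (nat_lit 156) (nat_lit 0) (nat_lit 0) (XT.nd (nat_lit 78) (nat_lit 0) (nat_lit 0) (XT.lf (nat_lit 0) (nat_lit 36613577673) (nat_lit 76) (nat_lit 461193707984) (nat_lit 76) (nat_lit 415499116876) (nat_lit 3) (nat_lit 4) (nat_lit 4) (nat_lit 5) (nat_lit 4) (nat_lit 4) (nat_lit 430) (nat_lit 358) (nat_lit 232)) (XT.lf (nat_lit 0) (nat_lit 153209737292) (nat_lit 76) (nat_lit 437169169556) (nat_lit 76) (nat_lit 391474370400) (nat_lit 3) (nat_lit 4) (nat_lit 4) (nat_lit 5) (nat_lit 4) (nat_lit 4) (nat_lit 431)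 (nat_lit 358) (nat_lit 231))) (XT.nd (nat_lit 78) (nat_lit 0) (nat_lit 0) (XT.lf (nat_lit 0) (nat_lit 279132593139) (nat_lit 76) (nat_lit 411223170101) (nat_lit 76) (nat_lit 365528178307) (nat_lit 3) (nat_lit 4) (nat_lit 4) (nat_lit 5) (nat_lit 4) (nat_lit 4) (nat_lit 432) (nat_lit 358) (nat_lit 230)) (XT.nd (nat_lit 78) (nat_lit 0) (nat_lit 0) (XT.lf (nat_lit 0) (nat_lit 415128354728) (nat_lit 76) (nat_lit 383201955548) (nat_lit 76) (nat_lit 337506785387) (nat_lit 3) (nat_lit 4) (nat_lit 4) (nat_lit 5) (nat_lit 4) (nat_lit 4) (nat_lit 433) (nat_lit 358) (nat_lit 229)) (XT.lf (nat_lit 0) (nat_lit 562002922871) (nat_lit 76) (nat_lit 352939474256) (nat_lit 76) (nat_lit 307244138939) (nat_lit 3) (nat_lit 4) (nat_lit 4) (nat_lit 5) (nat_lit 4) (nat_lit 4) (nat_lit 434) (nat_lit 358) (nat_lit 228))))))))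
noncomputable def xc147 : XT := (XT.nd (nat_lit 1482) (nat_lit 0) (nat_lit 0) (XT.nd (nat_lit 702) (nat_lit 0) (nat_lit 0) (XT.nd (nat_lit 312) (nat_lit 152) (nat_lit 0) (XT.nd (nat_lit 156) (nat_lit 0) (nat_lit 0) (XT.nd (nat_lit 78) (nat_lit 0) (nat_lit 0) (XT.lf (nat_lit 0) (nat_lit 720626665376) (nat_lit 76) (nat_lit 320256393002) (nat_lit 76) (nat_lit 274560904763) (nat_lit 3) (nat_lit 4) (nat_lit 4) (nat_lit 5) (nat_lit 4) (nat_lit 4) (nat_lit 435) (nat_lit 358) (nat_lit 227)) (XT.lf (nat_lit 0) (nat_lit 891939574794) (nat_lit 76) (nat_lit 284959034268) (nat_lit 76) (nat_lit 239263404434) (nat_lit 3) (nat_lit 4) (nat_lit 4) (nat_lit 5) (nat_lit 4) (nat_lit 4) (nat_lit 436) (nat_lit 358) (nat_lit 226))) (XT.nd (nat_lit 78) (nat_lit 0) (nat_lit 0) (XT.lf (nat_lit 0) (nat_lit 1076956838735) (nat_lit 76) (nat_lit 246838228519) (nat_lit 76) (nat_lit 201142467580) (nat_lit 3) (nat_lit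 4) (nat_lit 4) (nat_lit 5) (nat_lit 4) (nat_lit 4) (nat_lit 437) (nat_lit 358) (nat_lit 225)) (XT.lf (nat_lit 0) (nat_lit 1276774855800) (nat_lit 76) (nat_lit 205668074686) (nat_lit 76) (nat_lit 159972192353) (nat_lit 3) (nat_lit 4) (nat_lit 4) (nat_lit 5) (nat_lit 4) (nat_lit 4) (nat_lit 438) (nat_lit 358) (nat_lit 224)))) (XT.nd (nat_lit 156) (nat_lit 152) (nat_lit 0) (XT.nd (nat_lit 78) (nat_lit 0) (nat_lit 0) (XT.lf (nat_lit 0) (nat_lit 1492577732757) (nat_lit 76) (nat_lit 161204601486) (nat_lit 76) (nat_lit 115508606751) (nat_lit 3) (nat_lit 4) (nat_lit 4) (nat_lit 5) (nat_lit 4) (nat_lit 4) (nat_lit 439) (nat_lit 358) (nat_lit 223)) (XT.lf (nat_lit 0) (nat_lit 1725644301470) (nat_lit 76) (nat_lit 113184321671) (nat_lit 76) (nat_lit 67488222859) (nat_lit 3) (nat_lit 4) (nat_lit 4) (nat_lit 5) (nat_lit 4) (nat_lit 4) (nat_lit 440) (nat_lit 358) (nat_lit 222))) (XT.nd (nat_lit 78) (nat_lit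 152) (nat_lit 0) (XT.lf (nat_lit 0) (nat_lit 1977355697161) (nat_lit 76) (nat_lit 61322670619) (nat_lit 76) (nat_lit 15626475441) (nat_lit 3) (nat_lit 4) (nat_lit 4) (nat_lit 5) (nat_lit 4) (nat_lit 4) (nat_lit 441) (nat_lit 358) (nat_lit 221)) (XT.nd (nat_lit 78) (nat_lit 0) (nat_lit 0) (XT.lf (nat_lit 0) (nat_lit 35896076143) (nat_lit 76) (nat_lit 3331020274) (nat_lit 152) (nat_lit 2174758039202) (nat_lit 1) (nat_lit 5) (nat_lit 2) (nat_lit 5) (nat_lit 3) (nat_lit 4) (nat_lit 442) (nat_lit 358) (nat_lit 220)) (XT.lf (nat_lit 0) (nat_lit 101209223103) (nat_lit 152) (nat_lit 2226013625204) (nat_lit 0) (nat_lit 58897772153) (nat_lit 1) (nat_lit 5) (nat_lit 3) (nat_lit 4) (nat_lit 1) (nat_lit 4) (nat_lit 443) (nat_lit 358) (nat_lit 219)))))) (XT.nd (nat_lit 390) (nat_lit 0) (nat_lit 0) (XT.nd (nat_lit 156) (nat_lit 0) (nat_lit 0) (XT.nd (nat_lit 78) (nat_lit 0) (nat_lit 0) (XT.lf (nat_lit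 0) (nat_lit 168236222959) (nat_lit 152) (nat_lit 2277859115728) (nat_lit 0) (nat_lit 125924701177) (nat_lit 1) (nat_lit 5) (nat_lit 3) (nat_lit 4) (nat_lit 1) (nat_lit 4) (nat_lit 444) (nat_lit 358) (nat_lit 218)) (XT.lf (nat_lit 0) (nat_lit 240625181903) (nat_lit 152) (nat_lit 2333852652467) (nat_lit 0) (nat_lit 198313594535) (nat_lit 1) (nat_lit 5) (nat_lit 3) (nat_lit 4) (nat_lit 1) (nat_lit 4) (nat_lit 445) (nat_lit 358) (nat_lit 217))) (XT.nd (nat_lit 78) (nat_lit 0) (nat_lit 0) (XT.lf (nat_lit 0) (nat_lit 318805071544) (nat_lit 152) (nat_lit 2394326048974) (nat_lit 0) (nat_lit 276493423449) (nat_lit 1) (nat_lit 5) (nat_lit 3) (nat_lit 4) (nat_lit 1) (nat_lit 4) (nat_lit 446) (nat_lit 358) (nat_lit 216)) (XT.nd (nat_lit 78) (nat_lit 0) (nat_lit 0) (XT.lf (nat_lit 0) (nat_lit 403239180118) (nat_lit 152) (nat_lit 2459637666116) (nat_lit 0) (nat_lit 360927475794) (nat_lit 1) (nat_lit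 5) (nat_lit 3) (nat_lit 4) (nat_lit 1) (nat_lit 4) (nat_lit 447) (nat_lit 358) (nat_lit 215)) (XT.lf (nat_lit 0) (nat_lit 494427857897) (nat_lit 152) (nat_lit 2530174535699) (nat_lit 0) (nat_lit 452116101509) (nat_lit 1) (nat_lit 5) (nat_lit 3) (nat_lit 4) (nat_lit 1) (nat_lit 4) (nat_lit 448) (nat_lit 358) (nat_lit 214))))) (XT.nd (nat_lit 156) (nat_lit 0) (nat_lit 0) (XT.nd (nat_lit 78) (nat_lit 0) (nat_lit 0) (XT.lf (nat_lit 0) (nat_lit 592911482231) (nat_lit 152) (nat_lit 2606354653986) (nat_lit 0) (nat_lit 550599677636) (nat_lit 1) (nat_lit 5) (nat_lit 3) (nat_lit 4) (nat_lit 1) (nat_lit 4) (nat_lit 449) (nat_lit 358) (nat_lit 213)) (XT.lf (nat_lit 0) (nat_lit 699273659783) (nat_lit 152) (nat_lit 2688629458716) (nat_lit 0) (nat_lit 656961810552) (nat_lit 1) (nat_lit 5) (nat_lit 3) (nat_lit 4) (nat_lit 1) (nat_lit 4) (nat_lit 450) (nat_lit 358) (nat_lit 212))) (XT.nd (nat_lit 78) (nat_lit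 0) (nat_lit 0) (XT.lf (nat_lit 0) (nat_lit 814144684938) (nat_lit 152) (nat_lit 2777486504287) (nat_lit 0) (nat_lit 771832794377) (nat_lit 1) (nat_lit 5) (nat_lit 3) (nat_lit 4) (nat_lit 1) (nat_lit 4) (nat_lit 451) (nat_lit 358) (nat_lit 211)) (XT.nd (nat_lit 78) (nat_lit 0) (nat_lit 0) (XT.lf (nat_lit 0) (nat_lit 938205274883) (nat_lit 152) (nat_lit 2873452350969) (nat_lit 0) (nat_lit 895893346053) (nat_lit 1) (nat_lit 5) (nat_lit 3) (nat_lit 4) (nat_lit 1) (nat_lit 4) (nat_lit 452) (nat_lit 358) (nat_lit 210)) (XT.lf (nat_lit 0) (nat_lit 1072190603483) (nat_lit 152) (nat_lit 2977095685261) (nat_lit 0) (nat_lit 1029878639219) (nat_lit 1) (nat_lit 5) (nat_lit 3) (nat_lit 4) (nat_lit 1) (nat_lit 4) (nat_lit 453) (nat_lit 358) (nat_lit 209))))))) (XT.nd (nat_lit 46176) (nat_lit 0) (nat_lit 3192) (XT.nd (nat_lit 45786) (nat_lit 0) (nat_lit 4560) (XT.nd (nat_lit 156) (nat_lit 0) (nat_lit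 0) (XT.nd (nat_lit 78) (nat_lit 0) (nat_lit 0) (XT.lf (nat_lit 0) (nat_lit 1216894657872) (nat_lit 152) (nat_lit 3089030689885) (nat_lit 0) (nat_lit 1174582660798) (nat_lit 1) (nat_lit 5) (nat_lit 3) (nat_lit 4) (nat_lit 1) (nat_lit 4) (nat_lit 454) (nat_lit 358) (nat_lit 208)) (XT.lf (nat_lit 0) (nat_lit 1373174943556) (nat_lit 152) (nat_lit 3209920683387) (nat_lit 0) (nat_lit 1330862916104) (nat_lit 1) (nat_lit 5) (nat_lit 3) (nat_lit 4) (nat_lit 1) (nat_lit 4) (nat_lit 455) (nat_lit 358) (nat_lit 207))) (XT.nd (nat_lit 78) (nat_lit 0) (nat_lit 0) (XT.lf (nat_lit 0) (nat_lit 1541957565932) (nat_lit 152) (nat_lit 3340482050913) (nat_lit 0) (nat_lit 1499645510351) (nat_lit 1) (nat_lit 5) (nat_lit 3) (nat_lit 4) (nat_lit 1) (nat_lit 4) (nat_lit 456) (nat_lit 358) (nat_lit 206)) (XT.nd (nat_lit 45474) (nat_lit 0) (nat_lit 4560) (XT.lf (nat_lit 0) (nat_lit 1724242718318) (nat_lit 152) (nat_lit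 3481488489455) (nat_lit 0) (nat_lit 1681930636693) (nat_lit 1) (nat_lit 5) (nat_lit 3) (nat_lit 4) (nat_lit 1) (nat_lit 4) (nat_lit 457) (nat_lit 358) (nat_lit 205)) (XT.lf (nat_lit 0) (nat_lit 6570141814) (nat_lit 532) (nat_lit 1140758424) (nat_lit 532) (nat_lit 1140758424) (nat_lit 61) (nat_lit 3) (nat_lit 68) (nat_lit 3) (nat_lit 68) (nat_lit 5) (nat_lit 359) (nat_lit 359) (nat_lit 302))))) (XT.nd (nat_lit 156) (nat_lit 0) (nat_lit 76) (XT.nd (nat_lit 78) (nat_lit 0) (nat_lit 76) (XT.lf (nat_lit 76) (nat_lit 6583260476) (nat_lit 0) (nat_lit 7438834159) (nat_lit 532) (nat_lit 4360617722) (nat_lit 62) (nat_lit 5) (nat_lit 61) (nat_lit 3) (nat_lit 68) (nat_lit 5) (nat_lit 360) (nat_lit 359) (nat_lit 301)) (XT.lf (nat_lit 0) (nat_lit 15047041159) (nat_lit 456) (nat_lit 2867669738) (nat_lit 532) (nat_lit 1195965021) (nat_lit 62) (nat_lit 5) (nat_lit 68) (nat_lit 5) (nat_lit 69) (nat_lit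 5) (nat_lit 361) (nat_lit 359) (nat_lit 300))) (XT.nd (nat_lit 78) (nat_lit 0) (nat_lit 0) (XT.lf (nat_lit 76) (nat_lit 6919440687) (nat_lit 0) (nat_lit 9575786731) (nat_lit 532) (nat_lit 3374372016) (nat_lit 63) (nat_lit 5) (nat_lit 62) (nat_lit 5) (nat_lit 69) (nat_lit 5) (nat_lit 362) (nat_lit 359) (nat_lit 299)) (XT.nd (nat_lit 78) (nat_lit 0) (nat_lit 76) (XT.lf (nat_lit 76) (nat_lit 17640777848) (nat_lit 0) (nat_lit 479590104) (nat_lit 532) (nat_lit 2564001659) (nat_lit 63) (nat_lit 5) (nat_lit 62) (nat_lit 5) (nat_lit 69) (nat_lit 5) (nat_lit 363) (nat_lit 359) (nat_lit 298)) (XT.lf (nat_lit 76) (nat_lit 7809033304) (nat_lit 0) (nat_lit 12463120823) (nat_lit 532) (nat_lit 1260455719) (nat_lit 64) (nat_lit 5) (nat_lit 63) (nat_lit 5) (nat_lit 70) (nat_lit 5) (nat_lit 364) (nat_lit 359) (nat_lit 297)))))) (XT.nd (nat_lit 390) (nat_lit 684) (nat_lit 0) (XT.nd (nat_lit 156) (nat_lit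 304) (nat_lit 0) (XT.nd (nat_lit 78) (nat_lit 0) (nat_lit 76) (XT.lf (nat_lit 0) (nat_lit 222414527) (nat_lit 532) (nat_lit 2770145828) (nat_lit 608) (nat_lit 19449288826) (nat_lit 56) (nat_lit 5) (nat_lit 63) (nat_lit 5) (nat_lit 64) (nat_lit 5) (nat_lit 365) (nat_lit 359) (nat_lit 296)) (XT.lf (nat_lit 0) (nat_lit 2150613771) (nat_lit 532) (nat_lit 14095368661) (nat_lit 76) (nat_lit 7143657600) (nat_lit 57) (nat_lit 5) (nat_lit 64) (nat_lit 5) (nat_lit 58) (nat_lit 5) (nat_lit 366) (nat_lit 359) (nat_lit 295))) (XT.nd (nat_lit 78) (nat_lit 380) (nat_lit 0) (XT.lf (nat_lit 0) (nat_lit 4375048432) (nat_lit 532) (nat_lit 2018281873) (nat_lit 76) (nat_lit 18008579598) (nat_lit 57) (nat_lit 5) (nat_lit 64) (nat_lit 5) (nat_lit 58) (nat_lit 5) (nat_lit 367) (nat_lit 359) (nat_lit 294)) (XT.nd (nat_lit 78) (nat_lit 0) (nat_lit 0) (XT.lf (nat_lit 0) (nat_lit 7153201583) (nat_lit 456) (nat_lit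 13990199333) (nat_lit 76) (nat_lit 4321712414) (nat_lit 52) (nat_lit 5) (nat_lit 58) (nat_lit 5) (nat_lit 53) (nat_lit 5) (nat_lit 368) (nat_lit 359) (nat_lit 293)) (XT.lf (nat_lit 0) (nat_lit 10364476400) (nat_lit 456) (nat_lit 626597217) (nat_lit 76) (nat_lit 15605441958) (nat_lit 52) (nat_lit 5) (nat_lit 58) (nat_lit 5) (nat_lit 53) (nat_lit 5) (nat_lit 369) (nat_lit 359) (nat_lit 292))))) (XT.nd (nat_lit 156) (nat_lit 228) (nat_lit 0) (XT.nd (nat_lit 78) (nat_lit 228) (nat_lit 0) (XT.lf (nat_lit 0) (nat_lit 14179365383) (nat_lit 304) (nat_lit 13278872736) (nat_lit 76) (nat_lit 332466106) (nat_lit 49) (nat_lit 5) (nat_lit 53) (nat_lit 5) (nat_lit 50) (nat_lit 5) (nat_lit 370) (nat_lit 359) (nat_lit 291)) (XT.lf (nat_lit 0) (nat_lit 1599924914) (nat_lit 228) (nat_lit 17030642891) (nat_lit 304) (nat_lit 10423380747) (nat_lit 46) (nat_lit 5) (nat_lit 49) (nat_lit 5) (nat_lit 50) (nat_lit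 5) (nat_lit 371) (nat_lit 359) (nat_lit 290))) (XT.nd (nat_lit 78) (nat_lit 228) (nat_lit 0) (XT.lf (nat_lit 0) (nat_lit 18412419198) (nat_lit 228) (nat_lit 5378587533) (nat_lit 304) (nat_lit 6599004071) (nat_lit 46) (nat_lit 5) (nat_lit 49) (nat_lit 5) (nat_lit 50) (nat_lit 5) (nat_lit 372) (nat_lit 359) (nat_lit 289)) (XT.nd (nat_lit 78) (nat_lit 76) (nat_lit 0) (XT.lf (nat_lit 0) (nat_lit 4791743740) (nat_lit 152) (nat_lit 24851840552) (nat_lit 228) (nat_lit 2167038351) (nat_lit 44) (nat_lit 5) (nat_lit 46) (nat_lit 5) (nat_lit 47) (nat_lit 5) (nat_lit 373) (nat_lit 359) (nat_lit 288)) (XT.lf (nat_lit 0) (nat_lit 2955086753) (nat_lit 228) (nat_lit 9957899198) (nat_lit 76) (nat_lit 20389534061) (nat_lit 43) (nat_lit 5) (nat_lit 46) (nat_lit 5) (nat_lit 44) (nat_lit 5) (nat_lit 374) (nat_lit 359) (nat_lit 287))))))))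
noncomputable def xc148 : XT := (XT.nd (nat_lit 1482) (nat_lit 912) (nat_lit 0) (XT.nd (nat_lit 702) (nat_lit 760) (nat_lit 0) (XT.nd (nat_lit 312) (nat_lit 532) (nat_lit 0) (XT.nd (nat_lit 156) (nat_lit 152) (nat_lit 0) (XT.nd (nat_lit 78) (nat_lit 0) (nat_lit 0) (XT.lf (nat_lit 0) (nat_lit 8580661809) (nat_lit 304) (nat_lit 26056291211) (nat_lit 76) (nat_lit 255459767) (nat_lit 40) (nat_lit 5) (nat_lit 44) (nat_lit 5) (nat_lit 41) (nat_lit 5) (nat_lit 375) (nat_lit 359) (nat_lit 286)) (XT.lf (nat_lit 0) (nat_lit 15262937294) (nat_lit 304) (nat_lit 7241453262) (nat_lit 76) (nat_lit 14056580609) (nat_lit 40) (nat_lit 5) (nat_lit 44) (nat_lit 5) (nat_lit 41) (nat_lit 5) (nat_lit 376) (nat_lit 359) (nat_lit 285))) (XT.nd (nat_lit 78) (nat_lit 0) (nat_lit 0) (XT.lf (nat_lit 0) (nat_lit 13756308662) (nat_lit 152) (nat_lit 9046838414) (nat_lit 228) (nat_lit 15534005009) (nat_lit 38) (nat_lit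 5) (nat_lit 40) (nat_lit 5) (nat_lit 41) (nat_lit 5) (nat_lit 377) (nat_lit 359) (nat_lit 284)) (XT.lf (nat_lit 0) (nat_lit 31274432545) (nat_lit 228) (nat_lit 3541635508) (nat_lit 76) (nat_lit 5413136316) (nat_lit 38) (nat_lit 5) (nat_lit 41) (nat_lit 5) (nat_lit 39) (nat_lit 5) (nat_lit 378) (nat_lit 359) (nat_lit 283)))) (XT.nd (nat_lit 156) (nat_lit 152) (nat_lit 0) (XT.nd (nat_lit 78) (nat_lit 228) (nat_lit 0) (XT.lf (nat_lit 0) (nat_lit 19932990182) (nat_lit 152) (nat_lit 21198091178) (nat_lit 228) (nat_lit 1084931821) (nat_lit 36) (nat_lit 5) (nat_lit 38) (nat_lit 5) (nat_lit 39) (nat_lit 5) (nat_lit 379) (nat_lit 359) (nat_lit 282)) (XT.lf (nat_lit 0) (nat_lit 991793392) (nat_lit 152) (nat_lit 6168384038) (nat_lit 228) (nat_lit 37178001404) (nat_lit 33) (nat_lit 5) (nat_lit 35) (nat_lit 5) (nat_lit 36) (nat_lit 5) (nat_lit 380) (nat_lit 359) (nat_lit 281))) (XT.nd (nat_lit 78)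 (nat_lit 152) (nat_lit 0) (XT.lf (nat_lit 0) (nat_lit 16866953873) (nat_lit 228) (nat_lit 19481711959) (nat_lit 76) (nat_lit 10210347783) (nat_lit 33) (nat_lit 5) (nat_lit 36) (nat_lit 5) (nat_lit 34) (nat_lit 5) (nat_lit 381) (nat_lit 359) (nat_lit 280)) (XT.nd (nat_lit 78) (nat_lit 0) (nat_lit 0) (XT.lf (nat_lit 0) (nat_lit 6444922427) (nat_lit 152) (nat_lit 21214603983) (nat_lit 228) (nat_lit 21273252266) (nat_lit 31) (nat_lit 5) (nat_lit 33) (nat_lit 5) (nat_lit 34) (nat_lit 5) (nat_lit 382) (nat_lit 359) (nat_lit 279)) (XT.lf (nat_lit 0) (nat_lit 35544471339) (nat_lit 152) (nat_lit 4297955154) (nat_lit 228) (nat_lit 11611868239) (nat_lit 31) (nat_lit 5) (nat_lit 33) (nat_lit 5) (nat_lit 34) (nat_lit 5) (nat_lit 383) (nat_lit 359) (nat_lit 278)))))) (XT.nd (nat_lit 390) (nat_lit 380) (nat_lit 0) (XT.nd (nat_lit 156) (nat_lit 228) (nat_lit 0) (XT.nd (nat_lit 78) (nat_lit 76) (nat_lit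 0) (XT.lf (nat_lit 0) (nat_lit 13105165343) (nat_lit 76) (nat_lit 40540606877) (nat_lit 152) (nat_lit 480098031) (nat_lit 30) (nat_lit 5) (nat_lit 31) (nat_lit 5) (nat_lit 32) (nat_lit 4) (nat_lit 384) (nat_lit 359) (nat_lit 277)) (XT.lf (nat_lit 0) (nat_lit 11517423295) (nat_lit 152) (nat_lit 12039630123) (nat_lit 76) (nat_lit 33387706133) (nat_lit 29) (nat_lit 5) (nat_lit 31) (nat_lit 5) (nat_lit 30) (nat_lit 5) (nat_lit 385) (nat_lit 359) (nat_lit 276))) (XT.nd (nat_lit 78) (nat_lit 76) (nat_lit 0) (XT.lf (nat_lit 0) (nat_lit 20252329895) (nat_lit 152) (nat_lit 4678604214) (nat_lit 228) (nat_lit 35018660830) (nat_lit 27) (nat_lit 5) (nat_lit 29) (nat_lit 5) (nat_lit 30) (nat_lit 5) (nat_lit 386) (nat_lit 359) (nat_lit 275)) (XT.nd (nat_lit 78) (nat_lit 76) (nat_lit 0) (XT.lf (nat_lit 0) (nat_lit 40128241046) (nat_lit 228) (nat_lit 7750841775) (nat_lit 76) (nat_lit 15258879520) (nat_lit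 27) (nat_lit 5) (nat_lit 30) (nat_lit 5) (nat_lit 28) (nat_lit 4) (nat_lit 387) (nat_lit 359) (nat_lit 274)) (XT.lf (nat_lit 0) (nat_lit 28023929248) (nat_lit 76) (nat_lit 29308412198) (nat_lit 152) (nat_lit 9185779202) (nat_lit 26) (nat_lit 5) (nat_lit 27) (nat_lit 5) (nat_lit 28) (nat_lit 4) (nat_lit 388) (nat_lit 359) (nat_lit 273))))) (XT.nd (nat_lit 156) (nat_lit 152) (nat_lit 0) (XT.nd (nat_lit 78) (nat_lit 152) (nat_lit 0) (XT.lf (nat_lit 0) (nat_lit 5669710052) (nat_lit 152) (nat_lit 3201663788) (nat_lit 76) (nat_lit 61269230161) (nat_lit 25) (nat_lit 5) (nat_lit 27) (nat_lit 5) (nat_lit 26) (nat_lit 5) (nat_lit 389) (nat_lit 359) (nat_lit 272)) (XT.lf (nat_lit 0) (nat_lit 22437324617) (nat_lit 228) (nat_lit 37816236756) (nat_lit 76) (nat_lit 13682642535) (nat_lit 23) (nat_lit 5) (nat_lit 26) (nat_lit 5) (nat_lit 24) (nat_lit 4) (nat_lit 390) (nat_lit 359) (nat_lit 271))) (XT.nd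 (nat_lit 78) (nat_lit 76) (nat_lit 0) (XT.lf (nat_lit 0) (nat_lit 527397734) (nat_lit 76) (nat_lit 40347814753) (nat_lit 152) (nat_lit 37133931824) (nat_lit 22) (nat_lit 5) (nat_lit 23) (nat_lit 5) (nat_lit 24) (nat_lit 4) (nat_lit 391) (nat_lit 359) (nat_lit 270)) (XT.nd (nat_lit 78) (nat_lit 76) (nat_lit 0) (XT.lf (nat_lit 0) (nat_lit 44082102204) (nat_lit 76) (nat_lit 17736064837) (nat_lit 152) (nat_lit 20507351570) (nat_lit 22) (nat_lit 5) (nat_lit 23) (nat_lit 5) (nat_lit 24) (nat_lit 4) (nat_lit 392) (nat_lit 359) (nat_lit 269)) (XT.lf (nat_lit 0) (nat_lit 4175318202) (nat_lit 76) (nat_lit 80518715442) (nat_lit 76) (nat_lit 2272572556) (nat_lit 21) (nat_lit 4) (nat_lit 22) (nat_lit 5) (nat_lit 22) (nat_lit 4) (nat_lit 393) (nat_lit 359) (nat_lit 268))))))) (XT.nd (nat_lit 702) (nat_lit 456) (nat_lit 0) (XT.nd (nat_lit 312) (nat_lit 228) (nat_lit 0) (XT.nd (nat_lit 156) (nat_lit 76)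 (nat_lit 0) (XT.nd (nat_lit 78) (nat_lit 76) (nat_lit 0) (XT.lf (nat_lit 0) (nat_lit 18079315011) (nat_lit 152) (nat_lit 40646439503) (nat_lit 76) (nat_lit 33097325897) (nat_lit 20) (nat_lit 5) (nat_lit 22) (nat_lit 5) (nat_lit 21) (nat_lit 4) (nat_lit 394) (nat_lit 359) (nat_lit 267)) (XT.lf (nat_lit 0) (nat_lit 5057691010) (nat_lit 76) (nat_lit 34997110465) (nat_lit 152) (nat_lit 56999091900) (nat_lit 19) (nat_lit 5) (nat_lit 20) (nat_lit 5) (nat_lit 21) (nat_lit 4) (nat_lit 395) (nat_lit 359) (nat_lit 266))) (XT.nd (nat_lit 78) (nat_lit 76) (nat_lit 0) (XT.lf (nat_lit 0) (nat_lit 56723625897) (nat_lit 76) (nat_lit 8172740309) (nat_lit 152) (nat_lit 37718163054) (nat_lit 19) (nat_lit 5) (nat_lit 20) (nat_lit 5) (nat_lit 21) (nat_lit 4) (nat_lit 396) (nat_lit 359) (nat_lit 265)) (XT.lf (nat_lit 0) (nat_lit 3575651349) (nat_lit 76) (nat_lit 88732657360) (nat_lit 76) (nat_lit 16265064054)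 (nat_lit 18) (nat_lit 4) (nat_lit 19) (nat_lit 5) (nat_lit 19) (nat_lit 4) (nat_lit 397) (nat_lit 359) (nat_lit 264)))) (XT.nd (nat_lit 156) (nat_lit 152) (nat_lit 0) (XT.nd (nat_lit 78) (nat_lit 0) (nat_lit 0) (XT.lf (nat_lit 0) (nat_lit 8055401330) (nat_lit 152) (nat_lit 55715946464) (nat_lit 76) (nat_lit 51104573024) (nat_lit 17) (nat_lit 5) (nat_lit 19) (nat_lit 5) (nat_lit 18) (nat_lit 4) (nat_lit 398) (nat_lit 359) (nat_lit 263)) (XT.lf (nat_lit 0) (nat_lit 33439888805) (nat_lit 152) (nat_lit 2919534669) (nat_lit 76) (nat_lit 85289682802) (nat_lit 17) (nat_lit 5) (nat_lit 19) (nat_lit 5) (nat_lit 18) (nat_lit 4) (nat_lit 399) (nat_lit 359) (nat_lit 262))) (XT.nd (nat_lit 78) (nat_lit 76) (nat_lit 0) (XT.lf (nat_lit 0) (nat_lit 56944132931) (nat_lit 76) (nat_lit 5277844177) (nat_lit 152) (nat_lit 66632822819) (nat_lit 16) (nat_lit 5) (nat_lit 17) (nat_lit 5) (nat_lit 18) (nat_lit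 4) (nat_lit 400) (nat_lit 359) (nat_lit 261)) (XT.nd (nat_lit 78) (nat_lit 76) (nat_lit 0) (XT.lf (nat_lit 0) (nat_lit 94066270349) (nat_lit 152) (nat_lit 15555145087) (nat_lit 0) (nat_lit 26954763252) (nat_lit 16) (nat_lit 5) (nat_lit 18) (nat_lit 4) (nat_lit 16) (nat_lit 4) (nat_lit 401) (nat_lit 359) (nat_lit 260)) (XT.lf (nat_lit 0) (nat_lit 47545465445) (nat_lit 76) (nat_lit 82190751546) (nat_lit 76) (nat_lit 15076802566) (nat_lit 15) (nat_lit 4) (nat_lit 16) (nat_lit 5) (nat_lit 16) (nat_lit 4) (nat_lit 402) (nat_lit 359) (nat_lit 259)))))) (XT.nd (nat_lit 390) (nat_lit 228) (nat_lit 0) (XT.nd (nat_lit 156) (nat_lit 76) (nat_lit 0) (XT.nd (nat_lit 78) (nat_lit 76) (nat_lit 0) (XT.lf (nat_lit 0) (nat_lit 14256968976) (nat_lit 152) (nat_lit 37461714509) (nat_lit 76) (nat_lit 101927415477) (nat_lit 14) (nat_lit 5) (nat_lit 16) (nat_lit 5) (nat_lit 15) (nat_lit 4) (nat_lit 403) (nat_lit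 359) (nat_lit 258)) (XT.lf (nat_lit 0) (nat_lit 28140334860) (nat_lit 76) (nat_lit 17657087429) (nat_lit 152) (nat_lit 117303112971) (nat_lit 13) (nat_lit 5) (nat_lit 14) (nat_lit 5) (nat_lit 15) (nat_lit 4) (nat_lit 404) (nat_lit 359) (nat_lit 257))) (XT.nd (nat_lit 78) (nat_lit 76) (nat_lit 0) (XT.lf (nat_lit 0) (nat_lit 81369808735) (nat_lit 152) (nat_lit 72599385855) (nat_lit 0) (nat_lit 19221436562) (nat_lit 13) (nat_lit 5) (nat_lit 15) (nat_lit 4) (nat_lit 13) (nat_lit 4) (nat_lit 405) (nat_lit 359) (nat_lit 256)) (XT.nd (nat_lit 78) (nat_lit 76) (nat_lit 0) (XT.lf (nat_lit 0) (nat_lit 120244537111) (nat_lit 152) (nat_lit 5712370901) (nat_lit 0) (nat_lit 58094503034) (nat_lit 13) (nat_lit 5) (nat_lit 15) (nat_lit 4) (nat_lit 13) (nat_lit 4) (nat_lit 406) (nat_lit 359) (nat_lit 255)) (XT.lf (nat_lit 0) (nat_lit 70024788876) (nat_lit 76) (nat_lit 93886631779) (nat_lit 76) (nat_lit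 31735058902) (nat_lit 12) (nat_lit 4) (nat_lit 13) (nat_lit 5) (nat_lit 13) (nat_lit 4) (nat_lit 407) (nat_lit 359) (nat_lit 254))))) (XT.nd (nat_lit 156) (nat_lit 76) (nat_lit 0) (XT.nd (nat_lit 78) (nat_lit 76) (nat_lit 0) (XT.lf (nat_lit 0) (nat_lit 2915634451) (nat_lit 152) (nat_lit 56088478032) (nat_lit 76) (nat_lit 149146790734) (nat_lit 11) (nat_lit 5) (nat_lit 13) (nat_lit 5) (nat_lit 12) (nat_lit 4) (nat_lit 408) (nat_lit 359) (nat_lit 253)) (XT.lf (nat_lit 0) (nat_lit 19136942879) (nat_lit 76) (nat_lit 19945393583) (nat_lit 152) (nat_lit 182470723975) (nat_lit 10) (nat_lit 5) (nat_lit 11) (nat_lit 5) (nat_lit 12) (nat_lit 4) (nat_lit 409) (nat_lit 359) (nat_lit 252))) (XT.nd (nat_lit 78) (nat_lit 76) (nat_lit 0) (XT.lf (nat_lit 0) (nat_lit 80248827581) (nat_lit 152) (nat_lit 132912643667) (nat_lit 0) (nat_lit 22697403031) (nat_lit 10) (nat_lit 5) (nat_lit 12) (nat_lit 4) (nat_lit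 10) (nat_lit 4) (nat_lit 410) (nat_lit 359) (nat_lit 251)) (XT.nd (nat_lit 78) (nat_lit 76) (nat_lit 0) (XT.lf (nat_lit 0) (nat_lit 125225067649) (nat_lit 152) (nat_lit 58370175647) (nat_lit 0) (nat_lit 67672595818) (nat_lit 10) (nat_lit 5) (nat_lit 12) (nat_lit 4) (nat_lit 10) (nat_lit 4) (nat_lit 411) (nat_lit 359) (nat_lit 250)) (XT.lf (nat_lit 0) (nat_lit 23298175960) (nat_lit 76) (nat_lit 151060041071) (nat_lit 76) (nat_lit 93506599534) (nat_lit 9) (nat_lit 4) (nat_lit 10) (nat_lit 5) (nat_lit 10) (nat_lit 4) (nat_lit 412) (nat_lit 359) (nat_lit 249))))))))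
noncomputable def xc149 : XT := (XT.nd (nat_lit 1482) (nat_lit 152) (nat_lit 0) (XT.nd (nat_lit 702) (nat_lit 228) (nat_lit 0) (XT.nd (nat_lit 312) (nat_lit 76) (nat_lit 0) (XT.nd (nat_lit 156) (nat_lit 152) (nat_lit 0) (XT.nd (nat_lit 78) (nat_lit 0) (nat_lit 0) (XT.lf (nat_lit 0) (nat_lit 114816651851) (nat_lit 76) (nat_lit 114199841017) (nat_lit 76) (nat_lit 56645501605) (nat_lit 9) (nat_lit 4) (nat_lit 10) (nat_lit 5) (nat_lit 10) (nat_lit 4) (nat_lit 413) (nat_lit 359) (nat_lit 248)) (XT.lf (nat_lit 0) (nat_lit 213653913725) (nat_lit 76) (nat_lit 74392156362) (nat_lit 76) (nat_lit 16836985585) (nat_lit 9) (nat_lit 4) (nat_lit 10) (nat_lit 5) (nat_lit 10) (nat_lit 4) (nat_lit 414) (nat_lit 359) (nat_lit 247))) (XT.nd (nat_lit 78) (nat_lit 76) (nat_lit 0) (XT.lf (nat_lit 0) (nat_lit 24846479275) (nat_lit 152) (nat_lit 5875263668) (nat_lit 76) (nat_lit 294869837824) (nat_lit 8) (nat_lit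 5) (nat_lit 10) (nat_lit 5) (nat_lit 9) (nat_lit 4) (nat_lit 415) (nat_lit 359) (nat_lit 246)) (XT.lf (nat_lit 0) (nat_lit 71590876018) (nat_lit 152) (nat_lit 257822376431) (nat_lit 0) (nat_lit 18297678498) (nat_lit 7) (nat_lit 5) (nat_lit 9) (nat_lit 4) (nat_lit 7) (nat_lit 4) (nat_lit 416) (nat_lit 359) (nat_lit 245)))) (XT.nd (nat_lit 156) (nat_lit 76) (nat_lit 0) (XT.nd (nat_lit 78) (nat_lit 0) (nat_lit 0) (XT.lf (nat_lit 0) (nat_lit 123036412901) (nat_lit 152) (nat_lit 178743885017) (nat_lit 0) (nat_lit 69742604302) (nat_lit 7) (nat_lit 5) (nat_lit 9) (nat_lit 4) (nat_lit 7) (nat_lit 4) (nat_lit 417) (nat_lit 359) (nat_lit 244)) (XT.lf (nat_lit 0) (nat_lit 178596489456) (nat_lit 152) (nat_lit 93341315097) (nat_lit 0) (nat_lit 125302115043) (nat_lit 7) (nat_lit 5) (nat_lit 9) (nat_lit 4) (nat_lit 7) (nat_lit 4) (nat_lit 418) (nat_lit 359) (nat_lit 243))) (XT.nd (nat_lit 78) (nat_lit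 76) (nat_lit 0) (XT.lf (nat_lit 0) (nat_lit 238600350581) (nat_lit 152) (nat_lit 1108577369) (nat_lit 0) (nat_lit 185305452267) (nat_lit 7) (nat_lit 5) (nat_lit 9) (nat_lit 4) (nat_lit 7) (nat_lit 4) (nat_lit 419) (nat_lit 359) (nat_lit 242)) (XT.nd (nat_lit 78) (nat_lit 0) (nat_lit 0) (XT.lf (nat_lit 0) (nat_lit 103687774981) (nat_lit 76) (nat_lit 202209493213) (nat_lit 76) (nat_lit 148914109805) (nat_lit 6) (nat_lit 4) (nat_lit 7) (nat_lit 5) (nat_lit 7) (nat_lit 4) (nat_lit 420) (nat_lit 359) (nat_lit 241)) (XT.lf (nat_lit 0) (nat_lit 216929042228) (nat_lit 76) (nat_lit 161678287410) (nat_lit 76) (nat_lit 108382454841) (nat_lit 6) (nat_lit 4) (nat_lit 7) (nat_lit 5) (nat_lit 7) (nat_lit 4) (nat_lit 421) (nat_lit 359) (nat_lit 240)))))) (XT.nd (nat_lit 390) (nat_lit 76) (nat_lit 0) (XT.nd (nat_lit 156) (nat_lit 152) (nat_lit 0) (XT.nd (nat_lit 78) (nat_lit 0) (nat_lit 0) (XT.lf (nat_lit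 0) (nat_lit 339227908013) (nat_lit 76) (nat_lit 117905436090) (nat_lit 76) (nat_lit 64609187631) (nat_lit 6) (nat_lit 4) (nat_lit 7) (nat_lit 5) (nat_lit 7) (nat_lit 4) (nat_lit 422) (nat_lit 359) (nat_lit 239)) (XT.lf (nat_lit 0) (nat_lit 471309106354) (nat_lit 76) (nat_lit 70631544577) (nat_lit 76) (nat_lit 17334911034) (nat_lit 6) (nat_lit 4) (nat_lit 7) (nat_lit 5) (nat_lit 7) (nat_lit 4) (nat_lit 423) (nat_lit 359) (nat_lit 238))) (XT.nd (nat_lit 78) (nat_lit 0) (nat_lit 0) (XT.lf (nat_lit 0) (nat_lit 14035163972) (nat_lit 76) (nat_lit 18336063947) (nat_lit 152) (nat_lit 567348183188) (nat_lit 4) (nat_lit 5) (nat_lit 5) (nat_lit 5) (nat_lit 6) (nat_lit 4) (nat_lit 424) (nat_lit 359) (nat_lit 237)) (XT.nd (nat_lit 78) (nat_lit 0) (nat_lit 0) (XT.lf (nat_lit 0) (nat_lit 88501547705) (nat_lit 152) (nat_lit 515438284838) (nat_lit 0) (nat_lit 39152177105) (nat_lit 4) (nat_lit 5) (nat_lit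 6) (nat_lit 4) (nat_lit 4) (nat_lit 4) (nat_lit 425) (nat_lit 359) (nat_lit 236)) (XT.lf (nat_lit 0) (nat_lit 149597863113) (nat_lit 152) (nat_lit 440050297959) (nat_lit 0) (nat_lit 100248209466) (nat_lit 4) (nat_lit 5) (nat_lit 6) (nat_lit 4) (nat_lit 4) (nat_lit 4) (nat_lit 426) (nat_lit 359) (nat_lit 235))))) (XT.nd (nat_lit 156) (nat_lit 76) (nat_lit 0) (XT.nd (nat_lit 78) (nat_lit 0) (nat_lit 0) (XT.lf (nat_lit 0) (nat_lit 215581243606) (nat_lit 152) (nat_lit 358632560094) (nat_lit 0) (nat_lit 166231327877) (nat_lit 4) (nat_lit 5) (nat_lit 6) (nat_lit 4) (nat_lit 4) (nat_lit 4) (nat_lit 427) (nat_lit 359) (nat_lit 234)) (XT.lf (nat_lit 0) (nat_lit 286842701807) (nat_lit 152) (nat_lit 270702595757) (nat_lit 0) (nat_lit 237492543411) (nat_lit 4) (nat_lit 5) (nat_lit 6) (nat_lit 4) (nat_lit 4) (nat_lit 4) (nat_lit 428) (nat_lit 359) (nat_lit 233))) (XT.nd (nat_lit 78) (nat_lit 76) (nat_lit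 0) (XT.lf (nat_lit 0) (nat_lit 363804527841) (nat_lit 152) (nat_lit 175739338495) (nat_lit 0) (nat_lit 314454144752) (nat_lit 4) (nat_lit 5) (nat_lit 6) (nat_lit 4) (nat_lit 4) (nat_lit 4) (nat_lit 429) (nat_lit 359) (nat_lit 232)) (XT.nd (nat_lit 78) (nat_lit 76) (nat_lit 0) (XT.lf (nat_lit 0) (nat_lit 446922791787) (nat_lit 152) (nat_lit 73180043079) (nat_lit 0) (nat_lit 397572200650) (nat_lit 4) (nat_lit 5) (nat_lit 6) (nat_lit 4) (nat_lit 4) (nat_lit 4) (nat_lit 430) (nat_lit 359) (nat_lit 231)) (XT.lf (nat_lit 0) (nat_lit 39562106050) (nat_lit 76) (nat_lit 498079409871) (nat_lit 76) (nat_lit 448728626096) (nat_lit 3) (nat_lit 4) (nat_lit 4) (nat_lit 5) (nat_lit 4) (nat_lit 4) (nat_lit 431) (nat_lit 359) (nat_lit 230))))))) (XT.nd (nat_lit 780) (nat_lit 152) (nat_lit 0) (XT.nd (nat_lit 390) (nat_lit 0) (nat_lit 0) (XT.nd (nat_lit 156) (nat_lit 0) (nat_lit 0) (XT.nd (nat_lit 78) (nat_lit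 0) (nat_lit 0) (XT.lf (nat_lit 0) (nat_lit 165484518279) (nat_lit 76) (nat_lit 472133633906) (nat_lit 76) (nat_lit 422782671763) (nat_lit 3) (nat_lit 4) (nat_lit 4) (nat_lit 5) (nat_lit 4) (nat_lit 4) (nat_lit 432) (nat_lit 359) (nat_lit 229)) (XT.lf (nat_lit 0) (nat_lit 301479869112) (nat_lit 76) (nat_lit 444112626288) (nat_lit 76) (nat_lit 394761498990) (nat_lit 3) (nat_lit 4) (nat_lit 4) (nat_lit 5) (nat_lit 4) (nat_lit 4) (nat_lit 433) (nat_lit 359) (nat_lit 228))) (XT.nd (nat_lit 78) (nat_lit 0) (nat_lit 0) (XT.lf (nat_lit 0) (nat_lit 448354056923) (nat_lit 76) (nat_lit 413850336602) (nat_lit 76) (nat_lit 364499056382) (nat_lit 3) (nat_lit 4) (nat_lit 4) (nat_lit 5) (nat_lit 4) (nat_lit 4) (nat_lit 434) (nat_lit 359) (nat_lit 227)) (XT.nd (nat_lit 78) (nat_lit 0) (nat_lit 0) (XT.lf (nat_lit 0) (nat_lit 606977447271) (nat_lit 76) (nat_lit 381167432761) (nat_lit 76) (nat_lit 331816010947)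 (nat_lit 3) (nat_lit 4) (nat_lit 4) (nat_lit 5) (nat_lit 4) (nat_lit 4) (nat_lit 435) (nat_lit 359) (nat_lit 226)) (XT.lf (nat_lit 0) (nat_lit 778290030617) (nat_lit 76) (nat_lit 345870238299) (nat_lit 76) (nat_lit 296518685378) (nat_lit 3) (nat_lit 4) (nat_lit 4) (nat_lit 5) (nat_lit 4) (nat_lit 4) (nat_lit 436) (nat_lit 359) (nat_lit 225))))) (XT.nd (nat_lit 156) (nat_lit 0) (nat_lit 0) (XT.nd (nat_lit 78) (nat_lit 0) (nat_lit 0) (XT.lf (nat_lit 0) (nat_lit 963306992639) (nat_lit 76) (nat_lit 307749584654) (nat_lit 76) (nat_lit 258397910339) (nat_lit 3) (nat_lit 4) (nat_lit 4) (nat_lit 5) (nat_lit 4) (nat_lit 4) (nat_lit 437) (nat_lit 359) (nat_lit 224)) (XT.lf (nat_lit 0) (nat_lit 1163124730150) (nat_lit 76) (nat_lit 266579571657) (nat_lit 76) (nat_lit 217227784941) (nat_lit 3) (nat_lit 4) (nat_lit 4) (nat_lit 5) (nat_lit 4) (nat_lit 4) (nat_lit 438) (nat_lit 359) (nat_lit 223))) (XT.nd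 (nat_lit 78) (nat_lit 0) (nat_lit 0) (XT.lf (nat_lit 0) (nat_lit 1378927348260) (nat_lit 76) (nat_lit 222116228861) (nat_lit 76) (nat_lit 172764338069) (nat_lit 3) (nat_lit 4) (nat_lit 4) (nat_lit 5) (nat_lit 4) (nat_lit 4) (nat_lit 439) (nat_lit 359) (nat_lit 222)) (XT.nd (nat_lit 78) (nat_lit 0) (nat_lit 0) (XT.lf (nat_lit 0) (nat_lit 1611993677300) (nat_lit 76) (nat_lit 174096069791) (nat_lit 76) (nat_lit 124744082631) (nat_lit 3) (nat_lit 4) (nat_lit 4) (nat_lit 5) (nat_lit 4) (nat_lit 4) (nat_lit 440) (nat_lit 359) (nat_lit 221)) (XT.lf (nat_lit 0) (nat_lit 1863704851072) (nat_lit 76) (nat_lit 122234530539) (nat_lit 76) (nat_lit 72882454152) (nat_lit 3) (nat_lit 4) (nat_lit 4) (nat_lit 5) (nat_lit 4) (nat_lit 4) (nat_lit 441) (nat_lit 359) (nat_lit 220)))))) (XT.nd (nat_lit 390) (nat_lit 0) (nat_lit 0) (XT.nd (nat_lit 156) (nat_lit 0) (nat_lit 0) (XT.nd (nat_lit 78) (nat_lit 152)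 (nat_lit 0) (XT.lf (nat_lit 0) (nat_lit 2135552491345) (nat_lit 76) (nat_lit 66224283467) (nat_lit 76) (nat_lit 16872124461) (nat_lit 3) (nat_lit 4) (nat_lit 4) (nat_lit 5) (nat_lit 4) (nat_lit 4) (nat_lit 442) (nat_lit 359) (nat_lit 219)) (XT.lf (nat_lit 0) (nat_lit 38776107803) (nat_lit 76) (nat_lit 3593288018) (nat_lit 152) (nat_lit 2348734219773) (nat_lit 1) (nat_lit 5) (nat_lit 2) (nat_lit 5) (nat_lit 3) (nat_lit 4) (nat_lit 443) (nat_lit 359) (nat_lit 218))) (XT.nd (nat_lit 78) (nat_lit 0) (nat_lit 0) (XT.lf (nat_lit 0) (nat_lit 109309880427) (nat_lit 152) (nat_lit 2404086775313) (nat_lit 0) (nat_lit 63613300484) (nat_lit 1) (nat_lit 5) (nat_lit 3) (nat_lit 4) (nat_lit 1) (nat_lit 4) (nat_lit 444) (nat_lit 359) (nat_lit 217)) (XT.nd (nat_lit 78) (nat_lit 0) (nat_lit 0) (XT.lf (nat_lit 0) (nat_lit 181698749939) (nat_lit 152) (nat_lit 2460080493220) (nat_lit 0) (nat_lit 136002109270)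 (nat_lit 1) (nat_lit 5) (nat_lit 3) (nat_lit 4) (nat_lit 1) (nat_lit 4) (nat_lit 445) (nat_lit 359) (nat_lit 216)) (XT.lf (nat_lit 0) (nat_lit 259878556774) (nat_lit 152) (nat_lit 2520554057474) (nat_lit 0) (nat_lit 214181859875) (nat_lit 1) (nat_lit 5) (nat_lit 3) (nat_lit 4) (nat_lit 1) (nat_lit 4) (nat_lit 446) (nat_lit 359) (nat_lit 215))))) (XT.nd (nat_lit 156) (nat_lit 0) (nat_lit 0) (XT.nd (nat_lit 78) (nat_lit 0) (nat_lit 0) (XT.lf (nat_lit 0) (nat_lit 344312588674) (nat_lit 152) (nat_lit 2585865829937) (nat_lit 0) (nat_lit 298615839711) (nat_lit 1) (nat_lit 5) (nat_lit 3) (nat_lit 4) (nat_lit 1) (nat_lit 4) (nat_lit 447) (nat_lit 359) (nat_lit 214)) (XT.lf (nat_lit 0) (nat_lit 435501195459) (nat_lit 152) (nat_lit 2656402843336) (nat_lit 0) (nat_lit 389804398289) (nat_lit 1) (nat_lit 5) (nat_lit 3) (nat_lit 4) (nat_lit 1) (nat_lit 4) (nat_lit 448) (nat_lit 359) (nat_lit 213)))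 (XT.nd (nat_lit 78) (nat_lit 0) (nat_lit 0) (XT.lf (nat_lit 0) (nat_lit 533984754058) (nat_lit 152) (nat_lit 2732583094787) (nat_lit 0) (nat_lit 488287912252) (nat_lit 1) (nat_lit 5) (nat_lit 3) (nat_lit 4) (nat_lit 1) (nat_lit 4) (nat_lit 449) (nat_lit 359) (nat_lit 212)) (XT.nd (nat_lit 78) (nat_lit 0) (nat_lit 0) (XT.lf (nat_lit 0) (nat_lit 640346870744) (nat_lit 152) (nat_lit 2814858022816) (nat_lit 0) (nat_lit 594649987608) (nat_lit 1) (nat_lit 5) (nat_lit 3) (nat_lit 4) (nat_lit 1) (nat_lit 4) (nat_lit 450) (nat_lit 359) (nat_lit 211)) (XT.lf (nat_lit 0) (nat_lit 755217839542) (nat_lit 152) (nat_lit 2903715182553) (nat_lit 0) (nat_lit 709520918137) (nat_lit 1) (nat_lit 5) (nat_lit 3) (nat_lit 4) (nat_lit 1) (nat_lit 4) (nat_lit 451) (nat_lit 359) (nat_lit 210))))))))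
noncomputable def xc150 : XT := (XT.nd (nat_lit 46956) (nat_lit 0) (nat_lit 1596) (XT.nd (nat_lit 46176) (nat_lit 0) (nat_lit 3420) (XT.nd (nat_lit 312) (nat_lit 0) (nat_lit 0) (XT.nd (nat_lit 156) (nat_lit 0) (nat_lit 0) (XT.nd (nat_lit 78) (nat_lit 0) (nat_lit 0) (XT.lf (nat_lit 0) (nat_lit 879278377304) (nat_lit 152) (nat_lit 2999681134945) (nat_lit 0) (nat_lit 833581420465) (nat_lit 1) (nat_lit 5) (nat_lit 3) (nat_lit 4) (nat_lit 1) (nat_lit 4) (nat_lit 452) (nat_lit 359) (nat_lit 209)) (XT.lf (nat_lit 0) (nat_lit 1013263657587) (nat_lit 152) (nat_lit 3103324567116) (nat_lit 0) (nat_lit 967566667939) (nat_lit 1) (nat_lit 5) (nat_lit 3) (nat_lit 4) (nat_lit 1) (nat_lit 4) (nat_lit 453) (nat_lit 359) (nat_lit 208))) (XT.nd (nat_lit 78) (nat_lit 0) (nat_lit 0) (XT.lf (nat_lit 0) (nat_lit 1157967667238) (nat_lit 152) (nat_lit 3215259662369) (nat_lit 0) (nat_lit 1112270647211) (nat_lit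 1) (nat_lit 5) (nat_lit 3) (nat_lit 4) (nat_lit 1) (nat_lit 4) (nat_lit 454) (nat_lit 359) (nat_lit 207)) (XT.lf (nat_lit 0) (nat_lit 1314247911497) (nat_lit 152) (nat_lit 3336149739786) (nat_lit 0) (nat_lit 1268550863342) (nat_lit 1) (nat_lit 5) (nat_lit 3) (nat_lit 4) (nat_lit 1) (nat_lit 4) (nat_lit 455) (nat_lit 359) (nat_lit 206)))) (XT.nd (nat_lit 45630) (nat_lit 0) (nat_lit 4560) (XT.nd (nat_lit 78) (nat_lit 0) (nat_lit 0) (XT.lf (nat_lit 0) (nat_lit 1483030495518) (nat_lit 152) (nat_lit 3466711185011) (nat_lit 0) (nat_lit 1437333421317) (nat_lit 1) (nat_lit 5) (nat_lit 3) (nat_lit 4) (nat_lit 1) (nat_lit 4) (nat_lit 456) (nat_lit 359) (nat_lit 205)) (XT.lf (nat_lit 0) (nat_lit 1665315612390) (nat_lit 152) (nat_lit 3607717695498) (nat_lit 0) (nat_lit 1619618514074) (nat_lit 1) (nat_lit 5) (nat_lit 3) (nat_lit 4) (nat_lit 1) (nat_lit 4) (nat_lit 457) (nat_lit 359) (nat_lit 204)))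 (XT.nd (nat_lit 78) (nat_lit 0) (nat_lit 0) (XT.lf (nat_lit 0) (nat_lit 7288866419) (nat_lit 532) (nat_lit 1127619999) (nat_lit 532) (nat_lit 1127619999) (nat_lit 61) (nat_lit 3) (nat_lit 68) (nat_lit 3) (nat_lit 68) (nat_lit 5) (nat_lit 360) (nat_lit 360) (nat_lit 300)) (XT.nd (nat_lit 78) (nat_lit 0) (nat_lit 76) (XT.lf (nat_lit 76) (nat_lit 7313433481) (nat_lit 0) (nat_lit 8192940344) (nat_lit 532) (nat_lit 4317517779) (nat_lit 62) (nat_lit 5) (nat_lit 61) (nat_lit 3) (nat_lit 68) (nat_lit 5) (nat_lit 361) (nat_lit 360) (nat_lit 299)) (XT.lf (nat_lit 0) (nat_lit 16582922674) (nat_lit 456) (nat_lit 2877848272) (nat_lit 532) (nat_lit 1151785134) (nat_lit 62) (nat_lit 5) (nat_lit 68) (nat_lit 5) (nat_lit 69) (nat_lit 5) (nat_lit 362) (nat_lit 360) (nat_lit 298)))))) (XT.nd (nat_lit 390) (nat_lit 760) (nat_lit 0) (XT.nd (nat_lit 156) (nat_lit 456) (nat_lit 0) (XT.nd (nat_lit 78) (nat_lit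 0) (nat_lit 0) (XT.lf (nat_lit 76) (nat_lit 7686680732) (nat_lit 0) (nat_lit 10440820875) (nat_lit 532) (nat_lit 3306278807) (nat_lit 63) (nat_lit 5) (nat_lit 62) (nat_lit 5) (nat_lit 69) (nat_lit 5) (nat_lit 363) (nat_lit 360) (nat_lit 297)) (XT.lf (nat_lit 76) (nat_lit 19249896363) (nat_lit 0) (nat_lit 609597318) (nat_lit 532) (nat_lit 2456119042) (nat_lit 63) (nat_lit 5) (nat_lit 62) (nat_lit 5) (nat_lit 69) (nat_lit 5) (nat_lit 364) (nat_lit 360) (nat_lit 296))) (XT.nd (nat_lit 78) (nat_lit 532) (nat_lit 0) (XT.lf (nat_lit 76) (nat_lit 8651662742) (nat_lit 0) (nat_lit 13513515813) (nat_lit 532) (nat_lit 1068018843) (nat_lit 64) (nat_lit 5) (nat_lit 63) (nat_lit 5) (nat_lit 70) (nat_lit 5) (nat_lit 365) (nat_lit 360) (nat_lit 295)) (XT.nd (nat_lit 78) (nat_lit 0) (nat_lit 76) (XT.lf (nat_lit 0) (nat_lit 498173072) (nat_lit 532) (nat_lit 2776132699) (nat_lit 608) (nat_lit 20941978849)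 (nat_lit 56) (nat_lit 5) (nat_lit 63) (nat_lit 5) (nat_lit 64) (nat_lit 5) (nat_lit 366) (nat_lit 360) (nat_lit 294)) (XT.lf (nat_lit 0) (nat_lit 2565762627) (nat_lit 532) (nat_lit 14992252855) (nat_lit 76) (nat_lit 7683092897) (nat_lit 57) (nat_lit 5) (nat_lit 64) (nat_lit 5) (nat_lit 58) (nat_lit 5) (nat_lit 367) (nat_lit 360) (nat_lit 293))))) (XT.nd (nat_lit 156) (nat_lit 456) (nat_lit 0) (XT.nd (nat_lit 78) (nat_lit 380) (nat_lit 0) (XT.lf (nat_lit 0) (nat_lit 4950144671) (nat_lit 532) (nat_lit 1966091369) (nat_lit 76) (nat_lit 19419583271) (nat_lit 57) (nat_lit 5) (nat_lit 64) (nat_lit 5) (nat_lit 58) (nat_lit 5) (nat_lit 368) (nat_lit 360) (nat_lit 292)) (XT.lf (nat_lit 0) (nat_lit 7938760191) (nat_lit 456) (nat_lit 14883753827) (nat_lit 76) (nat_lit 4662525666) (nat_lit 52) (nat_lit 5) (nat_lit 58) (nat_lit 5) (nat_lit 53) (nat_lit 5) (nat_lit 369) (nat_lit 360) (nat_lit 291)))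 (XT.nd (nat_lit 78) (nat_lit 456) (nat_lit 0) (XT.lf (nat_lit 0) (nat_lit 11391136809) (nat_lit 456) (nat_lit 467779206) (nat_lit 76) (nat_lit 16849318295) (nat_lit 52) (nat_lit 5) (nat_lit 58) (nat_lit 5) (nat_lit 53) (nat_lit 5) (nat_lit 370) (nat_lit 360) (nat_lit 290)) (XT.nd (nat_lit 78) (nat_lit 228) (nat_lit 0) (XT.lf (nat_lit 0) (nat_lit 15501867092) (nat_lit 304) (nat_lit 14122699607) (nat_lit 76) (nat_lit 374154325) (nat_lit 49) (nat_lit 5) (nat_lit 53) (nat_lit 5) (nat_lit 50) (nat_lit 5) (nat_lit 371) (nat_lit 360) (nat_lit 289)) (XT.lf (nat_lit 0) (nat_lit 1940870641) (nat_lit 228) (nat_lit 18359479340) (nat_lit 304) (nat_lit 11063394051) (nat_lit 46) (nat_lit 5) (nat_lit 49) (nat_lit 5) (nat_lit 50) (nat_lit 5) (nat_lit 372) (nat_lit 360) (nat_lit 288))))))) (XT.nd (nat_lit 780) (nat_lit 836) (nat_lit 0) (XT.nd (nat_lit 390) (nat_lit 532) (nat_lit 0) (XT.nd (nat_lit 156)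 (nat_lit 304) (nat_lit 0) (XT.nd (nat_lit 78) (nat_lit 152) (nat_lit 0) (XT.lf (nat_lit 0) (nat_lit 20082590266) (nat_lit 228) (nat_lit 5777749553) (nat_lit 304) (nat_lit 6947427030) (nat_lit 46) (nat_lit 5) (nat_lit 49) (nat_lit 5) (nat_lit 50) (nat_lit 5) (nat_lit 373) (nat_lit 360) (nat_lit 287)) (XT.lf (nat_lit 0) (nat_lit 5379643772) (nat_lit 152) (nat_lit 26794792417) (nat_lit 228) (nat_lit 2168138337) (nat_lit 44) (nat_lit 5) (nat_lit 46) (nat_lit 5) (nat_lit 47) (nat_lit 5) (nat_lit 374) (nat_lit 360) (nat_lit 286))) (XT.nd (nat_lit 78) (nat_lit 228) (nat_lit 0) (XT.lf (nat_lit 0) (nat_lit 3343017569) (nat_lit 228) (nat_lit 10557016753) (nat_lit 76) (nat_lit 22054437879) (nat_lit 43) (nat_lit 5) (nat_lit 46) (nat_lit 5) (nat_lit 44) (nat_lit 5) (nat_lit 375) (nat_lit 360) (nat_lit 285)) (XT.nd (nat_lit 78) (nat_lit 0) (nat_lit 0) (XT.lf (nat_lit 0) (nat_lit 9413189006) (nat_lit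 304) (nat_lit 27937712448) (nat_lit 76) (nat_lit 321100360) (nat_lit 40) (nat_lit 5) (nat_lit 44) (nat_lit 5) (nat_lit 41) (nat_lit 5) (nat_lit 376) (nat_lit 360) (nat_lit 284)) (XT.lf (nat_lit 0) (nat_lit 16619226214) (nat_lit 304) (nat_lit 7632730579) (nat_lit 76) (nat_lit 15222962439) (nat_lit 40) (nat_lit 5) (nat_lit 44) (nat_lit 5) (nat_lit 41) (nat_lit 5) (nat_lit 377) (nat_lit 360) (nat_lit 283))))) (XT.nd (nat_lit 156) (nat_lit 380) (nat_lit 0) (XT.nd (nat_lit 78) (nat_lit 0) (nat_lit 0) (XT.lf (nat_lit 0) (nat_lit 15040091820) (nat_lit 152) (nat_lit 9716950000) (nat_lit 228) (nat_lit 16636609779) (nat_lit 38) (nat_lit 5) (nat_lit 40) (nat_lit 5) (nat_lit 41) (nat_lit 5) (nat_lit 378) (nat_lit 360) (nat_lit 282)) (XT.lf (nat_lit 0) (nat_lit 33897621327) (nat_lit 228) (nat_lit 3646761550) (nat_lit 76) (nat_lit 5893365390) (nat_lit 38) (nat_lit 5) (nat_lit 41) (nat_lit 5) (nat_lit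 39) (nat_lit 5) (nat_lit 379) (nat_lit 360) (nat_lit 281))) (XT.nd (nat_lit 78) (nat_lit 228) (nat_lit 0) (XT.lf (nat_lit 0) (nat_lit 21701322681) (nat_lit 152) (nat_lit 22836676384) (nat_lit 228) (nat_lit 1045893900) (nat_lit 36) (nat_lit 5) (nat_lit 38) (nat_lit 5) (nat_lit 39) (nat_lit 5) (nat_lit 380) (nat_lit 360) (nat_lit 280)) (XT.nd (nat_lit 78) (nat_lit 0) (nat_lit 0) (XT.lf (nat_lit 0) (nat_lit 1246646454) (nat_lit 152) (nat_lit 6601249344) (nat_lit 228) (nat_lit 40028070612) (nat_lit 33) (nat_lit 5) (nat_lit 35) (nat_lit 5) (nat_lit 36) (nat_lit 5) (nat_lit 381) (nat_lit 360) (nat_lit 279)) (XT.lf (nat_lit 0) (nat_lit 18324052531) (nat_lit 228) (nat_lit 20870509325) (nat_lit 76) (nat_lit 11080484577) (nat_lit 33) (nat_lit 5) (nat_lit 36) (nat_lit 5) (nat_lit 34) (nat_lit 5) (nat_lit 382) (nat_lit 360) (nat_lit 278)))))) (XT.nd (nat_lit 390) (nat_lit 380) (nat_lit 0) (XT.nd (nat_lit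 156) (nat_lit 304) (nat_lit 0) (XT.nd (nat_lit 78) (nat_lit 0) (nat_lit 0) (XT.lf (nat_lit 0) (nat_lit 7125958607) (nat_lit 152) (nat_lit 22850070242) (nat_lit 228) (nat_lit 22863009112) (nat_lit 31) (nat_lit 5) (nat_lit 33) (nat_lit 5) (nat_lit 34) (nat_lit 5) (nat_lit 383) (nat_lit 360) (nat_lit 277)) (XT.lf (nat_lit 0) (nat_lit 38541216441) (nat_lit 152) (nat_lit 4584660030) (nat_lit 228) (nat_lit 12437018313) (nat_lit 31) (nat_lit 5) (nat_lit 33) (nat_lit 5) (nat_lit 34) (nat_lit 5) (nat_lit 384) (nat_lit 360) (nat_lit 276))) (XT.nd (nat_lit 78) (nat_lit 228) (nat_lit 0) (XT.lf (nat_lit 0) (nat_lit 14309096062) (nat_lit 76) (nat_lit 43722290981) (nat_lit 152) (nat_lit 416981902) (nat_lit 30) (nat_lit 5) (nat_lit 31) (nat_lit 5) (nat_lit 32) (nat_lit 4) (nat_lit 385) (nat_lit 360) (nat_lit 275)) (XT.nd (nat_lit 78) (nat_lit 152) (nat_lit 0) (XT.lf (nat_lit 0) (nat_lit 12528118392) (nat_lit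 152) (nat_lit 12854053529) (nat_lit 76) (nat_lit 36110977414) (nat_lit 29) (nat_lit 5) (nat_lit 31) (nat_lit 5) (nat_lit 30) (nat_lit 5) (nat_lit 386) (nat_lit 360) (nat_lit 274)) (XT.lf (nat_lit 0) (nat_lit 22017497543) (nat_lit 152) (nat_lit 4994084424) (nat_lit 228) (nat_lit 37727043308) (nat_lit 27) (nat_lit 5) (nat_lit 29) (nat_lit 5) (nat_lit 30) (nat_lit 5) (nat_lit 387) (nat_lit 360) (nat_lit 273))))) (XT.nd (nat_lit 156) (nat_lit 304) (nat_lit 0) (XT.nd (nat_lit 78) (nat_lit 76) (nat_lit 0) (XT.lf (nat_lit 0) (nat_lit 43419599835) (nat_lit 228) (nat_lit 8231553396) (nat_lit 76) (nat_lit 16531317944) (nat_lit 27) (nat_lit 5) (nat_lit 30) (nat_lit 5) (nat_lit 28) (nat_lit 4) (nat_lit 388) (nat_lit 360) (nat_lit 272)) (XT.lf (nat_lit 0) (nat_lit 30401671316) (nat_lit 76) (nat_lit 31595616241) (nat_lit 152) (nat_lit 9835976824) (nat_lit 26) (nat_lit 5) (nat_lit 27) (nat_lit 5) (nat_lit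 28) (nat_lit 4) (nat_lit 389) (nat_lit 360) (nat_lit 271))) (XT.nd (nat_lit 78) (nat_lit 228) (nat_lit 0) (XT.lf (nat_lit 0) (nat_lit 6197758563) (nat_lit 152) (nat_lit 3328077021) (nat_lit 76) (nat_lit 66220027094) (nat_lit 25) (nat_lit 5) (nat_lit 27) (nat_lit 5) (nat_lit 26) (nat_lit 5) (nat_lit 390) (nat_lit 360) (nat_lit 270)) (XT.nd (nat_lit 78) (nat_lit 76) (nat_lit 0) (XT.lf (nat_lit 0) (nat_lit 24305615932) (nat_lit 228) (nat_lit 40710619923) (nat_lit 76) (nat_lit 14828970395) (nat_lit 23) (nat_lit 5) (nat_lit 26) (nat_lit 5) (nat_lit 24) (nat_lit 4) (nat_lit 391) (nat_lit 360) (nat_lit 269)) (XT.lf (nat_lit 0) (nat_lit 697191004) (nat_lit 76) (nat_lit 43518982621) (nat_lit 152) (nat_lit 40027999346) (nat_lit 22) (nat_lit 5) (nat_lit 23) (nat_lit 5) (nat_lit 24) (nat_lit 4) (nat_lit 392) (nat_lit 360) (nat_lit 268))))))))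
noncomputable def xc151 : XT := (XT.nd (nat_lit 1482) (nat_lit 456) (nat_lit 0) (XT.nd (nat_lit 702) (nat_lit 456) (nat_lit 0) (XT.nd (nat_lit 312) (nat_lit 228) (nat_lit 0) (XT.nd (nat_lit 156) (nat_lit 152) (nat_lit 0) (XT.nd (nat_lit 78) (nat_lit 76) (nat_lit 0) (XT.lf (nat_lit 0) (nat_lit 47726819871) (nat_lit 76) (nat_lit 19102489549) (nat_lit 152) (nat_lit 22076970229) (nat_lit 22) (nat_lit 5) (nat_lit 23) (nat_lit 5) (nat_lit 24) (nat_lit 4) (nat_lit 393) (nat_lit 360) (nat_lit 267)) (XT.lf (nat_lit 0) (nat_lit 4628419057) (nat_lit 76) (nat_lit 86905992427) (nat_lit 76) (nat_lit 2384311348) (nat_lit 21) (nat_lit 4) (nat_lit 22) (nat_lit 5) (nat_lit 22) (nat_lit 4) (nat_lit 394) (nat_lit 360) (nat_lit 266))) (XT.nd (nat_lit 78) (nat_lit 76) (nat_lit 0) (XT.lf (nat_lit 0) (nat_lit 19587291671) (nat_lit 152) (nat_lit 43784634154) (nat_lit 76) (nat_lit 35792050394) (nat_lit 20) (nat_lit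 5) (nat_lit 22) (nat_lit 5) (nat_lit 21) (nat_lit 4) (nat_lit 395) (nat_lit 360) (nat_lit 265)) (XT.lf (nat_lit 0) (nat_lit 5572952863) (nat_lit 76) (nat_lit 37745959950) (nat_lit 152) (nat_lit 61494495238) (nat_lit 19) (nat_lit 5) (nat_lit 20) (nat_lit 5) (nat_lit 21) (nat_lit 4) (nat_lit 396) (nat_lit 360) (nat_lit 264)))) (XT.nd (nat_lit 156) (nat_lit 152) (nat_lit 0) (XT.nd (nat_lit 78) (nat_lit 76) (nat_lit 0) (XT.lf (nat_lit 0) (nat_lit 61363966499) (nat_lit 76) (nat_lit 8779411985) (nat_lit 152) (nat_lit 40675871641) (nat_lit 19) (nat_lit 5) (nat_lit 20) (nat_lit 5) (nat_lit 21) (nat_lit 4) (nat_lit 397) (nat_lit 360) (nat_lit 263)) (XT.lf (nat_lit 0) (nat_lit 3964784143) (nat_lit 76) (nat_lit 95782924727) (nat_lit 76) (nat_lit 17507138916) (nat_lit 18) (nat_lit 4) (nat_lit 19) (nat_lit 5) (nat_lit 19) (nat_lit 4) (nat_lit 398) (nat_lit 360) (nat_lit 262))) (XT.nd (nat_lit 78) (nat_lit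 76) (nat_lit 0) (XT.lf (nat_lit 0) (nat_lit 8751844850) (nat_lit 152) (nat_lit 60075024589) (nat_lit 76) (nat_lit 55234950447) (nat_lit 17) (nat_lit 5) (nat_lit 19) (nat_lit 5) (nat_lit 18) (nat_lit 4) (nat_lit 399) (nat_lit 360) (nat_lit 261)) (XT.nd (nat_lit 78) (nat_lit 76) (nat_lit 0) (XT.lf (nat_lit 0) (nat_lit 36163238626) (nat_lit 152) (nat_lit 3062173746) (nat_lit 76) (nat_lit 92151757039) (nat_lit 17) (nat_lit 5) (nat_lit 19) (nat_lit 5) (nat_lit 18) (nat_lit 4) (nat_lit 400) (nat_lit 360) (nat_lit 260)) (XT.lf (nat_lit 0) (nat_lit 61588285397) (nat_lit 76) (nat_lit 5658172641) (nat_lit 152) (nat_lit 71912976330) (nat_lit 16) (nat_lit 5) (nat_lit 17) (nat_lit 5) (nat_lit 18) (nat_lit 4) (nat_lit 401) (nat_lit 360) (nat_lit 259)))))) (XT.nd (nat_lit 390) (nat_lit 228) (nat_lit 0) (XT.nd (nat_lit 156) (nat_lit 152) (nat_lit 0) (XT.nd (nat_lit 78) (nat_lit 76) (nat_lit 0) (XT.lf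 (nat_lit 0) (nat_lit 101635766825) (nat_lit 152) (nat_lit 16714960665) (nat_lit 0) (nat_lit 29147999042) (nat_lit 16) (nat_lit 5) (nat_lit 18) (nat_lit 4) (nat_lit 16) (nat_lit 4) (nat_lit 402) (nat_lit 360) (nat_lit 258)) (XT.lf (nat_lit 0) (nat_lit 51431557037) (nat_lit 76) (nat_lit 88726461497) (nat_lit 76) (nat_lit 16236600194) (nat_lit 15) (nat_lit 4) (nat_lit 16) (nat_lit 5) (nat_lit 16) (nat_lit 4) (nat_lit 403) (nat_lit 360) (nat_lit 257))) (XT.nd (nat_lit 78) (nat_lit 76) (nat_lit 0) (XT.lf (nat_lit 0) (nat_lit 15438293285) (nat_lit 152) (nat_lit 40380149713) (nat_lit 76) (nat_lit 110116073916) (nat_lit 14) (nat_lit 5) (nat_lit 16) (nat_lit 5) (nat_lit 15) (nat_lit 4) (nat_lit 404) (nat_lit 360) (nat_lit 256)) (XT.nd (nat_lit 78) (nat_lit 0) (nat_lit 0) (XT.lf (nat_lit 0) (nat_lit 30468076215) (nat_lit 76) (nat_lit 19032727063) (nat_lit 152) (nat_lit 126644599842) (nat_lit 13)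 (nat_lit 5) (nat_lit 14) (nat_lit 5) (nat_lit 15) (nat_lit 4) (nat_lit 405) (nat_lit 360) (nat_lit 255)) (XT.lf (nat_lit 0) (nat_lit 87916870573) (nat_lit 152) (nat_lit 78334372443) (nat_lit 0) (nat_lit 20791633065) (nat_lit 13) (nat_lit 5) (nat_lit 15) (nat_lit 4) (nat_lit 13) (nat_lit 4) (nat_lit 406) (nat_lit 360) (nat_lit 254))))) (XT.nd (nat_lit 156) (nat_lit 152) (nat_lit 0) (XT.nd (nat_lit 78) (nat_lit 76) (nat_lit 0) (XT.lf (nat_lit 0) (nat_lit 129898801134) (nat_lit 152) (nat_lit 6101801055) (nat_lit 0) (nat_lit 62772138812) (nat_lit 13) (nat_lit 5) (nat_lit 15) (nat_lit 4) (nat_lit 13) (nat_lit 4) (nat_lit 407) (nat_lit 360) (nat_lit 253)) (XT.lf (nat_lit 0) (nat_lit 75692621137) (nat_lit 76) (nat_lit 101365427449) (nat_lit 76) (nat_lit 34237445854) (nat_lit 12) (nat_lit 4) (nat_lit 13) (nat_lit 5) (nat_lit 13) (nat_lit 4) (nat_lit 408) (nat_lit 360) (nat_lit 252))) (XT.nd (nat_lit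 78) (nat_lit 76) (nat_lit 0) (XT.lf (nat_lit 0) (nat_lit 3180918537) (nat_lit 152) (nat_lit 60512892585) (nat_lit 76) (nat_lit 161106596251) (nat_lit 11) (nat_lit 5) (nat_lit 13) (nat_lit 5) (nat_lit 12) (nat_lit 4) (nat_lit 409) (nat_lit 360) (nat_lit 251)) (XT.nd (nat_lit 78) (nat_lit 0) (nat_lit 0) (XT.lf (nat_lit 0) (nat_lit 20728975576) (nat_lit 76) (nat_lit 21511077204) (nat_lit 152) (nat_lit 197034757109) (nat_lit 10) (nat_lit 5) (nat_lit 11) (nat_lit 5) (nat_lit 12) (nat_lit 4) (nat_lit 410) (nat_lit 360) (nat_lit 250)) (XT.lf (nat_lit 0) (nat_lit 86698224202) (nat_lit 152) (nat_lit 143487458491) (nat_lit 0) (nat_lit 24539537638) (nat_lit 10) (nat_lit 5) (nat_lit 12) (nat_lit 4) (nat_lit 10) (nat_lit 4) (nat_lit 411) (nat_lit 360) (nat_lit 249))))))) (XT.nd (nat_lit 780) (nat_lit 152) (nat_lit 0) (XT.nd (nat_lit 390) (nat_lit 152) (nat_lit 0) (XT.nd (nat_lit 156) (nat_lit 76) (nat_lit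 0) (XT.nd (nat_lit 78) (nat_lit 76) (nat_lit 0) (XT.lf (nat_lit 0) (nat_lit 135270379000) (nat_lit 152) (nat_lit 62985903893) (nat_lit 0) (nat_lit 73110794561) (nat_lit 10) (nat_lit 5) (nat_lit 12) (nat_lit 4) (nat_lit 10) (nat_lit 4) (nat_lit 412) (nat_lit 360) (nat_lit 248)) (XT.lf (nat_lit 0) (nat_lit 25214551645) (nat_lit 76) (nat_lit 163118869171) (nat_lit 76) (nat_lit 100958453366) (nat_lit 9) (nat_lit 4) (nat_lit 10) (nat_lit 5) (nat_lit 10) (nat_lit 4) (nat_lit 413) (nat_lit 360) (nat_lit 247))) (XT.nd (nat_lit 78) (nat_lit 76) (nat_lit 0) (XT.lf (nat_lit 0) (nat_lit 124050615118) (nat_lit 76) (nat_lit 123311777201) (nat_lit 76) (nat_lit 61150591612) (nat_lit 9) (nat_lit 4) (nat_lit 10) (nat_lit 5) (nat_lit 10) (nat_lit 4) (nat_lit 414) (nat_lit 360) (nat_lit 246)) (XT.nd (nat_lit 78) (nat_lit 76) (nat_lit 0) (XT.lf (nat_lit 0) (nat_lit 230791255636) (nat_lit 76) (nat_lit 80321259337)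 (nat_lit 76) (nat_lit 18159360987) (nat_lit 9) (nat_lit 4) (nat_lit 10) (nat_lit 5) (nat_lit 10) (nat_lit 4) (nat_lit 415) (nat_lit 360) (nat_lit 245)) (XT.lf (nat_lit 0) (nat_lit 26855821396) (nat_lit 152) (nat_lit 6302449810) (nat_lit 76) (nat_lit 318478903184) (nat_lit 8) (nat_lit 5) (nat_lit 10) (nat_lit 5) (nat_lit 9) (nat_lit 4) (nat_lit 416) (nat_lit 360) (nat_lit 244))))) (XT.nd (nat_lit 156) (nat_lit 76) (nat_lit 0) (XT.nd (nat_lit 78) (nat_lit 0) (nat_lit 0) (XT.lf (nat_lit 0) (nat_lit 77339670642) (nat_lit 152) (nat_lit 278405229637) (nat_lit 0) (nat_lit 19781180462) (nat_lit 7) (nat_lit 5) (nat_lit 9) (nat_lit 4) (nat_lit 7) (nat_lit 4) (nat_lit 417) (nat_lit 360) (nat_lit 243)) (XT.lf (nat_lit 0) (nat_lit 132899256065) (nat_lit 152) (nat_lit 193003639422) (nat_lit 0) (nat_lit 75340241984) (nat_lit 7) (nat_lit 5) (nat_lit 9) (nat_lit 4) (nat_lit 7) (nat_lit 4) (nat_lit 418)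 (nat_lit 360) (nat_lit 242))) (XT.nd (nat_lit 78) (nat_lit 76) (nat_lit 0) (XT.lf (nat_lit 0) (nat_lit 192902662438) (nat_lit 152) (nat_lit 100771808827) (nat_lit 0) (nat_lit 135343163263) (nat_lit 7) (nat_lit 5) (nat_lit 9) (nat_lit 4) (nat_lit 7) (nat_lit 4) (nat_lit 419) (nat_lit 360) (nat_lit 241)) (XT.nd (nat_lit 78) (nat_lit 76) (nat_lit 0) (XT.lf (nat_lit 0) (nat_lit 257705465503) (nat_lit 152) (nat_lit 1163178857) (nat_lit 0) (nat_lit 200145517167) (nat_lit 7) (nat_lit 5) (nat_lit 9) (nat_lit 4) (nat_lit 7) (nat_lit 4) (nat_lit 420) (nat_lit 360) (nat_lit 240)) (XT.lf (nat_lit 0) (nat_lit 112016018778) (nat_lit 76) (nat_lit 218369651038) (nat_lit 76) (nat_lit 160809286812) (nat_lit 6) (nat_lit 4) (nat_lit 7) (nat_lit 5) (nat_lit 7) (nat_lit 4) (nat_lit 421) (nat_lit 360) (nat_lit 239)))))) (XT.nd (nat_lit 390) (nat_lit 0) (nat_lit 0) (XT.nd (nat_lit 156) (nat_lit 152) (nat_lit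 0) (XT.nd (nat_lit 78) (nat_lit 0) (nat_lit 0) (XT.lf (nat_lit 0) (nat_lit 234314126530) (nat_lit 76) (nat_lit 174597178522) (nat_lit 76) (nat_lit 117036429213) (nat_lit 6) (nat_lit 4) (nat_lit 7) (nat_lit 5) (nat_lit 7) (nat_lit 4) (nat_lit 422) (nat_lit 360) (nat_lit 238)) (XT.lf (nat_lit 0) (nat_lit 366394622991) (nat_lit 76) (nat_lit 127323637753) (nat_lit 76) (nat_lit 69762531886) (nat_lit 6) (nat_lit 4) (nat_lit 7) (nat_lit 5) (nat_lit 7) (nat_lit 4) (nat_lit 423) (nat_lit 360) (nat_lit 237))) (XT.nd (nat_lit 78) (nat_lit 152) (nat_lit 0) (XT.lf (nat_lit 0) (nat_lit 509040207397) (nat_lit 76) (nat_lit 76268889232) (nat_lit 76) (nat_lit 18707453218) (nat_lit 6) (nat_lit 4) (nat_lit 7) (nat_lit 5) (nat_lit 7) (nat_lit 4) (nat_lit 424) (nat_lit 360) (nat_lit 236)) (XT.nd (nat_lit 78) (nat_lit 0) (nat_lit 0) (XT.lf (nat_lit 0) (nat_lit 15184378227) (nat_lit 76) (nat_lit 19789717894)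 (nat_lit 152) (nat_lit 612721812917) (nat_lit 4) (nat_lit 5) (nat_lit 5) (nat_lit 5) (nat_lit 6) (nat_lit 4) (nat_lit 425) (nat_lit 360) (nat_lit 235)) (XT.lf (nat_lit 0) (nat_lit 95594160575) (nat_lit 152) (nat_lit 556648219955) (nat_lit 0) (nat_lit 42295989507) (nat_lit 4) (nat_lit 5) (nat_lit 6) (nat_lit 4) (nat_lit 4) (nat_lit 4) (nat_lit 426) (nat_lit 360) (nat_lit 234))))) (XT.nd (nat_lit 156) (nat_lit 0) (nat_lit 0) (XT.nd (nat_lit 78) (nat_lit 0) (nat_lit 0) (XT.lf (nat_lit 0) (nat_lit 161577256101) (nat_lit 152) (nat_lit 475231055434) (nat_lit 0) (nat_lit 108278842365) (nat_lit 4) (nat_lit 5) (nat_lit 6) (nat_lit 4) (nat_lit 4) (nat_lit 4) (nat_lit 427) (nat_lit 360) (nat_lit 233)) (XT.lf (nat_lit 0) (nat_lit 232838450445) (nat_lit 152) (nat_lit 387301621974) (nat_lit 0) (nat_lit 179539812017) (nat_lit 4) (nat_lit 5) (nat_lit 6) (nat_lit 4) (nat_lit 4) (nat_lit 4) (nat_lit 428)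 (nat_lit 360) (nat_lit 232))) (XT.nd (nat_lit 78) (nat_lit 0) (nat_lit 0) (XT.lf (nat_lit 0) (nat_lit 309800032166) (nat_lit 152) (nat_lit 292338856263) (nat_lit 0) (nat_lit 256501185689) (nat_lit 4) (nat_lit 5) (nat_lit 6) (nat_lit 4) (nat_lit 4) (nat_lit 4) (nat_lit 429) (nat_lit 360) (nat_lit 231)) (XT.nd (nat_lit 78) (nat_lit 0) (nat_lit 0) (XT.lf (nat_lit 0) (nat_lit 392918069896) (nat_lit 152) (nat_lit 189780015987) (nat_lit 0) (nat_lit 339619030782) (nat_lit 4) (nat_lit 5) (nat_lit 6) (nat_lit 4) (nat_lit 4) (nat_lit 4) (nat_lit 430) (nat_lit 360) (nat_lit 230)) (XT.lf (nat_lit 0) (nat_lit 482685114970) (nat_lit 152) (nat_lit 79017345055) (nat_lit 0) (nat_lit 429385897488) (nat_lit 4) (nat_lit 5) (nat_lit 6) (nat_lit 4) (nat_lit 4) (nat_lit 4) (nat_lit 431) (nat_lit 360) (nat_lit 229))))))))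
noncomputable def xc152 : XT := (XT.nd (nat_lit 1482) (nat_lit 0) (nat_lit 0) (XT.nd (nat_lit 702) (nat_lit 152) (nat_lit 0) (XT.nd (nat_lit 312) (nat_lit 0) (nat_lit 0) (XT.nd (nat_lit 156) (nat_lit 0) (nat_lit 0) (XT.nd (nat_lit 78) (nat_lit 0) (nat_lit 0) (XT.lf (nat_lit 0) (nat_lit 42743743056) (nat_lit 76) (nat_lit 537917365239) (nat_lit 76) (nat_lit 484617982602) (nat_lit 3) (nat_lit 4) (nat_lit 4) (nat_lit 5) (nat_lit 4) (nat_lit 4) (nat_lit 432) (nat_lit 360) (nat_lit 228)) (XT.lf (nat_lit 0) (nat_lit 178738713558) (nat_lit 76) (nat_lit 509896549228) (nat_lit 76) (nat_lit 456597013669) (nat_lit 3) (nat_lit 4) (nat_lit 4) (nat_lit 5) (nat_lit 4) (nat_lit 4) (nat_lit 433) (nat_lit 360) (nat_lit 227))) (XT.nd (nat_lit 78) (nat_lit 0) (nat_lit 0) (XT.lf (nat_lit 0) (nat_lit 325612549212) (nat_lit 76) (nat_lit 479634436956) (nat_lit 76) (nat_lit 426334759802) (nat_lit 3) (nat_lit 4)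 (nat_lit 4) (nat_lit 5) (nat_lit 4) (nat_lit 4) (nat_lit 434) (nat_lit 360) (nat_lit 226)) (XT.lf (nat_lit 0) (nat_lit 484235613487) (nat_lit 76) (nat_lit 446951697387) (nat_lit 76) (nat_lit 393651889127) (nat_lit 3) (nat_lit 4) (nat_lit 4) (nat_lit 5) (nat_lit 4) (nat_lit 4) (nat_lit 435) (nat_lit 360) (nat_lit 225)))) (XT.nd (nat_lit 156) (nat_lit 0) (nat_lit 0) (XT.nd (nat_lit 78) (nat_lit 0) (nat_lit 0) (XT.lf (nat_lit 0) (nat_lit 655547894914) (nat_lit 76) (nat_lit 411654655027) (nat_lit 76) (nat_lit 358354725373) (nat_lit 3) (nat_lit 4) (nat_lit 4) (nat_lit 5) (nat_lit 4) (nat_lit 4) (nat_lit 436) (nat_lit 360) (nat_lit 224)) (XT.lf (nat_lit 0) (nat_lit 840564577382) (nat_lit 76) (nat_lit 373534142219) (nat_lit 76) (nat_lit 320234100163) (nat_lit 3) (nat_lit 4) (nat_lit 4) (nat_lit 5) (nat_lit 4) (nat_lit 4) (nat_lit 437) (nat_lit 360) (nat_lit 223))) (XT.nd (nat_lit 78) (nat_lit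 0) (nat_lit 0) (XT.lf (nat_lit 0) (nat_lit 1040382056046) (nat_lit 76) (nat_lit 332364259626) (nat_lit 76) (nat_lit 279064113494) (nat_lit 3) (nat_lit 4) (nat_lit 4) (nat_lit 5) (nat_lit 4) (nat_lit 4) (nat_lit 438) (nat_lit 360) (nat_lit 222)) (XT.nd (nat_lit 78) (nat_lit 0) (nat_lit 0) (XT.lf (nat_lit 0) (nat_lit 1256184434484) (nat_lit 76) (nat_lit 287901037575) (nat_lit 76) (nat_lit 234600795076) (nat_lit 3) (nat_lit 4) (nat_lit 4) (nat_lit 5) (nat_lit 4) (nat_lit 4) (nat_lit 439) (nat_lit 360) (nat_lit 221)) (XT.lf (nat_lit 0) (nat_lit 1489250541605) (nat_lit 76) (nat_lit 239880990305) (nat_lit 76) (nat_lit 186580658578) (nat_lit 3) (nat_lit 4) (nat_lit 4) (nat_lit 5) (nat_lit 4) (nat_lit 4) (nat_lit 440) (nat_lit 360) (nat_lit 220)))))) (XT.nd (nat_lit 390) (nat_lit 0) (nat_lit 0) (XT.nd (nat_lit 156) (nat_lit 152) (nat_lit 0) (XT.nd (nat_lit 78) (nat_lit 0) (nat_lit 0) (XT.lf (nat_lit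 0) (nat_lit 1740961509895) (nat_lit 76) (nat_lit 188019554573) (nat_lit 76) (nat_lit 134719140227) (nat_lit 3) (nat_lit 4) (nat_lit 4) (nat_lit 5) (nat_lit 4) (nat_lit 4) (nat_lit 441) (nat_lit 360) (nat_lit 219)) (XT.lf (nat_lit 0) (nat_lit 2012808959908) (nat_lit 76) (nat_lit 132009403352) (nat_lit 76) (nat_lit 78708912507) (nat_lit 3) (nat_lit 4) (nat_lit 4) (nat_lit 5) (nat_lit 4) (nat_lit 4) (nat_lit 442) (nat_lit 360) (nat_lit 218))) (XT.nd (nat_lit 78) (nat_lit 152) (nat_lit 0) (XT.lf (nat_lit 0) (nat_lit 2306403839495) (nat_lit 76) (nat_lit 71518624635) (nat_lit 76) (nat_lit 18218062957) (nat_lit 3) (nat_lit 4) (nat_lit 4) (nat_lit 5) (nat_lit 4) (nat_lit 4) (nat_lit 443) (nat_lit 360) (nat_lit 217)) (XT.nd (nat_lit 78) (nat_lit 0) (nat_lit 0) (XT.lf (nat_lit 0) (nat_lit 41885351407) (nat_lit 76) (nat_lit 3877138337) (nat_lit 152) (nat_lit 2536629131424) (nat_lit 1) (nat_lit 5)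 (nat_lit 2) (nat_lit 5) (nat_lit 3) (nat_lit 4) (nat_lit 444) (nat_lit 360) (nat_lit 216)) (XT.lf (nat_lit 0) (nat_lit 118058031180) (nat_lit 152) (nat_lit 2596406910146) (nat_lit 0) (nat_lit 68705542300) (nat_lit 1) (nat_lit 5) (nat_lit 3) (nat_lit 4) (nat_lit 1) (nat_lit 4) (nat_lit 445) (nat_lit 360) (nat_lit 215))))) (XT.nd (nat_lit 156) (nat_lit 0) (nat_lit 0) (XT.nd (nat_lit 78) (nat_lit 0) (nat_lit 0) (XT.lf (nat_lit 0) (nat_lit 196237761341) (nat_lit 152) (nat_lit 2656880629722) (nat_lit 0) (nat_lit 146885220397) (nat_lit 1) (nat_lit 5) (nat_lit 3) (nat_lit 4) (nat_lit 1) (nat_lit 4) (nat_lit 446) (nat_lit 360) (nat_lit 214)) (XT.lf (nat_lit 0) (nat_lit 280671722247) (nat_lit 152) (nat_lit 2722192546003) (nat_lit 0) (nat_lit 231319133096) (nat_lit 1) (nat_lit 5) (nat_lit 3) (nat_lit 4) (nat_lit 1) (nat_lit 4) (nat_lit 447) (nat_lit 360) (nat_lit 213))) (XT.nd (nat_lit 78) (nat_lit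 0) (nat_lit 0) (XT.lf (nat_lit 0) (nat_lit 371860263297) (nat_lit 152) (nat_lit 2792729692565) (nat_lit 0) (nat_lit 322507629510) (nat_lit 1) (nat_lit 5) (nat_lit 3) (nat_lit 4) (nat_lit 1) (nat_lit 4) (nat_lit 448) (nat_lit 360) (nat_lit 212)) (XT.nd (nat_lit 78) (nat_lit 0) (nat_lit 0) (XT.lf (nat_lit 0) (nat_lit 470343761031) (nat_lit 152) (nat_lit 2868910067315) (nat_lit 0) (nat_lit 420991085913) (nat_lit 1) (nat_lit 5) (nat_lit 3) (nat_lit 4) (nat_lit 1) (nat_lit 4) (nat_lit 449) (nat_lit 360) (nat_lit 211)) (XT.lf (nat_lit 0) (nat_lit 576705821360) (nat_lit 152) (nat_lit 2951185109510) (nat_lit 0) (nat_lit 527353107973) (nat_lit 1) (nat_lit 5) (nat_lit 3) (nat_lit 4) (nat_lit 1) (nat_lit 4) (nat_lit 450) (nat_lit 360) (nat_lit 210))))))) (XT.nd (nat_lit 46254) (nat_lit 0) (nat_lit 3648) (XT.nd (nat_lit 312) (nat_lit 0) (nat_lit 0) (XT.nd (nat_lit 156) (nat_lit 0) (nat_lit 0) (XT.nd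 (nat_lit 78) (nat_lit 0) (nat_lit 0) (XT.lf (nat_lit 0) (nat_lit 691576737975) (nat_lit 152) (nat_lit 3040042374957) (nat_lit 0) (nat_lit 642223989155) (nat_lit 1) (nat_lit 5) (nat_lit 3) (nat_lit 4) (nat_lit 1) (nat_lit 4) (nat_lit 451) (nat_lit 360) (nat_lit 209)) (XT.lf (nat_lit 0) (nat_lit 815637227420) (nat_lit 152) (nat_lit 3136008425227) (nat_lit 0) (nat_lit 766284445790) (nat_lit 1) (nat_lit 5) (nat_lit 3) (nat_lit 4) (nat_lit 1) (nat_lit 4) (nat_lit 452) (nat_lit 360) (nat_lit 208))) (XT.nd (nat_lit 78) (nat_lit 0) (nat_lit 0) (XT.lf (nat_lit 0) (nat_lit 949622462964) (nat_lit 152) (nat_lit 3239651948027) (nat_lit 0) (nat_lit 900269650956) (nat_lit 1) (nat_lit 5) (nat_lit 3) (nat_lit 4) (nat_lit 1) (nat_lit 4) (nat_lit 453) (nat_lit 360) (nat_lit 207)) (XT.lf (nat_lit 0) (nat_lit 1094326431190) (nat_lit 152) (nat_lit 3351587127195) (nat_lit 0) (nat_lit 1044973591054) (nat_lit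 1) (nat_lit 5) (nat_lit 3) (nat_lit 4) (nat_lit 1) (nat_lit 4) (nat_lit 454) (nat_lit 360) (nat_lit 206)))) (XT.nd (nat_lit 156) (nat_lit 0) (nat_lit 0) (XT.nd (nat_lit 78) (nat_lit 0) (nat_lit 0) (XT.lf (nat_lit 0) (nat_lit 1250606637094) (nat_lit 152) (nat_lit 3472477282312) (nat_lit 0) (nat_lit 1201253770913) (nat_lit 1) (nat_lit 5) (nat_lit 3) (nat_lit 4) (nat_lit 1) (nat_lit 4) (nat_lit 455) (nat_lit 360) (nat_lit 205)) (XT.lf (nat_lit 0) (nat_lit 1419389185600) (nat_lit 152) (nat_lit 3603038799481) (nat_lit 0) (nat_lit 1370036295303) (nat_lit 1) (nat_lit 5) (nat_lit 3) (nat_lit 4) (nat_lit 1) (nat_lit 4) (nat_lit 456) (nat_lit 360) (nat_lit 204))) (XT.nd (nat_lit 45630) (nat_lit 0) (nat_lit 4560) (XT.lf (nat_lit 0) (nat_lit 1601674269588) (nat_lit 152) (nat_lit 3744045376583) (nat_lit 0) (nat_lit 1552321356962) (nat_lit 1) (nat_lit 5) (nat_lit 3) (nat_lit 4) (nat_lit 1) (nat_lit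 4) (nat_lit 457) (nat_lit 360) (nat_lit 203)) (XT.nd (nat_lit 78) (nat_lit 0) (nat_lit 0) (XT.lf (nat_lit 0) (nat_lit 8037539227) (nat_lit 532) (nat_lit 1128324199) (nat_lit 532) (nat_lit 1128324199) (nat_lit 61) (nat_lit 3) (nat_lit 68) (nat_lit 3) (nat_lit 68) (nat_lit 5) (nat_lit 361) (nat_lit 361) (nat_lit 298)) (XT.lf (nat_lit 76) (nat_lit 8072987042) (nat_lit 0) (nat_lit 8984691974) (nat_lit 532) (nat_lit 4326885800) (nat_lit 62) (nat_lit 5) (nat_lit 61) (nat_lit 3) (nat_lit 68) (nat_lit 5) (nat_lit 362) (nat_lit 361) (nat_lit 297)))))) (XT.nd (nat_lit 390) (nat_lit 532) (nat_lit 0) (XT.nd (nat_lit 156) (nat_lit 456) (nat_lit 0) (XT.nd (nat_lit 78) (nat_lit 0) (nat_lit 0) (XT.lf (nat_lit 0) (nat_lit 18194294332) (nat_lit 456) (nat_lit 2920117420) (nat_lit 532) (nat_lit 1124023033) (nat_lit 62) (nat_lit 5) (nat_lit 68) (nat_lit 5) (nat_lit 69) (nat_lit 5) (nat_lit 363) (nat_lit 361)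 (nat_lit 296)) (XT.lf (nat_lit 76) (nat_lit 8484815457) (nat_lit 0) (nat_lit 11360938402) (nat_lit 532) (nat_lit 3280963750) (nat_lit 63) (nat_lit 5) (nat_lit 62) (nat_lit 5) (nat_lit 69) (nat_lit 5) (nat_lit 364) (nat_lit 361) (nat_lit 295))) (XT.nd (nat_lit 78) (nat_lit 456) (nat_lit 0) (XT.lf (nat_lit 76) (nat_lit 20959517948) (nat_lit 0) (nat_lit 736931637) (nat_lit 532) (nat_lit 2384259156) (nat_lit 63) (nat_lit 5) (nat_lit 62) (nat_lit 5) (nat_lit 69) (nat_lit 5) (nat_lit 365) (nat_lit 361) (nat_lit 294)) (XT.nd (nat_lit 78) (nat_lit 532) (nat_lit 0) (XT.lf (nat_lit 76) (nat_lit 9530615697) (nat_lit 0) (nat_lit 14640332095) (nat_lit 532) (nat_lit 902025737) (nat_lit 64) (nat_lit 5) (nat_lit 63) (nat_lit 5) (nat_lit 70) (nat_lit 5) (nat_lit 366) (nat_lit 361) (nat_lit 293)) (XT.lf (nat_lit 0) (nat_lit 759190654) (nat_lit 532) (nat_lit 2813359807) (nat_lit 608) (nat_lit 22563107834)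 (nat_lit 56) (nat_lit 5) (nat_lit 63) (nat_lit 5) (nat_lit 64) (nat_lit 5) (nat_lit 367) (nat_lit 361) (nat_lit 292))))) (XT.nd (nat_lit 156) (nat_lit 608) (nat_lit 0) (XT.nd (nat_lit 78) (nat_lit 0) (nat_lit 0) (XT.lf (nat_lit 0) (nat_lit 2979442494) (nat_lit 532) (nat_lit 15993806182) (nat_lit 76) (nat_lit 8270256352) (nat_lit 57) (nat_lit 5) (nat_lit 64) (nat_lit 5) (nat_lit 58) (nat_lit 5) (nat_lit 368) (nat_lit 361) (nat_lit 291)) (XT.lf (nat_lit 0) (nat_lit 5539136668) (nat_lit 532) (nat_lit 1940205621) (nat_lit 76) (nat_lit 20947701805) (nat_lit 57) (nat_lit 5) (nat_lit 64) (nat_lit 5) (nat_lit 58) (nat_lit 5) (nat_lit 369) (nat_lit 361) (nat_lit 290))) (XT.nd (nat_lit 78) (nat_lit 228) (nat_lit 0) (XT.lf (nat_lit 0) (nat_lit 8756733504) (nat_lit 456) (nat_lit 15880985811) (nat_lit 76) (nat_lit 5031306405) (nat_lit 52) (nat_lit 5) (nat_lit 58) (nat_lit 5) (nat_lit 53) (nat_lit 5)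 (nat_lit 370) (nat_lit 361) (nat_lit 289)) (XT.nd (nat_lit 78) (nat_lit 228) (nat_lit 0) (XT.lf (nat_lit 0) (nat_lit 12471754140) (nat_lit 456) (nat_lit 326064206) (nat_lit 76) (nat_lit 18193355134) (nat_lit 52) (nat_lit 5) (nat_lit 58) (nat_lit 5) (nat_lit 53) (nat_lit 5) (nat_lit 371) (nat_lit 361) (nat_lit 288)) (XT.lf (nat_lit 0) (nat_lit 16903326883) (nat_lit 304) (nat_lit 15065201663) (nat_lit 76) (nat_lit 417024712) (nat_lit 49) (nat_lit 5) (nat_lit 53) (nat_lit 5) (nat_lit 50) (nat_lit 5) (nat_lit 372) (nat_lit 361) (nat_lit 287))))))))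
noncomputable def xc153 : XT := (XT.nd (nat_lit 1482) (nat_lit 1140) (nat_lit 0) (XT.nd (nat_lit 702) (nat_lit 836) (nat_lit 0) (XT.nd (nat_lit 312) (nat_lit 532) (nat_lit 0) (XT.nd (nat_lit 156) (nat_lit 228) (nat_lit 0) (XT.nd (nat_lit 78) (nat_lit 0) (nat_lit 0) (XT.lf (nat_lit 0) (nat_lit 2278712081) (nat_lit 228) (nat_lit 19799418258) (nat_lit 304) (nat_lit 11782264310) (nat_lit 46) (nat_lit 5) (nat_lit 49) (nat_lit 5) (nat_lit 50) (nat_lit 5) (nat_lit 373) (nat_lit 361) (nat_lit 286)) (XT.lf (nat_lit 0) (nat_lit 21858245440) (nat_lit 228) (nat_lit 6213284861) (nat_lit 304) (nat_lit 7349331132) (nat_lit 46) (nat_lit 5) (nat_lit 49) (nat_lit 5) (nat_lit 50) (nat_lit 5) (nat_lit 374) (nat_lit 361) (nat_lit 285))) (XT.nd (nat_lit 78) (nat_lit 76) (nat_lit 0) (XT.lf (nat_lit 0) (nat_lit 5985392959) (nat_lit 152) (nat_lit 28899628057) (nat_lit 228) (nat_lit 2193901576) (nat_lit 44) (nat_lit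 5) (nat_lit 46) (nat_lit 5) (nat_lit 47) (nat_lit 5) (nat_lit 375) (nat_lit 361) (nat_lit 284)) (XT.lf (nat_lit 0) (nat_lit 3740366275) (nat_lit 228) (nat_lit 11232241348) (nat_lit 76) (nat_lit 23847720459) (nat_lit 43) (nat_lit 5) (nat_lit 46) (nat_lit 5) (nat_lit 44) (nat_lit 5) (nat_lit 376) (nat_lit 361) (nat_lit 283)))) (XT.nd (nat_lit 156) (nat_lit 304) (nat_lit 0) (XT.nd (nat_lit 78) (nat_lit 0) (nat_lit 0) (XT.lf (nat_lit 0) (nat_lit 10291479252) (nat_lit 304) (nat_lit 29998619310) (nat_lit 76) (nat_lit 385543372) (nat_lit 40) (nat_lit 5) (nat_lit 44) (nat_lit 5) (nat_lit 41) (nat_lit 5) (nat_lit 377) (nat_lit 361) (nat_lit 282)) (XT.lf (nat_lit 0) (nat_lit 18064722762) (nat_lit 304) (nat_lit 8082135938) (nat_lit 76) (nat_lit 16476683678) (nat_lit 40) (nat_lit 5) (nat_lit 44) (nat_lit 5) (nat_lit 41) (nat_lit 5) (nat_lit 378) (nat_lit 361) (nat_lit 281))) (XT.nd (nat_lit 78) (nat_lit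 152) (nat_lit 0) (XT.lf (nat_lit 0) (nat_lit 16400430908) (nat_lit 152) (nat_lit 10448322215) (nat_lit 228) (nat_lit 17847411992) (nat_lit 38) (nat_lit 5) (nat_lit 40) (nat_lit 5) (nat_lit 41) (nat_lit 5) (nat_lit 379) (nat_lit 361) (nat_lit 280)) (XT.nd (nat_lit 78) (nat_lit 152) (nat_lit 0) (XT.lf (nat_lit 0) (nat_lit 36713369801) (nat_lit 228) (nat_lit 3785720582) (nat_lit 76) (nat_lit 6405282297) (nat_lit 38) (nat_lit 5) (nat_lit 41) (nat_lit 5) (nat_lit 39) (nat_lit 5) (nat_lit 380) (nat_lit 361) (nat_lit 279)) (XT.lf (nat_lit 0) (nat_lit 23586342492) (nat_lit 152) (nat_lit 24614517484) (nat_lit 228) (nat_lit 1021684353) (nat_lit 36) (nat_lit 5) (nat_lit 38) (nat_lit 5) (nat_lit 39) (nat_lit 5) (nat_lit 381) (nat_lit 361) (nat_lit 278)))))) (XT.nd (nat_lit 390) (nat_lit 380) (nat_lit 0) (XT.nd (nat_lit 156) (nat_lit 228) (nat_lit 0) (XT.nd (nat_lit 78) (nat_lit 0) (nat_lit 0) (XT.lf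 (nat_lit 0) (nat_lit 1496849356) (nat_lit 152) (nat_lit 7077389915) (nat_lit 228) (nat_lit 43123859725) (nat_lit 33) (nat_lit 5) (nat_lit 35) (nat_lit 5) (nat_lit 36) (nat_lit 5) (nat_lit 382) (nat_lit 361) (nat_lit 277)) (XT.lf (nat_lit 0) (nat_lit 19882348431) (nat_lit 228) (nat_lit 22394625730) (nat_lit 76) (nat_lit 12012627193) (nat_lit 33) (nat_lit 5) (nat_lit 36) (nat_lit 5) (nat_lit 34) (nat_lit 5) (nat_lit 383) (nat_lit 361) (nat_lit 276))) (XT.nd (nat_lit 78) (nat_lit 76) (nat_lit 0) (XT.lf (nat_lit 0) (nat_lit 7837875476) (nat_lit 152) (nat_lit 24625176291) (nat_lit 228) (nat_lit 24595939300) (nat_lit 31) (nat_lit 5) (nat_lit 33) (nat_lit 5) (nat_lit 34) (nat_lit 5) (nat_lit 384) (nat_lit 361) (nat_lit 275)) (XT.nd (nat_lit 78) (nat_lit 76) (nat_lit 0) (XT.lf (nat_lit 0) (nat_lit 41755847257) (nat_lit 152) (nat_lit 4902451748) (nat_lit 228) (nat_lit 13342988537) (nat_lit 31)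 (nat_lit 5) (nat_lit 33) (nat_lit 5) (nat_lit 34) (nat_lit 5) (nat_lit 385) (nat_lit 361) (nat_lit 274)) (XT.lf (nat_lit 0) (nat_lit 15587154929) (nat_lit 76) (nat_lit 47167292670) (nat_lit 152) (nat_lit 363300013) (nat_lit 30) (nat_lit 5) (nat_lit 31) (nat_lit 5) (nat_lit 32) (nat_lit 4) (nat_lit 386) (nat_lit 361) (nat_lit 273))))) (XT.nd (nat_lit 156) (nat_lit 152) (nat_lit 0) (XT.nd (nat_lit 78) (nat_lit 152) (nat_lit 0) (XT.lf (nat_lit 0) (nat_lit 13606929276) (nat_lit 152) (nat_lit 13754851232) (nat_lit 76) (nat_lit 39044655667) (nat_lit 29) (nat_lit 5) (nat_lit 31) (nat_lit 5) (nat_lit 30) (nat_lit 5) (nat_lit 387) (nat_lit 361) (nat_lit 272)) (XT.lf (nat_lit 0) (nat_lit 23903195405) (nat_lit 152) (nat_lit 5343192688) (nat_lit 228) (nat_lit 40665379623) (nat_lit 27) (nat_lit 5) (nat_lit 29) (nat_lit 5) (nat_lit 30) (nat_lit 5) (nat_lit 388) (nat_lit 361) (nat_lit 271))) (XT.nd (nat_lit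 78) (nat_lit 152) (nat_lit 0) (XT.lf (nat_lit 0) (nat_lit 46962697576) (nat_lit 228) (nat_lit 8770602598) (nat_lit 76) (nat_lit 17898171854) (nat_lit 27) (nat_lit 5) (nat_lit 30) (nat_lit 5) (nat_lit 28) (nat_lit 4) (nat_lit 389) (nat_lit 361) (nat_lit 270)) (XT.nd (nat_lit 78) (nat_lit 76) (nat_lit 0) (XT.lf (nat_lit 0) (nat_lit 32950255405) (nat_lit 76) (nat_lit 34073995193) (nat_lit 152) (nat_lit 10550268623) (nat_lit 26) (nat_lit 5) (nat_lit 27) (nat_lit 5) (nat_lit 28) (nat_lit 4) (nat_lit 390) (nat_lit 361) (nat_lit 269)) (XT.lf (nat_lit 0) (nat_lit 6757426732) (nat_lit 152) (nat_lit 3483109303) (nat_lit 76) (nat_lit 71559860503) (nat_lit 25) (nat_lit 5) (nat_lit 27) (nat_lit 5) (nat_lit 26) (nat_lit 5) (nat_lit 391) (nat_lit 361) (nat_lit 268))))))) (XT.nd (nat_lit 780) (nat_lit 532) (nat_lit 0) (XT.nd (nat_lit 390) (nat_lit 228) (nat_lit 0) (XT.nd (nat_lit 156) (nat_lit 152) (nat_lit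 0) (XT.nd (nat_lit 78) (nat_lit 76) (nat_lit 0) (XT.lf (nat_lit 0) (nat_lit 26312912725) (nat_lit 228) (nat_lit 43855230341) (nat_lit 76) (nat_lit 16059626554) (nat_lit 23) (nat_lit 5) (nat_lit 26) (nat_lit 5) (nat_lit 24) (nat_lit 4) (nat_lit 392) (nat_lit 361) (nat_lit 267)) (XT.lf (nat_lit 0) (nat_lit 862363961) (nat_lit 76) (nat_lit 46951926717) (nat_lit 152) (nat_lit 43164526825) (nat_lit 22) (nat_lit 5) (nat_lit 23) (nat_lit 5) (nat_lit 24) (nat_lit 4) (nat_lit 393) (nat_lit 361) (nat_lit 266))) (XT.nd (nat_lit 78) (nat_lit 152) (nat_lit 0) (XT.lf (nat_lit 0) (nat_lit 51646259607) (nat_lit 76) (nat_lit 20585712311) (nat_lit 152) (nat_lit 23782282968) (nat_lit 22) (nat_lit 5) (nat_lit 23) (nat_lit 5) (nat_lit 24) (nat_lit 4) (nat_lit 394) (nat_lit 361) (nat_lit 265)) (XT.nd (nat_lit 78) (nat_lit 76) (nat_lit 0) (XT.lf (nat_lit 0) (nat_lit 5100780543) (nat_lit 76) (nat_lit 93811986695)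 (nat_lit 76) (nat_lit 2514985086) (nat_lit 21) (nat_lit 4) (nat_lit 22) (nat_lit 5) (nat_lit 22) (nat_lit 4) (nat_lit 395) (nat_lit 361) (nat_lit 264)) (XT.lf (nat_lit 0) (nat_lit 21207114048) (nat_lit 152) (nat_lit 47190079347) (nat_lit 76) (nat_lit 38695656560) (nat_lit 20) (nat_lit 5) (nat_lit 22) (nat_lit 5) (nat_lit 21) (nat_lit 4) (nat_lit 396) (nat_lit 361) (nat_lit 263))))) (XT.nd (nat_lit 156) (nat_lit 152) (nat_lit 0) (XT.nd (nat_lit 78) (nat_lit 0) (nat_lit 0) (XT.lf (nat_lit 0) (nat_lit 6113650693) (nat_lit 76) (nat_lit 40721981608) (nat_lit 152) (nat_lit 66358735915) (nat_lit 19) (nat_lit 5) (nat_lit 20) (nat_lit 5) (nat_lit 21) (nat_lit 4) (nat_lit 397) (nat_lit 361) (nat_lit 262)) (XT.lf (nat_lit 0) (nat_lit 66360918635) (nat_lit 76) (nat_lit 9441343520) (nat_lit 152) (nat_lit 43878720130) (nat_lit 19) (nat_lit 5) (nat_lit 20) (nat_lit 5) (nat_lit 21) (nat_lit 4) (nat_lit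 398) (nat_lit 361) (nat_lit 261))) (XT.nd (nat_lit 78) (nat_lit 76) (nat_lit 0) (XT.lf (nat_lit 0) (nat_lit 4370341948) (nat_lit 76) (nat_lit 103404110469) (nat_lit 76) (nat_lit 18857015361) (nat_lit 18) (nat_lit 4) (nat_lit 19) (nat_lit 5) (nat_lit 19) (nat_lit 4) (nat_lit 399) (nat_lit 361) (nat_lit 260)) (XT.nd (nat_lit 78) (nat_lit 0) (nat_lit 0) (XT.lf (nat_lit 0) (nat_lit 9496583843) (nat_lit 152) (nat_lit 64796837947) (nat_lit 76) (nat_lit 59689764643) (nat_lit 17) (nat_lit 5) (nat_lit 19) (nat_lit 5) (nat_lit 18) (nat_lit 4) (nat_lit 400) (nat_lit 361) (nat_lit 259)) (XT.lf (nat_lit 0) (nat_lit 39097586054) (nat_lit 152) (nat_lit 3229195230) (nat_lit 76) (nat_lit 99557247750) (nat_lit 17) (nat_lit 5) (nat_lit 19) (nat_lit 5) (nat_lit 18) (nat_lit 4) (nat_lit 401) (nat_lit 361) (nat_lit 258)))))) (XT.nd (nat_lit 390) (nat_lit 228) (nat_lit 0) (XT.nd (nat_lit 156) (nat_lit 228) (nat_lit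 0) (XT.nd (nat_lit 78) (nat_lit 0) (nat_lit 0) (XT.lf (nat_lit 0) (nat_lit 66591327165) (nat_lit 76) (nat_lit 6074904753) (nat_lit 152) (nat_lit 77622742562) (nat_lit 16) (nat_lit 5) (nat_lit 17) (nat_lit 5) (nat_lit 18) (nat_lit 4) (nat_lit 402) (nat_lit 361) (nat_lit 257)) (XT.lf (nat_lit 0) (nat_lit 109804518129) (nat_lit 152) (nat_lit 17979630059) (nat_lit 0) (nat_lit 31511435957) (nat_lit 16) (nat_lit 5) (nat_lit 18) (nat_lit 4) (nat_lit 16) (nat_lit 4) (nat_lit 403) (nat_lit 361) (nat_lit 256))) (XT.nd (nat_lit 78) (nat_lit 152) (nat_lit 0) (XT.lf (nat_lit 0) (nat_lit 55616772921) (nat_lit 76) (nat_lit 95790670518) (nat_lit 76) (nat_lit 17495793490) (nat_lit 15) (nat_lit 4) (nat_lit 16) (nat_lit 5) (nat_lit 16) (nat_lit 4) (nat_lit 404) (nat_lit 361) (nat_lit 255)) (XT.nd (nat_lit 78) (nat_lit 76) (nat_lit 0) (XT.lf (nat_lit 0) (nat_lit 16708307700) (nat_lit 152) (nat_lit 43543258915)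 (nat_lit 76) (nat_lit 118954908183) (nat_lit 14) (nat_lit 5) (nat_lit 16) (nat_lit 5) (nat_lit 15) (nat_lit 4) (nat_lit 405) (nat_lit 361) (nat_lit 254)) (XT.lf (nat_lit 0) (nat_lit 32971121220) (nat_lit 76) (nat_lit 20523685968) (nat_lit 152) (nat_lit 136739506164) (nat_lit 13) (nat_lit 5) (nat_lit 14) (nat_lit 5) (nat_lit 15) (nat_lit 4) (nat_lit 406) (nat_lit 361) (nat_lit 253))))) (XT.nd (nat_lit 156) (nat_lit 228) (nat_lit 0) (XT.nd (nat_lit 78) (nat_lit 0) (nat_lit 0) (XT.lf (nat_lit 0) (nat_lit 94982350824) (nat_lit 152) (nat_lit 84538567129) (nat_lit 0) (nat_lit 22482811428) (nat_lit 13) (nat_lit 5) (nat_lit 15) (nat_lit 4) (nat_lit 13) (nat_lit 4) (nat_lit 407) (nat_lit 361) (nat_lit 252)) (XT.lf (nat_lit 0) (nat_lit 140320455785) (nat_lit 152) (nat_lit 6532023741) (nat_lit 0) (nat_lit 67819694841) (nat_lit 13) (nat_lit 5) (nat_lit 15) (nat_lit 4) (nat_lit 13) (nat_lit 4) (nat_lit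 408) (nat_lit 361) (nat_lit 251))) (XT.nd (nat_lit 78) (nat_lit 152) (nat_lit 0) (XT.lf (nat_lit 0) (nat_lit 81804485862) (nat_lit 76) (nat_lit 109447111172) (nat_lit 76) (nat_lit 36945219163) (nat_lit 12) (nat_lit 4) (nat_lit 13) (nat_lit 5) (nat_lit 13) (nat_lit 4) (nat_lit 409) (nat_lit 361) (nat_lit 250)) (XT.nd (nat_lit 78) (nat_lit 76) (nat_lit 0) (XT.lf (nat_lit 0) (nat_lit 3462855437) (nat_lit 152) (nat_lit 65300199979) (nat_lit 76) (nat_lit 174019182815) (nat_lit 11) (nat_lit 5) (nat_lit 13) (nat_lit 5) (nat_lit 12) (nat_lit 4) (nat_lit 410) (nat_lit 361) (nat_lit 249)) (XT.lf (nat_lit 0) (nat_lit 22439657534) (nat_lit 76) (nat_lit 23206287912) (nat_lit 152) (nat_lit 212768709845) (nat_lit 10) (nat_lit 5) (nat_lit 11) (nat_lit 5) (nat_lit 12) (nat_lit 4) (nat_lit 411) (nat_lit 361) (nat_lit 248))))))))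
noncomputable def xc154 : XT := (XT.nd (nat_lit 1482) (nat_lit 228) (nat_lit 0) (XT.nd (nat_lit 702) (nat_lit 228) (nat_lit 0) (XT.nd (nat_lit 312) (nat_lit 152) (nat_lit 0) (XT.nd (nat_lit 156) (nat_lit 76) (nat_lit 0) (XT.nd (nat_lit 78) (nat_lit 0) (nat_lit 0) (XT.lf (nat_lit 0) (nat_lit 93659365415) (nat_lit 152) (nat_lit 154916560906) (nat_lit 0) (nat_lit 26525284980) (nat_lit 10) (nat_lit 5) (nat_lit 12) (nat_lit 4) (nat_lit 10) (nat_lit 4) (nat_lit 412) (nat_lit 361) (nat_lit 247)) (XT.lf (nat_lit 0) (nat_lit 146115419762) (nat_lit 152) (nat_lit 67978577812) (nat_lit 0) (nat_lit 78980569543) (nat_lit 10) (nat_lit 5) (nat_lit 12) (nat_lit 4) (nat_lit 10) (nat_lit 4) (nat_lit 413) (nat_lit 361) (nat_lit 246))) (XT.nd (nat_lit 78) (nat_lit 0) (nat_lit 0) (XT.lf (nat_lit 0) (nat_lit 27276744590) (nat_lit 76) (nat_lit 176146109170) (nat_lit 76) (nat_lit 109010546190) (nat_lit 9) (nat_lit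 4) (nat_lit 10) (nat_lit 5) (nat_lit 10) (nat_lit 4) (nat_lit 414) (nat_lit 361) (nat_lit 245)) (XT.lf (nat_lit 0) (nat_lit 134016357673) (nat_lit 76) (nat_lit 133156099437) (nat_lit 76) (nat_lit 66019876492) (nat_lit 9) (nat_lit 4) (nat_lit 10) (nat_lit 5) (nat_lit 10) (nat_lit 4) (nat_lit 415) (nat_lit 361) (nat_lit 244)))) (XT.nd (nat_lit 156) (nat_lit 76) (nat_lit 0) (XT.nd (nat_lit 78) (nat_lit 76) (nat_lit 0) (XT.lf (nat_lit 0) (nat_lit 249293161037) (nat_lit 76) (nat_lit 86727867547) (nat_lit 76) (nat_lit 19591033523) (nat_lit 9) (nat_lit 4) (nat_lit 10) (nat_lit 5) (nat_lit 10) (nat_lit 4) (nat_lit 416) (nat_lit 361) (nat_lit 243)) (XT.lf (nat_lit 0) (nat_lit 29022826014) (nat_lit 152) (nat_lit 6769921727) (nat_lit 76) (nat_lit 343973914970) (nat_lit 8) (nat_lit 5) (nat_lit 10) (nat_lit 5) (nat_lit 9) (nat_lit 4) (nat_lit 417) (nat_lit 361) (nat_lit 242))) (XT.nd (nat_lit 78) (nat_lit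 0) (nat_lit 0) (XT.lf (nat_lit 0) (nat_lit 83545298118) (nat_lit 152) (nat_lit 300640836530) (nat_lit 0) (nat_lit 21380553915) (nat_lit 7) (nat_lit 5) (nat_lit 9) (nat_lit 4) (nat_lit 7) (nat_lit 4) (nat_lit 418) (nat_lit 361) (nat_lit 241)) (XT.nd (nat_lit 78) (nat_lit 0) (nat_lit 0) (XT.lf (nat_lit 0) (nat_lit 143548283425) (nat_lit 152) (nat_lit 208409845874) (nat_lit 0) (nat_lit 81383090061) (nat_lit 7) (nat_lit 5) (nat_lit 9) (nat_lit 4) (nat_lit 7) (nat_lit 4) (nat_lit 419) (nat_lit 361) (nat_lit 240)) (XT.lf (nat_lit 0) (nat_lit 208350696614) (nat_lit 152) (nat_lit 108801993624) (nat_lit 0) (nat_lit 146185087360) (nat_lit 7) (nat_lit 5) (nat_lit 9) (nat_lit 4) (nat_lit 7) (nat_lit 4) (nat_lit 420) (nat_lit 361) (nat_lit 239)))))) (XT.nd (nat_lit 390) (nat_lit 152) (nat_lit 0) (XT.nd (nat_lit 156) (nat_lit 0) (nat_lit 0) (XT.nd (nat_lit 78) (nat_lit 76) (nat_lit 0) (XT.lf (nat_lit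 0) (nat_lit 278336551984) (nat_lit 152) (nat_lit 1227011027) (nat_lit 0) (nat_lit 216170557648) (nat_lit 7) (nat_lit 5) (nat_lit 9) (nat_lit 4) (nat_lit 7) (nat_lit 4) (nat_lit 421) (nat_lit 361) (nat_lit 238)) (XT.lf (nat_lit 0) (nat_lit 121005782617) (nat_lit 76) (nat_lit 235824989897) (nat_lit 76) (nat_lit 173658639002) (nat_lit 6) (nat_lit 4) (nat_lit 7) (nat_lit 5) (nat_lit 7) (nat_lit 4) (nat_lit 422) (nat_lit 361) (nat_lit 237))) (XT.nd (nat_lit 78) (nat_lit 0) (nat_lit 0) (XT.lf (nat_lit 0) (nat_lit 253085629187) (nat_lit 76) (nat_lit 188551773892) (nat_lit 76) (nat_lit 126385092850) (nat_lit 6) (nat_lit 4) (nat_lit 7) (nat_lit 5) (nat_lit 7) (nat_lit 4) (nat_lit 423) (nat_lit 361) (nat_lit 236)) (XT.nd (nat_lit 78) (nat_lit 0) (nat_lit 0) (XT.lf (nat_lit 0) (nat_lit 395730611843) (nat_lit 76) (nat_lit 137497326078) (nat_lit 76) (nat_lit 75330339344) (nat_lit 6) (nat_lit 4) (nat_lit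 7) (nat_lit 5) (nat_lit 7) (nat_lit 4) (nat_lit 424) (nat_lit 361) (nat_lit 235)) (XT.lf (nat_lit 0) (nat_lit 549786034186) (nat_lit 76) (nat_lit 82359101579) (nat_lit 76) (nat_lit 20191831797) (nat_lit 6) (nat_lit 4) (nat_lit 7) (nat_lit 5) (nat_lit 7) (nat_lit 4) (nat_lit 425) (nat_lit 361) (nat_lit 234))))) (XT.nd (nat_lit 156) (nat_lit 0) (nat_lit 0) (XT.nd (nat_lit 78) (nat_lit 0) (nat_lit 0) (XT.lf (nat_lit 0) (nat_lit 16421763205) (nat_lit 76) (nat_lit 21361551731) (nat_lit 152) (nat_lit 661727362370) (nat_lit 4) (nat_lit 5) (nat_lit 5) (nat_lit 5) (nat_lit 6) (nat_lit 4) (nat_lit 426) (nat_lit 361) (nat_lit 233)) (XT.lf (nat_lit 0) (nat_lit 103252400771) (nat_lit 152) (nat_lit 601158534623) (nat_lit 0) (nat_lit 45689646577) (nat_lit 4) (nat_lit 5) (nat_lit 6) (nat_lit 4) (nat_lit 4) (nat_lit 4) (nat_lit 427) (nat_lit 361) (nat_lit 232))) (XT.nd (nat_lit 78) (nat_lit 0) (nat_lit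 0) (XT.lf (nat_lit 0) (nat_lit 174513350803) (nat_lit 152) (nat_lit 513229592714) (nat_lit 0) (nat_lit 116950388559) (nat_lit 4) (nat_lit 5) (nat_lit 6) (nat_lit 4) (nat_lit 4) (nat_lit 4) (nat_lit 428) (nat_lit 361) (nat_lit 231)) (XT.nd (nat_lit 78) (nat_lit 0) (nat_lit 0) (XT.lf (nat_lit 0) (nat_lit 251474706308) (nat_lit 152) (nat_lit 418267282143) (nat_lit 0) (nat_lit 193911551427) (nat_lit 4) (nat_lit 5) (nat_lit 6) (nat_lit 4) (nat_lit 4) (nat_lit 4) (nat_lit 429) (nat_lit 361) (nat_lit 230)) (XT.lf (nat_lit 0) (nat_lit 334592534579) (nat_lit 152) (nat_lit 315708863293) (nat_lit 0) (nat_lit 277029201330) (nat_lit 4) (nat_lit 5) (nat_lit 6) (nat_lit 4) (nat_lit 4) (nat_lit 4) (nat_lit 430) (nat_lit 361) (nat_lit 229))))))) (XT.nd (nat_lit 780) (nat_lit 152) (nat_lit 0) (XT.nd (nat_lit 390) (nat_lit 0) (nat_lit 0) (XT.nd (nat_lit 156) (nat_lit 76) (nat_lit 0) (XT.nd (nat_lit 78) (nat_lit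 0) (nat_lit 0) (XT.lf (nat_lit 0) (nat_lit 424359385710) (nat_lit 152) (nat_lit 204946582571) (nat_lit 0) (nat_lit 366795887306) (nat_lit 4) (nat_lit 5) (nat_lit 6) (nat_lit 4) (nat_lit 4) (nat_lit 4) (nat_lit 431) (nat_lit 361) (nat_lit 228)) (XT.lf (nat_lit 0) (nat_lit 521307211410) (nat_lit 152) (nat_lit 85324070904) (nat_lit 0) (nat_lit 463743560084) (nat_lit 4) (nat_lit 5) (nat_lit 6) (nat_lit 4) (nat_lit 4) (nat_lit 4) (nat_lit 432) (nat_lit 361) (nat_lit 227))) (XT.nd (nat_lit 78) (nat_lit 0) (nat_lit 0) (XT.lf (nat_lit 0) (nat_lit 46177533072) (nat_lit 76) (nat_lit 580943555023) (nat_lit 76) (nat_lit 523379762103) (nat_lit 3) (nat_lit 4) (nat_lit 4) (nat_lit 5) (nat_lit 4) (nat_lit 4) (nat_lit 433) (nat_lit 361) (nat_lit 226)) (XT.nd (nat_lit 78) (nat_lit 0) (nat_lit 0) (XT.lf (nat_lit 0) (nat_lit 193051042653) (nat_lit 76) (nat_lit 550681607023) (nat_lit 76) (nat_lit 493117682996)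 (nat_lit 3) (nat_lit 4) (nat_lit 4) (nat_lit 5) (nat_lit 4) (nat_lit 4) (nat_lit 434) (nat_lit 361) (nat_lit 225)) (XT.lf (nat_lit 0) (nat_lit 351673805010) (nat_lit 76) (nat_lit 517999019557) (nat_lit 76) (nat_lit 460434974137) (nat_lit 3) (nat_lit 4) (nat_lit 4) (nat_lit 5) (nat_lit 4) (nat_lit 4) (nat_lit 435) (nat_lit 361) (nat_lit 224))))) (XT.nd (nat_lit 156) (nat_lit 0) (nat_lit 0) (XT.nd (nat_lit 78) (nat_lit 0) (nat_lit 0) (XT.lf (nat_lit 0) (nat_lit 522985806882) (nat_lit 76) (nat_lit 482702118034) (nat_lit 76) (nat_lit 425137960211) (nat_lit 3) (nat_lit 4) (nat_lit 4) (nat_lit 5) (nat_lit 4) (nat_lit 4) (nat_lit 436) (nat_lit 361) (nat_lit 223)) (XT.lf (nat_lit 0) (nat_lit 708002230503) (nat_lit 76) (nat_lit 444581735630) (nat_lit 76) (nat_lit 387017473731) (nat_lit 3) (nat_lit 4) (nat_lit 4) (nat_lit 5) (nat_lit 4) (nat_lit 4) (nat_lit 437) (nat_lit 361) (nat_lit 222))) (XT.nd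 (nat_lit 78) (nat_lit 0) (nat_lit 0) (XT.lf (nat_lit 0) (nat_lit 907819469495) (nat_lit 76) (nat_lit 403411973782) (nat_lit 76) (nat_lit 345847615516) (nat_lit 3) (nat_lit 4) (nat_lit 4) (nat_lit 5) (nat_lit 4) (nat_lit 4) (nat_lit 438) (nat_lit 361) (nat_lit 221)) (XT.nd (nat_lit 78) (nat_lit 0) (nat_lit 0) (XT.lf (nat_lit 0) (nat_lit 1123621626013) (nat_lit 76) (nat_lit 358948863531) (nat_lit 76) (nat_lit 301384416037) (nat_lit 3) (nat_lit 4) (nat_lit 4) (nat_lit 5) (nat_lit 4) (nat_lit 4) (nat_lit 439) (nat_lit 361) (nat_lit 220)) (XT.lf (nat_lit 0) (nat_lit 1356687527654) (nat_lit 76) (nat_lit 310928919780) (nat_lit 76) (nat_lit 253364389667) (nat_lit 3) (nat_lit 4) (nat_lit 4) (nat_lit 5) (nat_lit 4) (nat_lit 4) (nat_lit 440) (nat_lit 361) (nat_lit 219)))))) (XT.nd (nat_lit 390) (nat_lit 0) (nat_lit 0) (XT.nd (nat_lit 156) (nat_lit 152) (nat_lit 0) (XT.nd (nat_lit 78) (nat_lit 0)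 (nat_lit 0) (XT.lf (nat_lit 0) (nat_lit 1608398305684) (nat_lit 76) (nat_lit 259067579898) (nat_lit 76) (nat_lit 201502973287) (nat_lit 3) (nat_lit 4) (nat_lit 4) (nat_lit 5) (nat_lit 4) (nat_lit 4) (nat_lit 441) (nat_lit 361) (nat_lit 218)) (XT.lf (nat_lit 0) (nat_lit 1880245579530) (nat_lit 76) (nat_lit 203057517428) (nat_lit 76) (nat_lit 145492839984) (nat_lit 3) (nat_lit 4) (nat_lit 4) (nat_lit 5) (nat_lit 4) (nat_lit 4) (nat_lit 442) (nat_lit 361) (nat_lit 217))) (XT.nd (nat_lit 78) (nat_lit 152) (nat_lit 0) (XT.lf (nat_lit 0) (nat_lit 2173840296000) (nat_lit 76) (nat_lit 142566820888) (nat_lit 76) (nat_lit 85002077859) (nat_lit 3) (nat_lit 4) (nat_lit 4) (nat_lit 5) (nat_lit 4) (nat_lit 4) (nat_lit 443) (nat_lit 361) (nat_lit 216)) (XT.nd (nat_lit 78) (nat_lit 152) (nat_lit 0) (XT.lf (nat_lit 0) (nat_lit 2490922275636) (nat_lit 76) (nat_lit 77237026891) (nat_lit 76) (nat_lit 19672223134)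 (nat_lit 3) (nat_lit 4) (nat_lit 4) (nat_lit 5) (nat_lit 4) (nat_lit 4) (nat_lit 444) (nat_lit 361) (nat_lit 215)) (XT.lf (nat_lit 0) (nat_lit 45242313762) (nat_lit 76) (nat_lit 4184212078) (nat_lit 152) (nat_lit 2739556181820) (nat_lit 1) (nat_lit 5) (nat_lit 2) (nat_lit 5) (nat_lit 3) (nat_lit 4) (nat_lit 445) (nat_lit 361) (nat_lit 214))))) (XT.nd (nat_lit 156) (nat_lit 0) (nat_lit 0) (XT.nd (nat_lit 78) (nat_lit 0) (nat_lit 0) (XT.lf (nat_lit 0) (nat_lit 127505554606) (nat_lit 152) (nat_lit 2804113626889) (nat_lit 0) (nat_lit 74204710115) (nat_lit 1) (nat_lit 5) (nat_lit 3) (nat_lit 4) (nat_lit 1) (nat_lit 4) (nat_lit 446) (nat_lit 361) (nat_lit 213)) (XT.lf (nat_lit 0) (nat_lit 211939449777) (nat_lit 152) (nat_lit 2869425676333) (nat_lit 0) (nat_lit 158638560650) (nat_lit 1) (nat_lit 5) (nat_lit 3) (nat_lit 4) (nat_lit 1) (nat_lit 4) (nat_lit 447) (nat_lit 361) (nat_lit 212))) (XT.nd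 (nat_lit 78) (nat_lit 0) (nat_lit 0) (XT.lf (nat_lit 0) (nat_lit 303127929962) (nat_lit 152) (nat_lit 2939962946194) (nat_lit 0) (nat_lit 249826999505) (nat_lit 1) (nat_lit 5) (nat_lit 3) (nat_lit 4) (nat_lit 1) (nat_lit 4) (nat_lit 448) (nat_lit 361) (nat_lit 211)) (XT.nd (nat_lit 78) (nat_lit 0) (nat_lit 0) (XT.lf (nat_lit 0) (nat_lit 401611371338) (nat_lit 152) (nat_lit 3016143435110) (nat_lit 0) (nat_lit 348310402612) (nat_lit 1) (nat_lit 5) (nat_lit 3) (nat_lit 4) (nat_lit 1) (nat_lit 4) (nat_lit 449) (nat_lit 361) (nat_lit 210)) (XT.lf (nat_lit 0) (nat_lit 507973379484) (nat_lit 152) (nat_lit 3098418583015) (nat_lit 0) (nat_lit 454672375325) (nat_lit 1) (nat_lit 5) (nat_lit 3) (nat_lit 4) (nat_lit 1) (nat_lit 4) (nat_lit 450) (nat_lit 361) (nat_lit 209))))))))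
noncomputable def xc155 : XT := (XT.nd (nat_lit 47112) (nat_lit 0) (nat_lit 1672) (XT.nd (nat_lit 46332) (nat_lit 0) (nat_lit 3648) (XT.nd (nat_lit 312) (nat_lit 0) (nat_lit 0) (XT.nd (nat_lit 156) (nat_lit 0) (nat_lit 0) (XT.nd (nat_lit 78) (nat_lit 0) (nat_lit 0) (XT.lf (nat_lit 0) (nat_lit 622844247782) (nat_lit 152) (nat_lit 3187275946340) (nat_lit 0) (nat_lit 569543210813) (nat_lit 1) (nat_lit 5) (nat_lit 3) (nat_lit 4) (nat_lit 1) (nat_lit 4) (nat_lit 451) (nat_lit 361) (nat_lit 208)) (XT.lf (nat_lit 0) (nat_lit 746904692489) (nat_lit 152) (nat_lit 3283242087240) (nat_lit 0) (nat_lit 693603625141) (nat_lit 1) (nat_lit 5) (nat_lit 3) (nat_lit 4) (nat_lit 1) (nat_lit 4) (nat_lit 452) (nat_lit 361) (nat_lit 207))) (XT.nd (nat_lit 78) (nat_lit 0) (nat_lit 0) (XT.lf (nat_lit 0) (nat_lit 880889886609) (nat_lit 152) (nat_lit 3386885693955) (nat_lit 0) (nat_lit 827588791133) (nat_lit 1)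 (nat_lit 5) (nat_lit 3) (nat_lit 4) (nat_lit 1) (nat_lit 4) (nat_lit 453) (nat_lit 361) (nat_lit 206)) (XT.lf (nat_lit 0) (nat_lit 1025593816479) (nat_lit 152) (nat_lit 3498820950823) (nat_lit 0) (nat_lit 972292694958) (nat_lit 1) (nat_lit 5) (nat_lit 3) (nat_lit 4) (nat_lit 1) (nat_lit 4) (nat_lit 454) (nat_lit 361) (nat_lit 205)))) (XT.nd (nat_lit 156) (nat_lit 0) (nat_lit 0) (XT.nd (nat_lit 78) (nat_lit 0) (nat_lit 0) (XT.lf (nat_lit 0) (nat_lit 1181873986869) (nat_lit 152) (nat_lit 3619711177883) (nat_lit 0) (nat_lit 1128572841232) (nat_lit 1) (nat_lit 5) (nat_lit 3) (nat_lit 4) (nat_lit 1) (nat_lit 4) (nat_lit 455) (nat_lit 361) (nat_lit 204)) (XT.lf (nat_lit 0) (nat_lit 1350656502491) (nat_lit 152) (nat_lit 3750272761667) (nat_lit 0) (nat_lit 1297355334525) (nat_lit 1) (nat_lit 5) (nat_lit 3) (nat_lit 4) (nat_lit 1) (nat_lit 4) (nat_lit 456) (nat_lit 361) (nat_lit 203))) (XT.nd (nat_lit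 45708) (nat_lit 0) (nat_lit 4560) (XT.lf (nat_lit 0) (nat_lit 1532941556031) (nat_lit 152) (nat_lit 3891279400450) (nat_lit 0) (nat_lit 1479640367389) (nat_lit 1) (nat_lit 5) (nat_lit 3) (nat_lit 4) (nat_lit 1) (nat_lit 4) (nat_lit 457) (nat_lit 361) (nat_lit 202)) (XT.nd (nat_lit 78) (nat_lit 0) (nat_lit 0) (XT.lf (nat_lit 0) (nat_lit 8822486376) (nat_lit 532) (nat_lit 1141853680) (nat_lit 532) (nat_lit 1141853680) (nat_lit 61) (nat_lit 3) (nat_lit 68) (nat_lit 3) (nat_lit 68) (nat_lit 5) (nat_lit 362) (nat_lit 362) (nat_lit 296)) (XT.lf (nat_lit 76) (nat_lit 8868413524) (nat_lit 0) (nat_lit 9820336676) (nat_lit 532) (nat_lit 4384942184) (nat_lit 62) (nat_lit 5) (nat_lit 61) (nat_lit 3) (nat_lit 68) (nat_lit 5) (nat_lit 363) (nat_lit 362) (nat_lit 295)))))) (XT.nd (nat_lit 390) (nat_lit 532) (nat_lit 0) (XT.nd (nat_lit 156) (nat_lit 456) (nat_lit 0) (XT.nd (nat_lit 78) (nat_lit 0) (nat_lit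 0) (XT.lf (nat_lit 0) (nat_lit 19893954686) (nat_lit 456) (nat_lit 2992582511) (nat_lit 532) (nat_lit 1111145740) (nat_lit 62) (nat_lit 5) (nat_lit 68) (nat_lit 5) (nat_lit 69) (nat_lit 5) (nat_lit 364) (nat_lit 362) (nat_lit 294)) (XT.lf (nat_lit 76) (nat_lit 9320665393) (nat_lit 0) (nat_lit 12342560265) (nat_lit 532) (nat_lit 3294969175) (nat_lit 63) (nat_lit 5) (nat_lit 62) (nat_lit 5) (nat_lit 69) (nat_lit 5) (nat_lit 365) (nat_lit 362) (nat_lit 293))) (XT.nd (nat_lit 78) (nat_lit 456) (nat_lit 0) (XT.lf (nat_lit 76) (nat_lit 22781709662) (nat_lit 0) (nat_lit 863244308) (nat_lit 532) (nat_lit 2344933523) (nat_lit 63) (nat_lit 5) (nat_lit 62) (nat_lit 5) (nat_lit 69) (nat_lit 5) (nat_lit 366) (nat_lit 362) (nat_lit 292)) (XT.nd (nat_lit 78) (nat_lit 532) (nat_lit 0) (XT.lf (nat_lit 76) (nat_lit 10453232936) (nat_lit 0) (nat_lit 15850769068) (nat_lit 532) (nat_lit 758623141) (nat_lit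 64) (nat_lit 5) (nat_lit 63) (nat_lit 5) (nat_lit 70) (nat_lit 5) (nat_lit 367) (nat_lit 362) (nat_lit 291)) (XT.lf (nat_lit 0) (nat_lit 1009538164) (nat_lit 532) (nat_lit 2879937930) (nat_lit 608) (nat_lit 24321663557) (nat_lit 56) (nat_lit 5) (nat_lit 63) (nat_lit 5) (nat_lit 64) (nat_lit 5) (nat_lit 368) (nat_lit 362) (nat_lit 290))))) (XT.nd (nat_lit 156) (nat_lit 608) (nat_lit 0) (XT.nd (nat_lit 78) (nat_lit 0) (nat_lit 0) (XT.lf (nat_lit 0) (nat_lit 3396483470) (nat_lit 532) (nat_lit 17103705994) (nat_lit 76) (nat_lit 8908313779) (nat_lit 57) (nat_lit 5) (nat_lit 64) (nat_lit 5) (nat_lit 58) (nat_lit 5) (nat_lit 369) (nat_lit 362) (nat_lit 289)) (XT.lf (nat_lit 0) (nat_lit 6147717209) (nat_lit 532) (nat_lit 1938380698) (nat_lit 76) (nat_lit 22601700283) (nat_lit 57) (nat_lit 5) (nat_lit 64) (nat_lit 5) (nat_lit 58) (nat_lit 5) (nat_lit 370) (nat_lit 362) (nat_lit 288))) (XT.nd (nat_lit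 78) (nat_lit 228) (nat_lit 0) (XT.lf (nat_lit 0) (nat_lit 9614055875) (nat_lit 456) (nat_lit 16985596772) (nat_lit 76) (nat_lit 5430191820) (nat_lit 52) (nat_lit 5) (nat_lit 58) (nat_lit 5) (nat_lit 53) (nat_lit 5) (nat_lit 371) (nat_lit 362) (nat_lit 287)) (XT.nd (nat_lit 78) (nat_lit 228) (nat_lit 0) (XT.lf (nat_lit 0) (nat_lit 13614664555) (nat_lit 456) (nat_lit 198567950) (nat_lit 76) (nat_lit 19645472529) (nat_lit 52) (nat_lit 5) (nat_lit 58) (nat_lit 5) (nat_lit 53) (nat_lit 5) (nat_lit 372) (nat_lit 362) (nat_lit 286)) (XT.lf (nat_lit 0) (nat_lit 18393890723) (nat_lit 304) (nat_lit 16109826307) (nat_lit 76) (nat_lit 461478974) (nat_lit 49) (nat_lit 5) (nat_lit 53) (nat_lit 5) (nat_lit 50) (nat_lit 5) (nat_lit 373) (nat_lit 362) (nat_lit 285))))))) (XT.nd (nat_lit 780) (nat_lit 760) (nat_lit 0) (XT.nd (nat_lit 390) (nat_lit 532) (nat_lit 0) (XT.nd (nat_lit 156) (nat_lit 456) (nat_lit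 0) (XT.nd (nat_lit 78) (nat_lit 0) (nat_lit 0) (XT.lf (nat_lit 0) (nat_lit 2617534929) (nat_lit 228) (nat_lit 21358663704) (nat_lit 304) (nat_lit 12582354658) (nat_lit 46) (nat_lit 5) (nat_lit 49) (nat_lit 5) (nat_lit 50) (nat_lit 5) (nat_lit 374) (nat_lit 362) (nat_lit 284)) (XT.lf (nat_lit 0) (nat_lit 23751836447) (nat_lit 228) (nat_lit 6687469857) (nat_lit 304) (nat_lit 7805341700) (nat_lit 46) (nat_lit 5) (nat_lit 49) (nat_lit 5) (nat_lit 50) (nat_lit 5) (nat_lit 375) (nat_lit 362) (nat_lit 283))) (XT.nd (nat_lit 78) (nat_lit 304) (nat_lit 0) (XT.lf (nat_lit 0) (nat_lit 6614582494) (nat_lit 152) (nat_lit 31178378349) (nat_lit 228) (nat_lit 2242795194) (nat_lit 44) (nat_lit 5) (nat_lit 46) (nat_lit 5) (nat_lit 47) (nat_lit 5) (nat_lit 376) (nat_lit 362) (nat_lit 282)) (XT.nd (nat_lit 78) (nat_lit 228) (nat_lit 0) (XT.lf (nat_lit 0) (nat_lit 4150970149) (nat_lit 228) (nat_lit 11985641690)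 (nat_lit 76) (nat_lit 25780338808) (nat_lit 43) (nat_lit 5) (nat_lit 46) (nat_lit 5) (nat_lit 44) (nat_lit 5) (nat_lit 377) (nat_lit 362) (nat_lit 281)) (XT.lf (nat_lit 0) (nat_lit 11222166528) (nat_lit 304) (nat_lit 32249237478) (nat_lit 76) (nat_lit 449612993) (nat_lit 40) (nat_lit 5) (nat_lit 44) (nat_lit 5) (nat_lit 41) (nat_lit 5) (nat_lit 378) (nat_lit 362) (nat_lit 280))))) (XT.nd (nat_lit 156) (nat_lit 380) (nat_lit 0) (XT.nd (nat_lit 78) (nat_lit 152) (nat_lit 0) (XT.lf (nat_lit 0) (nat_lit 19609316264) (nat_lit 304) (nat_lit 8590492576) (nat_lit 76) (nat_lit 17825583327) (nat_lit 40) (nat_lit 5) (nat_lit 44) (nat_lit 5) (nat_lit 41) (nat_lit 5) (nat_lit 379) (nat_lit 362) (nat_lit 279)) (XT.lf (nat_lit 0) (nat_lit 17847180524) (nat_lit 152) (nat_lit 11244764308) (nat_lit 228) (nat_lit 19172215780) (nat_lit 38) (nat_lit 5) (nat_lit 40) (nat_lit 5) (nat_lit 41) (nat_lit 5) (nat_lit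 380) (nat_lit 362) (nat_lit 278))) (XT.nd (nat_lit 78) (nat_lit 380) (nat_lit 0) (XT.lf (nat_lit 0) (nat_lit 39739550125) (nat_lit 228) (nat_lit 3957592382) (nat_lit 76) (nat_lit 6952382243) (nat_lit 38) (nat_lit 5) (nat_lit 41) (nat_lit 5) (nat_lit 39) (nat_lit 5) (nat_lit 381) (nat_lit 362) (nat_lit 277)) (XT.nd (nat_lit 78) (nat_lit 228) (nat_lit 0) (XT.lf (nat_lit 0) (nat_lit 25600919640) (nat_lit 152) (nat_lit 26541589539) (nat_lit 228) (nat_lit 1010928481) (nat_lit 36) (nat_lit 5) (nat_lit 38) (nat_lit 5) (nat_lit 39) (nat_lit 5) (nat_lit 382) (nat_lit 362) (nat_lit 276)) (XT.lf (nat_lit 0) (nat_lit 1745602093) (nat_lit 152) (nat_lit 7599034318) (nat_lit 228) (nat_lit 46482499182) (nat_lit 33) (nat_lit 5) (nat_lit 35) (nat_lit 5) (nat_lit 36) (nat_lit 5) (nat_lit 383) (nat_lit 362) (nat_lit 275)))))) (XT.nd (nat_lit 390) (nat_lit 456) (nat_lit 0) (XT.nd (nat_lit 156) (nat_lit 152)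 (nat_lit 0) (XT.nd (nat_lit 78) (nat_lit 152) (nat_lit 0) (XT.lf (nat_lit 0) (nat_lit 21552130148) (nat_lit 228) (nat_lit 24061432122) (nat_lit 76) (nat_lit 13012821053) (nat_lit 33) (nat_lit 5) (nat_lit 36) (nat_lit 5) (nat_lit 34) (nat_lit 5) (nat_lit 384) (nat_lit 362) (nat_lit 274)) (XT.lf (nat_lit 0) (nat_lit 8586510607) (nat_lit 152) (nat_lit 26549837538) (nat_lit 228) (nat_lit 26481215146) (nat_lit 31) (nat_lit 5) (nat_lit 33) (nat_lit 5) (nat_lit 34) (nat_lit 5) (nat_lit 385) (nat_lit 362) (nat_lit 273))) (XT.nd (nat_lit 78) (nat_lit 152) (nat_lit 0) (XT.lf (nat_lit 0) (nat_lit 45208912346) (nat_lit 152) (nat_lit 5252654503) (nat_lit 228) (nat_lit 14334131973) (nat_lit 31) (nat_lit 5) (nat_lit 33) (nat_lit 5) (nat_lit 34) (nat_lit 5) (nat_lit 386) (nat_lit 362) (nat_lit 272)) (XT.nd (nat_lit 78) (nat_lit 76) (nat_lit 0) (XT.lf (nat_lit 0) (nat_lit 16948437322) (nat_lit 76) (nat_lit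 50895424378) (nat_lit 152) (nat_lit 317740864) (nat_lit 30) (nat_lit 5) (nat_lit 31) (nat_lit 5) (nat_lit 32) (nat_lit 4) (nat_lit 387) (nat_lit 362) (nat_lit 271)) (XT.lf (nat_lit 0) (nat_lit 14761122690) (nat_lit 152) (nat_lit 14745905842) (nat_lit 76) (nat_lit 42206636951) (nat_lit 29) (nat_lit 5) (nat_lit 31) (nat_lit 5) (nat_lit 30) (nat_lit 5) (nat_lit 388) (nat_lit 362) (nat_lit 270))))) (XT.nd (nat_lit 156) (nat_lit 304) (nat_lit 0) (XT.nd (nat_lit 78) (nat_lit 0) (nat_lit 0) (XT.lf (nat_lit 0) (nat_lit 25922016589) (nat_lit 152) (nat_lit 5727422374) (nat_lit 228) (nat_lit 43850171077) (nat_lit 27) (nat_lit 5) (nat_lit 29) (nat_lit 5) (nat_lit 30) (nat_lit 5) (nat_lit 389) (nat_lit 362) (nat_lit 269)) (XT.lf (nat_lit 0) (nat_lit 50779323940) (nat_lit 228) (nat_lit 9369820191) (nat_lit 76) (nat_lit 19368047272) (nat_lit 27) (nat_lit 5) (nat_lit 30) (nat_lit 5) (nat_lit 28) (nat_lit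 4) (nat_lit 390) (nat_lit 362) (nat_lit 268))) (XT.nd (nat_lit 78) (nat_lit 228) (nat_lit 0) (XT.lf (nat_lit 0) (nat_lit 35686113272) (nat_lit 76) (nat_lit 36757673427) (nat_lit 152) (nat_lit 11332059020) (nat_lit 26) (nat_lit 5) (nat_lit 27) (nat_lit 5) (nat_lit 28) (nat_lit 4) (nat_lit 391) (nat_lit 362) (nat_lit 267)) (XT.nd (nat_lit 78) (nat_lit 152) (nat_lit 0) (XT.lf (nat_lit 0) (nat_lit 7352759798) (nat_lit 152) (nat_lit 3666410070) (nat_lit 76) (nat_lit 77320855826) (nat_lit 25) (nat_lit 5) (nat_lit 27) (nat_lit 5) (nat_lit 26) (nat_lit 5) (nat_lit 392) (nat_lit 362) (nat_lit 266)) (XT.lf (nat_lit 0) (nat_lit 28471827360) (nat_lit 228) (nat_lit 47267421767) (nat_lit 76) (nat_lit 17382409818) (nat_lit 23) (nat_lit 5) (nat_lit 26) (nat_lit 5) (nat_lit 24) (nat_lit 4) (nat_lit 393) (nat_lit 362) (nat_lit 265))))))))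
noncomputable def xc156 : XT := (XT.nd (nat_lit 1482) (nat_lit 456) (nat_lit 0) (XT.nd (nat_lit 702) (nat_lit 532) (nat_lit 0) (XT.nd (nat_lit 312) (nat_lit 228) (nat_lit 0) (XT.nd (nat_lit 156) (nat_lit 152) (nat_lit 0) (XT.nd (nat_lit 78) (nat_lit 0) (nat_lit 0) (XT.lf (nat_lit 0) (nat_lit 1025143954) (nat_lit 76) (nat_lit 50666436038) (nat_lit 152) (nat_lit 46561351120) (nat_lit 22) (nat_lit 5) (nat_lit 23) (nat_lit 5) (nat_lit 24) (nat_lit 4) (nat_lit 394) (nat_lit 362) (nat_lit 264)) (XT.lf (nat_lit 0) (nat_lit 55864803779) (nat_lit 76) (nat_lit 22194009281) (nat_lit 152) (nat_lit 25632700929) (nat_lit 22) (nat_lit 5) (nat_lit 23) (nat_lit 5) (nat_lit 24) (nat_lit 4) (nat_lit 395) (nat_lit 362) (nat_lit 263))) (XT.nd (nat_lit 78) (nat_lit 76) (nat_lit 0) (XT.lf (nat_lit 0) (nat_lit 5596366959) (nat_lit 76) (nat_lit 101277092128) (nat_lit 76) (nat_lit 2664682547) (nat_lit 21) (nat_lit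 4) (nat_lit 22) (nat_lit 5) (nat_lit 22) (nat_lit 4) (nat_lit 396) (nat_lit 362) (nat_lit 262)) (XT.lf (nat_lit 0) (nat_lit 22948984135) (nat_lit 152) (nat_lit 50881844733) (nat_lit 76) (nat_lit 41825810229) (nat_lit 20) (nat_lit 5) (nat_lit 22) (nat_lit 5) (nat_lit 21) (nat_lit 4) (nat_lit 397) (nat_lit 362) (nat_lit 261)))) (XT.nd (nat_lit 156) (nat_lit 152) (nat_lit 0) (XT.nd (nat_lit 78) (nat_lit 0) (nat_lit 0) (XT.lf (nat_lit 0) (nat_lit 6684071282) (nat_lit 76) (nat_lit 43942312893) (nat_lit 152) (nat_lit 71620007712) (nat_lit 19) (nat_lit 5) (nat_lit 20) (nat_lit 5) (nat_lit 21) (nat_lit 4) (nat_lit 398) (nat_lit 362) (nat_lit 260)) (XT.lf (nat_lit 0) (nat_lit 71745096323) (nat_lit 76) (nat_lit 10161996146) (nat_lit 152) (nat_lit 47345103780) (nat_lit 19) (nat_lit 5) (nat_lit 20) (nat_lit 5) (nat_lit 21) (nat_lit 4) (nat_lit 399) (nat_lit 362) (nat_lit 259))) (XT.nd (nat_lit 78)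 (nat_lit 76) (nat_lit 0) (XT.lf (nat_lit 0) (nat_lit 4795736685) (nat_lit 76) (nat_lit 111640904125) (nat_lit 76) (nat_lit 20322114081) (nat_lit 18) (nat_lit 4) (nat_lit 19) (nat_lit 5) (nat_lit 19) (nat_lit 4) (nat_lit 400) (nat_lit 362) (nat_lit 258)) (XT.nd (nat_lit 78) (nat_lit 0) (nat_lit 0) (XT.lf (nat_lit 0) (nat_lit 10294540492) (nat_lit 152) (nat_lit 69908406821) (nat_lit 76) (nat_lit 64495825581) (nat_lit 17) (nat_lit 5) (nat_lit 19) (nat_lit 5) (nat_lit 18) (nat_lit 4) (nat_lit 401) (nat_lit 362) (nat_lit 257)) (XT.lf (nat_lit 0) (nat_lit 42260791033) (nat_lit 152) (nat_lit 3420699217) (nat_lit 76) (nat_lit 107550419946) (nat_lit 17) (nat_lit 5) (nat_lit 19) (nat_lit 5) (nat_lit 18) (nat_lit 4) (nat_lit 402) (nat_lit 362) (nat_lit 256)))))) (XT.nd (nat_lit 390) (nat_lit 228) (nat_lit 0) (XT.nd (nat_lit 156) (nat_lit 228) (nat_lit 0) (XT.nd (nat_lit 78) (nat_lit 0) (nat_lit 0)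 (XT.lf (nat_lit 0) (nat_lit 71983773030) (nat_lit 76) (nat_lit 6530100066) (nat_lit 152) (nat_lit 83795463309) (nat_lit 16) (nat_lit 5) (nat_lit 17) (nat_lit 5) (nat_lit 18) (nat_lit 4) (nat_lit 403) (nat_lit 362) (nat_lit 255)) (XT.lf (nat_lit 0) (nat_lit 118621364111) (nat_lit 152) (nat_lit 19355819858) (nat_lit 0) (nat_lit 34059440160) (nat_lit 16) (nat_lit 5) (nat_lit 18) (nat_lit 4) (nat_lit 16) (nat_lit 4) (nat_lit 404) (nat_lit 362) (nat_lit 254))) (XT.nd (nat_lit 78) (nat_lit 152) (nat_lit 0) (XT.lf (nat_lit 0) (nat_lit 60126721169) (nat_lit 76) (nat_lit 103424853602) (nat_lit 76) (nat_lit 18861390851) (nat_lit 15) (nat_lit 4) (nat_lit 16) (nat_lit 5) (nat_lit 16) (nat_lit 4) (nat_lit 405) (nat_lit 362) (nat_lit 253)) (XT.nd (nat_lit 78) (nat_lit 76) (nat_lit 0) (XT.lf (nat_lit 0) (nat_lit 18074937124) (nat_lit 152) (nat_lit 46969018346) (nat_lit 76) (nat_lit 128496633788) (nat_lit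 14) (nat_lit 5) (nat_lit 16) (nat_lit 5) (nat_lit 15) (nat_lit 4) (nat_lit 406) (nat_lit 362) (nat_lit 252)) (XT.lf (nat_lit 0) (nat_lit 35665051407) (nat_lit 76) (nat_lit 22138438133) (nat_lit 152) (nat_lit 147647235189) (nat_lit 13) (nat_lit 5) (nat_lit 14) (nat_lit 5) (nat_lit 15) (nat_lit 4) (nat_lit 407) (nat_lit 362) (nat_lit 251))))) (XT.nd (nat_lit 156) (nat_lit 228) (nat_lit 0) (XT.nd (nat_lit 78) (nat_lit 0) (nat_lit 0) (XT.lf (nat_lit 0) (nat_lit 102608485705) (nat_lit 152) (nat_lit 91248021574) (nat_lit 0) (nat_lit 24305311272) (nat_lit 13) (nat_lit 5) (nat_lit 15) (nat_lit 4) (nat_lit 13) (nat_lit 4) (nat_lit 408) (nat_lit 362) (nat_lit 250)) (XT.lf (nat_lit 0) (nat_lit 151571598559) (nat_lit 152) (nat_lit 7004927376) (nat_lit 0) (nat_lit 73267376844) (nat_lit 13) (nat_lit 5) (nat_lit 15) (nat_lit 4) (nat_lit 13) (nat_lit 4) (nat_lit 409) (nat_lit 362) (nat_lit 249))) (XT.nd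 (nat_lit 78) (nat_lit 152) (nat_lit 0) (XT.lf (nat_lit 0) (nat_lit 88397245823) (nat_lit 76) (nat_lit 118179259975) (nat_lit 76) (nat_lit 39874068556) (nat_lit 12) (nat_lit 4) (nat_lit 13) (nat_lit 5) (nat_lit 13) (nat_lit 4) (nat_lit 410) (nat_lit 362) (nat_lit 248)) (XT.nd (nat_lit 78) (nat_lit 76) (nat_lit 0) (XT.lf (nat_lit 0) (nat_lit 3763429326) (nat_lit 152) (nat_lit 70478156295) (nat_lit 76) (nat_lit 187961344039) (nat_lit 11) (nat_lit 5) (nat_lit 13) (nat_lit 5) (nat_lit 12) (nat_lit 4) (nat_lit 411) (nat_lit 362) (nat_lit 247)) (XT.lf (nat_lit 0) (nat_lit 24279723751) (nat_lit 76) (nat_lit 25040778369) (nat_lit 152) (nat_lit 229765491413) (nat_lit 10) (nat_lit 5) (nat_lit 11) (nat_lit 5) (nat_lit 12) (nat_lit 4) (nat_lit 412) (nat_lit 362) (nat_lit 246))))))) (XT.nd (nat_lit 702) (nat_lit 228) (nat_lit 0) (XT.nd (nat_lit 312) (nat_lit 152) (nat_lit 0) (XT.nd (nat_lit 156) (nat_lit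 76) (nat_lit 0) (XT.nd (nat_lit 78) (nat_lit 0) (nat_lit 0) (XT.lf (nat_lit 0) (nat_lit 101173790983) (nat_lit 152) (nat_lit 167267109489) (nat_lit 0) (nat_lit 28666670202) (nat_lit 10) (nat_lit 5) (nat_lit 12) (nat_lit 4) (nat_lit 10) (nat_lit 4) (nat_lit 413) (nat_lit 362) (nat_lit 245)) (XT.lf (nat_lit 0) (nat_lit 157824724023) (nat_lit 152) (nat_lit 73377256361) (nat_lit 0) (nat_lit 85316943277) (nat_lit 10) (nat_lit 5) (nat_lit 12) (nat_lit 4) (nat_lit 10) (nat_lit 4) (nat_lit 414) (nat_lit 362) (nat_lit 244))) (XT.nd (nat_lit 78) (nat_lit 0) (nat_lit 0) (XT.lf (nat_lit 0) (nat_lit 29497489107) (nat_lit 76) (nat_lit 190218705367) (nat_lit 76) (nat_lit 117710313543) (nat_lit 9) (nat_lit 4) (nat_lit 10) (nat_lit 5) (nat_lit 10) (nat_lit 4) (nat_lit 415) (nat_lit 362) (nat_lit 243)) (XT.lf (nat_lit 0) (nat_lit 144773411611) (nat_lit 76) (nat_lit 143790909118) (nat_lit 76) (nat_lit 71281951480)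 (nat_lit 9) (nat_lit 4) (nat_lit 10) (nat_lit 5) (nat_lit 10) (nat_lit 4) (nat_lit 416) (nat_lit 362) (nat_lit 242)))) (XT.nd (nat_lit 156) (nat_lit 76) (nat_lit 0) (XT.nd (nat_lit 78) (nat_lit 76) (nat_lit 0) (XT.lf (nat_lit 0) (nat_lit 269269711442) (nat_lit 76) (nat_lit 93649728179) (nat_lit 76) (nat_lit 21140246639) (nat_lit 9) (nat_lit 4) (nat_lit 10) (nat_lit 5) (nat_lit 10) (nat_lit 4) (nat_lit 417) (nat_lit 362) (nat_lit 241)) (XT.lf (nat_lit 0) (nat_lit 31360546218) (nat_lit 152) (nat_lit 7280030498) (nat_lit 76) (nat_lit 371506145324) (nat_lit 8) (nat_lit 5) (nat_lit 10) (nat_lit 5) (nat_lit 9) (nat_lit 4) (nat_lit 418) (nat_lit 362) (nat_lit 240))) (XT.nd (nat_lit 78) (nat_lit 0) (nat_lit 0) (XT.lf (nat_lit 0) (nat_lit 90244743148) (nat_lit 152) (nat_lit 324660543543) (nat_lit 0) (nat_lit 23105469265) (nat_lit 7) (nat_lit 5) (nat_lit 9) (nat_lit 4) (nat_lit 7) (nat_lit 4) (nat_lit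 419) (nat_lit 362) (nat_lit 239)) (XT.nd (nat_lit 78) (nat_lit 0) (nat_lit 0) (XT.lf (nat_lit 0) (nat_lit 155046795340) (nat_lit 152) (nat_lit 225053411406) (nat_lit 0) (nat_lit 87907136373) (nat_lit 7) (nat_lit 5) (nat_lit 9) (nat_lit 4) (nat_lit 7) (nat_lit 4) (nat_lit 420) (nat_lit 362) (nat_lit 238)) (XT.lf (nat_lit 0) (nat_lit 225032316455) (nat_lit 152) (nat_lit 117479095579) (nat_lit 0) (nat_lit 157892300930) (nat_lit 7) (nat_lit 5) (nat_lit 9) (nat_lit 4) (nat_lit 7) (nat_lit 4) (nat_lit 421) (nat_lit 362) (nat_lit 237)))))) (XT.nd (nat_lit 390) (nat_lit 152) (nat_lit 0) (XT.nd (nat_lit 156) (nat_lit 0) (nat_lit 0) (XT.nd (nat_lit 78) (nat_lit 76) (nat_lit 0) (XT.lf (nat_lit 0) (nat_lit 300616035507) (nat_lit 152) (nat_lit 1300118636) (nat_lit 0) (nat_lit 233475689834) (nat_lit 7) (nat_lit 5) (nat_lit 9) (nat_lit 4) (nat_lit 7) (nat_lit 4) (nat_lit 422) (nat_lit 362) (nat_lit 236))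 (XT.lf (nat_lit 0) (nat_lit 130710664240) (nat_lit 76) (nat_lit 254678786393) (nat_lit 76) (nat_lit 187538135030) (nat_lit 6) (nat_lit 4) (nat_lit 7) (nat_lit 5) (nat_lit 7) (nat_lit 4) (nat_lit 423) (nat_lit 362) (nat_lit 235))) (XT.nd (nat_lit 78) (nat_lit 0) (nat_lit 0) (XT.lf (nat_lit 0) (nat_lit 273355089720) (nat_lit 76) (nat_lit 203624617012) (nat_lit 76) (nat_lit 136483682600) (nat_lit 6) (nat_lit 4) (nat_lit 7) (nat_lit 5) (nat_lit 7) (nat_lit 4) (nat_lit 424) (nat_lit 362) (nat_lit 234)) (XT.nd (nat_lit 78) (nat_lit 0) (nat_lit 0) (XT.lf (nat_lit 0) (nat_lit 427409996159) (nat_lit 76) (nat_lit 148486650320) (nat_lit 76) (nat_lit 81345453827) (nat_lit 6) (nat_lit 4) (nat_lit 7) (nat_lit 5) (nat_lit 7) (nat_lit 4) (nat_lit 425) (nat_lit 362) (nat_lit 233)) (XT.lf (nat_lit 0) (nat_lit 593788301521) (nat_lit 76) (nat_lit 88938142812) (nat_lit 76) (nat_lit 21796703651) (nat_lit 6)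 (nat_lit 4) (nat_lit 7) (nat_lit 5) (nat_lit 7) (nat_lit 4) (nat_lit 426) (nat_lit 362) (nat_lit 232))))) (XT.nd (nat_lit 156) (nat_lit 0) (nat_lit 0) (XT.nd (nat_lit 78) (nat_lit 0) (nat_lit 0) (XT.lf (nat_lit 0) (nat_lit 17754909885) (nat_lit 76) (nat_lit 23060750565) (nat_lit 152) (nat_lit 714655095615) (nat_lit 4) (nat_lit 5) (nat_lit 5) (nat_lit 5) (nat_lit 6) (nat_lit 4) (nat_lit 427) (nat_lit 362) (nat_lit 231)) (XT.lf (nat_lit 0) (nat_lit 111521772661) (nat_lit 152) (nat_lit 649232747805) (nat_lit 0) (nat_lit 49353372752) (nat_lit 4) (nat_lit 5) (nat_lit 6) (nat_lit 4) (nat_lit 4) (nat_lit 4) (nat_lit 428) (nat_lit 362) (nat_lit 230))) (XT.nd (nat_lit 78) (nat_lit 0) (nat_lit 0) (XT.lf (nat_lit 0) (nat_lit 188482918707) (nat_lit 152) (nat_lit 554270858661) (nat_lit 0) (nat_lit 126314340430) (nat_lit 4) (nat_lit 5) (nat_lit 6) (nat_lit 4) (nat_lit 4) (nat_lit 4) (nat_lit 429) (nat_lit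 362) (nat_lit 229)) (XT.nd (nat_lit 78) (nat_lit 0) (nat_lit 0) (XT.lf (nat_lit 0) (nat_lit 271600553035) (nat_lit 152) (nat_lit 451712830020) (nat_lit 0) (nat_lit 209431809603) (nat_lit 4) (nat_lit 5) (nat_lit 6) (nat_lit 4) (nat_lit 4) (nat_lit 4) (nat_lit 430) (nat_lit 362) (nat_lit 228)) (XT.lf (nat_lit 0) (nat_lit 361367224588) (nat_lit 152) (nat_lit 340950910602) (nat_lit 0) (nat_lit 299198328234) (nat_lit 4) (nat_lit 5) (nat_lit 6) (nat_lit 4) (nat_lit 4) (nat_lit 4) (nat_lit 431) (nat_lit 362) (nat_lit 227))))))))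
noncomputable def xc157 : XT := (XT.nd (nat_lit 1482) (nat_lit 0) (nat_lit 0) (XT.nd (nat_lit 702) (nat_lit 152) (nat_lit 0) (XT.nd (nat_lit 312) (nat_lit 0) (nat_lit 0) (XT.nd (nat_lit 156) (nat_lit 76) (nat_lit 0) (XT.nd (nat_lit 78) (nat_lit 0) (nat_lit 0) (XT.lf (nat_lit 0) (nat_lit 458314884014) (nat_lit 152) (nat_lit 221328733478) (nat_lit 0) (nat_lit 396145846066) (nat_lit 4) (nat_lit 5) (nat_lit 6) (nat_lit 4) (nat_lit 4) (nat_lit 4) (nat_lit 432) (nat_lit 362) (nat_lit 226)) (XT.lf (nat_lit 0) (nat_lit 563018035959) (nat_lit 152) (nat_lit 92137426486) (nat_lit 0) (nat_lit 500848866905) (nat_lit 4) (nat_lit 5) (nat_lit 6) (nat_lit 4) (nat_lit 4) (nat_lit 4) (nat_lit 433) (nat_lit 362) (nat_lit 225))) (XT.nd (nat_lit 78) (nat_lit 0) (nat_lit 0) (XT.lf (nat_lit 0) (nat_lit 49883987579) (nat_lit 76) (nat_lit 627412867070) (nat_lit 76) (nat_lit 565243576622) (nat_lit 3) (nat_lit 4)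 (nat_lit 4) (nat_lit 5) (nat_lit 4) (nat_lit 4) (nat_lit 434) (nat_lit 362) (nat_lit 224)) (XT.lf (nat_lit 0) (nat_lit 208506470381) (nat_lit 76) (nat_lit 594730420441) (nat_lit 76) (nat_lit 532561017590) (nat_lit 3) (nat_lit 4) (nat_lit 4) (nat_lit 5) (nat_lit 4) (nat_lit 4) (nat_lit 435) (nat_lit 362) (nat_lit 223)))) (XT.nd (nat_lit 156) (nat_lit 0) (nat_lit 0) (XT.nd (nat_lit 78) (nat_lit 0) (nat_lit 0) (XT.lf (nat_lit 0) (nat_lit 379818213407) (nat_lit 76) (nat_lit 559433649322) (nat_lit 76) (nat_lit 497264142395) (nat_lit 3) (nat_lit 4) (nat_lit 4) (nat_lit 5) (nat_lit 4) (nat_lit 4) (nat_lit 436) (nat_lit 362) (nat_lit 222)) (XT.lf (nat_lit 0) (nat_lit 564834397355) (nat_lit 76) (nat_lit 521313387662) (nat_lit 76) (nat_lit 459143784369) (nat_lit 3) (nat_lit 4) (nat_lit 4) (nat_lit 5) (nat_lit 4) (nat_lit 4) (nat_lit 437) (nat_lit 362) (nat_lit 221))) (XT.nd (nat_lit 78) (nat_lit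 0) (nat_lit 0) (XT.lf (nat_lit 0) (nat_lit 764651414427) (nat_lit 76) (nat_lit 480143737615) (nat_lit 76) (nat_lit 417974045093) (nat_lit 3) (nat_lit 4) (nat_lit 4) (nat_lit 5) (nat_lit 4) (nat_lit 4) (nat_lit 438) (nat_lit 362) (nat_lit 220)) (XT.nd (nat_lit 78) (nat_lit 0) (nat_lit 0) (XT.lf (nat_lit 0) (nat_lit 980453365465) (nat_lit 76) (nat_lit 435680730883) (nat_lit 76) (nat_lit 373510955742) (nat_lit 3) (nat_lit 4) (nat_lit 4) (nat_lit 5) (nat_lit 4) (nat_lit 4) (nat_lit 439) (nat_lit 362) (nat_lit 219)) (XT.lf (nat_lit 0) (nat_lit 1213519076845) (nat_lit 76) (nat_lit 387660882983) (nat_lit 76) (nat_lit 325491031343) (nat_lit 3) (nat_lit 4) (nat_lit 4) (nat_lit 5) (nat_lit 4) (nat_lit 4) (nat_lit 440) (nat_lit 362) (nat_lit 218)))))) (XT.nd (nat_lit 390) (nat_lit 152) (nat_lit 0) (XT.nd (nat_lit 156) (nat_lit 0) (nat_lit 0) (XT.nd (nat_lit 78) (nat_lit 0) (nat_lit 0) (XT.lf (nat_lit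 0) (nat_lit 1465229678709) (nat_lit 76) (nat_lit 335799631852) (nat_lit 76) (nat_lit 273629709380) (nat_lit 3) (nat_lit 4) (nat_lit 4) (nat_lit 5) (nat_lit 4) (nat_lit 4) (nat_lit 441) (nat_lit 362) (nat_lit 217)) (XT.lf (nat_lit 0) (nat_lit 1737076789438) (nat_lit 76) (nat_lit 279789651559) (nat_lit 76) (nat_lit 217619663501) (nat_lit 3) (nat_lit 4) (nat_lit 4) (nat_lit 5) (nat_lit 4) (nat_lit 4) (nat_lit 442) (nat_lit 362) (nat_lit 216))) (XT.nd (nat_lit 78) (nat_lit 0) (nat_lit 0) (XT.lf (nat_lit 0) (nat_lit 2030671354874) (nat_lit 76) (nat_lit 219299031108) (nat_lit 76) (nat_lit 157128982324) (nat_lit 3) (nat_lit 4) (nat_lit 4) (nat_lit 5) (nat_lit 4) (nat_lit 4) (nat_lit 443) (nat_lit 362) (nat_lit 215)) (XT.nd (nat_lit 78) (nat_lit 0) (nat_lit 0) (XT.lf (nat_lit 0) (nat_lit 2347753194663) (nat_lit 76) (nat_lit 153969307565) (nat_lit 76) (nat_lit 91799202551) (nat_lit 3) (nat_lit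 4) (nat_lit 4) (nat_lit 5) (nat_lit 4) (nat_lit 4) (nat_lit 444) (nat_lit 362) (nat_lit 214)) (XT.lf (nat_lit 0) (nat_lit 2690201312300) (nat_lit 76) (nat_lit 83413341825) (nat_lit 76) (nat_lit 21243184748) (nat_lit 3) (nat_lit 4) (nat_lit 4) (nat_lit 5) (nat_lit 4) (nat_lit 4) (nat_lit 445) (nat_lit 362) (nat_lit 213))))) (XT.nd (nat_lit 156) (nat_lit 0) (nat_lit 0) (XT.nd (nat_lit 78) (nat_lit 0) (nat_lit 0) (XT.lf (nat_lit 0) (nat_lit 48866957987) (nat_lit 76) (nat_lit 4516293586) (nat_lit 152) (nat_lit 2958717864192) (nat_lit 1) (nat_lit 5) (nat_lit 2) (nat_lit 5) (nat_lit 3) (nat_lit 4) (nat_lit 446) (nat_lit 362) (nat_lit 212)) (XT.lf (nat_lit 0) (nat_lit 137708468909) (nat_lit 152) (nat_lit 3028437713552) (nat_lit 0) (nat_lit 80143422685) (nat_lit 1) (nat_lit 5) (nat_lit 3) (nat_lit 4) (nat_lit 1) (nat_lit 4) (nat_lit 447) (nat_lit 362) (nat_lit 211))) (XT.nd (nat_lit 78) (nat_lit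 0) (nat_lit 0) (XT.lf (nat_lit 0) (nat_lit 228896892736) (nat_lit 152) (nat_lit 3098975097579) (nat_lit 0) (nat_lit 171331808244) (nat_lit 1) (nat_lit 5) (nat_lit 3) (nat_lit 4) (nat_lit 1) (nat_lit 4) (nat_lit 448) (nat_lit 362) (nat_lit 210)) (XT.nd (nat_lit 78) (nat_lit 0) (nat_lit 0) (XT.lf (nat_lit 0) (nat_lit 327380281929) (nat_lit 152) (nat_lit 3175155692205) (nat_lit 0) (nat_lit 269815162003) (nat_lit 1) (nat_lit 5) (nat_lit 3) (nat_lit 4) (nat_lit 1) (nat_lit 4) (nat_lit 449) (nat_lit 362) (nat_lit 209)) (XT.lf (nat_lit 0) (nat_lit 433742241758) (nat_lit 152) (nat_lit 3257430937988) (nat_lit 0) (nat_lit 376177089023) (nat_lit 1) (nat_lit 5) (nat_lit 3) (nat_lit 4) (nat_lit 1) (nat_lit 4) (nat_lit 450) (nat_lit 362) (nat_lit 208))))))) (XT.nd (nat_lit 46488) (nat_lit 0) (nat_lit 3420) (XT.nd (nat_lit 390) (nat_lit 0) (nat_lit 0) (XT.nd (nat_lit 156) (nat_lit 0) (nat_lit 0) (XT.nd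 (nat_lit 78) (nat_lit 0) (nat_lit 0) (XT.lf (nat_lit 0) (nat_lit 548613065318) (nat_lit 152) (nat_lit 3346288391943) (nat_lit 0) (nat_lit 491047882204) (nat_lit 1) (nat_lit 5) (nat_lit 3) (nat_lit 4) (nat_lit 1) (nat_lit 4) (nat_lit 451) (nat_lit 362) (nat_lit 207)) (XT.lf (nat_lit 0) (nat_lit 672673468601) (nat_lit 152) (nat_lit 3442254616757) (nat_lit 0) (nat_lit 615108257358) (nat_lit 1) (nat_lit 5) (nat_lit 3) (nat_lit 4) (nat_lit 1) (nat_lit 4) (nat_lit 452) (nat_lit 362) (nat_lit 206))) (XT.nd (nat_lit 78) (nat_lit 0) (nat_lit 0) (XT.lf (nat_lit 0) (nat_lit 806658624365) (nat_lit 152) (nat_lit 3545898301172) (nat_lit 0) (nat_lit 749093387078) (nat_lit 1) (nat_lit 5) (nat_lit 3) (nat_lit 4) (nat_lit 1) (nat_lit 4) (nat_lit 453) (nat_lit 362) (nat_lit 205)) (XT.nd (nat_lit 78) (nat_lit 0) (nat_lit 0) (XT.lf (nat_lit 0) (nat_lit 951362518721) (nat_lit 152) (nat_lit 3657833629984) (nat_lit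 0) (nat_lit 893797257318) (nat_lit 1) (nat_lit 5) (nat_lit 3) (nat_lit 4) (nat_lit 1) (nat_lit 4) (nat_lit 454) (nat_lit 362) (nat_lit 204)) (XT.lf (nat_lit 0) (nat_lit 1107642656226) (nat_lit 152) (nat_lit 3778723923659) (nat_lit 0) (nat_lit 1050077372494) (nat_lit 1) (nat_lit 5) (nat_lit 3) (nat_lit 4) (nat_lit 1) (nat_lit 4) (nat_lit 455) (nat_lit 362) (nat_lit 203))))) (XT.nd (nat_lit 45864) (nat_lit 0) (nat_lit 4560) (XT.nd (nat_lit 78) (nat_lit 0) (nat_lit 0) (XT.lf (nat_lit 0) (nat_lit 1276425141400) (nat_lit 152) (nat_lit 3909285569124) (nat_lit 0) (nat_lit 1218859836993) (nat_lit 1) (nat_lit 5) (nat_lit 3) (nat_lit 4) (nat_lit 1) (nat_lit 4) (nat_lit 456) (nat_lit 362) (nat_lit 202)) (XT.lf (nat_lit 0) (nat_lit 1458710166748) (nat_lit 152) (nat_lit 4050292265017) (nat_lit 0) (nat_lit 1401144843196) (nat_lit 1) (nat_lit 5) (nat_lit 3) (nat_lit 4) (nat_lit 1) (nat_lit 4) (nat_lit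 457) (nat_lit 362) (nat_lit 201))) (XT.nd (nat_lit 78) (nat_lit 0) (nat_lit 0) (XT.lf (nat_lit 0) (nat_lit 9649979396) (nat_lit 532) (nat_lit 1167412833) (nat_lit 532) (nat_lit 1167412833) (nat_lit 61) (nat_lit 3) (nat_lit 68) (nat_lit 3) (nat_lit 68) (nat_lit 5) (nat_lit 363) (nat_lit 363) (nat_lit 294)) (XT.nd (nat_lit 78) (nat_lit 0) (nat_lit 76) (XT.lf (nat_lit 76) (nat_lit 9706133792) (nat_lit 0) (nat_lit 10706160236) (nat_lit 532) (nat_lit 4488742977) (nat_lit 62) (nat_lit 5) (nat_lit 61) (nat_lit 3) (nat_lit 68) (nat_lit 5) (nat_lit 364) (nat_lit 363) (nat_lit 293)) (XT.lf (nat_lit 0) (nat_lit 21694761877) (nat_lit 456) (nat_lit 3093833845) (nat_lit 532) (nat_lit 1111903710) (nat_lit 62) (nat_lit 5) (nat_lit 68) (nat_lit 5) (nat_lit 69) (nat_lit 5) (nat_lit 365) (nat_lit 363) (nat_lit 292)))))) (XT.nd (nat_lit 390) (nat_lit 760) (nat_lit 0) (XT.nd (nat_lit 156) (nat_lit 456) (nat_lit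 0) (XT.nd (nat_lit 78) (nat_lit 0) (nat_lit 0) (XT.lf (nat_lit 76) (nat_lit 10200976289) (nat_lit 0) (nat_lit 13392333734) (nat_lit 532) (nat_lit 3345542297) (nat_lit 63) (nat_lit 5) (nat_lit 62) (nat_lit 5) (nat_lit 69) (nat_lit 5) (nat_lit 366) (nat_lit 363) (nat_lit 291)) (XT.lf (nat_lit 76) (nat_lit 24728929458) (nat_lit 0) (nat_lit 990052601) (nat_lit 532) (nat_lit 2335283379) (nat_lit 63) (nat_lit 5) (nat_lit 62) (nat_lit 5) (nat_lit 69) (nat_lit 5) (nat_lit 367) (nat_lit 363) (nat_lit 290))) (XT.nd (nat_lit 78) (nat_lit 532) (nat_lit 0) (XT.lf (nat_lit 76) (nat_lit 11426809800) (nat_lit 0) (nat_lit 17152447197) (nat_lit 532) (nat_lit 634501045) (nat_lit 64) (nat_lit 5) (nat_lit 63) (nat_lit 5) (nat_lit 70) (nat_lit 5) (nat_lit 368) (nat_lit 363) (nat_lit 289)) (XT.nd (nat_lit 78) (nat_lit 0) (nat_lit 76) (XT.lf (nat_lit 0) (nat_lit 1252863166) (nat_lit 532) (nat_lit 2974452768)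 (nat_lit 608) (nat_lit 26227536470) (nat_lit 56) (nat_lit 5) (nat_lit 63) (nat_lit 5) (nat_lit 64) (nat_lit 5) (nat_lit 369) (nat_lit 363) (nat_lit 288)) (XT.lf (nat_lit 0) (nat_lit 3821396229) (nat_lit 532) (nat_lit 18326593795) (nat_lit 76) (nat_lit 9600777338) (nat_lit 57) (nat_lit 5) (nat_lit 64) (nat_lit 5) (nat_lit 58) (nat_lit 5) (nat_lit 370) (nat_lit 363) (nat_lit 287))))) (XT.nd (nat_lit 156) (nat_lit 456) (nat_lit 0) (XT.nd (nat_lit 78) (nat_lit 380) (nat_lit 0) (XT.lf (nat_lit 0) (nat_lit 6781380958) (nat_lit 532) (nat_lit 1958813489) (nat_lit 76) (nat_lit 24391131172) (nat_lit 57) (nat_lit 5) (nat_lit 64) (nat_lit 5) (nat_lit 58) (nat_lit 5) (nat_lit 371) (nat_lit 363) (nat_lit 286)) (XT.lf (nat_lit 0) (nat_lit 10517597090) (nat_lit 456) (nat_lit 18202239520) (nat_lit 76) (nat_lit 5861504374) (nat_lit 52) (nat_lit 5) (nat_lit 58) (nat_lit 5) (nat_lit 53) (nat_lit 5) (nat_lit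 372) (nat_lit 363) (nat_lit 285))) (XT.nd (nat_lit 78) (nat_lit 456) (nat_lit 0) (XT.lf (nat_lit 0) (nat_lit 14828297669) (nat_lit 456) (nat_lit 82782096) (nat_lit 76) (nat_lit 21214237376) (nat_lit 52) (nat_lit 5) (nat_lit 58) (nat_lit 5) (nat_lit 53) (nat_lit 5) (nat_lit 373) (nat_lit 363) (nat_lit 284)) (XT.nd (nat_lit 78) (nat_lit 228) (nat_lit 0) (XT.lf (nat_lit 0) (nat_lit 19983969958) (nat_lit 304) (nat_lit 17260931093) (nat_lit 76) (nat_lit 507907138) (nat_lit 49) (nat_lit 5) (nat_lit 53) (nat_lit 5) (nat_lit 50) (nat_lit 5) (nat_lit 374) (nat_lit 363) (nat_lit 283)) (XT.lf (nat_lit 0) (nat_lit 2961133439) (nat_lit 228) (nat_lit 23046173660) (nat_lit 304) (nat_lit 13466780140) (nat_lit 46) (nat_lit 5) (nat_lit 49) (nat_lit 5) (nat_lit 50) (nat_lit 5) (nat_lit 375) (nat_lit 363) (nat_lit 282))))))))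
noncomputable def xc158 : XT := (XT.nd (nat_lit 1482) (nat_lit 988) (nat_lit 0) (XT.nd (nat_lit 702) (nat_lit 760) (nat_lit 0) (XT.nd (nat_lit 312) (nat_lit 532) (nat_lit 0) (XT.nd (nat_lit 156) (nat_lit 304) (nat_lit 0) (XT.nd (nat_lit 78) (nat_lit 152) (nat_lit 0) (XT.lf (nat_lit 0) (nat_lit 25776238654) (nat_lit 228) (nat_lit 7202853427) (nat_lit 304) (nat_lit 8316655248) (nat_lit 46) (nat_lit 5) (nat_lit 49) (nat_lit 5) (nat_lit 50) (nat_lit 5) (nat_lit 376) (nat_lit 363) (nat_lit 281)) (XT.lf (nat_lit 0) (nat_lit 7272656928) (nat_lit 152) (nat_lit 33644167862) (nat_lit 228) (nat_lit 2313663847) (nat_lit 44) (nat_lit 5) (nat_lit 46) (nat_lit 5) (nat_lit 47) (nat_lit 5) (nat_lit 377) (nat_lit 363) (nat_lit 280))) (XT.nd (nat_lit 78) (nat_lit 228) (nat_lit 0) (XT.lf (nat_lit 0) (nat_lit 4578533505) (nat_lit 228) (nat_lit 12820025462) (nat_lit 76) (nat_lit 27864028525) (nat_lit 43) (nat_lit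 5) (nat_lit 46) (nat_lit 5) (nat_lit 44) (nat_lit 5) (nat_lit 378) (nat_lit 363) (nat_lit 279)) (XT.lf (nat_lit 0) (nat_lit 12211991407) (nat_lit 304) (nat_lit 34701200330) (nat_lit 76) (nat_lit 514068102) (nat_lit 40) (nat_lit 5) (nat_lit 44) (nat_lit 5) (nat_lit 41) (nat_lit 5) (nat_lit 379) (nat_lit 363) (nat_lit 278)))) (XT.nd (nat_lit 156) (nat_lit 380) (nat_lit 0) (XT.nd (nat_lit 78) (nat_lit 152) (nat_lit 0) (XT.lf (nat_lit 0) (nat_lit 21263294488) (nat_lit 304) (nat_lit 9159235550) (nat_lit 76) (nat_lit 19278005984) (nat_lit 40) (nat_lit 5) (nat_lit 44) (nat_lit 5) (nat_lit 41) (nat_lit 5) (nat_lit 380) (nat_lit 363) (nat_lit 277)) (XT.lf (nat_lit 0) (nat_lit 19390451488) (nat_lit 152) (nat_lit 12110545998) (nat_lit 228) (nat_lit 20617696428) (nat_lit 38) (nat_lit 5) (nat_lit 40) (nat_lit 5) (nat_lit 41) (nat_lit 5) (nat_lit 381) (nat_lit 363) (nat_lit 276))) (XT.nd (nat_lit 78)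 (nat_lit 380) (nat_lit 0) (XT.lf (nat_lit 0) (nat_lit 42995112232) (nat_lit 228) (nat_lit 4161900521) (nat_lit 76) (nat_lit 7538303072) (nat_lit 38) (nat_lit 5) (nat_lit 41) (nat_lit 5) (nat_lit 39) (nat_lit 5) (nat_lit 382) (nat_lit 363) (nat_lit 275)) (XT.nd (nat_lit 78) (nat_lit 228) (nat_lit 0) (XT.lf (nat_lit 0) (nat_lit 27758449444) (nat_lit 152) (nat_lit 28628831873) (nat_lit 228) (nat_lit 1012506961) (nat_lit 36) (nat_lit 5) (nat_lit 38) (nat_lit 5) (nat_lit 39) (nat_lit 5) (nat_lit 383) (nat_lit 363) (nat_lit 274)) (XT.lf (nat_lit 0) (nat_lit 1995851074) (nat_lit 152) (nat_lit 8168765371) (nat_lit 228) (nat_lit 50122850385) (nat_lit 33) (nat_lit 5) (nat_lit 35) (nat_lit 5) (nat_lit 36) (nat_lit 5) (nat_lit 384) (nat_lit 363) (nat_lit 273)))))) (XT.nd (nat_lit 390) (nat_lit 456) (nat_lit 0) (XT.nd (nat_lit 156) (nat_lit 152) (nat_lit 0) (XT.nd (nat_lit 78) (nat_lit 152) (nat_lit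 0) (XT.lf (nat_lit 0) (nat_lit 23344196515) (nat_lit 228) (nat_lit 25879381956) (nat_lit 76) (nat_lit 14087440431) (nat_lit 33) (nat_lit 5) (nat_lit 36) (nat_lit 5) (nat_lit 34) (nat_lit 5) (nat_lit 385) (nat_lit 363) (nat_lit 272)) (XT.lf (nat_lit 0) (nat_lit 9377688223) (nat_lit 152) (nat_lit 28634941778) (nat_lit 228) (nat_lit 28529068241) (nat_lit 31) (nat_lit 5) (nat_lit 33) (nat_lit 5) (nat_lit 34) (nat_lit 5) (nat_lit 386) (nat_lit 363) (nat_lit 271))) (XT.nd (nat_lit 78) (nat_lit 152) (nat_lit 0) (XT.lf (nat_lit 0) (nat_lit 48922159377) (nat_lit 152) (nat_lit 5636864304) (nat_lit 228) (nat_lit 15415451312) (nat_lit 31) (nat_lit 5) (nat_lit 33) (nat_lit 5) (nat_lit 34) (nat_lit 5) (nat_lit 387) (nat_lit 363) (nat_lit 270)) (XT.nd (nat_lit 78) (nat_lit 76) (nat_lit 0) (XT.lf (nat_lit 0) (nat_lit 18402314707) (nat_lit 76) (nat_lit 54928262284) (nat_lit 152) (nat_lit 279182810) (nat_lit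 30) (nat_lit 5) (nat_lit 31) (nat_lit 5) (nat_lit 32) (nat_lit 4) (nat_lit 388) (nat_lit 363) (nat_lit 269)) (XT.lf (nat_lit 0) (nat_lit 15998287430) (nat_lit 152) (nat_lit 15831842466) (nat_lit 76) (nat_lit 45616097289) (nat_lit 29) (nat_lit 5) (nat_lit 31) (nat_lit 5) (nat_lit 30) (nat_lit 5) (nat_lit 389) (nat_lit 363) (nat_lit 268))))) (XT.nd (nat_lit 156) (nat_lit 304) (nat_lit 0) (XT.nd (nat_lit 78) (nat_lit 0) (nat_lit 0) (XT.lf (nat_lit 0) (nat_lit 28087140700) (nat_lit 152) (nat_lit 6148557068) (nat_lit 228) (nat_lit 47299509425) (nat_lit 27) (nat_lit 5) (nat_lit 29) (nat_lit 5) (nat_lit 30) (nat_lit 5) (nat_lit 390) (nat_lit 363) (nat_lit 267)) (XT.lf (nat_lit 0) (nat_lit 54892776301) (nat_lit 228) (nat_lit 10031588064) (nat_lit 76) (nat_lit 20950088507) (nat_lit 27) (nat_lit 5) (nat_lit 30) (nat_lit 5) (nat_lit 28) (nat_lit 4) (nat_lit 391) (nat_lit 363) (nat_lit 266))) (XT.nd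 (nat_lit 78) (nat_lit 228) (nat_lit 0) (XT.lf (nat_lit 0) (nat_lit 38626596843) (nat_lit 76) (nat_lit 39662072124) (nat_lit 152) (nat_lit 12185270610) (nat_lit 26) (nat_lit 5) (nat_lit 27) (nat_lit 5) (nat_lit 28) (nat_lit 4) (nat_lit 392) (nat_lit 363) (nat_lit 265)) (XT.nd (nat_lit 78) (nat_lit 152) (nat_lit 0) (XT.lf (nat_lit 0) (nat_lit 7987910390) (nat_lit 152) (nat_lit 3877977354) (nat_lit 76) (nat_lit 83537565516) (nat_lit 25) (nat_lit 5) (nat_lit 27) (nat_lit 5) (nat_lit 26) (nat_lit 5) (nat_lit 393) (nat_lit 363) (nat_lit 264)) (XT.lf (nat_lit 0) (nat_lit 30795768351) (nat_lit 228) (nat_lit 50966316363) (nat_lit 76) (nat_lit 18805592744) (nat_lit 23) (nat_lit 5) (nat_lit 26) (nat_lit 5) (nat_lit 24) (nat_lit 4) (nat_lit 394) (nat_lit 363) (nat_lit 263))))))) (XT.nd (nat_lit 780) (nat_lit 456) (nat_lit 0) (XT.nd (nat_lit 390) (nat_lit 228) (nat_lit 0) (XT.nd (nat_lit 156) (nat_lit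 228) (nat_lit 0) (XT.nd (nat_lit 78) (nat_lit 0) (nat_lit 0) (XT.lf (nat_lit 0) (nat_lit 1187566029) (nat_lit 76) (nat_lit 54684047203) (nat_lit 152) (nat_lit 50237958583) (nat_lit 22) (nat_lit 5) (nat_lit 23) (nat_lit 5) (nat_lit 24) (nat_lit 4) (nat_lit 395) (nat_lit 363) (nat_lit 262)) (XT.lf (nat_lit 0) (nat_lit 60408442302) (nat_lit 76) (nat_lit 23936471026) (nat_lit 152) (nat_lit 27638594201) (nat_lit 22) (nat_lit 5) (nat_lit 23) (nat_lit 5) (nat_lit 24) (nat_lit 4) (nat_lit 396) (nat_lit 363) (nat_lit 261))) (XT.nd (nat_lit 78) (nat_lit 152) (nat_lit 0) (XT.lf (nat_lit 0) (nat_lit 6119114015) (nat_lit 76) (nat_lit 109345091544) (nat_lit 76) (nat_lit 2833703048) (nat_lit 21) (nat_lit 4) (nat_lit 22) (nat_lit 5) (nat_lit 22) (nat_lit 4) (nat_lit 397) (nat_lit 363) (nat_lit 260)) (XT.nd (nat_lit 78) (nat_lit 76) (nat_lit 0) (XT.lf (nat_lit 0) (nat_lit 24823741140) (nat_lit 152) (nat_lit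 54880855135) (nat_lit 76) (nat_lit 45201454217) (nat_lit 20) (nat_lit 5) (nat_lit 22) (nat_lit 5) (nat_lit 21) (nat_lit 4) (nat_lit 398) (nat_lit 363) (nat_lit 259)) (XT.lf (nat_lit 0) (nat_lit 7288523093) (nat_lit 76) (nat_lit 47425610095) (nat_lit 152) (nat_lit 77308947255) (nat_lit 19) (nat_lit 5) (nat_lit 20) (nat_lit 5) (nat_lit 21) (nat_lit 4) (nat_lit 399) (nat_lit 363) (nat_lit 258))))) (XT.nd (nat_lit 156) (nat_lit 152) (nat_lit 0) (XT.nd (nat_lit 78) (nat_lit 76) (nat_lit 0) (XT.lf (nat_lit 0) (nat_lit 77549265241) (nat_lit 76) (nat_lit 10945244885) (nat_lit 152) (nat_lit 51095062940) (nat_lit 19) (nat_lit 5) (nat_lit 20) (nat_lit 5) (nat_lit 21) (nat_lit 4) (nat_lit 400) (nat_lit 363) (nat_lit 257)) (XT.lf (nat_lit 0) (nat_lit 5244353938) (nat_lit 76) (nat_lit 120541710764) (nat_lit 76) (nat_lit 21910621113) (nat_lit 18) (nat_lit 4) (nat_lit 19) (nat_lit 5) (nat_lit 19) (nat_lit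 4) (nat_lit 401) (nat_lit 363) (nat_lit 256))) (XT.nd (nat_lit 78) (nat_lit 76) (nat_lit 0) (XT.lf (nat_lit 0) (nat_lit 11150879745) (nat_lit 152) (nat_lit 75439198226) (nat_lit 76) (nat_lit 69681966050) (nat_lit 17) (nat_lit 5) (nat_lit 19) (nat_lit 5) (nat_lit 18) (nat_lit 4) (nat_lit 402) (nat_lit 363) (nat_lit 255)) (XT.nd (nat_lit 78) (nat_lit 76) (nat_lit 0) (XT.lf (nat_lit 0) (nat_lit 45672002476) (nat_lit 152) (nat_lit 3637057802) (nat_lit 76) (nat_lit 116178966896) (nat_lit 17) (nat_lit 5) (nat_lit 19) (nat_lit 5) (nat_lit 18) (nat_lit 4) (nat_lit 403) (nat_lit 363) (nat_lit 254)) (XT.lf (nat_lit 0) (nat_lit 77798321659) (nat_lit 76) (nat_lit 7026104550) (nat_lit 152) (nat_lit 90467294254) (nat_lit 16) (nat_lit 5) (nat_lit 17) (nat_lit 5) (nat_lit 18) (nat_lit 4) (nat_lit 404) (nat_lit 363) (nat_lit 253)))))) (XT.nd (nat_lit 390) (nat_lit 228) (nat_lit 0) (XT.nd (nat_lit 156)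 (nat_lit 152) (nat_lit 0) (XT.nd (nat_lit 78) (nat_lit 76) (nat_lit 0) (XT.lf (nat_lit 0) (nat_lit 128138923491) (nat_lit 152) (nat_lit 20850975599) (nat_lit 0) (nat_lit 36807420105) (nat_lit 16) (nat_lit 5) (nat_lit 18) (nat_lit 4) (nat_lit 16) (nat_lit 4) (nat_lit 405) (nat_lit 363) (nat_lit 252)) (XT.lf (nat_lit 0) (nat_lit 64988819094) (nat_lit 76) (nat_lit 111673918572) (nat_lit 76) (nat_lit 20341095914) (nat_lit 15) (nat_lit 4) (nat_lit 16) (nat_lit 5) (nat_lit 16) (nat_lit 4) (nat_lit 406) (nat_lit 363) (nat_lit 251))) (XT.nd (nat_lit 78) (nat_lit 76) (nat_lit 0) (XT.lf (nat_lit 0) (nat_lit 19546622087) (nat_lit 152) (nat_lit 50677070264) (nat_lit 76) (nat_lit 138798083413) (nat_lit 14) (nat_lit 5) (nat_lit 16) (nat_lit 5) (nat_lit 15) (nat_lit 4) (nat_lit 407) (nat_lit 363) (nat_lit 250)) (XT.nd (nat_lit 78) (nat_lit 0) (nat_lit 0) (XT.lf (nat_lit 0) (nat_lit 38566472676) (nat_lit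 76) (nat_lit 23886242683) (nat_lit 152) (nat_lit 159432066585) (nat_lit 13) (nat_lit 5) (nat_lit 14) (nat_lit 5) (nat_lit 15) (nat_lit 4) (nat_lit 408) (nat_lit 363) (nat_lit 249)) (XT.lf (nat_lit 0) (nat_lit 110840781516) (nat_lit 152) (nat_lit 98501883427) (nat_lit 0) (nat_lit 26270205078) (nat_lit 13) (nat_lit 5) (nat_lit 15) (nat_lit 4) (nat_lit 13) (nat_lit 4) (nat_lit 409) (nat_lit 363) (nat_lit 248))))) (XT.nd (nat_lit 156) (nat_lit 152) (nat_lit 0) (XT.nd (nat_lit 78) (nat_lit 76) (nat_lit 0) (XT.lf (nat_lit 0) (nat_lit 163719193994) (nat_lit 152) (nat_lit 7522747610) (nat_lit 0) (nat_lit 79147719680) (nat_lit 13) (nat_lit 5) (nat_lit 15) (nat_lit 4) (nat_lit 13) (nat_lit 4) (nat_lit 410) (nat_lit 363) (nat_lit 247)) (XT.lf (nat_lit 0) (nat_lit 95510521625) (nat_lit 76) (nat_lit 127613350353) (nat_lit 76) (nat_lit 43041044674) (nat_lit 12) (nat_lit 4) (nat_lit 13) (nat_lit 5) (nat_lit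 13) (nat_lit 4) (nat_lit 411) (nat_lit 363) (nat_lit 246))) (XT.nd (nat_lit 78) (nat_lit 76) (nat_lit 0) (XT.lf (nat_lit 0) (nat_lit 4084690104) (nat_lit 152) (nat_lit 76076920045) (nat_lit 76) (nat_lit 203015935545) (nat_lit 11) (nat_lit 5) (nat_lit 13) (nat_lit 5) (nat_lit 12) (nat_lit 4) (nat_lit 412) (nat_lit 363) (nat_lit 245)) (XT.nd (nat_lit 78) (nat_lit 0) (nat_lit 0) (XT.lf (nat_lit 0) (nat_lit 26260590690) (nat_lit 76) (nat_lit 27025168403) (nat_lit 152) (nat_lit 248125541408) (nat_lit 10) (nat_lit 5) (nat_lit 11) (nat_lit 5) (nat_lit 12) (nat_lit 4) (nat_lit 413) (nat_lit 363) (nat_lit 244)) (XT.lf (nat_lit 0) (nat_lit 109286278225) (nat_lit 152) (nat_lit 180611804474) (nat_lit 0) (nat_lit 30976603975) (nat_lit 10) (nat_lit 5) (nat_lit 12) (nat_lit 4) (nat_lit 10) (nat_lit 4) (nat_lit 414) (nat_lit 363) (nat_lit 243))))))))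
noncomputable def xc159 : XT := (XT.nd (nat_lit 1482) (nat_lit 228) (nat_lit 0) (XT.nd (nat_lit 702) (nat_lit 228) (nat_lit 0) (XT.nd (nat_lit 312) (nat_lit 152) (nat_lit 0) (XT.nd (nat_lit 156) (nat_lit 0) (nat_lit 0) (XT.nd (nat_lit 78) (nat_lit 76) (nat_lit 0) (XT.lf (nat_lit 0) (nat_lit 170467909318) (nat_lit 152) (nat_lit 79213479672) (nat_lit 0) (nat_lit 92157669256) (nat_lit 10) (nat_lit 5) (nat_lit 12) (nat_lit 4) (nat_lit 10) (nat_lit 4) (nat_lit 415) (nat_lit 363) (nat_lit 242)) (XT.lf (nat_lit 0) (nat_lit 31890385758) (nat_lit 76) (nat_lit 205419833024) (nat_lit 76) (nat_lit 127109069060) (nat_lit 9) (nat_lit 4) (nat_lit 10) (nat_lit 5) (nat_lit 10) (nat_lit 4) (nat_lit 416) (nat_lit 363) (nat_lit 241))) (XT.nd (nat_lit 78) (nat_lit 0) (nat_lit 0) (XT.lf (nat_lit 0) (nat_lit 156385930393) (nat_lit 76) (nat_lit 155279025576) (nat_lit 76) (nat_lit 76967776518) (nat_lit 9) (nat_lit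 4) (nat_lit 10) (nat_lit 5) (nat_lit 10) (nat_lit 4) (nat_lit 417) (nat_lit 363) (nat_lit 240)) (XT.lf (nat_lit 0) (nat_lit 290839664148) (nat_lit 76) (nat_lit 101127672849) (nat_lit 76) (nat_lit 22815974629) (nat_lit 9) (nat_lit 4) (nat_lit 10) (nat_lit 5) (nat_lit 10) (nat_lit 4) (nat_lit 418) (nat_lit 363) (nat_lit 239)))) (XT.nd (nat_lit 156) (nat_lit 0) (nat_lit 0) (XT.nd (nat_lit 78) (nat_lit 76) (nat_lit 0) (XT.lf (nat_lit 0) (nat_lit 33883016565) (nat_lit 152) (nat_lit 7835439652) (nat_lit 76) (nat_lit 401238911605) (nat_lit 8) (nat_lit 5) (nat_lit 10) (nat_lit 5) (nat_lit 9) (nat_lit 4) (nat_lit 419) (nat_lit 363) (nat_lit 238)) (XT.lf (nat_lit 0) (nat_lit 97477886713) (nat_lit 152) (nat_lit 350606329492) (nat_lit 0) (nat_lit 24966313387) (nat_lit 7) (nat_lit 5) (nat_lit 9) (nat_lit 4) (nat_lit 7) (nat_lit 4) (nat_lit 420) (nat_lit 363) (nat_lit 237))) (XT.nd (nat_lit 78) (nat_lit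 0) (nat_lit 0) (XT.lf (nat_lit 0) (nat_lit 167463098331) (nat_lit 152) (nat_lit 243032631045) (nat_lit 0) (nat_lit 94951194858) (nat_lit 7) (nat_lit 5) (nat_lit 9) (nat_lit 4) (nat_lit 7) (nat_lit 4) (nat_lit 421) (nat_lit 363) (nat_lit 236)) (XT.nd (nat_lit 78) (nat_lit 0) (nat_lit 0) (XT.lf (nat_lit 0) (nat_lit 243046530812) (nat_lit 152) (nat_lit 126854225750) (nat_lit 0) (nat_lit 170534321647) (nat_lit 7) (nat_lit 5) (nat_lit 9) (nat_lit 4) (nat_lit 7) (nat_lit 4) (nat_lit 422) (nat_lit 363) (nat_lit 235)) (XT.lf (nat_lit 0) (nat_lit 324676085977) (nat_lit 152) (nat_lit 1382648983) (nat_lit 0) (nat_lit 252163593765) (nat_lit 7) (nat_lit 5) (nat_lit 9) (nat_lit 4) (nat_lit 7) (nat_lit 4) (nat_lit 423) (nat_lit 363) (nat_lit 234)))))) (XT.nd (nat_lit 390) (nat_lit 0) (nat_lit 0) (XT.nd (nat_lit 156) (nat_lit 152) (nat_lit 0) (XT.nd (nat_lit 78) (nat_lit 0) (nat_lit 0) (XT.lf (nat_lit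 0) (nat_lit 141188452747) (nat_lit 76) (nat_lit 275042627460) (nat_lit 76) (nat_lit 202529873167) (nat_lit 6) (nat_lit 4) (nat_lit 7) (nat_lit 5) (nat_lit 7) (nat_lit 4) (nat_lit 424) (nat_lit 363) (nat_lit 233)) (XT.lf (nat_lit 0) (nat_lit 295242881498) (nat_lit 76) (nat_lit 219904899480) (nat_lit 76) (nat_lit 147391902519) (nat_lit 6) (nat_lit 4) (nat_lit 7) (nat_lit 5) (nat_lit 7) (nat_lit 4) (nat_lit 425) (nat_lit 363) (nat_lit 232))) (XT.nd (nat_lit 78) (nat_lit 152) (nat_lit 0) (XT.lf (nat_lit 0) (nat_lit 461620744556) (nat_lit 76) (nat_lit 160356613000) (nat_lit 76) (nat_lit 87843391347) (nat_lit 6) (nat_lit 4) (nat_lit 7) (nat_lit 5) (nat_lit 7) (nat_lit 4) (nat_lit 426) (nat_lit 363) (nat_lit 231)) (XT.nd (nat_lit 78) (nat_lit 152) (nat_lit 0) (XT.lf (nat_lit 0) (nat_lit 641307984813) (nat_lit 76) (nat_lit 96044889287) (nat_lit 76) (nat_lit 23531459586) (nat_lit 6) (nat_lit 4)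 (nat_lit 7) (nat_lit 5) (nat_lit 7) (nat_lit 4) (nat_lit 427) (nat_lit 363) (nat_lit 230)) (XT.lf (nat_lit 0) (nat_lit 19191939871) (nat_lit 76) (nat_lit 24897272729) (nat_lit 152) (nat_lit 771818539148) (nat_lit 4) (nat_lit 5) (nat_lit 5) (nat_lit 5) (nat_lit 6) (nat_lit 4) (nat_lit 428) (nat_lit 363) (nat_lit 229))))) (XT.nd (nat_lit 156) (nat_lit 0) (nat_lit 0) (XT.nd (nat_lit 78) (nat_lit 0) (nat_lit 0) (XT.lf (nat_lit 0) (nat_lit 120451384696) (nat_lit 152) (nat_lit 701155532935) (nat_lit 0) (nat_lit 53308976634) (nat_lit 4) (nat_lit 5) (nat_lit 6) (nat_lit 4) (nat_lit 4) (nat_lit 4) (nat_lit 429) (nat_lit 363) (nat_lit 228)) (XT.lf (nat_lit 0) (nat_lit 203568839446) (nat_lit 152) (nat_lit 598597865599) (nat_lit 0) (nat_lit 136426278462) (nat_lit 4) (nat_lit 5) (nat_lit 6) (nat_lit 4) (nat_lit 4) (nat_lit 4) (nat_lit 430) (nat_lit 363) (nat_lit 227))) (XT.nd (nat_lit 78) (nat_lit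 0) (nat_lit 0) (XT.lf (nat_lit 0) (nat_lit 293335344725) (nat_lit 152) (nat_lit 487836280723) (nat_lit 0) (nat_lit 226192642146) (nat_lit 4) (nat_lit 5) (nat_lit 6) (nat_lit 4) (nat_lit 4) (nat_lit 4) (nat_lit 431) (nat_lit 363) (nat_lit 226)) (XT.nd (nat_lit 78) (nat_lit 0) (nat_lit 0) (XT.lf (nat_lit 0) (nat_lit 390282850192) (nat_lit 152) (nat_lit 368214413359) (nat_lit 0) (nat_lit 323140016507) (nat_lit 4) (nat_lit 5) (nat_lit 6) (nat_lit 4) (nat_lit 4) (nat_lit 4) (nat_lit 432) (nat_lit 363) (nat_lit 225)) (XT.lf (nat_lit 0) (nat_lit 494985859583) (nat_lit 152) (nat_lit 239023393182) (nat_lit 0) (nat_lit 427842904505) (nat_lit 4) (nat_lit 5) (nat_lit 6) (nat_lit 4) (nat_lit 4) (nat_lit 4) (nat_lit 433) (nat_lit 363) (nat_lit 224))))))) (XT.nd (nat_lit 780) (nat_lit 152) (nat_lit 0) (XT.nd (nat_lit 390) (nat_lit 0) (nat_lit 0) (XT.nd (nat_lit 156) (nat_lit 0) (nat_lit 0) (XT.nd (nat_lit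 78) (nat_lit 76) (nat_lit 0) (XT.lf (nat_lit 0) (nat_lit 608064835177) (nat_lit 152) (nat_lit 99497643777) (nat_lit 0) (nat_lit 540921767697) (nat_lit 4) (nat_lit 5) (nat_lit 6) (nat_lit 4) (nat_lit 4) (nat_lit 4) (nat_lit 434) (nat_lit 363) (nat_lit 223)) (XT.lf (nat_lit 0) (nat_lit 53885210581) (nat_lit 76) (nat_lit 677600604636) (nat_lit 76) (nat_lit 610457433079) (nat_lit 3) (nat_lit 4) (nat_lit 4) (nat_lit 5) (nat_lit 4) (nat_lit 4) (nat_lit 435) (nat_lit 363) (nat_lit 222))) (XT.nd (nat_lit 78) (nat_lit 0) (nat_lit 0) (XT.lf (nat_lit 0) (nat_lit 225196713934) (nat_lit 76) (nat_lit 642303954261) (nat_lit 76) (nat_lit 575160686338) (nat_lit 3) (nat_lit 4) (nat_lit 4) (nat_lit 5) (nat_lit 4) (nat_lit 4) (nat_lit 436) (nat_lit 363) (nat_lit 221)) (XT.nd (nat_lit 78) (nat_lit 0) (nat_lit 0) (XT.lf (nat_lit 0) (nat_lit 410212675963) (nat_lit 76) (nat_lit 604183804402) (nat_lit 76) (nat_lit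 537040447250) (nat_lit 3) (nat_lit 4) (nat_lit 4) (nat_lit 5) (nat_lit 4) (nat_lit 4) (nat_lit 437) (nat_lit 363) (nat_lit 220)) (XT.lf (nat_lit 0) (nat_lit 610029487555) (nat_lit 76) (nat_lit 563014257874) (nat_lit 76) (nat_lit 495870818103) (nat_lit 3) (nat_lit 4) (nat_lit 4) (nat_lit 5) (nat_lit 4) (nat_lit 4) (nat_lit 438) (nat_lit 363) (nat_lit 219))))) (XT.nd (nat_lit 156) (nat_lit 0) (nat_lit 0) (XT.nd (nat_lit 78) (nat_lit 0) (nat_lit 0) (XT.lf (nat_lit 0) (nat_lit 825831248333) (nat_lit 76) (nat_lit 518551346993) (nat_lit 76) (nat_lit 451407830723) (nat_lit 3) (nat_lit 4) (nat_lit 4) (nat_lit 5) (nat_lit 4) (nat_lit 4) (nat_lit 439) (nat_lit 363) (nat_lit 218)) (XT.lf (nat_lit 0) (nat_lit 1058896783546) (nat_lit 76) (nat_lit 470531587844) (nat_lit 76) (nat_lit 403388000742) (nat_lit 3) (nat_lit 4) (nat_lit 4) (nat_lit 5) (nat_lit 4) (nat_lit 4) (nat_lit 440) (nat_lit 363) (nat_lit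 217))) (XT.nd (nat_lit 78) (nat_lit 0) (nat_lit 0) (XT.lf (nat_lit 0) (nat_lit 1310607222292) (nat_lit 76) (nat_lit 418670418890) (nat_lit 76) (nat_lit 351526766202) (nat_lit 3) (nat_lit 4) (nat_lit 4) (nat_lit 5) (nat_lit 4) (nat_lit 4) (nat_lit 441) (nat_lit 363) (nat_lit 216)) (XT.nd (nat_lit 78) (nat_lit 0) (nat_lit 0) (XT.lf (nat_lit 0) (nat_lit 1582454181987) (nat_lit 76) (nat_lit 362660514686) (nat_lit 76) (nat_lit 295516801271) (nat_lit 3) (nat_lit 4) (nat_lit 4) (nat_lit 5) (nat_lit 4) (nat_lit 4) (nat_lit 442) (nat_lit 363) (nat_lit 215)) (XT.lf (nat_lit 0) (nat_lit 1876048607576) (nat_lit 76) (nat_lit 302169964689) (nat_lit 76) (nat_lit 235026195045) (nat_lit 3) (nat_lit 4) (nat_lit 4) (nat_lit 5) (nat_lit 4) (nat_lit 4) (nat_lit 443) (nat_lit 363) (nat_lit 214)))))) (XT.nd (nat_lit 390) (nat_lit 0) (nat_lit 0) (XT.nd (nat_lit 156) (nat_lit 152) (nat_lit 0) (XT.nd (nat_lit 78)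 (nat_lit 0) (nat_lit 0) (XT.lf (nat_lit 0) (nat_lit 2193130317877) (nat_lit 76) (nat_lit 236840306380) (nat_lit 76) (nat_lit 169696484672) (nat_lit 3) (nat_lit 4) (nat_lit 4) (nat_lit 5) (nat_lit 4) (nat_lit 4) (nat_lit 444) (nat_lit 363) (nat_lit 213)) (XT.lf (nat_lit 0) (nat_lit 2535578315618) (nat_lit 76) (nat_lit 166284401043) (nat_lit 76) (nat_lit 99140531127) (nat_lit 3) (nat_lit 4) (nat_lit 4) (nat_lit 5) (nat_lit 4) (nat_lit 4) (nat_lit 445) (nat_lit 363) (nat_lit 212))) (XT.nd (nat_lit 78) (nat_lit 152) (nat_lit 0) (XT.lf (nat_lit 0) (nat_lit 2905421922268) (nat_lit 76) (nat_lit 90084139609) (nat_lit 76) (nat_lit 22940225057) (nat_lit 3) (nat_lit 4) (nat_lit 4) (nat_lit 5) (nat_lit 4) (nat_lit 4) (nat_lit 446) (nat_lit 363) (nat_lit 211)) (XT.nd (nat_lit 78) (nat_lit 0) (nat_lit 0) (XT.lf (nat_lit 0) (nat_lit 52780823477) (nat_lit 76) (nat_lit 4875320445) (nat_lit 152) (nat_lit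 3195412882342) (nat_lit 1) (nat_lit 5) (nat_lit 2) (nat_lit 5) (nat_lit 3) (nat_lit 4) (nat_lit 447) (nat_lit 363) (nat_lit 210)) (XT.lf (nat_lit 0) (nat_lit 148727263993) (nat_lit 152) (nat_lit 3270708440951) (nat_lit 0) (nat_lit 86556899039) (nat_lit 1) (nat_lit 5) (nat_lit 3) (nat_lit 4) (nat_lit 1) (nat_lit 4) (nat_lit 448) (nat_lit 363) (nat_lit 209))))) (XT.nd (nat_lit 156) (nat_lit 0) (nat_lit 0) (XT.nd (nat_lit 78) (nat_lit 0) (nat_lit 0) (XT.lf (nat_lit 0) (nat_lit 247210604869) (nat_lit 152) (nat_lit 3346889133455) (nat_lit 0) (nat_lit 185040207106) (nat_lit 1) (nat_lit 5) (nat_lit 3) (nat_lit 4) (nat_lit 1) (nat_lit 4) (nat_lit 449) (nat_lit 363) (nat_lit 208)) (XT.lf (nat_lit 0) (nat_lit 353572519960) (nat_lit 152) (nat_lit 3429164469868) (nat_lit 0) (nat_lit 291402091818) (nat_lit 1) (nat_lit 5) (nat_lit 3) (nat_lit 4) (nat_lit 1) (nat_lit 4) (nat_lit 450) (nat_lit 363) (nat_lit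 207))) (XT.nd (nat_lit 78) (nat_lit 0) (nat_lit 0) (XT.lf (nat_lit 0) (nat_lit 468443302095) (nat_lit 152) (nat_lit 3518022007737) (nat_lit 0) (nat_lit 406272845825) (nat_lit 1) (nat_lit 5) (nat_lit 3) (nat_lit 4) (nat_lit 1) (nat_lit 4) (nat_lit 451) (nat_lit 363) (nat_lit 206)) (XT.nd (nat_lit 78) (nat_lit 0) (nat_lit 0) (XT.lf (nat_lit 0) (nat_lit 592503667022) (nat_lit 152) (nat_lit 3613988310252) (nat_lit 0) (nat_lit 530333184706) (nat_lit 1) (nat_lit 5) (nat_lit 3) (nat_lit 4) (nat_lit 1) (nat_lit 4) (nat_lit 452) (nat_lit 363) (nat_lit 205)) (XT.lf (nat_lit 0) (nat_lit 726488787272) (nat_lit 152) (nat_lit 3717632066610) (nat_lit 0) (nat_lit 664318280841) (nat_lit 1) (nat_lit 5) (nat_lit 3) (nat_lit 4) (nat_lit 1) (nat_lit 4) (nat_lit 453) (nat_lit 363) (nat_lit 204))))))))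
noncomputable def xc160 : XT := (XT.nd (nat_lit 47268) (nat_lit 0) (nat_lit 1596) (XT.nd (nat_lit 46488) (nat_lit 0) (nat_lit 3268) (XT.nd (nat_lit 46098) (nat_lit 0) (nat_lit 4560) (XT.nd (nat_lit 156) (nat_lit 0) (nat_lit 0) (XT.nd (nat_lit 78) (nat_lit 0) (nat_lit 0) (XT.lf (nat_lit 0) (nat_lit 871192648743) (nat_lit 152) (nat_lit 3829567462037) (nat_lit 0) (nat_lit 809022119983) (nat_lit 1) (nat_lit 5) (nat_lit 3) (nat_lit 4) (nat_lit 1) (nat_lit 4) (nat_lit 454) (nat_lit 363) (nat_lit 203)) (XT.lf (nat_lit 0) (nat_lit 1027472755801) (nat_lit 152) (nat_lit 3950457817393) (nat_lit 0) (nat_lit 965302206365) (nat_lit 1) (nat_lit 5) (nat_lit 3) (nat_lit 4) (nat_lit 1) (nat_lit 4) (nat_lit 455) (nat_lit 363) (nat_lit 202))) (XT.nd (nat_lit 78) (nat_lit 0) (nat_lit 0) (XT.lf (nat_lit 0) (nat_lit 1196255212782) (nat_lit 152) (nat_lit 4081019519969) (nat_lit 0) (nat_lit 1134084644203) (nat_lit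 1) (nat_lit 5) (nat_lit 3) (nat_lit 4) (nat_lit 1) (nat_lit 4) (nat_lit 456) (nat_lit 363) (nat_lit 201)) (XT.lf (nat_lit 0) (nat_lit 1378540212025) (nat_lit 152) (nat_lit 4222026268743) (nat_lit 0) (nat_lit 1316369625720) (nat_lit 1) (nat_lit 5) (nat_lit 3) (nat_lit 4) (nat_lit 1) (nat_lit 4) (nat_lit 457) (nat_lit 363) (nat_lit 200)))) (XT.nd (nat_lit 156) (nat_lit 0) (nat_lit 76) (XT.nd (nat_lit 78) (nat_lit 0) (nat_lit 0) (XT.lf (nat_lit 0) (nat_lit 10526310834) (nat_lit 532) (nat_lit 1204402275) (nat_lit 532) (nat_lit 1204402275) (nat_lit 61) (nat_lit 3) (nat_lit 68) (nat_lit 3) (nat_lit 68) (nat_lit 5) (nat_lit 364) (nat_lit 364) (nat_lit 292)) (XT.lf (nat_lit 76) (nat_lit 10592575787) (nat_lit 0) (nat_lit 11648555511) (nat_lit 532) (nat_lit 4636084371) (nat_lit 62) (nat_lit 5) (nat_lit 61) (nat_lit 3) (nat_lit 68) (nat_lit 5) (nat_lit 365) (nat_lit 364) (nat_lit 291))) (XT.nd (nat_lit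 78) (nat_lit 0) (nat_lit 0) (XT.lf (nat_lit 0) (nat_lit 23609775968) (nat_lit 456) (nat_lit 3222894680) (nat_lit 532) (nat_lit 1125295574) (nat_lit 62) (nat_lit 5) (nat_lit 68) (nat_lit 5) (nat_lit 69) (nat_lit 5) (nat_lit 366) (nat_lit 364) (nat_lit 290)) (XT.nd (nat_lit 78) (nat_lit 0) (nat_lit 0) (XT.lf (nat_lit 76) (nat_lit 11132501636) (nat_lit 0) (nat_lit 14517191496) (nat_lit 532) (nat_lit 3430551582) (nat_lit 63) (nat_lit 5) (nat_lit 62) (nat_lit 5) (nat_lit 69) (nat_lit 5) (nat_lit 367) (nat_lit 364) (nat_lit 289)) (XT.lf (nat_lit 76) (nat_lit 26814139410) (nat_lit 0) (nat_lit 1118767052) (nat_lit 532) (nat_lit 2353000402) (nat_lit 63) (nat_lit 5) (nat_lit 62) (nat_lit 5) (nat_lit 69) (nat_lit 5) (nat_lit 368) (nat_lit 364) (nat_lit 288)))))) (XT.nd (nat_lit 390) (nat_lit 608) (nat_lit 0) (XT.nd (nat_lit 156) (nat_lit 304) (nat_lit 0) (XT.nd (nat_lit 78) (nat_lit 532) (nat_lit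 0) (XT.lf (nat_lit 76) (nat_lit 12458682834) (nat_lit 0) (nat_lit 18553463791) (nat_lit 532) (nat_lit 526814673) (nat_lit 64) (nat_lit 5) (nat_lit 63) (nat_lit 5) (nat_lit 70) (nat_lit 5) (nat_lit 369) (nat_lit 364) (nat_lit 287)) (XT.lf (nat_lit 0) (nat_lit 1492462889) (nat_lit 532) (nat_lit 3095913622) (nat_lit 608) (nat_lit 28291565715) (nat_lit 56) (nat_lit 5) (nat_lit 63) (nat_lit 5) (nat_lit 64) (nat_lit 5) (nat_lit 370) (nat_lit 364) (nat_lit 286))) (XT.nd (nat_lit 78) (nat_lit 380) (nat_lit 0) (XT.lf (nat_lit 0) (nat_lit 4258447160) (nat_lit 532) (nat_lit 19668056794) (nat_lit 76) (nat_lit 10351519957) (nat_lit 57) (nat_lit 5) (nat_lit 64) (nat_lit 5) (nat_lit 58) (nat_lit 5) (nat_lit 371) (nat_lit 364) (nat_lit 285)) (XT.nd (nat_lit 78) (nat_lit 380) (nat_lit 0) (XT.lf (nat_lit 0) (nat_lit 7445501835) (nat_lit 532) (nat_lit 2000088471) (nat_lit 76) (nat_lit 26326385029) (nat_lit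 57) (nat_lit 5) (nat_lit 64) (nat_lit 5) (nat_lit 58) (nat_lit 5) (nat_lit 372) (nat_lit 364) (nat_lit 284)) (XT.lf (nat_lit 0) (nat_lit 11474245551) (nat_lit 456) (nat_lit 19536500821) (nat_lit 76) (nat_lit 6327764579) (nat_lit 52) (nat_lit 5) (nat_lit 58) (nat_lit 5) (nat_lit 53) (nat_lit 5) (nat_lit 373) (nat_lit 364) (nat_lit 283))))) (XT.nd (nat_lit 156) (nat_lit 380) (nat_lit 0) (XT.nd (nat_lit 78) (nat_lit 0) (nat_lit 0) (XT.lf (nat_lit 0) (nat_lit 24718777) (nat_lit 228) (nat_lit 16097141538) (nat_lit 304) (nat_lit 22884788980) (nat_lit 49) (nat_lit 5) (nat_lit 52) (nat_lit 5) (nat_lit 53) (nat_lit 5) (nat_lit 374) (nat_lit 364) (nat_lit 282)) (XT.lf (nat_lit 0) (nat_lit 21684340484) (nat_lit 304) (nat_lit 18523766042) (nat_lit 76) (nat_lit 556692869) (nat_lit 49) (nat_lit 5) (nat_lit 53) (nat_lit 5) (nat_lit 50) (nat_lit 5) (nat_lit 375) (nat_lit 364) (nat_lit 281))) (XT.nd (nat_lit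 78) (nat_lit 152) (nat_lit 0) (XT.lf (nat_lit 0) (nat_lit 3313075309) (nat_lit 228) (nat_lit 24871706424) (nat_lit 304) (nat_lit 14439387562) (nat_lit 46) (nat_lit 5) (nat_lit 49) (nat_lit 5) (nat_lit 50) (nat_lit 5) (nat_lit 376) (nat_lit 364) (nat_lit 280)) (XT.nd (nat_lit 78) (nat_lit 152) (nat_lit 0) (XT.lf (nat_lit 0) (nat_lit 27944866632) (nat_lit 228) (nat_lit 7762265841) (nat_lit 304) (nat_lit 8885010826) (nat_lit 46) (nat_lit 5) (nat_lit 49) (nat_lit 5) (nat_lit 50) (nat_lit 5) (nat_lit 377) (nat_lit 364) (nat_lit 279)) (XT.lf (nat_lit 0) (nat_lit 7964987173) (nat_lit 152) (nat_lit 36311283633) (nat_lit 228) (nat_lit 2405688572) (nat_lit 44) (nat_lit 5) (nat_lit 46) (nat_lit 5) (nat_lit 47) (nat_lit 5) (nat_lit 378) (nat_lit 364) (nat_lit 278))))))) (XT.nd (nat_lit 702) (nat_lit 684) (nat_lit 0) (XT.nd (nat_lit 312) (nat_lit 532) (nat_lit 0) (XT.nd (nat_lit 156) (nat_lit 152)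 (nat_lit 0) (XT.nd (nat_lit 78) (nat_lit 228) (nat_lit 0) (XT.lf (nat_lit 0) (nat_lit 5026679820) (nat_lit 228) (nat_lit 13738916626) (nat_lit 76) (nat_lit 30111380070) (nat_lit 43) (nat_lit 5) (nat_lit 46) (nat_lit 5) (nat_lit 44) (nat_lit 5) (nat_lit 379) (nat_lit 364) (nat_lit 277)) (XT.lf (nat_lit 0) (nat_lit 13267870093) (nat_lit 304) (nat_lit 37367577439) (nat_lit 76) (nat_lit 579615763) (nat_lit 40) (nat_lit 5) (nat_lit 44) (nat_lit 5) (nat_lit 41) (nat_lit 5) (nat_lit 380) (nat_lit 364) (nat_lit 276))) (XT.nd (nat_lit 78) (nat_lit 152) (nat_lit 0) (XT.lf (nat_lit 0) (nat_lit 23037431540) (nat_lit 304) (nat_lit 9790382804) (nat_lit 76) (nat_lit 20842859623) (nat_lit 40) (nat_lit 5) (nat_lit 44) (nat_lit 5) (nat_lit 41) (nat_lit 5) (nat_lit 381) (nat_lit 364) (nat_lit 275)) (XT.lf (nat_lit 0) (nat_lit 21040707259) (nat_lit 152) (nat_lit 13050412094) (nat_lit 228) (nat_lit 22191412027)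 (nat_lit 38) (nat_lit 5) (nat_lit 40) (nat_lit 5) (nat_lit 41) (nat_lit 5) (nat_lit 382) (nat_lit 364) (nat_lit 274)))) (XT.nd (nat_lit 156) (nat_lit 380) (nat_lit 0) (XT.nd (nat_lit 78) (nat_lit 152) (nat_lit 0) (XT.lf (nat_lit 0) (nat_lit 46500220265) (nat_lit 228) (nat_lit 4398574055) (nat_lit 76) (nat_lit 8166856215) (nat_lit 38) (nat_lit 5) (nat_lit 41) (nat_lit 5) (nat_lit 39) (nat_lit 5) (nat_lit 383) (nat_lit 364) (nat_lit 273)) (XT.lf (nat_lit 0) (nat_lit 30072966477) (nat_lit 152) (nat_lit 30888201498) (nat_lit 228) (nat_lit 1025524151) (nat_lit 36) (nat_lit 5) (nat_lit 38) (nat_lit 5) (nat_lit 39) (nat_lit 5) (nat_lit 384) (nat_lit 364) (nat_lit 272))) (XT.nd (nat_lit 78) (nat_lit 152) (nat_lit 0) (XT.lf (nat_lit 0) (nat_lit 2250341531) (nat_lit 152) (nat_lit 8789523380) (nat_lit 228) (nat_lit 54065592740) (nat_lit 33) (nat_lit 5) (nat_lit 35) (nat_lit 5) (nat_lit 36) (nat_lit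 5) (nat_lit 385) (nat_lit 364) (nat_lit 271)) (XT.nd (nat_lit 78) (nat_lit 152) (nat_lit 0) (XT.lf (nat_lit 0) (nat_lit 25269942075) (nat_lit 228) (nat_lit 27858027493) (nat_lit 76) (nat_lit 15243236844) (nat_lit 33) (nat_lit 5) (nat_lit 36) (nat_lit 5) (nat_lit 34) (nat_lit 5) (nat_lit 386) (nat_lit 364) (nat_lit 270)) (XT.lf (nat_lit 0) (nat_lit 10217286654) (nat_lit 152) (nat_lit 30892401417) (nat_lit 228) (nat_lit 30750827756) (nat_lit 31) (nat_lit 5) (nat_lit 33) (nat_lit 5) (nat_lit 34) (nat_lit 5) (nat_lit 387) (nat_lit 364) (nat_lit 269)))))) (XT.nd (nat_lit 390) (nat_lit 380) (nat_lit 0) (XT.nd (nat_lit 156) (nat_lit 228) (nat_lit 0) (XT.nd (nat_lit 78) (nat_lit 76) (nat_lit 0) (XT.lf (nat_lit 0) (nat_lit 52918694510) (nat_lit 152) (nat_lit 6056947057) (nat_lit 228) (nat_lit 16592607839) (nat_lit 31) (nat_lit 5) (nat_lit 33) (nat_lit 5) (nat_lit 34) (nat_lit 5) (nat_lit 388) (nat_lit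 364) (nat_lit 268)) (XT.lf (nat_lit 0) (nat_lit 19958521144) (nat_lit 76) (nat_lit 59289261912) (nat_lit 152) (nat_lit 246667192) (nat_lit 30) (nat_lit 5) (nat_lit 31) (nat_lit 5) (nat_lit 32) (nat_lit 4) (nat_lit 389) (nat_lit 364) (nat_lit 267))) (XT.nd (nat_lit 78) (nat_lit 152) (nat_lit 0) (XT.lf (nat_lit 0) (nat_lit 17326397101) (nat_lit 152) (nat_lit 17018026486) (nat_lit 76) (nat_lit 49293616709) (nat_lit 29) (nat_lit 5) (nat_lit 31) (nat_lit 5) (nat_lit 30) (nat_lit 5) (nat_lit 390) (nat_lit 364) (nat_lit 266)) (XT.nd (nat_lit 78) (nat_lit 0) (nat_lit 0) (XT.lf (nat_lit 0) (nat_lit 30412440818) (nat_lit 152) (nat_lit 6608669432) (nat_lit 228) (nat_lit 51033165533) (nat_lit 27) (nat_lit 5) (nat_lit 29) (nat_lit 5) (nat_lit 30) (nat_lit 5) (nat_lit 391) (nat_lit 364) (nat_lit 265)) (XT.lf (nat_lit 0) (nat_lit 59328013944) (nat_lit 228) (nat_lit 10758825549) (nat_lit 76) (nat_lit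 22654042650) (nat_lit 27) (nat_lit 5) (nat_lit 30) (nat_lit 5) (nat_lit 28) (nat_lit 4) (nat_lit 392) (nat_lit 364) (nat_lit 264))))) (XT.nd (nat_lit 156) (nat_lit 228) (nat_lit 0) (XT.nd (nat_lit 78) (nat_lit 76) (nat_lit 0) (XT.lf (nat_lit 0) (nat_lit 41790108086) (nat_lit 76) (nat_lit 42803989218) (nat_lit 152) (nat_lit 13114350548) (nat_lit 26) (nat_lit 5) (nat_lit 27) (nat_lit 5) (nat_lit 28) (nat_lit 4) (nat_lit 393) (nat_lit 364) (nat_lit 263)) (XT.lf (nat_lit 0) (nat_lit 8667177966) (nat_lit 152) (nat_lit 4118131933) (nat_lit 76) (nat_lit 90247183603) (nat_lit 25) (nat_lit 5) (nat_lit 27) (nat_lit 5) (nat_lit 26) (nat_lit 5) (nat_lit 394) (nat_lit 364) (nat_lit 262))) (XT.nd (nat_lit 78) (nat_lit 76) (nat_lit 0) (XT.lf (nat_lit 0) (nat_lit 33299034417) (nat_lit 228) (nat_lit 54972891953) (nat_lit 76) (nat_lit 20337980956) (nat_lit 23) (nat_lit 5) (nat_lit 26) (nat_lit 5) (nat_lit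 24) (nat_lit 4) (nat_lit 395) (nat_lit 364) (nat_lit 261)) (XT.nd (nat_lit 78) (nat_lit 0) (nat_lit 0) (XT.lf (nat_lit 0) (nat_lit 1351510405) (nat_lit 76) (nat_lit 59028160796) (nat_lit 152) (nat_lit 54215585268) (nat_lit 22) (nat_lit 5) (nat_lit 23) (nat_lit 5) (nat_lit 24) (nat_lit 4) (nat_lit 396) (nat_lit 364) (nat_lit 260)) (XT.lf (nat_lit 0) (nat_lit 65304950180) (nat_lit 76) (nat_lit 25823045946) (nat_lit 152) (nat_lit 29811339142) (nat_lit 22) (nat_lit 5) (nat_lit 23) (nat_lit 5) (nat_lit 24) (nat_lit 4) (nat_lit 397) (nat_lit 364) (nat_lit 259))))))))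
noncomputable def xc161 : XT := (XT.nd (nat_lit 1482) (nat_lit 532) (nat_lit 0) (XT.nd (nat_lit 702) (nat_lit 456) (nat_lit 0) (XT.nd (nat_lit 312) (nat_lit 228) (nat_lit 0) (XT.nd (nat_lit 156) (nat_lit 76) (nat_lit 0) (XT.nd (nat_lit 78) (nat_lit 76) (nat_lit 0) (XT.lf (nat_lit 0) (nat_lit 6672975868) (nat_lit 76) (nat_lit 118063405353) (nat_lit 76) (nat_lit 3022544265) (nat_lit 21) (nat_lit 4) (nat_lit 22) (nat_lit 5) (nat_lit 22) (nat_lit 4) (nat_lit 398) (nat_lit 364) (nat_lit 258)) (XT.lf (nat_lit 0) (nat_lit 26842937991) (nat_lit 152) (nat_lit 59209991947) (nat_lit 76) (nat_lit 48842929925) (nat_lit 20) (nat_lit 5) (nat_lit 22) (nat_lit 5) (nat_lit 21) (nat_lit 4) (nat_lit 399) (nat_lit 364) (nat_lit 257))) (XT.nd (nat_lit 78) (nat_lit 0) (nat_lit 0) (XT.lf (nat_lit 0) (nat_lit 7931383841) (nat_lit 76) (nat_lit 51192148761) (nat_lit 152) (nat_lit 83458802718) (nat_lit 19) (nat_lit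 5) (nat_lit 20) (nat_lit 5) (nat_lit 21) (nat_lit 4) (nat_lit 400) (nat_lit 364) (nat_lit 256)) (XT.lf (nat_lit 0) (nat_lit 83808557293) (nat_lit 76) (nat_lit 11795392122) (nat_lit 152) (nat_lit 55150389904) (nat_lit 19) (nat_lit 5) (nat_lit 20) (nat_lit 5) (nat_lit 21) (nat_lit 4) (nat_lit 401) (nat_lit 364) (nat_lit 255)))) (XT.nd (nat_lit 156) (nat_lit 76) (nat_lit 0) (XT.nd (nat_lit 78) (nat_lit 76) (nat_lit 0) (XT.lf (nat_lit 0) (nat_lit 5719593540) (nat_lit 76) (nat_lit 130158928206) (nat_lit 76) (nat_lit 23631524561) (nat_lit 18) (nat_lit 4) (nat_lit 19) (nat_lit 5) (nat_lit 19) (nat_lit 4) (nat_lit 402) (nat_lit 364) (nat_lit 254)) (XT.lf (nat_lit 0) (nat_lit 12071050273) (nat_lit 152) (nat_lit 81421280980) (nat_lit 76) (nat_lit 75279220885) (nat_lit 17) (nat_lit 5) (nat_lit 19) (nat_lit 5) (nat_lit 18) (nat_lit 4) (nat_lit 403) (nat_lit 364) (nat_lit 253))) (XT.nd (nat_lit 78)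 (nat_lit 76) (nat_lit 0) (XT.lf (nat_lit 0) (nat_lit 49351781330) (nat_lit 152) (nat_lit 3878899182) (nat_lit 76) (nat_lit 125494300498) (nat_lit 17) (nat_lit 5) (nat_lit 19) (nat_lit 5) (nat_lit 18) (nat_lit 4) (nat_lit 404) (nat_lit 364) (nat_lit 252)) (XT.nd (nat_lit 78) (nat_lit 0) (nat_lit 0) (XT.lf (nat_lit 0) (nat_lit 84070067009) (nat_lit 76) (nat_lit 7565556150) (nat_lit 152) (nat_lit 97677409174) (nat_lit 16) (nat_lit 5) (nat_lit 17) (nat_lit 5) (nat_lit 18) (nat_lit 4) (nat_lit 405) (nat_lit 364) (nat_lit 251)) (XT.lf (nat_lit 0) (nat_lit 138413914471) (nat_lit 152) (nat_lit 22473349045) (nat_lit 0) (nat_lit 39771925177) (nat_lit 16) (nat_lit 5) (nat_lit 18) (nat_lit 4) (nat_lit 16) (nat_lit 4) (nat_lit 406) (nat_lit 364) (nat_lit 250)))))) (XT.nd (nat_lit 390) (nat_lit 228) (nat_lit 0) (XT.nd (nat_lit 156) (nat_lit 76) (nat_lit 0) (XT.nd (nat_lit 78) (nat_lit 76) (nat_lit 0)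 (XT.lf (nat_lit 0) (nat_lit 70232472145) (nat_lit 76) (nat_lit 120586464331) (nat_lit 76) (nat_lit 21943343973) (nat_lit 15) (nat_lit 4) (nat_lit 16) (nat_lit 5) (nat_lit 16) (nat_lit 4) (nat_lit 407) (nat_lit 364) (nat_lit 249)) (XT.lf (nat_lit 0) (nat_lit 21132376883) (nat_lit 152) (nat_lit 54688823721) (nat_lit 76) (nat_lit 149920550562) (nat_lit 14) (nat_lit 5) (nat_lit 16) (nat_lit 5) (nat_lit 15) (nat_lit 4) (nat_lit 408) (nat_lit 364) (nat_lit 248))) (XT.nd (nat_lit 78) (nat_lit 0) (nat_lit 0) (XT.lf (nat_lit 0) (nat_lit 41693128929) (nat_lit 76) (nat_lit 25777191394) (nat_lit 152) (nat_lit 172163528844) (nat_lit 13) (nat_lit 5) (nat_lit 14) (nat_lit 5) (nat_lit 15) (nat_lit 4) (nat_lit 409) (nat_lit 364) (nat_lit 247)) (XT.nd (nat_lit 78) (nat_lit 0) (nat_lit 0) (XT.lf (nat_lit 0) (nat_lit 119728291769) (nat_lit 152) (nat_lit 106342613771) (nat_lit 0) (nat_lit 28389370270) (nat_lit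 13) (nat_lit 5) (nat_lit 15) (nat_lit 4) (nat_lit 13) (nat_lit 4) (nat_lit 410) (nat_lit 364) (nat_lit 246)) (XT.lf (nat_lit 0) (nat_lit 176835477413) (nat_lit 152) (nat_lit 8088067112) (nat_lit 0) (nat_lit 85495786131) (nat_lit 13) (nat_lit 5) (nat_lit 15) (nat_lit 4) (nat_lit 13) (nat_lit 4) (nat_lit 411) (nat_lit 364) (nat_lit 245))))) (XT.nd (nat_lit 156) (nat_lit 76) (nat_lit 0) (XT.nd (nat_lit 78) (nat_lit 76) (nat_lit 0) (XT.lf (nat_lit 0) (nat_lit 103186939602) (nat_lit 76) (nat_lit 137805056909) (nat_lit 76) (nat_lit 46464652865) (nat_lit 12) (nat_lit 4) (nat_lit 13) (nat_lit 5) (nat_lit 13) (nat_lit 4) (nat_lit 412) (nat_lit 364) (nat_lit 244)) (XT.lf (nat_lit 0) (nat_lit 4428771923) (nat_lit 152) (nat_lit 82129218407) (nat_lit 76) (nat_lit 219272371554) (nat_lit 11) (nat_lit 5) (nat_lit 13) (nat_lit 5) (nat_lit 12) (nat_lit 4) (nat_lit 413) (nat_lit 364) (nat_lit 243))) (XT.nd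 (nat_lit 78) (nat_lit 0) (nat_lit 0) (XT.lf (nat_lit 0) (nat_lit 28394436092) (nat_lit 76) (nat_lit 29171001974) (nat_lit 152) (nat_lit 267957418297) (nat_lit 10) (nat_lit 5) (nat_lit 11) (nat_lit 5) (nat_lit 12) (nat_lit 4) (nat_lit 414) (nat_lit 364) (nat_lit 242)) (XT.nd (nat_lit 78) (nat_lit 0) (nat_lit 0) (XT.lf (nat_lit 0) (nat_lit 118045113236) (nat_lit 152) (nat_lit 195029306982) (nat_lit 0) (nat_lit 33468964253) (nat_lit 10) (nat_lit 5) (nat_lit 12) (nat_lit 4) (nat_lit 10) (nat_lit 4) (nat_lit 415) (nat_lit 364) (nat_lit 241)) (XT.lf (nat_lit 0) (nat_lit 184120094613) (nat_lit 152) (nat_lit 85521445222) (nat_lit 0) (nat_lit 99543460536) (nat_lit 10) (nat_lit 5) (nat_lit 12) (nat_lit 4) (nat_lit 10) (nat_lit 4) (nat_lit 416) (nat_lit 364) (nat_lit 240))))))) (XT.nd (nat_lit 780) (nat_lit 228) (nat_lit 0) (XT.nd (nat_lit 390) (nat_lit 76) (nat_lit 0) (XT.nd (nat_lit 156) (nat_lit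 152) (nat_lit 0) (XT.nd (nat_lit 78) (nat_lit 0) (nat_lit 0) (XT.lf (nat_lit 0) (nat_lit 34469992409) (nat_lit 76) (nat_lit 221839386082) (nat_lit 76) (nat_lit 137262302844) (nat_lit 9) (nat_lit 4) (nat_lit 10) (nat_lit 5) (nat_lit 10) (nat_lit 4) (nat_lit 417) (nat_lit 364) (nat_lit 239)) (XT.lf (nat_lit 0) (nat_lit 168923078705) (nat_lit 76) (nat_lit 167688353563) (nat_lit 76) (nat_lit 83110854435) (nat_lit 9) (nat_lit 4) (nat_lit 10) (nat_lit 5) (nat_lit 10) (nat_lit 4) (nat_lit 418) (nat_lit 364) (nat_lit 238))) (XT.nd (nat_lit 78) (nat_lit 152) (nat_lit 0) (XT.lf (nat_lit 0) (nat_lit 314131164947) (nat_lit 76) (nat_lit 109205855140) (nat_lit 76) (nat_lit 24627970929) (nat_lit 9) (nat_lit 4) (nat_lit 10) (nat_lit 5) (nat_lit 10) (nat_lit 4) (nat_lit 419) (nat_lit 364) (nat_lit 237)) (XT.nd (nat_lit 78) (nat_lit 76) (nat_lit 0) (XT.lf (nat_lit 0) (nat_lit 36605340546) (nat_lit 152)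 (nat_lit 8439132433) (nat_lit 76) (nat_lit 433348548071) (nat_lit 8) (nat_lit 5) (nat_lit 10) (nat_lit 5) (nat_lit 9) (nat_lit 4) (nat_lit 420) (nat_lit 364) (nat_lit 236)) (XT.lf (nat_lit 0) (nat_lit 105287746690) (nat_lit 152) (nat_lit 378631638375) (nat_lit 0) (nat_lit 26974255101) (nat_lit 7) (nat_lit 5) (nat_lit 9) (nat_lit 4) (nat_lit 7) (nat_lit 4) (nat_lit 421) (nat_lit 364) (nat_lit 235))))) (XT.nd (nat_lit 156) (nat_lit 76) (nat_lit 0) (XT.nd (nat_lit 78) (nat_lit 0) (nat_lit 0) (XT.lf (nat_lit 0) (nat_lit 180870913827) (nat_lit 152) (nat_lit 262453762384) (nat_lit 0) (nat_lit 102557139191) (nat_lit 7) (nat_lit 5) (nat_lit 9) (nat_lit 4) (nat_lit 7) (nat_lit 4) (nat_lit 422) (nat_lit 364) (nat_lit 234)) (XT.lf (nat_lit 0) (nat_lit 262500223304) (nat_lit 152) (nat_lit 136982675714) (nat_lit 0) (nat_lit 184186186586) (nat_lit 7) (nat_lit 5) (nat_lit 9) (nat_lit 4) (nat_lit 7) (nat_lit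 4) (nat_lit 423) (nat_lit 364) (nat_lit 233))) (XT.nd (nat_lit 78) (nat_lit 76) (nat_lit 0) (XT.lf (nat_lit 0) (nat_lit 350659404362) (nat_lit 152) (nat_lit 1474845998) (nat_lit 0) (nat_lit 272345124977) (nat_lit 7) (nat_lit 5) (nat_lit 9) (nat_lit 4) (nat_lit 7) (nat_lit 4) (nat_lit 424) (nat_lit 364) (nat_lit 232)) (XT.nd (nat_lit 78) (nat_lit 0) (nat_lit 0) (XT.lf (nat_lit 0) (nat_lit 152501477671) (nat_lit 76) (nat_lit 297037068312) (nat_lit 76) (nat_lit 218722564234) (nat_lit 6) (nat_lit 4) (nat_lit 7) (nat_lit 5) (nat_lit 7) (nat_lit 4) (nat_lit 425) (nat_lit 364) (nat_lit 231)) (XT.lf (nat_lit 0) (nat_lit 318878931188) (nat_lit 76) (nat_lit 237488986489) (nat_lit 76) (nat_lit 159174274362) (nat_lit 6) (nat_lit 4) (nat_lit 7) (nat_lit 5) (nat_lit 7) (nat_lit 4) (nat_lit 426) (nat_lit 364) (nat_lit 230)))))) (XT.nd (nat_lit 390) (nat_lit 76) (nat_lit 0) (XT.nd (nat_lit 156) (nat_lit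 152) (nat_lit 0) (XT.nd (nat_lit 78) (nat_lit 0) (nat_lit 0) (XT.lf (nat_lit 0) (nat_lit 498565792241) (nat_lit 76) (nat_lit 173177452272) (nat_lit 76) (nat_lit 94862547509) (nat_lit 6) (nat_lit 4) (nat_lit 7) (nat_lit 5) (nat_lit 7) (nat_lit 4) (nat_lit 427) (nat_lit 364) (nat_lit 229)) (XT.lf (nat_lit 0) (nat_lit 692626871858) (nat_lit 76) (nat_lit 103721360275) (nat_lit 76) (nat_lit 25406277143) (nat_lit 6) (nat_lit 4) (nat_lit 7) (nat_lit 5) (nat_lit 7) (nat_lit 4) (nat_lit 428) (nat_lit 364) (nat_lit 228))) (XT.nd (nat_lit 78) (nat_lit 0) (nat_lit 0) (XT.lf (nat_lit 0) (nat_lit 20741558773) (nat_lit 76) (nat_lit 26881906159) (nat_lit 152) (nat_lit 833556336995) (nat_lit 4) (nat_lit 5) (nat_lit 5) (nat_lit 5) (nat_lit 6) (nat_lit 4) (nat_lit 429) (nat_lit 364) (nat_lit 227)) (XT.nd (nat_lit 78) (nat_lit 0) (nat_lit 0) (XT.lf (nat_lit 0) (nat_lit 130094242919) (nat_lit 152) (nat_lit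 757234399871) (nat_lit 0) (nat_lit 57579982540) (nat_lit 4) (nat_lit 5) (nat_lit 6) (nat_lit 4) (nat_lit 4) (nat_lit 4) (nat_lit 430) (nat_lit 364) (nat_lit 226)) (XT.lf (nat_lit 0) (nat_lit 219860594238) (nat_lit 152) (nat_lit 646473124756) (nat_lit 0) (nat_lit 147346202754) (nat_lit 4) (nat_lit 5) (nat_lit 6) (nat_lit 4) (nat_lit 4) (nat_lit 4) (nat_lit 431) (nat_lit 364) (nat_lit 225))))) (XT.nd (nat_lit 156) (nat_lit 76) (nat_lit 0) (XT.nd (nat_lit 78) (nat_lit 0) (nat_lit 0) (XT.lf (nat_lit 0) (nat_lit 316807957151) (nat_lit 152) (nat_lit 526851544207) (nat_lit 0) (nat_lit 244293444272) (nat_lit 4) (nat_lit 5) (nat_lit 6) (nat_lit 4) (nat_lit 4) (nat_lit 4) (nat_lit 432) (nat_lit 364) (nat_lit 224)) (XT.lf (nat_lit 0) (nat_lit 421510834548) (nat_lit 152) (nat_lit 397660789601) (nat_lit 0) (nat_lit 348996209267) (nat_lit 4) (nat_lit 5) (nat_lit 6) (nat_lit 4) (nat_lit 4) (nat_lit 4)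 (nat_lit 433) (nat_lit 364) (nat_lit 223))) (XT.nd (nat_lit 78) (nat_lit 76) (nat_lit 0) (XT.lf (nat_lit 0) (nat_lit 534589687925) (nat_lit 152) (nat_lit 258135286093) (nat_lit 0) (nat_lit 462074958568) (nat_lit 4) (nat_lit 5) (nat_lit 6) (nat_lit 4) (nat_lit 4) (nat_lit 4) (nat_lit 434) (nat_lit 364) (nat_lit 222)) (XT.nd (nat_lit 78) (nat_lit 76) (nat_lit 0) (XT.lf (nat_lit 0) (nat_lit 656714614191) (nat_lit 152) (nat_lit 107448215887) (nat_lit 0) (nat_lit 584199788467) (nat_lit 4) (nat_lit 5) (nat_lit 6) (nat_lit 4) (nat_lit 4) (nat_lit 4) (nat_lit 435) (nat_lit 364) (nat_lit 221)) (XT.lf (nat_lit 0) (nat_lit 58205032912) (nat_lit 76) (nat_lit 731804116141) (nat_lit 76) (nat_lit 659289201189) (nat_lit 3) (nat_lit 4) (nat_lit 4) (nat_lit 5) (nat_lit 4) (nat_lit 4) (nat_lit 436) (nat_lit 364) (nat_lit 220))))))))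
noncomputable def xc162 : XT := (XT.nd (nat_lit 1482) (nat_lit 0) (nat_lit 0) (XT.nd (nat_lit 702) (nat_lit 152) (nat_lit 0) (XT.nd (nat_lit 312) (nat_lit 0) (nat_lit 0) (XT.nd (nat_lit 156) (nat_lit 0) (nat_lit 0) (XT.nd (nat_lit 78) (nat_lit 0) (nat_lit 0) (XT.lf (nat_lit 0) (nat_lit 243220789460) (nat_lit 76) (nat_lit 693684069801) (nat_lit 76) (nat_lit 621169072230) (nat_lit 3) (nat_lit 4) (nat_lit 4) (nat_lit 5) (nat_lit 4) (nat_lit 4) (nat_lit 437) (nat_lit 364) (nat_lit 219)) (XT.lf (nat_lit 0) (nat_lit 443037410791) (nat_lit 76) (nat_lit 652514619124) (nat_lit 76) (nat_lit 579999545053) (nat_lit 3) (nat_lit 4) (nat_lit 4) (nat_lit 5) (nat_lit 4) (nat_lit 4) (nat_lit 438) (nat_lit 364) (nat_lit 218))) (XT.nd (nat_lit 78) (nat_lit 0) (nat_lit 0) (XT.lf (nat_lit 0) (nat_lit 658838995402) (nat_lit 76) (nat_lit 608051796994) (nat_lit 76) (nat_lit 535536652091) (nat_lit 3) (nat_lit 4)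 (nat_lit 4) (nat_lit 5) (nat_lit 4) (nat_lit 4) (nat_lit 439) (nat_lit 364) (nat_lit 217)) (XT.lf (nat_lit 0) (nat_lit 891904367499) (nat_lit 76) (nat_lit 560032120021) (nat_lit 76) (nat_lit 487516909533) (nat_lit 3) (nat_lit 4) (nat_lit 4) (nat_lit 5) (nat_lit 4) (nat_lit 4) (nat_lit 440) (nat_lit 364) (nat_lit 216)))) (XT.nd (nat_lit 156) (nat_lit 0) (nat_lit 0) (XT.nd (nat_lit 78) (nat_lit 0) (nat_lit 0) (XT.lf (nat_lit 0) (nat_lit 1143614655211) (nat_lit 76) (nat_lit 508171027157) (nat_lit 76) (nat_lit 435655755941) (nat_lit 3) (nat_lit 4) (nat_lit 4) (nat_lit 5) (nat_lit 4) (nat_lit 4) (nat_lit 441) (nat_lit 364) (nat_lit 215)) (XT.lf (nat_lit 0) (nat_lit 1415461475058) (nat_lit 76) (nat_lit 452161193406) (nat_lit 76) (nat_lit 379645865962) (nat_lit 3) (nat_lit 4) (nat_lit 4) (nat_lit 5) (nat_lit 4) (nat_lit 4) (nat_lit 442) (nat_lit 364) (nat_lit 214))) (XT.nd (nat_lit 78) (nat_lit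 0) (nat_lit 0) (XT.lf (nat_lit 0) (nat_lit 1709055771159) (nat_lit 76) (nat_lit 391670708644) (nat_lit 76) (nat_lit 319155329135) (nat_lit 3) (nat_lit 4) (nat_lit 4) (nat_lit 5) (nat_lit 4) (nat_lit 4) (nat_lit 443) (nat_lit 364) (nat_lit 213)) (XT.nd (nat_lit 78) (nat_lit 0) (nat_lit 0) (XT.lf (nat_lit 0) (nat_lit 2026137361564) (nat_lit 76) (nat_lit 326341110737) (nat_lit 76) (nat_lit 253825683021) (nat_lit 3) (nat_lit 4) (nat_lit 4) (nat_lit 5) (nat_lit 4) (nat_lit 4) (nat_lit 444) (nat_lit 364) (nat_lit 212)) (XT.lf (nat_lit 0) (nat_lit 2368585248291) (nat_lit 76) (nat_lit 255785261328) (nat_lit 76) (nat_lit 183269788976) (nat_lit 3) (nat_lit 4) (nat_lit 4) (nat_lit 5) (nat_lit 4) (nat_lit 4) (nat_lit 445) (nat_lit 364) (nat_lit 211)))))) (XT.nd (nat_lit 390) (nat_lit 0) (nat_lit 0) (XT.nd (nat_lit 156) (nat_lit 152) (nat_lit 0) (XT.nd (nat_lit 78) (nat_lit 0) (nat_lit 0) (XT.lf (nat_lit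 0) (nat_lit 2738428752149) (nat_lit 76) (nat_lit 179585051680) (nat_lit 76) (nat_lit 107069537997) (nat_lit 3) (nat_lit 4) (nat_lit 4) (nat_lit 5) (nat_lit 4) (nat_lit 4) (nat_lit 446) (nat_lit 364) (nat_lit 210)) (XT.lf (nat_lit 0) (nat_lit 3137859538347) (nat_lit 76) (nat_lit 97288924994) (nat_lit 76) (nat_lit 24773373043) (nat_lit 3) (nat_lit 4) (nat_lit 4) (nat_lit 5) (nat_lit 4) (nat_lit 4) (nat_lit 447) (nat_lit 364) (nat_lit 209))) (XT.nd (nat_lit 78) (nat_lit 0) (nat_lit 0) (XT.lf (nat_lit 0) (nat_lit 57007154968) (nat_lit 76) (nat_lit 5263394239) (nat_lit 152) (nat_lit 3451043845899) (nat_lit 1) (nat_lit 5) (nat_lit 2) (nat_lit 5) (nat_lit 3) (nat_lit 4) (nat_lit 448) (nat_lit 364) (nat_lit 208)) (XT.nd (nat_lit 78) (nat_lit 0) (nat_lit 0) (XT.lf (nat_lit 0) (nat_lit 160627260588) (nat_lit 152) (nat_lit 3532361438513) (nat_lit 0) (nat_lit 93483167816) (nat_lit 1) (nat_lit 5) (nat_lit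 3) (nat_lit 4) (nat_lit 1) (nat_lit 4) (nat_lit 449) (nat_lit 364) (nat_lit 207)) (XT.lf (nat_lit 0) (nat_lit 266989134254) (nat_lit 152) (nat_lit 3614636858841) (nat_lit 0) (nat_lit 199845013354) (nat_lit 1) (nat_lit 5) (nat_lit 3) (nat_lit 4) (nat_lit 1) (nat_lit 4) (nat_lit 450) (nat_lit 364) (nat_lit 206))))) (XT.nd (nat_lit 156) (nat_lit 0) (nat_lit 0) (XT.nd (nat_lit 78) (nat_lit 0) (nat_lit 0) (XT.lf (nat_lit 0) (nat_lit 381859878034) (nat_lit 152) (nat_lit 3703494474410) (nat_lit 0) (nat_lit 314715731089) (nat_lit 1) (nat_lit 5) (nat_lit 3) (nat_lit 4) (nat_lit 1) (nat_lit 4) (nat_lit 451) (nat_lit 364) (nat_lit 205)) (XT.lf (nat_lit 0) (nat_lit 505920207446) (nat_lit 152) (nat_lit 3799460848869) (nat_lit 0) (nat_lit 438776036385) (nat_lit 1) (nat_lit 5) (nat_lit 3) (nat_lit 4) (nat_lit 1) (nat_lit 4) (nat_lit 452) (nat_lit 364) (nat_lit 204))) (XT.nd (nat_lit 78) (nat_lit 0) (nat_lit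 0) (XT.lf (nat_lit 0) (nat_lit 639905294812) (nat_lit 152) (nat_lit 3903104671842) (nat_lit 0) (nat_lit 572761101422) (nat_lit 1) (nat_lit 5) (nat_lit 3) (nat_lit 4) (nat_lit 1) (nat_lit 4) (nat_lit 453) (nat_lit 364) (nat_lit 203)) (XT.nd (nat_lit 78) (nat_lit 0) (nat_lit 0) (XT.lf (nat_lit 0) (nat_lit 784609125836) (nat_lit 152) (nat_lit 4015040128949) (nat_lit 0) (nat_lit 717464911770) (nat_lit 1) (nat_lit 5) (nat_lit 3) (nat_lit 4) (nat_lit 1) (nat_lit 4) (nat_lit 454) (nat_lit 364) (nat_lit 202)) (XT.lf (nat_lit 0) (nat_lit 940889204701) (nat_lit 152) (nat_lit 4135930541416) (nat_lit 0) (nat_lit 873744971491) (nat_lit 1) (nat_lit 5) (nat_lit 3) (nat_lit 4) (nat_lit 1) (nat_lit 4) (nat_lit 455) (nat_lit 364) (nat_lit 201))))))) (XT.nd (nat_lit 46644) (nat_lit 0) (nat_lit 2964) (XT.nd (nat_lit 46254) (nat_lit 0) (nat_lit 4180) (XT.nd (nat_lit 46020) (nat_lit 0) (nat_lit 4560) (XT.nd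 (nat_lit 78) (nat_lit 0) (nat_lit 0) (XT.lf (nat_lit 0) (nat_lit 1109671635578) (nat_lit 152) (nat_lit 4266492296874) (nat_lit 0) (nat_lit 1042527384642) (nat_lit 1) (nat_lit 5) (nat_lit 3) (nat_lit 4) (nat_lit 1) (nat_lit 4) (nat_lit 456) (nat_lit 364) (nat_lit 200)) (XT.lf (nat_lit 0) (nat_lit 1291956610650) (nat_lit 152) (nat_lit 4407499094612) (nat_lit 0) (nat_lit 1224812343302) (nat_lit 1) (nat_lit 5) (nat_lit 3) (nat_lit 4) (nat_lit 1) (nat_lit 4) (nat_lit 457) (nat_lit 364) (nat_lit 199))) (XT.nd (nat_lit 78) (nat_lit 0) (nat_lit 0) (XT.lf (nat_lit 0) (nat_lit 11457864505) (nat_lit 532) (nat_lit 1252397475) (nat_lit 532) (nat_lit 1252397475) (nat_lit 61) (nat_lit 3) (nat_lit 68) (nat_lit 3) (nat_lit 68) (nat_lit 5) (nat_lit 365) (nat_lit 365) (nat_lit 290)) (XT.nd (nat_lit 78) (nat_lit 0) (nat_lit 76) (XT.lf (nat_lit 76) (nat_lit 11534247361) (nat_lit 0) (nat_lit 12654087463) (nat_lit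 532) (nat_lit 4825422730) (nat_lit 62) (nat_lit 5) (nat_lit 61) (nat_lit 3) (nat_lit 68) (nat_lit 5) (nat_lit 366) (nat_lit 365) (nat_lit 289)) (XT.lf (nat_lit 0) (nat_lit 25652393043) (nat_lit 456) (nat_lit 3379178009) (nat_lit 532) (nat_lit 1150538327) (nat_lit 62) (nat_lit 5) (nat_lit 68) (nat_lit 5) (nat_lit 69) (nat_lit 5) (nat_lit 367) (nat_lit 365) (nat_lit 288))))) (XT.nd (nat_lit 156) (nat_lit 456) (nat_lit 0) (XT.nd (nat_lit 78) (nat_lit 0) (nat_lit 0) (XT.lf (nat_lit 76) (nat_lit 12122079170) (nat_lit 0) (nat_lit 15724409634) (nat_lit 532) (nat_lit 3548416406) (nat_lit 63) (nat_lit 5) (nat_lit 62) (nat_lit 5) (nat_lit 69) (nat_lit 5) (nat_lit 368) (nat_lit 365) (nat_lit 287)) (XT.lf (nat_lit 76) (nat_lit 29050916307) (nat_lit 0) (nat_lit 1250715470) (nat_lit 532) (nat_lit 2396259599) (nat_lit 63) (nat_lit 5) (nat_lit 62) (nat_lit 5) (nat_lit 69) (nat_lit 5) (nat_lit 369) (nat_lit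 365) (nat_lit 286))) (XT.nd (nat_lit 78) (nat_lit 532) (nat_lit 0) (XT.lf (nat_lit 76) (nat_lit 13556310459) (nat_lit 0) (nat_lit 20062450101) (nat_lit 532) (nat_lit 433117548) (nat_lit 64) (nat_lit 5) (nat_lit 63) (nat_lit 5) (nat_lit 70) (nat_lit 5) (nat_lit 370) (nat_lit 365) (nat_lit 285)) (XT.nd (nat_lit 78) (nat_lit 0) (nat_lit 76) (XT.lf (nat_lit 0) (nat_lit 1731347806) (nat_lit 532) (nat_lit 3243710711) (nat_lit 608) (nat_lit 30525592556) (nat_lit 56) (nat_lit 5) (nat_lit 63) (nat_lit 5) (nat_lit 64) (nat_lit 5) (nat_lit 371) (nat_lit 365) (nat_lit 284)) (XT.lf (nat_lit 0) (nat_lit 4711725156) (nat_lit 532) (nat_lit 21134621618) (nat_lit 76) (nat_lit 11164792816) (nat_lit 57) (nat_lit 5) (nat_lit 64) (nat_lit 5) (nat_lit 58) (nat_lit 5) (nat_lit 372) (nat_lit 365) (nat_lit 283)))))) (XT.nd (nat_lit 390) (nat_lit 456) (nat_lit 0) (XT.nd (nat_lit 156) (nat_lit 456) (nat_lit 0) (XT.nd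 (nat_lit 78) (nat_lit 380) (nat_lit 0) (XT.lf (nat_lit 0) (nat_lit 8145403300) (nat_lit 532) (nat_lit 2061132846) (nat_lit 76) (nat_lit 28418747000) (nat_lit 57) (nat_lit 5) (nat_lit 64) (nat_lit 5) (nat_lit 58) (nat_lit 5) (nat_lit 373) (nat_lit 365) (nat_lit 282)) (XT.lf (nat_lit 0) (nat_lit 12490985515) (nat_lit 456) (nat_lit 20994895972) (nat_lit 76) (nat_lit 6831705101) (nat_lit 52) (nat_lit 5) (nat_lit 58) (nat_lit 5) (nat_lit 53) (nat_lit 5) (nat_lit 374) (nat_lit 365) (nat_lit 281))) (XT.nd (nat_lit 78) (nat_lit 228) (nat_lit 0) (XT.lf (nat_lit 0) (nat_lit 128574993) (nat_lit 228) (nat_lit 17376966110) (nat_lit 304) (nat_lit 24614031861) (nat_lit 49) (nat_lit 5) (nat_lit 52) (nat_lit 5) (nat_lit 53) (nat_lit 5) (nat_lit 375) (nat_lit 365) (nat_lit 280)) (XT.nd (nat_lit 78) (nat_lit 228) (nat_lit 0) (XT.lf (nat_lit 0) (nat_lit 23506238725) (nat_lit 304) (nat_lit 19904467447) (nat_lit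 76) (nat_lit 608218320) (nat_lit 49) (nat_lit 5) (nat_lit 53) (nat_lit 5) (nat_lit 50) (nat_lit 5) (nat_lit 376) (nat_lit 365) (nat_lit 279)) (XT.lf (nat_lit 0) (nat_lit 3676759191) (nat_lit 228) (nat_lit 26845872697) (nat_lit 304) (nat_lit 15504745194) (nat_lit 46) (nat_lit 5) (nat_lit 49) (nat_lit 5) (nat_lit 50) (nat_lit 5) (nat_lit 377) (nat_lit 365) (nat_lit 278))))) (XT.nd (nat_lit 156) (nat_lit 304) (nat_lit 0) (XT.nd (nat_lit 78) (nat_lit 152) (nat_lit 0) (XT.lf (nat_lit 0) (nat_lit 30271787311) (nat_lit 228) (nat_lit 8368830219) (nat_lit 304) (nat_lit 9512669681) (nat_lit 46) (nat_lit 5) (nat_lit 49) (nat_lit 5) (nat_lit 50) (nat_lit 5) (nat_lit 378) (nat_lit 365) (nat_lit 277)) (XT.lf (nat_lit 0) (nat_lit 8696937253) (nat_lit 152) (nat_lit 39195252119) (nat_lit 228) (nat_lit 2518352519) (nat_lit 44) (nat_lit 5) (nat_lit 46) (nat_lit 5) (nat_lit 47) (nat_lit 5) (nat_lit 379) (nat_lit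 365) (nat_lit 276))) (XT.nd (nat_lit 78) (nat_lit 228) (nat_lit 0) (XT.lf (nat_lit 0) (nat_lit 5498999078) (nat_lit 228) (nat_lit 14746542581) (nat_lit 76) (nat_lit 32535919131) (nat_lit 43) (nat_lit 5) (nat_lit 46) (nat_lit 5) (nat_lit 44) (nat_lit 5) (nat_lit 380) (nat_lit 365) (nat_lit 275)) (XT.nd (nat_lit 78) (nat_lit 0) (nat_lit 0) (XT.lf (nat_lit 0) (nat_lit 14396960342) (nat_lit 304) (nat_lit 40262917346) (nat_lit 76) (nat_lit 646923136) (nat_lit 40) (nat_lit 5) (nat_lit 44) (nat_lit 5) (nat_lit 41) (nat_lit 5) (nat_lit 381) (nat_lit 365) (nat_lit 274)) (XT.lf (nat_lit 0) (nat_lit 24943074806) (nat_lit 304) (nat_lit 10486515013) (nat_lit 76) (nat_lit 22529675533) (nat_lit 40) (nat_lit 5) (nat_lit 44) (nat_lit 5) (nat_lit 41) (nat_lit 5) (nat_lit 382) (nat_lit 365) (nat_lit 273))))))))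
noncomputable def xc163 : XT := (XT.nd (nat_lit 1482) (nat_lit 836) (nat_lit 0) (XT.nd (nat_lit 702) (nat_lit 760) (nat_lit 0) (XT.nd (nat_lit 312) (nat_lit 304) (nat_lit 0) (XT.nd (nat_lit 156) (nat_lit 380) (nat_lit 0) (XT.nd (nat_lit 78) (nat_lit 0) (nat_lit 0) (XT.lf (nat_lit 0) (nat_lit 22808857231) (nat_lit 152) (nat_lit 14069601453) (nat_lit 228) (nat_lit 23901824342) (nat_lit 38) (nat_lit 5) (nat_lit 40) (nat_lit 5) (nat_lit 41) (nat_lit 5) (nat_lit 383) (nat_lit 365) (nat_lit 272)) (XT.lf (nat_lit 0) (nat_lit 50276392768) (nat_lit 228) (nat_lit 4667916677) (nat_lit 76) (nat_lit 8842057333) (nat_lit 38) (nat_lit 5) (nat_lit 41) (nat_lit 5) (nat_lit 39) (nat_lit 5) (nat_lit 384) (nat_lit 365) (nat_lit 271))) (XT.nd (nat_lit 78) (nat_lit 228) (nat_lit 0) (XT.lf (nat_lit 0) (nat_lit 32559257394) (nat_lit 152) (nat_lit 33332734192) (nat_lit 228) (nat_lit 1049281304) (nat_lit 36) (nat_lit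 5) (nat_lit 38) (nat_lit 5) (nat_lit 39) (nat_lit 5) (nat_lit 385) (nat_lit 365) (nat_lit 270)) (XT.lf (nat_lit 0) (nat_lit 2511663753) (nat_lit 152) (nat_lit 9464613216) (nat_lit 228) (nat_lit 58333325005) (nat_lit 33) (nat_lit 5) (nat_lit 35) (nat_lit 5) (nat_lit 36) (nat_lit 5) (nat_lit 386) (nat_lit 365) (nat_lit 269)))) (XT.nd (nat_lit 156) (nat_lit 152) (nat_lit 0) (XT.nd (nat_lit 78) (nat_lit 152) (nat_lit 0) (XT.lf (nat_lit 0) (nat_lit 27341442995) (nat_lit 228) (nat_lit 30008047420) (nat_lit 76) (nat_lit 16487388160) (nat_lit 33) (nat_lit 5) (nat_lit 36) (nat_lit 5) (nat_lit 34) (nat_lit 5) (nat_lit 387) (nat_lit 365) (nat_lit 268)) (XT.lf (nat_lit 0) (nat_lit 11111301423) (nat_lit 152) (nat_lit 33335213538) (nat_lit 228) (nat_lit 33158968442) (nat_lit 31) (nat_lit 5) (nat_lit 33) (nat_lit 5) (nat_lit 34) (nat_lit 5) (nat_lit 388) (nat_lit 365) (nat_lit 267))) (XT.nd (nat_lit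 78) (nat_lit 152) (nat_lit 0) (XT.lf (nat_lit 0) (nat_lit 57223145475) (nat_lit 152) (nat_lit 6515039866) (nat_lit 228) (nat_lit 17871937268) (nat_lit 31) (nat_lit 5) (nat_lit 33) (nat_lit 5) (nat_lit 34) (nat_lit 5) (nat_lit 389) (nat_lit 365) (nat_lit 266)) (XT.nd (nat_lit 78) (nat_lit 76) (nat_lit 0) (XT.lf (nat_lit 0) (nat_lit 21627237525) (nat_lit 76) (nat_lit 64003886615) (nat_lit 152) (nat_lit 219375325) (nat_lit 30) (nat_lit 5) (nat_lit 31) (nat_lit 5) (nat_lit 32) (nat_lit 4) (nat_lit 390) (nat_lit 365) (nat_lit 265)) (XT.lf (nat_lit 0) (nat_lit 18753872619) (nat_lit 152) (nat_lit 18310569962) (nat_lit 76) (nat_lit 53261310125) (nat_lit 29) (nat_lit 5) (nat_lit 31) (nat_lit 5) (nat_lit 30) (nat_lit 5) (nat_lit 391) (nat_lit 365) (nat_lit 264)))))) (XT.nd (nat_lit 390) (nat_lit 304) (nat_lit 0) (XT.nd (nat_lit 156) (nat_lit 304) (nat_lit 0) (XT.nd (nat_lit 78) (nat_lit 0) (nat_lit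 0) (XT.lf (nat_lit 0) (nat_lit 32912590457) (nat_lit 152) (nat_lit 7110123445) (nat_lit 228) (nat_lit 55072690650) (nat_lit 27) (nat_lit 5) (nat_lit 29) (nat_lit 5) (nat_lit 30) (nat_lit 5) (nat_lit 392) (nat_lit 365) (nat_lit 263)) (XT.lf (nat_lit 0) (nat_lit 64111819822) (nat_lit 228) (nat_lit 11554982930) (nat_lit 76) (nat_lit 24490326163) (nat_lit 27) (nat_lit 5) (nat_lit 30) (nat_lit 5) (nat_lit 28) (nat_lit 4) (nat_lit 393) (nat_lit 365) (nat_lit 262))) (XT.nd (nat_lit 78) (nat_lit 228) (nat_lit 0) (XT.lf (nat_lit 0) (nat_lit 45196231252) (nat_lit 76) (nat_lit 46201689120) (nat_lit 152) (nat_lit 14124282448) (nat_lit 26) (nat_lit 5) (nat_lit 27) (nat_lit 5) (nat_lit 28) (nat_lit 4) (nat_lit 394) (nat_lit 365) (nat_lit 261)) (XT.nd (nat_lit 78) (nat_lit 152) (nat_lit 0) (XT.lf (nat_lit 0) (nat_lit 9395047013) (nat_lit 152) (nat_lit 4387497088) (nat_lit 76) (nat_lit 97489774517) (nat_lit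 25) (nat_lit 5) (nat_lit 27) (nat_lit 5) (nat_lit 26) (nat_lit 5) (nat_lit 395) (nat_lit 365) (nat_lit 260)) (XT.lf (nat_lit 0) (nat_lit 35996911729) (nat_lit 228) (nat_lit 59310083976) (nat_lit 76) (nat_lit 21988974159) (nat_lit 23) (nat_lit 5) (nat_lit 26) (nat_lit 5) (nat_lit 24) (nat_lit 4) (nat_lit 396) (nat_lit 365) (nat_lit 259))))) (XT.nd (nat_lit 156) (nat_lit 228) (nat_lit 0) (XT.nd (nat_lit 78) (nat_lit 0) (nat_lit 0) (XT.lf (nat_lit 0) (nat_lit 1518735398) (nat_lit 76) (nat_lit 63724170362) (nat_lit 152) (nat_lit 58517329687) (nat_lit 22) (nat_lit 5) (nat_lit 23) (nat_lit 5) (nat_lit 24) (nat_lit 4) (nat_lit 397) (nat_lit 365) (nat_lit 258)) (XT.lf (nat_lit 0) (nat_lit 70584072269) (nat_lit 76) (nat_lit 27864590271) (nat_lit 152) (nat_lit 32163373679) (nat_lit 22) (nat_lit 5) (nat_lit 23) (nat_lit 5) (nat_lit 24) (nat_lit 4) (nat_lit 398) (nat_lit 365) (nat_lit 257))) (XT.nd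 (nat_lit 78) (nat_lit 152) (nat_lit 0) (XT.lf (nat_lit 0) (nat_lit 7261968887) (nat_lit 76) (nat_lit 127483363314) (nat_lit 76) (nat_lit 3231893223) (nat_lit 21) (nat_lit 4) (nat_lit 22) (nat_lit 5) (nat_lit 22) (nat_lit 4) (nat_lit 399) (nat_lit 365) (nat_lit 256)) (XT.nd (nat_lit 78) (nat_lit 76) (nat_lit 0) (XT.lf (nat_lit 0) (nat_lit 29018920321) (nat_lit 152) (nat_lit 63894209342) (nat_lit 76) (nat_lit 52772105892) (nat_lit 20) (nat_lit 5) (nat_lit 22) (nat_lit 5) (nat_lit 21) (nat_lit 4) (nat_lit 400) (nat_lit 365) (nat_lit 255)) (XT.lf (nat_lit 0) (nat_lit 8617145319) (nat_lit 76) (nat_lit 55263935149) (nat_lit 152) (nat_lit 90105619832) (nat_lit 19) (nat_lit 5) (nat_lit 20) (nat_lit 5) (nat_lit 21) (nat_lit 4) (nat_lit 401) (nat_lit 365) (nat_lit 254))))))) (XT.nd (nat_lit 780) (nat_lit 380) (nat_lit 0) (XT.nd (nat_lit 390) (nat_lit 228) (nat_lit 0) (XT.nd (nat_lit 156) (nat_lit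 152) (nat_lit 0) (XT.nd (nat_lit 78) (nat_lit 76) (nat_lit 0) (XT.lf (nat_lit 0) (nat_lit 90560696295) (nat_lit 76) (nat_lit 12717185054) (nat_lit 152) (nat_lit 59534747853) (nat_lit 19) (nat_lit 5) (nat_lit 20) (nat_lit 5) (nat_lit 21) (nat_lit 4) (nat_lit 402) (nat_lit 365) (nat_lit 253)) (XT.lf (nat_lit 0) (nat_lit 6224907326) (nat_lit 76) (nat_lit 140549249271) (nat_lit 76) (nat_lit 25494657773) (nat_lit 18) (nat_lit 4) (nat_lit 19) (nat_lit 5) (nat_lit 19) (nat_lit 4) (nat_lit 403) (nat_lit 365) (nat_lit 252))) (XT.nd (nat_lit 78) (nat_lit 76) (nat_lit 0) (XT.lf (nat_lit 0) (nat_lit 13060825643) (nat_lit 152) (nat_lit 87889498973) (nat_lit 76) (nat_lit 81321018046) (nat_lit 17) (nat_lit 5) (nat_lit 19) (nat_lit 5) (nat_lit 18) (nat_lit 4) (nat_lit 404) (nat_lit 365) (nat_lit 251)) (XT.nd (nat_lit 78) (nat_lit 76) (nat_lit 0) (XT.lf (nat_lit 0) (nat_lit 53322230640) (nat_lit 152) (nat_lit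 4147095852) (nat_lit 76) (nat_lit 135551862585) (nat_lit 17) (nat_lit 5) (nat_lit 19) (nat_lit 5) (nat_lit 18) (nat_lit 4) (nat_lit 405) (nat_lit 365) (nat_lit 250)) (XT.lf (nat_lit 0) (nat_lit 90836721425) (nat_lit 76) (nat_lit 8151393266) (nat_lit 152) (nat_lit 105468223460) (nat_lit 16) (nat_lit 5) (nat_lit 17) (nat_lit 5) (nat_lit 18) (nat_lit 4) (nat_lit 406) (nat_lit 365) (nat_lit 249))))) (XT.nd (nat_lit 156) (nat_lit 152) (nat_lit 0) (XT.nd (nat_lit 78) (nat_lit 76) (nat_lit 0) (XT.lf (nat_lit 0) (nat_lit 149507498394) (nat_lit 152) (nat_lit 24232032639) (nat_lit 0) (nat_lit 42970750062) (nat_lit 16) (nat_lit 5) (nat_lit 18) (nat_lit 4) (nat_lit 16) (nat_lit 4) (nat_lit 407) (nat_lit 365) (nat_lit 248)) (XT.lf (nat_lit 0) (nat_lit 75889262237) (nat_lit 76) (nat_lit 130215062095) (nat_lit 76) (nat_lit 23677344058) (nat_lit 15) (nat_lit 4) (nat_lit 16) (nat_lit 5) (nat_lit 16) (nat_lit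 4) (nat_lit 408) (nat_lit 365) (nat_lit 247))) (XT.nd (nat_lit 78) (nat_lit 76) (nat_lit 0) (XT.lf (nat_lit 0) (nat_lit 22841849946) (nat_lit 152) (nat_lit 59027568023) (nat_lit 76) (nat_lit 161930158663) (nat_lit 14) (nat_lit 5) (nat_lit 16) (nat_lit 5) (nat_lit 15) (nat_lit 4) (nat_lit 409) (nat_lit 365) (nat_lit 246)) (XT.nd (nat_lit 78) (nat_lit 0) (nat_lit 0) (XT.lf (nat_lit 0) (nat_lit 45064020292) (nat_lit 76) (nat_lit 27822262193) (nat_lit 152) (nat_lit 185916803994) (nat_lit 13) (nat_lit 5) (nat_lit 14) (nat_lit 5) (nat_lit 15) (nat_lit 4) (nat_lit 410) (nat_lit 365) (nat_lit 245)) (XT.lf (nat_lit 0) (nat_lit 129323914277) (nat_lit 152) (nat_lit 114816226293) (nat_lit 0) (nat_lit 30675565147) (nat_lit 13) (nat_lit 5) (nat_lit 15) (nat_lit 4) (nat_lit 13) (nat_lit 4) (nat_lit 411) (nat_lit 365) (nat_lit 244)))))) (XT.nd (nat_lit 390) (nat_lit 152) (nat_lit 0) (XT.nd (nat_lit 156)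 (nat_lit 152) (nat_lit 0) (XT.nd (nat_lit 78) (nat_lit 76) (nat_lit 0) (XT.lf (nat_lit 0) (nat_lit 190998388908) (nat_lit 152) (nat_lit 8703819352) (nat_lit 0) (nat_lit 92349379813) (nat_lit 13) (nat_lit 5) (nat_lit 15) (nat_lit 4) (nat_lit 13) (nat_lit 4) (nat_lit 412) (nat_lit 365) (nat_lit 243)) (XT.lf (nat_lit 0) (nat_lit 111472395669) (nat_lit 76) (nat_lit 148814576799) (nat_lit 76) (nat_lit 50164956625) (nat_lit 12) (nat_lit 4) (nat_lit 13) (nat_lit 5) (nat_lit 13) (nat_lit 4) (nat_lit 413) (nat_lit 365) (nat_lit 242))) (XT.nd (nat_lit 78) (nat_lit 76) (nat_lit 0) (XT.lf (nat_lit 0) (nat_lit 4797911307) (nat_lit 152) (nat_lit 88670530467) (nat_lit 76) (nat_lit 236827159534) (nat_lit 11) (nat_lit 5) (nat_lit 13) (nat_lit 5) (nat_lit 12) (nat_lit 4) (nat_lit 414) (nat_lit 365) (nat_lit 241)) (XT.nd (nat_lit 78) (nat_lit 0) (nat_lit 0) (XT.lf (nat_lit 0) (nat_lit 30694281572) (nat_lit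 76) (nat_lit 31490810476) (nat_lit 152) (nat_lit 289378436979) (nat_lit 10) (nat_lit 5) (nat_lit 11) (nat_lit 5) (nat_lit 12) (nat_lit 4) (nat_lit 415) (nat_lit 365) (nat_lit 240)) (XT.lf (nat_lit 0) (nat_lit 127502382062) (nat_lit 152) (nat_lit 210604695222) (nat_lit 0) (nat_lit 36158683005) (nat_lit 10) (nat_lit 5) (nat_lit 12) (nat_lit 4) (nat_lit 10) (nat_lit 4) (nat_lit 416) (nat_lit 365) (nat_lit 239))))) (XT.nd (nat_lit 156) (nat_lit 76) (nat_lit 0) (XT.nd (nat_lit 78) (nat_lit 76) (nat_lit 0) (XT.lf (nat_lit 0) (nat_lit 198862350115) (nat_lit 152) (nat_lit 92338201285) (nat_lit 0) (nat_lit 107518235167) (nat_lit 10) (nat_lit 5) (nat_lit 12) (nat_lit 4) (nat_lit 10) (nat_lit 4) (nat_lit 417) (nat_lit 365) (nat_lit 238)) (XT.lf (nat_lit 0) (nat_lit 37251919468) (nat_lit 76) (nat_lit 239574505432) (nat_lit 76) (nat_lit 148230005401) (nat_lit 9) (nat_lit 4) (nat_lit 10) (nat_lit 5)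 (nat_lit 10) (nat_lit 4) (nat_lit 418) (nat_lit 365) (nat_lit 237))) (XT.nd (nat_lit 78) (nat_lit 76) (nat_lit 0) (XT.lf (nat_lit 0) (nat_lit 182459450619) (nat_lit 76) (nat_lit 181092281536) (nat_lit 76) (nat_lit 89747424947) (nat_lit 9) (nat_lit 4) (nat_lit 10) (nat_lit 5) (nat_lit 10) (nat_lit 4) (nat_lit 419) (nat_lit 365) (nat_lit 236)) (XT.nd (nat_lit 78) (nat_lit 76) (nat_lit 0) (XT.lf (nat_lit 0) (nat_lit 339282515196) (nat_lit 76) (nat_lit 117932008448) (nat_lit 76) (nat_lit 26586821712) (nat_lit 9) (nat_lit 4) (nat_lit 10) (nat_lit 5) (nat_lit 10) (nat_lit 4) (nat_lit 420) (nat_lit 365) (nat_lit 235)) (XT.lf (nat_lit 0) (nat_lit 39543783783) (nat_lit 152) (nat_lit 9094422157) (nat_lit 76) (nat_lit 468025454153) (nat_lit 8) (nat_lit 5) (nat_lit 10) (nat_lit 5) (nat_lit 9) (nat_lit 4) (nat_lit 421) (nat_lit 365) (nat_lit 234))))))))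
noncomputable def xc164 : XT := (XT.nd (nat_lit 1482) (nat_lit 152) (nat_lit 0) (XT.nd (nat_lit 702) (nat_lit 76) (nat_lit 0) (XT.nd (nat_lit 312) (nat_lit 228) (nat_lit 0) (XT.nd (nat_lit 156) (nat_lit 0) (nat_lit 0) (XT.nd (nat_lit 78) (nat_lit 0) (nat_lit 0) (XT.lf (nat_lit 0) (nat_lit 113720736453) (nat_lit 152) (nat_lit 408902281349) (nat_lit 0) (nat_lit 29141314716) (nat_lit 7) (nat_lit 5) (nat_lit 9) (nat_lit 4) (nat_lit 7) (nat_lit 4) (nat_lit 422) (nat_lit 365) (nat_lit 233)) (XT.lf (nat_lit 0) (nat_lit 195349818440) (nat_lit 152) (nat_lit 283431648471) (nat_lit 0) (nat_lit 110770154036) (nat_lit 7) (nat_lit 5) (nat_lit 9) (nat_lit 4) (nat_lit 7) (nat_lit 4) (nat_lit 423) (nat_lit 365) (nat_lit 232))) (XT.nd (nat_lit 78) (nat_lit 0) (nat_lit 0) (XT.lf (nat_lit 0) (nat_lit 283508788860) (nat_lit 152) (nat_lit 147924238934) (nat_lit 0) (nat_lit 198928899764) (nat_lit 7) (nat_lit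 5) (nat_lit 9) (nat_lit 4) (nat_lit 7) (nat_lit 4) (nat_lit 424) (nat_lit 365) (nat_lit 231)) (XT.lf (nat_lit 0) (nat_lit 378720071240) (nat_lit 152) (nat_lit 1577045866) (nat_lit 0) (nat_lit 294139974095) (nat_lit 7) (nat_lit 5) (nat_lit 9) (nat_lit 4) (nat_lit 7) (nat_lit 4) (nat_lit 425) (nat_lit 365) (nat_lit 230)))) (XT.nd (nat_lit 156) (nat_lit 152) (nat_lit 0) (XT.nd (nat_lit 78) (nat_lit 0) (nat_lit 0) (XT.lf (nat_lit 0) (nat_lit 164716984005) (nat_lit 76) (nat_lit 320792344009) (nat_lit 76) (nat_lit 236212054227) (nat_lit 6) (nat_lit 4) (nat_lit 7) (nat_lit 5) (nat_lit 7) (nat_lit 4) (nat_lit 426) (nat_lit 365) (nat_lit 229)) (XT.lf (nat_lit 0) (nat_lit 344403493942) (nat_lit 76) (nat_lit 256480985252) (nat_lit 76) (nat_lit 171900517102) (nat_lit 6) (nat_lit 4) (nat_lit 7) (nat_lit 5) (nat_lit 7) (nat_lit 4) (nat_lit 427) (nat_lit 365) (nat_lit 228))) (XT.nd (nat_lit 78) (nat_lit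 152) (nat_lit 0) (XT.lf (nat_lit 0) (nat_lit 538464248453) (nat_lit 76) (nat_lit 187025055718) (nat_lit 76) (nat_lit 102444422412) (nat_lit 6) (nat_lit 4) (nat_lit 7) (nat_lit 5) (nat_lit 7) (nat_lit 4) (nat_lit 428) (nat_lit 365) (nat_lit 227)) (XT.nd (nat_lit 78) (nat_lit 152) (nat_lit 0) (XT.lf (nat_lit 0) (nat_lit 748049237193) (nat_lit 76) (nat_lit 112012964711) (nat_lit 76) (nat_lit 27432178483) (nat_lit 6) (nat_lit 4) (nat_lit 7) (nat_lit 5) (nat_lit 7) (nat_lit 4) (nat_lit 429) (nat_lit 365) (nat_lit 226)) (XT.lf (nat_lit 0) (nat_lit 22413112310) (nat_lit 76) (nat_lit 29026330060) (nat_lit 152) (nat_lit 900234255062) (nat_lit 4) (nat_lit 5) (nat_lit 5) (nat_lit 5) (nat_lit 6) (nat_lit 4) (nat_lit 430) (nat_lit 365) (nat_lit 225)))))) (XT.nd (nat_lit 390) (nat_lit 76) (nat_lit 0) (XT.nd (nat_lit 156) (nat_lit 0) (nat_lit 0) (XT.nd (nat_lit 78) (nat_lit 0) (nat_lit 0) (XT.lf (nat_lit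 0) (nat_lit 140507567201) (nat_lit 152) (nat_lit 817801512887) (nat_lit 0) (nat_lit 62191771897) (nat_lit 4) (nat_lit 5) (nat_lit 6) (nat_lit 4) (nat_lit 4) (nat_lit 4) (nat_lit 431) (nat_lit 365) (nat_lit 224)) (XT.lf (nat_lit 0) (nat_lit 237454798119) (nat_lit 152) (nat_lit 698180197909) (nat_lit 0) (nat_lit 159138890413) (nat_lit 4) (nat_lit 5) (nat_lit 6) (nat_lit 4) (nat_lit 4) (nat_lit 4) (nat_lit 432) (nat_lit 365) (nat_lit 223))) (XT.nd (nat_lit 78) (nat_lit 0) (nat_lit 0) (XT.lf (nat_lit 0) (nat_lit 342157553298) (nat_lit 152) (nat_lit 568989689200) (nat_lit 0) (nat_lit 263841541517) (nat_lit 4) (nat_lit 5) (nat_lit 6) (nat_lit 4) (nat_lit 4) (nat_lit 4) (nat_lit 433) (nat_lit 365) (nat_lit 222)) (XT.nd (nat_lit 78) (nat_lit 0) (nat_lit 0) (XT.lf (nat_lit 0) (nat_lit 455236293511) (nat_lit 152) (nat_lit 429464413376) (nat_lit 0) (nat_lit 376920185363) (nat_lit 4) (nat_lit 5) (nat_lit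 6) (nat_lit 4) (nat_lit 4) (nat_lit 4) (nat_lit 434) (nat_lit 365) (nat_lit 221)) (XT.lf (nat_lit 0) (nat_lit 577361114995) (nat_lit 152) (nat_lit 278777553988) (nat_lit 0) (nat_lit 499044917618) (nat_lit 4) (nat_lit 5) (nat_lit 6) (nat_lit 4) (nat_lit 4) (nat_lit 4) (nat_lit 435) (nat_lit 365) (nat_lit 220))))) (XT.nd (nat_lit 156) (nat_lit 0) (nat_lit 0) (XT.nd (nat_lit 78) (nat_lit 76) (nat_lit 0) (XT.lf (nat_lit 0) (nat_lit 709255720397) (nat_lit 152) (nat_lit 116036151868) (nat_lit 0) (nat_lit 630939440401) (nat_lit 4) (nat_lit 5) (nat_lit 6) (nat_lit 4) (nat_lit 4) (nat_lit 4) (nat_lit 436) (nat_lit 365) (nat_lit 219)) (XT.lf (nat_lit 0) (nat_lit 62869156295) (nat_lit 76) (nat_lit 790344555802) (nat_lit 76) (nat_lit 712028199307) (nat_lit 3) (nat_lit 4) (nat_lit 4) (nat_lit 5) (nat_lit 4) (nat_lit 4) (nat_lit 437) (nat_lit 365) (nat_lit 218))) (XT.nd (nat_lit 78) (nat_lit 0) (nat_lit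 0) (XT.lf (nat_lit 0) (nat_lit 262685601460) (nat_lit 76) (nat_lit 749175193875) (nat_lit 76) (nat_lit 670858766548) (nat_lit 3) (nat_lit 4) (nat_lit 4) (nat_lit 5) (nat_lit 4) (nat_lit 4) (nat_lit 438) (nat_lit 365) (nat_lit 217)) (XT.nd (nat_lit 78) (nat_lit 0) (nat_lit 0) (XT.lf (nat_lit 0) (nat_lit 478487022954) (nat_lit 76) (nat_lit 704712453922) (nat_lit 76) (nat_lit 626395961009) (nat_lit 3) (nat_lit 4) (nat_lit 4) (nat_lit 5) (nat_lit 4) (nat_lit 4) (nat_lit 439) (nat_lit 365) (nat_lit 216)) (XT.lf (nat_lit 0) (nat_lit 711552244016) (nat_lit 76) (nat_lit 656692853039) (nat_lit 76) (nat_lit 578376299399) (nat_lit 3) (nat_lit 4) (nat_lit 4) (nat_lit 5) (nat_lit 4) (nat_lit 4) (nat_lit 440) (nat_lit 365) (nat_lit 215))))))) (XT.nd (nat_lit 702) (nat_lit 0) (nat_lit 0) (XT.nd (nat_lit 312) (nat_lit 152) (nat_lit 0) (XT.nd (nat_lit 156) (nat_lit 0) (nat_lit 0) (XT.nd (nat_lit 78) (nat_lit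 0) (nat_lit 0) (XT.lf (nat_lit 0) (nat_lit 963262391881) (nat_lit 76) (nat_lit 604831830628) (nat_lit 76) (nat_lit 526515220759) (nat_lit 3) (nat_lit 4) (nat_lit 4) (nat_lit 5) (nat_lit 4) (nat_lit 4) (nat_lit 441) (nat_lit 365) (nat_lit 214)) (XT.lf (nat_lit 0) (nat_lit 1235109082241) (nat_lit 76) (nat_lit 548822062112) (nat_lit 76) (nat_lit 470505400179) (nat_lit 3) (nat_lit 4) (nat_lit 4) (nat_lit 5) (nat_lit 4) (nat_lit 4) (nat_lit 442) (nat_lit 365) (nat_lit 213))) (XT.nd (nat_lit 78) (nat_lit 0) (nat_lit 0) (XT.lf (nat_lit 0) (nat_lit 1528703258446) (nat_lit 76) (nat_lit 488331637752) (nat_lit 76) (nat_lit 410014927611) (nat_lit 3) (nat_lit 4) (nat_lit 4) (nat_lit 5) (nat_lit 4) (nat_lit 4) (nat_lit 443) (nat_lit 365) (nat_lit 212)) (XT.lf (nat_lit 0) (nat_lit 1845784737836) (nat_lit 76) (nat_lit 423002095773) (nat_lit 76) (nat_lit 344685340996) (nat_lit 3) (nat_lit 4) (nat_lit 4)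 (nat_lit 5) (nat_lit 4) (nat_lit 4) (nat_lit 444) (nat_lit 365) (nat_lit 211)))) (XT.nd (nat_lit 156) (nat_lit 152) (nat_lit 0) (XT.nd (nat_lit 78) (nat_lit 0) (nat_lit 0) (XT.lf (nat_lit 0) (nat_lit 2188232521771) (nat_lit 76) (nat_lit 352446298149) (nat_lit 76) (nat_lit 274129502042) (nat_lit 3) (nat_lit 4) (nat_lit 4) (nat_lit 5) (nat_lit 4) (nat_lit 4) (nat_lit 445) (nat_lit 365) (nat_lit 210)) (XT.lf (nat_lit 0) (nat_lit 2558075930452) (nat_lit 76) (nat_lit 276246136450) (nat_lit 76) (nat_lit 197929302075) (nat_lit 3) (nat_lit 4) (nat_lit 4) (nat_lit 5) (nat_lit 4) (nat_lit 4) (nat_lit 446) (nat_lit 365) (nat_lit 209))) (XT.nd (nat_lit 78) (nat_lit 152) (nat_lit 0) (XT.lf (nat_lit 0) (nat_lit 2957506628523) (nat_lit 76) (nat_lit 193950054162) (nat_lit 76) (nat_lit 115633184353) (nat_lit 3) (nat_lit 4) (nat_lit 4) (nat_lit 5) (nat_lit 4) (nat_lit 4) (nat_lit 447) (nat_lit 365) (nat_lit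 208)) (XT.nd (nat_lit 78) (nat_lit 152) (nat_lit 0) (XT.lf (nat_lit 0) (nat_lit 3388891612713) (nat_lit 76) (nat_lit 105070370798) (nat_lit 76) (nat_lit 26753468179) (nat_lit 3) (nat_lit 4) (nat_lit 4) (nat_lit 5) (nat_lit 4) (nat_lit 4) (nat_lit 448) (nat_lit 365) (nat_lit 207)) (XT.lf (nat_lit 0) (nat_lit 61571041506) (nat_lit 76) (nat_lit 5682792389) (nat_lit 152) (nat_lit 3727125581424) (nat_lit 1) (nat_lit 5) (nat_lit 2) (nat_lit 5) (nat_lit 3) (nat_lit 4) (nat_lit 449) (nat_lit 365) (nat_lit 206)))))) (XT.nd (nat_lit 390) (nat_lit 0) (nat_lit 0) (XT.nd (nat_lit 156) (nat_lit 0) (nat_lit 0) (XT.nd (nat_lit 78) (nat_lit 0) (nat_lit 0) (XT.lf (nat_lit 0) (nat_lit 173478997912) (nat_lit 152) (nat_lit 3814947200548) (nat_lit 0) (nat_lit 100963293166) (nat_lit 1) (nat_lit 5) (nat_lit 3) (nat_lit 4) (nat_lit 1) (nat_lit 4) (nat_lit 450) (nat_lit 365) (nat_lit 205)) (XT.lf (nat_lit 0) (nat_lit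 288349706178) (nat_lit 152) (nat_lit 3903804888061) (nat_lit 0) (nat_lit 215833977316) (nat_lit 1) (nat_lit 5) (nat_lit 3) (nat_lit 4) (nat_lit 1) (nat_lit 4) (nat_lit 451) (nat_lit 365) (nat_lit 204))) (XT.nd (nat_lit 78) (nat_lit 0) (nat_lit 0) (XT.lf (nat_lit 0) (nat_lit 412410002706) (nat_lit 152) (nat_lit 3999771329134) (nat_lit 0) (nat_lit 339894251515) (nat_lit 1) (nat_lit 5) (nat_lit 3) (nat_lit 4) (nat_lit 1) (nat_lit 4) (nat_lit 452) (nat_lit 365) (nat_lit 203)) (XT.nd (nat_lit 78) (nat_lit 0) (nat_lit 0) (XT.lf (nat_lit 0) (nat_lit 546395059624) (nat_lit 152) (nat_lit 4103415213788) (nat_lit 0) (nat_lit 473879287757) (nat_lit 1) (nat_lit 5) (nat_lit 3) (nat_lit 4) (nat_lit 1) (nat_lit 4) (nat_lit 453) (nat_lit 365) (nat_lit 202)) (XT.lf (nat_lit 0) (nat_lit 691098862455) (nat_lit 152) (nat_lit 4215350728007) (nat_lit 0) (nat_lit 618583071445) (nat_lit 1) (nat_lit 5) (nat_lit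 3) (nat_lit 4) (nat_lit 1) (nat_lit 4) (nat_lit 454) (nat_lit 365) (nat_lit 201))))) (XT.nd (nat_lit 156) (nat_lit 0) (nat_lit 0) (XT.nd (nat_lit 78) (nat_lit 0) (nat_lit 0) (XT.lf (nat_lit 0) (nat_lit 847378915215) (nat_lit 152) (nat_lit 4336241193355) (nat_lit 0) (nat_lit 774863106479) (nat_lit 1) (nat_lit 5) (nat_lit 3) (nat_lit 4) (nat_lit 1) (nat_lit 4) (nat_lit 455) (nat_lit 365) (nat_lit 200)) (XT.lf (nat_lit 0) (nat_lit 1016161321922) (nat_lit 152) (nat_lit 4466802997776) (nat_lit 0) (nat_lit 943645496773) (nat_lit 1) (nat_lit 5) (nat_lit 3) (nat_lit 4) (nat_lit 1) (nat_lit 4) (nat_lit 456) (nat_lit 365) (nat_lit 199))) (XT.nd (nat_lit 46020) (nat_lit 0) (nat_lit 4560) (XT.lf (nat_lit 0) (nat_lit 1198446274614) (nat_lit 152) (nat_lit 4607809840851) (nat_lit 0) (nat_lit 1125930434268) (nat_lit 1) (nat_lit 5) (nat_lit 3) (nat_lit 4) (nat_lit 1) (nat_lit 4) (nat_lit 457) (nat_lit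 365) (nat_lit 198)) (XT.nd (nat_lit 78) (nat_lit 0) (nat_lit 0) (XT.lf (nat_lit 0) (nat_lit 12451181597) (nat_lit 532) (nat_lit 1311130954) (nat_lit 532) (nat_lit 1311130954) (nat_lit 61) (nat_lit 3) (nat_lit 68) (nat_lit 3) (nat_lit 68) (nat_lit 5) (nat_lit 366) (nat_lit 366) (nat_lit 288)) (XT.lf (nat_lit 76) (nat_lit 12537804632) (nat_lit 0) (nat_lit 13729555331) (nat_lit 532) (nat_lit 5055808065) (nat_lit 62) (nat_lit 5) (nat_lit 61) (nat_lit 3) (nat_lit 68) (nat_lit 5) (nat_lit 367) (nat_lit 366) (nat_lit 287))))))))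
noncomputable def xc165 : XT := (XT.nd (nat_lit 1482) (nat_lit 1444) (nat_lit 0) (XT.nd (nat_lit 702) (nat_lit 988) (nat_lit 0) (XT.nd (nat_lit 312) (nat_lit 988) (nat_lit 0) (XT.nd (nat_lit 156) (nat_lit 0) (nat_lit 0) (XT.nd (nat_lit 78) (nat_lit 0) (nat_lit 0) (XT.lf (nat_lit 0) (nat_lit 27836473202) (nat_lit 456) (nat_lit 3562450997) (nat_lit 532) (nat_lit 1187042219) (nat_lit 62) (nat_lit 5) (nat_lit 68) (nat_lit 5) (nat_lit 69) (nat_lit 5) (nat_lit 368) (nat_lit 366) (nat_lit 286)) (XT.lf (nat_lit 76) (nat_lit 13176702674) (nat_lit 0) (nat_lit 17021665232) (nat_lit 532) (nat_lit 3698048204) (nat_lit 63) (nat_lit 5) (nat_lit 62) (nat_lit 5) (nat_lit 69) (nat_lit 5) (nat_lit 369) (nat_lit 366) (nat_lit 285))) (XT.nd (nat_lit 78) (nat_lit 0) (nat_lit 76) (XT.lf (nat_lit 76) (nat_lit 31453561065) (nat_lit 0) (nat_lit 1387164215) (nat_lit 532) (nat_lit 2463662668) (nat_lit 63) (nat_lit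 5) (nat_lit 62) (nat_lit 5) (nat_lit 69) (nat_lit 5) (nat_lit 370) (nat_lit 366) (nat_lit 284)) (XT.lf (nat_lit 76) (nat_lit 14727349073) (nat_lit 0) (nat_lit 21688630271) (nat_lit 532) (nat_lit 351304076) (nat_lit 64) (nat_lit 5) (nat_lit 63) (nat_lit 5) (nat_lit 70) (nat_lit 5) (nat_lit 371) (nat_lit 366) (nat_lit 283)))) (XT.nd (nat_lit 156) (nat_lit 532) (nat_lit 0) (XT.nd (nat_lit 78) (nat_lit 0) (nat_lit 76) (XT.lf (nat_lit 0) (nat_lit 1972297233) (nat_lit 532) (nat_lit 3417579995) (nat_lit 608) (nat_lit 32942521291) (nat_lit 56) (nat_lit 5) (nat_lit 63) (nat_lit 5) (nat_lit 64) (nat_lit 5) (nat_lit 372) (nat_lit 366) (nat_lit 282)) (XT.lf (nat_lit 0) (nat_lit 5185201426) (nat_lit 532) (nat_lit 22733759215) (nat_lit 76) (nat_lit 12045245842) (nat_lit 57) (nat_lit 5) (nat_lit 64) (nat_lit 5) (nat_lit 58) (nat_lit 5) (nat_lit 373) (nat_lit 366) (nat_lit 281))) (XT.nd (nat_lit 78) (nat_lit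 608) (nat_lit 0) (XT.lf (nat_lit 0) (nat_lit 8886422839) (nat_lit 532) (nat_lit 2141178906) (nat_lit 76) (nat_lit 30680459354) (nat_lit 57) (nat_lit 5) (nat_lit 64) (nat_lit 5) (nat_lit 58) (nat_lit 5) (nat_lit 374) (nat_lit 366) (nat_lit 280)) (XT.nd (nat_lit 78) (nat_lit 228) (nat_lit 0) (XT.lf (nat_lit 0) (nat_lit 13574969706) (nat_lit 456) (nat_lit 22584874382) (nat_lit 76) (nat_lit 7376286224) (nat_lit 52) (nat_lit 5) (nat_lit 58) (nat_lit 5) (nat_lit 53) (nat_lit 5) (nat_lit 375) (nat_lit 366) (nat_lit 279)) (XT.lf (nat_lit 0) (nat_lit 226205570) (nat_lit 228) (nat_lit 18760310340) (nat_lit 304) (nat_lit 26496100022) (nat_lit 49) (nat_lit 5) (nat_lit 52) (nat_lit 5) (nat_lit 53) (nat_lit 5) (nat_lit 376) (nat_lit 366) (nat_lit 278)))))) (XT.nd (nat_lit 390) (nat_lit 532) (nat_lit 0) (XT.nd (nat_lit 156) (nat_lit 228) (nat_lit 0) (XT.nd (nat_lit 78) (nat_lit 228) (nat_lit 0) (XT.lf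 (nat_lit 0) (nat_lit 25461455761) (nat_lit 304) (nat_lit 21410062258) (nat_lit 76) (nat_lit 662868602) (nat_lit 49) (nat_lit 5) (nat_lit 53) (nat_lit 5) (nat_lit 50) (nat_lit 5) (nat_lit 377) (nat_lit 366) (nat_lit 277)) (XT.lf (nat_lit 0) (nat_lit 4055465990) (nat_lit 228) (nat_lit 28980193541) (nat_lit 304) (nat_lit 16668141466) (nat_lit 46) (nat_lit 5) (nat_lit 49) (nat_lit 5) (nat_lit 50) (nat_lit 5) (nat_lit 378) (nat_lit 366) (nat_lit 276))) (XT.nd (nat_lit 78) (nat_lit 228) (nat_lit 0) (XT.lf (nat_lit 0) (nat_lit 32771832206) (nat_lit 228) (nat_lit 9025976477) (nat_lit 304) (nat_lit 10202402381) (nat_lit 46) (nat_lit 5) (nat_lit 49) (nat_lit 5) (nat_lit 50) (nat_lit 5) (nat_lit 379) (nat_lit 366) (nat_lit 275)) (XT.nd (nat_lit 78) (nat_lit 76) (nat_lit 0) (XT.lf (nat_lit 0) (nat_lit 9473926036) (nat_lit 152) (nat_lit 42312924581) (nat_lit 228) (nat_lit 2651412681) (nat_lit 44) (nat_lit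 5) (nat_lit 46) (nat_lit 5) (nat_lit 47) (nat_lit 5) (nat_lit 380) (nat_lit 366) (nat_lit 274)) (XT.lf (nat_lit 0) (nat_lit 5999091220) (nat_lit 228) (nat_lit 15847830310) (nat_lit 76) (nat_lit 35152191714) (nat_lit 43) (nat_lit 5) (nat_lit 46) (nat_lit 5) (nat_lit 44) (nat_lit 5) (nat_lit 381) (nat_lit 366) (nat_lit 273))))) (XT.nd (nat_lit 156) (nat_lit 304) (nat_lit 0) (XT.nd (nat_lit 78) (nat_lit 0) (nat_lit 0) (XT.lf (nat_lit 0) (nat_lit 15606725265) (nat_lit 304) (nat_lit 43403304054) (nat_lit 76) (nat_lit 716628043) (nat_lit 40) (nat_lit 5) (nat_lit 44) (nat_lit 5) (nat_lit 41) (nat_lit 5) (nat_lit 382) (nat_lit 366) (nat_lit 272)) (XT.lf (nat_lit 0) (nat_lit 26992231990) (nat_lit 304) (nat_lit 11250763363) (nat_lit 76) (nat_lit 24348670923) (nat_lit 40) (nat_lit 5) (nat_lit 44) (nat_lit 5) (nat_lit 41) (nat_lit 5) (nat_lit 383) (nat_lit 366) (nat_lit 271))) (XT.nd (nat_lit 78)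 (nat_lit 152) (nat_lit 0) (XT.lf (nat_lit 0) (nat_lit 24706348210) (nat_lit 152) (nat_lit 15173870179) (nat_lit 228) (nat_lit 25758328444) (nat_lit 38) (nat_lit 5) (nat_lit 40) (nat_lit 5) (nat_lit 41) (nat_lit 5) (nat_lit 384) (nat_lit 366) (nat_lit 270)) (XT.nd (nat_lit 78) (nat_lit 152) (nat_lit 0) (XT.lf (nat_lit 0) (nat_lit 54346647950) (nat_lit 228) (nat_lit 4970582433) (nat_lit 76) (nat_lit 9568157019) (nat_lit 38) (nat_lit 5) (nat_lit 41) (nat_lit 5) (nat_lit 39) (nat_lit 5) (nat_lit 385) (nat_lit 366) (nat_lit 269)) (XT.lf (nat_lit 0) (nat_lit 35232973978) (nat_lit 152) (nat_lit 35976613364) (nat_lit 228) (nat_lit 1083254004) (nat_lit 36) (nat_lit 5) (nat_lit 38) (nat_lit 5) (nat_lit 39) (nat_lit 5) (nat_lit 386) (nat_lit 366) (nat_lit 268))))))) (XT.nd (nat_lit 780) (nat_lit 608) (nat_lit 0) (XT.nd (nat_lit 390) (nat_lit 380) (nat_lit 0) (XT.nd (nat_lit 156) (nat_lit 228) (nat_lit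 0) (XT.nd (nat_lit 78) (nat_lit 0) (nat_lit 0) (XT.lf (nat_lit 0) (nat_lit 2782294127) (nat_lit 152) (nat_lit 10197715028) (nat_lit 228) (nat_lit 62950681031) (nat_lit 33) (nat_lit 5) (nat_lit 35) (nat_lit 5) (nat_lit 36) (nat_lit 5) (nat_lit 387) (nat_lit 366) (nat_lit 267)) (XT.lf (nat_lit 0) (nat_lit 29571544403) (nat_lit 228) (nat_lit 32341285286) (nat_lit 76) (nat_lit 17827548938) (nat_lit 33) (nat_lit 5) (nat_lit 36) (nat_lit 5) (nat_lit 34) (nat_lit 5) (nat_lit 388) (nat_lit 366) (nat_lit 266))) (XT.nd (nat_lit 78) (nat_lit 76) (nat_lit 0) (XT.lf (nat_lit 0) (nat_lit 12065904985) (nat_lit 152) (nat_lit 35977527884) (nat_lit 228) (nat_lit 35767168141) (nat_lit 31) (nat_lit 5) (nat_lit 33) (nat_lit 5) (nat_lit 34) (nat_lit 5) (nat_lit 389) (nat_lit 366) (nat_lit 265)) (XT.nd (nat_lit 78) (nat_lit 76) (nat_lit 0) (XT.lf (nat_lit 0) (nat_lit 61861829935) (nat_lit 152) (nat_lit 7013555336)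 (nat_lit 228) (nat_lit 19260472085) (nat_lit 31) (nat_lit 5) (nat_lit 33) (nat_lit 5) (nat_lit 34) (nat_lit 5) (nat_lit 390) (nat_lit 366) (nat_lit 264)) (XT.lf (nat_lit 0) (nat_lit 23419174662) (nat_lit 76) (nat_lit 69099749456) (nat_lit 152) (nat_lit 196608785) (nat_lit 30) (nat_lit 5) (nat_lit 31) (nat_lit 5) (nat_lit 32) (nat_lit 4) (nat_lit 391) (nat_lit 366) (nat_lit 263))))) (XT.nd (nat_lit 156) (nat_lit 152) (nat_lit 0) (XT.nd (nat_lit 78) (nat_lit 152) (nat_lit 0) (XT.lf (nat_lit 0) (nat_lit 20289645176) (nat_lit 152) (nat_lit 19716346077) (nat_lit 76) (nat_lit 57542966031) (nat_lit 29) (nat_lit 5) (nat_lit 31) (nat_lit 5) (nat_lit 30) (nat_lit 5) (nat_lit 392) (nat_lit 366) (nat_lit 262)) (XT.lf (nat_lit 0) (nat_lit 35603171745) (nat_lit 152) (nat_lit 7655579805) (nat_lit 228) (nat_lit 59441530486) (nat_lit 27) (nat_lit 5) (nat_lit 29) (nat_lit 5) (nat_lit 30) (nat_lit 5) (nat_lit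 393) (nat_lit 366) (nat_lit 261))) (XT.nd (nat_lit 78) (nat_lit 152) (nat_lit 0) (XT.lf (nat_lit 0) (nat_lit 69272971138) (nat_lit 228) (nat_lit 12424041491) (nat_lit 76) (nat_lit 26470094181) (nat_lit 27) (nat_lit 5) (nat_lit 30) (nat_lit 5) (nat_lit 28) (nat_lit 4) (nat_lit 394) (nat_lit 366) (nat_lit 260)) (XT.nd (nat_lit 78) (nat_lit 76) (nat_lit 0) (XT.lf (nat_lit 0) (nat_lit 48865868811) (nat_lit 76) (nat_lit 49875002545) (nat_lit 152) (nat_lit 15220603520) (nat_lit 26) (nat_lit 5) (nat_lit 27) (nat_lit 5) (nat_lit 28) (nat_lit 4) (nat_lit 395) (nat_lit 366) (nat_lit 259)) (XT.lf (nat_lit 0) (nat_lit 10176224513) (nat_lit 152) (nat_lit 4686983310) (nat_lit 76) (nat_lit 105308517714) (nat_lit 25) (nat_lit 5) (nat_lit 27) (nat_lit 5) (nat_lit 26) (nat_lit 5) (nat_lit 396) (nat_lit 366) (nat_lit 258)))))) (XT.nd (nat_lit 390) (nat_lit 228) (nat_lit 0) (XT.nd (nat_lit 156) (nat_lit 152)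 (nat_lit 0) (XT.nd (nat_lit 78) (nat_lit 76) (nat_lit 0) (XT.lf (nat_lit 0) (nat_lit 38905775228) (nat_lit 228) (nat_lit 64002902239) (nat_lit 76) (nat_lit 23768629409) (nat_lit 23) (nat_lit 5) (nat_lit 26) (nat_lit 5) (nat_lit 24) (nat_lit 4) (nat_lit 397) (nat_lit 366) (nat_lit 257)) (XT.lf (nat_lit 0) (nat_lit 1690906522) (nat_lit 76) (nat_lit 68799604592) (nat_lit 152) (nat_lit 63168278474) (nat_lit 22) (nat_lit 5) (nat_lit 23) (nat_lit 5) (nat_lit 24) (nat_lit 4) (nat_lit 398) (nat_lit 366) (nat_lit 256))) (XT.nd (nat_lit 78) (nat_lit 152) (nat_lit 0) (XT.lf (nat_lit 0) (nat_lit 76277716840) (nat_lit 76) (nat_lit 30072924717) (nat_lit 152) (nat_lit 34708260622) (nat_lit 22) (nat_lit 5) (nat_lit 23) (nat_lit 5) (nat_lit 24) (nat_lit 4) (nat_lit 399) (nat_lit 366) (nat_lit 255)) (XT.nd (nat_lit 78) (nat_lit 76) (nat_lit 0) (XT.lf (nat_lit 0) (nat_lit 7890212877) (nat_lit 76) (nat_lit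 137660500772) (nat_lit 76) (nat_lit 3462620106) (nat_lit 21) (nat_lit 4) (nat_lit 22) (nat_lit 5) (nat_lit 22) (nat_lit 4) (nat_lit 400) (nat_lit 366) (nat_lit 254)) (XT.lf (nat_lit 0) (nat_lit 31364908648) (nat_lit 152) (nat_lit 68960665534) (nat_lit 76) (nat_lit 57012514258) (nat_lit 20) (nat_lit 5) (nat_lit 22) (nat_lit 5) (nat_lit 21) (nat_lit 4) (nat_lit 401) (nat_lit 366) (nat_lit 253))))) (XT.nd (nat_lit 156) (nat_lit 152) (nat_lit 0) (XT.nd (nat_lit 78) (nat_lit 0) (nat_lit 0) (XT.lf (nat_lit 0) (nat_lit 9350456221) (nat_lit 76) (nat_lit 59664829186) (nat_lit 152) (nat_lit 97288446045) (nat_lit 19) (nat_lit 5) (nat_lit 20) (nat_lit 5) (nat_lit 21) (nat_lit 4) (nat_lit 402) (nat_lit 366) (nat_lit 252)) (XT.lf (nat_lit 0) (nat_lit 97846236513) (nat_lit 76) (nat_lit 13715836918) (nat_lit 152) (nat_lit 64273802335) (nat_lit 19) (nat_lit 5) (nat_lit 20) (nat_lit 5) (nat_lit 21) (nat_lit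 4) (nat_lit 403) (nat_lit 366) (nat_lit 251))) (XT.nd (nat_lit 78) (nat_lit 76) (nat_lit 0) (XT.lf (nat_lit 0) (nat_lit 6763834670) (nat_lit 76) (nat_lit 151773990659) (nat_lit 76) (nat_lit 27510748955) (nat_lit 18) (nat_lit 4) (nat_lit 19) (nat_lit 5) (nat_lit 19) (nat_lit 4) (nat_lit 404) (nat_lit 366) (nat_lit 250)) (XT.nd (nat_lit 78) (nat_lit 0) (nat_lit 0) (XT.lf (nat_lit 0) (nat_lit 14126346143) (nat_lit 152) (nat_lit 94881663276) (nat_lit 76) (nat_lit 87843382867) (nat_lit 17) (nat_lit 5) (nat_lit 19) (nat_lit 5) (nat_lit 18) (nat_lit 4) (nat_lit 405) (nat_lit 366) (nat_lit 249)) (XT.lf (nat_lit 0) (nat_lit 57607133580) (nat_lit 152) (nat_lit 4442756469) (nat_lit 76) (nat_lit 146411459163) (nat_lit 17) (nat_lit 5) (nat_lit 19) (nat_lit 5) (nat_lit 18) (nat_lit 4) (nat_lit 406) (nat_lit 366) (nat_lit 248))))))))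
noncomputable def xc166 : XT := (XT.nd (nat_lit 1482) (nat_lit 304) (nat_lit 0) (XT.nd (nat_lit 702) (nat_lit 304) (nat_lit 0) (XT.nd (nat_lit 312) (nat_lit 228) (nat_lit 0) (XT.nd (nat_lit 156) (nat_lit 152) (nat_lit 0) (XT.nd (nat_lit 78) (nat_lit 0) (nat_lit 0) (XT.lf (nat_lit 0) (nat_lit 98138852088) (nat_lit 76) (nat_lit 8786866030) (nat_lit 152) (nat_lit 113885638086) (nat_lit 16) (nat_lit 5) (nat_lit 17) (nat_lit 5) (nat_lit 18) (nat_lit 4) (nat_lit 407) (nat_lit 366) (nat_lit 247)) (XT.lf (nat_lit 0) (nat_lit 161485648647) (nat_lit 152) (nat_lit 26137001003) (nat_lit 0) (nat_lit 46423045588) (nat_lit 16) (nat_lit 5) (nat_lit 18) (nat_lit 4) (nat_lit 16) (nat_lit 4) (nat_lit 408) (nat_lit 366) (nat_lit 246))) (XT.nd (nat_lit 78) (nat_lit 76) (nat_lit 0) (XT.lf (nat_lit 0) (nat_lit 81993146976) (nat_lit 76) (nat_lit 140616561144) (nat_lit 76) (nat_lit 25553126719) (nat_lit 15) (nat_lit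 4) (nat_lit 16) (nat_lit 5) (nat_lit 16) (nat_lit 4) (nat_lit 409) (nat_lit 366) (nat_lit 245)) (XT.lf (nat_lit 0) (nat_lit 24685386995) (nat_lit 152) (nat_lit 63718599258) (nat_lit 76) (nat_lit 174898257961) (nat_lit 14) (nat_lit 5) (nat_lit 16) (nat_lit 5) (nat_lit 15) (nat_lit 4) (nat_lit 410) (nat_lit 366) (nat_lit 244)))) (XT.nd (nat_lit 156) (nat_lit 152) (nat_lit 0) (XT.nd (nat_lit 78) (nat_lit 0) (nat_lit 0) (XT.lf (nat_lit 0) (nat_lit 48699526902) (nat_lit 76) (nat_lit 30033378805) (nat_lit 152) (nat_lit 200773166869) (nat_lit 13) (nat_lit 5) (nat_lit 14) (nat_lit 5) (nat_lit 15) (nat_lit 4) (nat_lit 411) (nat_lit 366) (nat_lit 243)) (XT.lf (nat_lit 0) (nat_lit 139684710107) (nat_lit 152) (nat_lit 123972549276) (nat_lit 0) (nat_lit 33142509241) (nat_lit 13) (nat_lit 5) (nat_lit 15) (nat_lit 4) (nat_lit 13) (nat_lit 4) (nat_lit 412) (nat_lit 366) (nat_lit 242))) (XT.nd (nat_lit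 78) (nat_lit 152) (nat_lit 0) (XT.lf (nat_lit 0) (nat_lit 206292040287) (nat_lit 152) (nat_lit 9373296086) (nat_lit 0) (nat_lit 99749273607) (nat_lit 13) (nat_lit 5) (nat_lit 15) (nat_lit 4) (nat_lit 13) (nat_lit 4) (nat_lit 413) (nat_lit 366) (nat_lit 241)) (XT.nd (nat_lit 78) (nat_lit 76) (nat_lit 0) (XT.lf (nat_lit 0) (nat_lit 120416336926) (nat_lit 76) (nat_lit 160706981743) (nat_lit 76) (nat_lit 54163691162) (nat_lit 12) (nat_lit 4) (nat_lit 13) (nat_lit 5) (nat_lit 13) (nat_lit 4) (nat_lit 414) (nat_lit 366) (nat_lit 240)) (XT.lf (nat_lit 0) (nat_lit 5194465088) (nat_lit 152) (nat_lit 95739288291) (nat_lit 76) (nat_lit 255784476205) (nat_lit 11) (nat_lit 5) (nat_lit 13) (nat_lit 5) (nat_lit 12) (nat_lit 4) (nat_lit 415) (nat_lit 366) (nat_lit 239)))))) (XT.nd (nat_lit 390) (nat_lit 152) (nat_lit 0) (XT.nd (nat_lit 156) (nat_lit 76) (nat_lit 0) (XT.nd (nat_lit 78) (nat_lit 0) (nat_lit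 0) (XT.lf (nat_lit 0) (nat_lit 33174078720) (nat_lit 76) (nat_lit 33998182604) (nat_lit 152) (nat_lit 312515359073) (nat_lit 10) (nat_lit 5) (nat_lit 11) (nat_lit 5) (nat_lit 12) (nat_lit 4) (nat_lit 416) (nat_lit 366) (nat_lit 238)) (XT.lf (nat_lit 0) (nat_lit 137714283677) (nat_lit 152) (nat_lit 227429960142) (nat_lit 0) (nat_lit 39061838560) (nat_lit 10) (nat_lit 5) (nat_lit 12) (nat_lit 4) (nat_lit 10) (nat_lit 4) (nat_lit 417) (nat_lit 366) (nat_lit 237))) (XT.nd (nat_lit 78) (nat_lit 76) (nat_lit 0) (XT.lf (nat_lit 0) (nat_lit 214782181688) (nat_lit 152) (nat_lit 99703858594) (nat_lit 0) (nat_lit 116129380013) (nat_lit 10) (nat_lit 5) (nat_lit 12) (nat_lit 4) (nat_lit 10) (nat_lit 4) (nat_lit 418) (nat_lit 366) (nat_lit 236)) (XT.nd (nat_lit 78) (nat_lit 0) (nat_lit 0) (XT.lf (nat_lit 0) (nat_lit 40252930079) (nat_lit 76) (nat_lit 258730150763) (nat_lit 76) (nat_lit 160077018941)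 (nat_lit 9) (nat_lit 4) (nat_lit 10) (nat_lit 5) (nat_lit 10) (nat_lit 4) (nat_lit 419) (nat_lit 366) (nat_lit 235)) (XT.lf (nat_lit 0) (nat_lit 197075518754) (nat_lit 76) (nat_lit 195570113037) (nat_lit 76) (nat_lit 96916675524) (nat_lit 9) (nat_lit 4) (nat_lit 10) (nat_lit 5) (nat_lit 10) (nat_lit 4) (nat_lit 420) (nat_lit 366) (nat_lit 234))))) (XT.nd (nat_lit 156) (nat_lit 76) (nat_lit 0) (XT.nd (nat_lit 78) (nat_lit 76) (nat_lit 0) (XT.lf (nat_lit 0) (nat_lit 366442997973) (nat_lit 76) (nat_lit 127357725585) (nat_lit 76) (nat_lit 28704005024) (nat_lit 9) (nat_lit 4) (nat_lit 10) (nat_lit 5) (nat_lit 10) (nat_lit 4) (nat_lit 421) (nat_lit 366) (nat_lit 233)) (XT.lf (nat_lit 0) (nat_lit 42715873586) (nat_lit 152) (nat_lit 9804965581) (nat_lit 76) (nat_lit 505475225600) (nat_lit 8) (nat_lit 5) (nat_lit 10) (nat_lit 5) (nat_lit 9) (nat_lit 4) (nat_lit 422) (nat_lit 366) (nat_lit 232)))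 (XT.nd (nat_lit 78) (nat_lit 0) (nat_lit 0) (XT.lf (nat_lit 0) (nat_lit 122826943060) (nat_lit 152) (nat_lit 441597413020) (nat_lit 0) (nat_lit 31480438144) (nat_lit 7) (nat_lit 5) (nat_lit 9) (nat_lit 4) (nat_lit 7) (nat_lit 4) (nat_lit 423) (nat_lit 366) (nat_lit 231)) (XT.nd (nat_lit 78) (nat_lit 0) (nat_lit 0) (XT.lf (nat_lit 0) (nat_lit 210985718445) (nat_lit 152) (nat_lit 306090392537) (nat_lit 0) (nat_lit 119639005480) (nat_lit 7) (nat_lit 5) (nat_lit 9) (nat_lit 4) (nat_lit 7) (nat_lit 4) (nat_lit 424) (nat_lit 366) (nat_lit 230)) (XT.lf (nat_lit 0) (nat_lit 306196820237) (nat_lit 152) (nat_lit 159743559704) (nat_lit 0) (nat_lit 214849914635) (nat_lit 7) (nat_lit 5) (nat_lit 9) (nat_lit 4) (nat_lit 7) (nat_lit 4) (nat_lit 425) (nat_lit 366) (nat_lit 229))))))) (XT.nd (nat_lit 780) (nat_lit 76) (nat_lit 0) (XT.nd (nat_lit 390) (nat_lit 152) (nat_lit 0) (XT.nd (nat_lit 156) (nat_lit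 0) (nat_lit 0) (XT.nd (nat_lit 78) (nat_lit 76) (nat_lit 0) (XT.lf (nat_lit 0) (nat_lit 409024462373) (nat_lit 152) (nat_lit 1689674031) (nat_lit 0) (nat_lit 317677378402) (nat_lit 7) (nat_lit 5) (nat_lit 9) (nat_lit 4) (nat_lit 7) (nat_lit 4) (nat_lit 426) (nat_lit 366) (nat_lit 228)) (XT.lf (nat_lit 0) (nat_lit 177907535558) (nat_lit 76) (nat_lit 346449138793) (nat_lit 76) (nat_lit 255101889667) (nat_lit 6) (nat_lit 4) (nat_lit 7) (nat_lit 5) (nat_lit 7) (nat_lit 4) (nat_lit 427) (nat_lit 366) (nat_lit 227))) (XT.nd (nat_lit 78) (nat_lit 0) (nat_lit 0) (XT.lf (nat_lit 0) (nat_lit 371967989044) (nat_lit 76) (nat_lit 276993359687) (nat_lit 76) (nat_lit 185645957639) (nat_lit 6) (nat_lit 4) (nat_lit 7) (nat_lit 5) (nat_lit 7) (nat_lit 4) (nat_lit 428) (nat_lit 366) (nat_lit 226)) (XT.nd (nat_lit 78) (nat_lit 0) (nat_lit 0) (XT.lf (nat_lit 0) (nat_lit 581552699057) (nat_lit 76) (nat_lit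 201981407966) (nat_lit 76) (nat_lit 110633864324) (nat_lit 6) (nat_lit 4) (nat_lit 7) (nat_lit 5) (nat_lit 7) (nat_lit 4) (nat_lit 429) (nat_lit 366) (nat_lit 225)) (XT.lf (nat_lit 0) (nat_lit 807903649064) (nat_lit 76) (nat_lit 120968768361) (nat_lit 76) (nat_lit 29621093613) (nat_lit 6) (nat_lit 4) (nat_lit 7) (nat_lit 5) (nat_lit 7) (nat_lit 4) (nat_lit 430) (nat_lit 366) (nat_lit 224))))) (XT.nd (nat_lit 156) (nat_lit 0) (nat_lit 0) (XT.nd (nat_lit 78) (nat_lit 0) (nat_lit 0) (XT.lf (nat_lit 0) (nat_lit 24216645550) (nat_lit 76) (nat_lit 31343182186) (nat_lit 152) (nat_lit 972247346553) (nat_lit 4) (nat_lit 5) (nat_lit 5) (nat_lit 5) (nat_lit 6) (nat_lit 4) (nat_lit 431) (nat_lit 366) (nat_lit 223)) (XT.lf (nat_lit 0) (nat_lit 151753132152) (nat_lit 152) (nat_lit 883215655374) (nat_lit 0) (nat_lit 67171735351) (nat_lit 4) (nat_lit 5) (nat_lit 6) (nat_lit 4) (nat_lit 4) (nat_lit 4)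 (nat_lit 432) (nat_lit 366) (nat_lit 222))) (XT.nd (nat_lit 78) (nat_lit 0) (nat_lit 0) (XT.lf (nat_lit 0) (nat_lit 256455774167) (nat_lit 152) (nat_lit 754025374349) (nat_lit 0) (nat_lit 171874281000) (nat_lit 4) (nat_lit 5) (nat_lit 6) (nat_lit 4) (nat_lit 4) (nat_lit 4) (nat_lit 433) (nat_lit 366) (nat_lit 221)) (XT.nd (nat_lit 78) (nat_lit 0) (nat_lit 0) (XT.lf (nat_lit 0) (nat_lit 369534409599) (nat_lit 152) (nat_lit 614500309343) (nat_lit 0) (nat_lit 284952827203) (nat_lit 4) (nat_lit 5) (nat_lit 6) (nat_lit 4) (nat_lit 4) (nat_lit 4) (nat_lit 434) (nat_lit 366) (nat_lit 220)) (XT.lf (nat_lit 0) (nat_lit 491659134063) (nat_lit 152) (nat_lit 463813645157) (nat_lit 0) (nat_lit 407077469048) (nat_lit 4) (nat_lit 5) (nat_lit 6) (nat_lit 4) (nat_lit 4) (nat_lit 4) (nat_lit 435) (nat_lit 366) (nat_lit 219)))))) (XT.nd (nat_lit 390) (nat_lit 0) (nat_lit 0) (XT.nd (nat_lit 156) (nat_lit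 76) (nat_lit 0) (XT.nd (nat_lit 78) (nat_lit 0) (nat_lit 0) (XT.lf (nat_lit 0) (nat_lit 623553649631) (nat_lit 152) (nat_lit 301072423779) (nat_lit 0) (nat_lit 538971908117) (nat_lit 4) (nat_lit 5) (nat_lit 6) (nat_lit 4) (nat_lit 4) (nat_lit 4) (nat_lit 436) (nat_lit 366) (nat_lit 218)) (XT.lf (nat_lit 0) (nat_lit 765999553432) (nat_lit 152) (nat_lit 125312252788) (nat_lit 0) (nat_lit 681417741086) (nat_lit 4) (nat_lit 5) (nat_lit 6) (nat_lit 4) (nat_lit 4) (nat_lit 4) (nat_lit 437) (nat_lit 366) (nat_lit 217))) (XT.nd (nat_lit 78) (nat_lit 0) (nat_lit 0) (XT.lf (nat_lit 0) (nat_lit 67905308098) (nat_lit 76) (nat_lit 853568785535) (nat_lit 76) (nat_lit 768986907603) (nat_lit 3) (nat_lit 4) (nat_lit 4) (nat_lit 5) (nat_lit 4) (nat_lit 4) (nat_lit 438) (nat_lit 366) (nat_lit 216)) (XT.nd (nat_lit 78) (nat_lit 0) (nat_lit 0) (XT.lf (nat_lit 0) (nat_lit 283706578558) (nat_lit 76) (nat_lit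 809106121671) (nat_lit 76) (nat_lit 724524183012) (nat_lit 3) (nat_lit 4) (nat_lit 4) (nat_lit 5) (nat_lit 4) (nat_lit 4) (nat_lit 439) (nat_lit 366) (nat_lit 215)) (XT.lf (nat_lit 0) (nat_lit 516771659773) (nat_lit 76) (nat_lit 761086591241) (nat_lit 76) (nat_lit 676504596353) (nat_lit 3) (nat_lit 4) (nat_lit 4) (nat_lit 5) (nat_lit 4) (nat_lit 4) (nat_lit 440) (nat_lit 366) (nat_lit 214))))) (XT.nd (nat_lit 156) (nat_lit 0) (nat_lit 0) (XT.nd (nat_lit 78) (nat_lit 0) (nat_lit 0) (XT.lf (nat_lit 0) (nat_lit 768481678150) (nat_lit 76) (nat_lit 709225634065) (nat_lit 76) (nat_lit 624643587113) (nat_lit 3) (nat_lit 4) (nat_lit 4) (nat_lit 5) (nat_lit 4) (nat_lit 4) (nat_lit 441) (nat_lit 366) (nat_lit 213)) (XT.lf (nat_lit 0) (nat_lit 1040328248614) (nat_lit 76) (nat_lit 653215925951) (nat_lit 76) (nat_lit 568633830792) (nat_lit 3) (nat_lit 4) (nat_lit 4) (nat_lit 5) (nat_lit 4) (nat_lit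 4) (nat_lit 442) (nat_lit 366) (nat_lit 212))) (XT.nd (nat_lit 78) (nat_lit 0) (nat_lit 0) (XT.lf (nat_lit 0) (nat_lit 1333922313804) (nat_lit 76) (nat_lit 592725557519) (nat_lit 76) (nat_lit 508143417723) (nat_lit 3) (nat_lit 4) (nat_lit 4) (nat_lit 5) (nat_lit 4) (nat_lit 4) (nat_lit 443) (nat_lit 366) (nat_lit 211)) (XT.nd (nat_lit 78) (nat_lit 0) (nat_lit 0) (XT.lf (nat_lit 0) (nat_lit 1651003690403) (nat_lit 76) (nat_lit 527396067325) (nat_lit 76) (nat_lit 442813886200) (nat_lit 3) (nat_lit 4) (nat_lit 4) (nat_lit 5) (nat_lit 4) (nat_lit 4) (nat_lit 444) (nat_lit 366) (nat_lit 210)) (XT.lf (nat_lit 0) (nat_lit 1993451379160) (nat_lit 76) (nat_lit 456840317651) (nat_lit 76) (nat_lit 372258098257) (nat_lit 3) (nat_lit 4) (nat_lit 4) (nat_lit 5) (nat_lit 4) (nat_lit 4) (nat_lit 445) (nat_lit 366) (nat_lit 209))))))))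
noncomputable def xc167 : XT := (XT.nd (nat_lit 47580) (nat_lit 0) (nat_lit 1976) (XT.nd (nat_lit 702) (nat_lit 0) (nat_lit 0) (XT.nd (nat_lit 312) (nat_lit 152) (nat_lit 0) (XT.nd (nat_lit 156) (nat_lit 0) (nat_lit 0) (XT.nd (nat_lit 78) (nat_lit 0) (nat_lit 0) (XT.lf (nat_lit 0) (nat_lit 2363294699714) (nat_lit 76) (nat_lit 380640200350) (nat_lit 76) (nat_lit 296057945522) (nat_lit 3) (nat_lit 4) (nat_lit 4) (nat_lit 5) (nat_lit 4) (nat_lit 4) (nat_lit 446) (nat_lit 366) (nat_lit 208)) (XT.lf (nat_lit 0) (nat_lit 2762725316186) (nat_lit 76) (nat_lit 298344159171) (nat_lit 76) (nat_lit 213761871534) (nat_lit 3) (nat_lit 4) (nat_lit 4) (nat_lit 5) (nat_lit 4) (nat_lit 4) (nat_lit 447) (nat_lit 366) (nat_lit 207))) (XT.nd (nat_lit 78) (nat_lit 0) (nat_lit 0) (XT.lf (nat_lit 0) (nat_lit 3194110224821) (nat_lit 76) (nat_lit 209464513870) (nat_lit 76) (nat_lit 124882195854) (nat_lit 3) (nat_lit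 4) (nat_lit 4) (nat_lit 5) (nat_lit 4) (nat_lit 4) (nat_lit 448) (nat_lit 366) (nat_lit 206)) (XT.lf (nat_lit 0) (nat_lit 3660005780634) (nat_lit 76) (nat_lit 113474570252) (nat_lit 76) (nat_lit 28892224108) (nat_lit 3) (nat_lit 4) (nat_lit 4) (nat_lit 5) (nat_lit 4) (nat_lit 4) (nat_lit 449) (nat_lit 366) (nat_lit 205)))) (XT.nd (nat_lit 156) (nat_lit 0) (nat_lit 0) (XT.nd (nat_lit 78) (nat_lit 0) (nat_lit 0) (XT.lf (nat_lit 0) (nat_lit 66499566167) (nat_lit 76) (nat_lit 6135981119) (nat_lit 152) (nat_lit 4025294108609) (nat_lit 1) (nat_lit 5) (nat_lit 2) (nat_lit 5) (nat_lit 3) (nat_lit 4) (nat_lit 450) (nat_lit 366) (nat_lit 204)) (XT.lf (nat_lit 0) (nat_lit 187358652174) (nat_lit 152) (nat_lit 4120140273363) (nat_lit 0) (nat_lit 109041618559) (nat_lit 1) (nat_lit 5) (nat_lit 3) (nat_lit 4) (nat_lit 1) (nat_lit 4) (nat_lit 451) (nat_lit 366) (nat_lit 203))) (XT.nd (nat_lit 78) (nat_lit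 0) (nat_lit 0) (XT.lf (nat_lit 0) (nat_lit 311418918254) (nat_lit 152) (nat_lit 4216106776116) (nat_lit 0) (nat_lit 233101863963) (nat_lit 1) (nat_lit 5) (nat_lit 3) (nat_lit 4) (nat_lit 1) (nat_lit 4) (nat_lit 452) (nat_lit 366) (nat_lit 202)) (XT.nd (nat_lit 78) (nat_lit 0) (nat_lit 0) (XT.lf (nat_lit 0) (nat_lit 445403946980) (nat_lit 152) (nat_lit 4319750717882) (nat_lit 0) (nat_lit 367086873545) (nat_lit 1) (nat_lit 5) (nat_lit 3) (nat_lit 4) (nat_lit 1) (nat_lit 4) (nat_lit 453) (nat_lit 366) (nat_lit 201)) (XT.lf (nat_lit 0) (nat_lit 590107723706) (nat_lit 152) (nat_lit 4431686284981) (nat_lit 0) (nat_lit 511790632546) (nat_lit 1) (nat_lit 5) (nat_lit 3) (nat_lit 4) (nat_lit 1) (nat_lit 4) (nat_lit 454) (nat_lit 366) (nat_lit 200)))))) (XT.nd (nat_lit 46488) (nat_lit 0) (nat_lit 4180) (XT.nd (nat_lit 46254) (nat_lit 0) (nat_lit 4560) (XT.nd (nat_lit 78) (nat_lit 0) (nat_lit 0) (XT.lf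 (nat_lit 0) (nat_lit 746387752296) (nat_lit 152) (nat_lit 4552576799293) (nat_lit 0) (nat_lit 668070644723) (nat_lit 1) (nat_lit 5) (nat_lit 3) (nat_lit 4) (nat_lit 1) (nat_lit 4) (nat_lit 455) (nat_lit 366) (nat_lit 199)) (XT.lf (nat_lit 0) (nat_lit 915170136622) (nat_lit 152) (nat_lit 4683138649051) (nat_lit 0) (nat_lit 836853013852) (nat_lit 1) (nat_lit 5) (nat_lit 3) (nat_lit 4) (nat_lit 1) (nat_lit 4) (nat_lit 456) (nat_lit 366) (nat_lit 198))) (XT.nd (nat_lit 78) (nat_lit 0) (nat_lit 0) (XT.lf (nat_lit 0) (nat_lit 13513023667) (nat_lit 532) (nat_lit 1380477604) (nat_lit 532) (nat_lit 1380477604) (nat_lit 61) (nat_lit 3) (nat_lit 68) (nat_lit 3) (nat_lit 68) (nat_lit 5) (nat_lit 367) (nat_lit 367) (nat_lit 286)) (XT.nd (nat_lit 78) (nat_lit 0) (nat_lit 76) (XT.lf (nat_lit 76) (nat_lit 13610116967) (nat_lit 0) (nat_lit 14882052876) (nat_lit 532) (nat_lit 5326829223) (nat_lit 62) (nat_lit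 5) (nat_lit 61) (nat_lit 3) (nat_lit 68) (nat_lit 5) (nat_lit 368) (nat_lit 367) (nat_lit 285)) (XT.lf (nat_lit 0) (nat_lit 30176464373) (nat_lit 456) (nat_lit 3772806086) (nat_lit 532) (nat_lit 1234389707) (nat_lit 62) (nat_lit 5) (nat_lit 68) (nat_lit 5) (nat_lit 69) (nat_lit 5) (nat_lit 369) (nat_lit 367) (nat_lit 284))))) (XT.nd (nat_lit 156) (nat_lit 456) (nat_lit 0) (XT.nd (nat_lit 78) (nat_lit 0) (nat_lit 0) (XT.lf (nat_lit 76) (nat_lit 14303590234) (nat_lit 0) (nat_lit 18417094291) (nat_lit 532) (nat_lit 3878801599) (nat_lit 63) (nat_lit 5) (nat_lit 62) (nat_lit 5) (nat_lit 69) (nat_lit 5) (nat_lit 370) (nat_lit 367) (nat_lit 283)) (XT.lf (nat_lit 76) (nat_lit 34037208308) (nat_lit 0) (nat_lit 1529337204) (nat_lit 532) (nat_lit 2554190439) (nat_lit 63) (nat_lit 5) (nat_lit 62) (nat_lit 5) (nat_lit 69) (nat_lit 5) (nat_lit 371) (nat_lit 367) (nat_lit 282))) (XT.nd (nat_lit 78) (nat_lit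 532) (nat_lit 0) (XT.lf (nat_lit 76) (nat_lit 15979725766) (nat_lit 0) (nat_lit 23441882698) (nat_lit 532) (nat_lit 279560258) (nat_lit 64) (nat_lit 5) (nat_lit 63) (nat_lit 5) (nat_lit 70) (nat_lit 5) (nat_lit 372) (nat_lit 367) (nat_lit 281)) (XT.nd (nat_lit 78) (nat_lit 0) (nat_lit 76) (XT.lf (nat_lit 0) (nat_lit 2217908174) (nat_lit 532) (nat_lit 3617574552) (nat_lit 608) (nat_lit 35556387784) (nat_lit 56) (nat_lit 5) (nat_lit 63) (nat_lit 5) (nat_lit 64) (nat_lit 5) (nat_lit 373) (nat_lit 367) (nat_lit 280)) (XT.lf (nat_lit 0) (nat_lit 5682783536) (nat_lit 532) (nat_lit 24473900168) (nat_lit 76) (nat_lit 12997951244) (nat_lit 57) (nat_lit 5) (nat_lit 64) (nat_lit 5) (nat_lit 58) (nat_lit 5) (nat_lit 374) (nat_lit 367) (nat_lit 279))))))) (XT.nd (nat_lit 780) (nat_lit 988) (nat_lit 0) (XT.nd (nat_lit 390) (nat_lit 456) (nat_lit 0) (XT.nd (nat_lit 156) (nat_lit 456) (nat_lit 0) (XT.nd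 (nat_lit 78) (nat_lit 380) (nat_lit 0) (XT.lf (nat_lit 0) (nat_lit 9673971847) (nat_lit 532) (nat_lit 2239732677) (nat_lit 76) (nat_lit 33124790301) (nat_lit 57) (nat_lit 5) (nat_lit 64) (nat_lit 5) (nat_lit 58) (nat_lit 5) (nat_lit 375) (nat_lit 367) (nat_lit 278)) (XT.lf (nat_lit 0) (nat_lit 14733588467) (nat_lit 456) (nat_lit 24314835400) (nat_lit 76) (nat_lit 7964712780) (nat_lit 52) (nat_lit 5) (nat_lit 58) (nat_lit 5) (nat_lit 53) (nat_lit 5) (nat_lit 376) (nat_lit 367) (nat_lit 277))) (XT.nd (nat_lit 78) (nat_lit 228) (nat_lit 0) (XT.lf (nat_lit 0) (nat_lit 319185912) (nat_lit 228) (nat_lit 20255294068) (nat_lit 304) (nat_lit 28541152918) (nat_lit 49) (nat_lit 5) (nat_lit 52) (nat_lit 5) (nat_lit 53) (nat_lit 5) (nat_lit 377) (nat_lit 367) (nat_lit 276)) (XT.nd (nat_lit 78) (nat_lit 228) (nat_lit 0) (XT.lf (nat_lit 0) (nat_lit 27562430811) (nat_lit 304) (nat_lit 23048482307) (nat_lit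 76) (nat_lit 721035964) (nat_lit 49) (nat_lit 5) (nat_lit 53) (nat_lit 5) (nat_lit 50) (nat_lit 5) (nat_lit 378) (nat_lit 367) (nat_lit 275)) (XT.lf (nat_lit 0) (nat_lit 4452405038) (nat_lit 228) (nat_lit 31287164432) (nat_lit 304) (nat_lit 17935591975) (nat_lit 46) (nat_lit 5) (nat_lit 49) (nat_lit 5) (nat_lit 50) (nat_lit 5) (nat_lit 379) (nat_lit 367) (nat_lit 274))))) (XT.nd (nat_lit 156) (nat_lit 304) (nat_lit 0) (XT.nd (nat_lit 78) (nat_lit 152) (nat_lit 0) (XT.lf (nat_lit 0) (nat_lit 35460710051) (nat_lit 228) (nat_lit 9737457751) (nat_lit 304) (nat_lit 10957482712) (nat_lit 46) (nat_lit 5) (nat_lit 49) (nat_lit 5) (nat_lit 50) (nat_lit 5) (nat_lit 380) (nat_lit 367) (nat_lit 273)) (XT.lf (nat_lit 0) (nat_lit 10301485010) (nat_lit 152) (nat_lit 45682571282) (nat_lit 228) (nat_lit 2804876827) (nat_lit 44) (nat_lit 5) (nat_lit 46) (nat_lit 5) (nat_lit 47) (nat_lit 5) (nat_lit 381)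 (nat_lit 367) (nat_lit 272))) (XT.nd (nat_lit 78) (nat_lit 228) (nat_lit 0) (XT.lf (nat_lit 0) (nat_lit 6530606494) (nat_lit 228) (nat_lit 17048410783) (nat_lit 76) (nat_lit 37975854579) (nat_lit 43) (nat_lit 5) (nat_lit 46) (nat_lit 5) (nat_lit 44) (nat_lit 5) (nat_lit 382) (nat_lit 367) (nat_lit 271)) (XT.nd (nat_lit 78) (nat_lit 0) (nat_lit 0) (XT.lf (nat_lit 0) (nat_lit 16904995878) (nat_lit 304) (nat_lit 46806426848) (nat_lit 76) (nat_lit 789348423) (nat_lit 40) (nat_lit 5) (nat_lit 44) (nat_lit 5) (nat_lit 41) (nat_lit 5) (nat_lit 383) (nat_lit 367) (nat_lit 270)) (XT.lf (nat_lit 0) (nat_lit 29197659245) (nat_lit 304) (nat_lit 12086804497) (nat_lit 76) (nat_lit 26310814724) (nat_lit 40) (nat_lit 5) (nat_lit 44) (nat_lit 5) (nat_lit 41) (nat_lit 5) (nat_lit 384) (nat_lit 367) (nat_lit 269)))))) (XT.nd (nat_lit 390) (nat_lit 456) (nat_lit 0) (XT.nd (nat_lit 156) (nat_lit 380) (nat_lit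 0) (XT.nd (nat_lit 78) (nat_lit 0) (nat_lit 0) (XT.lf (nat_lit 0) (nat_lit 26745255243) (nat_lit 152) (nat_lit 16369519000) (nat_lit 228) (nat_lit 27771290806) (nat_lit 38) (nat_lit 5) (nat_lit 40) (nat_lit 5) (nat_lit 41) (nat_lit 5) (nat_lit 385) (nat_lit 367) (nat_lit 268)) (XT.lf (nat_lit 0) (nat_lit 58735655301) (nat_lit 228) (nat_lit 5307557237) (nat_lit 76) (nat_lit 10349671910) (nat_lit 38) (nat_lit 5) (nat_lit 41) (nat_lit 5) (nat_lit 39) (nat_lit 5) (nat_lit 386) (nat_lit 367) (nat_lit 267))) (XT.nd (nat_lit 78) (nat_lit 228) (nat_lit 0) (XT.lf (nat_lit 0) (nat_lit 38110747693) (nat_lit 152) (nat_lit 38835246923) (nat_lit 228) (nat_lit 1127073272) (nat_lit 36) (nat_lit 5) (nat_lit 38) (nat_lit 5) (nat_lit 39) (nat_lit 5) (nat_lit 387) (nat_lit 367) (nat_lit 266)) (XT.nd (nat_lit 78) (nat_lit 0) (nat_lit 0) (XT.lf (nat_lit 0) (nat_lit 3064631835) (nat_lit 152) (nat_lit 10992898448)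 (nat_lit 228) (nat_lit 67944460159) (nat_lit 33) (nat_lit 5) (nat_lit 35) (nat_lit 5) (nat_lit 36) (nat_lit 5) (nat_lit 388) (nat_lit 367) (nat_lit 265)) (XT.lf (nat_lit 0) (nat_lit 31973950028) (nat_lit 228) (nat_lit 34870798391) (nat_lit 76) (nat_lit 19271902481) (nat_lit 33) (nat_lit 5) (nat_lit 36) (nat_lit 5) (nat_lit 34) (nat_lit 5) (nat_lit 389) (nat_lit 367) (nat_lit 264))))) (XT.nd (nat_lit 156) (nat_lit 304) (nat_lit 0) (XT.nd (nat_lit 78) (nat_lit 0) (nat_lit 0) (XT.lf (nat_lit 0) (nat_lit 13087504071) (nat_lit 152) (nat_lit 38834722968) (nat_lit 228) (nat_lit 38590374774) (nat_lit 31) (nat_lit 5) (nat_lit 33) (nat_lit 5) (nat_lit 34) (nat_lit 5) (nat_lit 390) (nat_lit 367) (nat_lit 263)) (XT.lf (nat_lit 0) (nat_lit 66862930670) (nat_lit 152) (nat_lit 7555188701) (nat_lit 228) (nat_lit 20765970206) (nat_lit 31) (nat_lit 5) (nat_lit 33) (nat_lit 5) (nat_lit 34) (nat_lit 5) (nat_lit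 391) (nat_lit 367) (nat_lit 262))) (XT.nd (nat_lit 78) (nat_lit 228) (nat_lit 0) (XT.lf (nat_lit 0) (nat_lit 25345656282) (nat_lit 76) (nat_lit 74606769117) (nat_lit 152) (nat_lit 177772531) (nat_lit 30) (nat_lit 5) (nat_lit 31) (nat_lit 5) (nat_lit 32) (nat_lit 4) (nat_lit 392) (nat_lit 367) (nat_lit 261)) (XT.nd (nat_lit 78) (nat_lit 152) (nat_lit 0) (XT.lf (nat_lit 0) (nat_lit 21943220381) (nat_lit 152) (nat_lit 21243011204) (nat_lit 76) (nat_lit 62164194034) (nat_lit 29) (nat_lit 5) (nat_lit 31) (nat_lit 5) (nat_lit 30) (nat_lit 5) (nat_lit 393) (nat_lit 367) (nat_lit 260)) (XT.lf (nat_lit 0) (nat_lit 38500785955) (nat_lit 152) (nat_lit 8248004313) (nat_lit 228) (nat_lit 64165152465) (nat_lit 27) (nat_lit 5) (nat_lit 29) (nat_lit 5) (nat_lit 30) (nat_lit 5) (nat_lit 394) (nat_lit 367) (nat_lit 259))))))))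
noncomputable def xc168 : XT := (XT.nd (nat_lit 1482) (nat_lit 684) (nat_lit 0) (XT.nd (nat_lit 702) (nat_lit 456) (nat_lit 0) (XT.nd (nat_lit 312) (nat_lit 304) (nat_lit 0) (XT.nd (nat_lit 156) (nat_lit 228) (nat_lit 0) (XT.nd (nat_lit 78) (nat_lit 76) (nat_lit 0) (XT.lf (nat_lit 0) (nat_lit 74842420051) (nat_lit 228) (nat_lit 13370519616) (nat_lit 76) (nat_lit 28605313105) (nat_lit 27) (nat_lit 5) (nat_lit 30) (nat_lit 5) (nat_lit 28) (nat_lit 4) (nat_lit 395) (nat_lit 367) (nat_lit 258)) (XT.lf (nat_lit 0) (nat_lit 52821382366) (nat_lit 76) (nat_lit 53845436816) (nat_lit 152) (nat_lit 16409426765) (nat_lit 26) (nat_lit 5) (nat_lit 27) (nat_lit 5) (nat_lit 28) (nat_lit 4) (nat_lit 396) (nat_lit 367) (nat_lit 257))) (XT.nd (nat_lit 78) (nat_lit 152) (nat_lit 0) (XT.lf (nat_lit 0) (nat_lit 11015677189) (nat_lit 152) (nat_lit 5017777413) (nat_lit 76) (nat_lit 113749969739) (nat_lit 25)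 (nat_lit 5) (nat_lit 27) (nat_lit 5) (nat_lit 26) (nat_lit 5) (nat_lit 397) (nat_lit 367) (nat_lit 256)) (XT.lf (nat_lit 0) (nat_lit 42043194861) (nat_lit 228) (nat_lit 69078562697) (nat_lit 76) (nat_lit 25687727201) (nat_lit 23) (nat_lit 5) (nat_lit 26) (nat_lit 5) (nat_lit 24) (nat_lit 4) (nat_lit 398) (nat_lit 367) (nat_lit 255)))) (XT.nd (nat_lit 156) (nat_lit 228) (nat_lit 0) (XT.nd (nat_lit 78) (nat_lit 0) (nat_lit 0) (XT.lf (nat_lit 0) (nat_lit 1869622366) (nat_lit 76) (nat_lit 74284283352) (nat_lit 152) (nat_lit 68195645426) (nat_lit 22) (nat_lit 5) (nat_lit 23) (nat_lit 5) (nat_lit 24) (nat_lit 4) (nat_lit 399) (nat_lit 367) (nat_lit 254)) (XT.lf (nat_lit 0) (nat_lit 82420159486) (nat_lit 76) (nat_lit 32460897946) (nat_lit 152) (nat_lit 37460759133) (nat_lit 22) (nat_lit 5) (nat_lit 23) (nat_lit 5) (nat_lit 24) (nat_lit 4) (nat_lit 400) (nat_lit 367) (nat_lit 253))) (XT.nd (nat_lit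 78) (nat_lit 152) (nat_lit 0) (XT.lf (nat_lit 0) (nat_lit 8561970441) (nat_lit 76) (nat_lit 148654880951) (nat_lit 76) (nat_lit 3715774627) (nat_lit 21) (nat_lit 4) (nat_lit 22) (nat_lit 5) (nat_lit 22) (nat_lit 4) (nat_lit 401) (nat_lit 367) (nat_lit 252)) (XT.nd (nat_lit 78) (nat_lit 76) (nat_lit 0) (XT.lf (nat_lit 0) (nat_lit 33895084450) (nat_lit 152) (nat_lit 74438869466) (nat_lit 76) (nat_lit 61589496104) (nat_lit 20) (nat_lit 5) (nat_lit 22) (nat_lit 5) (nat_lit 21) (nat_lit 4) (nat_lit 402) (nat_lit 367) (nat_lit 251)) (XT.lf (nat_lit 0) (nat_lit 10136163566) (nat_lit 76) (nat_lit 64420679465) (nat_lit 152) (nat_lit 105049553816) (nat_lit 19) (nat_lit 5) (nat_lit 20) (nat_lit 5) (nat_lit 21) (nat_lit 4) (nat_lit 403) (nat_lit 367) (nat_lit 250)))))) (XT.nd (nat_lit 390) (nat_lit 228) (nat_lit 0) (XT.nd (nat_lit 156) (nat_lit 152) (nat_lit 0) (XT.nd (nat_lit 78) (nat_lit 76) (nat_lit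 0) (XT.lf (nat_lit 0) (nat_lit 105708815848) (nat_lit 76) (nat_lit 14797051968) (nat_lit 152) (nat_lit 69395365861) (nat_lit 19) (nat_lit 5) (nat_lit 20) (nat_lit 5) (nat_lit 21) (nat_lit 4) (nat_lit 404) (nat_lit 367) (nat_lit 249)) (XT.lf (nat_lit 0) (nat_lit 7340036402) (nat_lit 76) (nat_lit 163899450247) (nat_lit 76) (nat_lit 29691477320) (nat_lit 18) (nat_lit 4) (nat_lit 19) (nat_lit 5) (nat_lit 19) (nat_lit 4) (nat_lit 405) (nat_lit 367) (nat_lit 248))) (XT.nd (nat_lit 78) (nat_lit 76) (nat_lit 0) (XT.lf (nat_lit 0) (nat_lit 15274161694) (nat_lit 152) (nat_lit 102438763883) (nat_lit 76) (nat_lit 94885156803) (nat_lit 17) (nat_lit 5) (nat_lit 19) (nat_lit 5) (nat_lit 18) (nat_lit 4) (nat_lit 406) (nat_lit 367) (nat_lit 247)) (XT.nd (nat_lit 78) (nat_lit 76) (nat_lit 0) (XT.lf (nat_lit 0) (nat_lit 62232100434) (nat_lit 152) (nat_lit 4767221010) (nat_lit 76) (nat_lit 158137619699) (nat_lit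 17) (nat_lit 5) (nat_lit 19) (nat_lit 5) (nat_lit 18) (nat_lit 4) (nat_lit 407) (nat_lit 367) (nat_lit 246)) (XT.lf (nat_lit 0) (nat_lit 106020132536) (nat_lit 76) (nat_lit 9475550312) (nat_lit 152) (nat_lit 122979305277) (nat_lit 16) (nat_lit 5) (nat_lit 17) (nat_lit 5) (nat_lit 18) (nat_lit 4) (nat_lit 408) (nat_lit 367) (nat_lit 245))))) (XT.nd (nat_lit 156) (nat_lit 152) (nat_lit 0) (XT.nd (nat_lit 78) (nat_lit 76) (nat_lit 0) (XT.lf (nat_lit 0) (nat_lit 174419547163) (nat_lit 152) (nat_lit 28199159432) (nat_lit 0) (nat_lit 50149436835) (nat_lit 16) (nat_lit 5) (nat_lit 18) (nat_lit 4) (nat_lit 16) (nat_lit 4) (nat_lit 409) (nat_lit 367) (nat_lit 244)) (XT.lf (nat_lit 0) (nat_lit 88580671230) (nat_lit 76) (nat_lit 151852420743) (nat_lit 76) (nat_lit 27581597653) (nat_lit 15) (nat_lit 4) (nat_lit 16) (nat_lit 5) (nat_lit 16) (nat_lit 4) (nat_lit 410) (nat_lit 367) (nat_lit 243))) (XT.nd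 (nat_lit 78) (nat_lit 76) (nat_lit 0) (XT.lf (nat_lit 0) (nat_lit 26674097458) (nat_lit 152) (nat_lit 68789360340) (nat_lit 76) (nat_lit 188901852656) (nat_lit 14) (nat_lit 5) (nat_lit 16) (nat_lit 5) (nat_lit 15) (nat_lit 4) (nat_lit 411) (nat_lit 367) (nat_lit 242)) (XT.nd (nat_lit 78) (nat_lit 0) (nat_lit 0) (XT.lf (nat_lit 0) (nat_lit 52621539283) (nat_lit 76) (nat_lit 32423476782) (nat_lit 152) (nat_lit 216820461367) (nat_lit 13) (nat_lit 5) (nat_lit 14) (nat_lit 5) (nat_lit 15) (nat_lit 4) (nat_lit 412) (nat_lit 367) (nat_lit 241)) (XT.lf (nat_lit 0) (nat_lit 150872246421) (nat_lit 152) (nat_lit 133865511724) (nat_lit 0) (nat_lit 35804968692) (nat_lit 13) (nat_lit 5) (nat_lit 15) (nat_lit 4) (nat_lit 13) (nat_lit 4) (nat_lit 413) (nat_lit 367) (nat_lit 240))))))) (XT.nd (nat_lit 702) (nat_lit 380) (nat_lit 0) (XT.nd (nat_lit 312) (nat_lit 76) (nat_lit 0) (XT.nd (nat_lit 156) (nat_lit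 152) (nat_lit 0) (XT.nd (nat_lit 78) (nat_lit 76) (nat_lit 0) (XT.lf (nat_lit 0) (nat_lit 222807217867) (nat_lit 152) (nat_lit 10100158389) (nat_lit 0) (nat_lit 107739455044) (nat_lit 13) (nat_lit 5) (nat_lit 15) (nat_lit 4) (nat_lit 13) (nat_lit 4) (nat_lit 414) (nat_lit 367) (nat_lit 239)) (XT.lf (nat_lit 0) (nat_lit 130072062951) (nat_lit 76) (nat_lit 173552599610) (nat_lit 76) (nat_lit 58484387626) (nat_lit 12) (nat_lit 4) (nat_lit 13) (nat_lit 5) (nat_lit 13) (nat_lit 4) (nat_lit 415) (nat_lit 367) (nat_lit 238))) (XT.nd (nat_lit 78) (nat_lit 76) (nat_lit 0) (XT.lf (nat_lit 0) (nat_lit 5620928396) (nat_lit 152) (nat_lit 103377096809) (nat_lit 76) (nat_lit 276256788408) (nat_lit 11) (nat_lit 5) (nat_lit 13) (nat_lit 5) (nat_lit 12) (nat_lit 4) (nat_lit 416) (nat_lit 367) (nat_lit 237)) (XT.lf (nat_lit 0) (nat_lit 35848799448) (nat_lit 76) (nat_lit 36707841131) (nat_lit 152) (nat_lit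 337505139870) (nat_lit 10) (nat_lit 5) (nat_lit 11) (nat_lit 5) (nat_lit 12) (nat_lit 4) (nat_lit 417) (nat_lit 367) (nat_lit 236)))) (XT.nd (nat_lit 156) (nat_lit 76) (nat_lit 0) (XT.nd (nat_lit 78) (nat_lit 0) (nat_lit 0) (XT.lf (nat_lit 0) (nat_lit 148741466708) (nat_lit 152) (nat_lit 245604543254) (nat_lit 0) (nat_lit 42195754194) (nat_lit 10) (nat_lit 5) (nat_lit 12) (nat_lit 4) (nat_lit 10) (nat_lit 4) (nat_lit 418) (nat_lit 367) (nat_lit 235)) (XT.lf (nat_lit 0) (nat_lit 231974052832) (nat_lit 152) (nat_lit 107661821264) (nat_lit 0) (nat_lit 125428034626) (nat_lit 10) (nat_lit 5) (nat_lit 12) (nat_lit 4) (nat_lit 10) (nat_lit 4) (nat_lit 419) (nat_lit 367) (nat_lit 234))) (XT.nd (nat_lit 78) (nat_lit 0) (nat_lit 0) (XT.lf (nat_lit 0) (nat_lit 43491046047) (nat_lit 76) (nat_lit 279419719285) (nat_lit 76) (nat_lit 172873418032) (nat_lit 9) (nat_lit 4) (nat_lit 10) (nat_lit 5) (nat_lit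 10) (nat_lit 4) (nat_lit 420) (nat_lit 367) (nat_lit 233)) (XT.nd (nat_lit 78) (nat_lit 0) (nat_lit 0) (XT.lf (nat_lit 0) (nat_lit 212858117256) (nat_lit 76) (nat_lit 211207533619) (nat_lit 76) (nat_lit 104660970284) (nat_lit 9) (nat_lit 4) (nat_lit 10) (nat_lit 5) (nat_lit 10) (nat_lit 4) (nat_lit 421) (nat_lit 367) (nat_lit 232)) (XT.lf (nat_lit 0) (nat_lit 395773768367) (nat_lit 76) (nat_lit 137538761723) (nat_lit 76) (nat_lit 30991955721) (nat_lit 9) (nat_lit 4) (nat_lit 10) (nat_lit 5) (nat_lit 10) (nat_lit 4) (nat_lit 422) (nat_lit 367) (nat_lit 231)))))) (XT.nd (nat_lit 390) (nat_lit 228) (nat_lit 0) (XT.nd (nat_lit 156) (nat_lit 0) (nat_lit 0) (XT.nd (nat_lit 78) (nat_lit 76) (nat_lit 0) (XT.lf (nat_lit 0) (nat_lit 46140505528) (nat_lit 152) (nat_lit 10574779195) (nat_lit 76) (nat_lit 545919875262) (nat_lit 8) (nat_lit 5) (nat_lit 10) (nat_lit 5) (nat_lit 9) (nat_lit 4) (nat_lit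 423) (nat_lit 367) (nat_lit 230)) (XT.lf (nat_lit 0) (nat_lit 132660426773) (nat_lit 152) (nat_lit 476910587718) (nat_lit 0) (nat_lit 34005576085) (nat_lit 7) (nat_lit 5) (nat_lit 9) (nat_lit 4) (nat_lit 7) (nat_lit 4) (nat_lit 424) (nat_lit 367) (nat_lit 229))) (XT.nd (nat_lit 78) (nat_lit 0) (nat_lit 0) (XT.lf (nat_lit 0) (nat_lit 227871361354) (nat_lit 152) (nat_lit 330564088436) (nat_lit 0) (nat_lit 129216332298) (nat_lit 7) (nat_lit 5) (nat_lit 9) (nat_lit 4) (nat_lit 7) (nat_lit 4) (nat_lit 425) (nat_lit 367) (nat_lit 228)) (XT.nd (nat_lit 78) (nat_lit 0) (nat_lit 0) (XT.lf (nat_lit 0) (nat_lit 330698848665) (nat_lit 152) (nat_lit 172510511607) (nat_lit 0) (nat_lit 232043654453) (nat_lit 7) (nat_lit 5) (nat_lit 9) (nat_lit 4) (nat_lit 7) (nat_lit 4) (nat_lit 426) (nat_lit 367) (nat_lit 227)) (XT.lf (nat_lit 0) (nat_lit 441752236778) (nat_lit 152) (nat_lit 1813243441) (nat_lit 0)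 (nat_lit 343096889644) (nat_lit 7) (nat_lit 5) (nat_lit 9) (nat_lit 4) (nat_lit 7) (nat_lit 4) (nat_lit 427) (nat_lit 367) (nat_lit 226))))) (XT.nd (nat_lit 156) (nat_lit 152) (nat_lit 0) (XT.nd (nat_lit 78) (nat_lit 0) (nat_lit 0) (XT.lf (nat_lit 0) (nat_lit 192151449131) (nat_lit 76) (nat_lit 374159417688) (nat_lit 76) (nat_lit 275503928960) (nat_lit 6) (nat_lit 4) (nat_lit 7) (nat_lit 5) (nat_lit 7) (nat_lit 4) (nat_lit 428) (nat_lit 367) (nat_lit 225)) (XT.lf (nat_lit 0) (nat_lit 401735901064) (nat_lit 76) (nat_lit 299147594935) (nat_lit 76) (nat_lit 200491975101) (nat_lit 6) (nat_lit 4) (nat_lit 7) (nat_lit 5) (nat_lit 7) (nat_lit 4) (nat_lit 429) (nat_lit 367) (nat_lit 224))) (XT.nd (nat_lit 78) (nat_lit 152) (nat_lit 0) (XT.lf (nat_lit 0) (nat_lit 628086612108) (nat_lit 76) (nat_lit 218135074745) (nat_lit 76) (nat_lit 119479333517) (nat_lit 6) (nat_lit 4) (nat_lit 7) (nat_lit 5)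 (nat_lit 7) (nat_lit 4) (nat_lit 430) (nat_lit 367) (nat_lit 223)) (XT.nd (nat_lit 78) (nat_lit 152) (nat_lit 0) (XT.lf (nat_lit 0) (nat_lit 872544919810) (nat_lit 76) (nat_lit 130641782924) (nat_lit 76) (nat_lit 31985929294) (nat_lit 6) (nat_lit 4) (nat_lit 7) (nat_lit 5) (nat_lit 7) (nat_lit 4) (nat_lit 431) (nat_lit 367) (nat_lit 222)) (XT.lf (nat_lit 0) (nat_lit 26162965752) (nat_lit 76) (nat_lit 33846132064) (nat_lit 152) (nat_lit 1050022291245) (nat_lit 4) (nat_lit 5) (nat_lit 5) (nat_lit 5) (nat_lit 6) (nat_lit 4) (nat_lit 432) (nat_lit 367) (nat_lit 221))))))))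
noncomputable def xc169 : XT := (XT.nd (nat_lit 1482) (nat_lit 0) (nat_lit 0) (XT.nd (nat_lit 702) (nat_lit 152) (nat_lit 0) (XT.nd (nat_lit 312) (nat_lit 76) (nat_lit 0) (XT.nd (nat_lit 156) (nat_lit 0) (nat_lit 0) (XT.nd (nat_lit 78) (nat_lit 0) (nat_lit 0) (XT.lf (nat_lit 0) (nat_lit 163897634760) (nat_lit 152) (nat_lit 953864352811) (nat_lit 0) (nat_lit 72549436545) (nat_lit 4) (nat_lit 5) (nat_lit 6) (nat_lit 4) (nat_lit 4) (nat_lit 4) (nat_lit 433) (nat_lit 367) (nat_lit 220)) (XT.lf (nat_lit 0) (nat_lit 276976173171) (nat_lit 152) (nat_lit 814339483007) (nat_lit 0) (nat_lit 185627892337) (nat_lit 4) (nat_lit 5) (nat_lit 6) (nat_lit 4) (nat_lit 4) (nat_lit 4) (nat_lit 434) (nat_lit 367) (nat_lit 219))) (XT.nd (nat_lit 78) (nat_lit 0) (nat_lit 0) (XT.lf (nat_lit 0) (nat_lit 399100807802) (nat_lit 152) (nat_lit 663652999563) (nat_lit 0) (nat_lit 307752450469) (nat_lit 4) (nat_lit 5)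 (nat_lit 6) (nat_lit 4) (nat_lit 4) (nat_lit 4) (nat_lit 435) (nat_lit 367) (nat_lit 218)) (XT.lf (nat_lit 0) (nat_lit 530995240191) (nat_lit 152) (nat_lit 500911945540) (nat_lit 0) (nat_lit 439646812025) (nat_lit 4) (nat_lit 5) (nat_lit 6) (nat_lit 4) (nat_lit 4) (nat_lit 4) (nat_lit 436) (nat_lit 367) (nat_lit 217)))) (XT.nd (nat_lit 156) (nat_lit 76) (nat_lit 0) (XT.nd (nat_lit 78) (nat_lit 0) (nat_lit 0) (XT.lf (nat_lit 0) (nat_lit 673441066975) (nat_lit 152) (nat_lit 325151929507) (nat_lit 0) (nat_lit 582092573223) (nat_lit 4) (nat_lit 5) (nat_lit 6) (nat_lit 4) (nat_lit 4) (nat_lit 4) (nat_lit 437) (nat_lit 367) (nat_lit 216)) (XT.lf (nat_lit 0) (nat_lit 827282411571) (nat_lit 152) (nat_lit 135331410627) (nat_lit 0) (nat_lit 735933857092) (nat_lit 4) (nat_lit 5) (nat_lit 6) (nat_lit 4) (nat_lit 4) (nat_lit 4) (nat_lit 438) (nat_lit 367) (nat_lit 215))) (XT.nd (nat_lit 78) (nat_lit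 0) (nat_lit 0) (XT.lf (nat_lit 0) (nat_lit 73343407729) (nat_lit 76) (nat_lit 921851429383) (nat_lit 76) (nat_lit 830502818675) (nat_lit 3) (nat_lit 4) (nat_lit 4) (nat_lit 5) (nat_lit 4) (nat_lit 4) (nat_lit 439) (nat_lit 367) (nat_lit 214)) (XT.nd (nat_lit 78) (nat_lit 0) (nat_lit 0) (XT.lf (nat_lit 0) (nat_lit 306408359456) (nat_lit 76) (nat_lit 873831964187) (nat_lit 76) (nat_lit 782483301416) (nat_lit 3) (nat_lit 4) (nat_lit 4) (nat_lit 5) (nat_lit 4) (nat_lit 4) (nat_lit 440) (nat_lit 367) (nat_lit 213)) (XT.lf (nat_lit 0) (nat_lit 558118257937) (nat_lit 76) (nat_lit 821971067413) (nat_lit 76) (nat_lit 730622356434) (nat_lit 3) (nat_lit 4) (nat_lit 4) (nat_lit 5) (nat_lit 4) (nat_lit 4) (nat_lit 441) (nat_lit 367) (nat_lit 212)))))) (XT.nd (nat_lit 390) (nat_lit 152) (nat_lit 0) (XT.nd (nat_lit 156) (nat_lit 0) (nat_lit 0) (XT.nd (nat_lit 78) (nat_lit 0) (nat_lit 0) (XT.lf (nat_lit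 0) (nat_lit 829964717386) (nat_lit 76) (nat_lit 765961415228) (nat_lit 76) (nat_lit 674612659612) (nat_lit 3) (nat_lit 4) (nat_lit 4) (nat_lit 5) (nat_lit 4) (nat_lit 4) (nat_lit 442) (nat_lit 367) (nat_lit 211)) (XT.lf (nat_lit 0) (nat_lit 1123558679785) (nat_lit 76) (nat_lit 705471098581) (nat_lit 76) (nat_lit 614122301635) (nat_lit 3) (nat_lit 4) (nat_lit 4) (nat_lit 5) (nat_lit 4) (nat_lit 4) (nat_lit 443) (nat_lit 367) (nat_lit 210))) (XT.nd (nat_lit 78) (nat_lit 0) (nat_lit 0) (XT.lf (nat_lit 0) (nat_lit 1440639961206) (nat_lit 76) (nat_lit 640141656337) (nat_lit 76) (nat_lit 548792821123) (nat_lit 3) (nat_lit 4) (nat_lit 4) (nat_lit 5) (nat_lit 4) (nat_lit 4) (nat_lit 444) (nat_lit 367) (nat_lit 209)) (XT.nd (nat_lit 78) (nat_lit 0) (nat_lit 0) (XT.lf (nat_lit 0) (nat_lit 1783087561836) (nat_lit 76) (nat_lit 569585951060) (nat_lit 76) (nat_lit 478237080412) (nat_lit 3) (nat_lit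 4) (nat_lit 4) (nat_lit 5) (nat_lit 4) (nat_lit 4) (nat_lit 445) (nat_lit 367) (nat_lit 208)) (XT.lf (nat_lit 0) (nat_lit 2152930800791) (nat_lit 76) (nat_lit 493385874867) (nat_lit 76) (nat_lit 402036971410) (nat_lit 3) (nat_lit 4) (nat_lit 4) (nat_lit 5) (nat_lit 4) (nat_lit 4) (nat_lit 446) (nat_lit 367) (nat_lit 207))))) (XT.nd (nat_lit 156) (nat_lit 152) (nat_lit 0) (XT.nd (nat_lit 78) (nat_lit 0) (nat_lit 0) (XT.lf (nat_lit 0) (nat_lit 2552361341708) (nat_lit 76) (nat_lit 411089871752) (nat_lit 76) (nat_lit 319740937916) (nat_lit 3) (nat_lit 4) (nat_lit 4) (nat_lit 5) (nat_lit 4) (nat_lit 4) (nat_lit 447) (nat_lit 367) (nat_lit 206)) (XT.lf (nat_lit 0) (nat_lit 2983746180385) (nat_lit 76) (nat_lit 322210261695) (nat_lit 76) (nat_lit 230861299731) (nat_lit 3) (nat_lit 4) (nat_lit 4) (nat_lit 5) (nat_lit 4) (nat_lit 4) (nat_lit 448) (nat_lit 367) (nat_lit 205))) (XT.nd (nat_lit 78)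 (nat_lit 152) (nat_lit 0) (XT.lf (nat_lit 0) (nat_lit 3449641671422) (nat_lit 76) (nat_lit 226220350711) (nat_lit 76) (nat_lit 134871362702) (nat_lit 3) (nat_lit 4) (nat_lit 4) (nat_lit 5) (nat_lit 4) (nat_lit 4) (nat_lit 449) (nat_lit 367) (nat_lit 204)) (XT.nd (nat_lit 78) (nat_lit 152) (nat_lit 0) (XT.lf (nat_lit 0) (nat_lit 3952808676987) (nat_lit 76) (nat_lit 122551309699) (nat_lit 76) (nat_lit 31202297574) (nat_lit 3) (nat_lit 4) (nat_lit 4) (nat_lit 5) (nat_lit 4) (nat_lit 4) (nat_lit 450) (nat_lit 367) (nat_lit 203)) (XT.lf (nat_lit 0) (nat_lit 71821967452) (nat_lit 76) (nat_lit 6625629617) (nat_lit 152) (nat_lit 4347316334717) (nat_lit 1) (nat_lit 5) (nat_lit 2) (nat_lit 5) (nat_lit 3) (nat_lit 4) (nat_lit 451) (nat_lit 367) (nat_lit 202))))))) (XT.nd (nat_lit 46956) (nat_lit 0) (nat_lit 3268) (XT.nd (nat_lit 46566) (nat_lit 0) (nat_lit 4560) (XT.nd (nat_lit 156) (nat_lit 0) (nat_lit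 0) (XT.nd (nat_lit 78) (nat_lit 0) (nat_lit 0) (XT.lf (nat_lit 0) (nat_lit 202348488406) (nat_lit 152) (nat_lit 4449749177648) (nat_lit 0) (nat_lit 117766029952) (nat_lit 1) (nat_lit 5) (nat_lit 3) (nat_lit 4) (nat_lit 1) (nat_lit 4) (nat_lit 452) (nat_lit 367) (nat_lit 201)) (XT.lf (nat_lit 0) (nat_lit 336333491027) (nat_lit 152) (nat_lit 4553393172295) (nat_lit 0) (nat_lit 251751014848) (nat_lit 1) (nat_lit 5) (nat_lit 3) (nat_lit 4) (nat_lit 1) (nat_lit 4) (nat_lit 453) (nat_lit 367) (nat_lit 200))) (XT.nd (nat_lit 78) (nat_lit 0) (nat_lit 0) (XT.lf (nat_lit 0) (nat_lit 481037243583) (nat_lit 152) (nat_lit 4665328788358) (nat_lit 0) (nat_lit 396454750991) (nat_lit 1) (nat_lit 5) (nat_lit 3) (nat_lit 4) (nat_lit 1) (nat_lit 4) (nat_lit 454) (nat_lit 367) (nat_lit 199)) (XT.nd (nat_lit 78) (nat_lit 0) (nat_lit 0) (XT.lf (nat_lit 0) (nat_lit 637317249793) (nat_lit 152) (nat_lit 4786219348007)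 (nat_lit 0) (nat_lit 552734742004) (nat_lit 1) (nat_lit 5) (nat_lit 3) (nat_lit 4) (nat_lit 1) (nat_lit 4) (nat_lit 455) (nat_lit 367) (nat_lit 198)) (XT.lf (nat_lit 0) (nat_lit 806099613396) (nat_lit 152) (nat_lit 4916781239743) (nat_lit 0) (nat_lit 721517091536) (nat_lit 1) (nat_lit 5) (nat_lit 3) (nat_lit 4) (nat_lit 1) (nat_lit 4) (nat_lit 456) (nat_lit 367) (nat_lit 197))))) (XT.nd (nat_lit 156) (nat_lit 0) (nat_lit 76) (XT.nd (nat_lit 78) (nat_lit 0) (nat_lit 0) (XT.lf (nat_lit 0) (nat_lit 14650433480) (nat_lit 532) (nat_lit 1460442711) (nat_lit 532) (nat_lit 1460442711) (nat_lit 61) (nat_lit 3) (nat_lit 68) (nat_lit 3) (nat_lit 68) (nat_lit 5) (nat_lit 368) (nat_lit 368) (nat_lit 284)) (XT.lf (nat_lit 76) (nat_lit 14758329586) (nat_lit 0) (nat_lit 16119027531) (nat_lit 532) (nat_lit 5638569279) (nat_lit 62) (nat_lit 5) (nat_lit 61) (nat_lit 3) (nat_lit 68) (nat_lit 5) (nat_lit 369)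 (nat_lit 368) (nat_lit 283))) (XT.nd (nat_lit 78) (nat_lit 0) (nat_lit 0) (XT.lf (nat_lit 0) (nat_lit 32687523666) (nat_lit 456) (nat_lit 4010637953) (nat_lit 532) (nat_lit 1292317932) (nat_lit 62) (nat_lit 5) (nat_lit 68) (nat_lit 5) (nat_lit 69) (nat_lit 5) (nat_lit 370) (nat_lit 368) (nat_lit 282)) (XT.nd (nat_lit 78) (nat_lit 0) (nat_lit 0) (XT.lf (nat_lit 76) (nat_lit 15510250006) (nat_lit 0) (nat_lit 19919350586) (nat_lit 532) (nat_lit 4090434206) (nat_lit 63) (nat_lit 5) (nat_lit 62) (nat_lit 5) (nat_lit 69) (nat_lit 5) (nat_lit 371) (nat_lit 368) (nat_lit 281)) (XT.lf (nat_lit 76) (nat_lit 36817937337) (nat_lit 0) (nat_lit 1678433024) (nat_lit 532) (nat_lit 2667163156) (nat_lit 63) (nat_lit 5) (nat_lit 62) (nat_lit 5) (nat_lit 69) (nat_lit 5) (nat_lit 372) (nat_lit 368) (nat_lit 280)))))) (XT.nd (nat_lit 390) (nat_lit 608) (nat_lit 0) (XT.nd (nat_lit 156) (nat_lit 304) (nat_lit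 0) (XT.nd (nat_lit 78) (nat_lit 532) (nat_lit 0) (XT.lf (nat_lit 76) (nat_lit 17321708737) (nat_lit 0) (nat_lit 25332804305) (nat_lit 532) (nat_lit 216321389) (nat_lit 64) (nat_lit 5) (nat_lit 63) (nat_lit 5) (nat_lit 70) (nat_lit 5) (nat_lit 373) (nat_lit 368) (nat_lit 279)) (XT.lf (nat_lit 0) (nat_lit 2470638464) (nat_lit 532) (nat_lit 3844041694) (nat_lit 608) (nat_lit 38382435834) (nat_lit 56) (nat_lit 5) (nat_lit 63) (nat_lit 5) (nat_lit 64) (nat_lit 5) (nat_lit 374) (nat_lit 368) (nat_lit 278))) (XT.nd (nat_lit 78) (nat_lit 380) (nat_lit 0) (XT.lf (nat_lit 0) (nat_lit 6208364720) (nat_lit 532) (nat_lit 26364459828) (nat_lit 76) (nat_lit 14028430120) (nat_lit 57) (nat_lit 5) (nat_lit 64) (nat_lit 5) (nat_lit 58) (nat_lit 5) (nat_lit 375) (nat_lit 368) (nat_lit 277)) (XT.nd (nat_lit 78) (nat_lit 380) (nat_lit 0) (XT.lf (nat_lit 0) (nat_lit 10513591911) (nat_lit 532) (nat_lit 2356548002)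 (nat_lit 76) (nat_lit 35766109429) (nat_lit 57) (nat_lit 5) (nat_lit 64) (nat_lit 5) (nat_lit 58) (nat_lit 5) (nat_lit 376) (nat_lit 368) (nat_lit 276)) (XT.lf (nat_lit 0) (nat_lit 15974536505) (nat_lit 456) (nat_lit 26194153805) (nat_lit 76) (nat_lit 8600452609) (nat_lit 52) (nat_lit 5) (nat_lit 58) (nat_lit 5) (nat_lit 53) (nat_lit 5) (nat_lit 377) (nat_lit 368) (nat_lit 275))))) (XT.nd (nat_lit 156) (nat_lit 380) (nat_lit 0) (XT.nd (nat_lit 78) (nat_lit 0) (nat_lit 0) (XT.lf (nat_lit 0) (nat_lit 408921657) (nat_lit 228) (nat_lit 21870709792) (nat_lit 304) (nat_lit 30760457579) (nat_lit 49) (nat_lit 5) (nat_lit 52) (nat_lit 5) (nat_lit 53) (nat_lit 5) (nat_lit 378) (nat_lit 368) (nat_lit 274)) (XT.lf (nat_lit 0) (nat_lit 29822345191) (nat_lit 304) (nat_lit 24828587801) (nat_lit 76) (nat_lit 783123740) (nat_lit 49) (nat_lit 5) (nat_lit 53) (nat_lit 5) (nat_lit 50) (nat_lit 5) (nat_lit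 379) (nat_lit 368) (nat_lit 273))) (XT.nd (nat_lit 78) (nat_lit 152) (nat_lit 0) (XT.lf (nat_lit 0) (nat_lit 4870756022) (nat_lit 228) (nat_lit 33780325694) (nat_lit 304) (nat_lit 19313854277) (nat_lit 46) (nat_lit 5) (nat_lit 49) (nat_lit 5) (nat_lit 50) (nat_lit 5) (nat_lit 380) (nat_lit 368) (nat_lit 272)) (XT.nd (nat_lit 78) (nat_lit 152) (nat_lit 0) (XT.lf (nat_lit 0) (nat_lit 38355121097) (nat_lit 228) (nat_lit 10507369285) (nat_lit 304) (nat_lit 11781687758) (nat_lit 46) (nat_lit 5) (nat_lit 49) (nat_lit 5) (nat_lit 50) (nat_lit 5) (nat_lit 381) (nat_lit 368) (nat_lit 271)) (XT.lf (nat_lit 0) (nat_lit 11185313081) (nat_lit 152) (nat_lit 49323984884) (nat_lit 228) (nat_lit 2978985022) (nat_lit 44) (nat_lit 5) (nat_lit 46) (nat_lit 5) (nat_lit 47) (nat_lit 5) (nat_lit 382) (nat_lit 368) (nat_lit 270))))))))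
noncomputable def xc170 : XT := (XT.nd (nat_lit 1482) (nat_lit 988) (nat_lit 0) (XT.nd (nat_lit 702) (nat_lit 684) (nat_lit 0) (XT.nd (nat_lit 312) (nat_lit 532) (nat_lit 0) (XT.nd (nat_lit 156) (nat_lit 152) (nat_lit 0) (XT.nd (nat_lit 78) (nat_lit 228) (nat_lit 0) (XT.lf (nat_lit 0) (nat_lit 7097283389) (nat_lit 228) (nat_lit 18354631081) (nat_lit 76) (nat_lit 41023771649) (nat_lit 43) (nat_lit 5) (nat_lit 46) (nat_lit 5) (nat_lit 44) (nat_lit 5) (nat_lit 383) (nat_lit 368) (nat_lit 269)) (XT.lf (nat_lit 0) (nat_lit 18300033230) (nat_lit 304) (nat_lit 50491663279) (nat_lit 76) (nat_lit 865690859) (nat_lit 40) (nat_lit 5) (nat_lit 44) (nat_lit 5) (nat_lit 41) (nat_lit 5) (nat_lit 384) (nat_lit 368) (nat_lit 268))) (XT.nd (nat_lit 78) (nat_lit 152) (nat_lit 0) (XT.lf (nat_lit 0) (nat_lit 31572951320) (nat_lit 304) (nat_lit 12998862081) (nat_lit 76) (nat_lit 28427897089) (nat_lit 40) (nat_lit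 5) (nat_lit 44) (nat_lit 5) (nat_lit 41) (nat_lit 5) (nat_lit 385) (nat_lit 368) (nat_lit 267)) (XT.lf (nat_lit 0) (nat_lit 28938372900) (nat_lit 152) (nat_lit 17663424833) (nat_lit 228) (nat_lit 29952095654) (nat_lit 38) (nat_lit 5) (nat_lit 40) (nat_lit 5) (nat_lit 41) (nat_lit 5) (nat_lit 386) (nat_lit 368) (nat_lit 266)))) (XT.nd (nat_lit 156) (nat_lit 380) (nat_lit 0) (XT.nd (nat_lit 78) (nat_lit 152) (nat_lit 0) (XT.lf (nat_lit 0) (nat_lit 63469894826) (nat_lit 228) (nat_lit 5680145534) (nat_lit 76) (nat_lit 11191416520) (nat_lit 38) (nat_lit 5) (nat_lit 41) (nat_lit 5) (nat_lit 39) (nat_lit 5) (nat_lit 387) (nat_lit 368) (nat_lit 265)) (XT.lf (nat_lit 0) (nat_lit 41210306923) (nat_lit 152) (nat_lit 41925352420) (nat_lit 228) (nat_lit 1180509836) (nat_lit 36) (nat_lit 5) (nat_lit 38) (nat_lit 5) (nat_lit 39) (nat_lit 5) (nat_lit 388) (nat_lit 368) (nat_lit 264))) (XT.nd (nat_lit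 78) (nat_lit 152) (nat_lit 0) (XT.lf (nat_lit 0) (nat_lit 3361031958) (nat_lit 152) (nat_lit 11854640180) (nat_lit 228) (nat_lit 73343772668) (nat_lit 33) (nat_lit 5) (nat_lit 35) (nat_lit 5) (nat_lit 36) (nat_lit 5) (nat_lit 389) (nat_lit 368) (nat_lit 263)) (XT.nd (nat_lit 78) (nat_lit 152) (nat_lit 0) (XT.lf (nat_lit 0) (nat_lit 34563314994) (nat_lit 228) (nat_lit 37610916894) (nat_lit 76) (nat_lit 20829215060) (nat_lit 33) (nat_lit 5) (nat_lit 36) (nat_lit 5) (nat_lit 34) (nat_lit 5) (nat_lit 390) (nat_lit 368) (nat_lit 262)) (XT.lf (nat_lit 0) (nat_lit 14182795452) (nat_lit 152) (nat_lit 41923490562) (nat_lit 228) (nat_lit 41644882861) (nat_lit 31) (nat_lit 5) (nat_lit 33) (nat_lit 5) (nat_lit 34) (nat_lit 5) (nat_lit 391) (nat_lit 368) (nat_lit 261)))))) (XT.nd (nat_lit 390) (nat_lit 380) (nat_lit 0) (XT.nd (nat_lit 156) (nat_lit 228) (nat_lit 0) (XT.nd (nat_lit 78) (nat_lit 76)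 (nat_lit 0) (XT.lf (nat_lit 0) (nat_lit 72256679064) (nat_lit 152) (nat_lit 8142927646) (nat_lit 228) (nat_lit 22396949771) (nat_lit 31) (nat_lit 5) (nat_lit 33) (nat_lit 5) (nat_lit 34) (nat_lit 5) (nat_lit 392) (nat_lit 368) (nat_lit 260)) (XT.lf (nat_lit 0) (nat_lit 27418702858) (nat_lit 76) (nat_lit 80557340571) (nat_lit 152) (nat_lit 162360454) (nat_lit 30) (nat_lit 5) (nat_lit 31) (nat_lit 5) (nat_lit 32) (nat_lit 4) (nat_lit 393) (nat_lit 368) (nat_lit 259))) (XT.nd (nat_lit 78) (nat_lit 152) (nat_lit 0) (XT.lf (nat_lit 0) (nat_lit 23724744190) (nat_lit 152) (nat_lit 22899034268) (nat_lit 76) (nat_lit 67152582232) (nat_lit 29) (nat_lit 5) (nat_lit 31) (nat_lit 5) (nat_lit 30) (nat_lit 5) (nat_lit 394) (nat_lit 368) (nat_lit 258)) (XT.nd (nat_lit 78) (nat_lit 0) (nat_lit 0) (XT.lf (nat_lit 0) (nat_lit 41623167478) (nat_lit 152) (nat_lit 8890679126) (nat_lit 228) (nat_lit 69271186627)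 (nat_lit 27) (nat_lit 5) (nat_lit 29) (nat_lit 5) (nat_lit 30) (nat_lit 5) (nat_lit 395) (nat_lit 368) (nat_lit 257)) (XT.lf (nat_lit 0) (nat_lit 80853485828) (nat_lit 228) (nat_lit 14399484579) (nat_lit 76) (nat_lit 30908837082) (nat_lit 27) (nat_lit 5) (nat_lit 30) (nat_lit 5) (nat_lit 28) (nat_lit 4) (nat_lit 396) (nat_lit 368) (nat_lit 256))))) (XT.nd (nat_lit 156) (nat_lit 228) (nat_lit 0) (XT.nd (nat_lit 78) (nat_lit 76) (nat_lit 0) (XT.lf (nat_lit 0) (nat_lit 57086739775) (nat_lit 76) (nat_lit 58136297128) (nat_lit 152) (nat_lit 17697468083) (nat_lit 26) (nat_lit 5) (nat_lit 27) (nat_lit 5) (nat_lit 28) (nat_lit 4) (nat_lit 397) (nat_lit 368) (nat_lit 255)) (XT.lf (nat_lit 0) (nat_lit 11918668946) (nat_lit 152) (nat_lit 5381335613) (nat_lit 76) (nat_lit 122864345410) (nat_lit 25) (nat_lit 5) (nat_lit 27) (nat_lit 5) (nat_lit 26) (nat_lit 5) (nat_lit 398) (nat_lit 368) (nat_lit 254)))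 (XT.nd (nat_lit 78) (nat_lit 76) (nat_lit 0) (XT.lf (nat_lit 0) (nat_lit 45428047581) (nat_lit 228) (nat_lit 74566634646) (nat_lit 76) (nat_lit 27757840918) (nat_lit 23) (nat_lit 5) (nat_lit 26) (nat_lit 5) (nat_lit 24) (nat_lit 4) (nat_lit 399) (nat_lit 368) (nat_lit 253)) (XT.nd (nat_lit 78) (nat_lit 0) (nat_lit 0) (XT.lf (nat_lit 0) (nat_lit 2056437803) (nat_lit 76) (nat_lit 80210488291) (nat_lit 152) (nat_lit 73628924525) (nat_lit 22) (nat_lit 5) (nat_lit 23) (nat_lit 5) (nat_lit 24) (nat_lit 4) (nat_lit 400) (nat_lit 368) (nat_lit 252)) (XT.lf (nat_lit 0) (nat_lit 89048258955) (nat_lit 76) (nat_lit 35042457069) (nat_lit 152) (nat_lit 40436904553) (nat_lit 22) (nat_lit 5) (nat_lit 23) (nat_lit 5) (nat_lit 24) (nat_lit 4) (nat_lit 401) (nat_lit 368) (nat_lit 251))))))) (XT.nd (nat_lit 780) (nat_lit 456) (nat_lit 0) (XT.nd (nat_lit 390) (nat_lit 228) (nat_lit 0) (XT.nd (nat_lit 156)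 (nat_lit 152) (nat_lit 0) (XT.nd (nat_lit 78) (nat_lit 76) (nat_lit 0) (XT.lf (nat_lit 0) (nat_lit 9281685050) (nat_lit 76) (nat_lit 160531445053) (nat_lit 76) (nat_lit 3992584704) (nat_lit 21) (nat_lit 4) (nat_lit 22) (nat_lit 5) (nat_lit 22) (nat_lit 4) (nat_lit 402) (nat_lit 368) (nat_lit 250)) (XT.lf (nat_lit 0) (nat_lit 36624680842) (nat_lit 152) (nat_lit 80360843469) (nat_lit 76) (nat_lit 66530356671) (nat_lit 20) (nat_lit 5) (nat_lit 22) (nat_lit 5) (nat_lit 21) (nat_lit 4) (nat_lit 403) (nat_lit 368) (nat_lit 249))) (XT.nd (nat_lit 78) (nat_lit 76) (nat_lit 0) (XT.lf (nat_lit 0) (nat_lit 10979353330) (nat_lit 76) (nat_lit 69559470948) (nat_lit 152) (nat_lit 113434684177) (nat_lit 19) (nat_lit 5) (nat_lit 20) (nat_lit 5) (nat_lit 21) (nat_lit 4) (nat_lit 404) (nat_lit 368) (nat_lit 248)) (XT.nd (nat_lit 78) (nat_lit 76) (nat_lit 0) (XT.lf (nat_lit 0) (nat_lit 114195425449) (nat_lit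 76) (nat_lit 15967054206) (nat_lit 152) (nat_lit 74929556293) (nat_lit 19) (nat_lit 5) (nat_lit 20) (nat_lit 5) (nat_lit 21) (nat_lit 4) (nat_lit 405) (nat_lit 368) (nat_lit 247)) (XT.lf (nat_lit 0) (nat_lit 7957327584) (nat_lit 76) (nat_lit 176997294758) (nat_lit 76) (nat_lit 32049535946) (nat_lit 18) (nat_lit 4) (nat_lit 19) (nat_lit 5) (nat_lit 19) (nat_lit 4) (nat_lit 406) (nat_lit 368) (nat_lit 246))))) (XT.nd (nat_lit 156) (nat_lit 152) (nat_lit 0) (XT.nd (nat_lit 78) (nat_lit 0) (nat_lit 0) (XT.lf (nat_lit 0) (nat_lit 16511276266) (nat_lit 152) (nat_lit 110605202053) (nat_lit 76) (nat_lit 102488232128) (nat_lit 17) (nat_lit 5) (nat_lit 19) (nat_lit 5) (nat_lit 18) (nat_lit 4) (nat_lit 407) (nat_lit 368) (nat_lit 245)) (XT.lf (nat_lit 0) (nat_lit 67224725539) (nat_lit 152) (nat_lit 5122058930) (nat_lit 76) (nat_lit 170799983701) (nat_lit 17) (nat_lit 5) (nat_lit 19) (nat_lit 5) (nat_lit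 18) (nat_lit 4) (nat_lit 408) (nat_lit 368) (nat_lit 244))) (XT.nd (nat_lit 78) (nat_lit 76) (nat_lit 0) (XT.lf (nat_lit 0) (nat_lit 114527611007) (nat_lit 76) (nat_lit 10221364397) (nat_lit 152) (nat_lit 132802917311) (nat_lit 16) (nat_lit 5) (nat_lit 17) (nat_lit 5) (nat_lit 18) (nat_lit 4) (nat_lit 409) (nat_lit 368) (nat_lit 243)) (XT.nd (nat_lit 78) (nat_lit 76) (nat_lit 0) (XT.lf (nat_lit 0) (nat_lit 188386010991) (nat_lit 152) (nat_lit 30430399412) (nat_lit 0) (nat_lit 54172149326) (nat_lit 16) (nat_lit 5) (nat_lit 18) (nat_lit 4) (nat_lit 16) (nat_lit 4) (nat_lit 410) (nat_lit 368) (nat_lit 242)) (XT.lf (nat_lit 0) (nat_lit 95691192570) (nat_lit 76) (nat_lit 163989070084) (nat_lit 76) (nat_lit 29774597341) (nat_lit 15) (nat_lit 4) (nat_lit 16) (nat_lit 5) (nat_lit 16) (nat_lit 4) (nat_lit 411) (nat_lit 368) (nat_lit 241)))))) (XT.nd (nat_lit 390) (nat_lit 228) (nat_lit 0) (XT.nd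 (nat_lit 156) (nat_lit 76) (nat_lit 0) (XT.nd (nat_lit 78) (nat_lit 76) (nat_lit 0) (XT.lf (nat_lit 0) (nat_lit 28819924693) (nat_lit 152) (nat_lit 74269595195) (nat_lit 76) (nat_lit 204024060932) (nat_lit 14) (nat_lit 5) (nat_lit 16) (nat_lit 5) (nat_lit 15) (nat_lit 4) (nat_lit 412) (nat_lit 368) (nat_lit 240)) (XT.lf (nat_lit 0) (nat_lit 56853596298) (nat_lit 76) (nat_lit 35006576180) (nat_lit 152) (nat_lit 234153616408) (nat_lit 13) (nat_lit 5) (nat_lit 14) (nat_lit 5) (nat_lit 15) (nat_lit 4) (nat_lit 413) (nat_lit 368) (nat_lit 239))) (XT.nd (nat_lit 78) (nat_lit 76) (nat_lit 0) (XT.lf (nat_lit 0) (nat_lit 162952965354) (nat_lit 152) (nat_lit 144553455084) (nat_lit 0) (nat_lit 38678847250) (nat_lit 13) (nat_lit 5) (nat_lit 15) (nat_lit 4) (nat_lit 13) (nat_lit 4) (nat_lit 414) (nat_lit 368) (nat_lit 238)) (XT.nd (nat_lit 78) (nat_lit 76) (nat_lit 0) (XT.lf (nat_lit 0) (nat_lit 240641924203)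 (nat_lit 152) (nat_lit 10888451080) (nat_lit 0) (nat_lit 116367390209) (nat_lit 13) (nat_lit 5) (nat_lit 15) (nat_lit 4) (nat_lit 13) (nat_lit 4) (nat_lit 415) (nat_lit 368) (nat_lit 237)) (XT.lf (nat_lit 0) (nat_lit 140497048727) (nat_lit 76) (nat_lit 187427427716) (nat_lit 76) (nat_lit 63152508639) (nat_lit 12) (nat_lit 4) (nat_lit 13) (nat_lit 5) (nat_lit 13) (nat_lit 4) (nat_lit 416) (nat_lit 368) (nat_lit 236))))) (XT.nd (nat_lit 156) (nat_lit 76) (nat_lit 0) (XT.nd (nat_lit 78) (nat_lit 76) (nat_lit 0) (XT.lf (nat_lit 0) (nat_lit 6079952891) (nat_lit 152) (nat_lit 111628973621) (nat_lit 76) (nat_lit 298365522586) (nat_lit 11) (nat_lit 5) (nat_lit 13) (nat_lit 5) (nat_lit 12) (nat_lit 4) (nat_lit 417) (nat_lit 368) (nat_lit 235)) (XT.lf (nat_lit 0) (nat_lit 38734531276) (nat_lit 76) (nat_lit 39635726924) (nat_lit 152) (nat_lit 364495736306) (nat_lit 10) (nat_lit 5) (nat_lit 11) (nat_lit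 5) (nat_lit 12) (nat_lit 4) (nat_lit 418) (nat_lit 368) (nat_lit 234))) (XT.nd (nat_lit 78) (nat_lit 76) (nat_lit 0) (XT.lf (nat_lit 0) (nat_lit 160649392015) (nat_lit 152) (nat_lit 265235919661) (nat_lit 0) (nat_lit 45579103614) (nat_lit 10) (nat_lit 5) (nat_lit 12) (nat_lit 4) (nat_lit 10) (nat_lit 4) (nat_lit 419) (nat_lit 368) (nat_lit 233)) (XT.nd (nat_lit 78) (nat_lit 76) (nat_lit 0) (XT.lf (nat_lit 0) (nat_lit 250539947402) (nat_lit 152) (nat_lit 116259038212) (nat_lit 0) (nat_lit 135469396919) (nat_lit 10) (nat_lit 5) (nat_lit 12) (nat_lit 4) (nat_lit 10) (nat_lit 4) (nat_lit 420) (nat_lit 368) (nat_lit 232)) (XT.lf (nat_lit 0) (nat_lit 46985660287) (nat_lit 76) (nat_lit 301765714919) (nat_lit 76) (nat_lit 186694921769) (nat_lit 9) (nat_lit 4) (nat_lit 10) (nat_lit 5) (nat_lit 10) (nat_lit 4) (nat_lit 421) (nat_lit 368) (nat_lit 231))))))))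
noncomputable def xc171 : XT := (XT.nd (nat_lit 1482) (nat_lit 152) (nat_lit 0) (XT.nd (nat_lit 702) (nat_lit 228) (nat_lit 0) (XT.nd (nat_lit 312) (nat_lit 76) (nat_lit 0) (XT.nd (nat_lit 156) (nat_lit 152) (nat_lit 0) (XT.nd (nat_lit 78) (nat_lit 0) (nat_lit 0) (XT.lf (nat_lit 0) (nat_lit 229900961596) (nat_lit 76) (nat_lit 228097116022) (nat_lit 76) (nat_lit 113026098180) (nat_lit 9) (nat_lit 4) (nat_lit 10) (nat_lit 5) (nat_lit 10) (nat_lit 4) (nat_lit 422) (nat_lit 368) (nat_lit 230)) (XT.lf (nat_lit 0) (nat_lit 427448813318) (nat_lit 76) (nat_lit 148535362396) (nat_lit 76) (nat_lit 33464136505) (nat_lit 9) (nat_lit 4) (nat_lit 10) (nat_lit 5) (nat_lit 10) (nat_lit 4) (nat_lit 423) (nat_lit 368) (nat_lit 229))) (XT.nd (nat_lit 78) (nat_lit 76) (nat_lit 0) (XT.lf (nat_lit 0) (nat_lit 49838057745) (nat_lit 152) (nat_lit 11408258417) (nat_lit 76) (nat_lit 589599150823) (nat_lit 8) (nat_lit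 5) (nat_lit 10) (nat_lit 5) (nat_lit 9) (nat_lit 4) (nat_lit 424) (nat_lit 368) (nat_lit 228)) (XT.lf (nat_lit 0) (nat_lit 143279543724) (nat_lit 152) (nat_lit 515050901861) (nat_lit 0) (nat_lit 36731768819) (nat_lit 7) (nat_lit 5) (nat_lit 9) (nat_lit 4) (nat_lit 7) (nat_lit 4) (nat_lit 425) (nat_lit 368) (nat_lit 227)))) (XT.nd (nat_lit 156) (nat_lit 76) (nat_lit 0) (XT.nd (nat_lit 78) (nat_lit 0) (nat_lit 0) (XT.lf (nat_lit 0) (nat_lit 246106887678) (nat_lit 152) (nat_lit 356997610998) (nat_lit 0) (nat_lit 139558959851) (nat_lit 7) (nat_lit 5) (nat_lit 9) (nat_lit 4) (nat_lit 7) (nat_lit 4) (nat_lit 426) (nat_lit 368) (nat_lit 226)) (XT.lf (nat_lit 0) (nat_lit 357160143053) (nat_lit 152) (nat_lit 186300607616) (nat_lit 0) (nat_lit 250612073633) (nat_lit 7) (nat_lit 5) (nat_lit 9) (nat_lit 4) (nat_lit 7) (nat_lit 4) (nat_lit 427) (nat_lit 368) (nat_lit 225))) (XT.nd (nat_lit 78) (nat_lit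 76) (nat_lit 0) (XT.lf (nat_lit 0) (nat_lit 477097403216) (nat_lit 152) (nat_lit 1948353916) (nat_lit 0) (nat_lit 370549202690) (nat_lit 7) (nat_lit 5) (nat_lit 9) (nat_lit 4) (nat_lit 7) (nat_lit 4) (nat_lit 428) (nat_lit 368) (nat_lit 224)) (XT.nd (nat_lit 78) (nat_lit 0) (nat_lit 0) (XT.lf (nat_lit 0) (nat_lit 207533262188) (nat_lit 76) (nat_lit 404087325244) (nat_lit 76) (nat_lit 297539003324) (nat_lit 6) (nat_lit 4) (nat_lit 7) (nat_lit 5) (nat_lit 7) (nat_lit 4) (nat_lit 429) (nat_lit 368) (nat_lit 223)) (XT.lf (nat_lit 0) (nat_lit 433883751970) (nat_lit 76) (nat_lit 323074915624) (nat_lit 76) (nat_lit 216526481301) (nat_lit 6) (nat_lit 4) (nat_lit 7) (nat_lit 5) (nat_lit 7) (nat_lit 4) (nat_lit 430) (nat_lit 368) (nat_lit 222)))))) (XT.nd (nat_lit 390) (nat_lit 76) (nat_lit 0) (XT.nd (nat_lit 156) (nat_lit 152) (nat_lit 0) (XT.nd (nat_lit 78) (nat_lit 0) (nat_lit 0) (XT.lf (nat_lit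 0) (nat_lit 678341854799) (nat_lit 76) (nat_lit 235581726182) (nat_lit 76) (nat_lit 129033187784) (nat_lit 6) (nat_lit 4) (nat_lit 7) (nat_lit 5) (nat_lit 7) (nat_lit 4) (nat_lit 431) (nat_lit 368) (nat_lit 221)) (XT.lf (nat_lit 0) (nat_lit 942356211286) (nat_lit 76) (nat_lit 141089278760) (nat_lit 76) (nat_lit 34540643995) (nat_lit 6) (nat_lit 4) (nat_lit 7) (nat_lit 5) (nat_lit 7) (nat_lit 4) (nat_lit 432) (nat_lit 368) (nat_lit 220))) (XT.nd (nat_lit 78) (nat_lit 0) (nat_lit 0) (XT.lf (nat_lit 0) (nat_lit 28263709253) (nat_lit 76) (nat_lit 36549960577) (nat_lit 152) (nat_lit 1134019922424) (nat_lit 4) (nat_lit 5) (nat_lit 5) (nat_lit 5) (nat_lit 6) (nat_lit 4) (nat_lit 433) (nat_lit 368) (nat_lit 219)) (XT.nd (nat_lit 78) (nat_lit 0) (nat_lit 0) (XT.lf (nat_lit 0) (nat_lit 177013090977) (nat_lit 152) (nat_lit 1030166166509) (nat_lit 0) (nat_lit 78356788558) (nat_lit 4) (nat_lit 5) (nat_lit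 6) (nat_lit 4) (nat_lit 4) (nat_lit 4) (nat_lit 434) (nat_lit 368) (nat_lit 218)) (XT.lf (nat_lit 0) (nat_lit 299137642429) (nat_lit 152) (nat_lit 879479850419) (nat_lit 0) (nat_lit 200481269177) (nat_lit 4) (nat_lit 5) (nat_lit 6) (nat_lit 4) (nat_lit 4) (nat_lit 4) (nat_lit 435) (nat_lit 368) (nat_lit 217))))) (XT.nd (nat_lit 156) (nat_lit 76) (nat_lit 0) (XT.nd (nat_lit 78) (nat_lit 0) (nat_lit 0) (XT.lf (nat_lit 0) (nat_lit 431031997800) (nat_lit 152) (nat_lit 716738951353) (nat_lit 0) (nat_lit 332375558963) (nat_lit 4) (nat_lit 5) (nat_lit 6) (nat_lit 4) (nat_lit 4) (nat_lit 4) (nat_lit 436) (nat_lit 368) (nat_lit 216)) (XT.lf (nat_lit 0) (nat_lit 573477753271) (nat_lit 152) (nat_lit 540979078799) (nat_lit 0) (nat_lit 474821253707) (nat_lit 4) (nat_lit 5) (nat_lit 6) (nat_lit 4) (nat_lit 4) (nat_lit 4) (nat_lit 437) (nat_lit 368) (nat_lit 215))) (XT.nd (nat_lit 78) (nat_lit 76) (nat_lit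 0) (XT.lf (nat_lit 0) (nat_lit 727319031837) (nat_lit 152) (nat_lit 351158692770) (nat_lit 0) (nat_lit 628662476043) (nat_lit 4) (nat_lit 5) (nat_lit 6) (nat_lit 4) (nat_lit 4) (nat_lit 4) (nat_lit 438) (nat_lit 368) (nat_lit 214)) (XT.nd (nat_lit 78) (nat_lit 76) (nat_lit 0) (XT.lf (nat_lit 0) (nat_lit 893467485519) (nat_lit 152) (nat_lit 146152931721) (nat_lit 0) (nat_lit 794810877662) (nat_lit 4) (nat_lit 5) (nat_lit 6) (nat_lit 4) (nat_lit 4) (nat_lit 4) (nat_lit 439) (nat_lit 368) (nat_lit 213)) (XT.lf (nat_lit 0) (nat_lit 79215745730) (nat_lit 76) (nat_lit 995597092606) (nat_lit 76) (nat_lit 896940436541) (nat_lit 3) (nat_lit 4) (nat_lit 4) (nat_lit 5) (nat_lit 4) (nat_lit 4) (nat_lit 440) (nat_lit 368) (nat_lit 212))))))) (XT.nd (nat_lit 780) (nat_lit 152) (nat_lit 0) (XT.nd (nat_lit 390) (nat_lit 0) (nat_lit 0) (XT.nd (nat_lit 156) (nat_lit 0) (nat_lit 0) (XT.nd (nat_lit 78) (nat_lit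 0) (nat_lit 0) (XT.lf (nat_lit 0) (nat_lit 330925533196) (nat_lit 76) (nat_lit 943736251760) (nat_lit 76) (nat_lit 845079551059) (nat_lit 3) (nat_lit 4) (nat_lit 4) (nat_lit 5) (nat_lit 4) (nat_lit 4) (nat_lit 441) (nat_lit 368) (nat_lit 211)) (XT.lf (nat_lit 0) (nat_lit 602771889854) (nat_lit 76) (nat_lit 887726651360) (nat_lit 76) (nat_lit 789069909329) (nat_lit 3) (nat_lit 4) (nat_lit 4) (nat_lit 5) (nat_lit 4) (nat_lit 4) (nat_lit 442) (nat_lit 368) (nat_lit 210))) (XT.nd (nat_lit 78) (nat_lit 0) (nat_lit 0) (XT.lf (nat_lit 0) (nat_lit 896365757075) (nat_lit 76) (nat_lit 827236382662) (nat_lit 76) (nat_lit 728579602362) (nat_lit 3) (nat_lit 4) (nat_lit 4) (nat_lit 5) (nat_lit 4) (nat_lit 4) (nat_lit 443) (nat_lit 368) (nat_lit 209)) (XT.nd (nat_lit 78) (nat_lit 0) (nat_lit 0) (XT.lf (nat_lit 0) (nat_lit 1213446950369) (nat_lit 76) (nat_lit 761906984816) (nat_lit 76) (nat_lit 663250169082)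 (nat_lit 3) (nat_lit 4) (nat_lit 4) (nat_lit 5) (nat_lit 4) (nat_lit 4) (nat_lit 444) (nat_lit 368) (nat_lit 208)) (XT.lf (nat_lit 0) (nat_lit 1555894469400) (nat_lit 76) (nat_lit 691351320648) (nat_lit 76) (nat_lit 592694472105) (nat_lit 3) (nat_lit 4) (nat_lit 4) (nat_lit 5) (nat_lit 4) (nat_lit 4) (nat_lit 445) (nat_lit 368) (nat_lit 207))))) (XT.nd (nat_lit 156) (nat_lit 0) (nat_lit 0) (XT.nd (nat_lit 78) (nat_lit 0) (nat_lit 0) (XT.lf (nat_lit 0) (nat_lit 1925737632800) (nat_lit 76) (nat_lit 615151282519) (nat_lit 76) (nat_lit 516494403597) (nat_lit 3) (nat_lit 4) (nat_lit 4) (nat_lit 5) (nat_lit 4) (nat_lit 4) (nat_lit 446) (nat_lit 368) (nat_lit 206)) (XT.lf (nat_lit 0) (nat_lit 2325168103758) (nat_lit 76) (nat_lit 532855314648) (nat_lit 76) (nat_lit 434198407597) (nat_lit 3) (nat_lit 4) (nat_lit 4) (nat_lit 5) (nat_lit 4) (nat_lit 4) (nat_lit 447) (nat_lit 368) (nat_lit 205)))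 (XT.nd (nat_lit 78) (nat_lit 0) (nat_lit 0) (XT.lf (nat_lit 0) (nat_lit 2756552877659) (nat_lit 76) (nat_lit 443975737224) (nat_lit 76) (nat_lit 345318804129) (nat_lit 3) (nat_lit 4) (nat_lit 4) (nat_lit 5) (nat_lit 4) (nat_lit 4) (nat_lit 448) (nat_lit 368) (nat_lit 204)) (XT.nd (nat_lit 78) (nat_lit 0) (nat_lit 0) (XT.lf (nat_lit 0) (nat_lit 3222448308718) (nat_lit 76) (nat_lit 347985856457) (nat_lit 76) (nat_lit 249328899246) (nat_lit 3) (nat_lit 4) (nat_lit 4) (nat_lit 5) (nat_lit 4) (nat_lit 4) (nat_lit 449) (nat_lit 368) (nat_lit 203)) (XT.lf (nat_lit 0) (nat_lit 3725615258749) (nat_lit 76) (nat_lit 244316843422) (nat_lit 76) (nat_lit 145659863882) (nat_lit 3) (nat_lit 4) (nat_lit 4) (nat_lit 5) (nat_lit 4) (nat_lit 4) (nat_lit 450) (nat_lit 368) (nat_lit 202)))))) (XT.nd (nat_lit 390) (nat_lit 0) (nat_lit 0) (XT.nd (nat_lit 156) (nat_lit 0) (nat_lit 0) (XT.nd (nat_lit 78) (nat_lit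 152) (nat_lit 0) (XT.lf (nat_lit 0) (nat_lit 4269035457826) (nat_lit 76) (nat_lit 132354363228) (nat_lit 76) (nat_lit 33697363013) (nat_lit 3) (nat_lit 4) (nat_lit 4) (nat_lit 5) (nat_lit 4) (nat_lit 4) (nat_lit 451) (nat_lit 368) (nat_lit 201)) (XT.lf (nat_lit 0) (nat_lit 77569813319) (nat_lit 76) (nat_lit 7154625468) (nat_lit 152) (nat_lit 4695100524742) (nat_lit 1) (nat_lit 5) (nat_lit 2) (nat_lit 5) (nat_lit 3) (nat_lit 4) (nat_lit 452) (nat_lit 368) (nat_lit 200))) (XT.nd (nat_lit 78) (nat_lit 0) (nat_lit 0) (XT.lf (nat_lit 0) (nat_lit 218537348323) (nat_lit 152) (nat_lit 4805727124906) (nat_lit 0) (nat_lit 127188239911) (nat_lit 1) (nat_lit 5) (nat_lit 3) (nat_lit 4) (nat_lit 1) (nat_lit 4) (nat_lit 453) (nat_lit 368) (nat_lit 199)) (XT.nd (nat_lit 78) (nat_lit 0) (nat_lit 0) (XT.lf (nat_lit 0) (nat_lit 363241078499) (nat_lit 152) (nat_lit 4917662786306) (nat_lit 0) (nat_lit 271891954890)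 (nat_lit 1) (nat_lit 5) (nat_lit 3) (nat_lit 4) (nat_lit 1) (nat_lit 4) (nat_lit 454) (nat_lit 368) (nat_lit 198)) (XT.lf (nat_lit 0) (nat_lit 519521063986) (nat_lit 152) (nat_lit 5038553387934) (nat_lit 0) (nat_lit 428171926306) (nat_lit 1) (nat_lit 5) (nat_lit 3) (nat_lit 4) (nat_lit 1) (nat_lit 4) (nat_lit 455) (nat_lit 368) (nat_lit 197))))) (XT.nd (nat_lit 46410) (nat_lit 0) (nat_lit 4560) (XT.nd (nat_lit 46332) (nat_lit 0) (nat_lit 4560) (XT.lf (nat_lit 0) (nat_lit 688303408403) (nat_lit 152) (nat_lit 5169115318539) (nat_lit 0) (nat_lit 596954257693) (nat_lit 1) (nat_lit 5) (nat_lit 3) (nat_lit 4) (nat_lit 1) (nat_lit 4) (nat_lit 456) (nat_lit 368) (nat_lit 196)) (XT.lf (nat_lit 0) (nat_lit 15870794564) (nat_lit 532) (nat_lit 1551152355) (nat_lit 532) (nat_lit 1551152355) (nat_lit 61) (nat_lit 3) (nat_lit 68) (nat_lit 3) (nat_lit 68) (nat_lit 5) (nat_lit 369) (nat_lit 369) (nat_lit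 282))) (XT.nd (nat_lit 78) (nat_lit 0) (nat_lit 76) (XT.lf (nat_lit 76) (nat_lit 15989924676) (nat_lit 0) (nat_lit 17448339192) (nat_lit 532) (nat_lit 5991569874) (nat_lit 62) (nat_lit 5) (nat_lit 61) (nat_lit 3) (nat_lit 68) (nat_lit 5) (nat_lit 370) (nat_lit 369) (nat_lit 281)) (XT.nd (nat_lit 78) (nat_lit 0) (nat_lit 0) (XT.lf (nat_lit 0) (nat_lit 35385637822) (nat_lit 456) (nat_lit 4276625632) (nat_lit 532) (nat_lit 1360704266) (nat_lit 62) (nat_lit 5) (nat_lit 68) (nat_lit 5) (nat_lit 69) (nat_lit 5) (nat_lit 371) (nat_lit 369) (nat_lit 280)) (XT.lf (nat_lit 76) (nat_lit 16804544418) (nat_lit 0) (nat_lit 21537666081) (nat_lit 532) (nat_lit 4333074018) (nat_lit 63) (nat_lit 5) (nat_lit 62) (nat_lit 5) (nat_lit 69) (nat_lit 5) (nat_lit 372) (nat_lit 369) (nat_lit 279))))))))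
noncomputable def xc172 : XT := (XT.nd (nat_lit 1482) (nat_lit 1292) (nat_lit 0) (XT.nd (nat_lit 702) (nat_lit 988) (nat_lit 0) (XT.nd (nat_lit 312) (nat_lit 760) (nat_lit 0) (XT.nd (nat_lit 156) (nat_lit 456) (nat_lit 0) (XT.nd (nat_lit 78) (nat_lit 0) (nat_lit 76) (XT.lf (nat_lit 76) (nat_lit 39812885668) (nat_lit 0) (nat_lit 1835640488) (nat_lit 532) (nat_lit 2802207574) (nat_lit 63) (nat_lit 5) (nat_lit 62) (nat_lit 5) (nat_lit 69) (nat_lit 5) (nat_lit 373) (nat_lit 369) (nat_lit 278)) (XT.lf (nat_lit 76) (nat_lit 18761976395) (nat_lit 0) (nat_lit 27372778265) (nat_lit 532) (nat_lit 160235733) (nat_lit 64) (nat_lit 5) (nat_lit 63) (nat_lit 5) (nat_lit 70) (nat_lit 5) (nat_lit 374) (nat_lit 369) (nat_lit 277))) (XT.nd (nat_lit 78) (nat_lit 0) (nat_lit 76) (XT.lf (nat_lit 0) (nat_lit 2732845128) (nat_lit 532) (nat_lit 4097605134) (nat_lit 608) (nat_lit 41437201679) (nat_lit 56) (nat_lit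 5) (nat_lit 63) (nat_lit 5) (nat_lit 64) (nat_lit 5) (nat_lit 375) (nat_lit 369) (nat_lit 276)) (XT.lf (nat_lit 0) (nat_lit 6765869375) (nat_lit 532) (nat_lit 28415872828) (nat_lit 76) (nat_lit 15142682219) (nat_lit 57) (nat_lit 5) (nat_lit 64) (nat_lit 5) (nat_lit 58) (nat_lit 5) (nat_lit 376) (nat_lit 369) (nat_lit 275)))) (XT.nd (nat_lit 156) (nat_lit 456) (nat_lit 0) (XT.nd (nat_lit 78) (nat_lit 380) (nat_lit 0) (XT.lf (nat_lit 0) (nat_lit 11411008409) (nat_lit 532) (nat_lit 2491605373) (nat_lit 76) (nat_lit 38619970117) (nat_lit 57) (nat_lit 5) (nat_lit 64) (nat_lit 5) (nat_lit 58) (nat_lit 5) (nat_lit 377) (nat_lit 369) (nat_lit 274)) (XT.lf (nat_lit 0) (nat_lit 17305878165) (nat_lit 456) (nat_lit 28233214550) (nat_lit 76) (nat_lit 9287256656) (nat_lit 52) (nat_lit 5) (nat_lit 58) (nat_lit 5) (nat_lit 53) (nat_lit 5) (nat_lit 378) (nat_lit 369) (nat_lit 273))) (XT.nd (nat_lit 78)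 (nat_lit 228) (nat_lit 0) (XT.lf (nat_lit 0) (nat_lit 496677289) (nat_lit 228) (nat_lit 23616073193) (nat_lit 304) (nat_lit 33166435154) (nat_lit 49) (nat_lit 5) (nat_lit 52) (nat_lit 5) (nat_lit 53) (nat_lit 5) (nat_lit 379) (nat_lit 369) (nat_lit 272)) (XT.nd (nat_lit 78) (nat_lit 228) (nat_lit 0) (XT.lf (nat_lit 0) (nat_lit 32255217781) (nat_lit 304) (nat_lit 26760199680) (nat_lit 76) (nat_lit 849550130) (nat_lit 49) (nat_lit 5) (nat_lit 53) (nat_lit 5) (nat_lit 50) (nat_lit 5) (nat_lit 380) (nat_lit 369) (nat_lit 271)) (XT.lf (nat_lit 0) (nat_lit 5313707469) (nat_lit 228) (nat_lit 36474339633) (nat_lit 304) (nat_lit 20810450054) (nat_lit 46) (nat_lit 5) (nat_lit 49) (nat_lit 5) (nat_lit 50) (nat_lit 5) (nat_lit 381) (nat_lit 369) (nat_lit 270)))))) (XT.nd (nat_lit 390) (nat_lit 532) (nat_lit 0) (XT.nd (nat_lit 156) (nat_lit 304) (nat_lit 0) (XT.nd (nat_lit 78) (nat_lit 152) (nat_lit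 0) (XT.lf (nat_lit 0) (nat_lit 41472874270) (nat_lit 228) (nat_lit 11340169831) (nat_lit 304) (nat_lit 12679303737) (nat_lit 46) (nat_lit 5) (nat_lit 49) (nat_lit 5) (nat_lit 50) (nat_lit 5) (nat_lit 382) (nat_lit 369) (nat_lit 269)) (XT.lf (nat_lit 0) (nat_lit 12131329202) (nat_lit 152) (nat_lit 53258593575) (nat_lit 228) (nat_lit 3174195154) (nat_lit 44) (nat_lit 5) (nat_lit 46) (nat_lit 5) (nat_lit 47) (nat_lit 5) (nat_lit 383) (nat_lit 369) (nat_lit 268))) (XT.nd (nat_lit 78) (nat_lit 228) (nat_lit 0) (XT.lf (nat_lit 0) (nat_lit 7702984762) (nat_lit 228) (nat_lit 19773573786) (nat_lit 76) (nat_lit 44314117057) (nat_lit 43) (nat_lit 5) (nat_lit 46) (nat_lit 5) (nat_lit 44) (nat_lit 5) (nat_lit 384) (nat_lit 369) (nat_lit 267)) (XT.nd (nat_lit 78) (nat_lit 0) (nat_lit 0) (XT.lf (nat_lit 0) (nat_lit 19800590828) (nat_lit 304) (nat_lit 54480175253) (nat_lit 76) (nat_lit 946258337) (nat_lit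 40) (nat_lit 5) (nat_lit 44) (nat_lit 5) (nat_lit 41) (nat_lit 5) (nat_lit 385) (nat_lit 369) (nat_lit 266)) (XT.lf (nat_lit 0) (nat_lit 34132634592) (nat_lit 304) (nat_lit 13991714484) (nat_lit 76) (nat_lit 30712603125) (nat_lit 40) (nat_lit 5) (nat_lit 44) (nat_lit 5) (nat_lit 41) (nat_lit 5) (nat_lit 386) (nat_lit 369) (nat_lit 265))))) (XT.nd (nat_lit 156) (nat_lit 380) (nat_lit 0) (XT.nd (nat_lit 78) (nat_lit 0) (nat_lit 0) (XT.lf (nat_lit 0) (nat_lit 31299307990) (nat_lit 152) (nat_lit 19063076591) (nat_lit 228) (nat_lit 32313199506) (nat_lit 38) (nat_lit 5) (nat_lit 40) (nat_lit 5) (nat_lit 41) (nat_lit 5) (nat_lit 387) (nat_lit 369) (nat_lit 264)) (XT.lf (nat_lit 0) (nat_lit 68577825147) (nat_lit 228) (nat_lit 6089961599) (nat_lit 76) (nat_lit 12098536133) (nat_lit 38) (nat_lit 5) (nat_lit 41) (nat_lit 5) (nat_lit 39) (nat_lit 5) (nat_lit 388) (nat_lit 369) (nat_lit 263))) (XT.nd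 (nat_lit 78) (nat_lit 228) (nat_lit 0) (XT.lf (nat_lit 0) (nat_lit 44550598053) (nat_lit 152) (nat_lit 45265050831) (nat_lit 228) (nat_lit 1243461170) (nat_lit 36) (nat_lit 5) (nat_lit 38) (nat_lit 5) (nat_lit 39) (nat_lit 5) (nat_lit 389) (nat_lit 369) (nat_lit 262)) (XT.nd (nat_lit 78) (nat_lit 0) (nat_lit 0) (XT.lf (nat_lit 0) (nat_lit 3673835620) (nat_lit 152) (nat_lit 12787844948) (nat_lit 228) (nat_lit 79180200834) (nat_lit 33) (nat_lit 5) (nat_lit 35) (nat_lit 5) (nat_lit 36) (nat_lit 5) (nat_lit 390) (nat_lit 369) (nat_lit 261)) (XT.lf (nat_lit 0) (nat_lit 37355342612) (nat_lit 228) (nat_lit 40577313077) (nat_lit 76) (nat_lit 22508892782) (nat_lit 33) (nat_lit 5) (nat_lit 36) (nat_lit 5) (nat_lit 34) (nat_lit 5) (nat_lit 391) (nat_lit 369) (nat_lit 260))))))) (XT.nd (nat_lit 702) (nat_lit 532) (nat_lit 0) (XT.nd (nat_lit 312) (nat_lit 456) (nat_lit 0) (XT.nd (nat_lit 156) (nat_lit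 152) (nat_lit 0) (XT.nd (nat_lit 78) (nat_lit 0) (nat_lit 0) (XT.lf (nat_lit 0) (nat_lit 15358820885) (nat_lit 152) (nat_lit 45261928927) (nat_lit 228) (nat_lit 44948419739) (nat_lit 31) (nat_lit 5) (nat_lit 33) (nat_lit 5) (nat_lit 34) (nat_lit 5) (nat_lit 392) (nat_lit 369) (nat_lit 259)) (XT.lf (nat_lit 0) (nat_lit 78075548386) (nat_lit 152) (nat_lit 8780064746) (nat_lit 228) (nat_lit 24162730058) (nat_lit 31) (nat_lit 5) (nat_lit 33) (nat_lit 5) (nat_lit 34) (nat_lit 5) (nat_lit 393) (nat_lit 369) (nat_lit 258))) (XT.nd (nat_lit 78) (nat_lit 76) (nat_lit 0) (XT.lf (nat_lit 0) (nat_lit 29651117188) (nat_lit 76) (nat_lit 86986521374) (nat_lit 152) (nat_lit 149943016) (nat_lit 30) (nat_lit 5) (nat_lit 31) (nat_lit 5) (nat_lit 32) (nat_lit 4) (nat_lit 394) (nat_lit 369) (nat_lit 257)) (XT.lf (nat_lit 0) (nat_lit 25645071272) (nat_lit 152) (nat_lit 24693733216) (nat_lit 76) (nat_lit 72537865521)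 (nat_lit 29) (nat_lit 5) (nat_lit 31) (nat_lit 5) (nat_lit 30) (nat_lit 5) (nat_lit 395) (nat_lit 369) (nat_lit 256)))) (XT.nd (nat_lit 156) (nat_lit 304) (nat_lit 0) (XT.nd (nat_lit 78) (nat_lit 0) (nat_lit 0) (XT.lf (nat_lit 0) (nat_lit 44989302294) (nat_lit 152) (nat_lit 9587216780) (nat_lit 228) (nat_lit 74789580773) (nat_lit 27) (nat_lit 5) (nat_lit 29) (nat_lit 5) (nat_lit 30) (nat_lit 5) (nat_lit 396) (nat_lit 369) (nat_lit 255)) (XT.lf (nat_lit 0) (nat_lit 87342059766) (nat_lit 228) (nat_lit 15516569711) (nat_lit 76) (nat_lit 33394488946) (nat_lit 27) (nat_lit 5) (nat_lit 30) (nat_lit 5) (nat_lit 28) (nat_lit 4) (nat_lit 397) (nat_lit 369) (nat_lit 254))) (XT.nd (nat_lit 78) (nat_lit 228) (nat_lit 0) (XT.lf (nat_lit 0) (nat_lit 61687669714) (nat_lit 76) (nat_lit 62772819353) (nat_lit 152) (nat_lit 19092078267) (nat_lit 26) (nat_lit 5) (nat_lit 27) (nat_lit 5) (nat_lit 28) (nat_lit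 4) (nat_lit 398) (nat_lit 369) (nat_lit 253)) (XT.nd (nat_lit 78) (nat_lit 152) (nat_lit 0) (XT.lf (nat_lit 0) (nat_lit 12890798934) (nat_lit 152) (nat_lit 5779380190) (nat_lit 76) (nat_lit 132705819940) (nat_lit 25) (nat_lit 5) (nat_lit 27) (nat_lit 5) (nat_lit 26) (nat_lit 5) (nat_lit 399) (nat_lit 369) (nat_lit 252)) (XT.lf (nat_lit 0) (nat_lit 49080635979) (nat_lit 228) (nat_lit 80499203873) (nat_lit 76) (nat_lit 29991410184) (nat_lit 23) (nat_lit 5) (nat_lit 26) (nat_lit 5) (nat_lit 24) (nat_lit 4) (nat_lit 400) (nat_lit 369) (nat_lit 251)))))) (XT.nd (nat_lit 390) (nat_lit 228) (nat_lit 0) (XT.nd (nat_lit 156) (nat_lit 228) (nat_lit 0) (XT.nd (nat_lit 78) (nat_lit 0) (nat_lit 0) (XT.lf (nat_lit 0) (nat_lit 2252884966) (nat_lit 76) (nat_lit 86613148917) (nat_lit 152) (nat_lit 79500057644) (nat_lit 22) (nat_lit 5) (nat_lit 23) (nat_lit 5) (nat_lit 24) (nat_lit 4) (nat_lit 401) (nat_lit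 369) (nat_lit 250)) (XT.lf (nat_lit 0) (nat_lit 96201686467) (nat_lit 76) (nat_lit 37832725452) (nat_lit 152) (nat_lit 43654096877) (nat_lit 22) (nat_lit 5) (nat_lit 23) (nat_lit 5) (nat_lit 24) (nat_lit 4) (nat_lit 402) (nat_lit 369) (nat_lit 249))) (XT.nd (nat_lit 78) (nat_lit 152) (nat_lit 0) (XT.lf (nat_lit 0) (nat_lit 10054018357) (nat_lit 76) (nat_lit 173360392092) (nat_lit 76) (nat_lit 4294457278) (nat_lit 21) (nat_lit 4) (nat_lit 22) (nat_lit 5) (nat_lit 22) (nat_lit 4) (nat_lit 403) (nat_lit 369) (nat_lit 248)) (XT.nd (nat_lit 78) (nat_lit 76) (nat_lit 0) (XT.lf (nat_lit 0) (nat_lit 39570078523) (nat_lit 152) (nat_lit 86761302549) (nat_lit 76) (nat_lit 71864531500) (nat_lit 20) (nat_lit 5) (nat_lit 22) (nat_lit 5) (nat_lit 21) (nat_lit 4) (nat_lit 404) (nat_lit 369) (nat_lit 247)) (XT.lf (nat_lit 0) (nat_lit 11885390794) (nat_lit 76) (nat_lit 75111486106) (nat_lit 152) (nat_lit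 122493311839) (nat_lit 19) (nat_lit 5) (nat_lit 20) (nat_lit 5) (nat_lit 21) (nat_lit 4) (nat_lit 405) (nat_lit 369) (nat_lit 246))))) (XT.nd (nat_lit 156) (nat_lit 152) (nat_lit 0) (XT.nd (nat_lit 78) (nat_lit 76) (nat_lit 0) (XT.lf (nat_lit 0) (nat_lit 123356697631) (nat_lit 76) (nat_lit 17232619914) (nat_lit 152) (nat_lit 80908969804) (nat_lit 19) (nat_lit 5) (nat_lit 20) (nat_lit 5) (nat_lit 21) (nat_lit 4) (nat_lit 406) (nat_lit 369) (nat_lit 245)) (XT.lf (nat_lit 0) (nat_lit 8619709632) (nat_lit 76) (nat_lit 191144979993) (nat_lit 76) (nat_lit 34598701531) (nat_lit 18) (nat_lit 4) (nat_lit 19) (nat_lit 5) (nat_lit 19) (nat_lit 4) (nat_lit 407) (nat_lit 369) (nat_lit 244))) (XT.nd (nat_lit 78) (nat_lit 76) (nat_lit 0) (XT.lf (nat_lit 0) (nat_lit 17845194173) (nat_lit 152) (nat_lit 119429044364) (nat_lit 76) (nat_lit 110697804056) (nat_lit 17) (nat_lit 5) (nat_lit 19) (nat_lit 5) (nat_lit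 18) (nat_lit 4) (nat_lit 408) (nat_lit 369) (nat_lit 243)) (XT.nd (nat_lit 78) (nat_lit 76) (nat_lit 0) (XT.lf (nat_lit 0) (nat_lit 72614755254) (nat_lit 152) (nat_lit 5509070078) (nat_lit 76) (nat_lit 184473716988) (nat_lit 17) (nat_lit 5) (nat_lit 19) (nat_lit 5) (nat_lit 18) (nat_lit 4) (nat_lit 409) (nat_lit 369) (nat_lit 242)) (XT.lf (nat_lit 0) (nat_lit 123711997415) (nat_lit 76) (nat_lit 11028588348) (nat_lit 152) (nat_lit 143414520049) (nat_lit 16) (nat_lit 5) (nat_lit 17) (nat_lit 5) (nat_lit 18) (nat_lit 4) (nat_lit 410) (nat_lit 369) (nat_lit 241))))))))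
noncomputable def xc173 : XT := (XT.nd (nat_lit 1482) (nat_lit 304) (nat_lit 0) (XT.nd (nat_lit 702) (nat_lit 228) (nat_lit 0) (XT.nd (nat_lit 312) (nat_lit 228) (nat_lit 0) (XT.nd (nat_lit 156) (nat_lit 152) (nat_lit 0) (XT.nd (nat_lit 78) (nat_lit 76) (nat_lit 0) (XT.lf (nat_lit 0) (nat_lit 203467951588) (nat_lit 152) (nat_lit 32843661291) (nat_lit 0) (nat_lit 58515144133) (nat_lit 16) (nat_lit 5) (nat_lit 18) (nat_lit 4) (nat_lit 16) (nat_lit 4) (nat_lit 411) (nat_lit 369) (nat_lit 240)) (XT.lf (nat_lit 0) (nat_lit 103367122098) (nat_lit 76) (nat_lit 177098298299) (nat_lit 76) (nat_lit 32144966942) (nat_lit 15) (nat_lit 4) (nat_lit 16) (nat_lit 5) (nat_lit 16) (nat_lit 4) (nat_lit 412) (nat_lit 369) (nat_lit 239))) (XT.nd (nat_lit 78) (nat_lit 76) (nat_lit 0) (XT.lf (nat_lit 0) (nat_lit 31135720518) (nat_lit 152) (nat_lit 80191517772) (nat_lit 76) (nat_lit 220354610689) (nat_lit 14)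 (nat_lit 5) (nat_lit 16) (nat_lit 5) (nat_lit 15) (nat_lit 4) (nat_lit 413) (nat_lit 369) (nat_lit 238)) (XT.lf (nat_lit 0) (nat_lit 61421031698) (nat_lit 76) (nat_lit 37797861238) (nat_lit 152) (nat_lit 252875204530) (nat_lit 13) (nat_lit 5) (nat_lit 14) (nat_lit 5) (nat_lit 15) (nat_lit 4) (nat_lit 414) (nat_lit 369) (nat_lit 237)))) (XT.nd (nat_lit 156) (nat_lit 228) (nat_lit 0) (XT.nd (nat_lit 78) (nat_lit 0) (nat_lit 0) (XT.lf (nat_lit 0) (nat_lit 175998581200) (nat_lit 152) (nat_lit 156099472250) (nat_lit 0) (nat_lit 41781283514) (nat_lit 13) (nat_lit 5) (nat_lit 15) (nat_lit 4) (nat_lit 13) (nat_lit 4) (nat_lit 415) (nat_lit 369) (nat_lit 236)) (XT.lf (nat_lit 0) (nat_lit 259901962044) (nat_lit 152) (nat_lit 11742620462) (nat_lit 0) (nat_lit 125684307800) (nat_lit 13) (nat_lit 5) (nat_lit 15) (nat_lit 4) (nat_lit 13) (nat_lit 4) (nat_lit 416) (nat_lit 369) (nat_lit 235))) (XT.nd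 (nat_lit 78) (nat_lit 152) (nat_lit 0) (XT.lf (nat_lit 0) (nat_lit 151753291311) (nat_lit 76) (nat_lit 202413580213) (nat_lit 76) (nat_lit 68195595821) (nat_lit 12) (nat_lit 4) (nat_lit 13) (nat_lit 5) (nat_lit 13) (nat_lit 4) (nat_lit 417) (nat_lit 369) (nat_lit 234)) (XT.nd (nat_lit 78) (nat_lit 76) (nat_lit 0) (XT.lf (nat_lit 0) (nat_lit 6574365432) (nat_lit 152) (nat_lit 120543609983) (nat_lit 76) (nat_lit 322241786946) (nat_lit 11) (nat_lit 5) (nat_lit 13) (nat_lit 5) (nat_lit 12) (nat_lit 4) (nat_lit 418) (nat_lit 369) (nat_lit 233)) (XT.lf (nat_lit 0) (nat_lit 41848578304) (nat_lit 76) (nat_lit 42799090654) (nat_lit 152) (nat_lit 393646980641) (nat_lit 10) (nat_lit 5) (nat_lit 11) (nat_lit 5) (nat_lit 12) (nat_lit 4) (nat_lit 419) (nat_lit 369) (nat_lit 232)))))) (XT.nd (nat_lit 390) (nat_lit 152) (nat_lit 0) (XT.nd (nat_lit 156) (nat_lit 76) (nat_lit 0) (XT.nd (nat_lit 78) (nat_lit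 0) (nat_lit 0) (XT.lf (nat_lit 0) (nat_lit 173508723324) (nat_lit 152) (nat_lit 286440229574) (nat_lit 0) (nat_lit 49232024054) (nat_lit 10) (nat_lit 5) (nat_lit 12) (nat_lit 4) (nat_lit 10) (nat_lit 4) (nat_lit 420) (nat_lit 369) (nat_lit 231)) (XT.lf (nat_lit 0) (nat_lit 270589976479) (nat_lit 152) (nat_lit 125546276398) (nat_lit 0) (nat_lit 146313052516) (nat_lit 10) (nat_lit 5) (nat_lit 12) (nat_lit 4) (nat_lit 10) (nat_lit 4) (nat_lit 421) (nat_lit 369) (nat_lit 230))) (XT.nd (nat_lit 78) (nat_lit 0) (nat_lit 0) (XT.lf (nat_lit 0) (nat_lit 50757656591) (nat_lit 76) (nat_lit 325900471848) (nat_lit 76) (nat_lit 201623339837) (nat_lit 9) (nat_lit 4) (nat_lit 10) (nat_lit 5) (nat_lit 10) (nat_lit 4) (nat_lit 422) (nat_lit 369) (nat_lit 229)) (XT.nd (nat_lit 78) (nat_lit 0) (nat_lit 0) (XT.lf (nat_lit 0) (nat_lit 248305208414) (nat_lit 76) (nat_lit 246338866540) (nat_lit 76) (nat_lit 122061541892)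 (nat_lit 9) (nat_lit 4) (nat_lit 10) (nat_lit 5) (nat_lit 10) (nat_lit 4) (nat_lit 423) (nat_lit 369) (nat_lit 228)) (XT.lf (nat_lit 0) (nat_lit 461655986800) (nat_lit 76) (nat_lit 160412618458) (nat_lit 76) (nat_lit 36135115442) (nat_lit 9) (nat_lit 4) (nat_lit 10) (nat_lit 5) (nat_lit 10) (nat_lit 4) (nat_lit 424) (nat_lit 369) (nat_lit 227))))) (XT.nd (nat_lit 156) (nat_lit 0) (nat_lit 0) (XT.nd (nat_lit 78) (nat_lit 76) (nat_lit 0) (XT.lf (nat_lit 0) (nat_lit 53830513695) (nat_lit 152) (nat_lit 12310199685) (nat_lit 76) (nat_lit 636771957323) (nat_lit 8) (nat_lit 5) (nat_lit 10) (nat_lit 5) (nat_lit 9) (nat_lit 4) (nat_lit 425) (nat_lit 369) (nat_lit 226)) (XT.lf (nat_lit 0) (nat_lit 154747293717) (nat_lit 152) (nat_lit 556244229090) (nat_lit 0) (nat_lit 39675237149) (nat_lit 7) (nat_lit 5) (nat_lit 9) (nat_lit 4) (nat_lit 7) (nat_lit 4) (nat_lit 426) (nat_lit 369) (nat_lit 225)))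 (XT.nd (nat_lit 78) (nat_lit 0) (nat_lit 0) (XT.lf (nat_lit 0) (nat_lit 265800426188) (nat_lit 152) (nat_lit 385547470878) (nat_lit 0) (nat_lit 150728238514) (nat_lit 7) (nat_lit 5) (nat_lit 9) (nat_lit 4) (nat_lit 7) (nat_lit 4) (nat_lit 427) (nat_lit 369) (nat_lit 224)) (XT.nd (nat_lit 78) (nat_lit 0) (nat_lit 0) (XT.lf (nat_lit 0) (nat_lit 385737572550) (nat_lit 152) (nat_lit 201195444188) (nat_lit 0) (nat_lit 270665263481) (nat_lit 7) (nat_lit 5) (nat_lit 9) (nat_lit 4) (nat_lit 7) (nat_lit 4) (nat_lit 428) (nat_lit 369) (nat_lit 223)) (XT.lf (nat_lit 0) (nat_lit 515269471448) (nat_lit 152) (nat_lit 2095692566) (nat_lit 0) (nat_lit 400197049977) (nat_lit 7) (nat_lit 5) (nat_lit 9) (nat_lit 4) (nat_lit 7) (nat_lit 4) (nat_lit 429) (nat_lit 369) (nat_lit 222))))))) (XT.nd (nat_lit 780) (nat_lit 76) (nat_lit 0) (XT.nd (nat_lit 390) (nat_lit 0) (nat_lit 0) (XT.nd (nat_lit 156) (nat_lit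 152) (nat_lit 0) (XT.nd (nat_lit 78) (nat_lit 0) (nat_lit 0) (XT.lf (nat_lit 0) (nat_lit 224144236886) (nat_lit 76) (nat_lit 436410156722) (nat_lit 76) (nat_lit 321337631175) (nat_lit 6) (nat_lit 4) (nat_lit 7) (nat_lit 5) (nat_lit 7) (nat_lit 4) (nat_lit 430) (nat_lit 369) (nat_lit 221)) (XT.lf (nat_lit 0) (nat_lit 468602150019) (nat_lit 76) (nat_lit 348917062075) (nat_lit 76) (nat_lit 233844440162) (nat_lit 6) (nat_lit 4) (nat_lit 7) (nat_lit 5) (nat_lit 7) (nat_lit 4) (nat_lit 431) (nat_lit 369) (nat_lit 220))) (XT.nd (nat_lit 78) (nat_lit 152) (nat_lit 0) (XT.lf (nat_lit 0) (nat_lit 732616330861) (nat_lit 76) (nat_lit 254424702426) (nat_lit 76) (nat_lit 139351991285) (nat_lit 6) (nat_lit 4) (nat_lit 7) (nat_lit 5) (nat_lit 7) (nat_lit 4) (nat_lit 432) (nat_lit 369) (nat_lit 219)) (XT.nd (nat_lit 78) (nat_lit 152) (nat_lit 0) (XT.lf (nat_lit 0) (nat_lit 1017751307890) (nat_lit 76) (nat_lit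 152373123051) (nat_lit 76) (nat_lit 37300329290) (nat_lit 6) (nat_lit 4) (nat_lit 7) (nat_lit 5) (nat_lit 7) (nat_lit 4) (nat_lit 433) (nat_lit 369) (nat_lit 218)) (XT.lf (nat_lit 0) (nat_lit 30531412852) (nat_lit 76) (nat_lit 39470646336) (nat_lit 152) (nat_lit 1224737956444) (nat_lit 4) (nat_lit 5) (nat_lit 5) (nat_lit 5) (nat_lit 6) (nat_lit 4) (nat_lit 434) (nat_lit 369) (nat_lit 217))))) (XT.nd (nat_lit 156) (nat_lit 0) (nat_lit 0) (XT.nd (nat_lit 78) (nat_lit 0) (nat_lit 0) (XT.lf (nat_lit 0) (nat_lit 191177263628) (nat_lit 152) (nat_lit 1112573171654) (nat_lit 0) (nat_lit 84628244099) (nat_lit 4) (nat_lit 5) (nat_lit 6) (nat_lit 4) (nat_lit 4) (nat_lit 4) (nat_lit 435) (nat_lit 369) (nat_lit 216)) (XT.lf (nat_lit 0) (nat_lit 323071547687) (nat_lit 152) (nat_lit 949832416068) (nat_lit 0) (nat_lit 216522467430) (nat_lit 4) (nat_lit 5) (nat_lit 6) (nat_lit 4) (nat_lit 4) (nat_lit 4)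 (nat_lit 436) (nat_lit 369) (nat_lit 215))) (XT.nd (nat_lit 78) (nat_lit 0) (nat_lit 0) (XT.lf (nat_lit 0) (nat_lit 465517237128) (nat_lit 152) (nat_lit 774072676365) (nat_lit 0) (nat_lit 358968100642) (nat_lit 4) (nat_lit 5) (nat_lit 6) (nat_lit 4) (nat_lit 4) (nat_lit 4) (nat_lit 437) (nat_lit 369) (nat_lit 214)) (XT.nd (nat_lit 78) (nat_lit 0) (nat_lit 0) (XT.lf (nat_lit 0) (nat_lit 619358454555) (nat_lit 152) (nat_lit 584252413346) (nat_lit 0) (nat_lit 512809266005) (nat_lit 4) (nat_lit 5) (nat_lit 6) (nat_lit 4) (nat_lit 4) (nat_lit 4) (nat_lit 438) (nat_lit 369) (nat_lit 213)) (XT.lf (nat_lit 0) (nat_lit 785506851627) (nat_lit 152) (nat_lit 379246766196) (nat_lit 0) (nat_lit 678957614870) (nat_lit 4) (nat_lit 5) (nat_lit 6) (nat_lit 4) (nat_lit 4) (nat_lit 4) (nat_lit 439) (nat_lit 369) (nat_lit 212)))))) (XT.nd (nat_lit 390) (nat_lit 0) (nat_lit 0) (XT.nd (nat_lit 156) (nat_lit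 0) (nat_lit 0) (XT.nd (nat_lit 78) (nat_lit 76) (nat_lit 0) (XT.lf (nat_lit 0) (nat_lit 964947011437) (nat_lit 152) (nat_lit 157840886632) (nat_lit 0) (nat_lit 858397730044) (nat_lit 4) (nat_lit 5) (nat_lit 6) (nat_lit 4) (nat_lit 4) (nat_lit 4) (nat_lit 440) (nat_lit 369) (nat_lit 211)) (XT.lf (nat_lit 0) (nat_lit 85557176670) (nat_lit 76) (nat_lit 1075242758568) (nat_lit 76) (nat_lit 968693435844) (nat_lit 3) (nat_lit 4) (nat_lit 4) (nat_lit 5) (nat_lit 4) (nat_lit 4) (nat_lit 441) (nat_lit 369) (nat_lit 210))) (XT.nd (nat_lit 78) (nat_lit 0) (nat_lit 0) (XT.lf (nat_lit 0) (nat_lit 357403438150) (nat_lit 76) (nat_lit 1019233206117) (nat_lit 76) (nat_lit 912683845125) (nat_lit 3) (nat_lit 4) (nat_lit 4) (nat_lit 5) (nat_lit 4) (nat_lit 4) (nat_lit 442) (nat_lit 369) (nat_lit 209)) (XT.nd (nat_lit 78) (nat_lit 0) (nat_lit 0) (XT.lf (nat_lit 0) (nat_lit 650997217243) (nat_lit 76) (nat_lit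 958742981817) (nat_lit 76) (nat_lit 852193585391) (nat_lit 3) (nat_lit 4) (nat_lit 4) (nat_lit 5) (nat_lit 4) (nat_lit 4) (nat_lit 443) (nat_lit 369) (nat_lit 208)) (XT.lf (nat_lit 0) (nat_lit 968078328938) (nat_lit 76) (nat_lit 893413625079) (nat_lit 76) (nat_lit 786864195844) (nat_lit 3) (nat_lit 4) (nat_lit 4) (nat_lit 5) (nat_lit 4) (nat_lit 4) (nat_lit 444) (nat_lit 369) (nat_lit 207))))) (XT.nd (nat_lit 156) (nat_lit 0) (nat_lit 0) (XT.nd (nat_lit 78) (nat_lit 0) (nat_lit 0) (XT.lf (nat_lit 0) (nat_lit 1310525772415) (nat_lit 76) (nat_lit 822857998975) (nat_lit 76) (nat_lit 716308539361) (nat_lit 3) (nat_lit 4) (nat_lit 4) (nat_lit 5) (nat_lit 4) (nat_lit 4) (nat_lit 445) (nat_lit 369) (nat_lit 206)) (XT.lf (nat_lit 0) (nat_lit 1680368865856) (nat_lit 76) (nat_lit 746657996090) (nat_lit 76) (nat_lit 640108508348) (nat_lit 3) (nat_lit 4) (nat_lit 4) (nat_lit 5) (nat_lit 4) (nat_lit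 4) (nat_lit 446) (nat_lit 369) (nat_lit 205))) (XT.nd (nat_lit 78) (nat_lit 0) (nat_lit 0) (XT.lf (nat_lit 0) (nat_lit 2079799272039) (nat_lit 76) (nat_lit 664362060853) (nat_lit 76) (nat_lit 557812547065) (nat_lit 3) (nat_lit 4) (nat_lit 4) (nat_lit 5) (nat_lit 4) (nat_lit 4) (nat_lit 447) (nat_lit 369) (nat_lit 204)) (XT.nd (nat_lit 78) (nat_lit 0) (nat_lit 0) (XT.lf (nat_lit 0) (nat_lit 2511183985962) (nat_lit 76) (nat_lit 575482513646) (nat_lit 76) (nat_lit 468932975742) (nat_lit 3) (nat_lit 4) (nat_lit 4) (nat_lit 5) (nat_lit 4) (nat_lit 4) (nat_lit 448) (nat_lit 369) (nat_lit 203)) (XT.lf (nat_lit 0) (nat_lit 2977079361486) (nat_lit 76) (nat_lit 479492660856) (nat_lit 76) (nat_lit 372943100624) (nat_lit 3) (nat_lit 4) (nat_lit 4) (nat_lit 5) (nat_lit 4) (nat_lit 4) (nat_lit 449) (nat_lit 369) (nat_lit 202))))))))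
noncomputable def xc174 : XT := (XT.nd (nat_lit 47814) (nat_lit 0) (nat_lit 1672) (XT.nd (nat_lit 47034) (nat_lit 0) (nat_lit 3648) (XT.nd (nat_lit 312) (nat_lit 0) (nat_lit 0) (XT.nd (nat_lit 156) (nat_lit 152) (nat_lit 0) (XT.nd (nat_lit 78) (nat_lit 0) (nat_lit 0) (XT.lf (nat_lit 0) (nat_lit 3480246260095) (nat_lit 76) (nat_lit 375823673727) (nat_lit 76) (nat_lit 269274092819) (nat_lit 3) (nat_lit 4) (nat_lit 4) (nat_lit 5) (nat_lit 4) (nat_lit 4) (nat_lit 450) (nat_lit 369) (nat_lit 201)) (XT.lf (nat_lit 0) (nat_lit 4023666411559) (nat_lit 76) (nat_lit 263861217520) (nat_lit 76) (nat_lit 157311617468) (nat_lit 3) (nat_lit 4) (nat_lit 4) (nat_lit 5) (nat_lit 4) (nat_lit 4) (nat_lit 451) (nat_lit 369) (nat_lit 200))) (XT.nd (nat_lit 78) (nat_lit 152) (nat_lit 0) (XT.lf (nat_lit 0) (nat_lit 4610560083443) (nat_lit 76) (nat_lit 142941811012) (nat_lit 76) (nat_lit 36392193235) (nat_lit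 3) (nat_lit 4) (nat_lit 4) (nat_lit 5) (nat_lit 4) (nat_lit 4) (nat_lit 452) (nat_lit 369) (nat_lit 199)) (XT.lf (nat_lit 0) (nat_lit 83777188911) (nat_lit 76) (nat_lit 7726091425) (nat_lit 152) (nat_lit 5070707609286) (nat_lit 1) (nat_lit 5) (nat_lit 2) (nat_lit 5) (nat_lit 3) (nat_lit 4) (nat_lit 453) (nat_lit 369) (nat_lit 198)))) (XT.nd (nat_lit 156) (nat_lit 0) (nat_lit 0) (XT.nd (nat_lit 78) (nat_lit 0) (nat_lit 0) (XT.lf (nat_lit 0) (nat_lit 236021177106) (nat_lit 152) (nat_lit 5190183591406) (nat_lit 0) (nat_lit 137364094340) (nat_lit 1) (nat_lit 5) (nat_lit 3) (nat_lit 4) (nat_lit 1) (nat_lit 4) (nat_lit 454) (nat_lit 369) (nat_lit 197)) (XT.lf (nat_lit 0) (nat_lit 392301143405) (nat_lit 152) (nat_lit 5311074231902) (nat_lit 0) (nat_lit 293644047611) (nat_lit 1) (nat_lit 5) (nat_lit 3) (nat_lit 4) (nat_lit 1) (nat_lit 4) (nat_lit 455) (nat_lit 369) (nat_lit 196))) (XT.nd (nat_lit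 46410) (nat_lit 0) (nat_lit 4560) (XT.lf (nat_lit 0) (nat_lit 561083470056) (nat_lit 152) (nat_lit 5441636198498) (nat_lit 0) (nat_lit 462426362197) (nat_lit 1) (nat_lit 5) (nat_lit 3) (nat_lit 4) (nat_lit 1) (nat_lit 4) (nat_lit 456) (nat_lit 369) (nat_lit 195)) (XT.nd (nat_lit 78) (nat_lit 0) (nat_lit 0) (XT.lf (nat_lit 0) (nat_lit 17181890233) (nat_lit 532) (nat_lit 1652845904) (nat_lit 532) (nat_lit 1652845904) (nat_lit 61) (nat_lit 3) (nat_lit 68) (nat_lit 3) (nat_lit 68) (nat_lit 5) (nat_lit 370) (nat_lit 370) (nat_lit 280)) (XT.lf (nat_lit 76) (nat_lit 17312781820) (nat_lit 0) (nat_lit 18878319375) (nat_lit 532) (nat_lit 6386803432) (nat_lit 62) (nat_lit 5) (nat_lit 61) (nat_lit 3) (nat_lit 68) (nat_lit 5) (nat_lit 371) (nat_lit 370) (nat_lit 279)))))) (XT.nd (nat_lit 390) (nat_lit 532) (nat_lit 0) (XT.nd (nat_lit 156) (nat_lit 456) (nat_lit 0) (XT.nd (nat_lit 78) (nat_lit 0) (nat_lit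 0) (XT.lf (nat_lit 0) (nat_lit 38287744217) (nat_lit 456) (nat_lit 4571719197) (nat_lit 532) (nat_lit 1439554520) (nat_lit 62) (nat_lit 5) (nat_lit 68) (nat_lit 5) (nat_lit 69) (nat_lit 5) (nat_lit 372) (nat_lit 370) (nat_lit 278)) (XT.lf (nat_lit 76) (nat_lit 18194753660) (nat_lit 0) (nat_lit 23281913462) (nat_lit 532) (nat_lit 4607193426) (nat_lit 63) (nat_lit 5) (nat_lit 62) (nat_lit 5) (nat_lit 69) (nat_lit 5) (nat_lit 373) (nat_lit 370) (nat_lit 277))) (XT.nd (nat_lit 78) (nat_lit 456) (nat_lit 0) (XT.lf (nat_lit 76) (nat_lit 43040366233) (nat_lit 0) (nat_lit 2002152926) (nat_lit 532) (nat_lit 2959230001) (nat_lit 63) (nat_lit 5) (nat_lit 62) (nat_lit 5) (nat_lit 69) (nat_lit 5) (nat_lit 374) (nat_lit 370) (nat_lit 276)) (XT.nd (nat_lit 78) (nat_lit 532) (nat_lit 0) (XT.lf (nat_lit 76) (nat_lit 20309686014) (nat_lit 0) (nat_lit 29574045670) (nat_lit 532) (nat_lit 110133323) (nat_lit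 64) (nat_lit 5) (nat_lit 63) (nat_lit 5) (nat_lit 70) (nat_lit 5) (nat_lit 375) (nat_lit 370) (nat_lit 275)) (XT.lf (nat_lit 0) (nat_lit 3006818749) (nat_lit 532) (nat_lit 4379151632) (nat_lit 608) (nat_lit 44738606977) (nat_lit 56) (nat_lit 5) (nat_lit 63) (nat_lit 5) (nat_lit 64) (nat_lit 5) (nat_lit 376) (nat_lit 370) (nat_lit 274))))) (XT.nd (nat_lit 156) (nat_lit 608) (nat_lit 0) (XT.nd (nat_lit 78) (nat_lit 0) (nat_lit 0) (XT.lf (nat_lit 0) (nat_lit 7359295541) (nat_lit 532) (nat_lit 30639636664) (nat_lit 76) (nat_lit 16347218958) (nat_lit 57) (nat_lit 5) (nat_lit 64) (nat_lit 5) (nat_lit 58) (nat_lit 5) (nat_lit 377) (nat_lit 370) (nat_lit 273)) (XT.lf (nat_lit 0) (nat_lit 12372182246) (nat_lit 532) (nat_lit 2645094923) (nat_lit 76) (nat_lit 41703199358) (nat_lit 57) (nat_lit 5) (nat_lit 64) (nat_lit 5) (nat_lit 58) (nat_lit 5) (nat_lit 378) (nat_lit 370) (nat_lit 272))) (XT.nd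 (nat_lit 78) (nat_lit 228) (nat_lit 0) (XT.lf (nat_lit 0) (nat_lit 18736112083) (nat_lit 456) (nat_lit 30443456454) (nat_lit 76) (nat_lit 10029180809) (nat_lit 52) (nat_lit 5) (nat_lit 58) (nat_lit 5) (nat_lit 53) (nat_lit 5) (nat_lit 379) (nat_lit 370) (nat_lit 271)) (XT.nd (nat_lit 78) (nat_lit 0) (nat_lit 0) (XT.lf (nat_lit 0) (nat_lit 583601030) (nat_lit 228) (nat_lit 25501678166) (nat_lit 304) (nat_lit 35772717190) (nat_lit 49) (nat_lit 5) (nat_lit 52) (nat_lit 5) (nat_lit 53) (nat_lit 5) (nat_lit 380) (nat_lit 370) (nat_lit 270)) (XT.lf (nat_lit 0) (nat_lit 34876002981) (nat_lit 304) (nat_lit 28854140530) (nat_lit 76) (nat_lit 920751872) (nat_lit 49) (nat_lit 5) (nat_lit 53) (nat_lit 5) (nat_lit 50) (nat_lit 5) (nat_lit 381) (nat_lit 370) (nat_lit 269))))))) (XT.nd (nat_lit 780) (nat_lit 760) (nat_lit 0) (XT.nd (nat_lit 390) (nat_lit 532) (nat_lit 0) (XT.nd (nat_lit 156) (nat_lit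 456) (nat_lit 0) (XT.nd (nat_lit 78) (nat_lit 0) (nat_lit 0) (XT.lf (nat_lit 0) (nat_lit 5784492479) (nat_lit 228) (nat_lit 39385074769) (nat_lit 304) (nat_lit 22433694353) (nat_lit 46) (nat_lit 5) (nat_lit 49) (nat_lit 5) (nat_lit 50) (nat_lit 5) (nat_lit 382) (nat_lit 370) (nat_lit 268)) (XT.lf (nat_lit 0) (nat_lit 44833008298) (nat_lit 228) (nat_lit 12240705609) (nat_lit 304) (nat_lit 13655137198) (nat_lit 46) (nat_lit 5) (nat_lit 49) (nat_lit 5) (nat_lit 50) (nat_lit 5) (nat_lit 383) (nat_lit 370) (nat_lit 267))) (XT.nd (nat_lit 78) (nat_lit 304) (nat_lit 0) (XT.lf (nat_lit 0) (nat_lit 13145723634) (nat_lit 152) (nat_lit 57509584474) (nat_lit 228) (nat_lit 3391172031) (nat_lit 44) (nat_lit 5) (nat_lit 46) (nat_lit 5) (nat_lit 47) (nat_lit 5) (nat_lit 384) (nat_lit 370) (nat_lit 266)) (XT.nd (nat_lit 78) (nat_lit 228) (nat_lit 0) (XT.lf (nat_lit 0) (nat_lit 8351732719) (nat_lit 228)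 (nat_lit 21313083333) (nat_lit 76) (nat_lit 47866485513) (nat_lit 43) (nat_lit 5) (nat_lit 46) (nat_lit 5) (nat_lit 44) (nat_lit 5) (nat_lit 385) (nat_lit 370) (nat_lit 265)) (XT.lf (nat_lit 0) (nat_lit 21415978063) (nat_lit 304) (nat_lit 58795018381) (nat_lit 76) (nat_lit 1031657401) (nat_lit 40) (nat_lit 5) (nat_lit 44) (nat_lit 5) (nat_lit 41) (nat_lit 5) (nat_lit 386) (nat_lit 370) (nat_lit 264))))) (XT.nd (nat_lit 156) (nat_lit 380) (nat_lit 0) (XT.nd (nat_lit 78) (nat_lit 152) (nat_lit 0) (XT.lf (nat_lit 0) (nat_lit 36892263849) (nat_lit 304) (nat_lit 15070708225) (nat_lit 76) (nat_lit 33178591372) (nat_lit 40) (nat_lit 5) (nat_lit 44) (nat_lit 5) (nat_lit 41) (nat_lit 5) (nat_lit 387) (nat_lit 370) (nat_lit 263)) (XT.lf (nat_lit 0) (nat_lit 33842574695) (nat_lit 152) (nat_lit 20576615321) (nat_lit 228) (nat_lit 34868193909) (nat_lit 38) (nat_lit 5) (nat_lit 40) (nat_lit 5) (nat_lit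 41) (nat_lit 5) (nat_lit 388) (nat_lit 370) (nat_lit 262))) (XT.nd (nat_lit 78) (nat_lit 380) (nat_lit 0) (XT.lf (nat_lit 0) (nat_lit 74090061735) (nat_lit 228) (nat_lit 6538925007) (nat_lit 76) (nat_lit 13076541015) (nat_lit 38) (nat_lit 5) (nat_lit 41) (nat_lit 5) (nat_lit 39) (nat_lit 5) (nat_lit 389) (nat_lit 370) (nat_lit 261)) (XT.nd (nat_lit 78) (nat_lit 228) (nat_lit 0) (XT.lf (nat_lit 0) (nat_lit 48151911480) (nat_lit 152) (nat_lit 48873969419) (nat_lit 228) (nat_lit 1315940933) (nat_lit 36) (nat_lit 5) (nat_lit 38) (nat_lit 5) (nat_lit 39) (nat_lit 5) (nat_lit 390) (nat_lit 370) (nat_lit 260)) (XT.lf (nat_lit 0) (nat_lit 4005397738) (nat_lit 152) (nat_lit 13797869760) (nat_lit 228) (nat_lit 85487976256) (nat_lit 33) (nat_lit 5) (nat_lit 35) (nat_lit 5) (nat_lit 36) (nat_lit 5) (nat_lit 391) (nat_lit 370) (nat_lit 259)))))) (XT.nd (nat_lit 390) (nat_lit 456) (nat_lit 0) (XT.nd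 (nat_lit 156) (nat_lit 152) (nat_lit 0) (XT.nd (nat_lit 78) (nat_lit 152) (nat_lit 0) (XT.lf (nat_lit 0) (nat_lit 40366885949) (nat_lit 228) (nat_lit 43787080799) (nat_lit 76) (nat_lit 24321041549) (nat_lit 33) (nat_lit 5) (nat_lit 36) (nat_lit 5) (nat_lit 34) (nat_lit 5) (nat_lit 392) (nat_lit 370) (nat_lit 258)) (XT.lf (nat_lit 0) (nat_lit 16623021923) (nat_lit 152) (nat_lit 48869645175) (nat_lit 228) (nat_lit 48520241749) (nat_lit 31) (nat_lit 5) (nat_lit 33) (nat_lit 5) (nat_lit 34) (nat_lit 5) (nat_lit 393) (nat_lit 370) (nat_lit 257))) (XT.nd (nat_lit 78) (nat_lit 152) (nat_lit 0) (XT.lf (nat_lit 0) (nat_lit 84354458337) (nat_lit 152) (nat_lit 9470212457) (nat_lit 228) (nat_lit 26073478491) (nat_lit 31) (nat_lit 5) (nat_lit 33) (nat_lit 5) (nat_lit 34) (nat_lit 5) (nat_lit 394) (nat_lit 370) (nat_lit 256)) (XT.nd (nat_lit 78) (nat_lit 76) (nat_lit 0) (XT.lf (nat_lit 0) (nat_lit 32056572562)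 (nat_lit 76) (nat_lit 93932234542) (nat_lit 152) (nat_lit 140156671) (nat_lit 30) (nat_lit 5) (nat_lit 31) (nat_lit 5) (nat_lit 32) (nat_lit 4) (nat_lit 395) (nat_lit 370) (nat_lit 255)) (XT.lf (nat_lit 0) (nat_lit 27715836393) (nat_lit 152) (nat_lit 26637318471) (nat_lit 76) (nat_lit 78352105934) (nat_lit 29) (nat_lit 5) (nat_lit 31) (nat_lit 5) (nat_lit 30) (nat_lit 5) (nat_lit 396) (nat_lit 370) (nat_lit 254))))) (XT.nd (nat_lit 156) (nat_lit 304) (nat_lit 0) (XT.nd (nat_lit 78) (nat_lit 0) (nat_lit 0) (XT.lf (nat_lit 0) (nat_lit 48619551947) (nat_lit 152) (nat_lit 10341576944) (nat_lit 228) (nat_lit 80752770568) (nat_lit 27) (nat_lit 5) (nat_lit 29) (nat_lit 5) (nat_lit 30) (nat_lit 5) (nat_lit 397) (nat_lit 370) (nat_lit 253)) (XT.lf (nat_lit 0) (nat_lit 94346824301) (nat_lit 228) (nat_lit 16727996768) (nat_lit 76) (nat_lit 36077146224) (nat_lit 27) (nat_lit 5) (nat_lit 30) (nat_lit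 5) (nat_lit 28) (nat_lit 4) (nat_lit 398) (nat_lit 370) (nat_lit 252))) (XT.nd (nat_lit 78) (nat_lit 228) (nat_lit 0) (XT.lf (nat_lit 0) (nat_lit 66651824886) (nat_lit 76) (nat_lit 67782315045) (nat_lit 152) (nat_lit 20601279866) (nat_lit 26) (nat_lit 5) (nat_lit 27) (nat_lit 5) (nat_lit 28) (nat_lit 4) (nat_lit 399) (nat_lit 370) (nat_lit 251)) (XT.nd (nat_lit 78) (nat_lit 152) (nat_lit 0) (XT.lf (nat_lit 0) (nat_lit 13938040619) (nat_lit 152) (nat_lit 6213899440) (nat_lit 76) (nat_lit 143332853862) (nat_lit 25) (nat_lit 5) (nat_lit 27) (nat_lit 5) (nat_lit 26) (nat_lit 5) (nat_lit 400) (nat_lit 370) (nat_lit 250)) (XT.lf (nat_lit 0) (nat_lit 53022814388) (nat_lit 228) (nat_lit 86911052438) (nat_lit 76) (nat_lit 32401818672) (nat_lit 23) (nat_lit 5) (nat_lit 26) (nat_lit 5) (nat_lit 24) (nat_lit 4) (nat_lit 401) (nat_lit 370) (nat_lit 249))))))))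
noncomputable def xc175 : XT := (XT.nd (nat_lit 1482) (nat_lit 456) (nat_lit 0) (XT.nd (nat_lit 702) (nat_lit 532) (nat_lit 0) (XT.nd (nat_lit 312) (nat_lit 228) (nat_lit 0) (XT.nd (nat_lit 156) (nat_lit 152) (nat_lit 0) (XT.nd (nat_lit 78) (nat_lit 0) (nat_lit 0) (XT.lf (nat_lit 0) (nat_lit 2460492426) (nat_lit 76) (nat_lit 93530045105) (nat_lit 152) (nat_lit 85843617774) (nat_lit 22) (nat_lit 5) (nat_lit 23) (nat_lit 5) (nat_lit 24) (nat_lit 4) (nat_lit 402) (nat_lit 370) (nat_lit 248)) (XT.lf (nat_lit 0) (nat_lit 103923170146) (nat_lit 76) (nat_lit 40848088188) (nat_lit 152) (nat_lit 47131198255) (nat_lit 22) (nat_lit 5) (nat_lit 23) (nat_lit 5) (nat_lit 24) (nat_lit 4) (nat_lit 403) (nat_lit 370) (nat_lit 247))) (XT.nd (nat_lit 78) (nat_lit 76) (nat_lit 0) (XT.lf (nat_lit 0) (nat_lit 10883887239) (nat_lit 76) (nat_lit 187217590602) (nat_lit 76) (nat_lit 4622981109) (nat_lit 21) (nat_lit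 4) (nat_lit 22) (nat_lit 5) (nat_lit 22) (nat_lit 4) (nat_lit 404) (nat_lit 370) (nat_lit 246)) (XT.lf (nat_lit 0) (nat_lit 42748907724) (nat_lit 152) (nat_lit 93677851132) (nat_lit 76) (nat_lit 77623764575) (nat_lit 20) (nat_lit 5) (nat_lit 22) (nat_lit 5) (nat_lit 21) (nat_lit 4) (nat_lit 405) (nat_lit 370) (nat_lit 245)))) (XT.nd (nat_lit 156) (nat_lit 152) (nat_lit 0) (XT.nd (nat_lit 78) (nat_lit 0) (nat_lit 0) (XT.lf (nat_lit 0) (nat_lit 12859961081) (nat_lit 76) (nat_lit 81109480338) (nat_lit 152) (nat_lit 132278933275) (nat_lit 19) (nat_lit 5) (nat_lit 20) (nat_lit 5) (nat_lit 21) (nat_lit 4) (nat_lit 406) (nat_lit 370) (nat_lit 244)) (XT.lf (nat_lit 0) (nat_lit 133247214018) (nat_lit 76) (nat_lit 18601114085) (nat_lit 152) (nat_lit 87368869322) (nat_lit 19) (nat_lit 5) (nat_lit 20) (nat_lit 5) (nat_lit 21) (nat_lit 4) (nat_lit 407) (nat_lit 370) (nat_lit 243))) (XT.nd (nat_lit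 78) (nat_lit 76) (nat_lit 0) (XT.lf (nat_lit 0) (nat_lit 9331402179) (nat_lit 76) (nat_lit 206426206012) (nat_lit 76) (nat_lit 37353911362) (nat_lit 18) (nat_lit 4) (nat_lit 19) (nat_lit 5) (nat_lit 19) (nat_lit 4) (nat_lit 408) (nat_lit 370) (nat_lit 242)) (XT.nd (nat_lit 78) (nat_lit 0) (nat_lit 0) (XT.lf (nat_lit 0) (nat_lit 19283968662) (nat_lit 152) (nat_lit 128962299796) (nat_lit 76) (nat_lit 119562641890) (nat_lit 17) (nat_lit 5) (nat_lit 19) (nat_lit 5) (nat_lit 18) (nat_lit 4) (nat_lit 409) (nat_lit 370) (nat_lit 241)) (XT.lf (nat_lit 0) (nat_lit 78434268041) (nat_lit 152) (nat_lit 5930288168) (nat_lit 76) (nat_lit 199239960189) (nat_lit 17) (nat_lit 5) (nat_lit 19) (nat_lit 5) (nat_lit 18) (nat_lit 4) (nat_lit 410) (nat_lit 370) (nat_lit 240)))))) (XT.nd (nat_lit 390) (nat_lit 228) (nat_lit 0) (XT.nd (nat_lit 156) (nat_lit 228) (nat_lit 0) (XT.nd (nat_lit 78) (nat_lit 0) (nat_lit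 0) (XT.lf (nat_lit 0) (nat_lit 133627970863) (nat_lit 76) (nat_lit 11901886045) (nat_lit 152) (nat_lit 154876852908) (nat_lit 16) (nat_lit 5) (nat_lit 17) (nat_lit 5) (nat_lit 18) (nat_lit 4) (nat_lit 411) (nat_lit 370) (nat_lit 239)) (XT.lf (nat_lit 0) (nat_lit 219754869640) (nat_lit 152) (nat_lit 35453004268) (nat_lit 0) (nat_lit 63204262780) (nat_lit 16) (nat_lit 5) (nat_lit 18) (nat_lit 4) (nat_lit 16) (nat_lit 4) (nat_lit 412) (nat_lit 370) (nat_lit 238))) (XT.nd (nat_lit 78) (nat_lit 152) (nat_lit 0) (XT.lf (nat_lit 0) (nat_lit 111654182300) (nat_lit 76) (nat_lit 191257676744) (nat_lit 76) (nat_lit 34706620723) (nat_lit 15) (nat_lit 4) (nat_lit 16) (nat_lit 5) (nat_lit 16) (nat_lit 4) (nat_lit 413) (nat_lit 370) (nat_lit 237)) (XT.nd (nat_lit 78) (nat_lit 76) (nat_lit 0) (XT.lf (nat_lit 0) (nat_lit 33635324601) (nat_lit 152) (nat_lit 86589996739) (nat_lit 76) (nat_lit 237990373991)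 (nat_lit 14) (nat_lit 5) (nat_lit 16) (nat_lit 5) (nat_lit 15) (nat_lit 4) (nat_lit 414) (nat_lit 370) (nat_lit 236)) (XT.lf (nat_lit 0) (nat_lit 66351130296) (nat_lit 76) (nat_lit 40813767439) (nat_lit 152) (nat_lit 273096046346) (nat_lit 13) (nat_lit 5) (nat_lit 14) (nat_lit 5) (nat_lit 15) (nat_lit 4) (nat_lit 415) (nat_lit 370) (nat_lit 235))))) (XT.nd (nat_lit 156) (nat_lit 228) (nat_lit 0) (XT.nd (nat_lit 78) (nat_lit 0) (nat_lit 0) (XT.lf (nat_lit 0) (nat_lit 190086508349) (nat_lit 152) (nat_lit 168571775674) (nat_lit 0) (nat_lit 45130755059) (nat_lit 13) (nat_lit 5) (nat_lit 15) (nat_lit 4) (nat_lit 13) (nat_lit 4) (nat_lit 416) (nat_lit 370) (nat_lit 234)) (XT.lf (nat_lit 0) (nat_lit 280701564057) (nat_lit 152) (nat_lit 12667535326) (nat_lit 0) (nat_lit 135745505076) (nat_lit 13) (nat_lit 5) (nat_lit 15) (nat_lit 4) (nat_lit 13) (nat_lit 4) (nat_lit 417) (nat_lit 370) (nat_lit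 233))) (XT.nd (nat_lit 78) (nat_lit 152) (nat_lit 0) (XT.lf (nat_lit 0) (nat_lit 163907682434) (nat_lit 76) (nat_lit 218599772150) (nat_lit 76) (nat_lit 73643430122) (nat_lit 12) (nat_lit 4) (nat_lit 13) (nat_lit 5) (nat_lit 13) (nat_lit 4) (nat_lit 418) (nat_lit 370) (nat_lit 232)) (XT.nd (nat_lit 78) (nat_lit 76) (nat_lit 0) (XT.lf (nat_lit 0) (nat_lit 7107187360) (nat_lit 152) (nat_lit 130173654399) (nat_lit 76) (nat_lit 348027150609) (nat_lit 11) (nat_lit 5) (nat_lit 13) (nat_lit 5) (nat_lit 12) (nat_lit 4) (nat_lit 419) (nat_lit 370) (nat_lit 231)) (XT.lf (nat_lit 0) (nat_lit 45209568587) (nat_lit 76) (nat_lit 46216592645) (nat_lit 152) (nat_lit 425131524955) (nat_lit 10) (nat_lit 5) (nat_lit 11) (nat_lit 5) (nat_lit 12) (nat_lit 4) (nat_lit 420) (nat_lit 370) (nat_lit 230))))))) (XT.nd (nat_lit 780) (nat_lit 228) (nat_lit 0) (XT.nd (nat_lit 390) (nat_lit 152) (nat_lit 0) (XT.nd (nat_lit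 156) (nat_lit 76) (nat_lit 0) (XT.nd (nat_lit 78) (nat_lit 0) (nat_lit 0) (XT.lf (nat_lit 0) (nat_lit 187395748306) (nat_lit 152) (nat_lit 309342961949) (nat_lit 0) (nat_lit 53176237685) (nat_lit 10) (nat_lit 5) (nat_lit 12) (nat_lit 4) (nat_lit 10) (nat_lit 4) (nat_lit 421) (nat_lit 370) (nat_lit 229)) (XT.lf (nat_lit 0) (nat_lit 292243033037) (nat_lit 152) (nat_lit 135578417407) (nat_lit 0) (nat_lit 158023329780) (nat_lit 10) (nat_lit 5) (nat_lit 12) (nat_lit 4) (nat_lit 10) (nat_lit 4) (nat_lit 422) (nat_lit 370) (nat_lit 228))) (XT.nd (nat_lit 78) (nat_lit 0) (nat_lit 0) (XT.lf (nat_lit 0) (nat_lit 54829537535) (nat_lit 76) (nat_lit 351966936667) (nat_lit 76) (nat_lit 217747055041) (nat_lit 9) (nat_lit 4) (nat_lit 10) (nat_lit 5) (nat_lit 10) (nat_lit 4) (nat_lit 423) (nat_lit 370) (nat_lit 227)) (XT.nd (nat_lit 78) (nat_lit 0) (nat_lit 0) (XT.lf (nat_lit 0) (nat_lit 268180058807)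 (nat_lit 76) (nat_lit 266040815744) (nat_lit 76) (nat_lit 131820768962) (nat_lit 9) (nat_lit 4) (nat_lit 10) (nat_lit 5) (nat_lit 10) (nat_lit 4) (nat_lit 424) (nat_lit 370) (nat_lit 226)) (XT.lf (nat_lit 0) (nat_lit 498598126595) (nat_lit 76) (nat_lit 173240850046) (nat_lit 76) (nat_lit 39020650343) (nat_lit 9) (nat_lit 4) (nat_lit 10) (nat_lit 5) (nat_lit 10) (nat_lit 4) (nat_lit 425) (nat_lit 370) (nat_lit 225))))) (XT.nd (nat_lit 156) (nat_lit 0) (nat_lit 0) (XT.nd (nat_lit 78) (nat_lit 76) (nat_lit 0) (XT.lf (nat_lit 0) (nat_lit 58141594134) (nat_lit 152) (nat_lit 13285825498) (nat_lit 76) (nat_lit 687717892950) (nat_lit 8) (nat_lit 5) (nat_lit 10) (nat_lit 5) (nat_lit 9) (nat_lit 4) (nat_lit 426) (nat_lit 370) (nat_lit 224)) (XT.lf (nat_lit 0) (nat_lit 167131695267) (nat_lit 152) (nat_lit 600734555381) (nat_lit 0) (nat_lit 42853480078) (nat_lit 7) (nat_lit 5) (nat_lit 9) (nat_lit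 4) (nat_lit 7) (nat_lit 4) (nat_lit 427) (nat_lit 370) (nat_lit 223))) (XT.nd (nat_lit 78) (nat_lit 0) (nat_lit 0) (XT.lf (nat_lit 0) (nat_lit 287068736257) (nat_lit 152) (nat_lit 416382738885) (nat_lit 0) (nat_lit 162790408666) (nat_lit 7) (nat_lit 5) (nat_lit 9) (nat_lit 4) (nat_lit 7) (nat_lit 4) (nat_lit 428) (nat_lit 370) (nat_lit 222)) (XT.nd (nat_lit 78) (nat_lit 0) (nat_lit 0) (XT.lf (nat_lit 0) (nat_lit 416600537589) (nat_lit 152) (nat_lit 217283181887) (nat_lit 0) (nat_lit 292322105922) (nat_lit 7) (nat_lit 5) (nat_lit 9) (nat_lit 4) (nat_lit 7) (nat_lit 4) (nat_lit 429) (nat_lit 370) (nat_lit 221)) (XT.lf (nat_lit 0) (nat_lit 556494695122) (nat_lit 152) (nat_lit 2256035160) (nat_lit 0) (nat_lit 432216167089) (nat_lit 7) (nat_lit 5) (nat_lit 9) (nat_lit 4) (nat_lit 7) (nat_lit 4) (nat_lit 430) (nat_lit 370) (nat_lit 220)))))) (XT.nd (nat_lit 390) (nat_lit 0) (nat_lit 0) (XT.nd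 (nat_lit 156) (nat_lit 152) (nat_lit 0) (XT.nd (nat_lit 78) (nat_lit 0) (nat_lit 0) (XT.lf (nat_lit 0) (nat_lit 242082903514) (nat_lit 76) (nat_lit 471319407409) (nat_lit 76) (nat_lit 347040790147) (nat_lit 6) (nat_lit 4) (nat_lit 7) (nat_lit 5) (nat_lit 7) (nat_lit 4) (nat_lit 431) (nat_lit 370) (nat_lit 219)) (XT.lf (nat_lit 0) (nat_lit 506096921721) (nat_lit 76) (nat_lit 376827129032) (nat_lit 76) (nat_lit 252548429151) (nat_lit 6) (nat_lit 4) (nat_lit 7) (nat_lit 5) (nat_lit 7) (nat_lit 4) (nat_lit 432) (nat_lit 370) (nat_lit 218))) (XT.nd (nat_lit 78) (nat_lit 152) (nat_lit 0) (XT.lf (nat_lit 0) (nat_lit 791231748164) (nat_lit 76) (nat_lit 274775624908) (nat_lit 76) (nat_lit 150496848529) (nat_lit 6) (nat_lit 4) (nat_lit 7) (nat_lit 5) (nat_lit 7) (nat_lit 4) (nat_lit 433) (nat_lit 370) (nat_lit 217)) (XT.nd (nat_lit 78) (nat_lit 152) (nat_lit 0) (XT.lf (nat_lit 0) (nat_lit 1099177070702)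 (nat_lit 76) (nat_lit 164560145383) (nat_lit 76) (nat_lit 40281298172) (nat_lit 6) (nat_lit 4) (nat_lit 7) (nat_lit 5) (nat_lit 7) (nat_lit 4) (nat_lit 434) (nat_lit 370) (nat_lit 216)) (XT.lf (nat_lit 0) (nat_lit 32979590196) (nat_lit 76) (nat_lit 42625459319) (nat_lit 152) (nat_lit 1322713941028) (nat_lit 4) (nat_lit 5) (nat_lit 5) (nat_lit 5) (nat_lit 6) (nat_lit 4) (nat_lit 435) (nat_lit 370) (nat_lit 215))))) (XT.nd (nat_lit 156) (nat_lit 0) (nat_lit 0) (XT.nd (nat_lit 78) (nat_lit 0) (nat_lit 0) (XT.lf (nat_lit 0) (nat_lit 206474124223) (nat_lit 152) (nat_lit 1201573634290) (nat_lit 0) (nat_lit 91401000589) (nat_lit 4) (nat_lit 5) (nat_lit 6) (nat_lit 4) (nat_lit 4) (nat_lit 4) (nat_lit 436) (nat_lit 370) (nat_lit 214)) (XT.lf (nat_lit 0) (nat_lit 348919752525) (nat_lit 152) (nat_lit 1025814017597) (nat_lit 0) (nat_lit 233846576827) (nat_lit 4) (nat_lit 5) (nat_lit 6) (nat_lit 4)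 (nat_lit 4) (nat_lit 4) (nat_lit 437) (nat_lit 370) (nat_lit 213))) (XT.nd (nat_lit 78) (nat_lit 0) (nat_lit 0) (XT.lf (nat_lit 0) (nat_lit 502760913341) (nat_lit 152) (nat_lit 835993868477) (nat_lit 0) (nat_lit 387687689436) (nat_lit 4) (nat_lit 5) (nat_lit 6) (nat_lit 4) (nat_lit 4) (nat_lit 4) (nat_lit 438) (nat_lit 370) (nat_lit 212)) (XT.nd (nat_lit 78) (nat_lit 0) (nat_lit 0) (XT.lf (nat_lit 0) (nat_lit 668909257996) (nat_lit 152) (nat_lit 630988326788) (nat_lit 0) (nat_lit 553835989455) (nat_lit 4) (nat_lit 5) (nat_lit 6) (nat_lit 4) (nat_lit 4) (nat_lit 4) (nat_lit 439) (nat_lit 370) (nat_lit 211)) (XT.lf (nat_lit 0) (nat_lit 848349369273) (nat_lit 152) (nat_lit 409582544874) (nat_lit 0) (nat_lit 733276059401) (nat_lit 4) (nat_lit 5) (nat_lit 6) (nat_lit 4) (nat_lit 4) (nat_lit 4) (nat_lit 440) (nat_lit 370) (nat_lit 210))))))))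
noncomputable def xc176 : XT := (XT.nd (nat_lit 47892) (nat_lit 0) (nat_lit 2432) (XT.nd (nat_lit 702) (nat_lit 152) (nat_lit 0) (XT.nd (nat_lit 312) (nat_lit 0) (nat_lit 0) (XT.nd (nat_lit 156) (nat_lit 0) (nat_lit 0) (XT.nd (nat_lit 78) (nat_lit 76) (nat_lit 0) (XT.lf (nat_lit 0) (nat_lit 1042144595978) (nat_lit 152) (nat_lit 170464488473) (nat_lit 0) (nat_lit 927071247838) (nat_lit 4) (nat_lit 5) (nat_lit 6) (nat_lit 4) (nat_lit 4) (nat_lit 4) (nat_lit 441) (nat_lit 370) (nat_lit 209)) (XT.lf (nat_lit 0) (nat_lit 92405327005) (nat_lit 76) (nat_lit 1161260377602) (nat_lit 76) (nat_lit 1046186994028) (nat_lit 3) (nat_lit 4) (nat_lit 4) (nat_lit 5) (nat_lit 4) (nat_lit 4) (nat_lit 442) (nat_lit 370) (nat_lit 208))) (XT.nd (nat_lit 78) (nat_lit 0) (nat_lit 0) (XT.lf (nat_lit 0) (nat_lit 385999024499) (nat_lit 76) (nat_lit 1100770194411) (nat_lit 76) (nat_lit 985696778027) (nat_lit 3) (nat_lit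 4) (nat_lit 4) (nat_lit 5) (nat_lit 4) (nat_lit 4) (nat_lit 443) (nat_lit 370) (nat_lit 207)) (XT.lf (nat_lit 0) (nat_lit 703080060639) (nat_lit 76) (nat_lit 1035440875737) (nat_lit 76) (nat_lit 920367428975) (nat_lit 3) (nat_lit 4) (nat_lit 4) (nat_lit 5) (nat_lit 4) (nat_lit 4) (nat_lit 444) (nat_lit 370) (nat_lit 206)))) (XT.nd (nat_lit 156) (nat_lit 0) (nat_lit 0) (XT.nd (nat_lit 78) (nat_lit 0) (nat_lit 0) (XT.lf (nat_lit 0) (nat_lit 1045527434157) (nat_lit 76) (nat_lit 964885284876) (nat_lit 76) (nat_lit 849811809986) (nat_lit 3) (nat_lit 4) (nat_lit 4) (nat_lit 5) (nat_lit 4) (nat_lit 4) (nat_lit 445) (nat_lit 370) (nat_lit 205)) (XT.lf (nat_lit 0) (nat_lit 1415370462823) (nat_lit 76) (nat_lit 888685314625) (nat_lit 76) (nat_lit 773611813690) (nat_lit 3) (nat_lit 4) (nat_lit 4) (nat_lit 5) (nat_lit 4) (nat_lit 4) (nat_lit 446) (nat_lit 370) (nat_lit 204))) (XT.nd (nat_lit 78) (nat_lit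 0) (nat_lit 0) (XT.lf (nat_lit 0) (nat_lit 1814800809027) (nat_lit 76) (nat_lit 806389409604) (nat_lit 76) (nat_lit 691315884553) (nat_lit 3) (nat_lit 4) (nat_lit 4) (nat_lit 5) (nat_lit 4) (nat_lit 4) (nat_lit 447) (nat_lit 370) (nat_lit 203)) (XT.nd (nat_lit 78) (nat_lit 0) (nat_lit 0) (XT.lf (nat_lit 0) (nat_lit 2246185467415) (nat_lit 76) (nat_lit 717509890375) (nat_lit 76) (nat_lit 602436342994) (nat_lit 3) (nat_lit 4) (nat_lit 4) (nat_lit 5) (nat_lit 4) (nat_lit 4) (nat_lit 448) (nat_lit 370) (nat_lit 202)) (XT.lf (nat_lit 0) (nat_lit 2712080791518) (nat_lit 76) (nat_lit 621520063491) (nat_lit 76) (nat_lit 506446495435) (nat_lit 3) (nat_lit 4) (nat_lit 4) (nat_lit 5) (nat_lit 4) (nat_lit 4) (nat_lit 449) (nat_lit 370) (nat_lit 201)))))) (XT.nd (nat_lit 390) (nat_lit 0) (nat_lit 0) (XT.nd (nat_lit 156) (nat_lit 152) (nat_lit 0) (XT.nd (nat_lit 78) (nat_lit 0) (nat_lit 0) (XT.lf (nat_lit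 0) (nat_lit 3215247642515) (nat_lit 76) (nat_lit 517851100348) (nat_lit 76) (nat_lit 402777513149) (nat_lit 3) (nat_lit 4) (nat_lit 4) (nat_lit 5) (nat_lit 4) (nat_lit 4) (nat_lit 450) (nat_lit 370) (nat_lit 200)) (XT.lf (nat_lit 0) (nat_lit 3758667749894) (nat_lit 76) (nat_lit 405888666351) (nat_lit 76) (nat_lit 290815061426) (nat_lit 3) (nat_lit 4) (nat_lit 4) (nat_lit 5) (nat_lit 4) (nat_lit 4) (nat_lit 451) (nat_lit 370) (nat_lit 199))) (XT.nd (nat_lit 78) (nat_lit 152) (nat_lit 0) (XT.lf (nat_lit 0) (nat_lit 4345561380957) (nat_lit 76) (nat_lit 284969280408) (nat_lit 76) (nat_lit 169895659070) (nat_lit 3) (nat_lit 4) (nat_lit 4) (nat_lit 5) (nat_lit 4) (nat_lit 4) (nat_lit 452) (nat_lit 370) (nat_lit 198)) (XT.nd (nat_lit 78) (nat_lit 152) (nat_lit 0) (XT.lf (nat_lit 0) (nat_lit 4979406423890) (nat_lit 76) (nat_lit 154376383196) (nat_lit 76) (nat_lit 39302746661) (nat_lit 3) (nat_lit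 4) (nat_lit 4) (nat_lit 5) (nat_lit 4) (nat_lit 4) (nat_lit 453) (nat_lit 370) (nat_lit 197)) (XT.lf (nat_lit 0) (nat_lit 90480899112) (nat_lit 76) (nat_lit 8343403636) (nat_lit 152) (nat_lit 5476363397182) (nat_lit 1) (nat_lit 5) (nat_lit 2) (nat_lit 5) (nat_lit 3) (nat_lit 4) (nat_lit 454) (nat_lit 370) (nat_lit 196))))) (XT.nd (nat_lit 46566) (nat_lit 0) (nat_lit 4560) (XT.nd (nat_lit 78) (nat_lit 0) (nat_lit 0) (XT.lf (nat_lit 0) (nat_lit 254903592225) (nat_lit 152) (nat_lit 5605396818247) (nat_lit 0) (nat_lit 148353903674) (nat_lit 1) (nat_lit 5) (nat_lit 3) (nat_lit 4) (nat_lit 1) (nat_lit 4) (nat_lit 455) (nat_lit 370) (nat_lit 195)) (XT.lf (nat_lit 0) (nat_lit 423685902425) (nat_lit 152) (nat_lit 5735958818167) (nat_lit 0) (nat_lit 317136202703) (nat_lit 1) (nat_lit 5) (nat_lit 3) (nat_lit 4) (nat_lit 1) (nat_lit 4) (nat_lit 456) (nat_lit 370) (nat_lit 194))) (XT.nd (nat_lit 78)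 (nat_lit 0) (nat_lit 0) (XT.lf (nat_lit 0) (nat_lit 18591962802) (nat_lit 532) (nat_lit 1765870353) (nat_lit 532) (nat_lit 1765870353) (nat_lit 61) (nat_lit 3) (nat_lit 68) (nat_lit 3) (nat_lit 68) (nat_lit 5) (nat_lit 371) (nat_lit 371) (nat_lit 278)) (XT.nd (nat_lit 78) (nat_lit 0) (nat_lit 76) (XT.lf (nat_lit 76) (nat_lit 18735238497) (nat_lit 0) (nat_lit 20417831365) (nat_lit 532) (nat_lit 6825652342) (nat_lit 62) (nat_lit 5) (nat_lit 61) (nat_lit 3) (nat_lit 68) (nat_lit 5) (nat_lit 372) (nat_lit 371) (nat_lit 277)) (XT.lf (nat_lit 0) (nat_lit 41411853748) (nat_lit 456) (nat_lit 4897130527) (nat_lit 532) (nat_lit 1528993498) (nat_lit 62) (nat_lit 5) (nat_lit 68) (nat_lit 5) (nat_lit 69) (nat_lit 5) (nat_lit 373) (nat_lit 371) (nat_lit 276))))))) (XT.nd (nat_lit 702) (nat_lit 1216) (nat_lit 0) (XT.nd (nat_lit 312) (nat_lit 532) (nat_lit 0) (XT.nd (nat_lit 156) (nat_lit 456) (nat_lit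 0) (XT.nd (nat_lit 78) (nat_lit 0) (nat_lit 0) (XT.lf (nat_lit 76) (nat_lit 19689639242) (nat_lit 0) (nat_lit 25162671353) (nat_lit 532) (nat_lit 4913589104) (nat_lit 63) (nat_lit 5) (nat_lit 62) (nat_lit 5) (nat_lit 69) (nat_lit 5) (nat_lit 374) (nat_lit 371) (nat_lit 275)) (XT.lf (nat_lit 76) (nat_lit 46519989318) (nat_lit 0) (nat_lit 2179181470) (nat_lit 532) (nat_lit 3138394516) (nat_lit 63) (nat_lit 5) (nat_lit 62) (nat_lit 5) (nat_lit 69) (nat_lit 5) (nat_lit 375) (nat_lit 371) (nat_lit 274))) (XT.nd (nat_lit 78) (nat_lit 532) (nat_lit 0) (XT.lf (nat_lit 76) (nat_lit 21974542777) (nat_lit 0) (nat_lit 31949781689) (nat_lit 532) (nat_lit 64999144) (nat_lit 64) (nat_lit 5) (nat_lit 63) (nat_lit 5) (nat_lit 70) (nat_lit 5) (nat_lit 376) (nat_lit 371) (nat_lit 273)) (XT.lf (nat_lit 0) (nat_lit 3294814532) (nat_lit 532) (nat_lit 4689821628) (nat_lit 608) (nat_lit 48306060732) (nat_lit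 56) (nat_lit 5) (nat_lit 63) (nat_lit 5) (nat_lit 64) (nat_lit 5) (nat_lit 377) (nat_lit 371) (nat_lit 272)))) (XT.nd (nat_lit 156) (nat_lit 608) (nat_lit 0) (XT.nd (nat_lit 78) (nat_lit 0) (nat_lit 0) (XT.lf (nat_lit 0) (nat_lit 7992755077) (nat_lit 532) (nat_lit 33048364190) (nat_lit 76) (nat_lit 17649099837) (nat_lit 57) (nat_lit 5) (nat_lit 64) (nat_lit 5) (nat_lit 58) (nat_lit 5) (nat_lit 378) (nat_lit 371) (nat_lit 271)) (XT.lf (nat_lit 0) (nat_lit 13403360429) (nat_lit 532) (nat_lit 2817403066) (nat_lit 76) (nat_lit 45033995456) (nat_lit 57) (nat_lit 5) (nat_lit 64) (nat_lit 5) (nat_lit 58) (nat_lit 5) (nat_lit 379) (nat_lit 371) (nat_lit 270))) (XT.nd (nat_lit 78) (nat_lit 228) (nat_lit 0) (XT.lf (nat_lit 0) (nat_lit 20274236016) (nat_lit 456) (nat_lit 32837424689) (nat_lit 76) (nat_lit 10830609598) (nat_lit 52) (nat_lit 5) (nat_lit 58) (nat_lit 5) (nat_lit 53) (nat_lit 5) (nat_lit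 380) (nat_lit 371) (nat_lit 269)) (XT.nd (nat_lit 78) (nat_lit 0) (nat_lit 0) (XT.lf (nat_lit 0) (nat_lit 670746551) (nat_lit 228) (nat_lit 27538656655) (nat_lit 304) (nat_lit 38594211540) (nat_lit 49) (nat_lit 5) (nat_lit 52) (nat_lit 5) (nat_lit 53) (nat_lit 5) (nat_lit 381) (nat_lit 371) (nat_lit 268)) (XT.lf (nat_lit 0) (nat_lit 37700692081) (nat_lit 304) (nat_lit 31122283908) (nat_lit 76) (nat_lit 997187856) (nat_lit 49) (nat_lit 5) (nat_lit 53) (nat_lit 5) (nat_lit 50) (nat_lit 5) (nat_lit 382) (nat_lit 371) (nat_lit 267)))))) (XT.nd (nat_lit 390) (nat_lit 532) (nat_lit 0) (XT.nd (nat_lit 156) (nat_lit 456) (nat_lit 0) (XT.nd (nat_lit 78) (nat_lit 0) (nat_lit 0) (XT.lf (nat_lit 0) (nat_lit 6286422328) (nat_lit 228) (nat_lit 42529697594) (nat_lit 304) (nat_lit 24192731718) (nat_lit 46) (nat_lit 5) (nat_lit 49) (nat_lit 5) (nat_lit 50) (nat_lit 5) (nat_lit 383) (nat_lit 371) (nat_lit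 266)) (XT.lf (nat_lit 0) (nat_lit 48455917897) (nat_lit 228) (nat_lit 13214236912) (nat_lit 304) (nat_lit 14714531338) (nat_lit 46) (nat_lit 5) (nat_lit 49) (nat_lit 5) (nat_lit 50) (nat_lit 5) (nat_lit 384) (nat_lit 371) (nat_lit 265))) (XT.nd (nat_lit 78) (nat_lit 304) (nat_lit 0) (XT.lf (nat_lit 0) (nat_lit 14235008493) (nat_lit 152) (nat_lit 62102037971) (nat_lit 228) (nat_lit 3630779635) (nat_lit 44) (nat_lit 5) (nat_lit 46) (nat_lit 5) (nat_lit 47) (nat_lit 5) (nat_lit 385) (nat_lit 371) (nat_lit 264)) (XT.nd (nat_lit 78) (nat_lit 228) (nat_lit 0) (XT.lf (nat_lit 0) (nat_lit 9047742715) (nat_lit 228) (nat_lit 22981799104) (nat_lit 76) (nat_lit 51702010708) (nat_lit 43) (nat_lit 5) (nat_lit 46) (nat_lit 5) (nat_lit 44) (nat_lit 5) (nat_lit 386) (nat_lit 371) (nat_lit 263)) (XT.lf (nat_lit 0) (nat_lit 23156125280) (nat_lit 304) (nat_lit 63461264835) (nat_lit 76) (nat_lit 1122504806)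 (nat_lit 40) (nat_lit 5) (nat_lit 44) (nat_lit 5) (nat_lit 41) (nat_lit 5) (nat_lit 387) (nat_lit 371) (nat_lit 262))))) (XT.nd (nat_lit 156) (nat_lit 380) (nat_lit 0) (XT.nd (nat_lit 78) (nat_lit 152) (nat_lit 0) (XT.lf (nat_lit 0) (nat_lit 39868523634) (nat_lit 304) (nat_lit 16241776904) (nat_lit 76) (nat_lit 35840577582) (nat_lit 40) (nat_lit 5) (nat_lit 44) (nat_lit 5) (nat_lit 41) (nat_lit 5) (nat_lit 388) (nat_lit 371) (nat_lit 261)) (XT.lf (nat_lit 0) (nat_lit 36583693004) (nat_lit 152) (nat_lit 22212878808) (nat_lit 228) (nat_lit 37631876482) (nat_lit 38) (nat_lit 5) (nat_lit 40) (nat_lit 5) (nat_lit 41) (nat_lit 5) (nat_lit 389) (nat_lit 371) (nat_lit 260))) (XT.nd (nat_lit 78) (nat_lit 380) (nat_lit 0) (XT.lf (nat_lit 0) (nat_lit 80039566550) (nat_lit 228) (nat_lit 7029259926) (nat_lit 76) (nat_lit 14131342273) (nat_lit 38) (nat_lit 5) (nat_lit 41) (nat_lit 5) (nat_lit 39) (nat_lit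 5) (nat_lit 390) (nat_lit 371) (nat_lit 259)) (XT.nd (nat_lit 78) (nat_lit 228) (nat_lit 0) (XT.lf (nat_lit 0) (nat_lit 52036013629) (nat_lit 152) (nat_lit 52773354155) (nat_lit 228) (nat_lit 1398070520) (nat_lit 36) (nat_lit 5) (nat_lit 38) (nat_lit 5) (nat_lit 39) (nat_lit 5) (nat_lit 391) (nat_lit 371) (nat_lit 258)) (XT.lf (nat_lit 0) (nat_lit 4358112880) (nat_lit 152) (nat_lit 14890551550) (nat_lit 228) (nat_lit 92304174297) (nat_lit 33) (nat_lit 5) (nat_lit 35) (nat_lit 5) (nat_lit 36) (nat_lit 5) (nat_lit 392) (nat_lit 371) (nat_lit 257))))))))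
noncomputable def xc177 : XT := (XT.nd (nat_lit 1482) (nat_lit 760) (nat_lit 0) (XT.nd (nat_lit 702) (nat_lit 608) (nat_lit 0) (XT.nd (nat_lit 312) (nat_lit 380) (nat_lit 0) (XT.nd (nat_lit 156) (nat_lit 76) (nat_lit 0) (XT.nd (nat_lit 78) (nat_lit 152) (nat_lit 0) (XT.lf (nat_lit 0) (nat_lit 43616055007) (nat_lit 228) (nat_lit 47258825276) (nat_lit 76) (nat_lit 26276530552) (nat_lit 33) (nat_lit 5) (nat_lit 36) (nat_lit 5) (nat_lit 34) (nat_lit 5) (nat_lit 393) (nat_lit 371) (nat_lit 256)) (XT.lf (nat_lit 0) (nat_lit 17983295233) (nat_lit 152) (nat_lit 52767867281) (nat_lit 228) (nat_lit 52381240744) (nat_lit 31) (nat_lit 5) (nat_lit 33) (nat_lit 5) (nat_lit 34) (nat_lit 5) (nat_lit 394) (nat_lit 371) (nat_lit 255))) (XT.nd (nat_lit 78) (nat_lit 76) (nat_lit 0) (XT.lf (nat_lit 0) (nat_lit 91130992372) (nat_lit 152) (nat_lit 10217320650) (nat_lit 228) (nat_lit 28140263859) (nat_lit 31)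 (nat_lit 5) (nat_lit 33) (nat_lit 5) (nat_lit 34) (nat_lit 5) (nat_lit 395) (nat_lit 371) (nat_lit 254)) (XT.lf (nat_lit 0) (nat_lit 34649704333) (nat_lit 76) (nat_lit 101435489111) (nat_lit 152) (nat_lit 132694834) (nat_lit 30) (nat_lit 5) (nat_lit 31) (nat_lit 5) (nat_lit 32) (nat_lit 4) (nat_lit 396) (nat_lit 371) (nat_lit 253)))) (XT.nd (nat_lit 156) (nat_lit 152) (nat_lit 0) (XT.nd (nat_lit 78) (nat_lit 152) (nat_lit 0) (XT.lf (nat_lit 0) (nat_lit 29949529419) (nat_lit 152) (nat_lit 28740943349) (nat_lit 76) (nat_lit 84629886181) (nat_lit 29) (nat_lit 5) (nat_lit 31) (nat_lit 5) (nat_lit 30) (nat_lit 5) (nat_lit 397) (nat_lit 371) (nat_lit 252)) (XT.lf (nat_lit 0) (nat_lit 52535784028) (nat_lit 152) (nat_lit 11158085903) (nat_lit 228) (nat_lit 87195865442) (nat_lit 27) (nat_lit 5) (nat_lit 29) (nat_lit 5) (nat_lit 30) (nat_lit 5) (nat_lit 398) (nat_lit 371) (nat_lit 251))) (XT.nd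 (nat_lit 78) (nat_lit 152) (nat_lit 0) (XT.lf (nat_lit 0) (nat_lit 101909487729) (nat_lit 228) (nat_lit 18040603348) (nat_lit 76) (nat_lit 38972832808) (nat_lit 27) (nat_lit 5) (nat_lit 30) (nat_lit 5) (nat_lit 28) (nat_lit 4) (nat_lit 399) (nat_lit 371) (nat_lit 250)) (XT.nd (nat_lit 78) (nat_lit 76) (nat_lit 0) (XT.lf (nat_lit 0) (nat_lit 72008955098) (nat_lit 76) (nat_lit 73194329384) (nat_lit 152) (nat_lit 22233808985) (nat_lit 26) (nat_lit 5) (nat_lit 27) (nat_lit 5) (nat_lit 28) (nat_lit 4) (nat_lit 400) (nat_lit 371) (nat_lit 249)) (XT.lf (nat_lit 0) (nat_lit 15066782232) (nat_lit 152) (nat_lit 6687150657) (nat_lit 76) (nat_lit 154808542809) (nat_lit 25) (nat_lit 5) (nat_lit 27) (nat_lit 5) (nat_lit 26) (nat_lit 5) (nat_lit 401) (nat_lit 371) (nat_lit 248)))))) (XT.nd (nat_lit 390) (nat_lit 228) (nat_lit 0) (XT.nd (nat_lit 156) (nat_lit 152) (nat_lit 0) (XT.nd (nat_lit 78) (nat_lit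 76) (nat_lit 0) (XT.lf (nat_lit 0) (nat_lit 57278123362) (nat_lit 228) (nat_lit 93839855919) (nat_lit 76) (nat_lit 35003476918) (nat_lit 23) (nat_lit 5) (nat_lit 26) (nat_lit 5) (nat_lit 24) (nat_lit 4) (nat_lit 402) (nat_lit 371) (nat_lit 247)) (XT.lf (nat_lit 0) (nat_lit 2680802895) (nat_lit 76) (nat_lit 101002027139) (nat_lit 152) (nat_lit 92697008703) (nat_lit 22) (nat_lit 5) (nat_lit 23) (nat_lit 5) (nat_lit 24) (nat_lit 4) (nat_lit 403) (nat_lit 371) (nat_lit 246))) (XT.nd (nat_lit 78) (nat_lit 152) (nat_lit 0) (XT.lf (nat_lit 0) (nat_lit 112258756235) (nat_lit 76) (nat_lit 44106285636) (nat_lit 152) (nat_lit 50888639956) (nat_lit 22) (nat_lit 5) (nat_lit 23) (nat_lit 5) (nat_lit 24) (nat_lit 4) (nat_lit 404) (nat_lit 371) (nat_lit 245)) (XT.nd (nat_lit 78) (nat_lit 76) (nat_lit 0) (XT.lf (nat_lit 0) (nat_lit 11776501007) (nat_lit 76) (nat_lit 202185024550) (nat_lit 76) (nat_lit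 4979931436) (nat_lit 21) (nat_lit 4) (nat_lit 22) (nat_lit 5) (nat_lit 22) (nat_lit 4) (nat_lit 405) (nat_lit 371) (nat_lit 244)) (XT.lf (nat_lit 0) (nat_lit 46180156864) (nat_lit 152) (nat_lit 101151198202) (nat_lit 76) (nat_lit 83842299619) (nat_lit 20) (nat_lit 5) (nat_lit 22) (nat_lit 5) (nat_lit 21) (nat_lit 4) (nat_lit 406) (nat_lit 371) (nat_lit 243))))) (XT.nd (nat_lit 156) (nat_lit 152) (nat_lit 0) (XT.nd (nat_lit 78) (nat_lit 0) (nat_lit 0) (XT.lf (nat_lit 0) (nat_lit 13909110354) (nat_lit 76) (nat_lit 87588872634) (nat_lit 152) (nat_lit 142849379357) (nat_lit 19) (nat_lit 5) (nat_lit 20) (nat_lit 5) (nat_lit 21) (nat_lit 4) (nat_lit 407) (nat_lit 371) (nat_lit 242)) (XT.lf (nat_lit 0) (nat_lit 143925835942) (nat_lit 76) (nat_lit 20080530868) (nat_lit 152) (nat_lit 94347389442) (nat_lit 19) (nat_lit 5) (nat_lit 20) (nat_lit 5) (nat_lit 21) (nat_lit 4) (nat_lit 408) (nat_lit 371)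 (nat_lit 241))) (XT.nd (nat_lit 78) (nat_lit 76) (nat_lit 0) (XT.lf (nat_lit 0) (nat_lit 10096875067) (nat_lit 76) (nat_lit 222931409849) (nat_lit 76) (nat_lit 40331347821) (nat_lit 18) (nat_lit 4) (nat_lit 19) (nat_lit 5) (nat_lit 19) (nat_lit 4) (nat_lit 409) (nat_lit 371) (nat_lit 240)) (XT.nd (nat_lit 78) (nat_lit 0) (nat_lit 0) (XT.lf (nat_lit 0) (nat_lit 20836253161) (nat_lit 152) (nat_lit 139261221265) (nat_lit 76) (nat_lit 129135380873) (nat_lit 17) (nat_lit 5) (nat_lit 19) (nat_lit 5) (nat_lit 18) (nat_lit 4) (nat_lit 410) (nat_lit 371) (nat_lit 239)) (XT.lf (nat_lit 0) (nat_lit 84717867823) (nat_lit 152) (nat_lit 6387986670) (nat_lit 76) (nat_lit 215186312218) (nat_lit 17) (nat_lit 5) (nat_lit 19) (nat_lit 5) (nat_lit 18) (nat_lit 4) (nat_lit 411) (nat_lit 371) (nat_lit 238))))))) (XT.nd (nat_lit 780) (nat_lit 228) (nat_lit 0) (XT.nd (nat_lit 390) (nat_lit 228) (nat_lit 0) (XT.nd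 (nat_lit 156) (nat_lit 228) (nat_lit 0) (XT.nd (nat_lit 78) (nat_lit 0) (nat_lit 0) (XT.lf (nat_lit 0) (nat_lit 144334509677) (nat_lit 76) (nat_lit 12846329993) (nat_lit 152) (nat_lit 167257717238) (nat_lit 16) (nat_lit 5) (nat_lit 17) (nat_lit 5) (nat_lit 18) (nat_lit 4) (nat_lit 412) (nat_lit 371) (nat_lit 237)) (XT.lf (nat_lit 0) (nat_lit 237343388434) (nat_lit 152) (nat_lit 38273683973) (nat_lit 0) (nat_lit 68267382880) (nat_lit 16) (nat_lit 5) (nat_lit 18) (nat_lit 4) (nat_lit 16) (nat_lit 4) (nat_lit 413) (nat_lit 371) (nat_lit 236))) (XT.nd (nat_lit 78) (nat_lit 152) (nat_lit 0) (XT.lf (nat_lit 0) (nat_lit 120601683581) (nat_lit 76) (nat_lit 206551016005) (nat_lit 76) (nat_lit 37474625368) (nat_lit 15) (nat_lit 4) (nat_lit 16) (nat_lit 5) (nat_lit 16) (nat_lit 4) (nat_lit 414) (nat_lit 371) (nat_lit 235)) (XT.nd (nat_lit 78) (nat_lit 76) (nat_lit 0) (XT.lf (nat_lit 0) (nat_lit 36333649233)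 (nat_lit 152) (nat_lit 93502756789) (nat_lit 76) (nat_lit 257035943457) (nat_lit 14) (nat_lit 5) (nat_lit 16) (nat_lit 5) (nat_lit 15) (nat_lit 4) (nat_lit 415) (nat_lit 371) (nat_lit 234)) (XT.lf (nat_lit 0) (nat_lit 71673294848) (nat_lit 76) (nat_lit 44072076396) (nat_lit 152) (nat_lit 294935864359) (nat_lit 13) (nat_lit 5) (nat_lit 14) (nat_lit 5) (nat_lit 15) (nat_lit 4) (nat_lit 416) (nat_lit 371) (nat_lit 233))))) (XT.nd (nat_lit 156) (nat_lit 228) (nat_lit 0) (XT.nd (nat_lit 78) (nat_lit 0) (nat_lit 0) (XT.lf (nat_lit 0) (nat_lit 205300322580) (nat_lit 152) (nat_lit 182044096642) (nat_lit 0) (nat_lit 48747190142) (nat_lit 13) (nat_lit 5) (nat_lit 15) (nat_lit 4) (nat_lit 13) (nat_lit 4) (nat_lit 417) (nat_lit 371) (nat_lit 232)) (XT.lf (nat_lit 0) (nat_lit 303164072111) (nat_lit 152) (nat_lit 13668511220) (nat_lit 0) (nat_lit 146610677591) (nat_lit 13) (nat_lit 5) (nat_lit 15) (nat_lit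 4) (nat_lit 13) (nat_lit 4) (nat_lit 418) (nat_lit 371) (nat_lit 231))) (XT.nd (nat_lit 78) (nat_lit 152) (nat_lit 0) (XT.lf (nat_lit 0) (nat_lit 177032409355) (nat_lit 76) (nat_lit 236081843018) (nat_lit 76) (nat_lit 79528205830) (nat_lit 12) (nat_lit 4) (nat_lit 13) (nat_lit 5) (nat_lit 13) (nat_lit 4) (nat_lit 419) (nat_lit 371) (nat_lit 230)) (XT.nd (nat_lit 78) (nat_lit 76) (nat_lit 0) (XT.lf (nat_lit 0) (nat_lit 7681654576) (nat_lit 152) (nat_lit 140576020361) (nat_lit 76) (nat_lit 375874484444) (nat_lit 11) (nat_lit 5) (nat_lit 13) (nat_lit 5) (nat_lit 12) (nat_lit 4) (nat_lit 420) (nat_lit 371) (nat_lit 229)) (XT.lf (nat_lit 0) (nat_lit 48837568657) (nat_lit 76) (nat_lit 49908411431) (nat_lit 152) (nat_lit 459135861992) (nat_lit 10) (nat_lit 5) (nat_lit 11) (nat_lit 5) (nat_lit 12) (nat_lit 4) (nat_lit 421) (nat_lit 371) (nat_lit 228)))))) (XT.nd (nat_lit 390) (nat_lit 152) (nat_lit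 0) (XT.nd (nat_lit 156) (nat_lit 76) (nat_lit 0) (XT.nd (nat_lit 78) (nat_lit 0) (nat_lit 0) (XT.lf (nat_lit 0) (nat_lit 202392832652) (nat_lit 152) (nat_lit 334079694180) (nat_lit 0) (nat_lit 57435182128) (nat_lit 10) (nat_lit 5) (nat_lit 12) (nat_lit 4) (nat_lit 10) (nat_lit 4) (nat_lit 422) (nat_lit 371) (nat_lit 227)) (XT.lf (nat_lit 0) (nat_lit 315627498349) (nat_lit 152) (nat_lit 146414779017) (nat_lit 0) (nat_lit 170669682669) (nat_lit 10) (nat_lit 5) (nat_lit 12) (nat_lit 4) (nat_lit 10) (nat_lit 4) (nat_lit 423) (nat_lit 371) (nat_lit 226))) (XT.nd (nat_lit 78) (nat_lit 0) (nat_lit 0) (XT.lf (nat_lit 0) (nat_lit 59225561390) (nat_lit 76) (nat_lit 380119513711) (nat_lit 76) (nat_lit 235161545110) (nat_lit 9) (nat_lit 4) (nat_lit 10) (nat_lit 5) (nat_lit 10) (nat_lit 4) (nat_lit 424) (nat_lit 371) (nat_lit 225)) (XT.nd (nat_lit 78) (nat_lit 0) (nat_lit 0) (XT.lf (nat_lit 0) (nat_lit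 289643408744) (nat_lit 76) (nat_lit 287319657032) (nat_lit 76) (nat_lit 142361546837) (nat_lit 9) (nat_lit 4) (nat_lit 10) (nat_lit 5) (nat_lit 10) (nat_lit 4) (nat_lit 425) (nat_lit 371) (nat_lit 224)) (XT.lf (nat_lit 0) (nat_lit 538494259346) (nat_lit 76) (nat_lit 187096021780) (nat_lit 76) (nat_lit 42137780479) (nat_lit 9) (nat_lit 4) (nat_lit 10) (nat_lit 5) (nat_lit 10) (nat_lit 4) (nat_lit 426) (nat_lit 371) (nat_lit 223))))) (XT.nd (nat_lit 156) (nat_lit 0) (nat_lit 0) (XT.nd (nat_lit 78) (nat_lit 76) (nat_lit 0) (XT.lf (nat_lit 0) (nat_lit 62796899153) (nat_lit 152) (nat_lit 14340812455) (nat_lit 76) (nat_lit 742738907241) (nat_lit 8) (nat_lit 5) (nat_lit 10) (nat_lit 5) (nat_lit 9) (nat_lit 4) (nat_lit 427) (nat_lit 371) (nat_lit 222)) (XT.lf (nat_lit 0) (nat_lit 180506190123) (nat_lit 152) (nat_lit 648785421975) (nat_lit 0) (nat_lit 46285379847) (nat_lit 7) (nat_lit 5) (nat_lit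 9) (nat_lit 4) (nat_lit 7) (nat_lit 4) (nat_lit 428) (nat_lit 371) (nat_lit 221))) (XT.nd (nat_lit 78) (nat_lit 0) (nat_lit 0) (XT.lf (nat_lit 0) (nat_lit 310037901116) (nat_lit 152) (nat_lit 449686045184) (nat_lit 0) (nat_lit 175816994473) (nat_lit 7) (nat_lit 5) (nat_lit 9) (nat_lit 4) (nat_lit 7) (nat_lit 4) (nat_lit 429) (nat_lit 371) (nat_lit 220)) (XT.nd (nat_lit 78) (nat_lit 0) (nat_lit 0) (XT.lf (nat_lit 0) (nat_lit 449931975002) (nat_lit 152) (nat_lit 234659065316) (nat_lit 0) (nat_lit 315710979131) (nat_lit 7) (nat_lit 5) (nat_lit 9) (nat_lit 4) (nat_lit 7) (nat_lit 4) (nat_lit 430) (nat_lit 371) (nat_lit 219)) (XT.lf (nat_lit 0) (nat_lit 601017413700) (nat_lit 152) (nat_lit 2430248415) (nat_lit 0) (nat_lit 466796335210) (nat_lit 7) (nat_lit 5) (nat_lit 9) (nat_lit 4) (nat_lit 7) (nat_lit 4) (nat_lit 431) (nat_lit 371) (nat_lit 218))))))))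
noncomputable def xc178 : XT := (XT.nd (nat_lit 1482) (nat_lit 152) (nat_lit 0) (XT.nd (nat_lit 702) (nat_lit 76) (nat_lit 0) (XT.nd (nat_lit 312) (nat_lit 152) (nat_lit 0) (XT.nd (nat_lit 156) (nat_lit 0) (nat_lit 0) (XT.nd (nat_lit 78) (nat_lit 0) (nat_lit 0) (XT.lf (nat_lit 0) (nat_lit 261455646629) (nat_lit 76) (nat_lit 509021906289) (nat_lit 76) (nat_lit 374800751300) (nat_lit 6) (nat_lit 4) (nat_lit 7) (nat_lit 5) (nat_lit 7) (nat_lit 4) (nat_lit 432) (nat_lit 371) (nat_lit 217)) (XT.lf (nat_lit 0) (nat_lit 546590333639) (nat_lit 76) (nat_lit 406970471843) (nat_lit 76) (nat_lit 272749246022) (nat_lit 6) (nat_lit 4) (nat_lit 7) (nat_lit 5) (nat_lit 7) (nat_lit 4) (nat_lit 433) (nat_lit 371) (nat_lit 216))) (XT.nd (nat_lit 78) (nat_lit 0) (nat_lit 0) (XT.lf (nat_lit 0) (nat_lit 854535527072) (nat_lit 76) (nat_lit 296755056834) (nat_lit 76) (nat_lit 162533765428) (nat_lit 6) (nat_lit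 4) (nat_lit 7) (nat_lit 5) (nat_lit 7) (nat_lit 4) (nat_lit 434) (nat_lit 371) (nat_lit 215)) (XT.lf (nat_lit 0) (nat_lit 1187116087335) (nat_lit 76) (nat_lit 177722532879) (nat_lit 76) (nat_lit 43501180745) (nat_lit 6) (nat_lit 4) (nat_lit 7) (nat_lit 5) (nat_lit 7) (nat_lit 4) (nat_lit 435) (nat_lit 371) (nat_lit 214)))) (XT.nd (nat_lit 156) (nat_lit 0) (nat_lit 0) (XT.nd (nat_lit 78) (nat_lit 0) (nat_lit 0) (XT.lf (nat_lit 0) (nat_lit 35622813651) (nat_lit 76) (nat_lit 46033062317) (nat_lit 152) (nat_lit 1428528439770) (nat_lit 4) (nat_lit 5) (nat_lit 5) (nat_lit 5) (nat_lit 6) (nat_lit 4) (nat_lit 436) (nat_lit 371) (nat_lit 213)) (XT.lf (nat_lit 0) (nat_lit 222994351404) (nat_lit 152) (nat_lit 1297694903037) (nat_lit 0) (nat_lit 98715221379) (nat_lit 4) (nat_lit 5) (nat_lit 6) (nat_lit 4) (nat_lit 4) (nat_lit 4) (nat_lit 437) (nat_lit 371) (nat_lit 212))) (XT.nd (nat_lit 78) (nat_lit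 0) (nat_lit 0) (XT.lf (nat_lit 0) (nat_lit 376835459803) (nat_lit 152) (nat_lit 1107874859378) (nat_lit 0) (nat_lit 252556285142) (nat_lit 4) (nat_lit 5) (nat_lit 6) (nat_lit 4) (nat_lit 4) (nat_lit 4) (nat_lit 438) (nat_lit 371) (nat_lit 211)) (XT.nd (nat_lit 78) (nat_lit 0) (nat_lit 0) (XT.lf (nat_lit 0) (nat_lit 542983755924) (nat_lit 152) (nat_lit 902869415338) (nat_lit 0) (nat_lit 418704539933) (nat_lit 4) (nat_lit 5) (nat_lit 6) (nat_lit 4) (nat_lit 4) (nat_lit 4) (nat_lit 439) (nat_lit 371) (nat_lit 210)) (XT.lf (nat_lit 0) (nat_lit 722423822261) (nat_lit 152) (nat_lit 681463723841) (nat_lit 0) (nat_lit 598144568002) (nat_lit 4) (nat_lit 5) (nat_lit 6) (nat_lit 4) (nat_lit 4) (nat_lit 4) (nat_lit 440) (nat_lit 371) (nat_lit 209)))))) (XT.nd (nat_lit 390) (nat_lit 0) (nat_lit 0) (XT.nd (nat_lit 156) (nat_lit 76) (nat_lit 0) (XT.nd (nat_lit 78) (nat_lit 0) (nat_lit 0) (XT.lf (nat_lit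 0) (nat_lit 916219007356) (nat_lit 152) (nat_lit 442345751159) (nat_lit 0) (nat_lit 791939717663) (nat_lit 4) (nat_lit 5) (nat_lit 6) (nat_lit 4) (nat_lit 4) (nat_lit 4) (nat_lit 441) (nat_lit 371) (nat_lit 208)) (XT.lf (nat_lit 0) (nat_lit 1125517727121) (nat_lit 152) (nat_lit 184098501898) (nat_lit 0) (nat_lit 1001238404618) (nat_lit 4) (nat_lit 5) (nat_lit 6) (nat_lit 4) (nat_lit 4) (nat_lit 4) (nat_lit 442) (nat_lit 371) (nat_lit 207))) (XT.nd (nat_lit 78) (nat_lit 0) (nat_lit 0) (XT.lf (nat_lit 0) (nat_lit 99800819181) (nat_lit 76) (nat_lit 1254159663184) (nat_lit 76) (nat_lit 1129880310302) (nat_lit 3) (nat_lit 4) (nat_lit 4) (nat_lit 5) (nat_lit 4) (nat_lit 4) (nat_lit 443) (nat_lit 371) (nat_lit 206)) (XT.nd (nat_lit 78) (nat_lit 0) (nat_lit 0) (XT.lf (nat_lit 0) (nat_lit 416881785363) (nat_lit 76) (nat_lit 1188830379754) (nat_lit 76) (nat_lit 1064550998744) (nat_lit 3) (nat_lit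 4) (nat_lit 4) (nat_lit 5) (nat_lit 4) (nat_lit 4) (nat_lit 444) (nat_lit 371) (nat_lit 205)) (XT.lf (nat_lit 0) (nat_lit 759329094105) (nat_lit 76) (nat_lit 1118274821528) (nat_lit 76) (nat_lit 993995414473) (nat_lit 3) (nat_lit 4) (nat_lit 4) (nat_lit 5) (nat_lit 4) (nat_lit 4) (nat_lit 445) (nat_lit 371) (nat_lit 204))))) (XT.nd (nat_lit 156) (nat_lit 0) (nat_lit 0) (XT.nd (nat_lit 78) (nat_lit 0) (nat_lit 0) (XT.lf (nat_lit 0) (nat_lit 1129172062793) (nat_lit 76) (nat_lit 1042074881493) (nat_lit 76) (nat_lit 917795450322) (nat_lit 3) (nat_lit 4) (nat_lit 4) (nat_lit 5) (nat_lit 4) (nat_lit 4) (nat_lit 446) (nat_lit 371) (nat_lit 203)) (XT.lf (nat_lit 0) (nat_lit 1528602353462) (nat_lit 76) (nat_lit 959779004449) (nat_lit 76) (nat_lit 835499550949) (nat_lit 3) (nat_lit 4) (nat_lit 4) (nat_lit 5) (nat_lit 4) (nat_lit 4) (nat_lit 447) (nat_lit 371) (nat_lit 202))) (XT.nd (nat_lit 78)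 (nat_lit 0) (nat_lit 0) (XT.lf (nat_lit 0) (nat_lit 1959986960429) (nat_lit 76) (nat_lit 870899511126) (nat_lit 76) (nat_lit 746620036950) (nat_lit 3) (nat_lit 4) (nat_lit 4) (nat_lit 5) (nat_lit 4) (nat_lit 4) (nat_lit 448) (nat_lit 371) (nat_lit 201)) (XT.nd (nat_lit 78) (nat_lit 0) (nat_lit 0) (XT.lf (nat_lit 0) (nat_lit 2425882236919) (nat_lit 76) (nat_lit 774909708228) (nat_lit 76) (nat_lit 650630214909) (nat_lit 3) (nat_lit 4) (nat_lit 4) (nat_lit 5) (nat_lit 4) (nat_lit 4) (nat_lit 449) (nat_lit 371) (nat_lit 200)) (XT.lf (nat_lit 0) (nat_lit 2929049043830) (nat_lit 76) (nat_lit 671240767296) (nat_lit 76) (nat_lit 546961256251) (nat_lit 3) (nat_lit 4) (nat_lit 4) (nat_lit 5) (nat_lit 4) (nat_lit 4) (nat_lit 450) (nat_lit 371) (nat_lit 199))))))) (XT.nd (nat_lit 47268) (nat_lit 0) (nat_lit 3420) (XT.nd (nat_lit 390) (nat_lit 0) (nat_lit 0) (XT.nd (nat_lit 156) (nat_lit 152) (nat_lit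 0) (XT.nd (nat_lit 78) (nat_lit 0) (nat_lit 0) (XT.lf (nat_lit 0) (nat_lit 3472469110389) (nat_lit 76) (nat_lit 559278353863) (nat_lit 76) (nat_lit 434998826405) (nat_lit 3) (nat_lit 4) (nat_lit 4) (nat_lit 5) (nat_lit 4) (nat_lit 4) (nat_lit 451) (nat_lit 371) (nat_lit 198)) (XT.lf (nat_lit 0) (nat_lit 4059362703657) (nat_lit 76) (nat_lit 438358986961) (nat_lit 76) (nat_lit 314079444307) (nat_lit 3) (nat_lit 4) (nat_lit 4) (nat_lit 5) (nat_lit 4) (nat_lit 4) (nat_lit 452) (nat_lit 371) (nat_lit 197))) (XT.nd (nat_lit 78) (nat_lit 152) (nat_lit 0) (XT.lf (nat_lit 0) (nat_lit 4693207711593) (nat_lit 76) (nat_lit 307766107380) (nat_lit 76) (nat_lit 183486550654) (nat_lit 3) (nat_lit 4) (nat_lit 4) (nat_lit 5) (nat_lit 4) (nat_lit 4) (nat_lit 453) (nat_lit 371) (nat_lit 196)) (XT.nd (nat_lit 78) (nat_lit 152) (nat_lit 0) (XT.lf (nat_lit 0) (nat_lit 5377760252763) (nat_lit 76) (nat_lit 166725831388)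 (nat_lit 76) (nat_lit 42446261633) (nat_lit 3) (nat_lit 4) (nat_lit 4) (nat_lit 5) (nat_lit 4) (nat_lit 4) (nat_lit 454) (nat_lit 371) (nat_lit 195)) (XT.lf (nat_lit 0) (nat_lit 97720687132) (nat_lit 76) (nat_lit 9010211401) (nat_lit 152) (nat_lit 5914471765213) (nat_lit 1) (nat_lit 5) (nat_lit 2) (nat_lit 5) (nat_lit 3) (nat_lit 4) (nat_lit 455) (nat_lit 371) (nat_lit 194))))) (XT.nd (nat_lit 46644) (nat_lit 0) (nat_lit 4560) (XT.nd (nat_lit 46566) (nat_lit 0) (nat_lit 4560) (XT.lf (nat_lit 0) (nat_lit 275296497701) (nat_lit 152) (nat_lit 6053827311589) (nat_lit 0) (nat_lit 160222800489) (nat_lit 1) (nat_lit 5) (nat_lit 3) (nat_lit 4) (nat_lit 1) (nat_lit 4) (nat_lit 456) (nat_lit 371) (nat_lit 193)) (XT.lf (nat_lit 0) (nat_lit 20109773659) (nat_lit 532) (nat_lit 1890676312) (nat_lit 532) (nat_lit 1890676312) (nat_lit 61) (nat_lit 3) (nat_lit 68) (nat_lit 3) (nat_lit 68) (nat_lit 5) (nat_lit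 372) (nat_lit 372) (nat_lit 276))) (XT.nd (nat_lit 78) (nat_lit 0) (nat_lit 76) (XT.lf (nat_lit 76) (nat_lit 20266151311) (nat_lit 0) (nat_lit 22076331982) (nat_lit 532) (nat_lit 7309894376) (nat_lit 62) (nat_lit 5) (nat_lit 61) (nat_lit 3) (nat_lit 68) (nat_lit 5) (nat_lit 373) (nat_lit 372) (nat_lit 275)) (XT.nd (nat_lit 78) (nat_lit 0) (nat_lit 0) (XT.lf (nat_lit 0) (nat_lit 44777176872) (nat_lit 456) (nat_lit 5254327748) (nat_lit 532) (nat_lit 1629257607) (nat_lit 62) (nat_lit 5) (nat_lit 68) (nat_lit 5) (nat_lit 69) (nat_lit 5) (nat_lit 374) (nat_lit 372) (nat_lit 274)) (XT.lf (nat_lit 76) (nat_lit 21298508331) (nat_lit 0) (nat_lit 27191292754) (nat_lit 532) (nat_lit 5253367080) (nat_lit 63) (nat_lit 5) (nat_lit 62) (nat_lit 5) (nat_lit 69) (nat_lit 5) (nat_lit 375) (nat_lit 372) (nat_lit 273)))))) (XT.nd (nat_lit 390) (nat_lit 760) (nat_lit 0) (XT.nd (nat_lit 156) (nat_lit 456) (nat_lit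 0) (XT.nd (nat_lit 78) (nat_lit 0) (nat_lit 76) (XT.lf (nat_lit 76) (nat_lit 50272790269) (nat_lit 0) (nat_lit 2367967555) (nat_lit 532) (nat_lit 3340105751) (nat_lit 63) (nat_lit 5) (nat_lit 62) (nat_lit 5) (nat_lit 69) (nat_lit 5) (nat_lit 376) (nat_lit 372) (nat_lit 272)) (XT.lf (nat_lit 76) (nat_lit 23766869953) (nat_lit 0) (nat_lit 34514176747) (nat_lit 532) (nat_lit 23950065) (nat_lit 64) (nat_lit 5) (nat_lit 63) (nat_lit 5) (nat_lit 70) (nat_lit 5) (nat_lit 377) (nat_lit 372) (nat_lit 271))) (XT.nd (nat_lit 78) (nat_lit 0) (nat_lit 76) (XT.lf (nat_lit 0) (nat_lit 3599080665) (nat_lit 532) (nat_lit 5031003471) (nat_lit 608) (nat_lit 52160570621) (nat_lit 56) (nat_lit 5) (nat_lit 63) (nat_lit 5) (nat_lit 64) (nat_lit 5) (nat_lit 378) (nat_lit 372) (nat_lit 270)) (XT.nd (nat_lit 78) (nat_lit 0) (nat_lit 0) (XT.lf (nat_lit 0) (nat_lit 8670512153) (nat_lit 532) (nat_lit 35655844945)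 (nat_lit 76) (nat_lit 19055972407) (nat_lit 57) (nat_lit 5) (nat_lit 64) (nat_lit 5) (nat_lit 58) (nat_lit 5) (nat_lit 379) (nat_lit 372) (nat_lit 269)) (XT.lf (nat_lit 0) (nat_lit 14511126180) (nat_lit 532) (nat_lit 3009102366) (nat_lit 76) (nat_lit 48632034152) (nat_lit 57) (nat_lit 5) (nat_lit 64) (nat_lit 5) (nat_lit 58) (nat_lit 5) (nat_lit 380) (nat_lit 372) (nat_lit 268))))) (XT.nd (nat_lit 156) (nat_lit 228) (nat_lit 0) (XT.nd (nat_lit 78) (nat_lit 228) (nat_lit 0) (XT.lf (nat_lit 0) (nat_lit 21929812557) (nat_lit 456) (nat_lit 35428832003) (nat_lit 76) (nat_lit 11696281895) (nat_lit 52) (nat_lit 5) (nat_lit 58) (nat_lit 5) (nat_lit 53) (nat_lit 5) (nat_lit 381) (nat_lit 372) (nat_lit 267)) (XT.lf (nat_lit 0) (nat_lit 759092009) (nat_lit 228) (nat_lit 29739043628) (nat_lit 304) (nat_lit 41647177968) (nat_lit 49) (nat_lit 5) (nat_lit 52) (nat_lit 5) (nat_lit 53) (nat_lit 5) (nat_lit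 382) (nat_lit 372) (nat_lit 266))) (XT.nd (nat_lit 78) (nat_lit 228) (nat_lit 0) (XT.lf (nat_lit 0) (nat_lit 40746418969) (nat_lit 304) (nat_lit 33577612004) (nat_lit 76) (nat_lit 1079342714) (nat_lit 49) (nat_lit 5) (nat_lit 53) (nat_lit 5) (nat_lit 50) (nat_lit 5) (nat_lit 383) (nat_lit 372) (nat_lit 265)) (XT.nd (nat_lit 78) (nat_lit 0) (nat_lit 0) (XT.lf (nat_lit 0) (nat_lit 6822918461) (nat_lit 228) (nat_lit 45926772341) (nat_lit 304) (nat_lit 26097579110) (nat_lit 46) (nat_lit 5) (nat_lit 49) (nat_lit 5) (nat_lit 50) (nat_lit 5) (nat_lit 384) (nat_lit 372) (nat_lit 264)) (XT.lf (nat_lit 0) (nat_lit 52363486095) (nat_lit 228) (nat_lit 14266467476) (nat_lit 304) (nat_lit 15863387229) (nat_lit 46) (nat_lit 5) (nat_lit 49) (nat_lit 5) (nat_lit 50) (nat_lit 5) (nat_lit 385) (nat_lit 372) (nat_lit 263))))))))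
noncomputable def xc179 : XT := (XT.nd (nat_lit 1482) (nat_lit 912) (nat_lit 0) (XT.nd (nat_lit 702) (nat_lit 836) (nat_lit 0) (XT.nd (nat_lit 312) (nat_lit 532) (nat_lit 0) (XT.nd (nat_lit 156) (nat_lit 228) (nat_lit 0) (XT.nd (nat_lit 78) (nat_lit 76) (nat_lit 0) (XT.lf (nat_lit 0) (nat_lit 15406068232) (nat_lit 152) (nat_lit 67063073727) (nat_lit 228) (nat_lit 3894076232) (nat_lit 44) (nat_lit 5) (nat_lit 46) (nat_lit 5) (nat_lit 47) (nat_lit 5) (nat_lit 386) (nat_lit 372) (nat_lit 262)) (XT.lf (nat_lit 0) (nat_lit 9795457347) (nat_lit 228) (nat_lit 24789195146) (nat_lit 76) (nat_lit 55843492513) (nat_lit 43) (nat_lit 5) (nat_lit 46) (nat_lit 5) (nat_lit 44) (nat_lit 5) (nat_lit 387) (nat_lit 372) (nat_lit 261))) (XT.nd (nat_lit 78) (nat_lit 0) (nat_lit 0) (XT.lf (nat_lit 0) (nat_lit 25031651115) (nat_lit 304) (nat_lit 68506140115) (nat_lit 76) (nat_lit 1219433801) (nat_lit 40) (nat_lit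 5) (nat_lit 44) (nat_lit 5) (nat_lit 41) (nat_lit 5) (nat_lit 388) (nat_lit 372) (nat_lit 260)) (XT.lf (nat_lit 0) (nat_lit 43079334981) (nat_lit 304) (nat_lit 17511465439) (nat_lit 76) (nat_lit 38714424354) (nat_lit 40) (nat_lit 5) (nat_lit 44) (nat_lit 5) (nat_lit 41) (nat_lit 5) (nat_lit 389) (nat_lit 372) (nat_lit 259)))) (XT.nd (nat_lit 156) (nat_lit 380) (nat_lit 0) (XT.nd (nat_lit 78) (nat_lit 0) (nat_lit 0) (XT.lf (nat_lit 0) (nat_lit 39539291337) (nat_lit 152) (nat_lit 23981450831) (nat_lit 228) (nat_lit 40620330458) (nat_lit 38) (nat_lit 5) (nat_lit 40) (nat_lit 5) (nat_lit 41) (nat_lit 5) (nat_lit 390) (nat_lit 372) (nat_lit 258)) (XT.lf (nat_lit 0) (nat_lit 86461850423) (nat_lit 228) (nat_lit 7563497942) (nat_lit 76) (nat_lit 15269289621) (nat_lit 38) (nat_lit 5) (nat_lit 41) (nat_lit 5) (nat_lit 39) (nat_lit 5) (nat_lit 391) (nat_lit 372) (nat_lit 257))) (XT.nd (nat_lit 78)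 (nat_lit 228) (nat_lit 0) (XT.lf (nat_lit 0) (nat_lit 56226286035) (nat_lit 152) (nat_lit 56986192294) (nat_lit 228) (nat_lit 1490072465) (nat_lit 36) (nat_lit 5) (nat_lit 38) (nat_lit 5) (nat_lit 39) (nat_lit 5) (nat_lit 392) (nat_lit 372) (nat_lit 256)) (XT.nd (nat_lit 78) (nat_lit 0) (nat_lit 0) (XT.lf (nat_lit 0) (nat_lit 4734439656) (nat_lit 152) (nat_lit 16072238240) (nat_lit 228) (nat_lit 99668926572) (nat_lit 33) (nat_lit 5) (nat_lit 35) (nat_lit 5) (nat_lit 36) (nat_lit 5) (nat_lit 393) (nat_lit 372) (nat_lit 255)) (XT.lf (nat_lit 0) (nat_lit 47122330304) (nat_lit 228) (nat_lit 51012763477) (nat_lit 76) (nat_lit 28387059786) (nat_lit 33) (nat_lit 5) (nat_lit 36) (nat_lit 5) (nat_lit 34) (nat_lit 5) (nat_lit 394) (nat_lit 372) (nat_lit 254)))))) (XT.nd (nat_lit 390) (nat_lit 380) (nat_lit 0) (XT.nd (nat_lit 156) (nat_lit 304) (nat_lit 0) (XT.nd (nat_lit 78) (nat_lit 0) (nat_lit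 0) (XT.lf (nat_lit 0) (nat_lit 19448049007) (nat_lit 152) (nat_lit 56979566289) (nat_lit 228) (nat_lit 56554061382) (nat_lit 31) (nat_lit 5) (nat_lit 33) (nat_lit 5) (nat_lit 34) (nat_lit 5) (nat_lit 395) (nat_lit 372) (nat_lit 253)) (XT.lf (nat_lit 0) (nat_lit 98445629312) (nat_lit 152) (nat_lit 11025696696) (nat_lit 228) (nat_lit 30375115873) (nat_lit 31) (nat_lit 5) (nat_lit 33) (nat_lit 5) (nat_lit 34) (nat_lit 5) (nat_lit 396) (nat_lit 372) (nat_lit 252))) (XT.nd (nat_lit 78) (nat_lit 228) (nat_lit 0) (XT.lf (nat_lit 0) (nat_lit 37446205685) (nat_lit 76) (nat_lit 109540619567) (nat_lit 152) (nat_lit 127300157) (nat_lit 30) (nat_lit 5) (nat_lit 31) (nat_lit 5) (nat_lit 32) (nat_lit 4) (nat_lit 397) (nat_lit 372) (nat_lit 251)) (XT.nd (nat_lit 78) (nat_lit 152) (nat_lit 0) (XT.lf (nat_lit 0) (nat_lit 32359574518) (nat_lit 152) (nat_lit 31016761514) (nat_lit 76) (nat_lit 91408517622)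 (nat_lit 29) (nat_lit 5) (nat_lit 31) (nat_lit 5) (nat_lit 30) (nat_lit 5) (nat_lit 398) (nat_lit 372) (nat_lit 250)) (XT.lf (nat_lit 0) (nat_lit 56761510199) (nat_lit 152) (nat_lit 12041458772) (nat_lit 228) (nat_lit 94156851231) (nat_lit 27) (nat_lit 5) (nat_lit 29) (nat_lit 5) (nat_lit 30) (nat_lit 5) (nat_lit 399) (nat_lit 372) (nat_lit 249))))) (XT.nd (nat_lit 156) (nat_lit 304) (nat_lit 0) (XT.nd (nat_lit 78) (nat_lit 76) (nat_lit 0) (XT.lf (nat_lit 0) (nat_lit 110075036086) (nat_lit 228) (nat_lit 19461875311) (nat_lit 76) (nat_lit 42098816914) (nat_lit 27) (nat_lit 5) (nat_lit 30) (nat_lit 5) (nat_lit 28) (nat_lit 4) (nat_lit 400) (nat_lit 372) (nat_lit 248)) (XT.lf (nat_lit 0) (nat_lit 77791091449) (nat_lit 76) (nat_lit 79040812922) (nat_lit 152) (nat_lit 23999162134) (nat_lit 26) (nat_lit 5) (nat_lit 27) (nat_lit 5) (nat_lit 28) (nat_lit 4) (nat_lit 401) (nat_lit 372) (nat_lit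 247))) (XT.nd (nat_lit 78) (nat_lit 228) (nat_lit 0) (XT.lf (nat_lit 0) (nat_lit 16283868950) (nat_lit 152) (nat_lit 7201665972) (nat_lit 76) (nat_lit 167200994269) (nat_lit 25) (nat_lit 5) (nat_lit 27) (nat_lit 5) (nat_lit 26) (nat_lit 5) (nat_lit 402) (nat_lit 372) (nat_lit 246)) (XT.nd (nat_lit 78) (nat_lit 76) (nat_lit 0) (XT.lf (nat_lit 0) (nat_lit 61871933435) (nat_lit 228) (nat_lit 101326399062) (nat_lit 76) (nat_lit 37811910722) (nat_lit 23) (nat_lit 5) (nat_lit 26) (nat_lit 5) (nat_lit 24) (nat_lit 4) (nat_lit 403) (nat_lit 372) (nat_lit 245)) (XT.lf (nat_lit 0) (nat_lit 2915389791) (nat_lit 76) (nat_lit 109073254489) (nat_lit 152) (nat_lit 100100682214) (nat_lit 22) (nat_lit 5) (nat_lit 23) (nat_lit 5) (nat_lit 24) (nat_lit 4) (nat_lit 404) (nat_lit 372) (nat_lit 244))))))) (XT.nd (nat_lit 780) (nat_lit 456) (nat_lit 0) (XT.nd (nat_lit 390) (nat_lit 228) (nat_lit 0) (XT.nd (nat_lit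 156) (nat_lit 152) (nat_lit 0) (XT.nd (nat_lit 78) (nat_lit 76) (nat_lit 0) (XT.lf (nat_lit 0) (nat_lit 121258088830) (nat_lit 76) (nat_lit 47626515505) (nat_lit 152) (nat_lit 54948539315) (nat_lit 22) (nat_lit 5) (nat_lit 23) (nat_lit 5) (nat_lit 24) (nat_lit 4) (nat_lit 405) (nat_lit 372) (nat_lit 243)) (XT.lf (nat_lit 0) (nat_lit 12737399199) (nat_lit 76) (nat_lit 218351276017) (nat_lit 76) (nat_lit 5367276429) (nat_lit 21) (nat_lit 4) (nat_lit 22) (nat_lit 5) (nat_lit 22) (nat_lit 4) (nat_lit 406) (nat_lit 372) (nat_lit 242))) (XT.nd (nat_lit 78) (nat_lit 76) (nat_lit 0) (XT.lf (nat_lit 0) (nat_lit 49884288653) (nat_lit 152) (nat_lit 109225391950) (nat_lit 76) (nat_lit 90557085747) (nat_lit 20) (nat_lit 5) (nat_lit 22) (nat_lit 5) (nat_lit 21) (nat_lit 4) (nat_lit 407) (nat_lit 372) (nat_lit 241)) (XT.nd (nat_lit 78) (nat_lit 0) (nat_lit 0) (XT.lf (nat_lit 0) (nat_lit 15039288074)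 (nat_lit 76) (nat_lit 94587952497) (nat_lit 152) (nat_lit 154267154311) (nat_lit 19) (nat_lit 5) (nat_lit 20) (nat_lit 5) (nat_lit 21) (nat_lit 4) (nat_lit 408) (nat_lit 372) (nat_lit 240)) (XT.lf (nat_lit 0) (nat_lit 155456059198) (nat_lit 76) (nat_lit 21679538201) (nat_lit 152) (nat_lit 101885758936) (nat_lit 19) (nat_lit 5) (nat_lit 20) (nat_lit 5) (nat_lit 21) (nat_lit 4) (nat_lit 409) (nat_lit 372) (nat_lit 239))))) (XT.nd (nat_lit 156) (nat_lit 76) (nat_lit 0) (XT.nd (nat_lit 78) (nat_lit 76) (nat_lit 0) (XT.lf (nat_lit 0) (nat_lit 10920880828) (nat_lit 76) (nat_lit 240758298627) (nat_lit 76) (nat_lit 43548530843) (nat_lit 18) (nat_lit 4) (nat_lit 19) (nat_lit 5) (nat_lit 19) (nat_lit 4) (nat_lit 410) (nat_lit 372) (nat_lit 238)) (XT.lf (nat_lit 0) (nat_lit 22511355580) (nat_lit 152) (nat_lit 150386633271) (nat_lit 76) (nat_lit 139472836541) (nat_lit 17) (nat_lit 5) (nat_lit 19)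 (nat_lit 5) (nat_lit 18) (nat_lit 4) (nat_lit 411) (nat_lit 372) (nat_lit 237))) (XT.nd (nat_lit 78) (nat_lit 76) (nat_lit 0) (XT.lf (nat_lit 0) (nat_lit 91502891846) (nat_lit 152) (nat_lit 6884686997) (nat_lit 76) (nat_lit 232407351639) (nat_lit 17) (nat_lit 5) (nat_lit 19) (nat_lit 5) (nat_lit 18) (nat_lit 4) (nat_lit 412) (nat_lit 372) (nat_lit 236)) (XT.nd (nat_lit 78) (nat_lit 0) (nat_lit 0) (XT.lf (nat_lit 0) (nat_lit 155895246055) (nat_lit 76) (nat_lit 13867428936) (nat_lit 152) (nat_lit 180630375166) (nat_lit 16) (nat_lit 5) (nat_lit 17) (nat_lit 5) (nat_lit 18) (nat_lit 4) (nat_lit 413) (nat_lit 372) (nat_lit 235)) (XT.lf (nat_lit 0) (nat_lit 256337829007) (nat_lit 152) (nat_lit 41322237953) (nat_lit 0) (nat_lit 73734585477) (nat_lit 16) (nat_lit 5) (nat_lit 18) (nat_lit 4) (nat_lit 16) (nat_lit 4) (nat_lit 414) (nat_lit 372) (nat_lit 234)))))) (XT.nd (nat_lit 390) (nat_lit 228)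 (nat_lit 0) (XT.nd (nat_lit 156) (nat_lit 76) (nat_lit 0) (XT.nd (nat_lit 78) (nat_lit 76) (nat_lit 0) (XT.lf (nat_lit 0) (nat_lit 130262821264) (nat_lit 76) (nat_lit 223068860249) (nat_lit 76) (nat_lit 40465286573) (nat_lit 15) (nat_lit 4) (nat_lit 16) (nat_lit 5) (nat_lit 16) (nat_lit 4) (nat_lit 415) (nat_lit 372) (nat_lit 233)) (XT.lf (nat_lit 0) (nat_lit 39246770068) (nat_lit 152) (nat_lit 100970597625) (nat_lit 76) (nat_lit 277604254072) (nat_lit 14) (nat_lit 5) (nat_lit 16) (nat_lit 5) (nat_lit 15) (nat_lit 4) (nat_lit 416) (nat_lit 372) (nat_lit 232))) (XT.nd (nat_lit 78) (nat_lit 0) (nat_lit 0) (XT.lf (nat_lit 0) (nat_lit 77419224732) (nat_lit 76) (nat_lit 47592019088) (nat_lit 152) (nat_lit 318523989943) (nat_lit 13) (nat_lit 5) (nat_lit 14) (nat_lit 5) (nat_lit 15) (nat_lit 4) (nat_lit 417) (nat_lit 372) (nat_lit 231)) (XT.nd (nat_lit 78) (nat_lit 0) (nat_lit 0) (XT.lf (nat_lit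 0) (nat_lit 221730258507) (nat_lit 152) (nat_lit 196596117954) (nat_lit 0) (nat_lit 52652087676) (nat_lit 13) (nat_lit 5) (nat_lit 15) (nat_lit 4) (nat_lit 13) (nat_lit 4) (nat_lit 418) (nat_lit 372) (nat_lit 230)) (XT.lf (nat_lit 0) (nat_lit 327422670213) (nat_lit 152) (nat_lit 14751338026) (nat_lit 0) (nat_lit 158344274691) (nat_lit 13) (nat_lit 5) (nat_lit 15) (nat_lit 4) (nat_lit 13) (nat_lit 4) (nat_lit 419) (nat_lit 372) (nat_lit 229))))) (XT.nd (nat_lit 156) (nat_lit 76) (nat_lit 0) (XT.nd (nat_lit 78) (nat_lit 76) (nat_lit 0) (XT.lf (nat_lit 0) (nat_lit 191205386471) (nat_lit 76) (nat_lit 254963322811) (nat_lit 76) (nat_lit 85884719240) (nat_lit 12) (nat_lit 4) (nat_lit 13) (nat_lit 5) (nat_lit 13) (nat_lit 4) (nat_lit 420) (nat_lit 372) (nat_lit 228)) (XT.lf (nat_lit 0) (nat_lit 8301238577) (nat_lit 152) (nat_lit 151812219967) (nat_lit 76) (nat_lit 405948868599) (nat_lit 11) (nat_lit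 5) (nat_lit 13) (nat_lit 5) (nat_lit 12) (nat_lit 4) (nat_lit 421) (nat_lit 372) (nat_lit 227))) (XT.nd (nat_lit 78) (nat_lit 0) (nat_lit 0) (XT.lf (nat_lit 0) (nat_lit 52754205994) (nat_lit 76) (nat_lit 53896361587) (nat_lit 152) (nat_lit 495861428345) (nat_lit 10) (nat_lit 5) (nat_lit 11) (nat_lit 5) (nat_lit 12) (nat_lit 4) (nat_lit 422) (nat_lit 372) (nat_lit 226)) (XT.nd (nat_lit 78) (nat_lit 0) (nat_lit 0) (XT.lf (nat_lit 0) (nat_lit 218588909883) (nat_lit 152) (nat_lit 360796892138) (nat_lit 0) (nat_lit 62034150872) (nat_lit 10) (nat_lit 5) (nat_lit 12) (nat_lit 4) (nat_lit 10) (nat_lit 4) (nat_lit 423) (nat_lit 372) (nat_lit 225)) (XT.lf (nat_lit 0) (nat_lit 340882004345) (nat_lit 152) (nat_lit 158119463583) (nat_lit 0) (nat_lit 184327103740) (nat_lit 10) (nat_lit 5) (nat_lit 12) (nat_lit 4) (nat_lit 10) (nat_lit 4) (nat_lit 424) (nat_lit 372) (nat_lit 224))))))))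
noncomputable def xc180 : XT := (XT.nd (nat_lit 1482) (nat_lit 228) (nat_lit 0) (XT.nd (nat_lit 702) (nat_lit 152) (nat_lit 0) (XT.nd (nat_lit 312) (nat_lit 152) (nat_lit 0) (XT.nd (nat_lit 156) (nat_lit 76) (nat_lit 0) (XT.nd (nat_lit 78) (nat_lit 0) (nat_lit 0) (XT.lf (nat_lit 0) (nat_lit 63971888924) (nat_lit 76) (nat_lit 410524978539) (nat_lit 76) (nat_lit 253969946827) (nat_lit 9) (nat_lit 4) (nat_lit 10) (nat_lit 5) (nat_lit 10) (nat_lit 4) (nat_lit 425) (nat_lit 372) (nat_lit 223)) (XT.lf (nat_lit 0) (nat_lit 312822550539) (nat_lit 76) (nat_lit 310301436753) (nat_lit 76) (nat_lit 153746283647) (nat_lit 9) (nat_lit 4) (nat_lit 10) (nat_lit 5) (nat_lit 10) (nat_lit 4) (nat_lit 426) (nat_lit 372) (nat_lit 222))) (XT.nd (nat_lit 78) (nat_lit 76) (nat_lit 0) (XT.lf (nat_lit 0) (nat_lit 581580901108) (nat_lit 76) (nat_lit 202060191632) (nat_lit 76) (nat_lit 45504926124) (nat_lit 9) (nat_lit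 4) (nat_lit 10) (nat_lit 5) (nat_lit 10) (nat_lit 4) (nat_lit 427) (nat_lit 372) (nat_lit 221)) (XT.lf (nat_lit 0) (nat_lit 67824061141) (nat_lit 152) (nat_lit 15481322408) (nat_lit 76) (nat_lit 802161091540) (nat_lit 8) (nat_lit 5) (nat_lit 10) (nat_lit 5) (nat_lit 9) (nat_lit 4) (nat_lit 428) (nat_lit 372) (nat_lit 220)))) (XT.nd (nat_lit 156) (nat_lit 76) (nat_lit 0) (XT.nd (nat_lit 78) (nat_lit 0) (nat_lit 0) (XT.lf (nat_lit 0) (nat_lit 194950079739) (nat_lit 152) (nat_lit 700681484611) (nat_lit 0) (nat_lit 49991314970) (nat_lit 7) (nat_lit 5) (nat_lit 9) (nat_lit 4) (nat_lit 7) (nat_lit 4) (nat_lit 429) (nat_lit 372) (nat_lit 219)) (XT.lf (nat_lit 0) (nat_lit 334844076174) (nat_lit 152) (nat_lit 485654659241) (nat_lit 0) (nat_lit 189885228786) (nat_lit 7) (nat_lit 5) (nat_lit 9) (nat_lit 4) (nat_lit 7) (nat_lit 4) (nat_lit 430) (nat_lit 372) (nat_lit 218))) (XT.nd (nat_lit 78) (nat_lit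 76) (nat_lit 0) (XT.lf (nat_lit 0) (nat_lit 485929443158) (nat_lit 152) (nat_lit 253425985395) (nat_lit 0) (nat_lit 340970519271) (nat_lit 7) (nat_lit 5) (nat_lit 9) (nat_lit 4) (nat_lit 7) (nat_lit 4) (nat_lit 431) (nat_lit 372) (nat_lit 217)) (XT.nd (nat_lit 78) (nat_lit 76) (nat_lit 0) (XT.lf (nat_lit 0) (nat_lit 649101501385) (nat_lit 152) (nat_lit 2619293154) (nat_lit 0) (nat_lit 504142506666) (nat_lit 7) (nat_lit 5) (nat_lit 9) (nat_lit 4) (nat_lit 7) (nat_lit 4) (nat_lit 432) (nat_lit 372) (nat_lit 216)) (XT.lf (nat_lit 0) (nat_lit 282377337415) (nat_lit 76) (nat_lit 549741040726) (nat_lit 76) (nat_lit 404781980421) (nat_lit 6) (nat_lit 4) (nat_lit 7) (nat_lit 5) (nat_lit 7) (nat_lit 4) (nat_lit 433) (nat_lit 372) (nat_lit 215)))))) (XT.nd (nat_lit 390) (nat_lit 0) (nat_lit 0) (XT.nd (nat_lit 156) (nat_lit 152) (nat_lit 0) (XT.nd (nat_lit 78) (nat_lit 0) (nat_lit 0) (XT.lf (nat_lit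 0) (nat_lit 590322411307) (nat_lit 76) (nat_lit 439525685455) (nat_lit 76) (nat_lit 294566564422) (nat_lit 6) (nat_lit 4) (nat_lit 7) (nat_lit 5) (nat_lit 7) (nat_lit 4) (nat_lit 434) (nat_lit 372) (nat_lit 214)) (XT.lf (nat_lit 0) (nat_lit 922902860884) (nat_lit 76) (nat_lit 320493216811) (nat_lit 76) (nat_lit 175534039550) (nat_lit 6) (nat_lit 4) (nat_lit 7) (nat_lit 5) (nat_lit 7) (nat_lit 4) (nat_lit 435) (nat_lit 372) (nat_lit 213))) (XT.nd (nat_lit 78) (nat_lit 152) (nat_lit 0) (XT.lf (nat_lit 0) (nat_lit 1282089533253) (nat_lit 76) (nat_lit 191938257203) (nat_lit 76) (nat_lit 46979027878) (nat_lit 6) (nat_lit 4) (nat_lit 7) (nat_lit 5) (nat_lit 7) (nat_lit 4) (nat_lit 436) (nat_lit 372) (nat_lit 212)) (XT.nd (nat_lit 78) (nat_lit 0) (nat_lit 0) (XT.lf (nat_lit 0) (nat_lit 38476802185) (nat_lit 76) (nat_lit 49713620755) (nat_lit 152) (nat_lit 1542808471690) (nat_lit 4) (nat_lit 5)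 (nat_lit 5) (nat_lit 5) (nat_lit 6) (nat_lit 4) (nat_lit 437) (nat_lit 372) (nat_lit 211)) (XT.lf (nat_lit 0) (nat_lit 240835869032) (nat_lit 152) (nat_lit 1401506532663) (nat_lit 0) (nat_lit 106614274431) (nat_lit 4) (nat_lit 5) (nat_lit 6) (nat_lit 4) (nat_lit 4) (nat_lit 4) (nat_lit 438) (nat_lit 372) (nat_lit 210))))) (XT.nd (nat_lit 156) (nat_lit 0) (nat_lit 0) (XT.nd (nat_lit 78) (nat_lit 0) (nat_lit 0) (XT.lf (nat_lit 0) (nat_lit 406984120213) (nat_lit 152) (nat_lit 1196501179039) (nat_lit 0) (nat_lit 272762487344) (nat_lit 4) (nat_lit 5) (nat_lit 6) (nat_lit 4) (nat_lit 4) (nat_lit 4) (nat_lit 439) (nat_lit 372) (nat_lit 209)) (XT.lf (nat_lit 0) (nat_lit 586424144940) (nat_lit 152) (nat_lit 975095571260) (nat_lit 0) (nat_lit 452202476637) (nat_lit 4) (nat_lit 5) (nat_lit 6) (nat_lit 4) (nat_lit 4) (nat_lit 4) (nat_lit 440) (nat_lit 372) (nat_lit 208))) (XT.nd (nat_lit 78) (nat_lit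 0) (nat_lit 0) (XT.lf (nat_lit 0) (nat_lit 780219291507) (nat_lit 152) (nat_lit 735977676095) (nat_lit 0) (nat_lit 645997590395) (nat_lit 4) (nat_lit 5) (nat_lit 6) (nat_lit 4) (nat_lit 4) (nat_lit 4) (nat_lit 441) (nat_lit 372) (nat_lit 207)) (XT.nd (nat_lit 78) (nat_lit 0) (nat_lit 0) (XT.lf (nat_lit 0) (nat_lit 989517975598) (nat_lit 152) (nat_lit 477730498610) (nat_lit 0) (nat_lit 855296244107) (nat_lit 4) (nat_lit 5) (nat_lit 6) (nat_lit 4) (nat_lit 4) (nat_lit 4) (nat_lit 442) (nat_lit 372) (nat_lit 206)) (XT.lf (nat_lit 0) (nat_lit 1215560485710) (nat_lit 152) (nat_lit 198823685159) (nat_lit 0) (nat_lit 1081338726090) (nat_lit 4) (nat_lit 5) (nat_lit 6) (nat_lit 4) (nat_lit 4) (nat_lit 4) (nat_lit 443) (nat_lit 372) (nat_lit 205))))))) (XT.nd (nat_lit 702) (nat_lit 152) (nat_lit 0) (XT.nd (nat_lit 312) (nat_lit 0) (nat_lit 0) (XT.nd (nat_lit 156) (nat_lit 0) (nat_lit 0) (XT.nd (nat_lit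 78) (nat_lit 0) (nat_lit 0) (XT.lf (nat_lit 0) (nat_lit 107787513331) (nat_lit 76) (nat_lit 1354491111971) (nat_lit 76) (nat_lit 1220269326307) (nat_lit 3) (nat_lit 4) (nat_lit 4) (nat_lit 5) (nat_lit 4) (nat_lit 4) (nat_lit 444) (nat_lit 372) (nat_lit 204)) (XT.lf (nat_lit 0) (nat_lit 450234762095) (nat_lit 76) (nat_lit 1283935583961) (nat_lit 76) (nat_lit 1149713774181) (nat_lit 3) (nat_lit 4) (nat_lit 4) (nat_lit 5) (nat_lit 4) (nat_lit 4) (nat_lit 445) (nat_lit 372) (nat_lit 203))) (XT.nd (nat_lit 78) (nat_lit 0) (nat_lit 0) (XT.lf (nat_lit 0) (nat_lit 820077675247) (nat_lit 76) (nat_lit 1207735671904) (nat_lit 76) (nat_lit 1073513839794) (nat_lit 3) (nat_lit 4) (nat_lit 4) (nat_lit 5) (nat_lit 4) (nat_lit 4) (nat_lit 446) (nat_lit 372) (nat_lit 202)) (XT.lf (nat_lit 0) (nat_lit 1219507914495) (nat_lit 76) (nat_lit 1125439820766) (nat_lit 76) (nat_lit 991217967981) (nat_lit 3) (nat_lit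 4) (nat_lit 4) (nat_lit 5) (nat_lit 4) (nat_lit 4) (nat_lit 447) (nat_lit 372) (nat_lit 201)))) (XT.nd (nat_lit 156) (nat_lit 0) (nat_lit 0) (XT.nd (nat_lit 78) (nat_lit 0) (nat_lit 0) (XT.lf (nat_lit 0) (nat_lit 1650892473850) (nat_lit 76) (nat_lit 1036560351429) (nat_lit 76) (nat_lit 902338479500) (nat_lit 3) (nat_lit 4) (nat_lit 4) (nat_lit 5) (nat_lit 4) (nat_lit 4) (nat_lit 448) (nat_lit 372) (nat_lit 200)) (XT.lf (nat_lit 0) (nat_lit 2116787706254) (nat_lit 76) (nat_lit 940570570741) (nat_lit 76) (nat_lit 806348681087) (nat_lit 3) (nat_lit 4) (nat_lit 4) (nat_lit 5) (nat_lit 4) (nat_lit 4) (nat_lit 449) (nat_lit 372) (nat_lit 199))) (XT.nd (nat_lit 78) (nat_lit 0) (nat_lit 0) (XT.lf (nat_lit 0) (nat_lit 2619954472346) (nat_lit 76) (nat_lit 836901650373) (nat_lit 76) (nat_lit 702679744306) (nat_lit 3) (nat_lit 4) (nat_lit 4) (nat_lit 5) (nat_lit 4) (nat_lit 4) (nat_lit 450) (nat_lit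 372) (nat_lit 198)) (XT.nd (nat_lit 78) (nat_lit 0) (nat_lit 0) (XT.lf (nat_lit 0) (nat_lit 3163374501108) (nat_lit 76) (nat_lit 724939255982) (nat_lit 76) (nat_lit 590717334718) (nat_lit 3) (nat_lit 4) (nat_lit 4) (nat_lit 5) (nat_lit 4) (nat_lit 4) (nat_lit 451) (nat_lit 372) (nat_lit 197)) (XT.lf (nat_lit 0) (nat_lit 3750268059379) (nat_lit 76) (nat_lit 604019906711) (nat_lit 76) (nat_lit 469797971376) (nat_lit 3) (nat_lit 4) (nat_lit 4) (nat_lit 5) (nat_lit 4) (nat_lit 4) (nat_lit 452) (nat_lit 372) (nat_lit 196)))))) (XT.nd (nat_lit 46956) (nat_lit 0) (nat_lit 4180) (XT.nd (nat_lit 156) (nat_lit 152) (nat_lit 0) (XT.nd (nat_lit 78) (nat_lit 0) (nat_lit 0) (XT.lf (nat_lit 0) (nat_lit 4384113034911) (nat_lit 76) (nat_lit 473427043455) (nat_lit 76) (nat_lit 339205095091) (nat_lit 3) (nat_lit 4) (nat_lit 4) (nat_lit 5) (nat_lit 4) (nat_lit 4) (nat_lit 453) (nat_lit 372) (nat_lit 195))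 (XT.lf (nat_lit 0) (nat_lit 5068665546077) (nat_lit 76) (nat_lit 332386782578) (nat_lit 76) (nat_lit 198164822150) (nat_lit 3) (nat_lit 4) (nat_lit 4) (nat_lit 5) (nat_lit 4) (nat_lit 4) (nat_lit 454) (nat_lit 372) (nat_lit 194))) (XT.nd (nat_lit 78) (nat_lit 152) (nat_lit 0) (XT.lf (nat_lit 0) (nat_lit 5807982200352) (nat_lit 76) (nat_lit 180063329943) (nat_lit 76) (nat_lit 45841358345) (nat_lit 3) (nat_lit 4) (nat_lit 4) (nat_lit 5) (nat_lit 4) (nat_lit 4) (nat_lit 455) (nat_lit 372) (nat_lit 193)) (XT.nd (nat_lit 46644) (nat_lit 0) (nat_lit 4560) (XT.lf (nat_lit 0) (nat_lit 105539470438) (nat_lit 76) (nat_lit 9730458589) (nat_lit 152) (nat_lit 6387628903084) (nat_lit 1) (nat_lit 5) (nat_lit 2) (nat_lit 5) (nat_lit 3) (nat_lit 4) (nat_lit 456) (nat_lit 372) (nat_lit 192)) (XT.lf (nat_lit 0) (nat_lit 21744664806) (nat_lit 532) (nat_lit 2027815475) (nat_lit 532) (nat_lit 2027815475) (nat_lit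 61) (nat_lit 3) (nat_lit 68) (nat_lit 3) (nat_lit 68) (nat_lit 5) (nat_lit 373) (nat_lit 373) (nat_lit 274))))) (XT.nd (nat_lit 156) (nat_lit 380) (nat_lit 0) (XT.nd (nat_lit 78) (nat_lit 0) (nat_lit 76) (XT.lf (nat_lit 76) (nat_lit 21914958620) (nat_lit 0) (nat_lit 23863935547) (nat_lit 532) (nat_lit 7841693681) (nat_lit 62) (nat_lit 5) (nat_lit 61) (nat_lit 3) (nat_lit 68) (nat_lit 5) (nat_lit 374) (nat_lit 373) (nat_lit 273)) (XT.lf (nat_lit 0) (nat_lit 48404253991) (nat_lit 456) (nat_lit 5645033003) (nat_lit 532) (nat_lit 1740689291) (nat_lit 62) (nat_lit 5) (nat_lit 68) (nat_lit 5) (nat_lit 69) (nat_lit 5) (nat_lit 375) (nat_lit 373) (nat_lit 272))) (XT.nd (nat_lit 78) (nat_lit 456) (nat_lit 0) (XT.lf (nat_lit 76) (nat_lit 23031279558) (nat_lit 0) (nat_lit 29379977256) (nat_lit 532) (nat_lit 5627932441) (nat_lit 63) (nat_lit 5) (nat_lit 62) (nat_lit 5) (nat_lit 69) (nat_lit 5) (nat_lit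 376) (nat_lit 373) (nat_lit 271)) (XT.nd (nat_lit 78) (nat_lit 456) (nat_lit 0) (XT.lf (nat_lit 76) (nat_lit 54321364009) (nat_lit 0) (nat_lit 2569794850) (nat_lit 532) (nat_lit 3564995687) (nat_lit 63) (nat_lit 5) (nat_lit 62) (nat_lit 5) (nat_lit 69) (nat_lit 5) (nat_lit 377) (nat_lit 373) (nat_lit 270)) (XT.lf (nat_lit 0) (nat_lit 13095419) (nat_lit 532) (nat_lit 37269069797) (nat_lit 608) (nat_lit 25684227458) (nat_lit 56) (nat_lit 5) (nat_lit 63) (nat_lit 5) (nat_lit 64) (nat_lit 5) (nat_lit 378) (nat_lit 373) (nat_lit 269))))))))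
noncomputable def xc181 : XT := (XT.nd (nat_lit 1482) (nat_lit 1292) (nat_lit 0) (XT.nd (nat_lit 702) (nat_lit 988) (nat_lit 0) (XT.nd (nat_lit 312) (nat_lit 608) (nat_lit 0) (XT.nd (nat_lit 156) (nat_lit 304) (nat_lit 0) (XT.nd (nat_lit 78) (nat_lit 0) (nat_lit 76) (XT.lf (nat_lit 0) (nat_lit 3921884493) (nat_lit 532) (nat_lit 5404330897) (nat_lit 608) (nat_lit 56324864342) (nat_lit 56) (nat_lit 5) (nat_lit 63) (nat_lit 5) (nat_lit 64) (nat_lit 5) (nat_lit 379) (nat_lit 373) (nat_lit 268)) (XT.lf (nat_lit 0) (nat_lit 9397020641) (nat_lit 532) (nat_lit 38477115369) (nat_lit 76) (nat_lit 20576115995) (nat_lit 57) (nat_lit 5) (nat_lit 64) (nat_lit 5) (nat_lit 58) (nat_lit 5) (nat_lit 380) (nat_lit 373) (nat_lit 267))) (XT.nd (nat_lit 78) (nat_lit 380) (nat_lit 0) (XT.lf (nat_lit 0) (nat_lit 15702449160) (nat_lit 532) (nat_lit 3220944286) (nat_lit 76) (nat_lit 52518583731) (nat_lit 57) (nat_lit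 5) (nat_lit 64) (nat_lit 5) (nat_lit 58) (nat_lit 5) (nat_lit 381) (nat_lit 373) (nat_lit 266)) (XT.lf (nat_lit 0) (nat_lit 23713036433) (nat_lit 456) (nat_lit 38232628736) (nat_lit 76) (nat_lit 12631318748) (nat_lit 52) (nat_lit 5) (nat_lit 58) (nat_lit 5) (nat_lit 53) (nat_lit 5) (nat_lit 382) (nat_lit 373) (nat_lit 265)))) (XT.nd (nat_lit 156) (nat_lit 380) (nat_lit 0) (XT.nd (nat_lit 78) (nat_lit 0) (nat_lit 0) (XT.lf (nat_lit 0) (nat_lit 849556795) (nat_lit 228) (nat_lit 32115847537) (nat_lit 304) (nat_lit 44949313578) (nat_lit 49) (nat_lit 5) (nat_lit 52) (nat_lit 5) (nat_lit 53) (nat_lit 5) (nat_lit 383) (nat_lit 373) (nat_lit 264)) (XT.lf (nat_lit 0) (nat_lit 44031571034) (nat_lit 304) (nat_lit 36234281685) (nat_lit 76) (nat_lit 1167730452) (nat_lit 49) (nat_lit 5) (nat_lit 53) (nat_lit 5) (nat_lit 50) (nat_lit 5) (nat_lit 384) (nat_lit 373) (nat_lit 263))) (XT.nd (nat_lit 78)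 (nat_lit 152) (nat_lit 0) (XT.lf (nat_lit 0) (nat_lit 7397543388) (nat_lit 228) (nat_lit 49596369324) (nat_lit 304) (nat_lit 28159175610) (nat_lit 46) (nat_lit 5) (nat_lit 49) (nat_lit 5) (nat_lit 50) (nat_lit 5) (nat_lit 385) (nat_lit 373) (nat_lit 262)) (XT.nd (nat_lit 78) (nat_lit 152) (nat_lit 0) (XT.lf (nat_lit 0) (nat_lit 56579223732) (nat_lit 228) (nat_lit 15403576721) (nat_lit 304) (nat_lit 17108189847) (nat_lit 46) (nat_lit 5) (nat_lit 49) (nat_lit 5) (nat_lit 50) (nat_lit 5) (nat_lit 386) (nat_lit 373) (nat_lit 261)) (XT.lf (nat_lit 0) (nat_lit 16666210636) (nat_lit 152) (nat_lit 72422009130) (nat_lit 228) (nat_lit 4182312058) (nat_lit 44) (nat_lit 5) (nat_lit 46) (nat_lit 5) (nat_lit 47) (nat_lit 5) (nat_lit 387) (nat_lit 373) (nat_lit 260)))))) (XT.nd (nat_lit 390) (nat_lit 532) (nat_lit 0) (XT.nd (nat_lit 156) (nat_lit 152) (nat_lit 0) (XT.nd (nat_lit 78) (nat_lit 228) (nat_lit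 0) (XT.lf (nat_lit 0) (nat_lit 10599580230) (nat_lit 228) (nat_lit 26745626465) (nat_lit 76) (nat_lit 60315533769) (nat_lit 43) (nat_lit 5) (nat_lit 46) (nat_lit 5) (nat_lit 44) (nat_lit 5) (nat_lit 388) (nat_lit 373) (nat_lit 259)) (XT.lf (nat_lit 0) (nat_lit 27053932700) (nat_lit 304) (nat_lit 73959174272) (nat_lit 76) (nat_lit 1323100141) (nat_lit 40) (nat_lit 5) (nat_lit 44) (nat_lit 5) (nat_lit 41) (nat_lit 5) (nat_lit 389) (nat_lit 373) (nat_lit 258))) (XT.nd (nat_lit 78) (nat_lit 152) (nat_lit 0) (XT.lf (nat_lit 0) (nat_lit 46543968351) (nat_lit 304) (nat_lit 18886959478) (nat_lit 76) (nat_lit 41817237224) (nat_lit 40) (nat_lit 5) (nat_lit 44) (nat_lit 5) (nat_lit 41) (nat_lit 5) (nat_lit 390) (nat_lit 373) (nat_lit 257)) (XT.nd (nat_lit 78) (nat_lit 0) (nat_lit 0) (XT.lf (nat_lit 0) (nat_lit 42727214216) (nat_lit 152) (nat_lit 25892715286) (nat_lit 228) (nat_lit 43851013015) (nat_lit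 38) (nat_lit 5) (nat_lit 40) (nat_lit 5) (nat_lit 41) (nat_lit 5) (nat_lit 391) (nat_lit 373) (nat_lit 256)) (XT.lf (nat_lit 0) (nat_lit 93395189532) (nat_lit 228) (nat_lit 8144484174) (nat_lit 76) (nat_lit 16497211362) (nat_lit 38) (nat_lit 5) (nat_lit 41) (nat_lit 5) (nat_lit 39) (nat_lit 5) (nat_lit 392) (nat_lit 373) (nat_lit 255))))) (XT.nd (nat_lit 156) (nat_lit 152) (nat_lit 0) (XT.nd (nat_lit 78) (nat_lit 228) (nat_lit 0) (XT.lf (nat_lit 0) (nat_lit 60747872557) (nat_lit 152) (nat_lit 61537345743) (nat_lit 228) (nat_lit 1592265491) (nat_lit 36) (nat_lit 5) (nat_lit 38) (nat_lit 5) (nat_lit 39) (nat_lit 5) (nat_lit 393) (nat_lit 373) (nat_lit 254)) (XT.lf (nat_lit 0) (nat_lit 5136924035) (nat_lit 152) (nat_lit 17349823340) (nat_lit 228) (nat_lit 107625652572) (nat_lit 33) (nat_lit 5) (nat_lit 35) (nat_lit 5) (nat_lit 36) (nat_lit 5) (nat_lit 394) (nat_lit 373) (nat_lit 253))) (XT.nd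 (nat_lit 78) (nat_lit 152) (nat_lit 0) (XT.lf (nat_lit 0) (nat_lit 50906683684) (nat_lit 228) (nat_lit 55070835463) (nat_lit 76) (nat_lit 30665232035) (nat_lit 33) (nat_lit 5) (nat_lit 36) (nat_lit 5) (nat_lit 34) (nat_lit 5) (nat_lit 395) (nat_lit 373) (nat_lit 252)) (XT.nd (nat_lit 78) (nat_lit 0) (nat_lit 0) (XT.lf (nat_lit 0) (nat_lit 21026261030) (nat_lit 152) (nat_lit 61529589365) (nat_lit 228) (nat_lit 61063229724) (nat_lit 31) (nat_lit 5) (nat_lit 33) (nat_lit 5) (nat_lit 34) (nat_lit 5) (nat_lit 396) (nat_lit 373) (nat_lit 251)) (XT.lf (nat_lit 0) (nat_lit 106341990863) (nat_lit 152) (nat_lit 11900028148) (nat_lit 228) (nat_lit 32791091283) (nat_lit 31) (nat_lit 5) (nat_lit 33) (nat_lit 5) (nat_lit 34) (nat_lit 5) (nat_lit 397) (nat_lit 373) (nat_lit 250))))))) (XT.nd (nat_lit 780) (nat_lit 532) (nat_lit 0) (XT.nd (nat_lit 390) (nat_lit 380) (nat_lit 0) (XT.nd (nat_lit 156) (nat_lit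 228) (nat_lit 0) (XT.nd (nat_lit 78) (nat_lit 76) (nat_lit 0) (XT.lf (nat_lit 0) (nat_lit 40462928379) (nat_lit 76) (nat_lit 118295545511) (nat_lit 152) (nat_lit 123757950) (nat_lit 30) (nat_lit 5) (nat_lit 31) (nat_lit 5) (nat_lit 32) (nat_lit 4) (nat_lit 398) (nat_lit 373) (nat_lit 249)) (XT.lf (nat_lit 0) (nat_lit 34960414163) (nat_lit 152) (nat_lit 33477991578) (nat_lit 76) (nat_lit 98728263971) (nat_lit 29) (nat_lit 5) (nat_lit 31) (nat_lit 5) (nat_lit 30) (nat_lit 5) (nat_lit 399) (nat_lit 373) (nat_lit 248))) (XT.nd (nat_lit 78) (nat_lit 76) (nat_lit 0) (XT.lf (nat_lit 0) (nat_lit 61322032736) (nat_lit 152) (nat_lit 12996824512) (nat_lit 228) (nat_lit 101676810640) (nat_lit 27) (nat_lit 5) (nat_lit 29) (nat_lit 5) (nat_lit 30) (nat_lit 5) (nat_lit 400) (nat_lit 373) (nat_lit 247)) (XT.nd (nat_lit 78) (nat_lit 76) (nat_lit 0) (XT.lf (nat_lit 0) (nat_lit 118892003769) (nat_lit 228)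 (nat_lit 20999984196) (nat_lit 76) (nat_lit 45473715992) (nat_lit 27) (nat_lit 5) (nat_lit 30) (nat_lit 5) (nat_lit 28) (nat_lit 4) (nat_lit 401) (nat_lit 373) (nat_lit 246)) (XT.lf (nat_lit 0) (nat_lit 84032742913) (nat_lit 76) (nat_lit 85356308055) (nat_lit 152) (nat_lit 25907648286) (nat_lit 26) (nat_lit 5) (nat_lit 27) (nat_lit 5) (nat_lit 28) (nat_lit 4) (nat_lit 402) (nat_lit 373) (nat_lit 245))))) (XT.nd (nat_lit 156) (nat_lit 152) (nat_lit 0) (XT.nd (nat_lit 78) (nat_lit 152) (nat_lit 0) (XT.lf (nat_lit 0) (nat_lit 17596647172) (nat_lit 152) (nat_lit 7760260894) (nat_lit 76) (nat_lit 180583733650) (nat_lit 25) (nat_lit 5) (nat_lit 27) (nat_lit 5) (nat_lit 26) (nat_lit 5) (nat_lit 403) (nat_lit 373) (nat_lit 244)) (XT.lf (nat_lit 0) (nat_lit 66831599122) (nat_lit 228) (nat_lit 109414810943) (nat_lit 76) (nat_lit 40843855736) (nat_lit 23) (nat_lit 5) (nat_lit 26) (nat_lit 5) (nat_lit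 24) (nat_lit 4) (nat_lit 404) (nat_lit 373) (nat_lit 243))) (XT.nd (nat_lit 78) (nat_lit 76) (nat_lit 0) (XT.lf (nat_lit 0) (nat_lit 3165872916) (nat_lit 76) (nat_lit 117791454680) (nat_lit 152) (nat_lit 108098373979) (nat_lit 22) (nat_lit 5) (nat_lit 23) (nat_lit 5) (nat_lit 24) (nat_lit 4) (nat_lit 405) (nat_lit 373) (nat_lit 242)) (XT.nd (nat_lit 78) (nat_lit 76) (nat_lit 0) (XT.lf (nat_lit 0) (nat_lit 130974709956) (nat_lit 76) (nat_lit 51429543997) (nat_lit 152) (nat_lit 59334827263) (nat_lit 22) (nat_lit 5) (nat_lit 23) (nat_lit 5) (nat_lit 24) (nat_lit 4) (nat_lit 406) (nat_lit 373) (nat_lit 241)) (XT.lf (nat_lit 0) (nat_lit 13772490339) (nat_lit 76) (nat_lit 235812047424) (nat_lit 76) (nat_lit 5787185360) (nat_lit 21) (nat_lit 4) (nat_lit 22) (nat_lit 5) (nat_lit 22) (nat_lit 4) (nat_lit 407) (nat_lit 373) (nat_lit 240)))))) (XT.nd (nat_lit 390) (nat_lit 228) (nat_lit 0) (XT.nd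 (nat_lit 156) (nat_lit 152) (nat_lit 0) (XT.nd (nat_lit 78) (nat_lit 76) (nat_lit 0) (XT.lf (nat_lit 0) (nat_lit 53883364427) (nat_lit 152) (nat_lit 117948075133) (nat_lit 76) (nat_lit 97807998765) (nat_lit 20) (nat_lit 5) (nat_lit 22) (nat_lit 5) (nat_lit 21) (nat_lit 4) (nat_lit 408) (nat_lit 373) (nat_lit 239)) (XT.lf (nat_lit 0) (nat_lit 16257390731) (nat_lit 76) (nat_lit 102148104310) (nat_lit 152) (nat_lit 166599802895) (nat_lit 19) (nat_lit 5) (nat_lit 20) (nat_lit 5) (nat_lit 21) (nat_lit 4) (nat_lit 409) (nat_lit 373) (nat_lit 238))) (XT.nd (nat_lit 78) (nat_lit 152) (nat_lit 0) (XT.lf (nat_lit 0) (nat_lit 167906395427) (nat_lit 76) (nat_lit 23407526825) (nat_lit 152) (nat_lit 110028542094) (nat_lit 19) (nat_lit 5) (nat_lit 20) (nat_lit 5) (nat_lit 21) (nat_lit 4) (nat_lit 410) (nat_lit 373) (nat_lit 237)) (XT.nd (nat_lit 78) (nat_lit 76) (nat_lit 0) (XT.lf (nat_lit 0) (nat_lit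 11808487985) (nat_lit 76) (nat_lit 260012426158) (nat_lit 76) (nat_lit 47024418795) (nat_lit 18) (nat_lit 4) (nat_lit 19) (nat_lit 5) (nat_lit 19) (nat_lit 4) (nat_lit 411) (nat_lit 373) (nat_lit 236)) (XT.lf (nat_lit 0) (nat_lit 24319296061) (nat_lit 152) (nat_lit 162404287445) (nat_lit 76) (nat_lit 150636343504) (nat_lit 17) (nat_lit 5) (nat_lit 19) (nat_lit 5) (nat_lit 18) (nat_lit 4) (nat_lit 412) (nat_lit 373) (nat_lit 235))))) (XT.nd (nat_lit 156) (nat_lit 152) (nat_lit 0) (XT.nd (nat_lit 78) (nat_lit 76) (nat_lit 0) (XT.lf (nat_lit 0) (nat_lit 98829634337) (nat_lit 152) (nat_lit 7423168913) (nat_lit 76) (nat_lit 251005199066) (nat_lit 17) (nat_lit 5) (nat_lit 19) (nat_lit 5) (nat_lit 18) (nat_lit 4) (nat_lit 413) (nat_lit 373) (nat_lit 234)) (XT.lf (nat_lit 0) (nat_lit 168378847567) (nat_lit 76) (nat_lit 14971158423) (nat_lit 152) (nat_lit 195073981233) (nat_lit 16) (nat_lit 5)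 (nat_lit 17) (nat_lit 5) (nat_lit 18) (nat_lit 4) (nat_lit 414) (nat_lit 373) (nat_lit 233))) (XT.nd (nat_lit 78) (nat_lit 152) (nat_lit 0) (XT.lf (nat_lit 0) (nat_lit 276850830548) (nat_lit 152) (nat_lit 44616579457) (nat_lit 0) (nat_lit 79638335140) (nat_lit 16) (nat_lit 5) (nat_lit 18) (nat_lit 4) (nat_lit 16) (nat_lit 4) (nat_lit 415) (nat_lit 373) (nat_lit 232)) (XT.nd (nat_lit 78) (nat_lit 76) (nat_lit 0) (XT.lf (nat_lit 0) (nat_lit 140694994940) (nat_lit 76) (nat_lit 240909021816) (nat_lit 76) (nat_lit 43696243360) (nat_lit 15) (nat_lit 4) (nat_lit 16) (nat_lit 5) (nat_lit 16) (nat_lit 4) (nat_lit 416) (nat_lit 373) (nat_lit 231)) (XT.lf (nat_lit 0) (nat_lit 42392023415) (nat_lit 152) (nat_lit 109037631832) (nat_lit 76) (nat_lit 299817254154) (nat_lit 14) (nat_lit 5) (nat_lit 16) (nat_lit 5) (nat_lit 15) (nat_lit 4) (nat_lit 417) (nat_lit 373) (nat_lit 230))))))))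
noncomputable def xc182 : XT := (XT.nd (nat_lit 1482) (nat_lit 228) (nat_lit 0) (XT.nd (nat_lit 702) (nat_lit 228) (nat_lit 0) (XT.nd (nat_lit 312) (nat_lit 228) (nat_lit 0) (XT.nd (nat_lit 156) (nat_lit 76) (nat_lit 0) (XT.nd (nat_lit 78) (nat_lit 0) (nat_lit 0) (XT.lf (nat_lit 0) (nat_lit 83623107615) (nat_lit 76) (nat_lit 51394387971) (nat_lit 152) (nat_lit 344000127618) (nat_lit 13) (nat_lit 5) (nat_lit 14) (nat_lit 5) (nat_lit 15) (nat_lit 4) (nat_lit 418) (nat_lit 373) (nat_lit 229)) (XT.lf (nat_lit 0) (nat_lit 239473746162) (nat_lit 152) (nat_lit 212313942491) (nat_lit 0) (nat_lit 56868646257) (nat_lit 13) (nat_lit 5) (nat_lit 15) (nat_lit 4) (nat_lit 13) (nat_lit 4) (nat_lit 419) (nat_lit 373) (nat_lit 228))) (XT.nd (nat_lit 78) (nat_lit 76) (nat_lit 0) (XT.lf (nat_lit 0) (nat_lit 353621175474) (nat_lit 152) (nat_lit 15922310902) (nat_lit 0) (nat_lit 171015882931) (nat_lit 13)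 (nat_lit 5) (nat_lit 15) (nat_lit 4) (nat_lit 13) (nat_lit 4) (nat_lit 420) (nat_lit 373) (nat_lit 227)) (XT.lf (nat_lit 0) (nat_lit 206510720310) (nat_lit 76) (nat_lit 275356043945) (nat_lit 76) (nat_lit 92750573034) (nat_lit 12) (nat_lit 4) (nat_lit 13) (nat_lit 5) (nat_lit 13) (nat_lit 4) (nat_lit 421) (nat_lit 373) (nat_lit 226)))) (XT.nd (nat_lit 156) (nat_lit 76) (nat_lit 0) (XT.nd (nat_lit 78) (nat_lit 76) (nat_lit 0) (XT.lf (nat_lit 0) (nat_lit 8969668626) (nat_lit 152) (nat_lit 163948725323) (nat_lit 76) (nat_lit 438428572154) (nat_lit 11) (nat_lit 5) (nat_lit 13) (nat_lit 5) (nat_lit 12) (nat_lit 4) (nat_lit 422) (nat_lit 373) (nat_lit 225)) (XT.lf (nat_lit 0) (nat_lit 56982800228) (nat_lit 76) (nat_lit 58204021510) (nat_lit 152) (nat_lit 535525796483) (nat_lit 10) (nat_lit 5) (nat_lit 11) (nat_lit 5) (nat_lit 12) (nat_lit 4) (nat_lit 423) (nat_lit 373) (nat_lit 224))) (XT.nd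 (nat_lit 78) (nat_lit 76) (nat_lit 0) (XT.lf (nat_lit 0) (nat_lit 236080009829) (nat_lit 152) (nat_lit 389652775217) (nat_lit 0) (nat_lit 67000444475) (nat_lit 10) (nat_lit 5) (nat_lit 12) (nat_lit 4) (nat_lit 10) (nat_lit 4) (nat_lit 424) (nat_lit 373) (nat_lit 223)) (XT.nd (nat_lit 78) (nat_lit 76) (nat_lit 0) (XT.lf (nat_lit 0) (nat_lit 368156256504) (nat_lit 152) (nat_lit 170761735214) (nat_lit 0) (nat_lit 199076569755) (nat_lit 10) (nat_lit 5) (nat_lit 12) (nat_lit 4) (nat_lit 10) (nat_lit 4) (nat_lit 425) (nat_lit 373) (nat_lit 222)) (XT.lf (nat_lit 0) (nat_lit 69096741051) (nat_lit 76) (nat_lit 443363464931) (nat_lit 76) (nat_lit 274283665781) (nat_lit 9) (nat_lit 4) (nat_lit 10) (nat_lit 5) (nat_lit 10) (nat_lit 4) (nat_lit 426) (nat_lit 373) (nat_lit 221)))))) (XT.nd (nat_lit 390) (nat_lit 76) (nat_lit 0) (XT.nd (nat_lit 156) (nat_lit 152) (nat_lit 0) (XT.nd (nat_lit 78) (nat_lit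 0) (nat_lit 0) (XT.lf (nat_lit 0) (nat_lit 337854929595) (nat_lit 76) (nat_lit 335122299942) (nat_lit 76) (nat_lit 166042396716) (nat_lit 9) (nat_lit 4) (nat_lit 10) (nat_lit 5) (nat_lit 10) (nat_lit 4) (nat_lit 427) (nat_lit 373) (nat_lit 220)) (XT.lf (nat_lit 0) (nat_lit 628113461171) (nat_lit 76) (nat_lit 218221996082) (nat_lit 76) (nat_lit 49141996489) (nat_lit 9) (nat_lit 4) (nat_lit 10) (nat_lit 5) (nat_lit 10) (nat_lit 4) (nat_lit 428) (nat_lit 373) (nat_lit 219))) (XT.nd (nat_lit 78) (nat_lit 76) (nat_lit 0) (XT.lf (nat_lit 0) (nat_lit 73252909606) (nat_lit 152) (nat_lit 16714036840) (nat_lit 76) (nat_lit 866336612368) (nat_lit 8) (nat_lit 5) (nat_lit 10) (nat_lit 5) (nat_lit 9) (nat_lit 4) (nat_lit 429) (nat_lit 373) (nat_lit 218)) (XT.nd (nat_lit 78) (nat_lit 0) (nat_lit 0) (XT.lf (nat_lit 0) (nat_lit 210548996274) (nat_lit 152) (nat_lit 756730198234) (nat_lit 0) (nat_lit 53993281977)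 (nat_lit 7) (nat_lit 5) (nat_lit 9) (nat_lit 4) (nat_lit 7) (nat_lit 4) (nat_lit 430) (nat_lit 373) (nat_lit 217)) (XT.lf (nat_lit 0) (nat_lit 361634296856) (nat_lit 152) (nat_lit 524501656846) (nat_lit 0) (nat_lit 205078511727) (nat_lit 7) (nat_lit 5) (nat_lit 9) (nat_lit 4) (nat_lit 7) (nat_lit 4) (nat_lit 431) (nat_lit 373) (nat_lit 216))))) (XT.nd (nat_lit 156) (nat_lit 76) (nat_lit 0) (XT.nd (nat_lit 78) (nat_lit 0) (nat_lit 0) (XT.lf (nat_lit 0) (nat_lit 524806293600) (nat_lit 152) (nat_lit 273695087250) (nat_lit 0) (nat_lit 368250442886) (nat_lit 7) (nat_lit 5) (nat_lit 9) (nat_lit 4) (nat_lit 7) (nat_lit 4) (nat_lit 432) (nat_lit 373) (nat_lit 215)) (XT.lf (nat_lit 0) (nat_lit 701031931672) (nat_lit 152) (nat_lit 2824228294) (nat_lit 0) (nat_lit 544476020230) (nat_lit 7) (nat_lit 5) (nat_lit 9) (nat_lit 4) (nat_lit 7) (nat_lit 4) (nat_lit 433) (nat_lit 373) (nat_lit 214))) (XT.nd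 (nat_lit 78) (nat_lit 0) (nat_lit 0) (XT.lf (nat_lit 0) (nat_lit 304972016054) (nat_lit 76) (nat_lit 593718079414) (nat_lit 76) (nat_lit 437162111743) (nat_lit 6) (nat_lit 4) (nat_lit 7) (nat_lit 5) (nat_lit 7) (nat_lit 4) (nat_lit 434) (nat_lit 373) (nat_lit 213)) (XT.nd (nat_lit 78) (nat_lit 0) (nat_lit 0) (XT.lf (nat_lit 0) (nat_lit 637552363143) (nat_lit 76) (nat_lit 474685661985) (nat_lit 76) (nat_lit 318129642250) (nat_lit 6) (nat_lit 4) (nat_lit 7) (nat_lit 5) (nat_lit 7) (nat_lit 4) (nat_lit 435) (nat_lit 373) (nat_lit 212)) (XT.lf (nat_lit 0) (nat_lit 996738940617) (nat_lit 76) (nat_lit 346130749799) (nat_lit 76) (nat_lit 189574681857) (nat_lit 6) (nat_lit 4) (nat_lit 7) (nat_lit 5) (nat_lit 7) (nat_lit 4) (nat_lit 436) (nat_lit 373) (nat_lit 211))))))) (XT.nd (nat_lit 780) (nat_lit 0) (nat_lit 0) (XT.nd (nat_lit 390) (nat_lit 76) (nat_lit 0) (XT.nd (nat_lit 156) (nat_lit 0) (nat_lit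 0) (XT.nd (nat_lit 78) (nat_lit 152) (nat_lit 0) (XT.lf (nat_lit 0) (nat_lit 1384660261527) (nat_lit 76) (nat_lit 207291535968) (nat_lit 76) (nat_lit 50735423389) (nat_lit 6) (nat_lit 4) (nat_lit 7) (nat_lit 5) (nat_lit 7) (nat_lit 4) (nat_lit 437) (nat_lit 373) (nat_lit 210)) (XT.lf (nat_lit 0) (nat_lit 41558515840) (nat_lit 76) (nat_lit 53688921539) (nat_lit 152) (nat_lit 1666231226191) (nat_lit 4) (nat_lit 5) (nat_lit 5) (nat_lit 5) (nat_lit 6) (nat_lit 4) (nat_lit 438) (nat_lit 373) (nat_lit 209))) (XT.nd (nat_lit 78) (nat_lit 0) (nat_lit 0) (XT.lf (nat_lit 0) (nat_lit 260104427096) (nat_lit 152) (nat_lit 1513623657970) (nat_lit 0) (nat_lit 115144989895) (nat_lit 4) (nat_lit 5) (nat_lit 6) (nat_lit 4) (nat_lit 4) (nat_lit 4) (nat_lit 439) (nat_lit 373) (nat_lit 208)) (XT.nd (nat_lit 78) (nat_lit 0) (nat_lit 0) (XT.lf (nat_lit 0) (nat_lit 439544413295) (nat_lit 152) (nat_lit 1292218127709)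 (nat_lit 0) (nat_lit 294584943285) (nat_lit 4) (nat_lit 5) (nat_lit 6) (nat_lit 4) (nat_lit 4) (nat_lit 4) (nat_lit 440) (nat_lit 373) (nat_lit 207)) (XT.lf (nat_lit 0) (nat_lit 633339524188) (nat_lit 152) (nat_lit 1053100304319) (nat_lit 0) (nat_lit 488380023799) (nat_lit 4) (nat_lit 5) (nat_lit 6) (nat_lit 4) (nat_lit 4) (nat_lit 4) (nat_lit 441) (nat_lit 373) (nat_lit 206))))) (XT.nd (nat_lit 156) (nat_lit 76) (nat_lit 0) (XT.nd (nat_lit 78) (nat_lit 0) (nat_lit 0) (XT.lf (nat_lit 0) (nat_lit 842638175247) (nat_lit 152) (nat_lit 794853193292) (nat_lit 0) (nat_lit 697678646729) (nat_lit 4) (nat_lit 5) (nat_lit 6) (nat_lit 4) (nat_lit 4) (nat_lit 4) (nat_lit 442) (nat_lit 373) (nat_lit 205)) (XT.lf (nat_lit 0) (nat_lit 1068680654774) (nat_lit 152) (nat_lit 515946441378) (nat_lit 0) (nat_lit 923721100212) (nat_lit 4) (nat_lit 5) (nat_lit 6) (nat_lit 4) (nat_lit 4) (nat_lit 4) (nat_lit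 443) (nat_lit 373) (nat_lit 204))) (XT.nd (nat_lit 78) (nat_lit 76) (nat_lit 0) (XT.lf (nat_lit 0) (nat_lit 1312806473760) (nat_lit 152) (nat_lit 214727267823) (nat_lit 0) (nat_lit 1167846895082) (nat_lit 4) (nat_lit 5) (nat_lit 6) (nat_lit 4) (nat_lit 4) (nat_lit 4) (nat_lit 444) (nat_lit 373) (nat_lit 203)) (XT.nd (nat_lit 78) (nat_lit 0) (nat_lit 0) (XT.lf (nat_lit 0) (nat_lit 116412768011) (nat_lit 76) (nat_lit 1462849265583) (nat_lit 76) (nat_lit 1317889664575) (nat_lit 3) (nat_lit 4) (nat_lit 4) (nat_lit 5) (nat_lit 4) (nat_lit 4) (nat_lit 445) (nat_lit 373) (nat_lit 202)) (XT.lf (nat_lit 0) (nat_lit 486255629742) (nat_lit 76) (nat_lit 1386649379431) (nat_lit 76) (nat_lit 1241689757748) (nat_lit 3) (nat_lit 4) (nat_lit 4) (nat_lit 5) (nat_lit 4) (nat_lit 4) (nat_lit 446) (nat_lit 373) (nat_lit 201)))))) (XT.nd (nat_lit 390) (nat_lit 0) (nat_lit 0) (XT.nd (nat_lit 156) (nat_lit 0)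 (nat_lit 0) (XT.nd (nat_lit 78) (nat_lit 0) (nat_lit 0) (XT.lf (nat_lit 0) (nat_lit 885685821378) (nat_lit 76) (nat_lit 1304353552280) (nat_lit 76) (nat_lit 1159393911453) (nat_lit 3) (nat_lit 4) (nat_lit 4) (nat_lit 5) (nat_lit 4) (nat_lit 4) (nat_lit 447) (nat_lit 373) (nat_lit 200)) (XT.lf (nat_lit 0) (nat_lit 1317070336646) (nat_lit 76) (nat_lit 1215474105153) (nat_lit 76) (nat_lit 1070514446600) (nat_lit 3) (nat_lit 4) (nat_lit 4) (nat_lit 5) (nat_lit 4) (nat_lit 4) (nat_lit 448) (nat_lit 373) (nat_lit 199))) (XT.nd (nat_lit 78) (nat_lit 0) (nat_lit 0) (XT.lf (nat_lit 0) (nat_lit 1782965528231) (nat_lit 76) (nat_lit 1119484345030) (nat_lit 76) (nat_lit 974524670065) (nat_lit 3) (nat_lit 4) (nat_lit 4) (nat_lit 5) (nat_lit 4) (nat_lit 4) (nat_lit 449) (nat_lit 373) (nat_lit 198)) (XT.nd (nat_lit 78) (nat_lit 0) (nat_lit 0) (XT.lf (nat_lit 0) (nat_lit 2286132256526) (nat_lit 76) (nat_lit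 1015815443703) (nat_lit 76) (nat_lit 870855753541) (nat_lit 3) (nat_lit 4) (nat_lit 4) (nat_lit 5) (nat_lit 4) (nat_lit 4) (nat_lit 450) (nat_lit 373) (nat_lit 197)) (XT.lf (nat_lit 0) (nat_lit 2829552250292) (nat_lit 76) (nat_lit 903853066943) (nat_lit 76) (nat_lit 758893362709) (nat_lit 3) (nat_lit 4) (nat_lit 4) (nat_lit 5) (nat_lit 4) (nat_lit 4) (nat_lit 451) (nat_lit 373) (nat_lit 196))))) (XT.nd (nat_lit 156) (nat_lit 0) (nat_lit 0) (XT.nd (nat_lit 78) (nat_lit 0) (nat_lit 0) (XT.lf (nat_lit 0) (nat_lit 3416445776159) (nat_lit 76) (nat_lit 782933733997) (nat_lit 76) (nat_lit 637974016735) (nat_lit 3) (nat_lit 4) (nat_lit 4) (nat_lit 5) (nat_lit 4) (nat_lit 4) (nat_lit 452) (nat_lit 373) (nat_lit 195)) (XT.lf (nat_lit 0) (nat_lit 4050290721687) (nat_lit 76) (nat_lit 652340885856) (nat_lit 76) (nat_lit 507381156530) (nat_lit 3) (nat_lit 4) (nat_lit 4) (nat_lit 5) (nat_lit 4) (nat_lit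 4) (nat_lit 453) (nat_lit 373) (nat_lit 194))) (XT.nd (nat_lit 78) (nat_lit 0) (nat_lit 0) (XT.lf (nat_lit 0) (nat_lit 4734843205072) (nat_lit 76) (nat_lit 511300638975) (nat_lit 76) (nat_lit 366340898479) (nat_lit 3) (nat_lit 4) (nat_lit 4) (nat_lit 5) (nat_lit 4) (nat_lit 4) (nat_lit 454) (nat_lit 373) (nat_lit 193)) (XT.nd (nat_lit 46800) (nat_lit 0) (nat_lit 4408) (XT.lf (nat_lit 0) (nat_lit 5474159833623) (nat_lit 76) (nat_lit 358977199300) (nat_lit 76) (nat_lit 214017448460) (nat_lit 3) (nat_lit 4) (nat_lit 4) (nat_lit 5) (nat_lit 4) (nat_lit 4) (nat_lit 455) (nat_lit 373) (nat_lit 192)) (XT.lf (nat_lit 0) (nat_lit 23506622466) (nat_lit 532) (nat_lit 2177939425) (nat_lit 532) (nat_lit 2177939425) (nat_lit 61) (nat_lit 3) (nat_lit 68) (nat_lit 3) (nat_lit 68) (nat_lit 5) (nat_lit 374) (nat_lit 374) (nat_lit 272))))))))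
noncomputable def xc183 : XT := (XT.nd (nat_lit 1482) (nat_lit 1596) (nat_lit 0) (XT.nd (nat_lit 702) (nat_lit 1064) (nat_lit 0) (XT.nd (nat_lit 312) (nat_lit 684) (nat_lit 0) (XT.nd (nat_lit 156) (nat_lit 0) (nat_lit 76) (XT.nd (nat_lit 78) (nat_lit 0) (nat_lit 76) (XT.lf (nat_lit 76) (nat_lit 23691745162) (nat_lit 0) (nat_lit 25791480609) (nat_lit 532) (nat_lit 8423596867) (nat_lit 62) (nat_lit 5) (nat_lit 61) (nat_lit 3) (nat_lit 68) (nat_lit 5) (nat_lit 375) (nat_lit 374) (nat_lit 271)) (XT.lf (nat_lit 0) (nat_lit 52315091369) (nat_lit 456) (nat_lit 6071223294) (nat_lit 532) (nat_lit 1863733079) (nat_lit 62) (nat_lit 5) (nat_lit 68) (nat_lit 5) (nat_lit 69) (nat_lit 5) (nat_lit 376) (nat_lit 374) (nat_lit 270))) (XT.nd (nat_lit 78) (nat_lit 0) (nat_lit 0) (XT.lf (nat_lit 76) (nat_lit 24898550922) (nat_lit 0) (nat_lit 31741847558) (nat_lit 532) (nat_lit 6038983218) (nat_lit 63) (nat_lit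 5) (nat_lit 62) (nat_lit 5) (nat_lit 69) (nat_lit 5) (nat_lit 377) (nat_lit 374) (nat_lit 269)) (XT.lf (nat_lit 76) (nat_lit 58690007388) (nat_lit 0) (nat_lit 2786000772) (nat_lit 532) (nat_lit 3813914029) (nat_lit 63) (nat_lit 5) (nat_lit 62) (nat_lit 5) (nat_lit 69) (nat_lit 5) (nat_lit 378) (nat_lit 374) (nat_lit 268)))) (XT.nd (nat_lit 156) (nat_lit 304) (nat_lit 0) (XT.nd (nat_lit 78) (nat_lit 0) (nat_lit 0) (XT.lf (nat_lit 0) (nat_lit 46436918) (nat_lit 532) (nat_lit 40223601998) (nat_lit 608) (nat_lit 27731047202) (nat_lit 56) (nat_lit 5) (nat_lit 63) (nat_lit 5) (nat_lit 64) (nat_lit 5) (nat_lit 379) (nat_lit 374) (nat_lit 267)) (XT.lf (nat_lit 0) (nat_lit 4265536979) (nat_lit 532) (nat_lit 5811683496) (nat_lit 608) (nat_lit 60823521589) (nat_lit 56) (nat_lit 5) (nat_lit 63) (nat_lit 5) (nat_lit 64) (nat_lit 5) (nat_lit 380) (nat_lit 374) (nat_lit 266))) (XT.nd (nat_lit 78) (nat_lit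 380) (nat_lit 0) (XT.lf (nat_lit 0) (nat_lit 10176960889) (nat_lit 532) (nat_lit 41528538052) (nat_lit 76) (nat_lit 22218489392) (nat_lit 57) (nat_lit 5) (nat_lit 64) (nat_lit 5) (nat_lit 58) (nat_lit 5) (nat_lit 381) (nat_lit 374) (nat_lit 265)) (XT.nd (nat_lit 78) (nat_lit 380) (nat_lit 0) (XT.lf (nat_lit 0) (nat_lit 16984736386) (nat_lit 532) (nat_lit 3453854508) (nat_lit 76) (nat_lit 56716629798) (nat_lit 57) (nat_lit 5) (nat_lit 64) (nat_lit 5) (nat_lit 58) (nat_lit 5) (nat_lit 382) (nat_lit 374) (nat_lit 264)) (XT.lf (nat_lit 0) (nat_lit 25634804032) (nat_lit 456) (nat_lit 41265081777) (nat_lit 76) (nat_lit 13641253519) (nat_lit 52) (nat_lit 5) (nat_lit 58) (nat_lit 5) (nat_lit 53) (nat_lit 5) (nat_lit 383) (nat_lit 374) (nat_lit 263)))))) (XT.nd (nat_lit 390) (nat_lit 456) (nat_lit 0) (XT.nd (nat_lit 156) (nat_lit 380) (nat_lit 0) (XT.nd (nat_lit 78) (nat_lit 0) (nat_lit 0) (XT.lf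 (nat_lit 0) (nat_lit 943016388) (nat_lit 228) (nat_lit 34683126673) (nat_lit 304) (nat_lit 48519848318) (nat_lit 49) (nat_lit 5) (nat_lit 52) (nat_lit 5) (nat_lit 53) (nat_lit 5) (nat_lit 384) (nat_lit 374) (nat_lit 262)) (XT.lf (nat_lit 0) (nat_lit 47575906170) (nat_lit 304) (nat_lit 39107699048) (nat_lit 76) (nat_lit 1262898134) (nat_lit 49) (nat_lit 5) (nat_lit 53) (nat_lit 5) (nat_lit 50) (nat_lit 5) (nat_lit 385) (nat_lit 374) (nat_lit 261))) (XT.nd (nat_lit 78) (nat_lit 152) (nat_lit 0) (XT.lf (nat_lit 0) (nat_lit 8014030887) (nat_lit 228) (nat_lit 53560182432) (nat_lit 304) (nat_lit 30389438955) (nat_lit 46) (nat_lit 5) (nat_lit 49) (nat_lit 5) (nat_lit 50) (nat_lit 5) (nat_lit 386) (nat_lit 374) (nat_lit 260)) (XT.nd (nat_lit 78) (nat_lit 152) (nat_lit 0) (XT.lf (nat_lit 0) (nat_lit 61128417212) (nat_lit 228) (nat_lit 16632255046) (nat_lit 304) (nat_lit 18456038827) (nat_lit 46)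 (nat_lit 5) (nat_lit 49) (nat_lit 5) (nat_lit 50) (nat_lit 5) (nat_lit 387) (nat_lit 374) (nat_lit 259)) (XT.lf (nat_lit 0) (nat_lit 18023218859) (nat_lit 152) (nat_lit 78210531096) (nat_lit 228) (nat_lit 4496929368) (nat_lit 44) (nat_lit 5) (nat_lit 46) (nat_lit 5) (nat_lit 47) (nat_lit 5) (nat_lit 388) (nat_lit 374) (nat_lit 258))))) (XT.nd (nat_lit 156) (nat_lit 152) (nat_lit 0) (XT.nd (nat_lit 78) (nat_lit 228) (nat_lit 0) (XT.lf (nat_lit 0) (nat_lit 11465110345) (nat_lit 228) (nat_lit 28862381955) (nat_lit 76) (nat_lit 65144687526) (nat_lit 43) (nat_lit 5) (nat_lit 46) (nat_lit 5) (nat_lit 44) (nat_lit 5) (nat_lit 389) (nat_lit 374) (nat_lit 257)) (XT.lf (nat_lit 0) (nat_lit 29235179326) (nat_lit 304) (nat_lit 79852368216) (nat_lit 76) (nat_lit 1434187894) (nat_lit 40) (nat_lit 5) (nat_lit 44) (nat_lit 5) (nat_lit 41) (nat_lit 5) (nat_lit 390) (nat_lit 374) (nat_lit 256))) (XT.nd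 (nat_lit 78) (nat_lit 152) (nat_lit 0) (XT.lf (nat_lit 0) (nat_lit 50283163606) (nat_lit 304) (nat_lit 20376119942) (nat_lit 76) (nat_lit 45167467815) (nat_lit 40) (nat_lit 5) (nat_lit 44) (nat_lit 5) (nat_lit 41) (nat_lit 5) (nat_lit 391) (nat_lit 374) (nat_lit 255)) (XT.nd (nat_lit 78) (nat_lit 0) (nat_lit 0) (XT.lf (nat_lit 0) (nat_lit 46166635842) (nat_lit 152) (nat_lit 27957915420) (nat_lit 228) (nat_lit 47342852732) (nat_lit 38) (nat_lit 5) (nat_lit 40) (nat_lit 5) (nat_lit 41) (nat_lit 5) (nat_lit 392) (nat_lit 374) (nat_lit 254)) (XT.lf (nat_lit 0) (nat_lit 100880857399) (nat_lit 228) (nat_lit 8775386526) (nat_lit 76) (nat_lit 17822456868) (nat_lit 38) (nat_lit 5) (nat_lit 41) (nat_lit 5) (nat_lit 39) (nat_lit 5) (nat_lit 393) (nat_lit 374) (nat_lit 253))))))) (XT.nd (nat_lit 780) (nat_lit 684) (nat_lit 0) (XT.nd (nat_lit 390) (nat_lit 380) (nat_lit 0) (XT.nd (nat_lit 156) (nat_lit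 152) (nat_lit 0) (XT.nd (nat_lit 78) (nat_lit 228) (nat_lit 0) (XT.lf (nat_lit 0) (nat_lit 65627835796) (nat_lit 152) (nat_lit 66453695940) (nat_lit 228) (nat_lit 1705061020) (nat_lit 36) (nat_lit 5) (nat_lit 38) (nat_lit 5) (nat_lit 39) (nat_lit 5) (nat_lit 394) (nat_lit 374) (nat_lit 252)) (XT.lf (nat_lit 0) (nat_lit 5568221928) (nat_lit 152) (nat_lit 18730784208) (nat_lit 228) (nat_lit 116221311667) (nat_lit 33) (nat_lit 5) (nat_lit 35) (nat_lit 5) (nat_lit 36) (nat_lit 5) (nat_lit 395) (nat_lit 374) (nat_lit 251))) (XT.nd (nat_lit 78) (nat_lit 152) (nat_lit 0) (XT.lf (nat_lit 0) (nat_lit 54991707195) (nat_lit 228) (nat_lit 59456827153) (nat_lit 76) (nat_lit 33124629839) (nat_lit 33) (nat_lit 5) (nat_lit 36) (nat_lit 5) (nat_lit 34) (nat_lit 5) (nat_lit 396) (nat_lit 374) (nat_lit 250)) (XT.nd (nat_lit 78) (nat_lit 0) (nat_lit 0) (XT.lf (nat_lit 0) (nat_lit 22727538955) (nat_lit 152)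 (nat_lit 66444804399) (nat_lit 228) (nat_lit 65935293787) (nat_lit 31) (nat_lit 5) (nat_lit 33) (nat_lit 5) (nat_lit 34) (nat_lit 5) (nat_lit 397) (nat_lit 374) (nat_lit 249)) (XT.lf (nat_lit 0) (nat_lit 114867106653) (nat_lit 152) (nat_lit 12845408070) (nat_lit 228) (nat_lit 35402346813) (nat_lit 31) (nat_lit 5) (nat_lit 33) (nat_lit 5) (nat_lit 34) (nat_lit 5) (nat_lit 398) (nat_lit 374) (nat_lit 248))))) (XT.nd (nat_lit 156) (nat_lit 228) (nat_lit 0) (XT.nd (nat_lit 78) (nat_lit 76) (nat_lit 0) (XT.lf (nat_lit 0) (nat_lit 43717989260) (nat_lit 76) (nat_lit 127752052988) (nat_lit 152) (nat_lit 121890565) (nat_lit 30) (nat_lit 5) (nat_lit 31) (nat_lit 5) (nat_lit 32) (nat_lit 4) (nat_lit 399) (nat_lit 374) (nat_lit 247)) (XT.lf (nat_lit 0) (nat_lit 37767598534) (nat_lit 152) (nat_lit 36138989085) (nat_lit 76) (nat_lit 106632582136) (nat_lit 29) (nat_lit 5) (nat_lit 31) (nat_lit 5) (nat_lit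 30) (nat_lit 5) (nat_lit 400) (nat_lit 374) (nat_lit 246))) (XT.nd (nat_lit 78) (nat_lit 76) (nat_lit 0) (XT.lf (nat_lit 0) (nat_lit 66244600672) (nat_lit 152) (nat_lit 14029753804) (nat_lit 228) (nat_lit 109800162720) (nat_lit 27) (nat_lit 5) (nat_lit 29) (nat_lit 5) (nat_lit 30) (nat_lit 5) (nat_lit 401) (nat_lit 374) (nat_lit 245)) (XT.nd (nat_lit 78) (nat_lit 76) (nat_lit 0) (XT.lf (nat_lit 0) (nat_lit 128412764616) (nat_lit 228) (nat_lit 22663829692) (nat_lit 76) (nat_lit 49117609264) (nat_lit 27) (nat_lit 5) (nat_lit 30) (nat_lit 5) (nat_lit 28) (nat_lit 4) (nat_lit 402) (nat_lit 374) (nat_lit 244)) (XT.lf (nat_lit 0) (nat_lit 90771106644) (nat_lit 76) (nat_lit 92178151261) (nat_lit 152) (nat_lit 27970446347) (nat_lit 26) (nat_lit 5) (nat_lit 27) (nat_lit 5) (nat_lit 28) (nat_lit 4) (nat_lit 403) (nat_lit 374) (nat_lit 243)))))) (XT.nd (nat_lit 390) (nat_lit 304) (nat_lit 0) (XT.nd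 (nat_lit 156) (nat_lit 152) (nat_lit 0) (XT.nd (nat_lit 78) (nat_lit 152) (nat_lit 0) (XT.lf (nat_lit 0) (nat_lit 19013011238) (nat_lit 152) (nat_lit 8366045453) (nat_lit 76) (nat_lit 195036142080) (nat_lit 25) (nat_lit 5) (nat_lit 27) (nat_lit 5) (nat_lit 26) (nat_lit 5) (nat_lit 404) (nat_lit 374) (nat_lit 242)) (XT.lf (nat_lit 0) (nat_lit 72186624147) (nat_lit 228) (nat_lit 118152820884) (nat_lit 76) (nat_lit 44117358842) (nat_lit 23) (nat_lit 5) (nat_lit 26) (nat_lit 5) (nat_lit 24) (nat_lit 4) (nat_lit 405) (nat_lit 374) (nat_lit 241))) (XT.nd (nat_lit 78) (nat_lit 76) (nat_lit 0) (XT.lf (nat_lit 0) (nat_lit 3433933508) (nat_lit 76) (nat_lit 127208203694) (nat_lit 152) (nat_lit 116737359455) (nat_lit 22) (nat_lit 5) (nat_lit 23) (nat_lit 5) (nat_lit 24) (nat_lit 4) (nat_lit 406) (nat_lit 374) (nat_lit 240)) (XT.nd (nat_lit 78) (nat_lit 76) (nat_lit 0) (XT.lf (nat_lit 0) (nat_lit 141466381900)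 (nat_lit 76) (nat_lit 55537826628) (nat_lit 152) (nat_lit 64073387109) (nat_lit 22) (nat_lit 5) (nat_lit 23) (nat_lit 5) (nat_lit 24) (nat_lit 4) (nat_lit 407) (nat_lit 374) (nat_lit 239)) (XT.lf (nat_lit 0) (nat_lit 14888092039) (nat_lit 76) (nat_lit 254670726348) (nat_lit 76) (nat_lit 6242038461) (nat_lit 21) (nat_lit 4) (nat_lit 22) (nat_lit 5) (nat_lit 22) (nat_lit 4) (nat_lit 408) (nat_lit 374) (nat_lit 238))))) (XT.nd (nat_lit 156) (nat_lit 152) (nat_lit 0) (XT.nd (nat_lit 78) (nat_lit 76) (nat_lit 0) (XT.lf (nat_lit 0) (nat_lit 58201177513) (nat_lit 152) (nat_lit 127370762559) (nat_lit 76) (nat_lit 105638079473) (nat_lit 20) (nat_lit 5) (nat_lit 22) (nat_lit 5) (nat_lit 21) (nat_lit 4) (nat_lit 409) (nat_lit 374) (nat_lit 237)) (XT.lf (nat_lit 0) (nat_lit 17570807446) (nat_lit 76) (nat_lit 110314050403) (nat_lit 152) (nat_lit 179920307908) (nat_lit 19) (nat_lit 5) (nat_lit 20) (nat_lit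 5) (nat_lit 21) (nat_lit 4) (nat_lit 410) (nat_lit 374) (nat_lit 236))) (XT.nd (nat_lit 78) (nat_lit 152) (nat_lit 0) (XT.lf (nat_lit 0) (nat_lit 181350782483) (nat_lit 76) (nat_lit 25274663923) (nat_lit 152) (nat_lit 118823900260) (nat_lit 19) (nat_lit 5) (nat_lit 20) (nat_lit 5) (nat_lit 21) (nat_lit 4) (nat_lit 411) (nat_lit 374) (nat_lit 235)) (XT.nd (nat_lit 78) (nat_lit 76) (nat_lit 0) (XT.lf (nat_lit 0) (nat_lit 12765115490) (nat_lit 76) (nat_lit 280807816376) (nat_lit 76) (nat_lit 50779518290) (nat_lit 18) (nat_lit 4) (nat_lit 19) (nat_lit 5) (nat_lit 19) (nat_lit 4) (nat_lit 412) (nat_lit 374) (nat_lit 234)) (XT.lf (nat_lit 0) (nat_lit 26270868582) (nat_lit 152) (nat_lit 175385247992) (nat_lit 76) (nat_lit 162692120703) (nat_lit 17) (nat_lit 5) (nat_lit 19) (nat_lit 5) (nat_lit 18) (nat_lit 4) (nat_lit 413) (nat_lit 374) (nat_lit 233))))))))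
noncomputable def xc184 : XT := (XT.nd (nat_lit 1482) (nat_lit 304) (nat_lit 0) (XT.nd (nat_lit 702) (nat_lit 380) (nat_lit 0) (XT.nd (nat_lit 312) (nat_lit 228) (nat_lit 0) (XT.nd (nat_lit 156) (nat_lit 76) (nat_lit 0) (XT.nd (nat_lit 78) (nat_lit 76) (nat_lit 0) (XT.lf (nat_lit 0) (nat_lit 106741587341) (nat_lit 152) (nat_lit 8006483122) (nat_lit 76) (nat_lit 271090123991) (nat_lit 17) (nat_lit 5) (nat_lit 19) (nat_lit 5) (nat_lit 18) (nat_lit 4) (nat_lit 414) (nat_lit 374) (nat_lit 232)) (XT.lf (nat_lit 0) (nat_lit 181859427859) (nat_lit 76) (nat_lit 16163994420) (nat_lit 152) (nat_lit 210674049298) (nat_lit 16) (nat_lit 5) (nat_lit 17) (nat_lit 5) (nat_lit 18) (nat_lit 4) (nat_lit 415) (nat_lit 374) (nat_lit 231))) (XT.nd (nat_lit 78) (nat_lit 76) (nat_lit 0) (XT.lf (nat_lit 0) (nat_lit 299004019782) (nat_lit 152) (nat_lit 48176099973) (nat_lit 0) (nat_lit 86013673920) (nat_lit 16)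 (nat_lit 5) (nat_lit 18) (nat_lit 4) (nat_lit 16) (nat_lit 4) (nat_lit 416) (nat_lit 374) (nat_lit 230)) (XT.lf (nat_lit 0) (nat_lit 151960152127) (nat_lit 76) (nat_lit 260177159153) (nat_lit 76) (nat_lit 47186570624) (nat_lit 15) (nat_lit 4) (nat_lit 16) (nat_lit 5) (nat_lit 16) (nat_lit 4) (nat_lit 417) (nat_lit 374) (nat_lit 229)))) (XT.nd (nat_lit 156) (nat_lit 76) (nat_lit 0) (XT.nd (nat_lit 78) (nat_lit 76) (nat_lit 0) (XT.lf (nat_lit 0) (nat_lit 45788110719) (nat_lit 152) (nat_lit 117751542925) (nat_lit 76) (nat_lit 323806629476) (nat_lit 14) (nat_lit 5) (nat_lit 16) (nat_lit 5) (nat_lit 15) (nat_lit 4) (nat_lit 418) (nat_lit 374) (nat_lit 228)) (XT.lf (nat_lit 0) (nat_lit 90321825313) (nat_lit 76) (nat_lit 55501658621) (nat_lit 152) (nat_lit 371515181105) (nat_lit 13) (nat_lit 5) (nat_lit 14) (nat_lit 5) (nat_lit 15) (nat_lit 4) (nat_lit 419) (nat_lit 374) (nat_lit 227))) (XT.nd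 (nat_lit 78) (nat_lit 76) (nat_lit 0) (XT.lf (nat_lit 0) (nat_lit 258635989970) (nat_lit 152) (nat_lit 229290600329) (nat_lit 0) (nat_lit 61421903018) (nat_lit 13) (nat_lit 5) (nat_lit 15) (nat_lit 4) (nat_lit 13) (nat_lit 4) (nat_lit 420) (nat_lit 374) (nat_lit 226)) (XT.nd (nat_lit 78) (nat_lit 76) (nat_lit 0) (XT.lf (nat_lit 0) (nat_lit 381914891840) (nat_lit 152) (nat_lit 17188264699) (nat_lit 0) (nat_lit 184700639733) (nat_lit 13) (nat_lit 5) (nat_lit 15) (nat_lit 4) (nat_lit 13) (nat_lit 4) (nat_lit 421) (nat_lit 374) (nat_lit 225)) (XT.lf (nat_lit 0) (nat_lit 223039210755) (nat_lit 76) (nat_lit 297380802588) (nat_lit 76) (nat_lit 100166397559) (nat_lit 12) (nat_lit 4) (nat_lit 13) (nat_lit 5) (nat_lit 13) (nat_lit 4) (nat_lit 422) (nat_lit 374) (nat_lit 224)))))) (XT.nd (nat_lit 390) (nat_lit 152) (nat_lit 0) (XT.nd (nat_lit 156) (nat_lit 76) (nat_lit 0) (XT.nd (nat_lit 78) (nat_lit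 76) (nat_lit 0) (XT.lf (nat_lit 0) (nat_lit 9690955218) (nat_lit 152) (nat_lit 177057359768) (nat_lit 76) (nat_lit 473506110727) (nat_lit 11) (nat_lit 5) (nat_lit 13) (nat_lit 5) (nat_lit 12) (nat_lit 4) (nat_lit 423) (nat_lit 374) (nat_lit 223)) (XT.lf (nat_lit 0) (nat_lit 61548503940) (nat_lit 76) (nat_lit 62856871862) (nat_lit 152) (nat_lit 578363962628) (nat_lit 10) (nat_lit 5) (nat_lit 11) (nat_lit 5) (nat_lit 12) (nat_lit 4) (nat_lit 424) (nat_lit 374) (nat_lit 222))) (XT.nd (nat_lit 78) (nat_lit 76) (nat_lit 0) (XT.lf (nat_lit 0) (nat_lit 254969828959) (nat_lit 152) (nat_lit 420818251441) (nat_lit 0) (nat_lit 72363533475) (nat_lit 10) (nat_lit 5) (nat_lit 12) (nat_lit 4) (nat_lit 10) (nat_lit 4) (nat_lit 425) (nat_lit 374) (nat_lit 221)) (XT.nd (nat_lit 78) (nat_lit 76) (nat_lit 0) (XT.lf (nat_lit 0) (nat_lit 397611922157) (nat_lit 152) (nat_lit 184416427927) (nat_lit 0) (nat_lit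 215005522597) (nat_lit 10) (nat_lit 5) (nat_lit 12) (nat_lit 4) (nat_lit 10) (nat_lit 4) (nat_lit 426) (nat_lit 374) (nat_lit 220)) (XT.lf (nat_lit 0) (nat_lit 74630568311) (nat_lit 76) (nat_lit 478829531245) (nat_lit 76) (nat_lit 296223035318) (nat_lit 9) (nat_lit 4) (nat_lit 10) (nat_lit 5) (nat_lit 10) (nat_lit 4) (nat_lit 427) (nat_lit 374) (nat_lit 219))))) (XT.nd (nat_lit 156) (nat_lit 152) (nat_lit 0) (XT.nd (nat_lit 78) (nat_lit 0) (nat_lit 0) (XT.lf (nat_lit 0) (nat_lit 364888960976) (nat_lit 76) (nat_lit 361929296085) (nat_lit 76) (nat_lit 179322710930) (nat_lit 9) (nat_lit 4) (nat_lit 10) (nat_lit 5) (nat_lit 10) (nat_lit 4) (nat_lit 428) (nat_lit 374) (nat_lit 218)) (XT.lf (nat_lit 0) (nat_lit 678367757522) (nat_lit 76) (nat_lit 235677174424) (nat_lit 76) (nat_lit 53070506650) (nat_lit 9) (nat_lit 4) (nat_lit 10) (nat_lit 5) (nat_lit 10) (nat_lit 4) (nat_lit 429) (nat_lit 374)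 (nat_lit 217))) (XT.nd (nat_lit 78) (nat_lit 76) (nat_lit 0) (XT.lf (nat_lit 0) (nat_lit 79115648867) (nat_lit 152) (nat_lit 18046194628) (nat_lit 76) (nat_lit 935645799164) (nat_lit 8) (nat_lit 5) (nat_lit 10) (nat_lit 5) (nat_lit 9) (nat_lit 4) (nat_lit 430) (nat_lit 374) (nat_lit 216)) (XT.nd (nat_lit 78) (nat_lit 0) (nat_lit 0) (XT.lf (nat_lit 0) (nat_lit 227395410966) (nat_lit 152) (nat_lit 817263637116) (nat_lit 0) (nat_lit 58315026608) (nat_lit 7) (nat_lit 5) (nat_lit 9) (nat_lit 4) (nat_lit 7) (nat_lit 4) (nat_lit 431) (nat_lit 374) (nat_lit 215)) (XT.lf (nat_lit 0) (nat_lit 390567350781) (nat_lit 152) (nat_lit 566457181082) (nat_lit 0) (nat_lit 221486905696) (nat_lit 7) (nat_lit 5) (nat_lit 9) (nat_lit 4) (nat_lit 7) (nat_lit 4) (nat_lit 432) (nat_lit 374) (nat_lit 214))))))) (XT.nd (nat_lit 702) (nat_lit 76) (nat_lit 0) (XT.nd (nat_lit 312) (nat_lit 152) (nat_lit 0) (XT.nd (nat_lit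 156) (nat_lit 76) (nat_lit 0) (XT.nd (nat_lit 78) (nat_lit 0) (nat_lit 0) (XT.lf (nat_lit 0) (nat_lit 566792936140) (nat_lit 152) (nat_lit 295586427275) (nat_lit 0) (nat_lit 397712434826) (nat_lit 7) (nat_lit 5) (nat_lit 9) (nat_lit 4) (nat_lit 7) (nat_lit 4) (nat_lit 433) (nat_lit 374) (nat_lit 213)) (XT.lf (nat_lit 0) (nat_lit 757116466809) (nat_lit 152) (nat_lit 3046215673) (nat_lit 0) (nat_lit 588035913431) (nat_lit 7) (nat_lit 5) (nat_lit 9) (nat_lit 4) (nat_lit 7) (nat_lit 4) (nat_lit 434) (nat_lit 374) (nat_lit 212))) (XT.nd (nat_lit 78) (nat_lit 0) (nat_lit 0) (XT.lf (nat_lit 0) (nat_lit 329373628201) (nat_lit 76) (nat_lit 641213601410) (nat_lit 76) (nat_lit 472132999825) (nat_lit 6) (nat_lit 4) (nat_lit 7) (nat_lit 5) (nat_lit 7) (nat_lit 4) (nat_lit 435) (nat_lit 374) (nat_lit 211)) (XT.lf (nat_lit 0) (nat_lit 688560117808) (nat_lit 76) (nat_lit 512658733132) (nat_lit 76) (nat_lit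 343578086911) (nat_lit 6) (nat_lit 4) (nat_lit 7) (nat_lit 5) (nat_lit 7) (nat_lit 4) (nat_lit 436) (nat_lit 374) (nat_lit 210)))) (XT.nd (nat_lit 156) (nat_lit 152) (nat_lit 0) (XT.nd (nat_lit 78) (nat_lit 0) (nat_lit 0) (XT.lf (nat_lit 0) (nat_lit 1076481357360) (nat_lit 76) (nat_lit 373819559957) (nat_lit 76) (nat_lit 204738872405) (nat_lit 6) (nat_lit 4) (nat_lit 7) (nat_lit 5) (nat_lit 7) (nat_lit 4) (nat_lit 437) (nat_lit 374) (nat_lit 209)) (XT.lf (nat_lit 0) (nat_lit 1495436139388) (nat_lit 76) (nat_lit 223873331228) (nat_lit 76) (nat_lit 54792605408) (nat_lit 6) (nat_lit 4) (nat_lit 7) (nat_lit 5) (nat_lit 7) (nat_lit 4) (nat_lit 438) (nat_lit 374) (nat_lit 208))) (XT.nd (nat_lit 78) (nat_lit 0) (nat_lit 0) (XT.lf (nat_lit 0) (nat_lit 44886257361) (nat_lit 76) (nat_lit 57982501588) (nat_lit 152) (nat_lit 1799528075422) (nat_lit 4) (nat_lit 5) (nat_lit 5) (nat_lit 5) (nat_lit 6)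 (nat_lit 4) (nat_lit 439) (nat_lit 374) (nat_lit 207)) (XT.nd (nat_lit 78) (nat_lit 0) (nat_lit 0) (XT.lf (nat_lit 0) (nat_lit 280914228917) (nat_lit 152) (nat_lit 1634710637966) (nat_lit 0) (nat_lit 124357938118) (nat_lit 4) (nat_lit 5) (nat_lit 6) (nat_lit 4) (nat_lit 4) (nat_lit 4) (nat_lit 440) (nat_lit 374) (nat_lit 206)) (XT.lf (nat_lit 0) (nat_lit 474709306778) (nat_lit 152) (nat_lit 1395592881035) (nat_lit 0) (nat_lit 318152987850) (nat_lit 4) (nat_lit 5) (nat_lit 6) (nat_lit 4) (nat_lit 4) (nat_lit 4) (nat_lit 441) (nat_lit 374) (nat_lit 205)))))) (XT.nd (nat_lit 390) (nat_lit 0) (nat_lit 0) (XT.nd (nat_lit 156) (nat_lit 76) (nat_lit 0) (XT.nd (nat_lit 78) (nat_lit 0) (nat_lit 0) (XT.lf (nat_lit 0) (nat_lit 684007927252) (nat_lit 152) (nat_lit 1137345831544) (nat_lit 0) (nat_lit 527451582280) (nat_lit 4) (nat_lit 5) (nat_lit 6) (nat_lit 4) (nat_lit 4) (nat_lit 4) (nat_lit 442)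 (nat_lit 374) (nat_lit 204)) (XT.lf (nat_lit 0) (nat_lit 910050378460) (nat_lit 152) (nat_lit 858439136607) (nat_lit 0) (nat_lit 753494009372) (nat_lit 4) (nat_lit 5) (nat_lit 6) (nat_lit 4) (nat_lit 4) (nat_lit 4) (nat_lit 443) (nat_lit 374) (nat_lit 203))) (XT.nd (nat_lit 78) (nat_lit 76) (nat_lit 0) (XT.lf (nat_lit 0) (nat_lit 1154176171224) (nat_lit 152) (nat_lit 557220015809) (nat_lit 0) (nat_lit 997619779807) (nat_lit 4) (nat_lit 5) (nat_lit 6) (nat_lit 4) (nat_lit 4) (nat_lit 4) (nat_lit 444) (nat_lit 374) (nat_lit 202)) (XT.nd (nat_lit 78) (nat_lit 76) (nat_lit 0) (XT.lf (nat_lit 0) (nat_lit 1417831976909) (nat_lit 152) (nat_lit 231903466954) (nat_lit 0) (nat_lit 1261275564816) (nat_lit 4) (nat_lit 5) (nat_lit 6) (nat_lit 4) (nat_lit 4) (nat_lit 4) (nat_lit 445) (nat_lit 374) (nat_lit 201)) (XT.lf (nat_lit 0) (nat_lit 125727721562) (nat_lit 76) (nat_lit 1579876233453) (nat_lit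 76) (nat_lit 1423319802216) (nat_lit 3) (nat_lit 4) (nat_lit 4) (nat_lit 5) (nat_lit 4) (nat_lit 4) (nat_lit 446) (nat_lit 374) (nat_lit 200))))) (XT.nd (nat_lit 156) (nat_lit 0) (nat_lit 0) (XT.nd (nat_lit 78) (nat_lit 0) (nat_lit 0) (XT.lf (nat_lit 0) (nat_lit 525157869112) (nat_lit 76) (nat_lit 1497580428511) (nat_lit 76) (nat_lit 1341023979549) (nat_lit 3) (nat_lit 4) (nat_lit 4) (nat_lit 5) (nat_lit 4) (nat_lit 4) (nat_lit 447) (nat_lit 374) (nat_lit 199)) (XT.lf (nat_lit 0) (nat_lit 956542343561) (nat_lit 76) (nat_lit 1408701001949) (nat_lit 76) (nat_lit 1252144536574) (nat_lit 3) (nat_lit 4) (nat_lit 4) (nat_lit 5) (nat_lit 4) (nat_lit 4) (nat_lit 448) (nat_lit 374) (nat_lit 198))) (XT.nd (nat_lit 78) (nat_lit 0) (nat_lit 0) (XT.lf (nat_lit 0) (nat_lit 1422437497349) (nat_lit 76) (nat_lit 1312711260867) (nat_lit 76) (nat_lit 1156154780295) (nat_lit 3) (nat_lit 4) (nat_lit 4) (nat_lit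 5) (nat_lit 4) (nat_lit 4) (nat_lit 449) (nat_lit 374) (nat_lit 197)) (XT.nd (nat_lit 78) (nat_lit 0) (nat_lit 0) (XT.lf (nat_lit 0) (nat_lit 1925604190648) (nat_lit 76) (nat_lit 1209042377172) (nat_lit 76) (nat_lit 1052485882528) (nat_lit 3) (nat_lit 4) (nat_lit 4) (nat_lit 5) (nat_lit 4) (nat_lit 4) (nat_lit 450) (nat_lit 374) (nat_lit 196)) (XT.lf (nat_lit 0) (nat_lit 2469024152010) (nat_lit 76) (nat_lit 1097080016736) (nat_lit 76) (nat_lit 940523509064) (nat_lit 3) (nat_lit 4) (nat_lit 4) (nat_lit 5) (nat_lit 4) (nat_lit 4) (nat_lit 451) (nat_lit 374) (nat_lit 195))))))))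
noncomputable def xc185 : XT := (XT.nd (nat_lit 48282) (nat_lit 0) (nat_lit 1368) (XT.nd (nat_lit 47502) (nat_lit 0) (nat_lit 3116) (XT.nd (nat_lit 47112) (nat_lit 0) (nat_lit 4408) (XT.nd (nat_lit 156) (nat_lit 0) (nat_lit 0) (XT.nd (nat_lit 78) (nat_lit 0) (nat_lit 0) (XT.lf (nat_lit 0) (nat_lit 3055917647873) (nat_lit 76) (nat_lit 976160698906) (nat_lit 76) (nat_lit 819604179170) (nat_lit 3) (nat_lit 4) (nat_lit 4) (nat_lit 5) (nat_lit 4) (nat_lit 4) (nat_lit 452) (nat_lit 374) (nat_lit 194)) (XT.lf (nat_lit 0) (nat_lit 3689762565620) (nat_lit 76) (nat_lit 845567864761) (nat_lit 76) (nat_lit 689011333855) (nat_lit 3) (nat_lit 4) (nat_lit 4) (nat_lit 5) (nat_lit 4) (nat_lit 4) (nat_lit 453) (nat_lit 374) (nat_lit 193))) (XT.nd (nat_lit 78) (nat_lit 0) (nat_lit 0) (XT.lf (nat_lit 0) (nat_lit 4374315023281) (nat_lit 76) (nat_lit 704527630840) (nat_lit 76) (nat_lit 547971089590) (nat_lit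 3) (nat_lit 4) (nat_lit 4) (nat_lit 5) (nat_lit 4) (nat_lit 4) (nat_lit 454) (nat_lit 374) (nat_lit 192)) (XT.lf (nat_lit 0) (nat_lit 5113631628014) (nat_lit 76) (nat_lit 552204203163) (nat_lit 76) (nat_lit 395647652337) (nat_lit 3) (nat_lit 4) (nat_lit 4) (nat_lit 5) (nat_lit 4) (nat_lit 4) (nat_lit 455) (nat_lit 374) (nat_lit 191)))) (XT.nd (nat_lit 156) (nat_lit 0) (nat_lit 76) (XT.nd (nat_lit 78) (nat_lit 0) (nat_lit 0) (XT.lf (nat_lit 0) (nat_lit 25406343344) (nat_lit 532) (nat_lit 2341799675) (nat_lit 532) (nat_lit 2341799675) (nat_lit 61) (nat_lit 3) (nat_lit 68) (nat_lit 3) (nat_lit 68) (nat_lit 5) (nat_lit 375) (nat_lit 375) (nat_lit 270)) (XT.lf (nat_lit 76) (nat_lit 25607309272) (nat_lit 0) (nat_lit 27870599999) (nat_lit 532) (nat_lit 9058533734) (nat_lit 62) (nat_lit 5) (nat_lit 61) (nat_lit 3) (nat_lit 68) (nat_lit 5) (nat_lit 376) (nat_lit 375) (nat_lit 269))) (XT.nd (nat_lit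 78) (nat_lit 0) (nat_lit 0) (XT.lf (nat_lit 0) (nat_lit 56533303702) (nat_lit 456) (nat_lit 6535134164) (nat_lit 532) (nat_lit 1998933101) (nat_lit 62) (nat_lit 5) (nat_lit 68) (nat_lit 5) (nat_lit 69) (nat_lit 5) (nat_lit 377) (nat_lit 375) (nat_lit 268)) (XT.nd (nat_lit 78) (nat_lit 0) (nat_lit 0) (XT.lf (nat_lit 76) (nat_lit 26911670420) (nat_lit 0) (nat_lit 34291030857) (nat_lit 532) (nat_lit 6488508067) (nat_lit 63) (nat_lit 5) (nat_lit 62) (nat_lit 5) (nat_lit 69) (nat_lit 5) (nat_lit 378) (nat_lit 375) (nat_lit 267)) (XT.lf (nat_lit 76) (nat_lit 63404870410) (nat_lit 0) (nat_lit 3017987773) (nat_lit 532) (nat_lit 4087921773) (nat_lit 63) (nat_lit 5) (nat_lit 62) (nat_lit 5) (nat_lit 69) (nat_lit 5) (nat_lit 379) (nat_lit 375) (nat_lit 266)))))) (XT.nd (nat_lit 390) (nat_lit 608) (nat_lit 0) (XT.nd (nat_lit 156) (nat_lit 304) (nat_lit 0) (XT.nd (nat_lit 78) (nat_lit 0) (nat_lit 0)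 (XT.lf (nat_lit 0) (nat_lit 77838656) (nat_lit 532) (nat_lit 43418347684) (nat_lit 608) (nat_lit 29942742182) (nat_lit 56) (nat_lit 5) (nat_lit 63) (nat_lit 5) (nat_lit 64) (nat_lit 5) (nat_lit 380) (nat_lit 375) (nat_lit 265)) (XT.lf (nat_lit 0) (nat_lit 4632415849) (nat_lit 532) (nat_lit 6255189959) (nat_lit 608) (nat_lit 65683117394) (nat_lit 56) (nat_lit 5) (nat_lit 63) (nat_lit 5) (nat_lit 64) (nat_lit 5) (nat_lit 381) (nat_lit 375) (nat_lit 264))) (XT.nd (nat_lit 78) (nat_lit 380) (nat_lit 0) (XT.lf (nat_lit 0) (nat_lit 11015276365) (nat_lit 532) (nat_lit 44827890244) (nat_lit 76) (nat_lit 23992782773) (nat_lit 57) (nat_lit 5) (nat_lit 64) (nat_lit 5) (nat_lit 58) (nat_lit 5) (nat_lit 382) (nat_lit 375) (nat_lit 263)) (XT.nd (nat_lit 78) (nat_lit 380) (nat_lit 0) (XT.lf (nat_lit 0) (nat_lit 18365884376) (nat_lit 532) (nat_lit 3708930598) (nat_lit 76) (nat_lit 61251010395) (nat_lit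 57) (nat_lit 5) (nat_lit 64) (nat_lit 5) (nat_lit 58) (nat_lit 5) (nat_lit 383) (nat_lit 375) (nat_lit 262)) (XT.lf (nat_lit 0) (nat_lit 27706785786) (nat_lit 456) (nat_lit 44543862686) (nat_lit 76) (nat_lit 14732064493) (nat_lit 52) (nat_lit 5) (nat_lit 58) (nat_lit 5) (nat_lit 53) (nat_lit 5) (nat_lit 384) (nat_lit 375) (nat_lit 261))))) (XT.nd (nat_lit 156) (nat_lit 380) (nat_lit 0) (XT.nd (nat_lit 78) (nat_lit 0) (nat_lit 0) (XT.lf (nat_lit 0) (nat_lit 1040315595) (nat_lit 228) (nat_lit 37456071846) (nat_lit 304) (nat_lit 52379650908) (nat_lit 49) (nat_lit 5) (nat_lit 52) (nat_lit 5) (nat_lit 53) (nat_lit 5) (nat_lit 385) (nat_lit 375) (nat_lit 260)) (XT.lf (nat_lit 0) (nat_lit 51400676755) (nat_lit 304) (nat_lit 42214602720) (nat_lit 76) (nat_lit 1365429681) (nat_lit 49) (nat_lit 5) (nat_lit 53) (nat_lit 5) (nat_lit 50) (nat_lit 5) (nat_lit 386) (nat_lit 375) (nat_lit 259))) (XT.nd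 (nat_lit 78) (nat_lit 152) (nat_lit 0) (XT.lf (nat_lit 0) (nat_lit 8676315933) (nat_lit 228) (nat_lit 57841656459) (nat_lit 304) (nat_lit 32801329064) (nat_lit 46) (nat_lit 5) (nat_lit 49) (nat_lit 5) (nat_lit 50) (nat_lit 5) (nat_lit 387) (nat_lit 375) (nat_lit 258)) (XT.nd (nat_lit 78) (nat_lit 152) (nat_lit 0) (XT.lf (nat_lit 0) (nat_lit 66038285566) (nat_lit 228) (nat_lit 17959742332) (nat_lit 304) (nat_lit 19914683964) (nat_lit 46) (nat_lit 5) (nat_lit 49) (nat_lit 5) (nat_lit 50) (nat_lit 5) (nat_lit 388) (nat_lit 375) (nat_lit 257)) (XT.lf (nat_lit 0) (nat_lit 19485405048) (nat_lit 152) (nat_lit 84462882187) (nat_lit 228) (nat_lit 4839564672) (nat_lit 44) (nat_lit 5) (nat_lit 46) (nat_lit 5) (nat_lit 47) (nat_lit 5) (nat_lit 389) (nat_lit 375) (nat_lit 256))))))) (XT.nd (nat_lit 780) (nat_lit 760) (nat_lit 0) (XT.nd (nat_lit 390) (nat_lit 532) (nat_lit 0) (XT.nd (nat_lit 156) (nat_lit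 152) (nat_lit 0) (XT.nd (nat_lit 78) (nat_lit 228) (nat_lit 0) (XT.lf (nat_lit 0) (nat_lit 12397377211) (nat_lit 228) (nat_lit 31151744060) (nat_lit 76) (nat_lit 70359615628) (nat_lit 43) (nat_lit 5) (nat_lit 46) (nat_lit 5) (nat_lit 44) (nat_lit 5) (nat_lit 390) (nat_lit 375) (nat_lit 255)) (XT.lf (nat_lit 0) (nat_lit 31588510142) (nat_lit 304) (nat_lit 86220375920) (nat_lit 76) (nat_lit 1553415160) (nat_lit 40) (nat_lit 5) (nat_lit 44) (nat_lit 5) (nat_lit 41) (nat_lit 5) (nat_lit 391) (nat_lit 375) (nat_lit 254))) (XT.nd (nat_lit 78) (nat_lit 152) (nat_lit 0) (XT.lf (nat_lit 0) (nat_lit 54319257870) (nat_lit 304) (nat_lit 21987522729) (nat_lit 76) (nat_lit 48785024716) (nat_lit 40) (nat_lit 5) (nat_lit 44) (nat_lit 5) (nat_lit 41) (nat_lit 5) (nat_lit 392) (nat_lit 375) (nat_lit 253)) (XT.nd (nat_lit 78) (nat_lit 0) (nat_lit 0) (XT.lf (nat_lit 0) (nat_lit 49878180434) (nat_lit 152)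 (nat_lit 30189218502) (nat_lit 228) (nat_lit 51116356633) (nat_lit 38) (nat_lit 5) (nat_lit 40) (nat_lit 5) (nat_lit 41) (nat_lit 5) (nat_lit 393) (nat_lit 375) (nat_lit 252)) (XT.lf (nat_lit 0) (nat_lit 108963373921) (nat_lit 228) (nat_lit 9459707931) (nat_lit 76) (nat_lit 19252941858) (nat_lit 38) (nat_lit 5) (nat_lit 41) (nat_lit 5) (nat_lit 39) (nat_lit 5) (nat_lit 394) (nat_lit 375) (nat_lit 251))))) (XT.nd (nat_lit 156) (nat_lit 152) (nat_lit 0) (XT.nd (nat_lit 78) (nat_lit 228) (nat_lit 0) (XT.lf (nat_lit 0) (nat_lit 70895323835) (nat_lit 152) (nat_lit 71764301062) (nat_lit 228) (nat_lit 1828961007) (nat_lit 36) (nat_lit 5) (nat_lit 38) (nat_lit 5) (nat_lit 39) (nat_lit 5) (nat_lit 395) (nat_lit 375) (nat_lit 250)) (XT.lf (nat_lit 0) (nat_lit 6031121357) (nat_lit 152) (nat_lit 20223224140) (nat_lit 228) (nat_lit 125506676827) (nat_lit 33) (nat_lit 5) (nat_lit 35) (nat_lit 5) (nat_lit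 36) (nat_lit 5) (nat_lit 396) (nat_lit 375) (nat_lit 249))) (XT.nd (nat_lit 78) (nat_lit 152) (nat_lit 0) (XT.lf (nat_lit 0) (nat_lit 59401750918) (nat_lit 228) (nat_lit 64196505057) (nat_lit 76) (nat_lit 35779897930) (nat_lit 33) (nat_lit 5) (nat_lit 36) (nat_lit 5) (nat_lit 34) (nat_lit 5) (nat_lit 397) (nat_lit 375) (nat_lit 248)) (XT.nd (nat_lit 78) (nat_lit 0) (nat_lit 0) (XT.lf (nat_lit 0) (nat_lit 24562183294) (nat_lit 152) (nat_lit 71754256965) (nat_lit 228) (nat_lit 71198976760) (nat_lit 31) (nat_lit 5) (nat_lit 33) (nat_lit 5) (nat_lit 34) (nat_lit 5) (nat_lit 398) (nat_lit 375) (nat_lit 247)) (XT.lf (nat_lit 0) (nat_lit 124071698540) (nat_lit 152) (nat_lit 13867363136) (nat_lit 228) (nat_lit 38224219252) (nat_lit 31) (nat_lit 5) (nat_lit 33) (nat_lit 5) (nat_lit 34) (nat_lit 5) (nat_lit 399) (nat_lit 375) (nat_lit 246)))))) (XT.nd (nat_lit 390) (nat_lit 380) (nat_lit 0) (XT.nd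 (nat_lit 156) (nat_lit 228) (nat_lit 0) (XT.nd (nat_lit 78) (nat_lit 76) (nat_lit 0) (XT.lf (nat_lit 0) (nat_lit 47230883314) (nat_lit 76) (nat_lit 137966099116) (nat_lit 152) (nat_lit 121552629) (nat_lit 30) (nat_lit 5) (nat_lit 31) (nat_lit 5) (nat_lit 32) (nat_lit 4) (nat_lit 400) (nat_lit 375) (nat_lit 245)) (XT.lf (nat_lit 0) (nat_lit 40797880936) (nat_lit 152) (nat_lit 39015326132) (nat_lit 76) (nat_lit 115168381649) (nat_lit 29) (nat_lit 5) (nat_lit 31) (nat_lit 5) (nat_lit 30) (nat_lit 5) (nat_lit 401) (nat_lit 375) (nat_lit 244))) (XT.nd (nat_lit 78) (nat_lit 76) (nat_lit 0) (XT.lf (nat_lit 0) (nat_lit 71558576576) (nat_lit 152) (nat_lit 15146289913) (nat_lit 228) (nat_lit 118574922676) (nat_lit 27) (nat_lit 5) (nat_lit 29) (nat_lit 5) (nat_lit 30) (nat_lit 5) (nat_lit 402) (nat_lit 375) (nat_lit 243)) (XT.nd (nat_lit 78) (nat_lit 76) (nat_lit 0) (XT.lf (nat_lit 0) (nat_lit 138693845238)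 (nat_lit 228) (nat_lit 24463087267) (nat_lit 76) (nat_lit 53052158602) (nat_lit 27) (nat_lit 5) (nat_lit 30) (nat_lit 5) (nat_lit 28) (nat_lit 4) (nat_lit 403) (nat_lit 375) (nat_lit 242)) (XT.lf (nat_lit 0) (nat_lit 98046293373) (nat_lit 76) (nat_lit 99546692253) (nat_lit 152) (nat_lit 30199668301) (nat_lit 26) (nat_lit 5) (nat_lit 27) (nat_lit 5) (nat_lit 28) (nat_lit 4) (nat_lit 404) (nat_lit 375) (nat_lit 241))))) (XT.nd (nat_lit 156) (nat_lit 152) (nat_lit 0) (XT.nd (nat_lit 78) (nat_lit 152) (nat_lit 0) (XT.lf (nat_lit 0) (nat_lit 20541452937) (nat_lit 152) (nat_lit 9022437875) (nat_lit 76) (nat_lit 210643928627) (nat_lit 25) (nat_lit 5) (nat_lit 27) (nat_lit 5) (nat_lit 26) (nat_lit 5) (nat_lit 405) (nat_lit 375) (nat_lit 240)) (XT.lf (nat_lit 0) (nat_lit 77968838969) (nat_lit 228) (nat_lit 127592036495) (nat_lit 76) (nat_lit 47651886993) (nat_lit 23) (nat_lit 5) (nat_lit 26) (nat_lit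 5) (nat_lit 24) (nat_lit 4) (nat_lit 406) (nat_lit 375) (nat_lit 239))) (XT.nd (nat_lit 78) (nat_lit 76) (nat_lit 0) (XT.lf (nat_lit 0) (nat_lit 3721328880) (nat_lit 76) (nat_lit 137379229537) (nat_lit 152) (nat_lit 126068731235) (nat_lit 22) (nat_lit 5) (nat_lit 23) (nat_lit 5) (nat_lit 24) (nat_lit 4) (nat_lit 407) (nat_lit 375) (nat_lit 238)) (XT.nd (nat_lit 78) (nat_lit 76) (nat_lit 0) (XT.lf (nat_lit 0) (nat_lit 152795433833) (nat_lit 76) (nat_lit 59975639376) (nat_lit 152) (nat_lit 69192205322) (nat_lit 22) (nat_lit 5) (nat_lit 23) (nat_lit 5) (nat_lit 24) (nat_lit 4) (nat_lit 408) (nat_lit 375) (nat_lit 237)) (XT.lf (nat_lit 0) (nat_lit 16090972798) (nat_lit 76) (nat_lit 275038996192) (nat_lit 76) (nat_lit 6734438465) (nat_lit 21) (nat_lit 4) (nat_lit 22) (nat_lit 5) (nat_lit 22) (nat_lit 4) (nat_lit 409) (nat_lit 375) (nat_lit 236))))))))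
noncomputable def xc186 : XT := (XT.nd (nat_lit 1482) (nat_lit 456) (nat_lit 0) (XT.nd (nat_lit 702) (nat_lit 456) (nat_lit 0) (XT.nd (nat_lit 312) (nat_lit 228) (nat_lit 0) (XT.nd (nat_lit 156) (nat_lit 76) (nat_lit 0) (XT.nd (nat_lit 78) (nat_lit 76) (nat_lit 0) (XT.lf (nat_lit 0) (nat_lit 62863396485) (nat_lit 152) (nat_lit 137549142198) (nat_lit 76) (nat_lit 114093790447) (nat_lit 20) (nat_lit 5) (nat_lit 22) (nat_lit 5) (nat_lit 21) (nat_lit 4) (nat_lit 410) (nat_lit 375) (nat_lit 235)) (XT.lf (nat_lit 0) (nat_lit 18987467803) (nat_lit 76) (nat_lit 119134114206) (nat_lit 152) (nat_lit 194307520317) (nat_lit 19) (nat_lit 5) (nat_lit 20) (nat_lit 5) (nat_lit 21) (nat_lit 4) (nat_lit 411) (nat_lit 375) (nat_lit 234))) (XT.nd (nat_lit 78) (nat_lit 76) (nat_lit 0) (XT.lf (nat_lit 0) (nat_lit 195869026342) (nat_lit 76) (nat_lit 27291951639) (nat_lit 152) (nat_lit 128323875036) (nat_lit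 19) (nat_lit 5) (nat_lit 20) (nat_lit 5) (nat_lit 21) (nat_lit 4) (nat_lit 412) (nat_lit 375) (nat_lit 233)) (XT.lf (nat_lit 0) (nat_lit 13796568613) (nat_lit 76) (nat_lit 303267637267) (nat_lit 76) (nat_lit 54836003545) (nat_lit 18) (nat_lit 4) (nat_lit 19) (nat_lit 5) (nat_lit 19) (nat_lit 4) (nat_lit 413) (nat_lit 375) (nat_lit 232)))) (XT.nd (nat_lit 156) (nat_lit 152) (nat_lit 0) (XT.nd (nat_lit 78) (nat_lit 0) (nat_lit 0) (XT.lf (nat_lit 0) (nat_lit 28377706824) (nat_lit 152) (nat_lit 189406309216) (nat_lit 76) (nat_lit 175711665359) (nat_lit 17) (nat_lit 5) (nat_lit 19) (nat_lit 5) (nat_lit 18) (nat_lit 4) (nat_lit 414) (nat_lit 375) (nat_lit 231)) (XT.lf (nat_lit 0) (nat_lit 115285700213) (nat_lit 152) (nat_lit 8637966017) (nat_lit 76) (nat_lit 292781199650) (nat_lit 17) (nat_lit 5) (nat_lit 19) (nat_lit 5) (nat_lit 18) (nat_lit 4) (nat_lit 415) (nat_lit 375) (nat_lit 230))) (XT.nd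 (nat_lit 78) (nat_lit 76) (nat_lit 0) (XT.lf (nat_lit 0) (nat_lit 196416989089) (nat_lit 76) (nat_lit 17452950156) (nat_lit 152) (nat_lit 227522957438) (nat_lit 16) (nat_lit 5) (nat_lit 17) (nat_lit 5) (nat_lit 18) (nat_lit 4) (nat_lit 416) (nat_lit 375) (nat_lit 229)) (XT.nd (nat_lit 78) (nat_lit 76) (nat_lit 0) (XT.lf (nat_lit 0) (nat_lit 322928733330) (nat_lit 152) (nat_lit 52021781044) (nat_lit 0) (nat_lit 92898430358) (nat_lit 16) (nat_lit 5) (nat_lit 18) (nat_lit 4) (nat_lit 16) (nat_lit 4) (nat_lit 417) (nat_lit 375) (nat_lit 228)) (XT.lf (nat_lit 0) (nat_lit 164125158391) (nat_lit 76) (nat_lit 280987401495) (nat_lit 76) (nat_lit 50956890475) (nat_lit 15) (nat_lit 4) (nat_lit 16) (nat_lit 5) (nat_lit 16) (nat_lit 4) (nat_lit 418) (nat_lit 375) (nat_lit 227)))))) (XT.nd (nat_lit 390) (nat_lit 228) (nat_lit 0) (XT.nd (nat_lit 156) (nat_lit 76) (nat_lit 0) (XT.nd (nat_lit 78) (nat_lit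 76) (nat_lit 0) (XT.lf (nat_lit 0) (nat_lit 49455210871) (nat_lit 152) (nat_lit 127163865044) (nat_lit 76) (nat_lit 349714584894) (nat_lit 14) (nat_lit 5) (nat_lit 16) (nat_lit 5) (nat_lit 15) (nat_lit 4) (nat_lit 419) (nat_lit 375) (nat_lit 226)) (XT.lf (nat_lit 0) (nat_lit 97555175151) (nat_lit 76) (nat_lit 59938121568) (nat_lit 152) (nat_lit 401232146004) (nat_lit 13) (nat_lit 5) (nat_lit 14) (nat_lit 5) (nat_lit 15) (nat_lit 4) (nat_lit 420) (nat_lit 375) (nat_lit 225))) (XT.nd (nat_lit 78) (nat_lit 76) (nat_lit 0) (XT.lf (nat_lit 0) (nat_lit 279330593546) (nat_lit 152) (nat_lit 247626597360) (nat_lit 0) (nat_lit 66338883193) (nat_lit 13) (nat_lit 5) (nat_lit 15) (nat_lit 4) (nat_lit 13) (nat_lit 4) (nat_lit 421) (nat_lit 375) (nat_lit 224)) (XT.nd (nat_lit 78) (nat_lit 76) (nat_lit 0) (XT.lf (nat_lit 0) (nat_lit 412471531685) (nat_lit 152) (nat_lit 18556611990) (nat_lit 0) (nat_lit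 199479679738) (nat_lit 13) (nat_lit 5) (nat_lit 15) (nat_lit 4) (nat_lit 13) (nat_lit 4) (nat_lit 422) (nat_lit 375) (nat_lit 223)) (XT.lf (nat_lit 0) (nat_lit 240888891528) (nat_lit 76) (nat_lit 321168073317) (nat_lit 76) (nat_lit 108176090264) (nat_lit 12) (nat_lit 4) (nat_lit 13) (nat_lit 5) (nat_lit 13) (nat_lit 4) (nat_lit 423) (nat_lit 375) (nat_lit 222))))) (XT.nd (nat_lit 156) (nat_lit 76) (nat_lit 0) (XT.nd (nat_lit 78) (nat_lit 76) (nat_lit 0) (XT.lf (nat_lit 0) (nat_lit 10469415023) (nat_lit 152) (nat_lit 191215721199) (nat_lit 76) (nat_lit 511389388338) (nat_lit 11) (nat_lit 5) (nat_lit 13) (nat_lit 5) (nat_lit 12) (nat_lit 4) (nat_lit 424) (nat_lit 375) (nat_lit 221)) (XT.lf (nat_lit 0) (nat_lit 66478453951) (nat_lit 76) (nat_lit 67882445472) (nat_lit 152) (nat_lit 624629738096) (nat_lit 10) (nat_lit 5) (nat_lit 11) (nat_lit 5) (nat_lit 12) (nat_lit 4) (nat_lit 425) (nat_lit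 375) (nat_lit 220))) (XT.nd (nat_lit 78) (nat_lit 76) (nat_lit 0) (XT.lf (nat_lit 0) (nat_lit 275370345955) (nat_lit 152) (nat_lit 454477928127) (nat_lit 0) (nat_lit 78155233987) (nat_lit 10) (nat_lit 5) (nat_lit 12) (nat_lit 4) (nat_lit 10) (nat_lit 4) (nat_lit 426) (nat_lit 375) (nat_lit 219)) (XT.nd (nat_lit 78) (nat_lit 76) (nat_lit 0) (XT.lf (nat_lit 0) (nat_lit 429423589521) (nat_lit 152) (nat_lit 199164387133) (nat_lit 0) (nat_lit 232208388324) (nat_lit 10) (nat_lit 5) (nat_lit 12) (nat_lit 4) (nat_lit 10) (nat_lit 4) (nat_lit 427) (nat_lit 375) (nat_lit 218)) (XT.lf (nat_lit 0) (nat_lit 80606233233) (nat_lit 76) (nat_lit 517133312400) (nat_lit 76) (nat_lit 319918028585) (nat_lit 9) (nat_lit 4) (nat_lit 10) (nat_lit 5) (nat_lit 10) (nat_lit 4) (nat_lit 428) (nat_lit 375) (nat_lit 217))))))) (XT.nd (nat_lit 780) (nat_lit 228) (nat_lit 0) (XT.nd (nat_lit 390) (nat_lit 76) (nat_lit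 0) (XT.nd (nat_lit 156) (nat_lit 152) (nat_lit 0) (XT.nd (nat_lit 78) (nat_lit 0) (nat_lit 0) (XT.lf (nat_lit 0) (nat_lit 394084910685) (nat_lit 76) (nat_lit 390881249638) (nat_lit 76) (nat_lit 193665889324) (nat_lit 9) (nat_lit 4) (nat_lit 10) (nat_lit 5) (nat_lit 10) (nat_lit 4) (nat_lit 429) (nat_lit 375) (nat_lit 216)) (XT.lf (nat_lit 0) (nat_lit 732641652967) (nat_lit 76) (nat_lit 254529135291) (nat_lit 76) (nat_lit 57313704145) (nat_lit 9) (nat_lit 4) (nat_lit 10) (nat_lit 5) (nat_lit 10) (nat_lit 4) (nat_lit 430) (nat_lit 375) (nat_lit 215))) (XT.nd (nat_lit 78) (nat_lit 76) (nat_lit 0) (XT.lf (nat_lit 0) (nat_lit 85447049690) (nat_lit 152) (nat_lit 19485633375) (nat_lit 76) (nat_lit 1010499398802) (nat_lit 8) (nat_lit 5) (nat_lit 10) (nat_lit 5) (nat_lit 9) (nat_lit 4) (nat_lit 431) (nat_lit 375) (nat_lit 214)) (XT.nd (nat_lit 78) (nat_lit 0) (nat_lit 0) (XT.lf (nat_lit 0) (nat_lit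 245589182894) (nat_lit 152) (nat_lit 882640461130) (nat_lit 0) (nat_lit 62982185247) (nat_lit 7) (nat_lit 5) (nat_lit 9) (nat_lit 4) (nat_lit 7) (nat_lit 4) (nat_lit 432) (nat_lit 375) (nat_lit 213)) (XT.lf (nat_lit 0) (nat_lit 421814719446) (nat_lit 152) (nat_lit 611769804684) (nat_lit 0) (nat_lit 239207669734) (nat_lit 7) (nat_lit 5) (nat_lit 9) (nat_lit 4) (nat_lit 7) (nat_lit 4) (nat_lit 433) (nat_lit 375) (nat_lit 212))))) (XT.nd (nat_lit 156) (nat_lit 76) (nat_lit 0) (XT.nd (nat_lit 78) (nat_lit 0) (nat_lit 0) (XT.lf (nat_lit 0) (nat_lit 612138204923) (nat_lit 152) (nat_lit 319229683230) (nat_lit 0) (nat_lit 429531107004) (nat_lit 7) (nat_lit 5) (nat_lit 9) (nat_lit 4) (nat_lit 7) (nat_lit 4) (nat_lit 434) (nat_lit 375) (nat_lit 211)) (XT.lf (nat_lit 0) (nat_lit 817687482201) (nat_lit 152) (nat_lit 3286525680) (nat_lit 0) (nat_lit 635080339646) (nat_lit 7) (nat_lit 5) (nat_lit 9)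 (nat_lit 4) (nat_lit 7) (nat_lit 4) (nat_lit 435) (nat_lit 375) (nat_lit 210))) (XT.nd (nat_lit 78) (nat_lit 0) (nat_lit 0) (XT.lf (nat_lit 0) (nat_lit 355726819950) (nat_lit 76) (nat_lit 692509039697) (nat_lit 76) (nat_lit 509901855811) (nat_lit 6) (nat_lit 4) (nat_lit 7) (nat_lit 5) (nat_lit 7) (nat_lit 4) (nat_lit 436) (nat_lit 375) (nat_lit 209)) (XT.nd (nat_lit 78) (nat_lit 0) (nat_lit 0) (XT.lf (nat_lit 0) (nat_lit 743647984171) (nat_lit 76) (nat_lit 553669904166) (nat_lit 76) (nat_lit 371062682012) (nat_lit 6) (nat_lit 4) (nat_lit 7) (nat_lit 5) (nat_lit 7) (nat_lit 4) (nat_lit 437) (nat_lit 375) (nat_lit 208)) (XT.lf (nat_lit 0) (nat_lit 1162602696448) (nat_lit 76) (nat_lit 403723710294) (nat_lit 76) (nat_lit 221116452706) (nat_lit 6) (nat_lit 4) (nat_lit 7) (nat_lit 5) (nat_lit 7) (nat_lit 4) (nat_lit 438) (nat_lit 375) (nat_lit 207)))))) (XT.nd (nat_lit 390) (nat_lit 76) (nat_lit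 0) (XT.nd (nat_lit 156) (nat_lit 0) (nat_lit 0) (XT.nd (nat_lit 78) (nat_lit 152) (nat_lit 0) (XT.lf (nat_lit 0) (nat_lit 1615073651371) (nat_lit 76) (nat_lit 241781888042) (nat_lit 76) (nat_lit 59174597645) (nat_lit 6) (nat_lit 4) (nat_lit 7) (nat_lit 5) (nat_lit 7) (nat_lit 4) (nat_lit 439) (nat_lit 375) (nat_lit 206)) (XT.lf (nat_lit 0) (nat_lit 48479781625) (nat_lit 76) (nat_lit 62619786836) (nat_lit 152) (nat_lit 1943488907820) (nat_lit 4) (nat_lit 5) (nat_lit 5) (nat_lit 5) (nat_lit 6) (nat_lit 4) (nat_lit 440) (nat_lit 375) (nat_lit 205))) (XT.nd (nat_lit 78) (nat_lit 0) (nat_lit 0) (XT.lf (nat_lit 0) (nat_lit 303388608359) (nat_lit 152) (nat_lit 1765484991883) (nat_lit 0) (nat_lit 134307729744) (nat_lit 4) (nat_lit 5) (nat_lit 6) (nat_lit 4) (nat_lit 4) (nat_lit 4) (nat_lit 441) (nat_lit 375) (nat_lit 204)) (XT.nd (nat_lit 78) (nat_lit 0) (nat_lit 0) (XT.lf (nat_lit 0) (nat_lit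 512687200514) (nat_lit 152) (nat_lit 1507237999369) (nat_lit 0) (nat_lit 343606297783) (nat_lit 4) (nat_lit 5) (nat_lit 6) (nat_lit 4) (nat_lit 4) (nat_lit 4) (nat_lit 442) (nat_lit 375) (nat_lit 203)) (XT.lf (nat_lit 0) (nat_lit 738729625500) (nat_lit 152) (nat_lit 1228331357189) (nat_lit 0) (nat_lit 569648700440) (nat_lit 4) (nat_lit 5) (nat_lit 6) (nat_lit 4) (nat_lit 4) (nat_lit 4) (nat_lit 443) (nat_lit 375) (nat_lit 202))))) (XT.nd (nat_lit 156) (nat_lit 76) (nat_lit 0) (XT.nd (nat_lit 78) (nat_lit 0) (nat_lit 0) (XT.lf (nat_lit 0) (nat_lit 982855393985) (nat_lit 152) (nat_lit 927112285240) (nat_lit 0) (nat_lit 813774448250) (nat_lit 4) (nat_lit 5) (nat_lit 6) (nat_lit 4) (nat_lit 4) (nat_lit 4) (nat_lit 444) (nat_lit 375) (nat_lit 201)) (XT.lf (nat_lit 0) (nat_lit 1246511177189) (nat_lit 152) (nat_lit 601795781616) (nat_lit 0) (nat_lit 1077430212310) (nat_lit 4) (nat_lit 5) (nat_lit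 6) (nat_lit 4) (nat_lit 4) (nat_lit 4) (nat_lit 445) (nat_lit 375) (nat_lit 200))) (XT.nd (nat_lit 78) (nat_lit 76) (nat_lit 0) (XT.lf (nat_lit 0) (nat_lit 1531259379753) (nat_lit 152) (nat_lit 250454044812) (nat_lit 0) (nat_lit 1362178397148) (nat_lit 4) (nat_lit 5) (nat_lit 6) (nat_lit 4) (nat_lit 4) (nat_lit 4) (nat_lit 446) (nat_lit 375) (nat_lit 199)) (XT.nd (nat_lit 78) (nat_lit 0) (nat_lit 0) (XT.lf (nat_lit 0) (nat_lit 135787595760) (nat_lit 76) (nat_lit 1706265497616) (nat_lit 76) (nat_lit 1537184498598) (nat_lit 3) (nat_lit 4) (nat_lit 4) (nat_lit 5) (nat_lit 4) (nat_lit 4) (nat_lit 447) (nat_lit 375) (nat_lit 198)) (XT.lf (nat_lit 0) (nat_lit 567172032413) (nat_lit 76) (nat_lit 1617386090095) (nat_lit 76) (nat_lit 1448305075880) (nat_lit 3) (nat_lit 4) (nat_lit 4) (nat_lit 5) (nat_lit 4) (nat_lit 4) (nat_lit 448) (nat_lit 375) (nat_lit 197))))))))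
noncomputable def xc187 : XT := (XT.nd (nat_lit 48360) (nat_lit 0) (nat_lit 1520) (XT.nd (nat_lit 47580) (nat_lit 0) (nat_lit 3496) (XT.nd (nat_lit 312) (nat_lit 0) (nat_lit 0) (XT.nd (nat_lit 156) (nat_lit 0) (nat_lit 0) (XT.nd (nat_lit 78) (nat_lit 0) (nat_lit 0) (XT.lf (nat_lit 0) (nat_lit 1033067151205) (nat_lit 76) (nat_lit 1521396366644) (nat_lit 76) (nat_lit 1352315338358) (nat_lit 3) (nat_lit 4) (nat_lit 4) (nat_lit 5) (nat_lit 4) (nat_lit 4) (nat_lit 449) (nat_lit 375) (nat_lit 196)) (XT.lf (nat_lit 0) (nat_lit 1536233812099) (nat_lit 76) (nat_lit 1417727499273) (nat_lit 76) (nat_lit 1248646457958) (nat_lit 3) (nat_lit 4) (nat_lit 4) (nat_lit 5) (nat_lit 4) (nat_lit 4) (nat_lit 450) (nat_lit 375) (nat_lit 195))) (XT.nd (nat_lit 78) (nat_lit 0) (nat_lit 0) (XT.lf (nat_lit 0) (nat_lit 2079653743457) (nat_lit 76) (nat_lit 1305765153953) (nat_lit 76) (nat_lit 1136684100574) (nat_lit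 3) (nat_lit 4) (nat_lit 4) (nat_lit 5) (nat_lit 4) (nat_lit 4) (nat_lit 451) (nat_lit 375) (nat_lit 194)) (XT.lf (nat_lit 0) (nat_lit 2666547211539) (nat_lit 76) (nat_lit 1184845850119) (nat_lit 76) (nat_lit 1015764785570) (nat_lit 3) (nat_lit 4) (nat_lit 4) (nat_lit 5) (nat_lit 4) (nat_lit 4) (nat_lit 452) (nat_lit 375) (nat_lit 193)))) (XT.nd (nat_lit 156) (nat_lit 0) (nat_lit 0) (XT.nd (nat_lit 78) (nat_lit 0) (nat_lit 0) (XT.lf (nat_lit 0) (nat_lit 3300392103562) (nat_lit 76) (nat_lit 1054253028933) (nat_lit 76) (nat_lit 885171954042) (nat_lit 3) (nat_lit 4) (nat_lit 4) (nat_lit 5) (nat_lit 4) (nat_lit 4) (nat_lit 453) (nat_lit 375) (nat_lit 192)) (XT.lf (nat_lit 0) (nat_lit 3984944537405) (nat_lit 76) (nat_lit 913212807011) (nat_lit 76) (nat_lit 744131722543) (nat_lit 3) (nat_lit 4) (nat_lit 4) (nat_lit 5) (nat_lit 4) (nat_lit 4) (nat_lit 454) (nat_lit 375) (nat_lit 191))) (XT.nd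 (nat_lit 46956) (nat_lit 0) (nat_lit 4408) (XT.lf (nat_lit 0) (nat_lit 4724261120085) (nat_lit 76) (nat_lit 760889390445) (nat_lit 76) (nat_lit 591808297109) (nat_lit 3) (nat_lit 4) (nat_lit 4) (nat_lit 5) (nat_lit 4) (nat_lit 4) (nat_lit 455) (nat_lit 375) (nat_lit 190)) (XT.nd (nat_lit 78) (nat_lit 0) (nat_lit 0) (XT.lf (nat_lit 0) (nat_lit 27455304070) (nat_lit 532) (nat_lit 2520248841) (nat_lit 532) (nat_lit 2520248841) (nat_lit 61) (nat_lit 3) (nat_lit 68) (nat_lit 3) (nat_lit 68) (nat_lit 5) (nat_lit 376) (nat_lit 376) (nat_lit 268)) (XT.lf (nat_lit 76) (nat_lit 27673233259) (nat_lit 0) (nat_lit 30113794760) (nat_lit 532) (nat_lit 9749822330) (nat_lit 62) (nat_lit 5) (nat_lit 61) (nat_lit 3) (nat_lit 68) (nat_lit 5) (nat_lit 377) (nat_lit 376) (nat_lit 267)))))) (XT.nd (nat_lit 390) (nat_lit 532) (nat_lit 0) (XT.nd (nat_lit 156) (nat_lit 456) (nat_lit 0) (XT.nd (nat_lit 78) (nat_lit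 0) (nat_lit 0) (XT.lf (nat_lit 0) (nat_lit 61084264485) (nat_lit 456) (nat_lit 7039266061) (nat_lit 532) (nat_lit 2146931919) (nat_lit 62) (nat_lit 5) (nat_lit 68) (nat_lit 5) (nat_lit 69) (nat_lit 5) (nat_lit 378) (nat_lit 376) (nat_lit 266)) (XT.lf (nat_lit 76) (nat_lit 29082810008) (nat_lit 0) (nat_lit 37042745677) (nat_lit 532) (nat_lit 6978787436) (nat_lit 63) (nat_lit 5) (nat_lit 62) (nat_lit 5) (nat_lit 69) (nat_lit 5) (nat_lit 379) (nat_lit 376) (nat_lit 265))) (XT.nd (nat_lit 78) (nat_lit 456) (nat_lit 0) (XT.lf (nat_lit 76) (nat_lit 68494117407) (nat_lit 0) (nat_lit 3267234528) (nat_lit 532) (nat_lit 4388287666) (nat_lit 63) (nat_lit 5) (nat_lit 62) (nat_lit 5) (nat_lit 69) (nat_lit 5) (nat_lit 380) (nat_lit 376) (nat_lit 264)) (XT.nd (nat_lit 78) (nat_lit 0) (nat_lit 0) (XT.lf (nat_lit 0) (nat_lit 107802704) (nat_lit 532) (nat_lit 46871974557) (nat_lit 608) (nat_lit 32332341258)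 (nat_lit 56) (nat_lit 5) (nat_lit 63) (nat_lit 5) (nat_lit 64) (nat_lit 5) (nat_lit 381) (nat_lit 376) (nat_lit 263)) (XT.lf (nat_lit 0) (nat_lit 5024987780) (nat_lit 532) (nat_lit 6737233913) (nat_lit 608) (nat_lit 70932377620) (nat_lit 56) (nat_lit 5) (nat_lit 63) (nat_lit 5) (nat_lit 64) (nat_lit 5) (nat_lit 382) (nat_lit 376) (nat_lit 262))))) (XT.nd (nat_lit 156) (nat_lit 608) (nat_lit 0) (XT.nd (nat_lit 78) (nat_lit 0) (nat_lit 0) (XT.lf (nat_lit 0) (nat_lit 11917210585) (nat_lit 532) (nat_lit 48394461954) (nat_lit 76) (nat_lit 25909474111) (nat_lit 57) (nat_lit 5) (nat_lit 64) (nat_lit 5) (nat_lit 58) (nat_lit 5) (nat_lit 383) (nat_lit 376) (nat_lit 261)) (XT.lf (nat_lit 0) (nat_lit 19854333005) (nat_lit 532) (nat_lit 3987441796) (nat_lit 76) (nat_lit 66148562259) (nat_lit 57) (nat_lit 5) (nat_lit 64) (nat_lit 5) (nat_lit 58) (nat_lit 5) (nat_lit 384) (nat_lit 376) (nat_lit 260)))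 (XT.nd (nat_lit 78) (nat_lit 228) (nat_lit 0) (XT.lf (nat_lit 0) (nat_lit 29941502030) (nat_lit 456) (nat_lit 48088145335) (nat_lit 76) (nat_lit 15910210149) (nat_lit 52) (nat_lit 5) (nat_lit 58) (nat_lit 5) (nat_lit 53) (nat_lit 5) (nat_lit 385) (nat_lit 376) (nat_lit 259)) (XT.nd (nat_lit 78) (nat_lit 0) (nat_lit 0) (XT.lf (nat_lit 0) (nat_lit 1142280465) (nat_lit 228) (nat_lit 40451095864) (nat_lit 304) (nat_lit 56551345618) (nat_lit 49) (nat_lit 5) (nat_lit 52) (nat_lit 5) (nat_lit 53) (nat_lit 5) (nat_lit 386) (nat_lit 376) (nat_lit 258)) (XT.lf (nat_lit 0) (nat_lit 55528761495) (nat_lit 304) (nat_lit 45573156180) (nat_lit 76) (nat_lit 1475949804) (nat_lit 49) (nat_lit 5) (nat_lit 53) (nat_lit 5) (nat_lit 50) (nat_lit 5) (nat_lit 387) (nat_lit 376) (nat_lit 257))))))) (XT.nd (nat_lit 780) (nat_lit 760) (nat_lit 0) (XT.nd (nat_lit 390) (nat_lit 532) (nat_lit 0) (XT.nd (nat_lit 156)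 (nat_lit 456) (nat_lit 0) (XT.nd (nat_lit 78) (nat_lit 0) (nat_lit 0) (XT.lf (nat_lit 0) (nat_lit 9388564706) (nat_lit 228) (nat_lit 62466124978) (nat_lit 304) (nat_lit 35408918751) (nat_lit 46) (nat_lit 5) (nat_lit 49) (nat_lit 5) (nat_lit 50) (nat_lit 5) (nat_lit 388) (nat_lit 376) (nat_lit 256)) (XT.lf (nat_lit 0) (nat_lit 71338147946) (nat_lit 228) (nat_lit 19393869869) (nat_lit 304) (nat_lit 21492565497) (nat_lit 46) (nat_lit 5) (nat_lit 49) (nat_lit 5) (nat_lit 50) (nat_lit 5) (nat_lit 389) (nat_lit 376) (nat_lit 255))) (XT.nd (nat_lit 78) (nat_lit 304) (nat_lit 0) (XT.lf (nat_lit 0) (nat_lit 21061666018) (nat_lit 152) (nat_lit 91216062114) (nat_lit 228) (nat_lit 5212053023) (nat_lit 44) (nat_lit 5) (nat_lit 46) (nat_lit 5) (nat_lit 47) (nat_lit 5) (nat_lit 390) (nat_lit 376) (nat_lit 254)) (XT.nd (nat_lit 78) (nat_lit 228) (nat_lit 0) (XT.lf (nat_lit 0) (nat_lit 13402077229) (nat_lit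 228) (nat_lit 33627055350) (nat_lit 76) (nat_lit 75991259621) (nat_lit 43) (nat_lit 5) (nat_lit 46) (nat_lit 5) (nat_lit 44) (nat_lit 5) (nat_lit 391) (nat_lit 376) (nat_lit 253)) (XT.lf (nat_lit 0) (nat_lit 34128036486) (nat_lit 304) (nat_lit 93100703393) (nat_lit 76) (nat_lit 1681539739) (nat_lit 40) (nat_lit 5) (nat_lit 44) (nat_lit 5) (nat_lit 41) (nat_lit 5) (nat_lit 392) (nat_lit 376) (nat_lit 252))))) (XT.nd (nat_lit 156) (nat_lit 380) (nat_lit 0) (XT.nd (nat_lit 78) (nat_lit 152) (nat_lit 0) (XT.lf (nat_lit 0) (nat_lit 58676322141) (nat_lit 304) (nat_lit 23730503621) (nat_lit 76) (nat_lit 52691392774) (nat_lit 40) (nat_lit 5) (nat_lit 44) (nat_lit 5) (nat_lit 41) (nat_lit 5) (nat_lit 393) (nat_lit 376) (nat_lit 251)) (XT.lf (nat_lit 0) (nat_lit 53884050202) (nat_lit 152) (nat_lit 32599786236) (nat_lit 228) (nat_lit 55193727305) (nat_lit 38) (nat_lit 5) (nat_lit 40) (nat_lit 5)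 (nat_lit 41) (nat_lit 5) (nat_lit 394) (nat_lit 376) (nat_lit 250))) (XT.nd (nat_lit 78) (nat_lit 380) (nat_lit 0) (XT.lf (nat_lit 0) (nat_lit 117690772992) (nat_lit 228) (nat_lit 10201301509) (nat_lit 76) (nat_lit 20797196789) (nat_lit 38) (nat_lit 5) (nat_lit 41) (nat_lit 5) (nat_lit 39) (nat_lit 5) (nat_lit 395) (nat_lit 376) (nat_lit 249)) (XT.nd (nat_lit 78) (nat_lit 228) (nat_lit 0) (XT.lf (nat_lit 0) (nat_lit 76581748418) (nat_lit 152) (nat_lit 77500566415) (nat_lit 228) (nat_lit 1964556956) (nat_lit 36) (nat_lit 5) (nat_lit 38) (nat_lit 5) (nat_lit 39) (nat_lit 5) (nat_lit 396) (nat_lit 376) (nat_lit 248)) (XT.lf (nat_lit 0) (nat_lit 6528564490) (nat_lit 152) (nat_lit 21835918487) (nat_lit 228) (nat_lit 135536631606) (nat_lit 33) (nat_lit 5) (nat_lit 35) (nat_lit 5) (nat_lit 36) (nat_lit 5) (nat_lit 397) (nat_lit 376) (nat_lit 247)))))) (XT.nd (nat_lit 390) (nat_lit 456) (nat_lit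 0) (XT.nd (nat_lit 156) (nat_lit 152) (nat_lit 0) (XT.nd (nat_lit 78) (nat_lit 152) (nat_lit 0) (XT.lf (nat_lit 0) (nat_lit 64163070644) (nat_lit 228) (nat_lit 69317763641) (nat_lit 76) (nat_lit 38646831691) (nat_lit 33) (nat_lit 5) (nat_lit 36) (nat_lit 5) (nat_lit 34) (nat_lit 5) (nat_lit 398) (nat_lit 376) (nat_lit 246)) (XT.lf (nat_lit 0) (nat_lit 26541253656) (nat_lit 152) (nat_lit 77489340504) (nat_lit 228) (nat_lit 76885343692) (nat_lit 31) (nat_lit 5) (nat_lit 33) (nat_lit 5) (nat_lit 34) (nat_lit 5) (nat_lit 399) (nat_lit 376) (nat_lit 245))) (XT.nd (nat_lit 78) (nat_lit 152) (nat_lit 0) (XT.lf (nat_lit 0) (nat_lit 134010485996) (nat_lit 152) (nat_lit 14971884578) (nat_lit 228) (nat_lit 41273313080) (nat_lit 31) (nat_lit 5) (nat_lit 33) (nat_lit 5) (nat_lit 34) (nat_lit 5) (nat_lit 400) (nat_lit 376) (nat_lit 244)) (XT.nd (nat_lit 78) (nat_lit 76) (nat_lit 0) (XT.lf (nat_lit 0)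 (nat_lit 51022604077) (nat_lit 76) (nat_lit 148998141752) (nat_lit 152) (nat_lit 122626992) (nat_lit 30) (nat_lit 5) (nat_lit 31) (nat_lit 5) (nat_lit 32) (nat_lit 4) (nat_lit 401) (nat_lit 376) (nat_lit 243)) (XT.lf (nat_lit 0) (nat_lit 44069319879) (nat_lit 152) (nat_lit 42123878971) (nat_lit 76) (nat_lit 124386304291) (nat_lit 29) (nat_lit 5) (nat_lit 31) (nat_lit 5) (nat_lit 30) (nat_lit 5) (nat_lit 402) (nat_lit 376) (nat_lit 242))))) (XT.nd (nat_lit 156) (nat_lit 304) (nat_lit 0) (XT.nd (nat_lit 78) (nat_lit 0) (nat_lit 0) (XT.lf (nat_lit 0) (nat_lit 77295615112) (nat_lit 152) (nat_lit 16352982651) (nat_lit 228) (nat_lit 128052983481) (nat_lit 27) (nat_lit 5) (nat_lit 29) (nat_lit 5) (nat_lit 30) (nat_lit 5) (nat_lit 403) (nat_lit 376) (nat_lit 241)) (XT.lf (nat_lit 0) (nat_lit 149796262539) (nat_lit 228) (nat_lit 26408261135) (nat_lit 76) (nat_lit 57300738523) (nat_lit 27) (nat_lit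 5) (nat_lit 30) (nat_lit 5) (nat_lit 28) (nat_lit 4) (nat_lit 404) (nat_lit 376) (nat_lit 240))) (XT.nd (nat_lit 78) (nat_lit 228) (nat_lit 0) (XT.lf (nat_lit 0) (nat_lit 105901569371) (nat_lit 76) (nat_lit 107505531277) (nat_lit 152) (nat_lit 32608428328) (nat_lit 26) (nat_lit 5) (nat_lit 27) (nat_lit 5) (nat_lit 28) (nat_lit 4) (nat_lit 405) (nat_lit 376) (nat_lit 239)) (XT.nd (nat_lit 78) (nat_lit 152) (nat_lit 0) (XT.lf (nat_lit 0) (nat_lit 22191114164) (nat_lit 152) (nat_lit 9733180766) (nat_lit 76) (nat_lit 227499639745) (nat_lit 25) (nat_lit 5) (nat_lit 27) (nat_lit 5) (nat_lit 26) (nat_lit 5) (nat_lit 406) (nat_lit 376) (nat_lit 238)) (XT.lf (nat_lit 0) (nat_lit 84212591705) (nat_lit 228) (nat_lit 137788245384) (nat_lit 76) (nat_lit 51468444197) (nat_lit 23) (nat_lit 5) (nat_lit 26) (nat_lit 5) (nat_lit 24) (nat_lit 4) (nat_lit 407) (nat_lit 376) (nat_lit 237))))))))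
noncomputable def xc188 : XT := (XT.nd (nat_lit 1482) (nat_lit 456) (nat_lit 0) (XT.nd (nat_lit 702) (nat_lit 532) (nat_lit 0) (XT.nd (nat_lit 312) (nat_lit 228) (nat_lit 0) (XT.nd (nat_lit 156) (nat_lit 152) (nat_lit 0) (XT.nd (nat_lit 78) (nat_lit 0) (nat_lit 0) (XT.lf (nat_lit 0) (nat_lit 4029906840) (nat_lit 76) (nat_lit 148364740695) (nat_lit 152) (nat_lit 136147699404) (nat_lit 22) (nat_lit 5) (nat_lit 23) (nat_lit 5) (nat_lit 24) (nat_lit 4) (nat_lit 408) (nat_lit 376) (nat_lit 236)) (XT.lf (nat_lit 0) (nat_lit 165029134882) (nat_lit 76) (nat_lit 64769220891) (nat_lit 152) (nat_lit 74721535146) (nat_lit 22) (nat_lit 5) (nat_lit 23) (nat_lit 5) (nat_lit 24) (nat_lit 4) (nat_lit 409) (nat_lit 376) (nat_lit 235))) (XT.nd (nat_lit 78) (nat_lit 76) (nat_lit 0) (XT.lf (nat_lit 0) (nat_lit 17388395851) (nat_lit 76) (nat_lit 297037496319) (nat_lit 76) (nat_lit 7267223830) (nat_lit 21) (nat_lit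 4) (nat_lit 22) (nat_lit 5) (nat_lit 22) (nat_lit 4) (nat_lit 410) (nat_lit 376) (nat_lit 234)) (XT.lf (nat_lit 0) (nat_lit 67897719207) (nat_lit 152) (nat_lit 148543401622) (nat_lit 76) (nat_lit 123225292839) (nat_lit 20) (nat_lit 5) (nat_lit 22) (nat_lit 5) (nat_lit 21) (nat_lit 4) (nat_lit 411) (nat_lit 376) (nat_lit 233)))) (XT.nd (nat_lit 156) (nat_lit 152) (nat_lit 0) (XT.nd (nat_lit 78) (nat_lit 0) (nat_lit 0) (XT.lf (nat_lit 0) (nat_lit 20515892320) (nat_lit 76) (nat_lit 128660505012) (nat_lit 152) (nat_lit 209846624493) (nat_lit 19) (nat_lit 5) (nat_lit 20) (nat_lit 5) (nat_lit 21) (nat_lit 4) (nat_lit 412) (nat_lit 376) (nat_lit 232)) (XT.lf (nat_lit 0) (nat_lit 211547277239) (nat_lit 76) (nat_lit 29471290797) (nat_lit 152) (nat_lit 138584694808) (nat_lit 19) (nat_lit 5) (nat_lit 20) (nat_lit 5) (nat_lit 21) (nat_lit 4) (nat_lit 413) (nat_lit 376) (nat_lit 231))) (XT.nd (nat_lit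 78) (nat_lit 76) (nat_lit 0) (XT.lf (nat_lit 0) (nat_lit 14909076581) (nat_lit 76) (nat_lit 327524929233) (nat_lit 76) (nat_lit 59217845928) (nat_lit 18) (nat_lit 4) (nat_lit 19) (nat_lit 5) (nat_lit 19) (nat_lit 4) (nat_lit 414) (nat_lit 376) (nat_lit 230)) (XT.nd (nat_lit 78) (nat_lit 0) (nat_lit 0) (XT.lf (nat_lit 0) (nat_lit 30652354745) (nat_lit 152) (nat_lit 204550447514) (nat_lit 76) (nat_lit 189772177976) (nat_lit 17) (nat_lit 5) (nat_lit 19) (nat_lit 5) (nat_lit 18) (nat_lit 4) (nat_lit 415) (nat_lit 376) (nat_lit 229)) (XT.lf (nat_lit 0) (nat_lit 124512659354) (nat_lit 152) (nat_lit 9321256595) (nat_lit 76) (nat_lit 316207009870) (nat_lit 17) (nat_lit 5) (nat_lit 19) (nat_lit 5) (nat_lit 18) (nat_lit 4) (nat_lit 416) (nat_lit 376) (nat_lit 228)))))) (XT.nd (nat_lit 390) (nat_lit 228) (nat_lit 0) (XT.nd (nat_lit 156) (nat_lit 228) (nat_lit 0) (XT.nd (nat_lit 78) (nat_lit 0) (nat_lit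 0) (XT.lf (nat_lit 0) (nat_lit 212137898800) (nat_lit 76) (nat_lit 18845616366) (nat_lit 152) (nat_lit 245720493790) (nat_lit 16) (nat_lit 5) (nat_lit 17) (nat_lit 5) (nat_lit 18) (nat_lit 4) (nat_lit 417) (nat_lit 376) (nat_lit 227)) (XT.lf (nat_lit 0) (nat_lit 348766797400) (nat_lit 152) (nat_lit 56176315942) (nat_lit 0) (nat_lit 100333444812) (nat_lit 16) (nat_lit 5) (nat_lit 18) (nat_lit 4) (nat_lit 16) (nat_lit 4) (nat_lit 418) (nat_lit 376) (nat_lit 226))) (XT.nd (nat_lit 78) (nat_lit 152) (nat_lit 0) (XT.lf (nat_lit 0) (nat_lit 177262196177) (nat_lit 76) (nat_lit 303463023938) (nat_lit 76) (nat_lit 55029492982) (nat_lit 15) (nat_lit 4) (nat_lit 16) (nat_lit 5) (nat_lit 16) (nat_lit 4) (nat_lit 419) (nat_lit 376) (nat_lit 225)) (XT.nd (nat_lit 78) (nat_lit 76) (nat_lit 0) (XT.lf (nat_lit 0) (nat_lit 53415101073) (nat_lit 152) (nat_lit 137330285877) (nat_lit 76) (nat_lit 377694688122)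 (nat_lit 14) (nat_lit 5) (nat_lit 16) (nat_lit 5) (nat_lit 15) (nat_lit 4) (nat_lit 420) (nat_lit 376) (nat_lit 224)) (XT.lf (nat_lit 0) (nat_lit 105366108208) (nat_lit 76) (nat_lit 64730025080) (nat_lit 152) (nat_lit 433327074345) (nat_lit 13) (nat_lit 5) (nat_lit 14) (nat_lit 5) (nat_lit 15) (nat_lit 4) (nat_lit 421) (nat_lit 376) (nat_lit 223))))) (XT.nd (nat_lit 156) (nat_lit 228) (nat_lit 0) (XT.nd (nat_lit 78) (nat_lit 0) (nat_lit 0) (XT.lf (nat_lit 0) (nat_lit 301680234083) (nat_lit 152) (nat_lit 267430508589) (nat_lit 0) (nat_lit 71648761280) (nat_lit 13) (nat_lit 5) (nat_lit 15) (nat_lit 4) (nat_lit 13) (nat_lit 4) (nat_lit 422) (nat_lit 376) (nat_lit 222)) (XT.lf (nat_lit 0) (nat_lit 445472210752) (nat_lit 152) (nat_lit 20035384875) (nat_lit 0) (nat_lit 215440616554) (nat_lit 13) (nat_lit 5) (nat_lit 15) (nat_lit 4) (nat_lit 13) (nat_lit 4) (nat_lit 423) (nat_lit 376) (nat_lit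 221))) (XT.nd (nat_lit 78) (nat_lit 152) (nat_lit 0) (XT.lf (nat_lit 0) (nat_lit 260165613201) (nat_lit 76) (nat_lit 346858781290) (nat_lit 76) (nat_lit 116827074690) (nat_lit 12) (nat_lit 4) (nat_lit 13) (nat_lit 5) (nat_lit 13) (nat_lit 4) (nat_lit 424) (nat_lit 376) (nat_lit 220)) (XT.nd (nat_lit 78) (nat_lit 76) (nat_lit 0) (XT.lf (nat_lit 0) (nat_lit 11309697466) (nat_lit 152) (nat_lit 206507639946) (nat_lit 76) (nat_lit 552302930311) (nat_lit 11) (nat_lit 5) (nat_lit 13) (nat_lit 5) (nat_lit 12) (nat_lit 4) (nat_lit 425) (nat_lit 376) (nat_lit 219)) (XT.lf (nat_lit 0) (nat_lit 71801934053) (nat_lit 76) (nat_lit 73310489550) (nat_lit 152) (nat_lit 674597252311) (nat_lit 10) (nat_lit 5) (nat_lit 11) (nat_lit 5) (nat_lit 12) (nat_lit 4) (nat_lit 426) (nat_lit 376) (nat_lit 218))))))) (XT.nd (nat_lit 780) (nat_lit 228) (nat_lit 0) (XT.nd (nat_lit 390) (nat_lit 152) (nat_lit 0) (XT.nd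 (nat_lit 156) (nat_lit 76) (nat_lit 0) (XT.nd (nat_lit 78) (nat_lit 0) (nat_lit 0) (XT.lf (nat_lit 0) (nat_lit 297402486216) (nat_lit 152) (nat_lit 490831204018) (nat_lit 0) (nat_lit 84409897076) (nat_lit 10) (nat_lit 5) (nat_lit 12) (nat_lit 4) (nat_lit 10) (nat_lit 4) (nat_lit 427) (nat_lit 376) (nat_lit 217)) (XT.lf (nat_lit 0) (nat_lit 463779803150) (nat_lit 152) (nat_lit 215092947031) (nat_lit 0) (nat_lit 250787137511) (nat_lit 10) (nat_lit 5) (nat_lit 12) (nat_lit 4) (nat_lit 10) (nat_lit 4) (nat_lit 428) (nat_lit 376) (nat_lit 216))) (XT.nd (nat_lit 78) (nat_lit 0) (nat_lit 0) (XT.lf (nat_lit 0) (nat_lit 87059206735) (nat_lit 76) (nat_lit 558501764305) (nat_lit 76) (nat_lit 345509027834) (nat_lit 9) (nat_lit 4) (nat_lit 10) (nat_lit 5) (nat_lit 10) (nat_lit 4) (nat_lit 429) (nat_lit 376) (nat_lit 215)) (XT.nd (nat_lit 78) (nat_lit 0) (nat_lit 0) (XT.lf (nat_lit 0) (nat_lit 425615846913)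 (nat_lit 76) (nat_lit 422149700455) (nat_lit 76) (nat_lit 209156898398) (nat_lit 9) (nat_lit 4) (nat_lit 10) (nat_lit 5) (nat_lit 10) (nat_lit 4) (nat_lit 430) (nat_lit 376) (nat_lit 214)) (XT.lf (nat_lit 0) (nat_lit 791256821662) (nat_lit 76) (nat_lit 274889568749) (nat_lit 76) (nat_lit 61896705965) (nat_lit 9) (nat_lit 4) (nat_lit 10) (nat_lit 5) (nat_lit 10) (nat_lit 4) (nat_lit 431) (nat_lit 376) (nat_lit 213))))) (XT.nd (nat_lit 156) (nat_lit 0) (nat_lit 0) (XT.nd (nat_lit 78) (nat_lit 76) (nat_lit 0) (XT.lf (nat_lit 0) (nat_lit 92284656013) (nat_lit 152) (nat_lit 21040834505) (nat_lit 76) (nat_lit 1091341010261) (nat_lit 8) (nat_lit 5) (nat_lit 10) (nat_lit 5) (nat_lit 9) (nat_lit 4) (nat_lit 432) (nat_lit 376) (nat_lit 212)) (XT.lf (nat_lit 0) (nat_lit 265238151418) (nat_lit 152) (nat_lit 953248039794) (nat_lit 0) (nat_lit 68022437458) (nat_lit 7) (nat_lit 5) (nat_lit 9) (nat_lit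 4) (nat_lit 7) (nat_lit 4) (nat_lit 433) (nat_lit 376) (nat_lit 211))) (XT.nd (nat_lit 78) (nat_lit 0) (nat_lit 0) (XT.lf (nat_lit 0) (nat_lit 455561595050) (nat_lit 152) (nat_lit 660708001812) (nat_lit 0) (nat_lit 258345836454) (nat_lit 7) (nat_lit 5) (nat_lit 9) (nat_lit 4) (nat_lit 7) (nat_lit 4) (nat_lit 434) (nat_lit 376) (nat_lit 210)) (XT.nd (nat_lit 78) (nat_lit 0) (nat_lit 0) (XT.lf (nat_lit 0) (nat_lit 661110833584) (nat_lit 152) (nat_lit 344764921549) (nat_lit 0) (nat_lit 463895033657) (nat_lit 7) (nat_lit 5) (nat_lit 9) (nat_lit 4) (nat_lit 7) (nat_lit 4) (nat_lit 435) (nat_lit 376) (nat_lit 209)) (XT.lf (nat_lit 0) (nat_lit 883103936580) (nat_lit 152) (nat_lit 3546543717) (nat_lit 0) (nat_lit 685888098385) (nat_lit 7) (nat_lit 5) (nat_lit 9) (nat_lit 4) (nat_lit 7) (nat_lit 4) (nat_lit 436) (nat_lit 376) (nat_lit 208)))))) (XT.nd (nat_lit 390) (nat_lit 0) (nat_lit 0) (XT.nd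 (nat_lit 156) (nat_lit 152) (nat_lit 0) (XT.nd (nat_lit 78) (nat_lit 0) (nat_lit 0) (XT.lf (nat_lit 0) (nat_lit 384187796045) (nat_lit 76) (nat_lit 747908348413) (nat_lit 76) (nat_lit 550692474784) (nat_lit 6) (nat_lit 4) (nat_lit 7) (nat_lit 5) (nat_lit 7) (nat_lit 4) (nat_lit 437) (nat_lit 376) (nat_lit 207)) (XT.lf (nat_lit 0) (nat_lit 803142443737) (nat_lit 76) (nat_lit 597962186815) (nat_lit 76) (nat_lit 400746280377) (nat_lit 6) (nat_lit 4) (nat_lit 7) (nat_lit 5) (nat_lit 7) (nat_lit 4) (nat_lit 438) (nat_lit 376) (nat_lit 206))) (XT.nd (nat_lit 78) (nat_lit 152) (nat_lit 0) (XT.lf (nat_lit 0) (nat_lit 1255613338860) (nat_lit 76) (nat_lit 436020394446) (nat_lit 76) (nat_lit 238804457629) (nat_lit 6) (nat_lit 4) (nat_lit 7) (nat_lit 5) (nat_lit 7) (nat_lit 4) (nat_lit 439) (nat_lit 376) (nat_lit 205)) (XT.nd (nat_lit 78) (nat_lit 152) (nat_lit 0) (XT.lf (nat_lit 0) (nat_lit 1744281790421)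 (nat_lit 76) (nat_lit 261123316241) (nat_lit 76) (nat_lit 63907351296) (nat_lit 6) (nat_lit 4) (nat_lit 7) (nat_lit 5) (nat_lit 7) (nat_lit 4) (nat_lit 440) (nat_lit 376) (nat_lit 204)) (XT.lf (nat_lit 0) (nat_lit 52360413533) (nat_lit 76) (nat_lit 67628242487) (nat_lit 152) (nat_lit 2098966808482) (nat_lit 4) (nat_lit 5) (nat_lit 5) (nat_lit 5) (nat_lit 6) (nat_lit 4) (nat_lit 441) (nat_lit 376) (nat_lit 203))))) (XT.nd (nat_lit 156) (nat_lit 0) (nat_lit 0) (XT.nd (nat_lit 78) (nat_lit 0) (nat_lit 0) (XT.lf (nat_lit 0) (nat_lit 327660761096) (nat_lit 152) (nat_lit 1906721650355) (nat_lit 0) (nat_lit 145053339701) (nat_lit 4) (nat_lit 5) (nat_lit 6) (nat_lit 4) (nat_lit 4) (nat_lit 4) (nat_lit 442) (nat_lit 376) (nat_lit 202)) (XT.lf (nat_lit 0) (nat_lit 553703161803) (nat_lit 152) (nat_lit 1627815057023) (nat_lit 0) (nat_lit 371095719733) (nat_lit 4) (nat_lit 5) (nat_lit 6) (nat_lit 4)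 (nat_lit 4) (nat_lit 4) (nat_lit 443) (nat_lit 376) (nat_lit 201))) (XT.nd (nat_lit 78) (nat_lit 0) (nat_lit 0) (XT.lf (nat_lit 0) (nat_lit 797828907807) (nat_lit 152) (nat_lit 1326596030306) (nat_lit 0) (nat_lit 615221446594) (nat_lit 4) (nat_lit 5) (nat_lit 6) (nat_lit 4) (nat_lit 4) (nat_lit 4) (nat_lit 444) (nat_lit 376) (nat_lit 200)) (XT.nd (nat_lit 78) (nat_lit 0) (nat_lit 0) (XT.lf (nat_lit 0) (nat_lit 1061484670196) (nat_lit 152) (nat_lit 1001279568561) (nat_lit 0) (nat_lit 878877191256) (nat_lit 4) (nat_lit 5) (nat_lit 6) (nat_lit 4) (nat_lit 4) (nat_lit 4) (nat_lit 445) (nat_lit 376) (nat_lit 199)) (XT.lf (nat_lit 0) (nat_lit 1346232853486) (nat_lit 152) (nat_lit 649937870535) (nat_lit 0) (nat_lit 1163625358134) (nat_lit 4) (nat_lit 5) (nat_lit 6) (nat_lit 4) (nat_lit 4) (nat_lit 4) (nat_lit 446) (nat_lit 376) (nat_lit 198))))))))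
noncomputable def xc189 : XT := (XT.nd (nat_lit 48438) (nat_lit 0) (nat_lit 1748) (XT.nd (nat_lit 47658) (nat_lit 0) (nat_lit 3724) (XT.nd (nat_lit 312) (nat_lit 0) (nat_lit 0) (XT.nd (nat_lit 156) (nat_lit 0) (nat_lit 0) (XT.nd (nat_lit 78) (nat_lit 76) (nat_lit 0) (XT.lf (nat_lit 0) (nat_lit 1653760854320) (nat_lit 152) (nat_lit 270488911351) (nat_lit 0) (nat_lit 1471153343771) (nat_lit 4) (nat_lit 5) (nat_lit 6) (nat_lit 4) (nat_lit 4) (nat_lit 4) (nat_lit 447) (nat_lit 376) (nat_lit 197)) (XT.lf (nat_lit 0) (nat_lit 146652023580) (nat_lit 76) (nat_lit 1842766021965) (nat_lit 76) (nat_lit 1660158497345) (nat_lit 3) (nat_lit 4) (nat_lit 4) (nat_lit 5) (nat_lit 4) (nat_lit 4) (nat_lit 448) (nat_lit 376) (nat_lit 196))) (XT.nd (nat_lit 78) (nat_lit 0) (nat_lit 0) (XT.lf (nat_lit 0) (nat_lit 612547109968) (nat_lit 76) (nat_lit 1746776314839) (nat_lit 76) (nat_lit 1564168777190) (nat_lit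 3) (nat_lit 4) (nat_lit 4) (nat_lit 5) (nat_lit 4) (nat_lit 4) (nat_lit 449) (nat_lit 376) (nat_lit 195)) (XT.lf (nat_lit 0) (nat_lit 1115713740858) (nat_lit 76) (nat_lit 1643107462584) (nat_lit 76) (nat_lit 1460499912871) (nat_lit 3) (nat_lit 4) (nat_lit 4) (nat_lit 5) (nat_lit 4) (nat_lit 4) (nat_lit 450) (nat_lit 376) (nat_lit 194)))) (XT.nd (nat_lit 156) (nat_lit 0) (nat_lit 0) (XT.nd (nat_lit 78) (nat_lit 0) (nat_lit 0) (XT.lf (nat_lit 0) (nat_lit 1659133644435) (nat_lit 76) (nat_lit 1531145131260) (nat_lit 76) (nat_lit 1348537570376) (nat_lit 3) (nat_lit 4) (nat_lit 4) (nat_lit 5) (nat_lit 4) (nat_lit 4) (nat_lit 451) (nat_lit 376) (nat_lit 193)) (XT.lf (nat_lit 0) (nat_lit 2246027086793) (nat_lit 76) (nat_lit 1410225840385) (nat_lit 76) (nat_lit 1227618269159) (nat_lit 3) (nat_lit 4) (nat_lit 4) (nat_lit 5) (nat_lit 4) (nat_lit 4) (nat_lit 452) (nat_lit 376) (nat_lit 192))) (XT.nd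 (nat_lit 78) (nat_lit 0) (nat_lit 0) (XT.lf (nat_lit 0) (nat_lit 2879871954998) (nat_lit 76) (nat_lit 1279633031198) (nat_lit 76) (nat_lit 1097025450395) (nat_lit 3) (nat_lit 4) (nat_lit 4) (nat_lit 5) (nat_lit 4) (nat_lit 4) (nat_lit 453) (nat_lit 376) (nat_lit 191)) (XT.nd (nat_lit 78) (nat_lit 0) (nat_lit 0) (XT.lf (nat_lit 0) (nat_lit 3564424366788) (nat_lit 76) (nat_lit 1138592820387) (nat_lit 76) (nat_lit 955985230717) (nat_lit 3) (nat_lit 4) (nat_lit 4) (nat_lit 5) (nat_lit 4) (nat_lit 4) (nat_lit 454) (nat_lit 376) (nat_lit 190)) (XT.lf (nat_lit 0) (nat_lit 4303740929047) (nat_lit 76) (nat_lit 986269414108) (nat_lit 76) (nat_lit 803661816227) (nat_lit 3) (nat_lit 4) (nat_lit 4) (nat_lit 5) (nat_lit 4) (nat_lit 4) (nat_lit 455) (nat_lit 376) (nat_lit 189)))))) (XT.nd (nat_lit 390) (nat_lit 684) (nat_lit 0) (XT.nd (nat_lit 156) (nat_lit 0) (nat_lit 76) (XT.nd (nat_lit 78) (nat_lit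 0) (nat_lit 0) (XT.lf (nat_lit 0) (nat_lit 29665834413) (nat_lit 532) (nat_lit 2714242884) (nat_lit 532) (nat_lit 2714242884) (nat_lit 61) (nat_lit 3) (nat_lit 68) (nat_lit 3) (nat_lit 68) (nat_lit 5) (nat_lit 377) (nat_lit 377) (nat_lit 266)) (XT.lf (nat_lit 76) (nat_lit 29901957529) (nat_lit 0) (nat_lit 32534512504) (nat_lit 532) (nat_lit 10501178055) (nat_lit 62) (nat_lit 5) (nat_lit 61) (nat_lit 3) (nat_lit 68) (nat_lit 5) (nat_lit 378) (nat_lit 377) (nat_lit 265))) (XT.nd (nat_lit 78) (nat_lit 0) (nat_lit 0) (XT.lf (nat_lit 0) (nat_lit 65995265321) (nat_lit 456) (nat_lit 7586393255) (nat_lit 532) (nat_lit 2308470568) (nat_lit 62) (nat_lit 5) (nat_lit 68) (nat_lit 5) (nat_lit 69) (nat_lit 5) (nat_lit 379) (nat_lit 377) (nat_lit 264)) (XT.nd (nat_lit 78) (nat_lit 0) (nat_lit 0) (XT.lf (nat_lit 76) (nat_lit 31425043479) (nat_lit 0) (nat_lit 40013394713) (nat_lit 532) (nat_lit 7512397978)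 (nat_lit 63) (nat_lit 5) (nat_lit 62) (nat_lit 5) (nat_lit 69) (nat_lit 5) (nat_lit 380) (nat_lit 377) (nat_lit 263)) (XT.lf (nat_lit 76) (nat_lit 73988099273) (nat_lit 0) (nat_lit 3535307162) (nat_lit 532) (nat_lit 4716487298) (nat_lit 63) (nat_lit 5) (nat_lit 62) (nat_lit 5) (nat_lit 69) (nat_lit 5) (nat_lit 381) (nat_lit 377) (nat_lit 262))))) (XT.nd (nat_lit 156) (nat_lit 304) (nat_lit 0) (XT.nd (nat_lit 78) (nat_lit 0) (nat_lit 0) (XT.lf (nat_lit 0) (nat_lit 136777534) (nat_lit 532) (nat_lit 50604722112) (nat_lit 608) (nat_lit 34913938591) (nat_lit 56) (nat_lit 5) (nat_lit 63) (nat_lit 5) (nat_lit 64) (nat_lit 5) (nat_lit 382) (nat_lit 377) (nat_lit 261)) (XT.lf (nat_lit 0) (nat_lit 5445829962) (nat_lit 532) (nat_lit 7260462247) (nat_lit 608) (nat_lit 76602347489) (nat_lit 56) (nat_lit 5) (nat_lit 63) (nat_lit 5) (nat_lit 64) (nat_lit 5) (nat_lit 383) (nat_lit 377) (nat_lit 260)))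 (XT.nd (nat_lit 78) (nat_lit 380) (nat_lit 0) (XT.lf (nat_lit 0) (nat_lit 12888344727) (nat_lit 532) (nat_lit 52249164050) (nat_lit 76) (nat_lit 27979890404) (nat_lit 57) (nat_lit 5) (nat_lit 64) (nat_lit 5) (nat_lit 58) (nat_lit 5) (nat_lit 384) (nat_lit 377) (nat_lit 259)) (XT.nd (nat_lit 78) (nat_lit 380) (nat_lit 0) (XT.lf (nat_lit 0) (nat_lit 21459121586) (nat_lit 532) (nat_lit 4290830787) (nat_lit 76) (nat_lit 71438279058) (nat_lit 57) (nat_lit 5) (nat_lit 64) (nat_lit 5) (nat_lit 58) (nat_lit 5) (nat_lit 385) (nat_lit 377) (nat_lit 258)) (XT.lf (nat_lit 0) (nat_lit 32352402938) (nat_lit 456) (nat_lit 51918713452) (nat_lit 76) (nat_lit 17182667305) (nat_lit 52) (nat_lit 5) (nat_lit 58) (nat_lit 5) (nat_lit 53) (nat_lit 5) (nat_lit 386) (nat_lit 377) (nat_lit 257))))))) (XT.nd (nat_lit 780) (nat_lit 912) (nat_lit 0) (XT.nd (nat_lit 390) (nat_lit 456) (nat_lit 0) (XT.nd (nat_lit 156)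 (nat_lit 380) (nat_lit 0) (XT.nd (nat_lit 78) (nat_lit 0) (nat_lit 0) (XT.lf (nat_lit 0) (nat_lit 1249729108) (nat_lit 228) (nat_lit 43685930336) (nat_lit 304) (nat_lit 61059440439) (nat_lit 49) (nat_lit 5) (nat_lit 52) (nat_lit 5) (nat_lit 53) (nat_lit 5) (nat_lit 387) (nat_lit 377) (nat_lit 256)) (XT.lf (nat_lit 0) (nat_lit 59984806071) (nat_lit 304) (nat_lit 49203049521) (nat_lit 76) (nat_lit 1595128109) (nat_lit 49) (nat_lit 5) (nat_lit 53) (nat_lit 5) (nat_lit 50) (nat_lit 5) (nat_lit 388) (nat_lit 377) (nat_lit 255))) (XT.nd (nat_lit 78) (nat_lit 152) (nat_lit 0) (XT.lf (nat_lit 0) (nat_lit 10155205007) (nat_lit 228) (nat_lit 67460959560) (nat_lit 304) (nat_lit 38227471895) (nat_lit 46) (nat_lit 5) (nat_lit 49) (nat_lit 5) (nat_lit 50) (nat_lit 5) (nat_lit 389) (nat_lit 377) (nat_lit 254)) (XT.nd (nat_lit 78) (nat_lit 152) (nat_lit 0) (XT.lf (nat_lit 0) (nat_lit 77059602675) (nat_lit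 228) (nat_lit 20943105925) (nat_lit 304) (nat_lit 23198859297) (nat_lit 46) (nat_lit 5) (nat_lit 49) (nat_lit 5) (nat_lit 50) (nat_lit 5) (nat_lit 390) (nat_lit 377) (nat_lit 253)) (XT.lf (nat_lit 0) (nat_lit 22761541487) (nat_lit 152) (nat_lit 98510045773) (nat_lit 228) (nat_lit 5616434255) (nat_lit 44) (nat_lit 5) (nat_lit 46) (nat_lit 5) (nat_lit 47) (nat_lit 5) (nat_lit 391) (nat_lit 377) (nat_lit 252))))) (XT.nd (nat_lit 156) (nat_lit 152) (nat_lit 0) (XT.nd (nat_lit 78) (nat_lit 228) (nat_lit 0) (XT.lf (nat_lit 0) (nat_lit 14485311515) (nat_lit 228) (nat_lit 36302792280) (nat_lit 76) (nat_lit 82073025020) (nat_lit 43) (nat_lit 5) (nat_lit 46) (nat_lit 5) (nat_lit 44) (nat_lit 5) (nat_lit 392) (nat_lit 377) (nat_lit 251)) (XT.lf (nat_lit 0) (nat_lit 36868949444) (nat_lit 304) (nat_lit 100533925473) (nat_lit 76) (nat_lit 1819364845) (nat_lit 40) (nat_lit 5) (nat_lit 44) (nat_lit 5)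 (nat_lit 41) (nat_lit 5) (nat_lit 393) (nat_lit 377) (nat_lit 250))) (XT.nd (nat_lit 78) (nat_lit 152) (nat_lit 0) (XT.lf (nat_lit 0) (nat_lit 63380307577) (nat_lit 304) (nat_lit 25615208548) (nat_lit 76) (nat_lit 56909761535) (nat_lit 40) (nat_lit 5) (nat_lit 44) (nat_lit 5) (nat_lit 41) (nat_lit 5) (nat_lit 394) (nat_lit 377) (nat_lit 249)) (XT.nd (nat_lit 78) (nat_lit 0) (nat_lit 0) (XT.lf (nat_lit 0) (nat_lit 58208161850) (nat_lit 152) (nat_lit 35203851314) (nat_lit 228) (nat_lit 59598990701) (nat_lit 38) (nat_lit 5) (nat_lit 40) (nat_lit 5) (nat_lit 41) (nat_lit 5) (nat_lit 395) (nat_lit 377) (nat_lit 248)) (XT.lf (nat_lit 0) (nat_lit 127114890419) (nat_lit 228) (nat_lit 11004388605) (nat_lit 76) (nat_lit 22464418676) (nat_lit 38) (nat_lit 5) (nat_lit 41) (nat_lit 5) (nat_lit 39) (nat_lit 5) (nat_lit 396) (nat_lit 377) (nat_lit 247)))))) (XT.nd (nat_lit 390) (nat_lit 380) (nat_lit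 0) (XT.nd (nat_lit 156) (nat_lit 152) (nat_lit 0) (XT.nd (nat_lit 78) (nat_lit 228) (nat_lit 0) (XT.lf (nat_lit 0) (nat_lit 82720975770) (nat_lit 152) (nat_lit 83696429001) (nat_lit 228) (nat_lit 2112530041) (nat_lit 36) (nat_lit 5) (nat_lit 38) (nat_lit 5) (nat_lit 39) (nat_lit 5) (nat_lit 397) (nat_lit 377) (nat_lit 246)) (XT.lf (nat_lit 0) (nat_lit 7063669802) (nat_lit 152) (nat_lit 23578365025) (nat_lit 228) (nat_lit 146370492033) (nat_lit 33) (nat_lit 5) (nat_lit 35) (nat_lit 5) (nat_lit 36) (nat_lit 5) (nat_lit 398) (nat_lit 377) (nat_lit 245))) (XT.nd (nat_lit 78) (nat_lit 152) (nat_lit 0) (XT.lf (nat_lit 0) (nat_lit 69303986369) (nat_lit 228) (nat_lit 74850786052) (nat_lit 76) (nat_lit 41742472196) (nat_lit 33) (nat_lit 5) (nat_lit 36) (nat_lit 5) (nat_lit 34) (nat_lit 5) (nat_lit 399) (nat_lit 377) (nat_lit 244)) (XT.nd (nat_lit 78) (nat_lit 0) (nat_lit 0) (XT.lf (nat_lit 0) (nat_lit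 28676638739) (nat_lit 152) (nat_lit 83683980698) (nat_lit 228) (nat_lit 83027982565) (nat_lit 31) (nat_lit 5) (nat_lit 33) (nat_lit 5) (nat_lit 34) (nat_lit 5) (nat_lit 400) (nat_lit 377) (nat_lit 243)) (XT.lf (nat_lit 0) (nat_lit 144742514496) (nat_lit 152) (nat_lit 16165462153) (nat_lit 228) (nat_lit 44567596069) (nat_lit 31) (nat_lit 5) (nat_lit 33) (nat_lit 5) (nat_lit 34) (nat_lit 5) (nat_lit 401) (nat_lit 377) (nat_lit 242))))) (XT.nd (nat_lit 156) (nat_lit 228) (nat_lit 0) (XT.nd (nat_lit 78) (nat_lit 76) (nat_lit 0) (XT.lf (nat_lit 0) (nat_lit 55115772226) (nat_lit 76) (nat_lit 160913496098) (nat_lit 152) (nat_lit 125021302) (nat_lit 30) (nat_lit 5) (nat_lit 31) (nat_lit 5) (nat_lit 32) (nat_lit 4) (nat_lit 402) (nat_lit 377) (nat_lit 241)) (XT.lf (nat_lit 0) (nat_lit 47601388506) (nat_lit 152) (nat_lit 45482924018) (nat_lit 76) (nat_lit 134341025602) (nat_lit 29) (nat_lit 5) (nat_lit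 31) (nat_lit 5) (nat_lit 30) (nat_lit 5) (nat_lit 403) (nat_lit 377) (nat_lit 240))) (XT.nd (nat_lit 78) (nat_lit 76) (nat_lit 0) (XT.lf (nat_lit 0) (nat_lit 83489854521) (nat_lit 152) (nat_lit 17656925606) (nat_lit 228) (nat_lit 138290420882) (nat_lit 27) (nat_lit 5) (nat_lit 29) (nat_lit 5) (nat_lit 30) (nat_lit 5) (nat_lit 404) (nat_lit 377) (nat_lit 239)) (XT.nd (nat_lit 78) (nat_lit 76) (nat_lit 0) (XT.lf (nat_lit 0) (nat_lit 161785887480) (nat_lit 228) (nat_lit 28510742745) (nat_lit 76) (nat_lit 61888576097) (nat_lit 27) (nat_lit 5) (nat_lit 30) (nat_lit 5) (nat_lit 28) (nat_lit 4) (nat_lit 405) (nat_lit 377) (nat_lit 238)) (XT.lf (nat_lit 0) (nat_lit 114383616499) (nat_lit 76) (nat_lit 116101775944) (nat_lit 152) (nat_lit 35210918234) (nat_lit 26) (nat_lit 5) (nat_lit 27) (nat_lit 5) (nat_lit 28) (nat_lit 4) (nat_lit 406) (nat_lit 377) (nat_lit 237))))))))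
noncomputable def xc190 : XT := (XT.nd (nat_lit 1482) (nat_lit 608) (nat_lit 0) (XT.nd (nat_lit 702) (nat_lit 456) (nat_lit 0) (XT.nd (nat_lit 312) (nat_lit 304) (nat_lit 0) (XT.nd (nat_lit 156) (nat_lit 76) (nat_lit 0) (XT.nd (nat_lit 78) (nat_lit 152) (nat_lit 0) (XT.lf (nat_lit 0) (nat_lit 23971843106) (nat_lit 152) (nat_lit 10502359799) (nat_lit 76) (nat_lit 245703209029) (nat_lit 25) (nat_lit 5) (nat_lit 27) (nat_lit 5) (nat_lit 26) (nat_lit 5) (nat_lit 407) (nat_lit 377) (nat_lit 236)) (XT.lf (nat_lit 0) (nat_lit 90954953653) (nat_lit 228) (nat_lit 148801742232) (nat_lit 76) (nat_lit 55589697377) (nat_lit 23) (nat_lit 5) (nat_lit 26) (nat_lit 5) (nat_lit 24) (nat_lit 4) (nat_lit 408) (nat_lit 377) (nat_lit 235))) (XT.nd (nat_lit 78) (nat_lit 0) (nat_lit 0) (XT.lf (nat_lit 0) (nat_lit 4361620075) (nat_lit 76) (nat_lit 160229781399) (nat_lit 152) (nat_lit 147033916651) (nat_lit 22)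 (nat_lit 5) (nat_lit 23) (nat_lit 5) (nat_lit 24) (nat_lit 4) (nat_lit 409) (nat_lit 377) (nat_lit 234)) (XT.lf (nat_lit 0) (nat_lit 178240095938) (nat_lit 76) (nat_lit 69946926571) (nat_lit 152) (nat_lit 80694073971) (nat_lit 22) (nat_lit 5) (nat_lit 23) (nat_lit 5) (nat_lit 24) (nat_lit 4) (nat_lit 410) (nat_lit 377) (nat_lit 233)))) (XT.nd (nat_lit 156) (nat_lit 152) (nat_lit 0) (XT.nd (nat_lit 78) (nat_lit 76) (nat_lit 0) (XT.lf (nat_lit 0) (nat_lit 18788165418) (nat_lit 76) (nat_lit 320796535490) (nat_lit 76) (nat_lit 7843483670) (nat_lit 21) (nat_lit 4) (nat_lit 22) (nat_lit 5) (nat_lit 22) (nat_lit 4) (nat_lit 411) (nat_lit 377) (nat_lit 232)) (XT.lf (nat_lit 0) (nat_lit 73334038632) (nat_lit 152) (nat_lit 160418581611) (nat_lit 76) (nat_lit 133086744897) (nat_lit 20) (nat_lit 5) (nat_lit 22) (nat_lit 5) (nat_lit 21) (nat_lit 4) (nat_lit 412) (nat_lit 377) (nat_lit 231))) (XT.nd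 (nat_lit 78) (nat_lit 76) (nat_lit 0) (XT.lf (nat_lit 0) (nat_lit 22165245918) (nat_lit 76) (nat_lit 138949625993) (nat_lit 152) (nat_lit 226629641276) (nat_lit 19) (nat_lit 5) (nat_lit 20) (nat_lit 5) (nat_lit 21) (nat_lit 4) (nat_lit 413) (nat_lit 377) (nat_lit 230)) (XT.nd (nat_lit 78) (nat_lit 76) (nat_lit 0) (XT.lf (nat_lit 0) (nat_lit 228478542948) (nat_lit 76) (nat_lit 31825550154) (nat_lit 152) (nat_lit 149667106341) (nat_lit 19) (nat_lit 5) (nat_lit 20) (nat_lit 5) (nat_lit 21) (nat_lit 4) (nat_lit 414) (nat_lit 377) (nat_lit 229)) (XT.lf (nat_lit 0) (nat_lit 16109332268) (nat_lit 76) (nat_lit 353723392180) (nat_lit 76) (nat_lit 63950954414) (nat_lit 18) (nat_lit 4) (nat_lit 19) (nat_lit 5) (nat_lit 19) (nat_lit 4) (nat_lit 415) (nat_lit 377) (nat_lit 228)))))) (XT.nd (nat_lit 390) (nat_lit 228) (nat_lit 0) (XT.nd (nat_lit 156) (nat_lit 152) (nat_lit 0) (XT.nd (nat_lit 78) (nat_lit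 0) (nat_lit 0) (XT.lf (nat_lit 0) (nat_lit 33108342315) (nat_lit 152) (nat_lit 220907310442) (nat_lit 76) (nat_lit 204957020963) (nat_lit 17) (nat_lit 5) (nat_lit 19) (nat_lit 5) (nat_lit 18) (nat_lit 4) (nat_lit 416) (nat_lit 377) (nat_lit 227)) (XT.lf (nat_lit 0) (nat_lit 134477189871) (nat_lit 152) (nat_lit 10060315573) (nat_lit 76) (nat_lit 341506412094) (nat_lit 17) (nat_lit 5) (nat_lit 19) (nat_lit 5) (nat_lit 18) (nat_lit 4) (nat_lit 417) (nat_lit 377) (nat_lit 226))) (XT.nd (nat_lit 78) (nat_lit 76) (nat_lit 0) (XT.lf (nat_lit 0) (nat_lit 229115404113) (nat_lit 76) (nat_lit 20350205145) (nat_lit 152) (nat_lit 265374446527) (nat_lit 16) (nat_lit 5) (nat_lit 17) (nat_lit 5) (nat_lit 18) (nat_lit 4) (nat_lit 418) (nat_lit 377) (nat_lit 225)) (XT.nd (nat_lit 78) (nat_lit 76) (nat_lit 0) (XT.lf (nat_lit 0) (nat_lit 376671369418) (nat_lit 152) (nat_lit 60664241874) (nat_lit 0) (nat_lit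 108362812462) (nat_lit 16) (nat_lit 5) (nat_lit 18) (nat_lit 4) (nat_lit 16) (nat_lit 4) (nat_lit 419) (nat_lit 377) (nat_lit 224)) (XT.lf (nat_lit 0) (nat_lit 191449194775) (nat_lit 76) (nat_lit 327737176899) (nat_lit 76) (nat_lit 59428467021) (nat_lit 15) (nat_lit 4) (nat_lit 16) (nat_lit 5) (nat_lit 16) (nat_lit 4) (nat_lit 420) (nat_lit 377) (nat_lit 223))))) (XT.nd (nat_lit 156) (nat_lit 76) (nat_lit 0) (XT.nd (nat_lit 78) (nat_lit 76) (nat_lit 0) (XT.lf (nat_lit 0) (nat_lit 57691286982) (nat_lit 152) (nat_lit 148310974548) (nat_lit 76) (nat_lit 407912780693) (nat_lit 14) (nat_lit 5) (nat_lit 16) (nat_lit 5) (nat_lit 15) (nat_lit 4) (nat_lit 421) (nat_lit 377) (nat_lit 222)) (XT.lf (nat_lit 0) (nat_lit 113800985894) (nat_lit 76) (nat_lit 69905729717) (nat_lit 152) (nat_lit 467990116718) (nat_lit 13) (nat_lit 5) (nat_lit 14) (nat_lit 5) (nat_lit 15) (nat_lit 4) (nat_lit 422) (nat_lit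 377) (nat_lit 221))) (XT.nd (nat_lit 78) (nat_lit 76) (nat_lit 0) (XT.lf (nat_lit 0) (nat_lit 325817390339) (nat_lit 152) (nat_lit 288819619578) (nat_lit 0) (nat_lit 77383034809) (nat_lit 13) (nat_lit 5) (nat_lit 15) (nat_lit 4) (nat_lit 13) (nat_lit 4) (nat_lit 423) (nat_lit 377) (nat_lit 220)) (XT.nd (nat_lit 78) (nat_lit 76) (nat_lit 0) (XT.lf (nat_lit 0) (nat_lit 481112522361) (nat_lit 152) (nat_lit 21633280759) (nat_lit 0) (nat_lit 232678062755) (nat_lit 13) (nat_lit 5) (nat_lit 15) (nat_lit 4) (nat_lit 13) (nat_lit 4) (nat_lit 424) (nat_lit 377) (nat_lit 219)) (XT.lf (nat_lit 0) (nat_lit 280983672229) (nat_lit 76) (nat_lit 374605136491) (nat_lit 76) (nat_lit 126170580519) (nat_lit 12) (nat_lit 4) (nat_lit 13) (nat_lit 5) (nat_lit 13) (nat_lit 4) (nat_lit 425) (nat_lit 377) (nat_lit 218))))))) (XT.nd (nat_lit 780) (nat_lit 228) (nat_lit 0) (XT.nd (nat_lit 390) (nat_lit 152) (nat_lit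 0) (XT.nd (nat_lit 156) (nat_lit 76) (nat_lit 0) (XT.nd (nat_lit 78) (nat_lit 76) (nat_lit 0) (XT.lf (nat_lit 0) (nat_lit 12216813147) (nat_lit 152) (nat_lit 223023673853) (nat_lit 76) (nat_lit 596489214552) (nat_lit 11) (nat_lit 5) (nat_lit 13) (nat_lit 5) (nat_lit 12) (nat_lit 4) (nat_lit 426) (nat_lit 377) (nat_lit 217)) (XT.lf (nat_lit 0) (nat_lit 77550550185) (nat_lit 76) (nat_lit 79173141163) (nat_lit 152) (nat_lit 728562576363) (nat_lit 10) (nat_lit 5) (nat_lit 11) (nat_lit 5) (nat_lit 12) (nat_lit 4) (nat_lit 427) (nat_lit 377) (nat_lit 216))) (XT.nd (nat_lit 78) (nat_lit 76) (nat_lit 0) (XT.lf (nat_lit 0) (nat_lit 321196839249) (nat_lit 152) (nat_lit 530093449346) (nat_lit 0) (nat_lit 91164613028) (nat_lit 10) (nat_lit 5) (nat_lit 12) (nat_lit 4) (nat_lit 10) (nat_lit 4) (nat_lit 428) (nat_lit 377) (nat_lit 215)) (XT.nd (nat_lit 78) (nat_lit 76) (nat_lit 0) (XT.lf (nat_lit 0)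 (nat_lit 500884181973) (nat_lit 152) (nat_lit 232296446688) (nat_lit 0) (nat_lit 270851890166) (nat_lit 10) (nat_lit 5) (nat_lit 12) (nat_lit 4) (nat_lit 10) (nat_lit 4) (nat_lit 429) (nat_lit 377) (nat_lit 214)) (XT.lf (nat_lit 0) (nat_lit 94027779731) (nat_lit 76) (nat_lit 603180008084) (nat_lit 76) (nat_lit 373147655550) (nat_lit 9) (nat_lit 4) (nat_lit 10) (nat_lit 5) (nat_lit 10) (nat_lit 4) (nat_lit 430) (nat_lit 377) (nat_lit 213))))) (XT.nd (nat_lit 156) (nat_lit 152) (nat_lit 0) (XT.nd (nat_lit 78) (nat_lit 0) (nat_lit 0) (XT.lf (nat_lit 0) (nat_lit 459668666941) (nat_lit 76) (nat_lit 455919919672) (nat_lit 76) (nat_lit 225887510909) (nat_lit 9) (nat_lit 4) (nat_lit 10) (nat_lit 5) (nat_lit 10) (nat_lit 4) (nat_lit 431) (nat_lit 377) (nat_lit 212)) (XT.lf (nat_lit 0) (nat_lit 854560656538) (nat_lit 76) (nat_lit 296879107564) (nat_lit 76) (nat_lit 66846646737) (nat_lit 9) (nat_lit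 4) (nat_lit 10) (nat_lit 5) (nat_lit 10) (nat_lit 4) (nat_lit 432) (nat_lit 377) (nat_lit 211))) (XT.nd (nat_lit 78) (nat_lit 76) (nat_lit 0) (XT.lf (nat_lit 0) (nat_lit 99669008009) (nat_lit 152) (nat_lit 22720972374) (nat_lit 76) (nat_lit 1178649713883) (nat_lit 8) (nat_lit 5) (nat_lit 10) (nat_lit 5) (nat_lit 9) (nat_lit 4) (nat_lit 433) (nat_lit 377) (nat_lit 210)) (XT.nd (nat_lit 78) (nat_lit 0) (nat_lit 0) (XT.lf (nat_lit 0) (nat_lit 286458775798) (nat_lit 152) (nat_lit 1029504746638) (nat_lit 0) (nat_lit 73465670547) (nat_lit 7) (nat_lit 5) (nat_lit 9) (nat_lit 4) (nat_lit 7) (nat_lit 4) (nat_lit 434) (nat_lit 377) (nat_lit 209)) (XT.lf (nat_lit 0) (nat_lit 492007978457) (nat_lit 152) (nat_lit 713561737939) (nat_lit 0) (nat_lit 279014834938) (nat_lit 7) (nat_lit 5) (nat_lit 9) (nat_lit 4) (nat_lit 7) (nat_lit 4) (nat_lit 435) (nat_lit 377) (nat_lit 208)))))) (XT.nd (nat_lit 390)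 (nat_lit 152) (nat_lit 0) (XT.nd (nat_lit 156) (nat_lit 76) (nat_lit 0) (XT.nd (nat_lit 78) (nat_lit 0) (nat_lit 0) (XT.lf (nat_lit 0) (nat_lit 714001048236) (nat_lit 152) (nat_lit 372343426368) (nat_lit 0) (nat_lit 501007869283) (nat_lit 7) (nat_lit 5) (nat_lit 9) (nat_lit 4) (nat_lit 7) (nat_lit 4) (nat_lit 436) (nat_lit 377) (nat_lit 207)) (XT.lf (nat_lit 0) (nat_lit 953753499623) (nat_lit 152) (nat_lit 3827777487) (nat_lit 0) (nat_lit 740760287860) (nat_lit 7) (nat_lit 5) (nat_lit 9) (nat_lit 4) (nat_lit 7) (nat_lit 4) (nat_lit 437) (nat_lit 377) (nat_lit 206))) (XT.nd (nat_lit 78) (nat_lit 0) (nat_lit 0) (XT.lf (nat_lit 0) (nat_lit 414925246425) (nat_lit 76) (nat_lit 807739803615) (nat_lit 76) (nat_lit 594746561474) (nat_lit 6) (nat_lit 4) (nat_lit 7) (nat_lit 5) (nat_lit 7) (nat_lit 4) (nat_lit 438) (nat_lit 377) (nat_lit 205)) (XT.nd (nat_lit 78) (nat_lit 0) (nat_lit 0) (XT.lf (nat_lit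 0) (nat_lit 867396086177) (nat_lit 76) (nat_lit 645798038916) (nat_lit 76) (nat_lit 432804768646) (nat_lit 6) (nat_lit 4) (nat_lit 7) (nat_lit 5) (nat_lit 7) (nat_lit 4) (nat_lit 439) (nat_lit 377) (nat_lit 204)) (XT.lf (nat_lit 0) (nat_lit 1356064486470) (nat_lit 76) (nat_lit 470900986332) (nat_lit 76) (nat_lit 257907690017) (nat_lit 6) (nat_lit 4) (nat_lit 7) (nat_lit 5) (nat_lit 7) (nat_lit 4) (nat_lit 440) (nat_lit 377) (nat_lit 203))))) (XT.nd (nat_lit 156) (nat_lit 0) (nat_lit 0) (XT.nd (nat_lit 78) (nat_lit 152) (nat_lit 0) (XT.lf (nat_lit 0) (nat_lit 1883826260045) (nat_lit 76) (nat_lit 282012218883) (nat_lit 76) (nat_lit 69018898453) (nat_lit 6) (nat_lit 4) (nat_lit 7) (nat_lit 5) (nat_lit 7) (nat_lit 4) (nat_lit 441) (nat_lit 377) (nat_lit 202)) (XT.lf (nat_lit 0) (nat_lit 56551175094) (nat_lit 76) (nat_lit 73037535412) (nat_lit 152) (nat_lit 2266883114096) (nat_lit 4) (nat_lit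 5) (nat_lit 5) (nat_lit 5) (nat_lit 6) (nat_lit 4) (nat_lit 442) (nat_lit 377) (nat_lit 201))) (XT.nd (nat_lit 78) (nat_lit 0) (nat_lit 0) (XT.lf (nat_lit 0) (nat_lit 353874534250) (nat_lit 152) (nat_lit 2059257546925) (nat_lit 0) (nat_lit 156658456996) (nat_lit 4) (nat_lit 5) (nat_lit 6) (nat_lit 4) (nat_lit 4) (nat_lit 4) (nat_lit 443) (nat_lit 377) (nat_lit 200)) (XT.nd (nat_lit 78) (nat_lit 0) (nat_lit 0) (XT.lf (nat_lit 0) (nat_lit 598000259439) (nat_lit 152) (nat_lit 1758038562087) (nat_lit 0) (nat_lit 400784164459) (nat_lit 4) (nat_lit 5) (nat_lit 6) (nat_lit 4) (nat_lit 4) (nat_lit 4) (nat_lit 444) (nat_lit 377) (nat_lit 199)) (XT.lf (nat_lit 0) (nat_lit 861656002554) (nat_lit 152) (nat_lit 1432722139120) (nat_lit 0) (nat_lit 664439891161) (nat_lit 4) (nat_lit 5) (nat_lit 6) (nat_lit 4) (nat_lit 4) (nat_lit 4) (nat_lit 445) (nat_lit 377) (nat_lit 198))))))))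
noncomputable def xc191 : XT := (XT.nd (nat_lit 48516) (nat_lit 0) (nat_lit 1824) (XT.nd (nat_lit 702) (nat_lit 0) (nat_lit 0) (XT.nd (nat_lit 312) (nat_lit 0) (nat_lit 0) (XT.nd (nat_lit 156) (nat_lit 76) (nat_lit 0) (XT.nd (nat_lit 78) (nat_lit 0) (nat_lit 0) (XT.lf (nat_lit 0) (nat_lit 1146404167998) (nat_lit 152) (nat_lit 1081380477000) (nat_lit 0) (nat_lit 949188041408) (nat_lit 4) (nat_lit 5) (nat_lit 6) (nat_lit 4) (nat_lit 4) (nat_lit 4) (nat_lit 446) (nat_lit 377) (nat_lit 197)) (XT.lf (nat_lit 0) (nat_lit 1453932152308) (nat_lit 152) (nat_lit 701931551061) (nat_lit 0) (nat_lit 1256716011647) (nat_lit 4) (nat_lit 5) (nat_lit 6) (nat_lit 4) (nat_lit 4) (nat_lit 4) (nat_lit 447) (nat_lit 377) (nat_lit 196))) (XT.nd (nat_lit 78) (nat_lit 76) (nat_lit 0) (XT.lf (nat_lit 0) (nat_lit 1786062343539) (nat_lit 152) (nat_lit 292126775076) (nat_lit 0) (nat_lit 1588846189849) (nat_lit 4)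 (nat_lit 5) (nat_lit 6) (nat_lit 4) (nat_lit 4) (nat_lit 4) (nat_lit 448) (nat_lit 377) (nat_lit 195)) (XT.lf (nat_lit 0) (nat_lit 158385403024) (nat_lit 76) (nat_lit 1990186690330) (nat_lit 76) (nat_lit 1792970524576) (nat_lit 3) (nat_lit 4) (nat_lit 4) (nat_lit 5) (nat_lit 4) (nat_lit 4) (nat_lit 449) (nat_lit 377) (nat_lit 194)))) (XT.nd (nat_lit 156) (nat_lit 0) (nat_lit 0) (XT.nd (nat_lit 78) (nat_lit 0) (nat_lit 0) (XT.lf (nat_lit 0) (nat_lit 661552006133) (nat_lit 76) (nat_lit 1886517852070) (nat_lit 76) (nat_lit 1689301675146) (nat_lit 3) (nat_lit 4) (nat_lit 4) (nat_lit 5) (nat_lit 4) (nat_lit 4) (nat_lit 450) (nat_lit 377) (nat_lit 193)) (XT.lf (nat_lit 0) (nat_lit 1204971883986) (nat_lit 76) (nat_lit 1774555533705) (nat_lit 76) (nat_lit 1577339346439) (nat_lit 3) (nat_lit 4) (nat_lit 4) (nat_lit 5) (nat_lit 4) (nat_lit 4) (nat_lit 451) (nat_lit 377) (nat_lit 192))) (XT.nd (nat_lit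 78) (nat_lit 0) (nat_lit 0) (XT.lf (nat_lit 0) (nat_lit 1791865302526) (nat_lit 76) (nat_lit 1653636254830) (nat_lit 76) (nat_lit 1456420057986) (nat_lit 3) (nat_lit 4) (nat_lit 4) (nat_lit 5) (nat_lit 4) (nat_lit 4) (nat_lit 452) (nat_lit 377) (nat_lit 191)) (XT.nd (nat_lit 78) (nat_lit 0) (nat_lit 0) (XT.lf (nat_lit 0) (nat_lit 2425710148678) (nat_lit 76) (nat_lit 1523043456754) (nat_lit 76) (nat_lit 1325827251043) (nat_lit 3) (nat_lit 4) (nat_lit 4) (nat_lit 5) (nat_lit 4) (nat_lit 4) (nat_lit 453) (nat_lit 377) (nat_lit 190)) (XT.lf (nat_lit 0) (nat_lit 3110262540047) (nat_lit 76) (nat_lit 1382003256230) (nat_lit 76) (nat_lit 1184787042308) (nat_lit 3) (nat_lit 4) (nat_lit 4) (nat_lit 5) (nat_lit 4) (nat_lit 4) (nat_lit 454) (nat_lit 377) (nat_lit 189)))))) (XT.nd (nat_lit 47424) (nat_lit 0) (nat_lit 4028) (XT.nd (nat_lit 47190) (nat_lit 0) (nat_lit 4408) (XT.nd (nat_lit 47112) (nat_lit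 0) (nat_lit 4408) (XT.lf (nat_lit 0) (nat_lit 3849579083399) (nat_lit 76) (nat_lit 1229679859476) (nat_lit 76) (nat_lit 1032463637953) (nat_lit 3) (nat_lit 4) (nat_lit 4) (nat_lit 5) (nat_lit 4) (nat_lit 4) (nat_lit 455) (nat_lit 377) (nat_lit 188)) (XT.lf (nat_lit 0) (nat_lit 32051194803) (nat_lit 532) (nat_lit 2924844366) (nat_lit 532) (nat_lit 2924844366) (nat_lit 61) (nat_lit 3) (nat_lit 68) (nat_lit 3) (nat_lit 68) (nat_lit 5) (nat_lit 378) (nat_lit 378) (nat_lit 264))) (XT.nd (nat_lit 78) (nat_lit 0) (nat_lit 76) (XT.lf (nat_lit 76) (nat_lit 32306858994) (nat_lit 0) (nat_lit 35147230778) (nat_lit 532) (nat_lit 11316726637) (nat_lit 62) (nat_lit 5) (nat_lit 61) (nat_lit 3) (nat_lit 68) (nat_lit 5) (nat_lit 379) (nat_lit 378) (nat_lit 263)) (XT.nd (nat_lit 78) (nat_lit 0) (nat_lit 0) (XT.lf (nat_lit 0) (nat_lit 71295685310) (nat_lit 456) (nat_lit 8179575214) (nat_lit 532) (nat_lit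 2484389723) (nat_lit 62) (nat_lit 5) (nat_lit 68) (nat_lit 5) (nat_lit 69) (nat_lit 5) (nat_lit 380) (nat_lit 378) (nat_lit 262)) (XT.lf (nat_lit 76) (nat_lit 33952428877) (nat_lit 0) (nat_lit 43220664320) (nat_lit 532) (nat_lit 8092220019) (nat_lit 63) (nat_lit 5) (nat_lit 62) (nat_lit 5) (nat_lit 69) (nat_lit 5) (nat_lit 381) (nat_lit 378) (nat_lit 261))))) (XT.nd (nat_lit 156) (nat_lit 0) (nat_lit 0) (XT.nd (nat_lit 78) (nat_lit 456) (nat_lit 0) (XT.lf (nat_lit 76) (nat_lit 79919537881) (nat_lit 0) (nat_lit 3823870652) (nat_lit 532) (nat_lit 5074204617) (nat_lit 63) (nat_lit 5) (nat_lit 62) (nat_lit 5) (nat_lit 69) (nat_lit 5) (nat_lit 382) (nat_lit 378) (nat_lit 260)) (XT.lf (nat_lit 0) (nat_lit 165167107) (nat_lit 532) (nat_lit 54638516197) (nat_lit 608) (nat_lit 37702775585) (nat_lit 56) (nat_lit 5) (nat_lit 63) (nat_lit 5) (nat_lit 64) (nat_lit 5) (nat_lit 383) (nat_lit 378) (nat_lit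 259))) (XT.nd (nat_lit 78) (nat_lit 0) (nat_lit 76) (XT.lf (nat_lit 0) (nat_lit 5897651332) (nat_lit 532) (nat_lit 7827795816) (nat_lit 608) (nat_lit 82726574090) (nat_lit 56) (nat_lit 5) (nat_lit 63) (nat_lit 5) (nat_lit 64) (nat_lit 5) (nat_lit 384) (nat_lit 378) (nat_lit 258)) (XT.nd (nat_lit 78) (nat_lit 0) (nat_lit 0) (XT.lf (nat_lit 0) (nat_lit 13934636325) (nat_lit 532) (nat_lit 56414646847) (nat_lit 76) (nat_lit 30216274060) (nat_lit 57) (nat_lit 5) (nat_lit 64) (nat_lit 5) (nat_lit 58) (nat_lit 5) (nat_lit 385) (nat_lit 378) (nat_lit 257)) (XT.lf (nat_lit 0) (nat_lit 23189947627) (nat_lit 532) (nat_lit 4620717318) (nat_lit 76) (nat_lit 77151482517) (nat_lit 57) (nat_lit 5) (nat_lit 64) (nat_lit 5) (nat_lit 58) (nat_lit 5) (nat_lit 386) (nat_lit 378) (nat_lit 256))))))) (XT.nd (nat_lit 780) (nat_lit 836) (nat_lit 0) (XT.nd (nat_lit 390) (nat_lit 608) (nat_lit 0) (XT.nd (nat_lit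 156) (nat_lit 228) (nat_lit 0) (XT.nd (nat_lit 78) (nat_lit 228) (nat_lit 0) (XT.lf (nat_lit 0) (nat_lit 34953953150) (nat_lit 456) (nat_lit 56058078575) (nat_lit 76) (nat_lit 18556972342) (nat_lit 52) (nat_lit 5) (nat_lit 58) (nat_lit 5) (nat_lit 53) (nat_lit 5) (nat_lit 387) (nat_lit 378) (nat_lit 255)) (XT.lf (nat_lit 0) (nat_lit 1363481619) (nat_lit 228) (nat_lit 47179730348) (nat_lit 304) (nat_lit 65930467255) (nat_lit 49) (nat_lit 5) (nat_lit 52) (nat_lit 5) (nat_lit 53) (nat_lit 5) (nat_lit 388) (nat_lit 378) (nat_lit 254))) (XT.nd (nat_lit 78) (nat_lit 228) (nat_lit 0) (XT.lf (nat_lit 0) (nat_lit 64795373526) (nat_lit 304) (nat_lit 53125611080) (nat_lit 76) (nat_lit 1723683421) (nat_lit 49) (nat_lit 5) (nat_lit 53) (nat_lit 5) (nat_lit 50) (nat_lit 5) (nat_lit 389) (nat_lit 378) (nat_lit 253)) (XT.nd (nat_lit 78) (nat_lit 0) (nat_lit 0) (XT.lf (nat_lit 0) (nat_lit 10980957419)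 (nat_lit 228) (nat_lit 72855731201) (nat_lit 304) (nat_lit 41273529425) (nat_lit 46) (nat_lit 5) (nat_lit 49) (nat_lit 5) (nat_lit 50) (nat_lit 5) (nat_lit 390) (nat_lit 378) (nat_lit 252)) (XT.lf (nat_lit 0) (nat_lit 83236719049) (nat_lit 228) (nat_lit 22616605210) (nat_lit 304) (nat_lit 25043527094) (nat_lit 46) (nat_lit 5) (nat_lit 49) (nat_lit 5) (nat_lit 50) (nat_lit 5) (nat_lit 391) (nat_lit 378) (nat_lit 251))))) (XT.nd (nat_lit 156) (nat_lit 380) (nat_lit 0) (XT.nd (nat_lit 78) (nat_lit 76) (nat_lit 0) (XT.lf (nat_lit 0) (nat_lit 24595275322) (nat_lit 152) (nat_lit 106388019093) (nat_lit 228) (nat_lit 6054961093) (nat_lit 44) (nat_lit 5) (nat_lit 46) (nat_lit 5) (nat_lit 47) (nat_lit 5) (nat_lit 392) (nat_lit 378) (nat_lit 250)) (XT.lf (nat_lit 0) (nat_lit 15653625555) (nat_lit 228) (nat_lit 39194646408) (nat_lit 76) (nat_lit 88640980043) (nat_lit 43) (nat_lit 5) (nat_lit 46) (nat_lit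 5) (nat_lit 44) (nat_lit 5) (nat_lit 393) (nat_lit 378) (nat_lit 249))) (XT.nd (nat_lit 78) (nat_lit 152) (nat_lit 0) (XT.lf (nat_lit 0) (nat_lit 39827613237) (nat_lit 304) (nat_lit 108563921583) (nat_lit 76) (nat_lit 1967744902) (nat_lit 40) (nat_lit 5) (nat_lit 44) (nat_lit 5) (nat_lit 41) (nat_lit 5) (nat_lit 394) (nat_lit 378) (nat_lit 248)) (XT.nd (nat_lit 78) (nat_lit 152) (nat_lit 0) (XT.lf (nat_lit 0) (nat_lit 68459202404) (nat_lit 304) (nat_lit 27652649373) (nat_lit 76) (nat_lit 61465163633) (nat_lit 40) (nat_lit 5) (nat_lit 44) (nat_lit 5) (nat_lit 41) (nat_lit 5) (nat_lit 395) (nat_lit 378) (nat_lit 247)) (XT.lf (nat_lit 0) (nat_lit 62876292535) (nat_lit 152) (nat_lit 38016800520) (nat_lit 228) (nat_lit 64358135275) (nat_lit 38) (nat_lit 5) (nat_lit 40) (nat_lit 5) (nat_lit 41) (nat_lit 5) (nat_lit 396) (nat_lit 378) (nat_lit 246)))))) (XT.nd (nat_lit 390) (nat_lit 304) (nat_lit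 0) (XT.nd (nat_lit 156) (nat_lit 380) (nat_lit 0) (XT.nd (nat_lit 78) (nat_lit 152) (nat_lit 0) (XT.lf (nat_lit 0) (nat_lit 137291673891) (nat_lit 228) (nat_lit 11873579694) (nat_lit 76) (nat_lit 24264526683) (nat_lit 38) (nat_lit 5) (nat_lit 41) (nat_lit 5) (nat_lit 39) (nat_lit 5) (nat_lit 397) (nat_lit 378) (nat_lit 245)) (XT.lf (nat_lit 0) (nat_lit 89349531301) (nat_lit 152) (nat_lit 90388557307) (nat_lit 228) (nat_lit 2273652240) (nat_lit 36) (nat_lit 5) (nat_lit 38) (nat_lit 5) (nat_lit 39) (nat_lit 5) (nat_lit 398) (nat_lit 378) (nat_lit 244))) (XT.nd (nat_lit 78) (nat_lit 152) (nat_lit 0) (XT.lf (nat_lit 0) (nat_lit 7639754600) (nat_lit 152) (nat_lit 25460838838) (nat_lit 228) (nat_lit 158072355246) (nat_lit 33) (nat_lit 5) (nat_lit 35) (nat_lit 5) (nat_lit 36) (nat_lit 5) (nat_lit 399) (nat_lit 378) (nat_lit 243)) (XT.nd (nat_lit 78) (nat_lit 152) (nat_lit 0) (XT.lf (nat_lit 0)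 (nat_lit 74855052597) (nat_lit 228) (nat_lit 80828219066) (nat_lit 76) (nat_lit 45085208424) (nat_lit 33) (nat_lit 5) (nat_lit 36) (nat_lit 5) (nat_lit 34) (nat_lit 5) (nat_lit 400) (nat_lit 378) (nat_lit 242)) (XT.lf (nat_lit 0) (nat_lit 30981130597) (nat_lit 152) (nat_lit 90374835089) (nat_lit 228) (nat_lit 89663200746) (nat_lit 31) (nat_lit 5) (nat_lit 33) (nat_lit 5) (nat_lit 34) (nat_lit 5) (nat_lit 401) (nat_lit 378) (nat_lit 241))))) (XT.nd (nat_lit 156) (nat_lit 228) (nat_lit 0) (XT.nd (nat_lit 78) (nat_lit 76) (nat_lit 0) (XT.lf (nat_lit 0) (nat_lit 156331508951) (nat_lit 152) (nat_lit 17455121288) (nat_lit 228) (nat_lit 48126503362) (nat_lit 31) (nat_lit 5) (nat_lit 33) (nat_lit 5) (nat_lit 34) (nat_lit 5) (nat_lit 402) (nat_lit 378) (nat_lit 240)) (XT.lf (nat_lit 0) (nat_lit 59534773221) (nat_lit 76) (nat_lit 173782720339) (nat_lit 152) (nat_lit 128665110) (nat_lit 30) (nat_lit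 5) (nat_lit 31) (nat_lit 5) (nat_lit 32) (nat_lit 4) (nat_lit 403) (nat_lit 378) (nat_lit 239))) (XT.nd (nat_lit 78) (nat_lit 152) (nat_lit 0) (XT.lf (nat_lit 0) (nat_lit 51415092038) (nat_lit 152) (nat_lit 49112242722) (nat_lit 76) (nat_lit 145091580084) (nat_lit 29) (nat_lit 5) (nat_lit 31) (nat_lit 5) (nat_lit 30) (nat_lit 5) (nat_lit 404) (nat_lit 378) (nat_lit 238)) (XT.nd (nat_lit 78) (nat_lit 0) (nat_lit 0) (XT.lf (nat_lit 0) (nat_lit 90178122272) (nat_lit 152) (nat_lit 19065796820) (nat_lit 228) (nat_lit 149347823554) (nat_lit 27) (nat_lit 5) (nat_lit 29) (nat_lit 5) (nat_lit 30) (nat_lit 5) (nat_lit 405) (nat_lit 378) (nat_lit 237)) (XT.lf (nat_lit 0) (nat_lit 174733837301) (nat_lit 228) (nat_lit 30782875071) (nat_lit 76) (nat_lit 66842901633) (nat_lit 27) (nat_lit 5) (nat_lit 30) (nat_lit 5) (nat_lit 28) (nat_lit 4) (nat_lit 406) (nat_lit 378) (nat_lit 236))))))))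
noncomputable def xc192 : XT := (XT.nd (nat_lit 1482) (nat_lit 684) (nat_lit 0) (XT.nd (nat_lit 702) (nat_lit 456) (nat_lit 0) (XT.nd (nat_lit 312) (nat_lit 228) (nat_lit 0) (XT.nd (nat_lit 156) (nat_lit 228) (nat_lit 0) (XT.nd (nat_lit 78) (nat_lit 76) (nat_lit 0) (XT.lf (nat_lit 0) (nat_lit 123542811973) (nat_lit 76) (nat_lit 125386319052) (nat_lit 152) (nat_lit 38022489601) (nat_lit 26) (nat_lit 5) (nat_lit 27) (nat_lit 5) (nat_lit 28) (nat_lit 4) (nat_lit 407) (nat_lit 378) (nat_lit 235)) (XT.lf (nat_lit 0) (nat_lit 25894254314) (nat_lit 152) (nat_lit 11334424932) (nat_lit 76) (nat_lit 265362550545) (nat_lit 25) (nat_lit 5) (nat_lit 27) (nat_lit 5) (nat_lit 26) (nat_lit 5) (nat_lit 408) (nat_lit 378) (nat_lit 234))) (XT.nd (nat_lit 78) (nat_lit 76) (nat_lit 0) (XT.lf (nat_lit 0) (nat_lit 98235940661) (nat_lit 228) (nat_lit 160697683066) (nat_lit 76) (nat_lit 60040111889) (nat_lit 23)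 (nat_lit 5) (nat_lit 26) (nat_lit 5) (nat_lit 24) (nat_lit 4) (nat_lit 409) (nat_lit 378) (nat_lit 233)) (XT.lf (nat_lit 0) (nat_lit 4718540667) (nat_lit 76) (nat_lit 173044615771) (nat_lit 152) (nat_lit 158791829996) (nat_lit 22) (nat_lit 5) (nat_lit 23) (nat_lit 5) (nat_lit 24) (nat_lit 4) (nat_lit 410) (nat_lit 378) (nat_lit 232)))) (XT.nd (nat_lit 156) (nat_lit 152) (nat_lit 0) (XT.nd (nat_lit 78) (nat_lit 76) (nat_lit 0) (XT.lf (nat_lit 0) (nat_lit 192506702675) (nat_lit 76) (nat_lit 75539395382) (nat_lit 152) (nat_lit 87145155456) (nat_lit 22) (nat_lit 5) (nat_lit 23) (nat_lit 5) (nat_lit 24) (nat_lit 4) (nat_lit 411) (nat_lit 378) (nat_lit 231)) (XT.lf (nat_lit 0) (nat_lit 20298675698) (nat_lit 76) (nat_lit 346456862809) (nat_lit 76) (nat_lit 8466574446) (nat_lit 21) (nat_lit 4) (nat_lit 22) (nat_lit 5) (nat_lit 22) (nat_lit 4) (nat_lit 412) (nat_lit 378) (nat_lit 230))) (XT.nd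 (nat_lit 78) (nat_lit 76) (nat_lit 0) (XT.lf (nat_lit 0) (nat_lit 79204621367) (nat_lit 152) (nat_lit 173244958966) (nat_lit 76) (nat_lit 143736623988) (nat_lit 20) (nat_lit 5) (nat_lit 22) (nat_lit 5) (nat_lit 21) (nat_lit 4) (nat_lit 413) (nat_lit 378) (nat_lit 229)) (XT.nd (nat_lit 78) (nat_lit 0) (nat_lit 0) (XT.lf (nat_lit 0) (nat_lit 23945394786) (nat_lit 76) (nat_lit 150062407270) (nat_lit 152) (nat_lit 244755971789) (nat_lit 19) (nat_lit 5) (nat_lit 20) (nat_lit 5) (nat_lit 21) (nat_lit 4) (nat_lit 414) (nat_lit 378) (nat_lit 228)) (XT.lf (nat_lit 0) (nat_lit 246763242305) (nat_lit 76) (nat_lit 34368641571) (nat_lit 152) (nat_lit 161636733376) (nat_lit 19) (nat_lit 5) (nat_lit 20) (nat_lit 5) (nat_lit 21) (nat_lit 4) (nat_lit 415) (nat_lit 378) (nat_lit 227)))))) (XT.nd (nat_lit 390) (nat_lit 228) (nat_lit 0) (XT.nd (nat_lit 156) (nat_lit 76) (nat_lit 0) (XT.nd (nat_lit 78) (nat_lit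 76) (nat_lit 0) (XT.lf (nat_lit 0) (nat_lit 17404534233) (nat_lit 76) (nat_lit 382018235955) (nat_lit 76) (nat_lit 69063327760) (nat_lit 18) (nat_lit 4) (nat_lit 19) (nat_lit 5) (nat_lit 19) (nat_lit 4) (nat_lit 416) (nat_lit 378) (nat_lit 226)) (XT.lf (nat_lit 0) (nat_lit 35760266893) (nat_lit 152) (nat_lit 238573745695) (nat_lit 76) (nat_lit 221356213597) (nat_lit 17) (nat_lit 5) (nat_lit 19) (nat_lit 5) (nat_lit 18) (nat_lit 4) (nat_lit 417) (nat_lit 378) (nat_lit 225))) (XT.nd (nat_lit 78) (nat_lit 76) (nat_lit 0) (XT.lf (nat_lit 0) (nat_lit 145238380980) (nat_lit 152) (nat_lit 10859446761) (nat_lit 76) (nat_lit 368829361134) (nat_lit 17) (nat_lit 5) (nat_lit 19) (nat_lit 5) (nat_lit 18) (nat_lit 4) (nat_lit 418) (nat_lit 378) (nat_lit 224)) (XT.nd (nat_lit 78) (nat_lit 0) (nat_lit 0) (XT.lf (nat_lit 0) (nat_lit 247450186347) (nat_lit 76) (nat_lit 21975597645) (nat_lit 152) (nat_lit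 286601241442) (nat_lit 16) (nat_lit 5) (nat_lit 17) (nat_lit 5) (nat_lit 18) (nat_lit 4) (nat_lit 419) (nat_lit 378) (nat_lit 223)) (XT.lf (nat_lit 0) (nat_lit 406807846655) (nat_lit 152) (nat_lit 65512083434) (nat_lit 0) (nat_lit 117034145471) (nat_lit 16) (nat_lit 5) (nat_lit 18) (nat_lit 4) (nat_lit 16) (nat_lit 4) (nat_lit 420) (nat_lit 378) (nat_lit 222))))) (XT.nd (nat_lit 156) (nat_lit 76) (nat_lit 0) (XT.nd (nat_lit 78) (nat_lit 76) (nat_lit 0) (XT.lf (nat_lit 0) (nat_lit 206770294026) (nat_lit 76) (nat_lit 353953674238) (nat_lit 76) (nat_lit 64179841948) (nat_lit 15) (nat_lit 4) (nat_lit 16) (nat_lit 5) (nat_lit 16) (nat_lit 4) (nat_lit 421) (nat_lit 378) (nat_lit 221)) (XT.lf (nat_lit 0) (nat_lit 62309142944) (nat_lit 152) (nat_lit 160170936360) (nat_lit 76) (nat_lit 440547961517) (nat_lit 14) (nat_lit 5) (nat_lit 16) (nat_lit 5) (nat_lit 15) (nat_lit 4) (nat_lit 422) (nat_lit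 378) (nat_lit 220))) (XT.nd (nat_lit 78) (nat_lit 0) (nat_lit 0) (XT.lf (nat_lit 0) (nat_lit 122909856458) (nat_lit 76) (nat_lit 75495875534) (nat_lit 152) (nat_lit 505426648092) (nat_lit 13) (nat_lit 5) (nat_lit 14) (nat_lit 5) (nat_lit 15) (nat_lit 4) (nat_lit 423) (nat_lit 378) (nat_lit 219)) (XT.nd (nat_lit 78) (nat_lit 0) (nat_lit 0) (XT.lf (nat_lit 0) (nat_lit 351885128556) (nat_lit 152) (nat_lit 311920619787) (nat_lit 0) (nat_lit 83575711739) (nat_lit 13) (nat_lit 5) (nat_lit 15) (nat_lit 4) (nat_lit 13) (nat_lit 4) (nat_lit 424) (nat_lit 378) (nat_lit 218)) (XT.lf (nat_lit 0) (nat_lit 519603697289) (nat_lit 152) (nat_lit 23359712334) (nat_lit 0) (nat_lit 251294191243) (nat_lit 13) (nat_lit 5) (nat_lit 15) (nat_lit 4) (nat_lit 13) (nat_lit 4) (nat_lit 425) (nat_lit 378) (nat_lit 217))))))) (XT.nd (nat_lit 702) (nat_lit 304) (nat_lit 0) (XT.nd (nat_lit 312) (nat_lit 152) (nat_lit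 0) (XT.nd (nat_lit 156) (nat_lit 76) (nat_lit 0) (XT.nd (nat_lit 78) (nat_lit 76) (nat_lit 0) (XT.lf (nat_lit 0) (nat_lit 303466489782) (nat_lit 76) (nat_lit 404571534978) (nat_lit 76) (nat_lit 136261946314) (nat_lit 12) (nat_lit 4) (nat_lit 13) (nat_lit 5) (nat_lit 13) (nat_lit 4) (nat_lit 426) (nat_lit 378) (nat_lit 216)) (XT.lf (nat_lit 0) (nat_lit 13196164273) (nat_lit 152) (nat_lit 240861643474) (nat_lit 76) (nat_lit 644210109103) (nat_lit 11) (nat_lit 5) (nat_lit 13) (nat_lit 5) (nat_lit 12) (nat_lit 4) (nat_lit 427) (nat_lit 378) (nat_lit 215))) (XT.nd (nat_lit 78) (nat_lit 0) (nat_lit 0) (XT.lf (nat_lit 0) (nat_lit 83758419137) (nat_lit 76) (nat_lit 85505116984) (nat_lit 152) (nat_lit 786845476735) (nat_lit 10) (nat_lit 5) (nat_lit 11) (nat_lit 5) (nat_lit 12) (nat_lit 4) (nat_lit 428) (nat_lit 378) (nat_lit 214)) (XT.lf (nat_lit 0) (nat_lit 346894433214) (nat_lit 152) (nat_lit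 572497280752) (nat_lit 0) (nat_lit 98459431750) (nat_lit 10) (nat_lit 5) (nat_lit 12) (nat_lit 4) (nat_lit 10) (nat_lit 4) (nat_lit 429) (nat_lit 378) (nat_lit 213)))) (XT.nd (nat_lit 156) (nat_lit 76) (nat_lit 0) (XT.nd (nat_lit 78) (nat_lit 76) (nat_lit 0) (XT.lf (nat_lit 0) (nat_lit 540956626553) (nat_lit 152) (nat_lit 250876787848) (nat_lit 0) (nat_lit 292521568860) (nat_lit 10) (nat_lit 5) (nat_lit 12) (nat_lit 4) (nat_lit 10) (nat_lit 4) (nat_lit 430) (nat_lit 378) (nat_lit 212)) (XT.lf (nat_lit 0) (nat_lit 101553291252) (nat_lit 76) (nat_lit 651432782046) (nat_lit 76) (nat_lit 402997672289) (nat_lit 9) (nat_lit 4) (nat_lit 10) (nat_lit 5) (nat_lit 10) (nat_lit 4) (nat_lit 431) (nat_lit 378) (nat_lit 211))) (XT.nd (nat_lit 78) (nat_lit 76) (nat_lit 0) (XT.lf (nat_lit 0) (nat_lit 496445205800) (nat_lit 76) (nat_lit 492392007056) (nat_lit 76) (nat_lit 243956849091) (nat_lit 9) (nat_lit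 4) (nat_lit 10) (nat_lit 5) (nat_lit 10) (nat_lit 4) (nat_lit 432) (nat_lit 378) (nat_lit 210)) (XT.nd (nat_lit 78) (nat_lit 76) (nat_lit 0) (XT.lf (nat_lit 0) (nat_lit 922928328972) (nat_lit 76) (nat_lit 320628041549) (nat_lit 76) (nat_lit 72192838949) (nat_lit 9) (nat_lit 4) (nat_lit 10) (nat_lit 5) (nat_lit 10) (nat_lit 4) (nat_lit 433) (nat_lit 378) (nat_lit 209)) (XT.lf (nat_lit 0) (nat_lit 107643882830) (nat_lit 152) (nat_lit 24535967643) (nat_lit 76) (nat_lit 1272942910816) (nat_lit 8) (nat_lit 5) (nat_lit 10) (nat_lit 5) (nat_lit 9) (nat_lit 4) (nat_lit 434) (nat_lit 378) (nat_lit 208)))))) (XT.nd (nat_lit 390) (nat_lit 152) (nat_lit 0) (XT.nd (nat_lit 156) (nat_lit 76) (nat_lit 0) (XT.nd (nat_lit 78) (nat_lit 0) (nat_lit 0) (XT.lf (nat_lit 0) (nat_lit 309376825827) (nat_lit 152) (nat_lit 1111862437464) (nat_lit 0) (nat_lit 79344157124) (nat_lit 7) (nat_lit 5) (nat_lit 9) (nat_lit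 4) (nat_lit 7) (nat_lit 4) (nat_lit 435) (nat_lit 378) (nat_lit 207)) (XT.lf (nat_lit 0) (nat_lit 531369864849) (nat_lit 152) (nat_lit 770644187246) (nat_lit 0) (nat_lit 301337163337) (nat_lit 7) (nat_lit 5) (nat_lit 9) (nat_lit 4) (nat_lit 7) (nat_lit 4) (nat_lit 436) (nat_lit 378) (nat_lit 206))) (XT.nd (nat_lit 78) (nat_lit 76) (nat_lit 0) (XT.lf (nat_lit 0) (nat_lit 771122287758) (nat_lit 152) (nat_lit 402128595174) (nat_lit 0) (nat_lit 541089555867) (nat_lit 7) (nat_lit 5) (nat_lit 9) (nat_lit 4) (nat_lit 7) (nat_lit 4) (nat_lit 437) (nat_lit 378) (nat_lit 205)) (XT.nd (nat_lit 78) (nat_lit 76) (nat_lit 0) (XT.lf (nat_lit 0) (nat_lit 1030054849651) (nat_lit 152) (nat_lit 4131865145) (nat_lit 0) (nat_lit 800022089631) (nat_lit 7) (nat_lit 5) (nat_lit 9) (nat_lit 4) (nat_lit 7) (nat_lit 4) (nat_lit 438) (nat_lit 378) (nat_lit 204)) (XT.lf (nat_lit 0) (nat_lit 448121346640) (nat_lit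 76) (nat_lit 872357948234) (nat_lit 76) (nat_lit 642325162169) (nat_lit 6) (nat_lit 4) (nat_lit 7) (nat_lit 5) (nat_lit 7) (nat_lit 4) (nat_lit 439) (nat_lit 378) (nat_lit 203))))) (XT.nd (nat_lit 156) (nat_lit 152) (nat_lit 0) (XT.nd (nat_lit 78) (nat_lit 0) (nat_lit 0) (XT.lf (nat_lit 0) (nat_lit 936789699461) (nat_lit 76) (nat_lit 697460919372) (nat_lit 76) (nat_lit 467428109192) (nat_lit 6) (nat_lit 4) (nat_lit 7) (nat_lit 5) (nat_lit 7) (nat_lit 4) (nat_lit 440) (nat_lit 378) (nat_lit 202)) (XT.lf (nat_lit 0) (nat_lit 1464551429082) (nat_lit 76) (nat_lit 508572173889) (nat_lit 76) (nat_lit 278539341379) (nat_lit 6) (nat_lit 4) (nat_lit 7) (nat_lit 5) (nat_lit 7) (nat_lit 4) (nat_lit 441) (nat_lit 378) (nat_lit 201))) (XT.nd (nat_lit 78) (nat_lit 152) (nat_lit 0) (XT.lf (nat_lit 0) (nat_lit 2034534012418) (nat_lit 76) (nat_lit 304572371070) (nat_lit 76) (nat_lit 74539517885) (nat_lit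 6) (nat_lit 4) (nat_lit 7) (nat_lit 5) (nat_lit 7) (nat_lit 4) (nat_lit 442) (nat_lit 378) (nat_lit 200)) (XT.nd (nat_lit 78) (nat_lit 0) (nat_lit 0) (XT.lf (nat_lit 0) (nat_lit 61076922462) (nat_lit 76) (nat_lit 78879709648) (nat_lit 152) (nat_lit 2448232872394) (nat_lit 4) (nat_lit 5) (nat_lit 5) (nat_lit 5) (nat_lit 6) (nat_lit 4) (nat_lit 443) (nat_lit 378) (nat_lit 199)) (XT.lf (nat_lit 0) (nat_lit 382185279112) (nat_lit 152) (nat_lit 2223996577069) (nat_lit 0) (nat_lit 169191862395) (nat_lit 4) (nat_lit 5) (nat_lit 6) (nat_lit 4) (nat_lit 4) (nat_lit 4) (nat_lit 444) (nat_lit 378) (nat_lit 198))))))))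
noncomputable def xc193 : XT := (XT.nd (nat_lit 48594) (nat_lit 0) (nat_lit 1824) (XT.nd (nat_lit 702) (nat_lit 0) (nat_lit 0) (XT.nd (nat_lit 312) (nat_lit 76) (nat_lit 0) (XT.nd (nat_lit 156) (nat_lit 0) (nat_lit 0) (XT.nd (nat_lit 78) (nat_lit 0) (nat_lit 0) (XT.lf (nat_lit 0) (nat_lit 645841004381) (nat_lit 152) (nat_lit 1898680190008) (nat_lit 0) (nat_lit 432847572467) (nat_lit 4) (nat_lit 5) (nat_lit 6) (nat_lit 4) (nat_lit 4) (nat_lit 4) (nat_lit 445) (nat_lit 378) (nat_lit 197)) (XT.lf (nat_lit 0) (nat_lit 930589153301) (nat_lit 152) (nat_lit 1547338561133) (nat_lit 0) (nat_lit 717595707316) (nat_lit 4) (nat_lit 5) (nat_lit 6) (nat_lit 4) (nat_lit 4) (nat_lit 4) (nat_lit 446) (nat_lit 378) (nat_lit 196))) (XT.nd (nat_lit 78) (nat_lit 0) (nat_lit 0) (XT.lf (nat_lit 0) (nat_lit 1238117122311) (nat_lit 152) (nat_lit 1167889665978) (nat_lit 0) (nat_lit 1025123663297) (nat_lit 4) (nat_lit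 5) (nat_lit 6) (nat_lit 4) (nat_lit 4) (nat_lit 4) (nat_lit 447) (nat_lit 378) (nat_lit 195)) (XT.lf (nat_lit 0) (nat_lit 1570247299376) (nat_lit 152) (nat_lit 758084918496) (nat_lit 0) (nat_lit 1357253828298) (nat_lit 4) (nat_lit 5) (nat_lit 6) (nat_lit 4) (nat_lit 4) (nat_lit 4) (nat_lit 448) (nat_lit 378) (nat_lit 194)))) (XT.nd (nat_lit 156) (nat_lit 0) (nat_lit 0) (XT.nd (nat_lit 78) (nat_lit 76) (nat_lit 0) (XT.lf (nat_lit 0) (nat_lit 1928947863321) (nat_lit 152) (nat_lit 315495846110) (nat_lit 0) (nat_lit 1715954381073) (nat_lit 4) (nat_lit 5) (nat_lit 6) (nat_lit 4) (nat_lit 4) (nat_lit 4) (nat_lit 449) (nat_lit 378) (nat_lit 193)) (XT.lf (nat_lit 0) (nat_lit 171057279125) (nat_lit 76) (nat_lit 2149401099671) (nat_lit 76) (nat_lit 1936407607080) (nat_lit 3) (nat_lit 4) (nat_lit 4) (nat_lit 5) (nat_lit 4) (nat_lit 4) (nat_lit 450) (nat_lit 378) (nat_lit 192))) (XT.nd (nat_lit 78)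 (nat_lit 0) (nat_lit 0) (XT.lf (nat_lit 0) (nat_lit 714477133160) (nat_lit 76) (nat_lit 2037438793306) (nat_lit 76) (nat_lit 1824445291138) (nat_lit 3) (nat_lit 4) (nat_lit 4) (nat_lit 5) (nat_lit 4) (nat_lit 4) (nat_lit 451) (nat_lit 378) (nat_lit 191)) (XT.nd (nat_lit 78) (nat_lit 0) (nat_lit 0) (XT.lf (nat_lit 0) (nat_lit 1301370529646) (nat_lit 76) (nat_lit 1916519525540) (nat_lit 76) (nat_lit 1703526014505) (nat_lit 3) (nat_lit 4) (nat_lit 4) (nat_lit 5) (nat_lit 4) (nat_lit 4) (nat_lit 452) (nat_lit 378) (nat_lit 190)) (XT.lf (nat_lit 0) (nat_lit 1935215355377) (nat_lit 76) (nat_lit 1785926737752) (nat_lit 76) (nat_lit 1572933218506) (nat_lit 3) (nat_lit 4) (nat_lit 4) (nat_lit 5) (nat_lit 4) (nat_lit 4) (nat_lit 453) (nat_lit 378) (nat_lit 189)))))) (XT.nd (nat_lit 47502) (nat_lit 0) (nat_lit 4028) (XT.nd (nat_lit 47268) (nat_lit 0) (nat_lit 4408) (XT.nd (nat_lit 78) (nat_lit 0)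 (nat_lit 0) (XT.lf (nat_lit 0) (nat_lit 2619767727839) (nat_lit 76) (nat_lit 1644886546753) (nat_lit 76) (nat_lit 1431893019905) (nat_lit 3) (nat_lit 4) (nat_lit 4) (nat_lit 5) (nat_lit 4) (nat_lit 4) (nat_lit 454) (nat_lit 378) (nat_lit 188)) (XT.lf (nat_lit 0) (nat_lit 3359084253684) (nat_lit 76) (nat_lit 1492563158820) (nat_lit 76) (nat_lit 1279569624933) (nat_lit 3) (nat_lit 4) (nat_lit 4) (nat_lit 5) (nat_lit 4) (nat_lit 4) (nat_lit 455) (nat_lit 378) (nat_lit 187))) (XT.nd (nat_lit 78) (nat_lit 0) (nat_lit 0) (XT.lf (nat_lit 0) (nat_lit 34625658730) (nat_lit 532) (nat_lit 3153226677) (nat_lit 532) (nat_lit 3153226677) (nat_lit 61) (nat_lit 3) (nat_lit 68) (nat_lit 3) (nat_lit 68) (nat_lit 5) (nat_lit 379) (nat_lit 379) (nat_lit 262)) (XT.nd (nat_lit 78) (nat_lit 0) (nat_lit 76) (XT.lf (nat_lit 76) (nat_lit 34902334380) (nat_lit 0) (nat_lit 37967545997) (nat_lit 532) (nat_lit 12201020819)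 (nat_lit 62) (nat_lit 5) (nat_lit 61) (nat_lit 3) (nat_lit 68) (nat_lit 5) (nat_lit 380) (nat_lit 379) (nat_lit 261)) (XT.lf (nat_lit 0) (nat_lit 77017171722) (nat_lit 456) (nat_lit 8822170396) (nat_lit 532) (nat_lit 2675631906) (nat_lit 62) (nat_lit 5) (nat_lit 68) (nat_lit 5) (nat_lit 69) (nat_lit 5) (nat_lit 381) (nat_lit 379) (nat_lit 260))))) (XT.nd (nat_lit 156) (nat_lit 456) (nat_lit 0) (XT.nd (nat_lit 78) (nat_lit 0) (nat_lit 0) (XT.lf (nat_lit 76) (nat_lit 36680096026) (nat_lit 0) (nat_lit 46683631277) (nat_lit 532) (nat_lit 8721447931) (nat_lit 63) (nat_lit 5) (nat_lit 62) (nat_lit 5) (nat_lit 69) (nat_lit 5) (nat_lit 382) (nat_lit 379) (nat_lit 259)) (XT.lf (nat_lit 76) (nat_lit 86323723910) (nat_lit 0) (nat_lit 4134700500) (nat_lit 532) (nat_lit 5463335719) (nat_lit 63) (nat_lit 5) (nat_lit 62) (nat_lit 5) (nat_lit 69) (nat_lit 5) (nat_lit 383) (nat_lit 379) (nat_lit 258)))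 (XT.nd (nat_lit 78) (nat_lit 0) (nat_lit 0) (XT.lf (nat_lit 0) (nat_lit 193338784) (nat_lit 532) (nat_lit 58997094334) (nat_lit 608) (nat_lit 40715329856) (nat_lit 56) (nat_lit 5) (nat_lit 63) (nat_lit 5) (nat_lit 64) (nat_lit 5) (nat_lit 384) (nat_lit 379) (nat_lit 257)) (XT.nd (nat_lit 78) (nat_lit 0) (nat_lit 76) (XT.lf (nat_lit 0) (nat_lit 6383313724) (nat_lit 532) (nat_lit 8442442482) (nat_lit 608) (nat_lit 89341303929) (nat_lit 56) (nat_lit 5) (nat_lit 63) (nat_lit 5) (nat_lit 64) (nat_lit 5) (nat_lit 385) (nat_lit 379) (nat_lit 256)) (XT.lf (nat_lit 0) (nat_lit 15062459373) (nat_lit 532) (nat_lit 60915429769) (nat_lit 76) (nat_lit 32631854813) (nat_lit 57) (nat_lit 5) (nat_lit 64) (nat_lit 5) (nat_lit 58) (nat_lit 5) (nat_lit 386) (nat_lit 379) (nat_lit 255))))))) (XT.nd (nat_lit 780) (nat_lit 988) (nat_lit 0) (XT.nd (nat_lit 390) (nat_lit 456) (nat_lit 0) (XT.nd (nat_lit 156) (nat_lit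 456) (nat_lit 0) (XT.nd (nat_lit 78) (nat_lit 380) (nat_lit 0) (XT.lf (nat_lit 0) (nat_lit 25057228755) (nat_lit 532) (nat_lit 4978903569) (nat_lit 76) (nat_lit 83322007440) (nat_lit 57) (nat_lit 5) (nat_lit 64) (nat_lit 5) (nat_lit 58) (nat_lit 5) (nat_lit 387) (nat_lit 379) (nat_lit 254)) (XT.lf (nat_lit 0) (nat_lit 37761721715) (nat_lit 456) (nat_lit 60530608989) (nat_lit 76) (nat_lit 20041265771) (nat_lit 52) (nat_lit 5) (nat_lit 58) (nat_lit 5) (nat_lit 53) (nat_lit 5) (nat_lit 388) (nat_lit 379) (nat_lit 253))) (XT.nd (nat_lit 78) (nat_lit 228) (nat_lit 0) (XT.lf (nat_lit 0) (nat_lit 1484369289) (nat_lit 228) (nat_lit 50953187639) (nat_lit 304) (nat_lit 71193134729) (nat_lit 49) (nat_lit 5) (nat_lit 52) (nat_lit 5) (nat_lit 53) (nat_lit 5) (nat_lit 389) (nat_lit 379) (nat_lit 252)) (XT.nd (nat_lit 78) (nat_lit 228) (nat_lit 0) (XT.lf (nat_lit 0) (nat_lit 69989105405) (nat_lit 304)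 (nat_lit 57363929512) (nat_lit 76) (nat_lit 1862388335) (nat_lit 49) (nat_lit 5) (nat_lit 53) (nat_lit 5) (nat_lit 50) (nat_lit 5) (nat_lit 390) (nat_lit 379) (nat_lit 251)) (XT.lf (nat_lit 0) (nat_lit 11870867494) (nat_lit 228) (nat_lit 78682384892) (nat_lit 304) (nat_lit 44565003495) (nat_lit 46) (nat_lit 5) (nat_lit 49) (nat_lit 5) (nat_lit 50) (nat_lit 5) (nat_lit 391) (nat_lit 379) (nat_lit 250))))) (XT.nd (nat_lit 156) (nat_lit 304) (nat_lit 0) (XT.nd (nat_lit 78) (nat_lit 152) (nat_lit 0) (XT.lf (nat_lit 0) (nat_lit 89906243129) (nat_lit 228) (nat_lit 24424262511) (nat_lit 304) (nat_lit 27037371962) (nat_lit 46) (nat_lit 5) (nat_lit 49) (nat_lit 5) (nat_lit 50) (nat_lit 5) (nat_lit 392) (nat_lit 379) (nat_lit 249)) (XT.lf (nat_lit 0) (nat_lit 26573880302) (nat_lit 152) (nat_lit 114896634059) (nat_lit 228) (nat_lit 6530109093) (nat_lit 44) (nat_lit 5) (nat_lit 46) (nat_lit 5) (nat_lit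 47) (nat_lit 5) (nat_lit 393) (nat_lit 379) (nat_lit 248))) (XT.nd (nat_lit 78) (nat_lit 228) (nat_lit 0) (XT.lf (nat_lit 0) (nat_lit 16914050989) (nat_lit 228) (nat_lit 42319613479) (nat_lit 76) (nat_lit 95734070022) (nat_lit 43) (nat_lit 5) (nat_lit 46) (nat_lit 5) (nat_lit 44) (nat_lit 5) (nat_lit 394) (nat_lit 379) (nat_lit 247)) (XT.nd (nat_lit 78) (nat_lit 0) (nat_lit 0) (XT.lf (nat_lit 0) (nat_lit 43021665093) (nat_lit 304) (nat_lit 117238131737) (nat_lit 76) (nat_lit 2127591509) (nat_lit 40) (nat_lit 5) (nat_lit 44) (nat_lit 5) (nat_lit 41) (nat_lit 5) (nat_lit 395) (nat_lit 379) (nat_lit 246)) (XT.lf (nat_lit 0) (nat_lit 73943200445) (nat_lit 304) (nat_lit 29854765421) (nat_lit 76) (nat_lit 66384623960) (nat_lit 40) (nat_lit 5) (nat_lit 44) (nat_lit 5) (nat_lit 41) (nat_lit 5) (nat_lit 396) (nat_lit 379) (nat_lit 245)))))) (XT.nd (nat_lit 390) (nat_lit 456) (nat_lit 0) (XT.nd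 (nat_lit 156) (nat_lit 380) (nat_lit 0) (XT.nd (nat_lit 78) (nat_lit 0) (nat_lit 0) (XT.lf (nat_lit 0) (nat_lit 67916236246) (nat_lit 152) (nat_lit 41055264846) (nat_lit 228) (nat_lit 69499263221) (nat_lit 38) (nat_lit 5) (nat_lit 40) (nat_lit 5) (nat_lit 41) (nat_lit 5) (nat_lit 397) (nat_lit 379) (nat_lit 244)) (XT.lf (nat_lit 0) (nat_lit 148281516924) (nat_lit 228) (nat_lit 12813898168) (nat_lit 76) (nat_lit 26208221836) (nat_lit 38) (nat_lit 5) (nat_lit 41) (nat_lit 5) (nat_lit 39) (nat_lit 5) (nat_lit 398) (nat_lit 379) (nat_lit 243))) (XT.nd (nat_lit 78) (nat_lit 228) (nat_lit 0) (XT.lf (nat_lit 0) (nat_lit 96506819481) (nat_lit 152) (nat_lit 97616567463) (nat_lit 228) (nat_lit 2448788413) (nat_lit 36) (nat_lit 5) (nat_lit 38) (nat_lit 5) (nat_lit 39) (nat_lit 5) (nat_lit 399) (nat_lit 379) (nat_lit 242)) (XT.nd (nat_lit 78) (nat_lit 0) (nat_lit 0) (XT.lf (nat_lit 0) (nat_lit 8260358162)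 (nat_lit 152) (nat_lit 27494452012) (nat_lit 228) (nat_lit 170711476870) (nat_lit 33) (nat_lit 5) (nat_lit 35) (nat_lit 5) (nat_lit 36) (nat_lit 5) (nat_lit 400) (nat_lit 379) (nat_lit 241)) (XT.lf (nat_lit 0) (nat_lit 80849241544) (nat_lit 228) (nat_lit 87285363191) (nat_lit 76) (nat_lit 48694887282) (nat_lit 33) (nat_lit 5) (nat_lit 36) (nat_lit 5) (nat_lit 34) (nat_lit 5) (nat_lit 401) (nat_lit 379) (nat_lit 240))))) (XT.nd (nat_lit 156) (nat_lit 304) (nat_lit 0) (XT.nd (nat_lit 78) (nat_lit 0) (nat_lit 0) (XT.lf (nat_lit 0) (nat_lit 33468503726) (nat_lit 152) (nat_lit 97601509083) (nat_lit 228) (nat_lit 96830237924) (nat_lit 31) (nat_lit 5) (nat_lit 33) (nat_lit 5) (nat_lit 34) (nat_lit 5) (nat_lit 402) (nat_lit 379) (nat_lit 239)) (XT.lf (nat_lit 0) (nat_lit 168846254372) (nat_lit 152) (nat_lit 18848463571) (nat_lit 228) (nat_lit 51971050592) (nat_lit 31) (nat_lit 5) (nat_lit 33)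 (nat_lit 5) (nat_lit 34) (nat_lit 5) (nat_lit 403) (nat_lit 379) (nat_lit 238))) (XT.nd (nat_lit 78) (nat_lit 228) (nat_lit 0) (XT.lf (nat_lit 0) (nat_lit 64305904887) (nat_lit 76) (nat_lit 187682032541) (nat_lit 152) (nat_lit 133507448) (nat_lit 30) (nat_lit 5) (nat_lit 31) (nat_lit 5) (nat_lit 32) (nat_lit 4) (nat_lit 404) (nat_lit 379) (nat_lit 237)) (XT.nd (nat_lit 78) (nat_lit 152) (nat_lit 0) (XT.lf (nat_lit 0) (nat_lit 55533094027) (nat_lit 152) (nat_lit 53033235841) (nat_lit 76) (nat_lit 156701712076) (nat_lit 29) (nat_lit 5) (nat_lit 31) (nat_lit 5) (nat_lit 30) (nat_lit 5) (nat_lit 405) (nat_lit 379) (nat_lit 236)) (XT.lf (nat_lit 0) (nat_lit 97400156168) (nat_lit 152) (nat_lit 20587903129) (nat_lit 228) (nat_lit 161290650297) (nat_lit 27) (nat_lit 5) (nat_lit 29) (nat_lit 5) (nat_lit 30) (nat_lit 5) (nat_lit 406) (nat_lit 379) (nat_lit 235))))))))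
noncomputable def xc194 : XT := (XT.nd (nat_lit 1482) (nat_lit 684) (nat_lit 0) (XT.nd (nat_lit 702) (nat_lit 456) (nat_lit 0) (XT.nd (nat_lit 312) (nat_lit 304) (nat_lit 0) (XT.nd (nat_lit 156) (nat_lit 228) (nat_lit 0) (XT.nd (nat_lit 78) (nat_lit 76) (nat_lit 0) (XT.lf (nat_lit 0) (nat_lit 188716898556) (nat_lit 228) (nat_lit 33238023001) (nat_lit 76) (nat_lit 72193111068) (nat_lit 27) (nat_lit 5) (nat_lit 30) (nat_lit 5) (nat_lit 28) (nat_lit 4) (nat_lit 407) (nat_lit 379) (nat_lit 234)) (XT.lf (nat_lit 0) (nat_lit 133433529587) (nat_lit 76) (nat_lit 135414139041) (nat_lit 152) (nat_lit 41059743080) (nat_lit 26) (nat_lit 5) (nat_lit 27) (nat_lit 5) (nat_lit 28) (nat_lit 4) (nat_lit 408) (nat_lit 379) (nat_lit 233))) (XT.nd (nat_lit 78) (nat_lit 152) (nat_lit 0) (XT.lf (nat_lit 0) (nat_lit 27969793081) (nat_lit 152) (nat_lit 12234214204) (nat_lit 76) (nat_lit 286594199302) (nat_lit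 25) (nat_lit 5) (nat_lit 27) (nat_lit 5) (nat_lit 26) (nat_lit 5) (nat_lit 409) (nat_lit 379) (nat_lit 232)) (XT.lf (nat_lit 0) (nat_lit 106098751713) (nat_lit 228) (nat_lit 173546468781) (nat_lit 76) (nat_lit 64846097521) (nat_lit 23) (nat_lit 5) (nat_lit 26) (nat_lit 5) (nat_lit 24) (nat_lit 4) (nat_lit 410) (nat_lit 379) (nat_lit 231)))) (XT.nd (nat_lit 156) (nat_lit 228) (nat_lit 0) (XT.nd (nat_lit 78) (nat_lit 0) (nat_lit 0) (XT.lf (nat_lit 0) (nat_lit 5102874904) (nat_lit 76) (nat_lit 186885143074) (nat_lit 152) (nat_lit 171491061180) (nat_lit 22) (nat_lit 5) (nat_lit 23) (nat_lit 5) (nat_lit 24) (nat_lit 4) (nat_lit 411) (nat_lit 379) (nat_lit 230)) (XT.lf (nat_lit 0) (nat_lit 207913582392) (nat_lit 76) (nat_lit 81579730384) (nat_lit 152) (nat_lit 94112957508) (nat_lit 22) (nat_lit 5) (nat_lit 23) (nat_lit 5) (nat_lit 24) (nat_lit 4) (nat_lit 412) (nat_lit 379) (nat_lit 229))) (XT.nd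 (nat_lit 78) (nat_lit 152) (nat_lit 0) (XT.lf (nat_lit 0) (nat_lit 21928962969) (nat_lit 76) (nat_lit 374170500722) (nat_lit 76) (nat_lit 9140138470) (nat_lit 21) (nat_lit 4) (nat_lit 22) (nat_lit 5) (nat_lit 22) (nat_lit 4) (nat_lit 413) (nat_lit 379) (nat_lit 228)) (XT.nd (nat_lit 78) (nat_lit 76) (nat_lit 0) (XT.lf (nat_lit 0) (nat_lit 85544300099) (nat_lit 152) (nat_lit 187098460713) (nat_lit 76) (nat_lit 155238074054) (nat_lit 20) (nat_lit 5) (nat_lit 22) (nat_lit 5) (nat_lit 21) (nat_lit 4) (nat_lit 414) (nat_lit 379) (nat_lit 227)) (XT.lf (nat_lit 0) (nat_lit 25866967037) (nat_lit 76) (nat_lit 162064665967) (nat_lit 152) (nat_lit 264332985207) (nat_lit 19) (nat_lit 5) (nat_lit 20) (nat_lit 5) (nat_lit 21) (nat_lit 4) (nat_lit 415) (nat_lit 379) (nat_lit 226)))))) (XT.nd (nat_lit 390) (nat_lit 228) (nat_lit 0) (XT.nd (nat_lit 156) (nat_lit 152) (nat_lit 0) (XT.nd (nat_lit 78) (nat_lit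 76) (nat_lit 0) (XT.lf (nat_lit 0) (nat_lit 266509802308) (nat_lit 76) (nat_lit 37115601522) (nat_lit 152) (nat_lit 174564464338) (nat_lit 19) (nat_lit 5) (nat_lit 20) (nat_lit 5) (nat_lit 21) (nat_lit 4) (nat_lit 416) (nat_lit 379) (nat_lit 225)) (XT.lf (nat_lit 0) (nat_lit 18802431424) (nat_lit 76) (nat_lit 412577099154) (nat_lit 76) (nat_lit 74585219248) (nat_lit 18) (nat_lit 4) (nat_lit 19) (nat_lit 5) (nat_lit 19) (nat_lit 4) (nat_lit 417) (nat_lit 379) (nat_lit 224))) (XT.nd (nat_lit 78) (nat_lit 76) (nat_lit 0) (XT.lf (nat_lit 0) (nat_lit 38623880762) (nat_lit 152) (nat_lit 257654373075) (nat_lit 76) (nat_lit 239066966307) (nat_lit 17) (nat_lit 5) (nat_lit 19) (nat_lit 5) (nat_lit 18) (nat_lit 4) (nat_lit 418) (nat_lit 379) (nat_lit 223)) (XT.nd (nat_lit 78) (nat_lit 76) (nat_lit 0) (XT.lf (nat_lit 0) (nat_lit 156860037123) (nat_lit 152) (nat_lit 11723320765) (nat_lit 76) (nat_lit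 398337798563) (nat_lit 17) (nat_lit 5) (nat_lit 19) (nat_lit 5) (nat_lit 18) (nat_lit 4) (nat_lit 419) (nat_lit 379) (nat_lit 222)) (XT.lf (nat_lit 0) (nat_lit 267250959403) (nat_lit 76) (nat_lit 23731395875) (nat_lit 152) (nat_lit 309526630875) (nat_lit 16) (nat_lit 5) (nat_lit 17) (nat_lit 5) (nat_lit 18) (nat_lit 4) (nat_lit 420) (nat_lit 379) (nat_lit 221))))) (XT.nd (nat_lit 156) (nat_lit 152) (nat_lit 0) (XT.nd (nat_lit 78) (nat_lit 76) (nat_lit 0) (XT.lf (nat_lit 0) (nat_lit 439354847230) (nat_lit 152) (nat_lit 70748508107) (nat_lit 0) (nat_lit 126398855857) (nat_lit 16) (nat_lit 5) (nat_lit 18) (nat_lit 4) (nat_lit 16) (nat_lit 4) (nat_lit 421) (nat_lit 379) (nat_lit 220)) (XT.lf (nat_lit 0) (nat_lit 223316344563) (nat_lit 76) (nat_lit 382267844709) (nat_lit 76) (nat_lit 69311740934) (nat_lit 15) (nat_lit 4) (nat_lit 16) (nat_lit 5) (nat_lit 16) (nat_lit 4) (nat_lit 422) (nat_lit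 379) (nat_lit 219))) (XT.nd (nat_lit 78) (nat_lit 76) (nat_lit 0) (XT.lf (nat_lit 0) (nat_lit 67296063168) (nat_lit 152) (nat_lit 172980396461) (nat_lit 76) (nat_lit 475793648891) (nat_lit 14) (nat_lit 5) (nat_lit 16) (nat_lit 5) (nat_lit 15) (nat_lit 4) (nat_lit 423) (nat_lit 379) (nat_lit 218)) (XT.nd (nat_lit 78) (nat_lit 0) (nat_lit 0) (XT.lf (nat_lit 0) (nat_lit 132746753079) (nat_lit 76) (nat_lit 81533562929) (nat_lit 152) (nat_lit 545858484019) (nat_lit 13) (nat_lit 5) (nat_lit 14) (nat_lit 5) (nat_lit 15) (nat_lit 4) (nat_lit 424) (nat_lit 379) (nat_lit 217)) (XT.lf (nat_lit 0) (nat_lit 380037951006) (nat_lit 152) (nat_lit 336870351883) (nat_lit 0) (nat_lit 90263512630) (nat_lit 13) (nat_lit 5) (nat_lit 15) (nat_lit 4) (nat_lit 13) (nat_lit 4) (nat_lit 425) (nat_lit 379) (nat_lit 216))))))) (XT.nd (nat_lit 780) (nat_lit 304) (nat_lit 0) (XT.nd (nat_lit 390) (nat_lit 152) (nat_lit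 0) (XT.nd (nat_lit 156) (nat_lit 152) (nat_lit 0) (XT.nd (nat_lit 78) (nat_lit 76) (nat_lit 0) (XT.lf (nat_lit 0) (nat_lit 561173856188) (nat_lit 152) (nat_lit 25224862018) (nat_lit 0) (nat_lit 271399341313) (nat_lit 13) (nat_lit 5) (nat_lit 15) (nat_lit 4) (nat_lit 13) (nat_lit 4) (nat_lit 426) (nat_lit 379) (nat_lit 215)) (XT.lf (nat_lit 0) (nat_lit 327747344437) (nat_lit 76) (nat_lit 436935532440) (nat_lit 76) (nat_lit 147160946732) (nat_lit 12) (nat_lit 4) (nat_lit 13) (nat_lit 5) (nat_lit 13) (nat_lit 4) (nat_lit 427) (nat_lit 379) (nat_lit 214))) (XT.nd (nat_lit 78) (nat_lit 76) (nat_lit 0) (XT.lf (nat_lit 0) (nat_lit 14253577299) (nat_lit 152) (nat_lit 260127210509) (nat_lit 76) (nat_lit 695748424508) (nat_lit 11) (nat_lit 5) (nat_lit 13) (nat_lit 5) (nat_lit 12) (nat_lit 4) (nat_lit 428) (nat_lit 379) (nat_lit 213)) (XT.nd (nat_lit 78) (nat_lit 0) (nat_lit 0) (XT.lf (nat_lit 0)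 (nat_lit 90462371936) (nat_lit 76) (nat_lit 92343918427) (nat_lit 152) (nat_lit 849791309543) (nat_lit 10) (nat_lit 5) (nat_lit 11) (nat_lit 5) (nat_lit 12) (nat_lit 4) (nat_lit 429) (nat_lit 379) (nat_lit 212)) (XT.lf (nat_lit 0) (nat_lit 374647571226) (nat_lit 152) (nat_lit 618293938605) (nat_lit 0) (nat_lit 106337600624) (nat_lit 10) (nat_lit 5) (nat_lit 12) (nat_lit 4) (nat_lit 10) (nat_lit 4) (nat_lit 430) (nat_lit 379) (nat_lit 211))))) (XT.nd (nat_lit 156) (nat_lit 76) (nat_lit 0) (XT.nd (nat_lit 78) (nat_lit 76) (nat_lit 0) (XT.lf (nat_lit 0) (nat_lit 584234622747) (nat_lit 152) (nat_lit 270944037721) (nat_lit 0) (nat_lit 315924603938) (nat_lit 10) (nat_lit 5) (nat_lit 12) (nat_lit 4) (nat_lit 10) (nat_lit 4) (nat_lit 431) (nat_lit 379) (nat_lit 210)) (XT.lf (nat_lit 0) (nat_lit 109680374463) (nat_lit 76) (nat_lit 703546009990) (nat_lit 76) (nat_lit 435235946545) (nat_lit 9) (nat_lit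 4) (nat_lit 10) (nat_lit 5) (nat_lit 10) (nat_lit 4) (nat_lit 432) (nat_lit 379) (nat_lit 209))) (XT.nd (nat_lit 78) (nat_lit 76) (nat_lit 0) (XT.lf (nat_lit 0) (nat_lit 536163433292) (nat_lit 76) (nat_lit 531782076305) (nat_lit 76) (nat_lit 263471971530) (nat_lit 9) (nat_lit 4) (nat_lit 10) (nat_lit 5) (nat_lit 10) (nat_lit 4) (nat_lit 433) (nat_lit 379) (nat_lit 208)) (XT.nd (nat_lit 78) (nat_lit 76) (nat_lit 0) (XT.lf (nat_lit 0) (nat_lit 996765012908) (nat_lit 76) (nat_lit 346277089211) (nat_lit 76) (nat_lit 77966946167) (nat_lit 9) (nat_lit 4) (nat_lit 10) (nat_lit 5) (nat_lit 10) (nat_lit 4) (nat_lit 434) (nat_lit 379) (nat_lit 207)) (XT.lf (nat_lit 0) (nat_lit 116256554448) (nat_lit 152) (nat_lit 26496545225) (nat_lit 76) (nat_lit 1374779389482) (nat_lit 8) (nat_lit 5) (nat_lit 10) (nat_lit 5) (nat_lit 9) (nat_lit 4) (nat_lit 435) (nat_lit 379) (nat_lit 206)))))) (XT.nd (nat_lit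 390) (nat_lit 152) (nat_lit 0) (XT.nd (nat_lit 156) (nat_lit 76) (nat_lit 0) (XT.nd (nat_lit 78) (nat_lit 0) (nat_lit 0) (XT.lf (nat_lit 0) (nat_lit 334128127557) (nat_lit 152) (nat_lit 1200809127157) (nat_lit 0) (nat_lit 85692746735) (nat_lit 7) (nat_lit 5) (nat_lit 9) (nat_lit 4) (nat_lit 7) (nat_lit 4) (nat_lit 436) (nat_lit 379) (nat_lit 205)) (XT.lf (nat_lit 0) (nat_lit 573880524096) (nat_lit 152) (nat_lit 832293587686) (nat_lit 0) (nat_lit 325445115146) (nat_lit 7) (nat_lit 5) (nat_lit 9) (nat_lit 4) (nat_lit 7) (nat_lit 4) (nat_lit 437) (nat_lit 379) (nat_lit 204))) (XT.nd (nat_lit 78) (nat_lit 76) (nat_lit 0) (XT.lf (nat_lit 0) (nat_lit 832813061573) (nat_lit 152) (nat_lit 434296906362) (nat_lit 0) (nat_lit 584377626578) (nat_lit 7) (nat_lit 5) (nat_lit 9) (nat_lit 4) (nat_lit 7) (nat_lit 4) (nat_lit 438) (nat_lit 379) (nat_lit 203)) (XT.nd (nat_lit 78) (nat_lit 76) (nat_lit 0)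 (XT.lf (nat_lit 0) (nat_lit 1112460155025) (nat_lit 152) (nat_lit 4460584333) (nat_lit 0) (nat_lit 864024695915) (nat_lit 7) (nat_lit 5) (nat_lit 9) (nat_lit 4) (nat_lit 7) (nat_lit 4) (nat_lit 439) (nat_lit 379) (nat_lit 202)) (XT.lf (nat_lit 0) (nat_lit 483972838066) (nat_lit 76) (nat_lit 942145692743) (nat_lit 76) (nat_lit 693710211303) (nat_lit 6) (nat_lit 4) (nat_lit 7) (nat_lit 5) (nat_lit 7) (nat_lit 4) (nat_lit 440) (nat_lit 379) (nat_lit 201))))) (XT.nd (nat_lit 156) (nat_lit 152) (nat_lit 0) (XT.nd (nat_lit 78) (nat_lit 0) (nat_lit 0) (XT.lf (nat_lit 0) (nat_lit 1011734526987) (nat_lit 76) (nat_lit 753256967598) (nat_lit 76) (nat_lit 504821465483) (nat_lit 6) (nat_lit 4) (nat_lit 7) (nat_lit 5) (nat_lit 7) (nat_lit 4) (nat_lit 441) (nat_lit 379) (nat_lit 200)) (XT.lf (nat_lit 0) (nat_lit 1581717072639) (nat_lit 76) (nat_lit 549257183611) (nat_lit 76) (nat_lit 300821662352) (nat_lit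 6) (nat_lit 4) (nat_lit 7) (nat_lit 5) (nat_lit 7) (nat_lit 4) (nat_lit 442) (nat_lit 379) (nat_lit 199))) (XT.nd (nat_lit 78) (nat_lit 152) (nat_lit 0) (XT.lf (nat_lit 0) (nat_lit 2197298149365) (nat_lit 76) (nat_lit 328937453174) (nat_lit 76) (nat_lit 80501914189) (nat_lit 6) (nat_lit 4) (nat_lit 7) (nat_lit 5) (nat_lit 7) (nat_lit 4) (nat_lit 443) (nat_lit 379) (nat_lit 198)) (XT.nd (nat_lit 78) (nat_lit 0) (nat_lit 0) (XT.lf (nat_lit 0) (nat_lit 65964493749) (nat_lit 76) (nat_lit 85189376032) (nat_lit 152) (nat_lit 2644090738443) (nat_lit 4) (nat_lit 5) (nat_lit 5) (nat_lit 5) (nat_lit 6) (nat_lit 4) (nat_lit 444) (nat_lit 379) (nat_lit 197)) (XT.lf (nat_lit 0) (nat_lit 412760771984) (nat_lit 152) (nat_lit 2401914954118) (nat_lit 0) (nat_lit 182727836249) (nat_lit 4) (nat_lit 5) (nat_lit 6) (nat_lit 4) (nat_lit 4) (nat_lit 4) (nat_lit 445) (nat_lit 379) (nat_lit 196))))))))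
noncomputable def xc195 : XT := (XT.nd (nat_lit 48750) (nat_lit 0) (nat_lit 1748) (XT.nd (nat_lit 47970) (nat_lit 0) (nat_lit 3724) (XT.nd (nat_lit 312) (nat_lit 76) (nat_lit 0) (XT.nd (nat_lit 156) (nat_lit 0) (nat_lit 0) (XT.nd (nat_lit 78) (nat_lit 0) (nat_lit 0) (XT.lf (nat_lit 0) (nat_lit 697508905605) (nat_lit 152) (nat_lit 2050573356026) (nat_lit 0) (nat_lit 467475956840) (nat_lit 4) (nat_lit 5) (nat_lit 6) (nat_lit 4) (nat_lit 4) (nat_lit 4) (nat_lit 446) (nat_lit 379) (nat_lit 195)) (XT.lf (nat_lit 0) (nat_lit 1005036860448) (nat_lit 152) (nat_lit 1671124489374) (nat_lit 0) (nat_lit 775003899620) (nat_lit 4) (nat_lit 5) (nat_lit 6) (nat_lit 4) (nat_lit 4) (nat_lit 4) (nat_lit 447) (nat_lit 379) (nat_lit 194))) (XT.nd (nat_lit 78) (nat_lit 0) (nat_lit 0) (XT.lf (nat_lit 0) (nat_lit 1337167024395) (nat_lit 152) (nat_lit 1261319768284) (nat_lit 0) (nat_lit 1107134052397) (nat_lit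 4) (nat_lit 5) (nat_lit 6) (nat_lit 4) (nat_lit 4) (nat_lit 4) (nat_lit 448) (nat_lit 379) (nat_lit 193)) (XT.lf (nat_lit 0) (nat_lit 1695867576195) (nat_lit 152) (nat_lit 818730720335) (nat_lit 0) (nat_lit 1465834593854) (nat_lit 4) (nat_lit 5) (nat_lit 6) (nat_lit 4) (nat_lit 4) (nat_lit 4) (nat_lit 449) (nat_lit 379) (nat_lit 192)))) (XT.nd (nat_lit 156) (nat_lit 0) (nat_lit 0) (XT.nd (nat_lit 78) (nat_lit 76) (nat_lit 0) (XT.lf (nat_lit 0) (nat_lit 2083264148748) (nat_lit 152) (nat_lit 340734595613) (nat_lit 0) (nat_lit 1853231156830) (nat_lit 4) (nat_lit 5) (nat_lit 6) (nat_lit 4) (nat_lit 4) (nat_lit 4) (nat_lit 450) (nat_lit 379) (nat_lit 191)) (XT.lf (nat_lit 0) (nat_lit 184742756396) (nat_lit 76) (nat_lit 2321352736783) (nat_lit 76) (nat_lit 2091319735998) (nat_lit 3) (nat_lit 4) (nat_lit 4) (nat_lit 5) (nat_lit 4) (nat_lit 4) (nat_lit 451) (nat_lit 379) (nat_lit 190))) (XT.nd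 (nat_lit 78) (nat_lit 0) (nat_lit 0) (XT.lf (nat_lit 0) (nat_lit 771636132462) (nat_lit 76) (nat_lit 2200433479306) (nat_lit 76) (nat_lit 1970400470310) (nat_lit 3) (nat_lit 4) (nat_lit 4) (nat_lit 5) (nat_lit 4) (nat_lit 4) (nat_lit 452) (nat_lit 379) (nat_lit 189)) (XT.nd (nat_lit 78) (nat_lit 0) (nat_lit 0) (XT.lf (nat_lit 0) (nat_lit 1405480939286) (nat_lit 76) (nat_lit 2069840701042) (nat_lit 76) (nat_lit 1839807684445) (nat_lit 3) (nat_lit 4) (nat_lit 4) (nat_lit 5) (nat_lit 4) (nat_lit 4) (nat_lit 453) (nat_lit 379) (nat_lit 188)) (XT.lf (nat_lit 0) (nat_lit 2090033294241) (nat_lit 76) (nat_lit 1928800518864) (nat_lit 76) (nat_lit 1698767495227) (nat_lit 3) (nat_lit 4) (nat_lit 4) (nat_lit 5) (nat_lit 4) (nat_lit 4) (nat_lit 454) (nat_lit 379) (nat_lit 187)))))) (XT.nd (nat_lit 390) (nat_lit 684) (nat_lit 0) (XT.nd (nat_lit 156) (nat_lit 0) (nat_lit 76) (XT.nd (nat_lit 78) (nat_lit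 0) (nat_lit 0) (XT.lf (nat_lit 0) (nat_lit 37404600613) (nat_lit 532) (nat_lit 3400679224) (nat_lit 532) (nat_lit 3400679224) (nat_lit 61) (nat_lit 3) (nat_lit 68) (nat_lit 3) (nat_lit 68) (nat_lit 5) (nat_lit 380) (nat_lit 380) (nat_lit 260)) (XT.lf (nat_lit 76) (nat_lit 37703888986) (nat_lit 0) (nat_lit 41012268570) (nat_lit 532) (nat_lit 13159060689) (nat_lit 62) (nat_lit 5) (nat_lit 61) (nat_lit 3) (nat_lit 68) (nat_lit 5) (nat_lit 381) (nat_lit 380) (nat_lit 259))) (XT.nd (nat_lit 78) (nat_lit 0) (nat_lit 0) (XT.lf (nat_lit 0) (nat_lit 83193833171) (nat_lit 456) (nat_lit 9517852434) (nat_lit 532) (nat_lit 2883244706) (nat_lit 62) (nat_lit 5) (nat_lit 68) (nat_lit 5) (nat_lit 69) (nat_lit 5) (nat_lit 382) (nat_lit 380) (nat_lit 258)) (XT.nd (nat_lit 78) (nat_lit 0) (nat_lit 0) (XT.lf (nat_lit 76) (nat_lit 39624339819) (nat_lit 0) (nat_lit 50422877516) (nat_lit 532) (nat_lit 9403603332)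 (nat_lit 63) (nat_lit 5) (nat_lit 62) (nat_lit 5) (nat_lit 69) (nat_lit 5) (nat_lit 383) (nat_lit 380) (nat_lit 257)) (XT.lf (nat_lit 76) (nat_lit 93238729333) (nat_lit 0) (nat_lit 4469694815) (nat_lit 532) (nat_lit 5885994767) (nat_lit 63) (nat_lit 5) (nat_lit 62) (nat_lit 5) (nat_lit 69) (nat_lit 5) (nat_lit 384) (nat_lit 380) (nat_lit 256))))) (XT.nd (nat_lit 156) (nat_lit 304) (nat_lit 0) (XT.nd (nat_lit 78) (nat_lit 0) (nat_lit 0) (XT.lf (nat_lit 0) (nat_lit 221630225) (nat_lit 532) (nat_lit 63706142437) (nat_lit 608) (nat_lit 43969411718) (nat_lit 56) (nat_lit 5) (nat_lit 63) (nat_lit 5) (nat_lit 64) (nat_lit 5) (nat_lit 385) (nat_lit 380) (nat_lit 255)) (XT.lf (nat_lit 0) (nat_lit 6905853210) (nat_lit 532) (nat_lit 9107912470) (nat_lit 608) (nat_lit 96485696645) (nat_lit 56) (nat_lit 5) (nat_lit 63) (nat_lit 5) (nat_lit 64) (nat_lit 5) (nat_lit 386) (nat_lit 380) (nat_lit 254)))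 (XT.nd (nat_lit 78) (nat_lit 380) (nat_lit 0) (XT.lf (nat_lit 0) (nat_lit 16278646232) (nat_lit 532) (nat_lit 65778042729) (nat_lit 76) (nat_lit 35240927570) (nat_lit 57) (nat_lit 5) (nat_lit 64) (nat_lit 5) (nat_lit 58) (nat_lit 5) (nat_lit 387) (nat_lit 380) (nat_lit 253)) (XT.nd (nat_lit 78) (nat_lit 380) (nat_lit 0) (XT.lf (nat_lit 0) (nat_lit 27072168267) (nat_lit 532) (nat_lit 5367381205) (nat_lit 76) (nat_lit 89986401713) (nat_lit 57) (nat_lit 5) (nat_lit 64) (nat_lit 5) (nat_lit 58) (nat_lit 5) (nat_lit 388) (nat_lit 380) (nat_lit 252)) (XT.lf (nat_lit 0) (nat_lit 40792477965) (nat_lit 456) (nat_lit 65362670301) (nat_lit 76) (nat_lit 21644340389) (nat_lit 52) (nat_lit 5) (nat_lit 58) (nat_lit 5) (nat_lit 53) (nat_lit 5) (nat_lit 389) (nat_lit 380) (nat_lit 251))))))) (XT.nd (nat_lit 780) (nat_lit 912) (nat_lit 0) (XT.nd (nat_lit 390) (nat_lit 456) (nat_lit 0) (XT.nd (nat_lit 156)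 (nat_lit 380) (nat_lit 0) (XT.nd (nat_lit 78) (nat_lit 0) (nat_lit 0) (XT.lf (nat_lit 0) (nat_lit 1613243267) (nat_lit 228) (nat_lit 55028652923) (nat_lit 304) (nat_lit 76878494709) (nat_lit 49) (nat_lit 5) (nat_lit 52) (nat_lit 5) (nat_lit 53) (nat_lit 5) (nat_lit 390) (nat_lit 380) (nat_lit 250)) (XT.lf (nat_lit 0) (nat_lit 75596894671) (nat_lit 304) (nat_lit 61942986899) (nat_lit 76) (nat_lit 2012074051) (nat_lit 49) (nat_lit 5) (nat_lit 53) (nat_lit 5) (nat_lit 50) (nat_lit 5) (nat_lit 391) (nat_lit 380) (nat_lit 249))) (XT.nd (nat_lit 78) (nat_lit 152) (nat_lit 0) (XT.lf (nat_lit 0) (nat_lit 12830339261) (nat_lit 228) (nat_lit 84975428355) (nat_lit 304) (nat_lit 48121280349) (nat_lit 46) (nat_lit 5) (nat_lit 49) (nat_lit 5) (nat_lit 50) (nat_lit 5) (nat_lit 392) (nat_lit 380) (nat_lit 248)) (XT.nd (nat_lit 78) (nat_lit 152) (nat_lit 0) (XT.lf (nat_lit 0) (nat_lit 97107818845) (nat_lit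 228) (nat_lit 26376770800) (nat_lit 304) (nat_lit 29192099287) (nat_lit 46) (nat_lit 5) (nat_lit 49) (nat_lit 5) (nat_lit 50) (nat_lit 5) (nat_lit 393) (nat_lit 380) (nat_lit 247)) (XT.lf (nat_lit 0) (nat_lit 28709206838) (nat_lit 152) (nat_lit 124086284398) (nat_lit 228) (nat_lit 7044588390) (nat_lit 44) (nat_lit 5) (nat_lit 46) (nat_lit 5) (nat_lit 47) (nat_lit 5) (nat_lit 394) (nat_lit 380) (nat_lit 246))))) (XT.nd (nat_lit 156) (nat_lit 152) (nat_lit 0) (XT.nd (nat_lit 78) (nat_lit 228) (nat_lit 0) (XT.lf (nat_lit 0) (nat_lit 18274149854) (nat_lit 228) (nat_lit 45696090786) (nat_lit 76) (nat_lit 103394348758) (nat_lit 43) (nat_lit 5) (nat_lit 46) (nat_lit 5) (nat_lit 44) (nat_lit 5) (nat_lit 395) (nat_lit 380) (nat_lit 245)) (XT.lf (nat_lit 0) (nat_lit 46470122235) (nat_lit 304) (nat_lit 126607834219) (nat_lit 76) (nat_lit 2299879603) (nat_lit 40) (nat_lit 5) (nat_lit 44) (nat_lit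 5) (nat_lit 41) (nat_lit 5) (nat_lit 396) (nat_lit 380) (nat_lit 244))) (XT.nd (nat_lit 78) (nat_lit 152) (nat_lit 0) (XT.lf (nat_lit 0) (nat_lit 79864882346) (nat_lit 304) (nat_lit 32234491047) (nat_lit 76) (nat_lit 71697320519) (nat_lit 40) (nat_lit 5) (nat_lit 44) (nat_lit 5) (nat_lit 41) (nat_lit 5) (nat_lit 397) (nat_lit 380) (nat_lit 243)) (XT.nd (nat_lit 78) (nat_lit 0) (nat_lit 0) (XT.lf (nat_lit 0) (nat_lit 73357971625) (nat_lit 152) (nat_lit 44337217143) (nat_lit 228) (nat_lit 75052754626) (nat_lit 38) (nat_lit 5) (nat_lit 40) (nat_lit 5) (nat_lit 41) (nat_lit 5) (nat_lit 398) (nat_lit 380) (nat_lit 242)) (XT.lf (nat_lit 0) (nat_lit 160149618800) (nat_lit 228) (nat_lit 13830807088) (nat_lit 76) (nat_lit 28307051238) (nat_lit 38) (nat_lit 5) (nat_lit 41) (nat_lit 5) (nat_lit 39) (nat_lit 5) (nat_lit 399) (nat_lit 380) (nat_lit 241)))))) (XT.nd (nat_lit 390) (nat_lit 380) (nat_lit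 0) (XT.nd (nat_lit 156) (nat_lit 152) (nat_lit 0) (XT.nd (nat_lit 78) (nat_lit 228) (nat_lit 0) (XT.lf (nat_lit 0) (nat_lit 104235360303) (nat_lit 152) (nat_lit 105423257033) (nat_lit 228) (nat_lit 2638899301) (nat_lit 36) (nat_lit 5) (nat_lit 38) (nat_lit 5) (nat_lit 39) (nat_lit 5) (nat_lit 400) (nat_lit 380) (nat_lit 240)) (XT.lf (nat_lit 0) (nat_lit 8929265685) (nat_lit 152) (nat_lit 29691218449) (nat_lit 228) (nat_lit 184362679317) (nat_lit 33) (nat_lit 5) (nat_lit 35) (nat_lit 5) (nat_lit 36) (nat_lit 5) (nat_lit 401) (nat_lit 380) (nat_lit 239))) (XT.nd (nat_lit 78) (nat_lit 152) (nat_lit 0) (XT.lf (nat_lit 0) (nat_lit 87322140348) (nat_lit 228) (nat_lit 94260378975) (nat_lit 76) (nat_lit 52592932126) (nat_lit 33) (nat_lit 5) (nat_lit 36) (nat_lit 5) (nat_lit 34) (nat_lit 5) (nat_lit 402) (nat_lit 380) (nat_lit 238)) (XT.nd (nat_lit 78) (nat_lit 0) (nat_lit 0) (XT.lf (nat_lit 0)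 (nat_lit 36153599492) (nat_lit 152) (nat_lit 105406789606) (nat_lit 228) (nat_lit 104571496736) (nat_lit 31) (nat_lit 5) (nat_lit 33) (nat_lit 5) (nat_lit 34) (nat_lit 5) (nat_lit 403) (nat_lit 380) (nat_lit 237)) (XT.lf (nat_lit 0) (nat_lit 182361006081) (nat_lit 152) (nat_lit 20353710839) (nat_lit 228) (nat_lit 56123956657) (nat_lit 31) (nat_lit 5) (nat_lit 33) (nat_lit 5) (nat_lit 34) (nat_lit 5) (nat_lit 404) (nat_lit 380) (nat_lit 236))))) (XT.nd (nat_lit 156) (nat_lit 228) (nat_lit 0) (XT.nd (nat_lit 78) (nat_lit 76) (nat_lit 0) (XT.lf (nat_lit 0) (nat_lit 69457535894) (nat_lit 76) (nat_lit 202693761276) (nat_lit 152) (nat_lit 139514801) (nat_lit 30) (nat_lit 5) (nat_lit 31) (nat_lit 5) (nat_lit 32) (nat_lit 4) (nat_lit 405) (nat_lit 380) (nat_lit 235)) (XT.lf (nat_lit 0) (nat_lit 59979852169) (nat_lit 152) (nat_lit 57269047745) (nat_lit 76) (nat_lit 169240254378) (nat_lit 29) (nat_lit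 5) (nat_lit 31) (nat_lit 5) (nat_lit 30) (nat_lit 5) (nat_lit 406) (nat_lit 380) (nat_lit 234))) (XT.nd (nat_lit 78) (nat_lit 76) (nat_lit 0) (XT.lf (nat_lit 0) (nat_lit 105198842284) (nat_lit 152) (nat_lit 22232228387) (nat_lit 228) (nat_lit 174189616363) (nat_lit 27) (nat_lit 5) (nat_lit 29) (nat_lit 5) (nat_lit 30) (nat_lit 5) (nat_lit 407) (nat_lit 380) (nat_lit 233)) (XT.nd (nat_lit 78) (nat_lit 76) (nat_lit 0) (XT.lf (nat_lit 0) (nat_lit 203817983527) (nat_lit 228) (nat_lit 35890650168) (nat_lit 76) (nat_lit 77970941044) (nat_lit 27) (nat_lit 5) (nat_lit 30) (nat_lit 5) (nat_lit 28) (nat_lit 4) (nat_lit 408) (nat_lit 380) (nat_lit 232)) (XT.lf (nat_lit 0) (nat_lit 144114464231) (nat_lit 76) (nat_lit 146244624816) (nat_lit 152) (nat_lit 44340625331) (nat_lit 26) (nat_lit 5) (nat_lit 27) (nat_lit 5) (nat_lit 28) (nat_lit 4) (nat_lit 409) (nat_lit 380) (nat_lit 231))))))))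
noncomputable def xc196 : XT := (XT.nd (nat_lit 1482) (nat_lit 608) (nat_lit 0) (XT.nd (nat_lit 702) (nat_lit 456) (nat_lit 0) (XT.nd (nat_lit 312) (nat_lit 304) (nat_lit 0) (XT.nd (nat_lit 156) (nat_lit 76) (nat_lit 0) (XT.nd (nat_lit 78) (nat_lit 152) (nat_lit 0) (XT.lf (nat_lit 0) (nat_lit 30210804529) (nat_lit 152) (nat_lit 13206980214) (nat_lit 76) (nat_lit 309524002662) (nat_lit 25) (nat_lit 5) (nat_lit 27) (nat_lit 5) (nat_lit 26) (nat_lit 5) (nat_lit 410) (nat_lit 380) (nat_lit 230)) (XT.lf (nat_lit 0) (nat_lit 114590026164) (nat_lit 228) (nat_lit 187424160108) (nat_lit 76) (nat_lit 70036165880) (nat_lit 23) (nat_lit 5) (nat_lit 26) (nat_lit 5) (nat_lit 24) (nat_lit 4) (nat_lit 411) (nat_lit 380) (nat_lit 229))) (XT.nd (nat_lit 78) (nat_lit 0) (nat_lit 0) (XT.lf (nat_lit 0) (nat_lit 5516978510) (nat_lit 76) (nat_lit 201833346532) (nat_lit 152) (nat_lit 185206817940) (nat_lit 22)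 (nat_lit 5) (nat_lit 23) (nat_lit 5) (nat_lit 24) (nat_lit 4) (nat_lit 412) (nat_lit 380) (nat_lit 228)) (XT.lf (nat_lit 0) (nat_lit 224552107515) (nat_lit 76) (nat_lit 88103694011) (nat_lit 152) (nat_lit 101638727318) (nat_lit 22) (nat_lit 5) (nat_lit 23) (nat_lit 5) (nat_lit 24) (nat_lit 4) (nat_lit 413) (nat_lit 380) (nat_lit 227)))) (XT.nd (nat_lit 156) (nat_lit 152) (nat_lit 0) (XT.nd (nat_lit 78) (nat_lit 76) (nat_lit 0) (XT.lf (nat_lit 0) (nat_lit 23688761158) (nat_lit 76) (nat_lit 404101644971) (nat_lit 76) (nat_lit 9868124298) (nat_lit 21) (nat_lit 4) (nat_lit 22) (nat_lit 5) (nat_lit 22) (nat_lit 4) (nat_lit 414) (nat_lit 380) (nat_lit 226)) (XT.lf (nat_lit 0) (nat_lit 92390681060) (nat_lit 152) (nat_lit 202061112115) (nat_lit 76) (nat_lit 167659280598) (nat_lit 20) (nat_lit 5) (nat_lit 22) (nat_lit 5) (nat_lit 21) (nat_lit 4) (nat_lit 415) (nat_lit 380) (nat_lit 225))) (XT.nd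 (nat_lit 78) (nat_lit 76) (nat_lit 0) (XT.lf (nat_lit 0) (nat_lit 27941417565) (nat_lit 76) (nat_lit 175027495379) (nat_lit 152) (nat_lit 285476653923) (nat_lit 19) (nat_lit 5) (nat_lit 20) (nat_lit 5) (nat_lit 21) (nat_lit 4) (nat_lit 416) (nat_lit 380) (nat_lit 224)) (XT.nd (nat_lit 78) (nat_lit 76) (nat_lit 0) (XT.lf (nat_lit 0) (nat_lit 287835302386) (nat_lit 76) (nat_lit 40082679399) (nat_lit 152) (nat_lit 188526871392) (nat_lit 19) (nat_lit 5) (nat_lit 20) (nat_lit 5) (nat_lit 21) (nat_lit 4) (nat_lit 417) (nat_lit 380) (nat_lit 223)) (XT.lf (nat_lit 0) (nat_lit 20311370838) (nat_lit 76) (nat_lit 445581041710) (nat_lit 76) (nat_lit 80549314967) (nat_lit 18) (nat_lit 4) (nat_lit 19) (nat_lit 5) (nat_lit 19) (nat_lit 4) (nat_lit 418) (nat_lit 380) (nat_lit 222)))))) (XT.nd (nat_lit 390) (nat_lit 228) (nat_lit 0) (XT.nd (nat_lit 156) (nat_lit 152) (nat_lit 0) (XT.nd (nat_lit 78) (nat_lit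 0) (nat_lit 0) (XT.lf (nat_lit 0) (nat_lit 41716185357) (nat_lit 152) (nat_lit 278262202794) (nat_lit 76) (nat_lit 258194257444) (nat_lit 17) (nat_lit 5) (nat_lit 19) (nat_lit 5) (nat_lit 18) (nat_lit 4) (nat_lit 419) (nat_lit 380) (nat_lit 221)) (XT.lf (nat_lit 0) (nat_lit 169411056884) (nat_lit 152) (nat_lit 12657001124) (nat_lit 76) (nat_lit 430206613034) (nat_lit 17) (nat_lit 5) (nat_lit 19) (nat_lit 5) (nat_lit 18) (nat_lit 4) (nat_lit 420) (nat_lit 380) (nat_lit 220))) (XT.nd (nat_lit 78) (nat_lit 76) (nat_lit 0) (XT.lf (nat_lit 0) (nat_lit 288635115501) (nat_lit 76) (nat_lit 25627978892) (nat_lit 152) (nat_lit 334286438057) (nat_lit 16) (nat_lit 5) (nat_lit 17) (nat_lit 5) (nat_lit 18) (nat_lit 4) (nat_lit 421) (nat_lit 380) (nat_lit 219)) (XT.nd (nat_lit 78) (nat_lit 76) (nat_lit 0) (XT.lf (nat_lit 0) (nat_lit 474505269338) (nat_lit 152) (nat_lit 76404494721) (nat_lit 0) (nat_lit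 136512460783) (nat_lit 16) (nat_lit 5) (nat_lit 18) (nat_lit 4) (nat_lit 16) (nat_lit 4) (nat_lit 422) (nat_lit 380) (nat_lit 218)) (XT.lf (nat_lit 0) (nat_lit 241185447579) (nat_lit 76) (nat_lit 412847451755) (nat_lit 76) (nat_lit 74854546833) (nat_lit 15) (nat_lit 4) (nat_lit 16) (nat_lit 5) (nat_lit 16) (nat_lit 4) (nat_lit 423) (nat_lit 380) (nat_lit 217))))) (XT.nd (nat_lit 156) (nat_lit 76) (nat_lit 0) (XT.nd (nat_lit 78) (nat_lit 76) (nat_lit 0) (XT.lf (nat_lit 0) (nat_lit 72681624755) (nat_lit 152) (nat_lit 186815214659) (nat_lit 76) (nat_lit 513858727268) (nat_lit 14) (nat_lit 5) (nat_lit 16) (nat_lit 5) (nat_lit 15) (nat_lit 4) (nat_lit 424) (nat_lit 380) (nat_lit 216)) (XT.lf (nat_lit 0) (nat_lit 143370015362) (nat_lit 76) (nat_lit 88054548162) (nat_lit 152) (nat_lit 589525194358) (nat_lit 13) (nat_lit 5) (nat_lit 14) (nat_lit 5) (nat_lit 15) (nat_lit 4) (nat_lit 425) (nat_lit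 380) (nat_lit 215))) (XT.nd (nat_lit 78) (nat_lit 76) (nat_lit 0) (XT.lf (nat_lit 0) (nat_lit 410442712194) (nat_lit 152) (nat_lit 363816621419) (nat_lit 0) (nat_lit 97486088797) (nat_lit 13) (nat_lit 5) (nat_lit 15) (nat_lit 4) (nat_lit 13) (nat_lit 4) (nat_lit 426) (nat_lit 380) (nat_lit 214)) (XT.nd (nat_lit 78) (nat_lit 76) (nat_lit 0) (XT.lf (nat_lit 0) (nat_lit 606069362005) (nat_lit 152) (nat_lit 27239741151) (nat_lit 0) (nat_lit 293112673023) (nat_lit 13) (nat_lit 5) (nat_lit 15) (nat_lit 4) (nat_lit 13) (nat_lit 4) (nat_lit 427) (nat_lit 380) (nat_lit 213)) (XT.lf (nat_lit 0) (nat_lit 353970163090) (nat_lit 76) (nat_lit 471888895837) (nat_lit 76) (nat_lit 158932146127) (nat_lit 12) (nat_lit 4) (nat_lit 13) (nat_lit 5) (nat_lit 13) (nat_lit 4) (nat_lit 428) (nat_lit 380) (nat_lit 212))))))) (XT.nd (nat_lit 702) (nat_lit 228) (nat_lit 0) (XT.nd (nat_lit 312) (nat_lit 228) (nat_lit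 0) (XT.nd (nat_lit 156) (nat_lit 0) (nat_lit 0) (XT.nd (nat_lit 78) (nat_lit 76) (nat_lit 0) (XT.lf (nat_lit 0) (nat_lit 15395338008) (nat_lit 152) (nat_lit 280934502881) (nat_lit 76) (nat_lit 751409590200) (nat_lit 11) (nat_lit 5) (nat_lit 13) (nat_lit 5) (nat_lit 12) (nat_lit 4) (nat_lit 429) (nat_lit 380) (nat_lit 211)) (XT.lf (nat_lit 0) (nat_lit 97702173135) (nat_lit 76) (nat_lit 99730053373) (nat_lit 152) (nat_lit 917773066526) (nat_lit 10) (nat_lit 5) (nat_lit 11) (nat_lit 5) (nat_lit 12) (nat_lit 4) (nat_lit 430) (nat_lit 380) (nat_lit 210))) (XT.nd (nat_lit 78) (nat_lit 0) (nat_lit 0) (XT.lf (nat_lit 0) (nat_lit 404620734395) (nat_lit 152) (nat_lit 667754774847) (nat_lit 0) (nat_lit 114845821238) (nat_lit 10) (nat_lit 5) (nat_lit 12) (nat_lit 4) (nat_lit 10) (nat_lit 4) (nat_lit 431) (nat_lit 380) (nat_lit 209)) (XT.lf (nat_lit 0) (nat_lit 630974649484) (nat_lit 152) (nat_lit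 292617080325) (nat_lit 0) (nat_lit 341199694997) (nat_lit 10) (nat_lit 5) (nat_lit 12) (nat_lit 4) (nat_lit 10) (nat_lit 4) (nat_lit 432) (nat_lit 380) (nat_lit 208)))) (XT.nd (nat_lit 156) (nat_lit 152) (nat_lit 0) (XT.nd (nat_lit 78) (nat_lit 0) (nat_lit 0) (XT.lf (nat_lit 0) (nat_lit 118457222039) (nat_lit 76) (nat_lit 759828495127) (nat_lit 76) (nat_lit 470053502371) (nat_lit 9) (nat_lit 4) (nat_lit 10) (nat_lit 5) (nat_lit 10) (nat_lit 4) (nat_lit 433) (nat_lit 380) (nat_lit 207)) (XT.lf (nat_lit 0) (nat_lit 579058746491) (nat_lit 76) (nat_lit 574323535315) (nat_lit 76) (nat_lit 284548507125) (nat_lit 9) (nat_lit 4) (nat_lit 10) (nat_lit 5) (nat_lit 10) (nat_lit 4) (nat_lit 434) (nat_lit 380) (nat_lit 206))) (XT.nd (nat_lit 78) (nat_lit 152) (nat_lit 0) (XT.lf (nat_lit 0) (nat_lit 1076508286659) (nat_lit 76) (nat_lit 373978231261) (nat_lit 76) (nat_lit 84203170262) (nat_lit 9) (nat_lit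 4) (nat_lit 10) (nat_lit 5) (nat_lit 10) (nat_lit 4) (nat_lit 435) (nat_lit 380) (nat_lit 205)) (XT.nd (nat_lit 78) (nat_lit 76) (nat_lit 0) (XT.lf (nat_lit 0) (nat_lit 125558074166) (nat_lit 152) (nat_lit 28614297111) (nat_lit 76) (nat_lit 1484762637247) (nat_lit 8) (nat_lit 5) (nat_lit 10) (nat_lit 5) (nat_lit 9) (nat_lit 4) (nat_lit 436) (nat_lit 380) (nat_lit 204)) (XT.lf (nat_lit 0) (nat_lit 360859368556) (nat_lit 152) (nat_lit 1296871880904) (nat_lit 0) (nat_lit 92549072717) (nat_lit 7) (nat_lit 5) (nat_lit 9) (nat_lit 4) (nat_lit 7) (nat_lit 4) (nat_lit 437) (nat_lit 380) (nat_lit 203)))))) (XT.nd (nat_lit 390) (nat_lit 152) (nat_lit 0) (XT.nd (nat_lit 156) (nat_lit 76) (nat_lit 0) (XT.nd (nat_lit 78) (nat_lit 0) (nat_lit 0) (XT.lf (nat_lit 0) (nat_lit 619791883426) (nat_lit 152) (nat_lit 898875244677) (nat_lit 0) (nat_lit 351481563471) (nat_lit 7) (nat_lit 5) (nat_lit 9) (nat_lit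 4) (nat_lit 7) (nat_lit 4) (nat_lit 438) (nat_lit 380) (nat_lit 202)) (XT.lf (nat_lit 0) (nat_lit 899438955946) (nat_lit 152) (nat_lit 469038964404) (nat_lit 0) (nat_lit 631128613662) (nat_lit 7) (nat_lit 5) (nat_lit 9) (nat_lit 4) (nat_lit 7) (nat_lit 4) (nat_lit 439) (nat_lit 380) (nat_lit 201))) (XT.nd (nat_lit 78) (nat_lit 76) (nat_lit 0) (XT.lf (nat_lit 0) (nat_lit 1201457753952) (nat_lit 152) (nat_lit 4815862129) (nat_lit 0) (nat_lit 933147390993) (nat_lit 7) (nat_lit 5) (nat_lit 9) (nat_lit 4) (nat_lit 7) (nat_lit 4) (nat_lit 440) (nat_lit 380) (nat_lit 200)) (XT.nd (nat_lit 78) (nat_lit 0) (nat_lit 0) (XT.lf (nat_lit 0) (nat_lit 522692194341) (nat_lit 76) (nat_lit 1017516583974) (nat_lit 76) (nat_lit 749206201870) (nat_lit 6) (nat_lit 4) (nat_lit 7) (nat_lit 5) (nat_lit 7) (nat_lit 4) (nat_lit 441) (nat_lit 380) (nat_lit 199)) (XT.lf (nat_lit 0) (nat_lit 1092674705100) (nat_lit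 76) (nat_lit 813516817424) (nat_lit 76) (nat_lit 545206417595) (nat_lit 6) (nat_lit 4) (nat_lit 7) (nat_lit 5) (nat_lit 7) (nat_lit 4) (nat_lit 442) (nat_lit 380) (nat_lit 198))))) (XT.nd (nat_lit 156) (nat_lit 152) (nat_lit 0) (XT.nd (nat_lit 78) (nat_lit 0) (nat_lit 0) (XT.lf (nat_lit 0) (nat_lit 1708255749518) (nat_lit 76) (nat_lit 593197103131) (nat_lit 76) (nat_lit 324886686890) (nat_lit 6) (nat_lit 4) (nat_lit 7) (nat_lit 5) (nat_lit 7) (nat_lit 4) (nat_lit 443) (nat_lit 380) (nat_lit 197)) (XT.lf (nat_lit 0) (nat_lit 2373083215267) (nat_lit 76) (nat_lit 355251842790) (nat_lit 76) (nat_lit 86941411351) (nat_lit 6) (nat_lit 4) (nat_lit 7) (nat_lit 5) (nat_lit 7) (nat_lit 4) (nat_lit 444) (nat_lit 380) (nat_lit 196))) (XT.nd (nat_lit 78) (nat_lit 0) (nat_lit 0) (XT.lf (nat_lit 0) (nat_lit 71242868518) (nat_lit 76) (nat_lit 92003917072) (nat_lit 152) (nat_lit 2855617342731) (nat_lit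 4) (nat_lit 5) (nat_lit 5) (nat_lit 5) (nat_lit 6) (nat_lit 4) (nat_lit 445) (nat_lit 380) (nat_lit 195)) (XT.nd (nat_lit 78) (nat_lit 0) (nat_lit 0) (XT.lf (nat_lit 0) (nat_lit 445782208626) (nat_lit 152) (nat_lit 2594066993797) (nat_lit 0) (nat_lit 197346598867) (nat_lit 4) (nat_lit 5) (nat_lit 6) (nat_lit 4) (nat_lit 4) (nat_lit 4) (nat_lit 446) (nat_lit 380) (nat_lit 194)) (XT.lf (nat_lit 0) (nat_lit 753310150352) (nat_lit 152) (nat_lit 2214618153536) (nat_lit 0) (nat_lit 504874529423) (nat_lit 4) (nat_lit 5) (nat_lit 6) (nat_lit 4) (nat_lit 4) (nat_lit 4) (nat_lit 447) (nat_lit 380) (nat_lit 193))))))))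
noncomputable def xc197 : XT := (XT.nd (nat_lit 48828) (nat_lit 0) (nat_lit 1520) (XT.nd (nat_lit 48048) (nat_lit 0) (nat_lit 3496) (XT.nd (nat_lit 312) (nat_lit 76) (nat_lit 0) (XT.nd (nat_lit 156) (nat_lit 0) (nat_lit 0) (XT.nd (nat_lit 78) (nat_lit 0) (nat_lit 0) (XT.lf (nat_lit 0) (nat_lit 1085440302153) (nat_lit 152) (nat_lit 1804813456883) (nat_lit 0) (nat_lit 837004670882) (nat_lit 4) (nat_lit 5) (nat_lit 6) (nat_lit 4) (nat_lit 4) (nat_lit 4) (nat_lit 448) (nat_lit 380) (nat_lit 192)) (XT.lf (nat_lit 0) (nat_lit 1444140842707) (nat_lit 152) (nat_lit 1362224431560) (nat_lit 0) (nat_lit 1195705201859) (nat_lit 4) (nat_lit 5) (nat_lit 6) (nat_lit 4) (nat_lit 4) (nat_lit 4) (nat_lit 449) (nat_lit 380) (nat_lit 191))) (XT.nd (nat_lit 78) (nat_lit 0) (nat_lit 0) (XT.lf (nat_lit 0) (nat_lit 1831537404847) (nat_lit 152) (nat_lit 884228327789) (nat_lit 0) (nat_lit 1583101755132) (nat_lit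 4) (nat_lit 5) (nat_lit 6) (nat_lit 4) (nat_lit 4) (nat_lit 4) (nat_lit 450) (nat_lit 380) (nat_lit 190)) (XT.lf (nat_lit 0) (nat_lit 2249925671903) (nat_lit 152) (nat_lit 367992576065) (nat_lit 0) (nat_lit 2001490013977) (nat_lit 4) (nat_lit 5) (nat_lit 6) (nat_lit 4) (nat_lit 4) (nat_lit 4) (nat_lit 451) (nat_lit 380) (nat_lit 189)))) (XT.nd (nat_lit 156) (nat_lit 0) (nat_lit 0) (XT.nd (nat_lit 78) (nat_lit 0) (nat_lit 0) (XT.lf (nat_lit 0) (nat_lit 199522944175) (nat_lit 76) (nat_lit 2507060569185) (nat_lit 76) (nat_lit 2258624903657) (nat_lit 3) (nat_lit 4) (nat_lit 4) (nat_lit 5) (nat_lit 4) (nat_lit 4) (nat_lit 452) (nat_lit 380) (nat_lit 188)) (XT.lf (nat_lit 0) (nat_lit 833367733492) (nat_lit 76) (nat_lit 2376467799742) (nat_lit 76) (nat_lit 2128032127175) (nat_lit 3) (nat_lit 4) (nat_lit 4) (nat_lit 5) (nat_lit 4) (nat_lit 4) (nat_lit 453) (nat_lit 380) (nat_lit 187))) (XT.nd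 (nat_lit 47424) (nat_lit 0) (nat_lit 4408) (XT.lf (nat_lit 0) (nat_lit 1517920072237) (nat_lit 76) (nat_lit 2235427625729) (nat_lit 76) (nat_lit 1986991946644) (nat_lit 3) (nat_lit 4) (nat_lit 4) (nat_lit 5) (nat_lit 4) (nat_lit 4) (nat_lit 454) (nat_lit 380) (nat_lit 186)) (XT.nd (nat_lit 78) (nat_lit 0) (nat_lit 0) (XT.lf (nat_lit 0) (nat_lit 40404589704) (nat_lit 532) (nat_lit 3668613544) (nat_lit 532) (nat_lit 3668613544) (nat_lit 61) (nat_lit 3) (nat_lit 68) (nat_lit 3) (nat_lit 68) (nat_lit 5) (nat_lit 381) (nat_lit 381) (nat_lit 258)) (XT.lf (nat_lit 76) (nat_lit 40728231530) (nat_lit 0) (nat_lit 44299524827) (nat_lit 532) (nat_lit 14196317613) (nat_lit 62) (nat_lit 5) (nat_lit 61) (nat_lit 3) (nat_lit 68) (nat_lit 5) (nat_lit 382) (nat_lit 381) (nat_lit 257)))))) (XT.nd (nat_lit 390) (nat_lit 532) (nat_lit 0) (XT.nd (nat_lit 156) (nat_lit 456) (nat_lit 0) (XT.nd (nat_lit 78) (nat_lit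 0) (nat_lit 0) (XT.lf (nat_lit 0) (nat_lit 89862446574) (nat_lit 456) (nat_lit 10270628714) (nat_lit 532) (nat_lit 3108384948) (nat_lit 62) (nat_lit 5) (nat_lit 68) (nat_lit 5) (nat_lit 69) (nat_lit 5) (nat_lit 383) (nat_lit 381) (nat_lit 256)) (XT.lf (nat_lit 76) (nat_lit 42802719884) (nat_lit 0) (nat_lit 54460613528) (nat_lit 532) (nat_lit 10142551035) (nat_lit 63) (nat_lit 5) (nat_lit 62) (nat_lit 5) (nat_lit 69) (nat_lit 5) (nat_lit 384) (nat_lit 381) (nat_lit 255))) (XT.nd (nat_lit 78) (nat_lit 456) (nat_lit 0) (XT.lf (nat_lit 76) (nat_lit 100705635901) (nat_lit 0) (nat_lit 4830886891) (nat_lit 532) (nat_lit 6344521975) (nat_lit 63) (nat_lit 5) (nat_lit 62) (nat_lit 5) (nat_lit 69) (nat_lit 5) (nat_lit 385) (nat_lit 381) (nat_lit 254)) (XT.nd (nat_lit 78) (nat_lit 0) (nat_lit 0) (XT.lf (nat_lit 0) (nat_lit 250355446) (nat_lit 532) (nat_lit 68793443637) (nat_lit 608) (nat_lit 47484268731)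 (nat_lit 56) (nat_lit 5) (nat_lit 63) (nat_lit 5) (nat_lit 64) (nat_lit 5) (nat_lit 386) (nat_lit 381) (nat_lit 253)) (XT.lf (nat_lit 0) (nat_lit 7468501840) (nat_lit 532) (nat_lit 9828036028) (nat_lit 608) (nat_lit 104202056151) (nat_lit 56) (nat_lit 5) (nat_lit 63) (nat_lit 5) (nat_lit 64) (nat_lit 5) (nat_lit 387) (nat_lit 381) (nat_lit 252))))) (XT.nd (nat_lit 156) (nat_lit 608) (nat_lit 0) (XT.nd (nat_lit 78) (nat_lit 0) (nat_lit 0) (XT.lf (nat_lit 0) (nat_lit 17590531645) (nat_lit 532) (nat_lit 71031179991) (nat_lit 76) (nat_lit 38058936663) (nat_lit 57) (nat_lit 5) (nat_lit 64) (nat_lit 5) (nat_lit 58) (nat_lit 5) (nat_lit 388) (nat_lit 381) (nat_lit 251)) (XT.lf (nat_lit 0) (nat_lit 29246824797) (nat_lit 532) (nat_lit 5788340074) (nat_lit 76) (nat_lit 97184142449) (nat_lit 57) (nat_lit 5) (nat_lit 64) (nat_lit 5) (nat_lit 58) (nat_lit 5) (nat_lit 389) (nat_lit 381) (nat_lit 250)))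 (XT.nd (nat_lit 78) (nat_lit 228) (nat_lit 0) (XT.lf (nat_lit 0) (nat_lit 44064293994) (nat_lit 456) (nat_lit 70582778398) (nat_lit 76) (nat_lit 23375693309) (nat_lit 52) (nat_lit 5) (nat_lit 58) (nat_lit 5) (nat_lit 53) (nat_lit 5) (nat_lit 390) (nat_lit 381) (nat_lit 249)) (XT.nd (nat_lit 78) (nat_lit 0) (nat_lit 0) (XT.lf (nat_lit 0) (nat_lit 1750982800) (nat_lit 228) (nat_lit 59430268093) (nat_lit 304) (nat_lit 83020123053) (nat_lit 49) (nat_lit 5) (nat_lit 52) (nat_lit 5) (nat_lit 53) (nat_lit 5) (nat_lit 391) (nat_lit 381) (nat_lit 248)) (XT.lf (nat_lit 0) (nat_lit 81652071514) (nat_lit 304) (nat_lit 66889803617) (nat_lit 76) (nat_lit 2173635525) (nat_lit 49) (nat_lit 5) (nat_lit 53) (nat_lit 5) (nat_lit 50) (nat_lit 5) (nat_lit 392) (nat_lit 381) (nat_lit 247))))))) (XT.nd (nat_lit 780) (nat_lit 760) (nat_lit 0) (XT.nd (nat_lit 390) (nat_lit 532) (nat_lit 0) (XT.nd (nat_lit 156)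 (nat_lit 456) (nat_lit 0) (XT.nd (nat_lit 78) (nat_lit 0) (nat_lit 0) (XT.lf (nat_lit 0) (nat_lit 13865170351) (nat_lit 228) (nat_lit 91772136038) (nat_lit 304) (nat_lit 51963332377) (nat_lit 46) (nat_lit 5) (nat_lit 49) (nat_lit 5) (nat_lit 50) (nat_lit 5) (nat_lit 393) (nat_lit 381) (nat_lit 246)) (XT.lf (nat_lit 0) (nat_lit 104884225788) (nat_lit 228) (nat_lit 28485684145) (nat_lit 304) (nat_lit 31520383527) (nat_lit 46) (nat_lit 5) (nat_lit 49) (nat_lit 5) (nat_lit 50) (nat_lit 5) (nat_lit 394) (nat_lit 381) (nat_lit 245))) (XT.nd (nat_lit 78) (nat_lit 304) (nat_lit 0) (XT.lf (nat_lit 0) (nat_lit 31014016184) (nat_lit 152) (nat_lit 134011403555) (nat_lit 228) (nat_lit 7601357253) (nat_lit 44) (nat_lit 5) (nat_lit 46) (nat_lit 5) (nat_lit 47) (nat_lit 5) (nat_lit 395) (nat_lit 381) (nat_lit 244)) (XT.nd (nat_lit 78) (nat_lit 228) (nat_lit 0) (XT.lf (nat_lit 0) (nat_lit 19742061596)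 (nat_lit 228) (nat_lit 49343983320) (nat_lit 76) (nat_lit 111667228221) (nat_lit 43) (nat_lit 5) (nat_lit 46) (nat_lit 5) (nat_lit 44) (nat_lit 5) (nat_lit 396) (nat_lit 381) (nat_lit 243)) (XT.lf (nat_lit 0) (nat_lit 50193496703) (nat_lit 304) (nat_lit 136728446504) (nat_lit 76) (nat_lit 2485653899) (nat_lit 40) (nat_lit 5) (nat_lit 44) (nat_lit 5) (nat_lit 41) (nat_lit 5) (nat_lit 397) (nat_lit 381) (nat_lit 242))))) (XT.nd (nat_lit 156) (nat_lit 380) (nat_lit 0) (XT.nd (nat_lit 78) (nat_lit 152) (nat_lit 0) (XT.lf (nat_lit 0) (nat_lit 86259410609) (nat_lit 304) (nat_lit 34805829542) (nat_lit 76) (nat_lit 77434757946) (nat_lit 40) (nat_lit 5) (nat_lit 44) (nat_lit 5) (nat_lit 41) (nat_lit 5) (nat_lit 398) (nat_lit 381) (nat_lit 241)) (XT.lf (nat_lit 0) (nat_lit 79233842276) (nat_lit 152) (nat_lit 47882077837) (nat_lit 228) (nat_lit 81051445458) (nat_lit 38) (nat_lit 5) (nat_lit 40) (nat_lit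 5) (nat_lit 41) (nat_lit 5) (nat_lit 399) (nat_lit 381) (nat_lit 240))) (XT.nd (nat_lit 78) (nat_lit 380) (nat_lit 0) (XT.lf (nat_lit 0) (nat_lit 172966372703) (nat_lit 228) (nat_lit 14930238962) (nat_lit 76) (nat_lit 30573477182) (nat_lit 38) (nat_lit 5) (nat_lit 41) (nat_lit 5) (nat_lit 39) (nat_lit 5) (nat_lit 400) (nat_lit 381) (nat_lit 239)) (XT.nd (nat_lit 78) (nat_lit 228) (nat_lit 0) (XT.lf (nat_lit 0) (nat_lit 112581043778) (nat_lit 152) (nat_lit 113854857798) (nat_lit 228) (nat_lit 2845045379) (nat_lit 36) (nat_lit 5) (nat_lit 38) (nat_lit 5) (nat_lit 39) (nat_lit 5) (nat_lit 401) (nat_lit 381) (nat_lit 238)) (XT.lf (nat_lit 0) (nat_lit 9650533269) (nat_lit 152) (nat_lit 32064124186) (nat_lit 228) (nat_lit 199106793369) (nat_lit 33) (nat_lit 5) (nat_lit 35) (nat_lit 5) (nat_lit 36) (nat_lit 5) (nat_lit 402) (nat_lit 381) (nat_lit 237)))))) (XT.nd (nat_lit 390) (nat_lit 456) (nat_lit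 0) (XT.nd (nat_lit 156) (nat_lit 152) (nat_lit 0) (XT.nd (nat_lit 78) (nat_lit 152) (nat_lit 0) (XT.lf (nat_lit 0) (nat_lit 94312163531) (nat_lit 228) (nat_lit 101794510671) (nat_lit 76) (nat_lit 56802470487) (nat_lit 33) (nat_lit 5) (nat_lit 36) (nat_lit 5) (nat_lit 34) (nat_lit 5) (nat_lit 403) (nat_lit 381) (nat_lit 236)) (XT.lf (nat_lit 0) (nat_lit 39052416487) (nat_lit 152) (nat_lit 113836897758) (nat_lit 228) (nat_lit 112932792417) (nat_lit 31) (nat_lit 5) (nat_lit 33) (nat_lit 5) (nat_lit 34) (nat_lit 5) (nat_lit 404) (nat_lit 381) (nat_lit 235))) (XT.nd (nat_lit 78) (nat_lit 152) (nat_lit 0) (XT.lf (nat_lit 0) (nat_lit 196955931971) (nat_lit 152) (nat_lit 21979753061) (nat_lit 228) (nat_lit 60609776840) (nat_lit 31) (nat_lit 5) (nat_lit 33) (nat_lit 5) (nat_lit 34) (nat_lit 5) (nat_lit 405) (nat_lit 381) (nat_lit 234)) (XT.nd (nat_lit 78) (nat_lit 76) (nat_lit 0) (XT.lf (nat_lit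 0) (nat_lit 75020276124) (nat_lit 76) (nat_lit 218906832592) (nat_lit 152) (nat_lit 146669433) (nat_lit 30) (nat_lit 5) (nat_lit 31) (nat_lit 5) (nat_lit 32) (nat_lit 4) (nat_lit 406) (nat_lit 381) (nat_lit 233)) (XT.lf (nat_lit 0) (nat_lit 64781764535) (nat_lit 152) (nat_lit 61844701397) (nat_lit 76) (nat_lit 182781536917) (nat_lit 29) (nat_lit 5) (nat_lit 31) (nat_lit 5) (nat_lit 30) (nat_lit 5) (nat_lit 407) (nat_lit 381) (nat_lit 232))))) (XT.nd (nat_lit 156) (nat_lit 304) (nat_lit 0) (XT.nd (nat_lit 78) (nat_lit 0) (nat_lit 0) (XT.lf (nat_lit 0) (nat_lit 113620471222) (nat_lit 152) (nat_lit 24008485848) (nat_lit 228) (nat_lit 188121111154) (nat_lit 27) (nat_lit 5) (nat_lit 29) (nat_lit 5) (nat_lit 30) (nat_lit 5) (nat_lit 408) (nat_lit 381) (nat_lit 231)) (XT.lf (nat_lit 0) (nat_lit 220126622728) (nat_lit 228) (nat_lit 38756402632) (nat_lit 76) (nat_lit 84210657730) (nat_lit 27) (nat_lit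 5) (nat_lit 30) (nat_lit 5) (nat_lit 28) (nat_lit 4) (nat_lit 409) (nat_lit 381) (nat_lit 230))) (XT.nd (nat_lit 78) (nat_lit 228) (nat_lit 0) (XT.lf (nat_lit 0) (nat_lit 155648981689) (nat_lit 76) (nat_lit 157941926841) (nat_lit 152) (nat_lit 47884534140) (nat_lit 26) (nat_lit 5) (nat_lit 27) (nat_lit 5) (nat_lit 28) (nat_lit 4) (nat_lit 410) (nat_lit 381) (nat_lit 229)) (XT.nd (nat_lit 78) (nat_lit 152) (nat_lit 0) (XT.lf (nat_lit 0) (nat_lit 32630607851) (nat_lit 152) (nat_lit 14258419352) (nat_lit 76) (nat_lit 334287866819) (nat_lit 25) (nat_lit 5) (nat_lit 27) (nat_lit 5) (nat_lit 26) (nat_lit 5) (nat_lit 411) (nat_lit 381) (nat_lit 228)) (XT.lf (nat_lit 0) (nat_lit 123760121187) (nat_lit 228) (nat_lit 202412926442) (nat_lit 76) (nat_lit 75641100094) (nat_lit 23) (nat_lit 5) (nat_lit 26) (nat_lit 5) (nat_lit 24) (nat_lit 4) (nat_lit 412) (nat_lit 381) (nat_lit 227))))))))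
noncomputable def xc198 : XT := (XT.nd (nat_lit 1482) (nat_lit 456) (nat_lit 0) (XT.nd (nat_lit 702) (nat_lit 532) (nat_lit 0) (XT.nd (nat_lit 312) (nat_lit 228) (nat_lit 0) (XT.nd (nat_lit 156) (nat_lit 152) (nat_lit 0) (XT.nd (nat_lit 78) (nat_lit 0) (nat_lit 0) (XT.lf (nat_lit 0) (nat_lit 5963372468) (nat_lit 76) (nat_lit 217977778324) (nat_lit 152) (nat_lit 200020338569) (nat_lit 22) (nat_lit 5) (nat_lit 23) (nat_lit 5) (nat_lit 24) (nat_lit 4) (nat_lit 413) (nat_lit 381) (nat_lit 226)) (XT.lf (nat_lit 0) (nat_lit 242520938780) (nat_lit 76) (nat_lit 95149919226) (nat_lit 152) (nat_lit 109767024756) (nat_lit 22) (nat_lit 5) (nat_lit 23) (nat_lit 5) (nat_lit 24) (nat_lit 4) (nat_lit 414) (nat_lit 381) (nat_lit 225))) (XT.nd (nat_lit 78) (nat_lit 76) (nat_lit 0) (XT.lf (nat_lit 0) (nat_lit 25588561255) (nat_lit 76) (nat_lit 436427636815) (nat_lit 76) (nat_lit 10654809110) (nat_lit 21)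 (nat_lit 4) (nat_lit 22) (nat_lit 5) (nat_lit 22) (nat_lit 4) (nat_lit 415) (nat_lit 381) (nat_lit 224)) (XT.lf (nat_lit 0) (nat_lit 99784367776) (nat_lit 152) (nat_lit 218221521099) (nat_lit 76) (nat_lit 181073875429) (nat_lit 20) (nat_lit 5) (nat_lit 22) (nat_lit 5) (nat_lit 21) (nat_lit 4) (nat_lit 416) (nat_lit 381) (nat_lit 223)))) (XT.nd (nat_lit 156) (nat_lit 152) (nat_lit 0) (XT.nd (nat_lit 78) (nat_lit 0) (nat_lit 0) (XT.lf (nat_lit 0) (nat_lit 30181097538) (nat_lit 76) (nat_lit 189027685522) (nat_lit 152) (nat_lit 308312239855) (nat_lit 19) (nat_lit 5) (nat_lit 20) (nat_lit 5) (nat_lit 21) (nat_lit 4) (nat_lit 417) (nat_lit 381) (nat_lit 222)) (XT.lf (nat_lit 0) (nat_lit 310866169695) (nat_lit 76) (nat_lit 43287433115) (nat_lit 152) (nat_lit 203606663342) (nat_lit 19) (nat_lit 5) (nat_lit 20) (nat_lit 5) (nat_lit 21) (nat_lit 4) (nat_lit 418) (nat_lit 381) (nat_lit 221))) (XT.nd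 (nat_lit 78) (nat_lit 76) (nat_lit 0) (XT.lf (nat_lit 0) (nat_lit 21940348492) (nat_lit 76) (nat_lit 481225617146) (nat_lit 76) (nat_lit 86990926641) (nat_lit 18) (nat_lit 4) (nat_lit 19) (nat_lit 5) (nat_lit 19) (nat_lit 4) (nat_lit 419) (nat_lit 381) (nat_lit 220)) (XT.nd (nat_lit 78) (nat_lit 0) (nat_lit 0) (XT.lf (nat_lit 0) (nat_lit 45055532769) (nat_lit 152) (nat_lit 300519303737) (nat_lit 76) (nat_lit 278851455989) (nat_lit 17) (nat_lit 5) (nat_lit 19) (nat_lit 5) (nat_lit 18) (nat_lit 4) (nat_lit 420) (nat_lit 381) (nat_lit 219)) (XT.lf (nat_lit 0) (nat_lit 182965841975) (nat_lit 152) (nat_lit 13665972991) (nat_lit 76) (nat_lit 464624677215) (nat_lit 17) (nat_lit 5) (nat_lit 19) (nat_lit 5) (nat_lit 18) (nat_lit 4) (nat_lit 421) (nat_lit 381) (nat_lit 218)))))) (XT.nd (nat_lit 390) (nat_lit 228) (nat_lit 0) (XT.nd (nat_lit 156) (nat_lit 228) (nat_lit 0) (XT.nd (nat_lit 78) (nat_lit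 0) (nat_lit 0) (XT.lf (nat_lit 0) (nat_lit 311729422122) (nat_lit 76) (nat_lit 27676563694) (nat_lit 152) (nat_lit 361027361257) (nat_lit 16) (nat_lit 5) (nat_lit 17) (nat_lit 5) (nat_lit 18) (nat_lit 4) (nat_lit 422) (nat_lit 381) (nat_lit 217)) (XT.lf (nat_lit 0) (nat_lit 512467434996) (nat_lit 152) (nat_lit 82513515793) (nat_lit 0) (nat_lit 147434912085) (nat_lit 16) (nat_lit 5) (nat_lit 18) (nat_lit 4) (nat_lit 16) (nat_lit 4) (nat_lit 423) (nat_lit 381) (nat_lit 216))) (XT.nd (nat_lit 78) (nat_lit 152) (nat_lit 0) (XT.lf (nat_lit 0) (nat_lit 260483537372) (nat_lit 76) (nat_lit 445873687083) (nat_lit 76) (nat_lit 80841081553) (nat_lit 15) (nat_lit 4) (nat_lit 16) (nat_lit 5) (nat_lit 16) (nat_lit 4) (nat_lit 424) (nat_lit 381) (nat_lit 215)) (XT.nd (nat_lit 78) (nat_lit 76) (nat_lit 0) (XT.lf (nat_lit 0) (nat_lit 78497763560) (nat_lit 152) (nat_lit 201757333822) (nat_lit 76) (nat_lit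 554968785588) (nat_lit 14) (nat_lit 5) (nat_lit 16) (nat_lit 5) (nat_lit 15) (nat_lit 4) (nat_lit 425) (nat_lit 381) (nat_lit 214)) (XT.lf (nat_lit 0) (nat_lit 154842636170) (nat_lit 76) (nat_lit 95097454710) (nat_lit 152) (nat_lit 636685522336) (nat_lit 13) (nat_lit 5) (nat_lit 14) (nat_lit 5) (nat_lit 15) (nat_lit 4) (nat_lit 426) (nat_lit 381) (nat_lit 213))))) (XT.nd (nat_lit 156) (nat_lit 228) (nat_lit 0) (XT.nd (nat_lit 78) (nat_lit 0) (nat_lit 0) (XT.lf (nat_lit 0) (nat_lit 443279608172) (nat_lit 152) (nat_lit 392919071663) (nat_lit 0) (nat_lit 105286257758) (nat_lit 13) (nat_lit 5) (nat_lit 15) (nat_lit 4) (nat_lit 13) (nat_lit 4) (nat_lit 427) (nat_lit 381) (nat_lit 212)) (XT.lf (nat_lit 0) (nat_lit 654556280412) (nat_lit 152) (nat_lit 29416254267) (nat_lit 0) (nat_lit 316562873769) (nat_lit 13) (nat_lit 5) (nat_lit 15) (nat_lit 4) (nat_lit 13) (nat_lit 4) (nat_lit 428) (nat_lit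 381) (nat_lit 211))) (XT.nd (nat_lit 78) (nat_lit 152) (nat_lit 0) (XT.lf (nat_lit 0) (nat_lit 382290374815) (nat_lit 76) (nat_lit 509638739330) (nat_lit 76) (nat_lit 171645280623) (nat_lit 12) (nat_lit 4) (nat_lit 13) (nat_lit 5) (nat_lit 13) (nat_lit 4) (nat_lit 429) (nat_lit 381) (nat_lit 210)) (XT.nd (nat_lit 78) (nat_lit 76) (nat_lit 0) (XT.lf (nat_lit 0) (nat_lit 16628229215) (nat_lit 152) (nat_lit 303406790146) (nat_lit 76) (nat_lit 811523464868) (nat_lit 11) (nat_lit 5) (nat_lit 13) (nat_lit 5) (nat_lit 12) (nat_lit 4) (nat_lit 430) (nat_lit 381) (nat_lit 209)) (XT.lf (nat_lit 0) (nat_lit 105520757345) (nat_lit 76) (nat_lit 107707275777) (nat_lit 152) (nat_lit 991193584876) (nat_lit 10) (nat_lit 5) (nat_lit 11) (nat_lit 5) (nat_lit 12) (nat_lit 4) (nat_lit 431) (nat_lit 381) (nat_lit 208))))))) (XT.nd (nat_lit 780) (nat_lit 228) (nat_lit 0) (XT.nd (nat_lit 390) (nat_lit 152) (nat_lit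 0) (XT.nd (nat_lit 156) (nat_lit 76) (nat_lit 0) (XT.nd (nat_lit 78) (nat_lit 0) (nat_lit 0) (XT.lf (nat_lit 0) (nat_lit 436991556960) (nat_lit 152) (nat_lit 721172860155) (nat_lit 0) (nat_lit 124034526515) (nat_lit 10) (nat_lit 5) (nat_lit 12) (nat_lit 4) (nat_lit 10) (nat_lit 4) (nat_lit 432) (nat_lit 381) (nat_lit 207)) (XT.lf (nat_lit 0) (nat_lit 681453699048) (nat_lit 152) (nat_lit 316024320195) (nat_lit 0) (nat_lit 368496633169) (nat_lit 10) (nat_lit 5) (nat_lit 12) (nat_lit 4) (nat_lit 10) (nat_lit 4) (nat_lit 433) (nat_lit 381) (nat_lit 206))) (XT.nd (nat_lit 78) (nat_lit 0) (nat_lit 0) (XT.lf (nat_lit 0) (nat_lit 127935872520) (nat_lit 76) (nat_lit 820613749650) (nat_lit 76) (nat_lit 507656650962) (nat_lit 9) (nat_lit 4) (nat_lit 10) (nat_lit 5) (nat_lit 10) (nat_lit 4) (nat_lit 434) (nat_lit 381) (nat_lit 205)) (XT.nd (nat_lit 78) (nat_lit 0) (nat_lit 0) (XT.lf (nat_lit 0) (nat_lit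 625385365394) (nat_lit 76) (nat_lit 620268468985) (nat_lit 76) (nat_lit 307311339919) (nat_lit 9) (nat_lit 4) (nat_lit 10) (nat_lit 5) (nat_lit 10) (nat_lit 4) (nat_lit 435) (nat_lit 381) (nat_lit 204)) (XT.lf (nat_lit 0) (nat_lit 1162630726614) (nat_lit 76) (nat_lit 403895610915) (nat_lit 76) (nat_lit 90938453719) (nat_lit 9) (nat_lit 4) (nat_lit 10) (nat_lit 5) (nat_lit 10) (nat_lit 4) (nat_lit 436) (nat_lit 381) (nat_lit 203))))) (XT.nd (nat_lit 156) (nat_lit 0) (nat_lit 0) (XT.nd (nat_lit 78) (nat_lit 76) (nat_lit 0) (XT.lf (nat_lit 0) (nat_lit 135603573463) (nat_lit 152) (nat_lit 30901750436) (nat_lit 76) (nat_lit 1603544416922) (nat_lit 8) (nat_lit 5) (nat_lit 10) (nat_lit 5) (nat_lit 9) (nat_lit 4) (nat_lit 437) (nat_lit 381) (nat_lit 202)) (XT.lf (nat_lit 0) (nat_lit 389728967487) (nat_lit 152) (nat_lit 1400619936910) (nat_lit 0) (nat_lit 99953775491) (nat_lit 7) (nat_lit 5) (nat_lit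 9) (nat_lit 4) (nat_lit 7) (nat_lit 4) (nat_lit 438) (nat_lit 381) (nat_lit 201))) (XT.nd (nat_lit 78) (nat_lit 0) (nat_lit 0) (XT.lf (nat_lit 0) (nat_lit 669376020625) (nat_lit 152) (nat_lit 970783695300) (nat_lit 0) (nat_lit 379600807953) (nat_lit 7) (nat_lit 5) (nat_lit 9) (nat_lit 4) (nat_lit 7) (nat_lit 4) (nat_lit 439) (nat_lit 381) (nat_lit 200)) (XT.nd (nat_lit 78) (nat_lit 0) (nat_lit 0) (XT.lf (nat_lit 0) (nat_lit 971394800685) (nat_lit 152) (nat_lit 506560628825) (nat_lit 0) (nat_lit 681619568870) (nat_lit 7) (nat_lit 5) (nat_lit 9) (nat_lit 4) (nat_lit 7) (nat_lit 4) (nat_lit 440) (nat_lit 381) (nat_lit 199)) (XT.lf (nat_lit 0) (nat_lit 1297575048587) (nat_lit 152) (nat_lit 5199785977) (nat_lit 0) (nat_lit 1007799799046) (nat_lit 7) (nat_lit 5) (nat_lit 9) (nat_lit 4) (nat_lit 7) (nat_lit 4) (nat_lit 441) (nat_lit 381) (nat_lit 198)))))) (XT.nd (nat_lit 390) (nat_lit 0) (nat_lit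 0) (XT.nd (nat_lit 156) (nat_lit 152) (nat_lit 0) (XT.nd (nat_lit 78) (nat_lit 0) (nat_lit 0) (XT.lf (nat_lit 0) (nat_lit 564508880957) (nat_lit 76) (nat_lit 1098917255523) (nat_lit 76) (nat_lit 809141989569) (nat_lit 6) (nat_lit 4) (nat_lit 7) (nat_lit 5) (nat_lit 7) (nat_lit 4) (nat_lit 442) (nat_lit 381) (nat_lit 197)) (XT.lf (nat_lit 0) (nat_lit 1180089895461) (nat_lit 76) (nat_lit 878597556180) (nat_lit 76) (nat_lit 588822275029) (nat_lit 6) (nat_lit 4) (nat_lit 7) (nat_lit 5) (nat_lit 7) (nat_lit 4) (nat_lit 443) (nat_lit 381) (nat_lit 196))) (XT.nd (nat_lit 78) (nat_lit 152) (nat_lit 0) (XT.lf (nat_lit 0) (nat_lit 1844917333510) (nat_lit 76) (nat_lit 640652309680) (nat_lit 76) (nat_lit 350877014458) (nat_lit 6) (nat_lit 4) (nat_lit 7) (nat_lit 5) (nat_lit 7) (nat_lit 4) (nat_lit 444) (nat_lit 381) (nat_lit 195)) (XT.nd (nat_lit 78) (nat_lit 152) (nat_lit 0) (XT.lf (nat_lit 0) (nat_lit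 2562930913257) (nat_lit 76) (nat_lit 383671470119) (nat_lit 76) (nat_lit 93896161868) (nat_lit 6) (nat_lit 4) (nat_lit 7) (nat_lit 5) (nat_lit 7) (nat_lit 4) (nat_lit 445) (nat_lit 381) (nat_lit 194)) (XT.lf (nat_lit 0) (nat_lit 76943339896) (nat_lit 76) (nat_lit 99363708281) (nat_lit 152) (nat_lit 3084066168776) (nat_lit 4) (nat_lit 5) (nat_lit 5) (nat_lit 5) (nat_lit 6) (nat_lit 4) (nat_lit 446) (nat_lit 381) (nat_lit 193))))) (XT.nd (nat_lit 156) (nat_lit 0) (nat_lit 0) (XT.nd (nat_lit 78) (nat_lit 0) (nat_lit 0) (XT.lf (nat_lit 0) (nat_lit 481445278185) (nat_lit 152) (nat_lit 2801591361660) (nat_lit 0) (nat_lit 213134786069) (nat_lit 4) (nat_lit 5) (nat_lit 6) (nat_lit 4) (nat_lit 4) (nat_lit 4) (nat_lit 447) (nat_lit 381) (nat_lit 192)) (XT.lf (nat_lit 0) (nat_lit 813575418740) (nat_lit 152) (nat_lit 2391786687633) (nat_lit 0) (nat_lit 545264917048) (nat_lit 4) (nat_lit 5) (nat_lit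 6) (nat_lit 4) (nat_lit 4) (nat_lit 4) (nat_lit 448) (nat_lit 381) (nat_lit 191))) (XT.nd (nat_lit 78) (nat_lit 0) (nat_lit 0) (XT.lf (nat_lit 0) (nat_lit 1172275948882) (nat_lit 152) (nat_lit 1949197683261) (nat_lit 0) (nat_lit 903965438322) (nat_lit 4) (nat_lit 5) (nat_lit 6) (nat_lit 4) (nat_lit 4) (nat_lit 4) (nat_lit 449) (nat_lit 381) (nat_lit 190)) (XT.nd (nat_lit 78) (nat_lit 0) (nat_lit 0) (XT.lf (nat_lit 0) (nat_lit 1559672501380) (nat_lit 152) (nat_lit 1471201598888) (nat_lit 0) (nat_lit 1291361982609) (nat_lit 4) (nat_lit 5) (nat_lit 6) (nat_lit 4) (nat_lit 4) (nat_lit 4) (nat_lit 450) (nat_lit 381) (nat_lit 189)) (XT.lf (nat_lit 0) (nat_lit 1978060759508) (nat_lit 152) (nat_lit 954965865126) (nat_lit 0) (nat_lit 1709750233136) (nat_lit 4) (nat_lit 5) (nat_lit 6) (nat_lit 4) (nat_lit 4) (nat_lit 4) (nat_lit 451) (nat_lit 381) (nat_lit 188))))))))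
noncomputable def xc199 : XT := (XT.nd (nat_lit 48906) (nat_lit 0) (nat_lit 1292) (XT.nd (nat_lit 48126) (nat_lit 0) (nat_lit 3040) (XT.nd (nat_lit 47736) (nat_lit 0) (nat_lit 4028) (XT.nd (nat_lit 156) (nat_lit 0) (nat_lit 0) (XT.nd (nat_lit 78) (nat_lit 76) (nat_lit 0) (XT.lf (nat_lit 0) (nat_lit 2429920061094) (nat_lit 152) (nat_lit 397431307256) (nat_lit 0) (nat_lit 2161609527682) (nat_lit 4) (nat_lit 5) (nat_lit 6) (nat_lit 4) (nat_lit 4) (nat_lit 4) (nat_lit 452) (nat_lit 381) (nat_lit 187)) (XT.lf (nat_lit 0) (nat_lit 215485437518) (nat_lit 76) (nat_lit 2707625083323) (nat_lit 76) (nat_lit 2439314543394) (nat_lit 3) (nat_lit 4) (nat_lit 4) (nat_lit 5) (nat_lit 4) (nat_lit 4) (nat_lit 453) (nat_lit 381) (nat_lit 186))) (XT.nd (nat_lit 47502) (nat_lit 0) (nat_lit 4408) (XT.lf (nat_lit 0) (nat_lit 900037761253) (nat_lit 76) (nat_lit 2566584916872) (nat_lit 76) (nat_lit 2298274370908)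 (nat_lit 3) (nat_lit 4) (nat_lit 4) (nat_lit 5) (nat_lit 4) (nat_lit 4) (nat_lit 454) (nat_lit 381) (nat_lit 185)) (XT.lf (nat_lit 0) (nat_lit 43643490695) (nat_lit 532) (nat_lit 3958570377) (nat_lit 532) (nat_lit 3958570377) (nat_lit 61) (nat_lit 3) (nat_lit 68) (nat_lit 3) (nat_lit 68) (nat_lit 5) (nat_lit 382) (nat_lit 382) (nat_lit 256)))) (XT.nd (nat_lit 156) (nat_lit 380) (nat_lit 0) (XT.nd (nat_lit 78) (nat_lit 0) (nat_lit 76) (XT.lf (nat_lit 76) (nat_lit 43993375706) (nat_lit 0) (nat_lit 47848866419) (nat_lit 532) (nat_lit 15318761765) (nat_lit 62) (nat_lit 5) (nat_lit 61) (nat_lit 3) (nat_lit 68) (nat_lit 5) (nat_lit 383) (nat_lit 382) (nat_lit 255)) (XT.lf (nat_lit 0) (nat_lit 97062679224) (nat_lit 456) (nat_lit 11084861388) (nat_lit 532) (nat_lit 3352323804) (nat_lit 62) (nat_lit 5) (nat_lit 68) (nat_lit 5) (nat_lit 69) (nat_lit 5) (nat_lit 384) (nat_lit 382) (nat_lit 254)))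 (XT.nd (nat_lit 78) (nat_lit 456) (nat_lit 0) (XT.lf (nat_lit 76) (nat_lit 46234167309) (nat_lit 0) (nat_lit 58820811212) (nat_lit 532) (nat_lit 10942517735) (nat_lit 63) (nat_lit 5) (nat_lit 62) (nat_lit 5) (nat_lit 69) (nat_lit 5) (nat_lit 385) (nat_lit 382) (nat_lit 253)) (XT.nd (nat_lit 78) (nat_lit 456) (nat_lit 0) (XT.lf (nat_lit 76) (nat_lit 108768781064) (nat_lit 0) (nat_lit 5220458401) (nat_lit 532) (nat_lit 6841493564) (nat_lit 63) (nat_lit 5) (nat_lit 62) (nat_lit 5) (nat_lit 69) (nat_lit 5) (nat_lit 386) (nat_lit 382) (nat_lit 252)) (XT.lf (nat_lit 0) (nat_lit 279810153) (nat_lit 532) (nat_lit 74289040017) (nat_lit 608) (nat_lit 51280698909) (nat_lit 56) (nat_lit 5) (nat_lit 63) (nat_lit 5) (nat_lit 64) (nat_lit 5) (nat_lit 387) (nat_lit 382) (nat_lit 251)))))) (XT.nd (nat_lit 390) (nat_lit 456) (nat_lit 0) (XT.nd (nat_lit 156) (nat_lit 532) (nat_lit 0) (XT.nd (nat_lit 78)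 (nat_lit 0) (nat_lit 76) (XT.lf (nat_lit 0) (nat_lit 8074710016) (nat_lit 532) (nat_lit 10606983437) (nat_lit 608) (nat_lit 112536080531) (nat_lit 56) (nat_lit 5) (nat_lit 63) (nat_lit 5) (nat_lit 64) (nat_lit 5) (nat_lit 388) (nat_lit 382) (nat_lit 250)) (XT.lf (nat_lit 0) (nat_lit 19005999241) (nat_lit 532) (nat_lit 76705867328) (nat_lit 76) (nat_lit 41102566965) (nat_lit 57) (nat_lit 5) (nat_lit 64) (nat_lit 5) (nat_lit 58) (nat_lit 5) (nat_lit 389) (nat_lit 382) (nat_lit 249))) (XT.nd (nat_lit 78) (nat_lit 608) (nat_lit 0) (XT.lf (nat_lit 0) (nat_lit 31594186581) (nat_lit 532) (nat_lit 6244178519) (nat_lit 76) (nat_lit 104957869558) (nat_lit 57) (nat_lit 5) (nat_lit 64) (nat_lit 5) (nat_lit 58) (nat_lit 5) (nat_lit 390) (nat_lit 382) (nat_lit 248)) (XT.nd (nat_lit 78) (nat_lit 228) (nat_lit 0) (XT.lf (nat_lit 0) (nat_lit 47596654413) (nat_lit 456) (nat_lit 76221765616) (nat_lit 76)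 (nat_lit 25245582183) (nat_lit 52) (nat_lit 5) (nat_lit 58) (nat_lit 5) (nat_lit 53) (nat_lit 5) (nat_lit 391) (nat_lit 382) (nat_lit 247)) (XT.lf (nat_lit 0) (nat_lit 1898503185) (nat_lit 228) (nat_lit 64184109068) (nat_lit 304) (nat_lit 89654315860) (nat_lit 49) (nat_lit 5) (nat_lit 52) (nat_lit 5) (nat_lit 53) (nat_lit 5) (nat_lit 392) (nat_lit 382) (nat_lit 246))))) (XT.nd (nat_lit 156) (nat_lit 228) (nat_lit 0) (XT.nd (nat_lit 78) (nat_lit 228) (nat_lit 0) (XT.lf (nat_lit 0) (nat_lit 88190603207) (nat_lit 304) (nat_lit 72233595730) (nat_lit 76) (nat_lit 2348036955) (nat_lit 49) (nat_lit 5) (nat_lit 53) (nat_lit 5) (nat_lit 50) (nat_lit 5) (nat_lit 393) (nat_lit 382) (nat_lit 245)) (XT.lf (nat_lit 0) (nat_lit 14981589012) (nat_lit 228) (nat_lit 99112769588) (nat_lit 304) (nat_lit 56113839983) (nat_lit 46) (nat_lit 5) (nat_lit 49) (nat_lit 5) (nat_lit 50) (nat_lit 5) (nat_lit 394) (nat_lit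 382) (nat_lit 244))) (XT.nd (nat_lit 78) (nat_lit 228) (nat_lit 0) (XT.lf (nat_lit 0) (nat_lit 113281635177) (nat_lit 228) (nat_lit 30763485790) (nat_lit 304) (nat_lit 34035941076) (nat_lit 46) (nat_lit 5) (nat_lit 49) (nat_lit 5) (nat_lit 50) (nat_lit 5) (nat_lit 395) (nat_lit 382) (nat_lit 243)) (XT.nd (nat_lit 78) (nat_lit 76) (nat_lit 0) (XT.lf (nat_lit 0) (nat_lit 33502058602) (nat_lit 152) (nat_lit 144730786694) (nat_lit 228) (nat_lit 8203637465) (nat_lit 44) (nat_lit 5) (nat_lit 46) (nat_lit 5) (nat_lit 47) (nat_lit 5) (nat_lit 396) (nat_lit 382) (nat_lit 242)) (XT.lf (nat_lit 0) (nat_lit 21326553199) (nat_lit 228) (nat_lit 53284819263) (nat_lit 76) (nat_lit 120601748078) (nat_lit 43) (nat_lit 5) (nat_lit 46) (nat_lit 5) (nat_lit 44) (nat_lit 5) (nat_lit 397) (nat_lit 382) (nat_lit 241))))))) (XT.nd (nat_lit 780) (nat_lit 760) (nat_lit 0) (XT.nd (nat_lit 390) (nat_lit 456) (nat_lit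 0) (XT.nd (nat_lit 156) (nat_lit 304) (nat_lit 0) (XT.nd (nat_lit 78) (nat_lit 0) (nat_lit 0) (XT.lf (nat_lit 0) (nat_lit 54213918732) (nat_lit 304) (nat_lit 147659851124) (nat_lit 76) (nat_lit 2686035642) (nat_lit 40) (nat_lit 5) (nat_lit 44) (nat_lit 5) (nat_lit 41) (nat_lit 5) (nat_lit 398) (nat_lit 382) (nat_lit 240)) (XT.lf (nat_lit 0) (nat_lit 93164739654) (nat_lit 304) (nat_lit 37583933775) (nat_lit 76) (nat_lit 83630954721) (nat_lit 40) (nat_lit 5) (nat_lit 44) (nat_lit 5) (nat_lit 41) (nat_lit 5) (nat_lit 399) (nat_lit 382) (nat_lit 239))) (XT.nd (nat_lit 78) (nat_lit 152) (nat_lit 0) (XT.lf (nat_lit 0) (nat_lit 85578750721) (nat_lit 152) (nat_lit 51710829356) (nat_lit 228) (nat_lit 87530820407) (nat_lit 38) (nat_lit 5) (nat_lit 40) (nat_lit 5) (nat_lit 41) (nat_lit 5) (nat_lit 400) (nat_lit 382) (nat_lit 238)) (XT.nd (nat_lit 78) (nat_lit 152) (nat_lit 0) (XT.lf (nat_lit 0) (nat_lit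 186807784370) (nat_lit 228) (nat_lit 16118628679) (nat_lit 76) (nat_lit 33020951587) (nat_lit 38) (nat_lit 5) (nat_lit 41) (nat_lit 5) (nat_lit 39) (nat_lit 5) (nat_lit 401) (nat_lit 382) (nat_lit 237)) (XT.lf (nat_lit 0) (nat_lit 121593404037) (nat_lit 152) (nat_lit 122961309010) (nat_lit 228) (nat_lit 3068391580) (nat_lit 36) (nat_lit 5) (nat_lit 38) (nat_lit 5) (nat_lit 39) (nat_lit 5) (nat_lit 402) (nat_lit 382) (nat_lit 236))))) (XT.nd (nat_lit 156) (nat_lit 228) (nat_lit 0) (XT.nd (nat_lit 78) (nat_lit 0) (nat_lit 0) (XT.lf (nat_lit 0) (nat_lit 10428514141) (nat_lit 152) (nat_lit 34627203591) (nat_lit 228) (nat_lit 215031135626) (nat_lit 33) (nat_lit 5) (nat_lit 35) (nat_lit 5) (nat_lit 36) (nat_lit 5) (nat_lit 403) (nat_lit 382) (nat_lit 235)) (XT.lf (nat_lit 0) (nat_lit 101860781980) (nat_lit 228) (nat_lit 109932328537) (nat_lit 76) (nat_lit 61348471788) (nat_lit 33) (nat_lit 5)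 (nat_lit 36) (nat_lit 5) (nat_lit 34) (nat_lit 5) (nat_lit 404) (nat_lit 382) (nat_lit 234))) (XT.nd (nat_lit 78) (nat_lit 76) (nat_lit 0) (XT.lf (nat_lit 0) (nat_lit 42182207402) (nat_lit 152) (nat_lit 122941761944) (nat_lit 228) (nat_lit 121963622894) (nat_lit 31) (nat_lit 5) (nat_lit 33) (nat_lit 5) (nat_lit 34) (nat_lit 5) (nat_lit 405) (nat_lit 382) (nat_lit 233)) (XT.nd (nat_lit 78) (nat_lit 76) (nat_lit 0) (XT.lf (nat_lit 0) (nat_lit 212717589488) (nat_lit 152) (nat_lit 23736200311) (nat_lit 228) (nat_lit 65455047027) (nat_lit 31) (nat_lit 5) (nat_lit 33) (nat_lit 5) (nat_lit 34) (nat_lit 5) (nat_lit 406) (nat_lit 382) (nat_lit 232)) (XT.lf (nat_lit 0) (nat_lit 81027160010) (nat_lit 76) (nat_lit 236417296221) (nat_lit 152) (nat_lit 154968014) (nat_lit 30) (nat_lit 5) (nat_lit 31) (nat_lit 5) (nat_lit 32) (nat_lit 4) (nat_lit 407) (nat_lit 382) (nat_lit 231)))))) (XT.nd (nat_lit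 390) (nat_lit 380) (nat_lit 0) (XT.nd (nat_lit 156) (nat_lit 152) (nat_lit 0) (XT.nd (nat_lit 78) (nat_lit 152) (nat_lit 0) (XT.lf (nat_lit 0) (nat_lit 69967327126) (nat_lit 152) (nat_lit 66787244787) (nat_lit 76) (nat_lit 197405827865) (nat_lit 29) (nat_lit 5) (nat_lit 31) (nat_lit 5) (nat_lit 30) (nat_lit 5) (nat_lit 408) (nat_lit 382) (nat_lit 230)) (XT.lf (nat_lit 0) (nat_lit 122715014232) (nat_lit 152) (nat_lit 25927174995) (nat_lit 228) (nat_lit 203167649739) (nat_lit 27) (nat_lit 5) (nat_lit 29) (nat_lit 5) (nat_lit 30) (nat_lit 5) (nat_lit 409) (nat_lit 382) (nat_lit 229))) (XT.nd (nat_lit 78) (nat_lit 152) (nat_lit 0) (XT.lf (nat_lit 0) (nat_lit 237739496476) (nat_lit 228) (nat_lit 41852199866) (nat_lit 76) (nat_lit 90949260521) (nat_lit 27) (nat_lit 5) (nat_lit 30) (nat_lit 5) (nat_lit 28) (nat_lit 4) (nat_lit 410) (nat_lit 382) (nat_lit 228)) (XT.nd (nat_lit 78) (nat_lit 76)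 (nat_lit 0) (XT.lf (nat_lit 0) (nat_lit 168105495835) (nat_lit 76) (nat_lit 170575336578) (nat_lit 152) (nat_lit 51712432316) (nat_lit 26) (nat_lit 5) (nat_lit 27) (nat_lit 5) (nat_lit 28) (nat_lit 4) (nat_lit 411) (nat_lit 382) (nat_lit 227)) (XT.lf (nat_lit 0) (nat_lit 35243576163) (nat_lit 152) (nat_lit 15394703944) (nat_lit 76) (nat_lit 361032562782) (nat_lit 25) (nat_lit 5) (nat_lit 27) (nat_lit 5) (nat_lit 26) (nat_lit 5) (nat_lit 412) (nat_lit 382) (nat_lit 226))))) (XT.nd (nat_lit 156) (nat_lit 152) (nat_lit 0) (XT.nd (nat_lit 78) (nat_lit 76) (nat_lit 0) (XT.lf (nat_lit 0) (nat_lit 133663411103) (nat_lit 228) (nat_lit 218601531139) (nat_lit 76) (nat_lit 81694137882) (nat_lit 23) (nat_lit 5) (nat_lit 26) (nat_lit 5) (nat_lit 24) (nat_lit 4) (nat_lit 413) (nat_lit 382) (nat_lit 225)) (XT.lf (nat_lit 0) (nat_lit 6444759547) (nat_lit 76) (nat_lit 235414083640) (nat_lit 152) (nat_lit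 216019372371) (nat_lit 22) (nat_lit 5) (nat_lit 23) (nat_lit 5) (nat_lit 24) (nat_lit 4) (nat_lit 414) (nat_lit 382) (nat_lit 224))) (XT.nd (nat_lit 78) (nat_lit 152) (nat_lit 0) (XT.lf (nat_lit 0) (nat_lit 261926611365) (nat_lit 76) (nat_lit 102760137810) (nat_lit 152) (nat_lit 118545985548) (nat_lit 22) (nat_lit 5) (nat_lit 23) (nat_lit 5) (nat_lit 24) (nat_lit 4) (nat_lit 415) (nat_lit 382) (nat_lit 223)) (XT.nd (nat_lit 78) (nat_lit 76) (nat_lit 0) (XT.lf (nat_lit 0) (nat_lit 27639674965) (nat_lit 76) (nat_lit 471340013267) (nat_lit 76) (nat_lit 11504823184) (nat_lit 21) (nat_lit 4) (nat_lit 22) (nat_lit 5) (nat_lit 22) (nat_lit 4) (nat_lit 416) (nat_lit 382) (nat_lit 222)) (XT.lf (nat_lit 0) (nat_lit 107769202443) (nat_lit 152) (nat_lit 235675401921) (nat_lit 76) (nat_lit 195561373583) (nat_lit 20) (nat_lit 5) (nat_lit 22) (nat_lit 5) (nat_lit 21) (nat_lit 4) (nat_lit 417) (nat_lit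 382) (nat_lit 221))))))))
noncomputable def xc200 : XT := (XT.nd (nat_lit 1482) (nat_lit 456) (nat_lit 0) (XT.nd (nat_lit 702) (nat_lit 380) (nat_lit 0) (XT.nd (nat_lit 312) (nat_lit 228) (nat_lit 0) (XT.nd (nat_lit 156) (nat_lit 152) (nat_lit 0) (XT.nd (nat_lit 78) (nat_lit 0) (nat_lit 0) (XT.lf (nat_lit 0) (nat_lit 32599328969) (nat_lit 76) (nat_lit 204148177553) (nat_lit 152) (nat_lit 332975035931) (nat_lit 19) (nat_lit 5) (nat_lit 20) (nat_lit 5) (nat_lit 21) (nat_lit 4) (nat_lit 418) (nat_lit 382) (nat_lit 220)) (XT.lf (nat_lit 0) (nat_lit 335738929594) (nat_lit 76) (nat_lit 46748832568) (nat_lit 152) (nat_lit 219893175009) (nat_lit 19) (nat_lit 5) (nat_lit 20) (nat_lit 5) (nat_lit 21) (nat_lit 4) (nat_lit 419) (nat_lit 382) (nat_lit 219))) (XT.nd (nat_lit 78) (nat_lit 76) (nat_lit 0) (XT.lf (nat_lit 0) (nat_lit 23699064015) (nat_lit 76) (nat_lit 519722030800) (nat_lit 76) (nat_lit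 93948200153) (nat_lit 18) (nat_lit 4) (nat_lit 19) (nat_lit 5) (nat_lit 19) (nat_lit 4) (nat_lit 420) (nat_lit 382) (nat_lit 218)) (XT.lf (nat_lit 0) (nat_lit 48661735151) (nat_lit 152) (nat_lit 324557525608) (nat_lit 76) (nat_lit 301160993893) (nat_lit 17) (nat_lit 5) (nat_lit 19) (nat_lit 5) (nat_lit 18) (nat_lit 4) (nat_lit 421) (nat_lit 382) (nat_lit 217)))) (XT.nd (nat_lit 156) (nat_lit 152) (nat_lit 0) (XT.nd (nat_lit 78) (nat_lit 76) (nat_lit 0) (XT.lf (nat_lit 0) (nat_lit 197604738740) (nat_lit 152) (nat_lit 14756174508) (nat_lit 76) (nat_lit 501795967526) (nat_lit 17) (nat_lit 5) (nat_lit 19) (nat_lit 5) (nat_lit 18) (nat_lit 4) (nat_lit 422) (nat_lit 382) (nat_lit 216)) (XT.lf (nat_lit 0) (nat_lit 336670774333) (nat_lit 76) (nat_lit 29889271172) (nat_lit 152) (nat_lit 389907842472) (nat_lit 16) (nat_lit 5) (nat_lit 17) (nat_lit 5) (nat_lit 18) (nat_lit 4) (nat_lit 423) (nat_lit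 382) (nat_lit 215))) (XT.nd (nat_lit 78) (nat_lit 152) (nat_lit 0) (XT.lf (nat_lit 0) (nat_lit 553466325089) (nat_lit 152) (nat_lit 89111734825) (nat_lit 0) (nat_lit 159230951998) (nat_lit 16) (nat_lit 5) (nat_lit 18) (nat_lit 4) (nat_lit 16) (nat_lit 4) (nat_lit 424) (nat_lit 382) (nat_lit 214)) (XT.nd (nat_lit 78) (nat_lit 76) (nat_lit 0) (XT.lf (nat_lit 0) (nat_lit 281325010132) (nat_lit 76) (nat_lit 481542243905) (nat_lit 76) (nat_lit 87306799982) (nat_lit 15) (nat_lit 4) (nat_lit 16) (nat_lit 5) (nat_lit 16) (nat_lit 4) (nat_lit 425) (nat_lit 382) (nat_lit 213)) (XT.lf (nat_lit 0) (nat_lit 84778963953) (nat_lit 152) (nat_lit 217895264484) (nat_lit 76) (nat_lit 599367454534) (nat_lit 14) (nat_lit 5) (nat_lit 16) (nat_lit 5) (nat_lit 15) (nat_lit 4) (nat_lit 426) (nat_lit 382) (nat_lit 212)))))) (XT.nd (nat_lit 390) (nat_lit 152) (nat_lit 0) (XT.nd (nat_lit 156) (nat_lit 152) (nat_lit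 0) (XT.nd (nat_lit 78) (nat_lit 0) (nat_lit 0) (XT.lf (nat_lit 0) (nat_lit 167232635866) (nat_lit 76) (nat_lit 102704001682) (nat_lit 152) (nat_lit 687618917303) (nat_lit 13) (nat_lit 5) (nat_lit 14) (nat_lit 5) (nat_lit 15) (nat_lit 4) (nat_lit 427) (nat_lit 382) (nat_lit 211)) (XT.lf (nat_lit 0) (nat_lit 478743244831) (nat_lit 152) (nat_lit 424350128715) (nat_lit 0) (nat_lit 113710257364) (nat_lit 13) (nat_lit 5) (nat_lit 15) (nat_lit 4) (nat_lit 13) (nat_lit 4) (nat_lit 428) (nat_lit 382) (nat_lit 210))) (XT.nd (nat_lit 78) (nat_lit 152) (nat_lit 0) (XT.lf (nat_lit 0) (nat_lit 706921956924) (nat_lit 152) (nat_lit 31767268793) (nat_lit 0) (nat_lit 341888921249) (nat_lit 13) (nat_lit 5) (nat_lit 15) (nat_lit 4) (nat_lit 13) (nat_lit 4) (nat_lit 429) (nat_lit 382) (nat_lit 209)) (XT.nd (nat_lit 78) (nat_lit 76) (nat_lit 0) (XT.lf (nat_lit 0) (nat_lit 412875832748) (nat_lit 76) (nat_lit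 550408751221) (nat_lit 76) (nat_lit 185375670910) (nat_lit 12) (nat_lit 4) (nat_lit 13) (nat_lit 5) (nat_lit 13) (nat_lit 4) (nat_lit 430) (nat_lit 382) (nat_lit 208)) (XT.lf (nat_lit 0) (nat_lit 17959571371) (nat_lit 152) (nat_lit 327677213187) (nat_lit 76) (nat_lit 876446291519) (nat_lit 11) (nat_lit 5) (nat_lit 13) (nat_lit 5) (nat_lit 12) (nat_lit 4) (nat_lit 431) (nat_lit 382) (nat_lit 207))))) (XT.nd (nat_lit 156) (nat_lit 76) (nat_lit 0) (XT.nd (nat_lit 78) (nat_lit 0) (nat_lit 0) (XT.lf (nat_lit 0) (nat_lit 113964484428) (nat_lit 76) (nat_lit 116322844580) (nat_lit 152) (nat_lit 1070487934001) (nat_lit 10) (nat_lit 5) (nat_lit 11) (nat_lit 5) (nat_lit 12) (nat_lit 4) (nat_lit 432) (nat_lit 382) (nat_lit 206)) (XT.lf (nat_lit 0) (nat_lit 471951879298) (nat_lit 152) (nat_lit 778864719935) (nat_lit 0) (nat_lit 133958179906) (nat_lit 10) (nat_lit 5) (nat_lit 12) (nat_lit 4) (nat_lit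 10) (nat_lit 4) (nat_lit 433) (nat_lit 382) (nat_lit 205))) (XT.nd (nat_lit 78) (nat_lit 76) (nat_lit 0) (XT.lf (nat_lit 0) (nat_lit 735970918844) (nat_lit 152) (nat_lit 341304442633) (nat_lit 0) (nat_lit 397977189073) (nat_lit 10) (nat_lit 5) (nat_lit 12) (nat_lit 4) (nat_lit 10) (nat_lit 4) (nat_lit 434) (nat_lit 382) (nat_lit 204)) (XT.nd (nat_lit 78) (nat_lit 0) (nat_lit 0) (XT.lf (nat_lit 0) (nat_lit 138172519344) (nat_lit 76) (nat_lit 886261970775) (nat_lit 76) (nat_lit 548268212875) (nat_lit 9) (nat_lit 4) (nat_lit 10) (nat_lit 5) (nat_lit 10) (nat_lit 4) (nat_lit 435) (nat_lit 382) (nat_lit 203)) (XT.lf (nat_lit 0) (nat_lit 675417840016) (nat_lit 76) (nat_lit 669889132757) (nat_lit 76) (nat_lit 331895348812) (nat_lit 9) (nat_lit 4) (nat_lit 10) (nat_lit 5) (nat_lit 10) (nat_lit 4) (nat_lit 436) (nat_lit 382) (nat_lit 202))))))) (XT.nd (nat_lit 702) (nat_lit 228) (nat_lit 0) (XT.nd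 (nat_lit 312) (nat_lit 76) (nat_lit 0) (XT.nd (nat_lit 156) (nat_lit 76) (nat_lit 0) (XT.nd (nat_lit 78) (nat_lit 76) (nat_lit 0) (XT.lf (nat_lit 0) (nat_lit 1255642708253) (nat_lit 76) (nat_lit 436206506318) (nat_lit 76) (nat_lit 98212698258) (nat_lit 9) (nat_lit 4) (nat_lit 10) (nat_lit 5) (nat_lit 10) (nat_lit 4) (nat_lit 437) (nat_lit 382) (nat_lit 201)) (XT.lf (nat_lit 0) (nat_lit 146452590961) (nat_lit 152) (nat_lit 33372441189) (nat_lit 76) (nat_lit 1731828629308) (nat_lit 8) (nat_lit 5) (nat_lit 10) (nat_lit 5) (nat_lit 9) (nat_lit 4) (nat_lit 438) (nat_lit 382) (nat_lit 200))) (XT.nd (nat_lit 78) (nat_lit 0) (nat_lit 0) (XT.lf (nat_lit 0) (nat_lit 420908013150) (nat_lit 152) (nat_lit 1512668079131) (nat_lit 0) (nat_lit 107950743646) (nat_lit 7) (nat_lit 5) (nat_lit 9) (nat_lit 4) (nat_lit 7) (nat_lit 4) (nat_lit 439) (nat_lit 382) (nat_lit 199)) (XT.lf (nat_lit 0) (nat_lit 722926776593)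 (nat_lit 152) (nat_lit 1048445045802) (nat_lit 0) (nat_lit 409969489363) (nat_lit 7) (nat_lit 5) (nat_lit 9) (nat_lit 4) (nat_lit 7) (nat_lit 4) (nat_lit 440) (nat_lit 382) (nat_lit 198)))) (XT.nd (nat_lit 156) (nat_lit 76) (nat_lit 0) (XT.nd (nat_lit 78) (nat_lit 0) (nat_lit 0) (XT.lf (nat_lit 0) (nat_lit 1049107009109) (nat_lit 152) (nat_lit 547084233647) (nat_lit 0) (nat_lit 736149705466) (nat_lit 7) (nat_lit 5) (nat_lit 9) (nat_lit 4) (nat_lit 7) (nat_lit 4) (nat_lit 441) (nat_lit 382) (nat_lit 197)) (XT.lf (nat_lit 0) (nat_lit 1401381630593) (nat_lit 152) (nat_lit 5614615630) (nat_lit 0) (nat_lit 1088424311753) (nat_lit 7) (nat_lit 5) (nat_lit 9) (nat_lit 4) (nat_lit 7) (nat_lit 4) (nat_lit 442) (nat_lit 382) (nat_lit 196))) (XT.nd (nat_lit 78) (nat_lit 0) (nat_lit 0) (XT.lf (nat_lit 0) (nat_lit 609670715464) (nat_lit 76) (nat_lit 1186830074263) (nat_lit 76) (nat_lit 873872741352)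 (nat_lit 6) (nat_lit 4) (nat_lit 7) (nat_lit 5) (nat_lit 7) (nat_lit 4) (nat_lit 443) (nat_lit 382) (nat_lit 195)) (XT.nd (nat_lit 78) (nat_lit 0) (nat_lit 0) (XT.lf (nat_lit 0) (nat_lit 1274498127866) (nat_lit 76) (nat_lit 948884840580) (nat_lit 76) (nat_lit 635927494641) (nat_lit 6) (nat_lit 4) (nat_lit 7) (nat_lit 5) (nat_lit 7) (nat_lit 4) (nat_lit 444) (nat_lit 382) (nat_lit 194)) (XT.lf (nat_lit 0) (nat_lit 1992511683865) (nat_lit 76) (nat_lit 691904012886) (nat_lit 76) (nat_lit 378946654883) (nat_lit 6) (nat_lit 4) (nat_lit 7) (nat_lit 5) (nat_lit 7) (nat_lit 4) (nat_lit 445) (nat_lit 382) (nat_lit 193)))))) (XT.nd (nat_lit 390) (nat_lit 76) (nat_lit 0) (XT.nd (nat_lit 156) (nat_lit 0) (nat_lit 0) (XT.nd (nat_lit 78) (nat_lit 152) (nat_lit 0) (XT.lf (nat_lit 0) (nat_lit 2767966278608) (nat_lit 76) (nat_lit 414364741832) (nat_lit 76) (nat_lit 101407372658) (nat_lit 6) (nat_lit 4)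 (nat_lit 7) (nat_lit 5) (nat_lit 7) (nat_lit 4) (nat_lit 446) (nat_lit 382) (nat_lit 192)) (XT.lf (nat_lit 0) (nat_lit 83099700347) (nat_lit 76) (nat_lit 107312357279) (nat_lit 152) (nat_lit 3330790980990) (nat_lit 4) (nat_lit 5) (nat_lit 5) (nat_lit 5) (nat_lit 6) (nat_lit 4) (nat_lit 447) (nat_lit 382) (nat_lit 191))) (XT.nd (nat_lit 78) (nat_lit 0) (nat_lit 0) (XT.lf (nat_lit 0) (nat_lit 519961322996) (nat_lit 152) (nat_lit 3025717820420) (nat_lit 0) (nat_lit 230185962724) (nat_lit 4) (nat_lit 5) (nat_lit 6) (nat_lit 4) (nat_lit 4) (nat_lit 4) (nat_lit 448) (nat_lit 382) (nat_lit 190)) (XT.nd (nat_lit 78) (nat_lit 0) (nat_lit 0) (XT.lf (nat_lit 0) (nat_lit 878661843495) (nat_lit 152) (nat_lit 2583128835447) (nat_lit 0) (nat_lit 588886475013) (nat_lit 4) (nat_lit 5) (nat_lit 6) (nat_lit 4) (nat_lit 4) (nat_lit 4) (nat_lit 449) (nat_lit 382) (nat_lit 189)) (XT.lf (nat_lit 0) (nat_lit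 1266058387066) (nat_lit 152) (nat_lit 2105132769036) (nat_lit 0) (nat_lit 976283010981) (nat_lit 4) (nat_lit 5) (nat_lit 6) (nat_lit 4) (nat_lit 4) (nat_lit 4) (nat_lit 450) (nat_lit 382) (nat_lit 188))))) (XT.nd (nat_lit 156) (nat_lit 76) (nat_lit 0) (XT.nd (nat_lit 78) (nat_lit 0) (nat_lit 0) (XT.lf (nat_lit 0) (nat_lit 1684446636929) (nat_lit 152) (nat_lit 1588897051905) (nat_lit 0) (nat_lit 1394671253805) (nat_lit 4) (nat_lit 5) (nat_lit 6) (nat_lit 4) (nat_lit 4) (nat_lit 4) (nat_lit 451) (nat_lit 382) (nat_lit 187)) (XT.lf (nat_lit 0) (nat_lit 2136305930860) (nat_lit 152) (nat_lit 1031362509435) (nat_lit 0) (nat_lit 1846530541219) (nat_lit 4) (nat_lit 5) (nat_lit 6) (nat_lit 4) (nat_lit 4) (nat_lit 4) (nat_lit 452) (nat_lit 382) (nat_lit 186))) (XT.nd (nat_lit 78) (nat_lit 76) (nat_lit 0) (XT.lf (nat_lit 0) (nat_lit 2624313953566) (nat_lit 152) (nat_lit 429225233224) (nat_lit 0)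 (nat_lit 2334538557890) (nat_lit 4) (nat_lit 5) (nat_lit 6) (nat_lit 4) (nat_lit 4) (nat_lit 4) (nat_lit 453) (nat_lit 382) (nat_lit 185)) (XT.nd (nat_lit 47580) (nat_lit 0) (nat_lit 4408) (XT.lf (nat_lit 0) (nat_lit 232724836484) (nat_lit 76) (nat_lit 2924234805870) (nat_lit 76) (nat_lit 2634459404606) (nat_lit 3) (nat_lit 4) (nat_lit 4) (nat_lit 5) (nat_lit 4) (nat_lit 4) (nat_lit 454) (nat_lit 382) (nat_lit 184)) (XT.lf (nat_lit 0) (nat_lit 47140571645) (nat_lit 532) (nat_lit 4272227672) (nat_lit 532) (nat_lit 4272227672) (nat_lit 61) (nat_lit 3) (nat_lit 68) (nat_lit 3) (nat_lit 68) (nat_lit 5) (nat_lit 383) (nat_lit 383) (nat_lit 254))))))))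
noncomputable def xc201 : XT := (XT.nd (nat_lit 1482) (nat_lit 1596) (nat_lit 0) (XT.nd (nat_lit 702) (nat_lit 1064) (nat_lit 0) (XT.nd (nat_lit 312) (nat_lit 684) (nat_lit 0) (XT.nd (nat_lit 156) (nat_lit 0) (nat_lit 76) (XT.nd (nat_lit 78) (nat_lit 0) (nat_lit 76) (XT.lf (nat_lit 76) (nat_lit 47518749100) (nat_lit 0) (nat_lit 51681387876) (nat_lit 532) (nat_lit 16532893315) (nat_lit 62) (nat_lit 5) (nat_lit 61) (nat_lit 3) (nat_lit 68) (nat_lit 5) (nat_lit 384) (nat_lit 383) (nat_lit 253)) (XT.lf (nat_lit 0) (nat_lit 104837327414) (nat_lit 456) (nat_lit 11965290883) (nat_lit 532) (nat_lit 3616452832) (nat_lit 62) (nat_lit 5) (nat_lit 68) (nat_lit 5) (nat_lit 69) (nat_lit 5) (nat_lit 385) (nat_lit 383) (nat_lit 252))) (XT.nd (nat_lit 78) (nat_lit 0) (nat_lit 0) (XT.lf (nat_lit 76) (nat_lit 49939099112) (nat_lit 0) (nat_lit 63529346997) (nat_lit 532) (nat_lit 11808113441) (nat_lit 63)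 (nat_lit 5) (nat_lit 62) (nat_lit 5) (nat_lit 69) (nat_lit 5) (nat_lit 386) (nat_lit 383) (nat_lit 251)) (XT.lf (nat_lit 76) (nat_lit 117476022826) (nat_lit 0) (nat_lit 5640753302) (nat_lit 532) (nat_lit 7379733685) (nat_lit 63) (nat_lit 5) (nat_lit 62) (nat_lit 5) (nat_lit 69) (nat_lit 5) (nat_lit 387) (nat_lit 383) (nat_lit 250)))) (XT.nd (nat_lit 156) (nat_lit 304) (nat_lit 0) (XT.nd (nat_lit 78) (nat_lit 0) (nat_lit 0) (XT.lf (nat_lit 0) (nat_lit 310276474) (nat_lit 532) (nat_lit 80225408151) (nat_lit 608) (nat_lit 55381173237) (nat_lit 56) (nat_lit 5) (nat_lit 63) (nat_lit 5) (nat_lit 64) (nat_lit 5) (nat_lit 388) (nat_lit 383) (nat_lit 249)) (XT.lf (nat_lit 0) (nat_lit 8728169695) (nat_lit 532) (nat_lit 11449287420) (nat_lit 608) (nat_lit 121537132173) (nat_lit 56) (nat_lit 5) (nat_lit 63) (nat_lit 5) (nat_lit 64) (nat_lit 5) (nat_lit 389) (nat_lit 383) (nat_lit 248))) (XT.nd (nat_lit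 78) (nat_lit 380) (nat_lit 0) (XT.lf (nat_lit 0) (nat_lit 20533530846) (nat_lit 532) (nat_lit 82835643417) (nat_lit 76) (nat_lit 44389842426) (nat_lit 57) (nat_lit 5) (nat_lit 64) (nat_lit 5) (nat_lit 58) (nat_lit 5) (nat_lit 390) (nat_lit 383) (nat_lit 247)) (XT.nd (nat_lit 78) (nat_lit 380) (nat_lit 0) (XT.lf (nat_lit 0) (nat_lit 34128250829) (nat_lit 532) (nat_lit 6737515304) (nat_lit 76) (nat_lit 113353638108) (nat_lit 57) (nat_lit 5) (nat_lit 64) (nat_lit 5) (nat_lit 58) (nat_lit 5) (nat_lit 391) (nat_lit 383) (nat_lit 246)) (XT.lf (nat_lit 0) (nat_lit 51410574094) (nat_lit 456) (nat_lit 82312961036) (nat_lit 76) (nat_lit 27265085933) (nat_lit 52) (nat_lit 5) (nat_lit 58) (nat_lit 5) (nat_lit 53) (nat_lit 5) (nat_lit 392) (nat_lit 383) (nat_lit 245)))))) (XT.nd (nat_lit 390) (nat_lit 456) (nat_lit 0) (XT.nd (nat_lit 156) (nat_lit 380) (nat_lit 0) (XT.nd (nat_lit 78) (nat_lit 0) (nat_lit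 0) (XT.lf (nat_lit 0) (nat_lit 2056763552) (nat_lit 228) (nat_lit 69318340131) (nat_lit 304) (nat_lit 96820302214) (nat_lit 49) (nat_lit 5) (nat_lit 52) (nat_lit 5) (nat_lit 53) (nat_lit 5) (nat_lit 393) (nat_lit 383) (nat_lit 244)) (XT.lf (nat_lit 0) (nat_lit 95251309258) (nat_lit 304) (nat_lit 78005945789) (nat_lit 76) (nat_lit 2536317659) (nat_lit 49) (nat_lit 5) (nat_lit 53) (nat_lit 5) (nat_lit 50) (nat_lit 5) (nat_lit 394) (nat_lit 383) (nat_lit 243))) (XT.nd (nat_lit 78) (nat_lit 152) (nat_lit 0) (XT.lf (nat_lit 0) (nat_lit 16186293287) (nat_lit 228) (nat_lit 107040816075) (nat_lit 304) (nat_lit 60597323910) (nat_lit 46) (nat_lit 5) (nat_lit 49) (nat_lit 5) (nat_lit 50) (nat_lit 5) (nat_lit 395) (nat_lit 383) (nat_lit 242)) (XT.nd (nat_lit 78) (nat_lit 152) (nat_lit 0) (XT.lf (nat_lit 0) (nat_lit 122349885579) (nat_lit 228) (nat_lit 33223661802) (nat_lit 304) (nat_lit 36753609629)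 (nat_lit 46) (nat_lit 5) (nat_lit 49) (nat_lit 5) (nat_lit 50) (nat_lit 5) (nat_lit 396) (nat_lit 383) (nat_lit 241)) (XT.lf (nat_lit 0) (nat_lit 36188157038) (nat_lit 152) (nat_lit 156307938634) (nat_lit 228) (nat_lit 8854931576) (nat_lit 44) (nat_lit 5) (nat_lit 46) (nat_lit 5) (nat_lit 47) (nat_lit 5) (nat_lit 397) (nat_lit 383) (nat_lit 240))))) (XT.nd (nat_lit 156) (nat_lit 152) (nat_lit 0) (XT.nd (nat_lit 78) (nat_lit 228) (nat_lit 0) (XT.lf (nat_lit 0) (nat_lit 23037072753) (nat_lit 228) (nat_lit 57541875446) (nat_lit 76) (nat_lit 130250866663) (nat_lit 43) (nat_lit 5) (nat_lit 46) (nat_lit 5) (nat_lit 44) (nat_lit 5) (nat_lit 398) (nat_lit 383) (nat_lit 239)) (XT.lf (nat_lit 0) (nat_lit 58555269450) (nat_lit 304) (nat_lit 159466748352) (nat_lit 76) (nat_lit 2902229734) (nat_lit 40) (nat_lit 5) (nat_lit 44) (nat_lit 5) (nat_lit 41) (nat_lit 5) (nat_lit 399) (nat_lit 383) (nat_lit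 238))) (XT.nd (nat_lit 78) (nat_lit 152) (nat_lit 0) (XT.lf (nat_lit 0) (nat_lit 100621842178) (nat_lit 304) (nat_lit 40585193976) (nat_lit 76) (nat_lit 90322645210) (nat_lit 40) (nat_lit 5) (nat_lit 44) (nat_lit 5) (nat_lit 41) (nat_lit 5) (nat_lit 400) (nat_lit 383) (nat_lit 237)) (XT.nd (nat_lit 78) (nat_lit 0) (nat_lit 0) (XT.lf (nat_lit 0) (nat_lit 92430367192) (nat_lit 152) (nat_lit 55846139884) (nat_lit 228) (nat_lit 94529221664) (nat_lit 38) (nat_lit 5) (nat_lit 40) (nat_lit 5) (nat_lit 41) (nat_lit 5) (nat_lit 401) (nat_lit 383) (nat_lit 236)) (XT.lf (nat_lit 0) (nat_lit 201755923795) (nat_lit 228) (nat_lit 17402949734) (nat_lit 76) (nat_lit 35663996226) (nat_lit 38) (nat_lit 5) (nat_lit 41) (nat_lit 5) (nat_lit 39) (nat_lit 5) (nat_lit 402) (nat_lit 383) (nat_lit 235))))))) (XT.nd (nat_lit 780) (nat_lit 684) (nat_lit 0) (XT.nd (nat_lit 390) (nat_lit 380) (nat_lit 0) (XT.nd (nat_lit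 156) (nat_lit 152) (nat_lit 0) (XT.nd (nat_lit 78) (nat_lit 228) (nat_lit 0) (XT.lf (nat_lit 0) (nat_lit 131325914733) (nat_lit 152) (nat_lit 132796552713) (nat_lit 228) (nat_lit 3310212846) (nat_lit 36) (nat_lit 5) (nat_lit 38) (nat_lit 5) (nat_lit 39) (nat_lit 5) (nat_lit 403) (nat_lit 383) (nat_lit 234)) (XT.lf (nat_lit 0) (nat_lit 11267886331) (nat_lit 152) (nat_lit 37395621879) (nat_lit 228) (nat_lit 232230024614) (nat_lit 33) (nat_lit 5) (nat_lit 35) (nat_lit 5) (nat_lit 36) (nat_lit 5) (nat_lit 404) (nat_lit 383) (nat_lit 233))) (XT.nd (nat_lit 78) (nat_lit 152) (nat_lit 0) (XT.lf (nat_lit 0) (nat_lit 110012769853) (nat_lit 228) (nat_lit 118721991134) (nat_lit 76) (nat_lit 66257895880) (nat_lit 33) (nat_lit 5) (nat_lit 36) (nat_lit 5) (nat_lit 34) (nat_lit 5) (nat_lit 405) (nat_lit 383) (nat_lit 232)) (XT.nd (nat_lit 78) (nat_lit 0) (nat_lit 0) (XT.lf (nat_lit 0) (nat_lit 45561583031)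 (nat_lit 152) (nat_lit 132775313090) (nat_lit 228) (nat_lit 131717460911) (nat_lit 31) (nat_lit 5) (nat_lit 33) (nat_lit 5) (nat_lit 34) (nat_lit 5) (nat_lit 406) (nat_lit 383) (nat_lit 231)) (XT.lf (nat_lit 0) (nat_lit 229739440199) (nat_lit 152) (nat_lit 25633439104) (nat_lit 228) (nat_lit 70688439850) (nat_lit 31) (nat_lit 5) (nat_lit 33) (nat_lit 5) (nat_lit 34) (nat_lit 5) (nat_lit 407) (nat_lit 383) (nat_lit 230))))) (XT.nd (nat_lit 156) (nat_lit 228) (nat_lit 0) (XT.nd (nat_lit 78) (nat_lit 76) (nat_lit 0) (XT.lf (nat_lit 0) (nat_lit 87513843952) (nat_lit 76) (nat_lit 255328894101) (nat_lit 152) (nat_lit 164420519) (nat_lit 30) (nat_lit 5) (nat_lit 31) (nat_lit 5) (nat_lit 32) (nat_lit 4) (nat_lit 408) (nat_lit 383) (nat_lit 229)) (XT.lf (nat_lit 0) (nat_lit 75567303683) (nat_lit 152) (nat_lit 72125909621) (nat_lit 76) (nat_lit 213199809864) (nat_lit 29) (nat_lit 5) (nat_lit 31)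 (nat_lit 5) (nat_lit 30) (nat_lit 5) (nat_lit 409) (nat_lit 383) (nat_lit 228))) (XT.nd (nat_lit 78) (nat_lit 76) (nat_lit 0) (XT.lf (nat_lit 0) (nat_lit 132536420884) (nat_lit 152) (nat_lit 27999643130) (nat_lit 228) (nat_lit 219418360837) (nat_lit 27) (nat_lit 5) (nat_lit 29) (nat_lit 5) (nat_lit 30) (nat_lit 5) (nat_lit 410) (nat_lit 383) (nat_lit 227)) (XT.nd (nat_lit 78) (nat_lit 76) (nat_lit 0) (XT.lf (nat_lit 0) (nat_lit 256761008672) (nat_lit 228) (nat_lit 45196333522) (nat_lit 76) (nat_lit 98226701854) (nat_lit 27) (nat_lit 5) (nat_lit 30) (nat_lit 5) (nat_lit 28) (nat_lit 4) (nat_lit 411) (nat_lit 383) (nat_lit 226)) (XT.lf (nat_lit 0) (nat_lit 181557875496) (nat_lit 76) (nat_lit 184219696486) (nat_lit 152) (nat_lit 55846971007) (nat_lit 26) (nat_lit 5) (nat_lit 27) (nat_lit 5) (nat_lit 28) (nat_lit 4) (nat_lit 412) (nat_lit 383) (nat_lit 225)))))) (XT.nd (nat_lit 390) (nat_lit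 304) (nat_lit 0) (XT.nd (nat_lit 156) (nat_lit 152) (nat_lit 0) (XT.nd (nat_lit 78) (nat_lit 152) (nat_lit 0) (XT.lf (nat_lit 0) (nat_lit 38065222479) (nat_lit 152) (nat_lit 16622517437) (nat_lit 76) (nat_lit 389916596662) (nat_lit 25) (nat_lit 5) (nat_lit 27) (nat_lit 5) (nat_lit 26) (nat_lit 5) (nat_lit 413) (nat_lit 383) (nat_lit 224)) (XT.lf (nat_lit 0) (nat_lit 144358610381) (nat_lit 228) (nat_lit 236085856118) (nat_lit 76) (nat_lit 88231169067) (nat_lit 23) (nat_lit 5) (nat_lit 26) (nat_lit 5) (nat_lit 24) (nat_lit 4) (nat_lit 414) (nat_lit 383) (nat_lit 223))) (XT.nd (nat_lit 78) (nat_lit 76) (nat_lit 0) (XT.lf (nat_lit 0) (nat_lit 6964041684) (nat_lit 76) (nat_lit 254245566856) (nat_lit 152) (nat_lit 233298698838) (nat_lit 22) (nat_lit 5) (nat_lit 23) (nat_lit 5) (nat_lit 24) (nat_lit 4) (nat_lit 415) (nat_lit 383) (nat_lit 222)) (XT.nd (nat_lit 78) (nat_lit 76) (nat_lit 0) (XT.lf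 (nat_lit 0) (nat_lit 282884167472) (nat_lit 76) (nat_lit 110979427099) (nat_lit 152) (nat_lit 128027605760) (nat_lit 22) (nat_lit 5) (nat_lit 23) (nat_lit 5) (nat_lit 24) (nat_lit 4) (nat_lit 416) (nat_lit 383) (nat_lit 221)) (XT.lf (nat_lit 0) (nat_lit 29854303018) (nat_lit 76) (nat_lit 509045641545) (nat_lit 76) (nat_lit 12423176584) (nat_lit 21) (nat_lit 4) (nat_lit 22) (nat_lit 5) (nat_lit 22) (nat_lit 4) (nat_lit 417) (nat_lit 383) (nat_lit 220))))) (XT.nd (nat_lit 156) (nat_lit 152) (nat_lit 0) (XT.nd (nat_lit 78) (nat_lit 76) (nat_lit 0) (XT.lf (nat_lit 0) (nat_lit 116392526401) (nat_lit 152) (nat_lit 254526141152) (nat_lit 76) (nat_lit 211207645026) (nat_lit 20) (nat_lit 5) (nat_lit 22) (nat_lit 5) (nat_lit 21) (nat_lit 4) (nat_lit 418) (nat_lit 383) (nat_lit 219)) (XT.lf (nat_lit 0) (nat_lit 35210484845) (nat_lit 76) (nat_lit 220478554725) (nat_lit 152) (nat_lit 359611167138)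 (nat_lit 19) (nat_lit 5) (nat_lit 20) (nat_lit 5) (nat_lit 21) (nat_lit 4) (nat_lit 419) (nat_lit 383) (nat_lit 218))) (XT.nd (nat_lit 78) (nat_lit 152) (nat_lit 0) (XT.lf (nat_lit 0) (nat_lit 362601015774) (nat_lit 76) (nat_lit 50487371551) (nat_lit 152) (nat_lit 237482895984) (nat_lit 19) (nat_lit 5) (nat_lit 20) (nat_lit 5) (nat_lit 21) (nat_lit 4) (nat_lit 420) (nat_lit 383) (nat_lit 217)) (XT.nd (nat_lit 78) (nat_lit 76) (nat_lit 0) (XT.lf (nat_lit 0) (nat_lit 25597979228) (nat_lit 76) (nat_lit 561298390900) (nat_lit 76) (nat_lit 101462340956) (nat_lit 18) (nat_lit 4) (nat_lit 19) (nat_lit 5) (nat_lit 19) (nat_lit 4) (nat_lit 421) (nat_lit 383) (nat_lit 216)) (XT.lf (nat_lit 0) (nat_lit 52556182673) (nat_lit 152) (nat_lit 350519279210) (nat_lit 76) (nat_lit 325255092047) (nat_lit 17) (nat_lit 5) (nat_lit 19) (nat_lit 5) (nat_lit 18) (nat_lit 4) (nat_lit 422) (nat_lit 383) (nat_lit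 215))))))))
noncomputable def xc202 : XT := (XT.nd (nat_lit 1482) (nat_lit 228) (nat_lit 0) (XT.nd (nat_lit 702) (nat_lit 380) (nat_lit 0) (XT.nd (nat_lit 312) (nat_lit 228) (nat_lit 0) (XT.nd (nat_lit 156) (nat_lit 76) (nat_lit 0) (XT.nd (nat_lit 78) (nat_lit 76) (nat_lit 0) (XT.lf (nat_lit 0) (nat_lit 213414514794) (nat_lit 152) (nat_lit 15934031019) (nat_lit 76) (nat_lit 541940773301) (nat_lit 17) (nat_lit 5) (nat_lit 19) (nat_lit 5) (nat_lit 18) (nat_lit 4) (nat_lit 423) (nat_lit 383) (nat_lit 214)) (XT.lf (nat_lit 0) (nat_lit 363607006959) (nat_lit 76) (nat_lit 32279197487) (nat_lit 152) (nat_lit 421099005804) (nat_lit 16) (nat_lit 5) (nat_lit 17) (nat_lit 5) (nat_lit 18) (nat_lit 4) (nat_lit 424) (nat_lit 383) (nat_lit 213))) (XT.nd (nat_lit 78) (nat_lit 76) (nat_lit 0) (XT.lf (nat_lit 0) (nat_lit 597744913069) (nat_lit 152) (nat_lit 96238219709) (nat_lit 0) (nat_lit 171970497214)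 (nat_lit 16) (nat_lit 5) (nat_lit 18) (nat_lit 4) (nat_lit 16) (nat_lit 4) (nat_lit 425) (nat_lit 383) (nat_lit 212)) (XT.lf (nat_lit 0) (nat_lit 303833402721) (nat_lit 76) (nat_lit 520064476174) (nat_lit 76) (nat_lit 94289999592) (nat_lit 15) (nat_lit 4) (nat_lit 16) (nat_lit 5) (nat_lit 16) (nat_lit 4) (nat_lit 426) (nat_lit 383) (nat_lit 211)))) (XT.nd (nat_lit 156) (nat_lit 76) (nat_lit 0) (XT.nd (nat_lit 78) (nat_lit 76) (nat_lit 0) (XT.lf (nat_lit 0) (nat_lit 91562463604) (nat_lit 152) (nat_lit 235324608514) (nat_lit 76) (nat_lit 647317850639) (nat_lit 14) (nat_lit 5) (nat_lit 16) (nat_lit 5) (nat_lit 15) (nat_lit 4) (nat_lit 427) (nat_lit 383) (nat_lit 210)) (XT.lf (nat_lit 0) (nat_lit 180613466216) (nat_lit 76) (nat_lit 110919250654) (nat_lit 152) (nat_lit 742627190272) (nat_lit 13) (nat_lit 5) (nat_lit 14) (nat_lit 5) (nat_lit 15) (nat_lit 4) (nat_lit 428) (nat_lit 383) (nat_lit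 209))) (XT.nd (nat_lit 78) (nat_lit 76) (nat_lit 0) (XT.lf (nat_lit 0) (nat_lit 517043791528) (nat_lit 152) (nat_lit 458296022515) (nat_lit 0) (nat_lit 122808020156) (nat_lit 13) (nat_lit 5) (nat_lit 15) (nat_lit 4) (nat_lit 13) (nat_lit 4) (nat_lit 429) (nat_lit 383) (nat_lit 208)) (XT.nd (nat_lit 78) (nat_lit 76) (nat_lit 0) (XT.lf (nat_lit 0) (nat_lit 763476720062) (nat_lit 152) (nat_lit 34306690577) (nat_lit 0) (nat_lit 369240907359) (nat_lit 13) (nat_lit 5) (nat_lit 15) (nat_lit 4) (nat_lit 13) (nat_lit 4) (nat_lit 430) (nat_lit 383) (nat_lit 207)) (XT.lf (nat_lit 0) (nat_lit 445907809474) (nat_lit 76) (nat_lit 594440519173) (nat_lit 76) (nat_lit 200204668202) (nat_lit 12) (nat_lit 4) (nat_lit 13) (nat_lit 5) (nat_lit 13) (nat_lit 4) (nat_lit 431) (nat_lit 383) (nat_lit 206)))))) (XT.nd (nat_lit 390) (nat_lit 152) (nat_lit 0) (XT.nd (nat_lit 156) (nat_lit 76) (nat_lit 0) (XT.nd (nat_lit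 78) (nat_lit 76) (nat_lit 0) (XT.lf (nat_lit 0) (nat_lit 19397266281) (nat_lit 152) (nat_lit 353889572538) (nat_lit 76) (nat_lit 946562808851) (nat_lit 11) (nat_lit 5) (nat_lit 13) (nat_lit 5) (nat_lit 12) (nat_lit 4) (nat_lit 432) (nat_lit 383) (nat_lit 205)) (XT.lf (nat_lit 0) (nat_lit 123083414868) (nat_lit 76) (nat_lit 125627803440) (nat_lit 152) (nat_lit 1156125993357) (nat_lit 10) (nat_lit 5) (nat_lit 11) (nat_lit 5) (nat_lit 12) (nat_lit 4) (nat_lit 433) (nat_lit 383) (nat_lit 204))) (XT.nd (nat_lit 78) (nat_lit 76) (nat_lit 0) (XT.lf (nat_lit 0) (nat_lit 509708885079) (nat_lit 152) (nat_lit 841172209402) (nat_lit 0) (nat_lit 144675598420) (nat_lit 10) (nat_lit 5) (nat_lit 12) (nat_lit 4) (nat_lit 10) (nat_lit 4) (nat_lit 434) (nat_lit 383) (nat_lit 203)) (XT.nd (nat_lit 78) (nat_lit 76) (nat_lit 0) (XT.lf (nat_lit 0) (nat_lit 794849384423) (nat_lit 152) (nat_lit 368607234962) (nat_lit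 0) (nat_lit 429816071718) (nat_lit 10) (nat_lit 5) (nat_lit 12) (nat_lit 4) (nat_lit 10) (nat_lit 4) (nat_lit 435) (nat_lit 383) (nat_lit 202)) (XT.lf (nat_lit 0) (nat_lit 149227844401) (nat_lit 76) (nat_lit 957162174967) (nat_lit 76) (nat_lit 592128838146) (nat_lit 9) (nat_lit 4) (nat_lit 10) (nat_lit 5) (nat_lit 10) (nat_lit 4) (nat_lit 436) (nat_lit 383) (nat_lit 201))))) (XT.nd (nat_lit 156) (nat_lit 152) (nat_lit 0) (XT.nd (nat_lit 78) (nat_lit 0) (nat_lit 0) (XT.lf (nat_lit 0) (nat_lit 729452677875) (nat_lit 76) (nat_lit 723479565720) (nat_lit 76) (nat_lit 358446206570) (nat_lit 9) (nat_lit 4) (nat_lit 10) (nat_lit 5) (nat_lit 10) (nat_lit 4) (nat_lit 437) (nat_lit 383) (nat_lit 200)) (XT.lf (nat_lit 0) (nat_lit 1356095431077) (nat_lit 76) (nat_lit 471102380844) (nat_lit 76) (nat_lit 106069001019) (nat_lit 9) (nat_lit 4) (nat_lit 10) (nat_lit 5) (nat_lit 10) (nat_lit 4) (nat_lit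 438) (nat_lit 383) (nat_lit 199))) (XT.nd (nat_lit 78) (nat_lit 76) (nat_lit 0) (XT.lf (nat_lit 0) (nat_lit 158169425485) (nat_lit 152) (nat_lit 36040993958) (nat_lit 76) (nat_lit 1870375484666) (nat_lit 8) (nat_lit 5) (nat_lit 10) (nat_lit 5) (nat_lit 9) (nat_lit 4) (nat_lit 439) (nat_lit 383) (nat_lit 198)) (XT.nd (nat_lit 78) (nat_lit 0) (nat_lit 0) (XT.lf (nat_lit 0) (nat_lit 454581278571) (nat_lit 152) (nat_lit 1633680279977) (nat_lit 0) (nat_lit 116587374224) (nat_lit 7) (nat_lit 5) (nat_lit 9) (nat_lit 4) (nat_lit 7) (nat_lit 4) (nat_lit 440) (nat_lit 383) (nat_lit 197)) (XT.lf (nat_lit 0) (nat_lit 780761496840) (nat_lit 152) (nat_lit 1132319496241) (nat_lit 0) (nat_lit 442767577296) (nat_lit 7) (nat_lit 5) (nat_lit 9) (nat_lit 4) (nat_lit 7) (nat_lit 4) (nat_lit 441) (nat_lit 383) (nat_lit 196))))))) (XT.nd (nat_lit 780) (nat_lit 0) (nat_lit 0) (XT.nd (nat_lit 390) (nat_lit 152)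 (nat_lit 0) (XT.nd (nat_lit 156) (nat_lit 76) (nat_lit 0) (XT.nd (nat_lit 78) (nat_lit 0) (nat_lit 0) (XT.lf (nat_lit 0) (nat_lit 1133036105133) (nat_lit 152) (nat_lit 590849904537) (nat_lit 0) (nat_lit 795042171518) (nat_lit 7) (nat_lit 5) (nat_lit 9) (nat_lit 4) (nat_lit 7) (nat_lit 4) (nat_lit 442) (nat_lit 383) (nat_lit 195)) (XT.lf (nat_lit 0) (nat_lit 1513492656684) (nat_lit 152) (nat_lit 6062796175) (nat_lit 0) (nat_lit 1175498710040) (nat_lit 7) (nat_lit 5) (nat_lit 9) (nat_lit 4) (nat_lit 7) (nat_lit 4) (nat_lit 443) (nat_lit 383) (nat_lit 194))) (XT.nd (nat_lit 78) (nat_lit 0) (nat_lit 0) (XT.lf (nat_lit 0) (nat_lit 658445336376) (nat_lit 76) (nat_lit 1281775998636) (nat_lit 76) (nat_lit 943782039928) (nat_lit 6) (nat_lit 4) (nat_lit 7) (nat_lit 5) (nat_lit 7) (nat_lit 4) (nat_lit 444) (nat_lit 383) (nat_lit 193)) (XT.nd (nat_lit 78) (nat_lit 0) (nat_lit 0) (XT.lf (nat_lit 0)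 (nat_lit 1376458870386) (nat_lit 76) (nat_lit 1024795181930) (nat_lit 76) (nat_lit 686801212052) (nat_lit 6) (nat_lit 4) (nat_lit 7) (nat_lit 5) (nat_lit 7) (nat_lit 4) (nat_lit 445) (nat_lit 383) (nat_lit 192)) (XT.lf (nat_lit 0) (nat_lit 2151913444770) (nat_lit 76) (nat_lit 747255921050) (nat_lit 76) (nat_lit 409261940829) (nat_lit 6) (nat_lit 4) (nat_lit 7) (nat_lit 5) (nat_lit 7) (nat_lit 4) (nat_lit 446) (nat_lit 383) (nat_lit 191))))) (XT.nd (nat_lit 156) (nat_lit 0) (nat_lit 0) (XT.nd (nat_lit 78) (nat_lit 152) (nat_lit 0) (XT.lf (nat_lit 0) (nat_lit 2989404345893) (nat_lit 76) (nat_lit 447513538894) (nat_lit 76) (nat_lit 109519549097) (nat_lit 6) (nat_lit 4) (nat_lit 7) (nat_lit 5) (nat_lit 7) (nat_lit 4) (nat_lit 447) (nat_lit 383) (nat_lit 190)) (XT.lf (nat_lit 0) (nat_lit 89748442200) (nat_lit 76) (nat_lit 115896962061) (nat_lit 152) (nat_lit 3597253846843) (nat_lit 4) (nat_lit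 5) (nat_lit 5) (nat_lit 5) (nat_lit 6) (nat_lit 4) (nat_lit 448) (nat_lit 383) (nat_lit 189))) (XT.nd (nat_lit 78) (nat_lit 0) (nat_lit 0) (XT.lf (nat_lit 0) (nat_lit 561558591109) (nat_lit 152) (nat_lit 3267774517168) (nat_lit 0) (nat_lit 248601177336) (nat_lit 4) (nat_lit 5) (nat_lit 6) (nat_lit 4) (nat_lit 4) (nat_lit 4) (nat_lit 449) (nat_lit 383) (nat_lit 188)) (XT.nd (nat_lit 78) (nat_lit 0) (nat_lit 0) (XT.lf (nat_lit 0) (nat_lit 948955126414) (nat_lit 152) (nat_lit 2789778467388) (nat_lit 0) (nat_lit 635997705601) (nat_lit 4) (nat_lit 5) (nat_lit 6) (nat_lit 4) (nat_lit 4) (nat_lit 4) (nat_lit 450) (nat_lit 383) (nat_lit 187)) (XT.lf (nat_lit 0) (nat_lit 1367343368622) (nat_lit 152) (nat_lit 2273542765657) (nat_lit 0) (nat_lit 1054385941292) (nat_lit 4) (nat_lit 5) (nat_lit 6) (nat_lit 4) (nat_lit 4) (nat_lit 4) (nat_lit 451) (nat_lit 383) (nat_lit 186)))))) (XT.nd (nat_lit 47970)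 (nat_lit 0) (nat_lit 3952) (XT.nd (nat_lit 156) (nat_lit 0) (nat_lit 0) (XT.nd (nat_lit 78) (nat_lit 0) (nat_lit 0) (XT.lf (nat_lit 0) (nat_lit 1819202655467) (nat_lit 152) (nat_lit 1716008237445) (nat_lit 0) (nat_lit 1506245222102) (nat_lit 4) (nat_lit 5) (nat_lit 6) (nat_lit 4) (nat_lit 4) (nat_lit 4) (nat_lit 452) (nat_lit 383) (nat_lit 185)) (XT.lf (nat_lit 0) (nat_lit 2307210671611) (nat_lit 152) (nat_lit 1113870974437) (nat_lit 0) (nat_lit 1994253232658) (nat_lit 4) (nat_lit 5) (nat_lit 6) (nat_lit 4) (nat_lit 4) (nat_lit 4) (nat_lit 453) (nat_lit 383) (nat_lit 184))) (XT.nd (nat_lit 47658) (nat_lit 0) (nat_lit 4332) (XT.lf (nat_lit 0) (nat_lit 2834259316409) (nat_lit 152) (nat_lit 463562755814) (nat_lit 0) (nat_lit 2521301872282) (nat_lit 4) (nat_lit 5) (nat_lit 6) (nat_lit 4) (nat_lit 4) (nat_lit 4) (nat_lit 454) (nat_lit 383) (nat_lit 183)) (XT.nd (nat_lit 78) (nat_lit 0) (nat_lit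 0) (XT.lf (nat_lit 0) (nat_lit 50916619925) (nat_lit 532) (nat_lit 4611409576) (nat_lit 532) (nat_lit 4611409576) (nat_lit 61) (nat_lit 3) (nat_lit 68) (nat_lit 3) (nat_lit 68) (nat_lit 5) (nat_lit 384) (nat_lit 384) (nat_lit 252)) (XT.lf (nat_lit 76) (nat_lit 51325310189) (nat_lit 0) (nat_lit 55819853077) (nat_lit 532) (nat_lit 17845777360) (nat_lit 62) (nat_lit 5) (nat_lit 61) (nat_lit 3) (nat_lit 68) (nat_lit 5) (nat_lit 385) (nat_lit 384) (nat_lit 251))))) (XT.nd (nat_lit 156) (nat_lit 456) (nat_lit 0) (XT.nd (nat_lit 78) (nat_lit 0) (nat_lit 0) (XT.lf (nat_lit 0) (nat_lit 113232573082) (nat_lit 456) (nat_lit 12917061980) (nat_lit 532) (nat_lit 3902290942) (nat_lit 62) (nat_lit 5) (nat_lit 68) (nat_lit 5) (nat_lit 69) (nat_lit 5) (nat_lit 386) (nat_lit 384) (nat_lit 250)) (XT.lf (nat_lit 76) (nat_lit 53939541185) (nat_lit 0) (nat_lit 68614156079) (nat_lit 532) (nat_lit 12744355698)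 (nat_lit 63) (nat_lit 5) (nat_lit 62) (nat_lit 5) (nat_lit 69) (nat_lit 5) (nat_lit 387) (nat_lit 384) (nat_lit 249))) (XT.nd (nat_lit 78) (nat_lit 456) (nat_lit 0) (XT.lf (nat_lit 76) (nat_lit 126879025156) (nat_lit 0) (nat_lit 6094292568) (nat_lit 532) (nat_lit 7962328289) (nat_lit 63) (nat_lit 5) (nat_lit 62) (nat_lit 5) (nat_lit 69) (nat_lit 5) (nat_lit 388) (nat_lit 384) (nat_lit 248)) (XT.nd (nat_lit 78) (nat_lit 0) (nat_lit 0) (XT.lf (nat_lit 0) (nat_lit 342027183) (nat_lit 532) (nat_lit 86637649421) (nat_lit 608) (nat_lit 59809968206) (nat_lit 56) (nat_lit 5) (nat_lit 63) (nat_lit 5) (nat_lit 64) (nat_lit 5) (nat_lit 389) (nat_lit 384) (nat_lit 247)) (XT.lf (nat_lit 0) (nat_lit 9432838633) (nat_lit 532) (nat_lit 12359868023) (nat_lit 608) (nat_lit 131258529700) (nat_lit 56) (nat_lit 5) (nat_lit 63) (nat_lit 5) (nat_lit 64) (nat_lit 5) (nat_lit 390) (nat_lit 384) (nat_lit 246))))))))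
noncomputable def xc203 : XT := (XT.nd (nat_lit 1482) (nat_lit 1292) (nat_lit 0) (XT.nd (nat_lit 702) (nat_lit 988) (nat_lit 0) (XT.nd (nat_lit 312) (nat_lit 456) (nat_lit 0) (XT.nd (nat_lit 156) (nat_lit 608) (nat_lit 0) (XT.nd (nat_lit 78) (nat_lit 0) (nat_lit 0) (XT.lf (nat_lit 0) (nat_lit 22182258982) (nat_lit 532) (nat_lit 89456756467) (nat_lit 76) (nat_lit 47940232585) (nat_lit 57) (nat_lit 5) (nat_lit 64) (nat_lit 5) (nat_lit 58) (nat_lit 5) (nat_lit 391) (nat_lit 384) (nat_lit 245)) (XT.lf (nat_lit 0) (nat_lit 36864108735) (nat_lit 532) (nat_lit 7271203173) (nat_lit 76) (nat_lit 122421190975) (nat_lit 57) (nat_lit 5) (nat_lit 64) (nat_lit 5) (nat_lit 58) (nat_lit 5) (nat_lit 392) (nat_lit 384) (nat_lit 244))) (XT.nd (nat_lit 78) (nat_lit 228) (nat_lit 0) (XT.lf (nat_lit 0) (nat_lit 55528724658) (nat_lit 456) (nat_lit 88892385926) (nat_lit 76) (nat_lit 29446170359) (nat_lit 52)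 (nat_lit 5) (nat_lit 58) (nat_lit 5) (nat_lit 53) (nat_lit 5) (nat_lit 393) (nat_lit 384) (nat_lit 243)) (XT.lf (nat_lit 0) (nat_lit 2226774553) (nat_lit 228) (nat_lit 74863380677) (nat_lit 304) (nat_lit 104560474648) (nat_lit 49) (nat_lit 5) (nat_lit 52) (nat_lit 5) (nat_lit 53) (nat_lit 5) (nat_lit 394) (nat_lit 384) (nat_lit 242)))) (XT.nd (nat_lit 156) (nat_lit 228) (nat_lit 0) (XT.nd (nat_lit 78) (nat_lit 228) (nat_lit 0) (XT.lf (nat_lit 0) (nat_lit 102876093178) (nat_lit 304) (nat_lit 84240987982) (nat_lit 76) (nat_lit 2739598369) (nat_lit 49) (nat_lit 5) (nat_lit 53) (nat_lit 5) (nat_lit 50) (nat_lit 5) (nat_lit 395) (nat_lit 384) (nat_lit 241)) (XT.lf (nat_lit 0) (nat_lit 17486492664) (nat_lit 228) (nat_lit 115603245388) (nat_lit 304) (nat_lit 65440288774) (nat_lit 46) (nat_lit 5) (nat_lit 49) (nat_lit 5) (nat_lit 50) (nat_lit 5) (nat_lit 396) (nat_lit 384) (nat_lit 240))) (XT.nd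 (nat_lit 78) (nat_lit 228) (nat_lit 0) (XT.lf (nat_lit 0) (nat_lit 132142780049) (nat_lit 228) (nat_lit 35880780696) (nat_lit 304) (nat_lit 39689434464) (nat_lit 46) (nat_lit 5) (nat_lit 49) (nat_lit 5) (nat_lit 50) (nat_lit 5) (nat_lit 397) (nat_lit 384) (nat_lit 239)) (XT.nd (nat_lit 78) (nat_lit 76) (nat_lit 0) (XT.lf (nat_lit 0) (nat_lit 39088296834) (nat_lit 152) (nat_lit 168811449757) (nat_lit 228) (nat_lit 9559042077) (nat_lit 44) (nat_lit 5) (nat_lit 46) (nat_lit 5) (nat_lit 47) (nat_lit 5) (nat_lit 398) (nat_lit 384) (nat_lit 238)) (XT.lf (nat_lit 0) (nat_lit 24883806833) (nat_lit 228) (nat_lit 62140313480) (nat_lit 76) (nat_lit 140671775106) (nat_lit 43) (nat_lit 5) (nat_lit 46) (nat_lit 5) (nat_lit 44) (nat_lit 5) (nat_lit 399) (nat_lit 384) (nat_lit 237)))))) (XT.nd (nat_lit 390) (nat_lit 456) (nat_lit 0) (XT.nd (nat_lit 156) (nat_lit 304) (nat_lit 0) (XT.nd (nat_lit 78) (nat_lit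 0) (nat_lit 0) (XT.lf (nat_lit 0) (nat_lit 63243323738) (nat_lit 304) (nat_lit 172219037756) (nat_lit 76) (nat_lit 3135532290) (nat_lit 40) (nat_lit 5) (nat_lit 44) (nat_lit 5) (nat_lit 41) (nat_lit 5) (nat_lit 400) (nat_lit 384) (nat_lit 236)) (XT.lf (nat_lit 0) (nat_lit 108674953193) (nat_lit 304) (nat_lit 43827333138) (nat_lit 76) (nat_lit 97549497732) (nat_lit 40) (nat_lit 5) (nat_lit 44) (nat_lit 5) (nat_lit 41) (nat_lit 5) (nat_lit 401) (nat_lit 384) (nat_lit 235))) (XT.nd (nat_lit 78) (nat_lit 152) (nat_lit 0) (XT.lf (nat_lit 0) (nat_lit 99829354534) (nat_lit 152) (nat_lit 60312497209) (nat_lit 228) (nat_lit 102088074850) (nat_lit 38) (nat_lit 5) (nat_lit 40) (nat_lit 5) (nat_lit 41) (nat_lit 5) (nat_lit 402) (nat_lit 384) (nat_lit 234)) (XT.nd (nat_lit 78) (nat_lit 152) (nat_lit 0) (XT.lf (nat_lit 0) (nat_lit 217899412681) (nat_lit 228) (nat_lit 18790753923) (nat_lit 76) (nat_lit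 38518289201) (nat_lit 38) (nat_lit 5) (nat_lit 41) (nat_lit 5) (nat_lit 39) (nat_lit 5) (nat_lit 403) (nat_lit 384) (nat_lit 233)) (XT.lf (nat_lit 0) (nat_lit 141836307504) (nat_lit 152) (nat_lit 143418852874) (nat_lit 228) (nat_lit 3571900536) (nat_lit 36) (nat_lit 5) (nat_lit 38) (nat_lit 5) (nat_lit 39) (nat_lit 5) (nat_lit 404) (nat_lit 384) (nat_lit 232))))) (XT.nd (nat_lit 156) (nat_lit 228) (nat_lit 0) (XT.nd (nat_lit 78) (nat_lit 0) (nat_lit 0) (XT.lf (nat_lit 0) (nat_lit 12173682000) (nat_lit 152) (nat_lit 40385764428) (nat_lit 228) (nat_lit 250805338567) (nat_lit 33) (nat_lit 5) (nat_lit 35) (nat_lit 5) (nat_lit 36) (nat_lit 5) (nat_lit 405) (nat_lit 384) (nat_lit 231)) (XT.lf (nat_lit 0) (nat_lit 118816470894) (nat_lit 228) (nat_lit 128215529157) (nat_lit 76) (nat_lit 71559853296) (nat_lit 33) (nat_lit 5) (nat_lit 36) (nat_lit 5) (nat_lit 34) (nat_lit 5) (nat_lit 406) (nat_lit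 384) (nat_lit 230))) (XT.nd (nat_lit 78) (nat_lit 76) (nat_lit 0) (XT.lf (nat_lit 0) (nat_lit 49210624073) (nat_lit 152) (nat_lit 143395803664) (nat_lit 228) (nat_lit 142252069877) (nat_lit 31) (nat_lit 5) (nat_lit 33) (nat_lit 5) (nat_lit 34) (nat_lit 5) (nat_lit 407) (nat_lit 384) (nat_lit 229)) (XT.nd (nat_lit 78) (nat_lit 76) (nat_lit 0) (XT.lf (nat_lit 0) (nat_lit 248122405045) (nat_lit 152) (nat_lit 27682693424) (nat_lit 228) (nat_lit 76340933642) (nat_lit 31) (nat_lit 5) (nat_lit 33) (nat_lit 5) (nat_lit 34) (nat_lit 5) (nat_lit 408) (nat_lit 384) (nat_lit 228)) (XT.lf (nat_lit 0) (nat_lit 94518819046) (nat_lit 76) (nat_lit 275753674578) (nat_lit 152) (nat_lit 175049353) (nat_lit 30) (nat_lit 5) (nat_lit 31) (nat_lit 5) (nat_lit 32) (nat_lit 4) (nat_lit 409) (nat_lit 384) (nat_lit 227))))))) (XT.nd (nat_lit 780) (nat_lit 532) (nat_lit 0) (XT.nd (nat_lit 390) (nat_lit 380) (nat_lit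 0) (XT.nd (nat_lit 156) (nat_lit 152) (nat_lit 0) (XT.nd (nat_lit 78) (nat_lit 152) (nat_lit 0) (XT.lf (nat_lit 0) (nat_lit 81614908818) (nat_lit 152) (nat_lit 77892283190) (nat_lit 76) (nat_lit 230257094182) (nat_lit 29) (nat_lit 5) (nat_lit 31) (nat_lit 5) (nat_lit 30) (nat_lit 5) (nat_lit 410) (nat_lit 384) (nat_lit 226)) (XT.lf (nat_lit 0) (nat_lit 143142940106) (nat_lit 152) (nat_lit 30238152076) (nat_lit 228) (nat_lit 236969514135) (nat_lit 27) (nat_lit 5) (nat_lit 29) (nat_lit 5) (nat_lit 30) (nat_lit 5) (nat_lit 411) (nat_lit 384) (nat_lit 225))) (XT.nd (nat_lit 78) (nat_lit 152) (nat_lit 0) (XT.lf (nat_lit 0) (nat_lit 277303906236) (nat_lit 228) (nat_lit 48808574556) (nat_lit 76) (nat_lit 106086124432) (nat_lit 27) (nat_lit 5) (nat_lit 30) (nat_lit 5) (nat_lit 28) (nat_lit 4) (nat_lit 412) (nat_lit 384) (nat_lit 224)) (XT.nd (nat_lit 78) (nat_lit 76) (nat_lit 0) (XT.lf (nat_lit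 0) (nat_lit 196085883447) (nat_lit 76) (nat_lit 198955843006) (nat_lit 152) (nat_lit 60312623153) (nat_lit 26) (nat_lit 5) (nat_lit 27) (nat_lit 5) (nat_lit 28) (nat_lit 4) (nat_lit 413) (nat_lit 384) (nat_lit 223)) (XT.lf (nat_lit 0) (nat_lit 41112292320) (nat_lit 152) (nat_lit 17949092818) (nat_lit 76) (nat_lit 421111149409) (nat_lit 25) (nat_lit 5) (nat_lit 27) (nat_lit 5) (nat_lit 26) (nat_lit 5) (nat_lit 414) (nat_lit 384) (nat_lit 222))))) (XT.nd (nat_lit 156) (nat_lit 152) (nat_lit 0) (XT.nd (nat_lit 78) (nat_lit 76) (nat_lit 0) (XT.lf (nat_lit 0) (nat_lit 155909122249) (nat_lit 228) (nat_lit 254969468852) (nat_lit 76) (nat_lit 95290948734) (nat_lit 23) (nat_lit 5) (nat_lit 26) (nat_lit 5) (nat_lit 24) (nat_lit 4) (nat_lit 415) (nat_lit 384) (nat_lit 221)) (XT.lf (nat_lit 0) (nat_lit 7524338350) (nat_lit 76) (nat_lit 274583803189) (nat_lit 152) (nat_lit 251960688604) (nat_lit 22)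 (nat_lit 5) (nat_lit 23) (nat_lit 5) (nat_lit 24) (nat_lit 4) (nat_lit 416) (nat_lit 384) (nat_lit 220))) (XT.nd (nat_lit 78) (nat_lit 152) (nat_lit 0) (XT.lf (nat_lit 0) (nat_lit 305517839139) (nat_lit 76) (nat_lit 119856476623) (nat_lit 152) (nat_lit 138268049275) (nat_lit 22) (nat_lit 5) (nat_lit 23) (nat_lit 5) (nat_lit 24) (nat_lit 4) (nat_lit 417) (nat_lit 384) (nat_lit 219)) (XT.nd (nat_lit 78) (nat_lit 76) (nat_lit 0) (XT.lf (nat_lit 0) (nat_lit 32245608555) (nat_lit 76) (nat_lit 549767944461) (nat_lit 76) (nat_lit 13415288209) (nat_lit 21) (nat_lit 4) (nat_lit 22) (nat_lit 5) (nat_lit 22) (nat_lit 4) (nat_lit 418) (nat_lit 384) (nat_lit 218)) (XT.lf (nat_lit 0) (nat_lit 125705461231) (nat_lit 152) (nat_lit 274885409294) (nat_lit 76) (nat_lit 228105423944) (nat_lit 20) (nat_lit 5) (nat_lit 22) (nat_lit 5) (nat_lit 21) (nat_lit 4) (nat_lit 419) (nat_lit 384) (nat_lit 217)))))) (XT.nd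 (nat_lit 390) (nat_lit 304) (nat_lit 0) (XT.nd (nat_lit 156) (nat_lit 152) (nat_lit 0) (XT.nd (nat_lit 78) (nat_lit 0) (nat_lit 0) (XT.lf (nat_lit 0) (nat_lit 38030075311) (nat_lit 76) (nat_lit 238115572785) (nat_lit 152) (nat_lit 388378455856) (nat_lit 19) (nat_lit 5) (nat_lit 20) (nat_lit 5) (nat_lit 21) (nat_lit 4) (nat_lit 420) (nat_lit 384) (nat_lit 216)) (XT.lf (nat_lit 0) (nat_lit 391611644886) (nat_lit 76) (nat_lit 54525188759) (nat_lit 152) (nat_lit 256480041873) (nat_lit 19) (nat_lit 5) (nat_lit 20) (nat_lit 5) (nat_lit 21) (nat_lit 4) (nat_lit 421) (nat_lit 384) (nat_lit 215))) (XT.nd (nat_lit 78) (nat_lit 76) (nat_lit 0) (XT.lf (nat_lit 0) (nat_lit 27648381088) (nat_lit 76) (nat_lit 606201059871) (nat_lit 76) (nat_lit 109577857717) (nat_lit 18) (nat_lit 4) (nat_lit 19) (nat_lit 5) (nat_lit 19) (nat_lit 4) (nat_lit 422) (nat_lit 384) (nat_lit 214)) (XT.nd (nat_lit 78) (nat_lit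 0) (nat_lit 0) (XT.lf (nat_lit 0) (nat_lit 56761970763) (nat_lit 152) (nat_lit 378558379463) (nat_lit 76) (nat_lit 351276544200) (nat_lit 17) (nat_lit 5) (nat_lit 19) (nat_lit 5) (nat_lit 18) (nat_lit 4) (nat_lit 423) (nat_lit 384) (nat_lit 213)) (XT.lf (nat_lit 0) (nat_lit 230488873640) (nat_lit 152) (nat_lit 17206492311) (nat_lit 76) (nat_lit 585297002562) (nat_lit 17) (nat_lit 5) (nat_lit 19) (nat_lit 5) (nat_lit 18) (nat_lit 4) (nat_lit 424) (nat_lit 384) (nat_lit 212))))) (XT.nd (nat_lit 156) (nat_lit 228) (nat_lit 0) (XT.nd (nat_lit 78) (nat_lit 0) (nat_lit 0) (XT.lf (nat_lit 0) (nat_lit 392697771460) (nat_lit 76) (nat_lit 34860491294) (nat_lit 152) (nat_lit 454785671069) (nat_lit 16) (nat_lit 5) (nat_lit 17) (nat_lit 5) (nat_lit 18) (nat_lit 4) (nat_lit 425) (nat_lit 384) (nat_lit 211)) (XT.lf (nat_lit 0) (nat_lit 645565605200) (nat_lit 152) (nat_lit 103935173460) (nat_lit 0) (nat_lit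 185729053535) (nat_lit 16) (nat_lit 5) (nat_lit 18) (nat_lit 4) (nat_lit 16) (nat_lit 4) (nat_lit 426) (nat_lit 384) (nat_lit 210))) (XT.nd (nat_lit 78) (nat_lit 152) (nat_lit 0) (XT.lf (nat_lit 0) (nat_lit 328142125502) (nat_lit 76) (nat_lit 561668650691) (nat_lit 76) (nat_lit 101832046962) (nat_lit 15) (nat_lit 4) (nat_lit 16) (nat_lit 5) (nat_lit 16) (nat_lit 4) (nat_lit 427) (nat_lit 384) (nat_lit 209)) (XT.nd (nat_lit 78) (nat_lit 76) (nat_lit 0) (XT.lf (nat_lit 0) (nat_lit 98888474525) (nat_lit 152) (nat_lit 254148624923) (nat_lit 76) (nat_lit 699104135808) (nat_lit 14) (nat_lit 5) (nat_lit 16) (nat_lit 5) (nat_lit 15) (nat_lit 4) (nat_lit 428) (nat_lit 384) (nat_lit 208)) (XT.lf (nat_lit 0) (nat_lit 195064446360) (nat_lit 76) (nat_lit 119791872357) (nat_lit 152) (nat_lit 802036302038) (nat_lit 13) (nat_lit 5) (nat_lit 14) (nat_lit 5) (nat_lit 15) (nat_lit 4) (nat_lit 429) (nat_lit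 384) (nat_lit 207))))))))
noncomputable def xc204 : XT := (XT.nd (nat_lit 1482) (nat_lit 152) (nat_lit 0) (XT.nd (nat_lit 702) (nat_lit 228) (nat_lit 0) (XT.nd (nat_lit 312) (nat_lit 152) (nat_lit 0) (XT.nd (nat_lit 156) (nat_lit 152) (nat_lit 0) (XT.nd (nat_lit 78) (nat_lit 0) (nat_lit 0) (XT.lf (nat_lit 0) (nat_lit 558408226872) (nat_lit 152) (nat_lit 494957889762) (nat_lit 0) (nat_lit 132633469555) (nat_lit 13) (nat_lit 5) (nat_lit 15) (nat_lit 4) (nat_lit 13) (nat_lit 4) (nat_lit 430) (nat_lit 384) (nat_lit 206)) (XT.lf (nat_lit 0) (nat_lit 824555720650) (nat_lit 152) (nat_lit 37049545680) (nat_lit 0) (nat_lit 398780927899) (nat_lit 13) (nat_lit 5) (nat_lit 15) (nat_lit 4) (nat_lit 13) (nat_lit 4) (nat_lit 431) (nat_lit 384) (nat_lit 205))) (XT.nd (nat_lit 78) (nat_lit 76) (nat_lit 0) (XT.lf (nat_lit 0) (nat_lit 481582071840) (nat_lit 76) (nat_lit 641994961542) (nat_lit 76) (nat_lit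 216220135982) (nat_lit 12) (nat_lit 4) (nat_lit 13) (nat_lit 5) (nat_lit 13) (nat_lit 4) (nat_lit 432) (nat_lit 384) (nat_lit 204)) (XT.lf (nat_lit 0) (nat_lit 20949844223) (nat_lit 152) (nat_lit 382199179953) (nat_lit 76) (nat_lit 1022288531442) (nat_lit 11) (nat_lit 5) (nat_lit 13) (nat_lit 5) (nat_lit 12) (nat_lit 4) (nat_lit 433) (nat_lit 384) (nat_lit 203)))) (XT.nd (nat_lit 156) (nat_lit 76) (nat_lit 0) (XT.nd (nat_lit 78) (nat_lit 0) (nat_lit 0) (XT.lf (nat_lit 0) (nat_lit 132931606993) (nat_lit 76) (nat_lit 135677282939) (nat_lit 152) (nat_lit 1248615236609) (nat_lit 10) (nat_lit 5) (nat_lit 11) (nat_lit 5) (nat_lit 12) (nat_lit 4) (nat_lit 434) (nat_lit 384) (nat_lit 202)) (XT.lf (nat_lit 0) (nat_lit 550486329285) (nat_lit 152) (nat_lit 908464538856) (nat_lit 0) (nat_lit 156250301404) (nat_lit 10) (nat_lit 5) (nat_lit 12) (nat_lit 4) (nat_lit 10) (nat_lit 4) (nat_lit 435) (nat_lit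 384) (nat_lit 201))) (XT.nd (nat_lit 78) (nat_lit 76) (nat_lit 0) (XT.lf (nat_lit 0) (nat_lit 858438014250) (nat_lit 152) (nat_lit 398094473669) (nat_lit 0) (nat_lit 464201964039) (nat_lit 10) (nat_lit 5) (nat_lit 12) (nat_lit 4) (nat_lit 10) (nat_lit 4) (nat_lit 436) (nat_lit 384) (nat_lit 200)) (XT.nd (nat_lit 78) (nat_lit 0) (nat_lit 0) (XT.lf (nat_lit 0) (nat_lit 161167378117) (nat_lit 76) (nat_lit 1033734502985) (nat_lit 76) (nat_lit 639498432099) (nat_lit 9) (nat_lit 4) (nat_lit 10) (nat_lit 5) (nat_lit 10) (nat_lit 4) (nat_lit 437) (nat_lit 384) (nat_lit 199)) (XT.lf (nat_lit 0) (nat_lit 787810101516) (nat_lit 76) (nat_lit 781357332849) (nat_lit 76) (nat_lit 387121242819) (nat_lit 9) (nat_lit 4) (nat_lit 10) (nat_lit 5) (nat_lit 10) (nat_lit 4) (nat_lit 438) (nat_lit 384) (nat_lit 198)))))) (XT.nd (nat_lit 390) (nat_lit 76) (nat_lit 0) (XT.nd (nat_lit 156) (nat_lit 76) (nat_lit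 0) (XT.nd (nat_lit 78) (nat_lit 76) (nat_lit 0) (XT.lf (nat_lit 0) (nat_lit 1464584185389) (nat_lit 76) (nat_lit 508790017489) (nat_lit 76) (nat_lit 114553909733) (nat_lit 9) (nat_lit 4) (nat_lit 10) (nat_lit 5) (nat_lit 10) (nat_lit 4) (nat_lit 439) (nat_lit 384) (nat_lit 197)) (XT.lf (nat_lit 0) (nat_lit 170823517288) (nat_lit 152) (nat_lit 38923208209) (nat_lit 76) (nat_lit 2020006007848) (nat_lit 8) (nat_lit 5) (nat_lit 10) (nat_lit 5) (nat_lit 9) (nat_lit 4) (nat_lit 440) (nat_lit 384) (nat_lit 196))) (XT.nd (nat_lit 78) (nat_lit 0) (nat_lit 0) (XT.lf (nat_lit 0) (nat_lit 490948316152) (nat_lit 152) (nat_lit 1764373634574) (nat_lit 0) (nat_lit 125914853776) (nat_lit 7) (nat_lit 5) (nat_lit 9) (nat_lit 4) (nat_lit 7) (nat_lit 4) (nat_lit 441) (nat_lit 384) (nat_lit 195)) (XT.nd (nat_lit 78) (nat_lit 0) (nat_lit 0) (XT.lf (nat_lit 0) (nat_lit 843222912231) (nat_lit 152) (nat_lit 1222904067235)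 (nat_lit 0) (nat_lit 478189436827) (nat_lit 7) (nat_lit 5) (nat_lit 9) (nat_lit 4) (nat_lit 7) (nat_lit 4) (nat_lit 442) (nat_lit 384) (nat_lit 194)) (XT.lf (nat_lit 0) (nat_lit 1223679452473) (nat_lit 152) (nat_lit 638116981433) (nat_lit 0) (nat_lit 858645965005) (nat_lit 7) (nat_lit 5) (nat_lit 9) (nat_lit 4) (nat_lit 7) (nat_lit 4) (nat_lit 443) (nat_lit 384) (nat_lit 193))))) (XT.nd (nat_lit 156) (nat_lit 0) (nat_lit 0) (XT.nd (nat_lit 78) (nat_lit 76) (nat_lit 0) (XT.lf (nat_lit 0) (nat_lit 1634572494154) (nat_lit 152) (nat_lit 6546972214) (nat_lit 0) (nat_lit 1269538995516) (nat_lit 7) (nat_lit 5) (nat_lit 9) (nat_lit 4) (nat_lit 7) (nat_lit 4) (nat_lit 444) (nat_lit 384) (nat_lit 192)) (XT.lf (nat_lit 0) (nat_lit 711121789481) (nat_lit 76) (nat_lit 1384317665660) (nat_lit 76) (nat_lit 1019284156678) (nat_lit 6) (nat_lit 4) (nat_lit 7) (nat_lit 5) (nat_lit 7) (nat_lit 4) (nat_lit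 445) (nat_lit 384) (nat_lit 191))) (XT.nd (nat_lit 78) (nat_lit 0) (nat_lit 0) (XT.lf (nat_lit 0) (nat_lit 1486576345013) (nat_lit 76) (nat_lit 1106778414200) (nat_lit 76) (nat_lit 741744895642) (nat_lit 6) (nat_lit 4) (nat_lit 7) (nat_lit 5) (nat_lit 7) (nat_lit 4) (nat_lit 446) (nat_lit 384) (nat_lit 190)) (XT.nd (nat_lit 78) (nat_lit 0) (nat_lit 0) (XT.lf (nat_lit 0) (nat_lit 2324067228681) (nat_lit 76) (nat_lit 807036040767) (nat_lit 76) (nat_lit 442002513342) (nat_lit 6) (nat_lit 4) (nat_lit 7) (nat_lit 5) (nat_lit 7) (nat_lit 4) (nat_lit 447) (nat_lit 384) (nat_lit 189)) (XT.lf (nat_lit 0) (nat_lit 3228557349425) (nat_lit 76) (nat_lit 483314294258) (nat_lit 76) (nat_lit 118280758623) (nat_lit 6) (nat_lit 4) (nat_lit 7) (nat_lit 5) (nat_lit 7) (nat_lit 4) (nat_lit 448) (nat_lit 384) (nat_lit 188))))))) (XT.nd (nat_lit 48438) (nat_lit 0) (nat_lit 3192) (XT.nd (nat_lit 312) (nat_lit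 0) (nat_lit 0) (XT.nd (nat_lit 156) (nat_lit 0) (nat_lit 0) (XT.nd (nat_lit 78) (nat_lit 0) (nat_lit 0) (XT.lf (nat_lit 0) (nat_lit 96928974149) (nat_lit 76) (nat_lit 125168389979) (nat_lit 152) (nat_lit 3885033800830) (nat_lit 4) (nat_lit 5) (nat_lit 5) (nat_lit 5) (nat_lit 6) (nat_lit 4) (nat_lit 449) (nat_lit 384) (nat_lit 187)) (XT.lf (nat_lit 0) (nat_lit 606483588989) (nat_lit 152) (nat_lit 3529195853639) (nat_lit 0) (nat_lit 268489560955) (nat_lit 4) (nat_lit 5) (nat_lit 6) (nat_lit 4) (nat_lit 4) (nat_lit 4) (nat_lit 450) (nat_lit 384) (nat_lit 186))) (XT.nd (nat_lit 78) (nat_lit 0) (nat_lit 0) (XT.lf (nat_lit 0) (nat_lit 1024871824111) (nat_lit 152) (nat_lit 3012960166166) (nat_lit 0) (nat_lit 686877790042) (nat_lit 4) (nat_lit 5) (nat_lit 6) (nat_lit 4) (nat_lit 4) (nat_lit 4) (nat_lit 451) (nat_lit 384) (nat_lit 185)) (XT.lf (nat_lit 0) (nat_lit 1476731104394) (nat_lit 152) (nat_lit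 2455425651157) (nat_lit 0) (nat_lit 1138737064737) (nat_lit 4) (nat_lit 5) (nat_lit 6) (nat_lit 4) (nat_lit 4) (nat_lit 4) (nat_lit 452) (nat_lit 384) (nat_lit 184)))) (XT.nd (nat_lit 47892) (nat_lit 0) (nat_lit 4332) (XT.nd (nat_lit 47814) (nat_lit 0) (nat_lit 4332) (XT.lf (nat_lit 0) (nat_lit 1964739114462) (nat_lit 152) (nat_lit 1853288400373) (nat_lit 0) (nat_lit 1626745069631) (nat_lit 4) (nat_lit 5) (nat_lit 6) (nat_lit 4) (nat_lit 4) (nat_lit 4) (nat_lit 453) (nat_lit 384) (nat_lit 183)) (XT.lf (nat_lit 0) (nat_lit 54994066931) (nat_lit 532) (nat_lit 4978096425) (nat_lit 532) (nat_lit 4978096425) (nat_lit 61) (nat_lit 3) (nat_lit 68) (nat_lit 3) (nat_lit 68) (nat_lit 5) (nat_lit 385) (nat_lit 385) (nat_lit 250))) (XT.nd (nat_lit 78) (nat_lit 0) (nat_lit 76) (XT.lf (nat_lit 76) (nat_lit 55435674133) (nat_lit 0) (nat_lit 60288831387) (nat_lit 532) (nat_lit 19265082707) (nat_lit 62)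 (nat_lit 5) (nat_lit 61) (nat_lit 3) (nat_lit 68) (nat_lit 5) (nat_lit 386) (nat_lit 385) (nat_lit 249)) (XT.nd (nat_lit 78) (nat_lit 0) (nat_lit 0) (XT.lf (nat_lit 0) (nat_lit 122298260097) (nat_lit 456) (nat_lit 13945752578) (nat_lit 532) (nat_lit 4211492292) (nat_lit 62) (nat_lit 5) (nat_lit 68) (nat_lit 5) (nat_lit 69) (nat_lit 5) (nat_lit 387) (nat_lit 385) (nat_lit 248)) (XT.lf (nat_lit 76) (nat_lit 58259260502) (nat_lit 0) (nat_lit 74105398753) (nat_lit 532) (nat_lit 13756696663) (nat_lit 63) (nat_lit 5) (nat_lit 62) (nat_lit 5) (nat_lit 69) (nat_lit 5) (nat_lit 388) (nat_lit 385) (nat_lit 247)))))) (XT.nd (nat_lit 390) (nat_lit 760) (nat_lit 0) (XT.nd (nat_lit 156) (nat_lit 0) (nat_lit 0) (XT.nd (nat_lit 78) (nat_lit 456) (nat_lit 0) (XT.lf (nat_lit 76) (nat_lit 137033565707) (nat_lit 0) (nat_lit 6583789851) (nat_lit 532) (nat_lit 8592640949) (nat_lit 63) (nat_lit 5) (nat_lit 62)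 (nat_lit 5) (nat_lit 69) (nat_lit 5) (nat_lit 389) (nat_lit 385) (nat_lit 246)) (XT.lf (nat_lit 0) (nat_lit 375329507) (nat_lit 532) (nat_lit 93563696199) (nat_lit 608) (nat_lit 64593309138) (nat_lit 56) (nat_lit 5) (nat_lit 63) (nat_lit 5) (nat_lit 64) (nat_lit 5) (nat_lit 390) (nat_lit 385) (nat_lit 245))) (XT.nd (nat_lit 78) (nat_lit 0) (nat_lit 76) (XT.lf (nat_lit 0) (nat_lit 10192965863) (nat_lit 532) (nat_lit 13344060079) (nat_lit 608) (nat_lit 141757863443) (nat_lit 56) (nat_lit 5) (nat_lit 63) (nat_lit 5) (nat_lit 64) (nat_lit 5) (nat_lit 391) (nat_lit 385) (nat_lit 244)) (XT.nd (nat_lit 78) (nat_lit 0) (nat_lit 0) (XT.lf (nat_lit 0) (nat_lit 23962022886) (nat_lit 532) (nat_lit 96608377211) (nat_lit 76) (nat_lit 51774767690) (nat_lit 57) (nat_lit 5) (nat_lit 64) (nat_lit 5) (nat_lit 58) (nat_lit 5) (nat_lit 392) (nat_lit 385) (nat_lit 243)) (XT.lf (nat_lit 0) (nat_lit 39818036680)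 (nat_lit 532) (nat_lit 7848344081) (nat_lit 76) (nat_lit 132214253381) (nat_lit 57) (nat_lit 5) (nat_lit 64) (nat_lit 5) (nat_lit 58) (nat_lit 5) (nat_lit 393) (nat_lit 385) (nat_lit 242))))) (XT.nd (nat_lit 156) (nat_lit 228) (nat_lit 0) (XT.nd (nat_lit 78) (nat_lit 228) (nat_lit 0) (XT.lf (nat_lit 0) (nat_lit 59975570502) (nat_lit 456) (nat_lit 95998965421) (nat_lit 76) (nat_lit 31801759008) (nat_lit 52) (nat_lit 5) (nat_lit 58) (nat_lit 5) (nat_lit 53) (nat_lit 5) (nat_lit 394) (nat_lit 385) (nat_lit 241)) (XT.lf (nat_lit 0) (nat_lit 2409606090) (nat_lit 228) (nat_lit 80852085335) (nat_lit 304) (nat_lit 112920638627) (nat_lit 49) (nat_lit 5) (nat_lit 52) (nat_lit 5) (nat_lit 53) (nat_lit 5) (nat_lit 395) (nat_lit 385) (nat_lit 240))) (XT.nd (nat_lit 78) (nat_lit 228) (nat_lit 0) (XT.lf (nat_lit 0) (nat_lit 111110192275) (nat_lit 304) (nat_lit 90975608696) (nat_lit 76) (nat_lit 2959087996)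 (nat_lit 49) (nat_lit 5) (nat_lit 53) (nat_lit 5) (nat_lit 50) (nat_lit 5) (nat_lit 396) (nat_lit 385) (nat_lit 239)) (XT.nd (nat_lit 78) (nat_lit 0) (nat_lit 0) (XT.lf (nat_lit 0) (nat_lit 18889952469) (nat_lit 228) (nat_lit 124850788306) (nat_lit 304) (nat_lit 70671378603) (nat_lit 46) (nat_lit 5) (nat_lit 49) (nat_lit 5) (nat_lit 50) (nat_lit 5) (nat_lit 397) (nat_lit 385) (nat_lit 238)) (XT.lf (nat_lit 0) (nat_lit 142718406520) (nat_lit 228) (nat_lit 38750579529) (nat_lit 304) (nat_lit 42860762117) (nat_lit 46) (nat_lit 5) (nat_lit 49) (nat_lit 5) (nat_lit 50) (nat_lit 5) (nat_lit 398) (nat_lit 385) (nat_lit 237))))))))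
noncomputable def xc205 : XT := (XT.nd (nat_lit 1482) (nat_lit 912) (nat_lit 0) (XT.nd (nat_lit 702) (nat_lit 836) (nat_lit 0) (XT.nd (nat_lit 312) (nat_lit 532) (nat_lit 0) (XT.nd (nat_lit 156) (nat_lit 228) (nat_lit 0) (XT.nd (nat_lit 78) (nat_lit 76) (nat_lit 0) (XT.lf (nat_lit 0) (nat_lit 42219722062) (nat_lit 152) (nat_lit 182315402117) (nat_lit 228) (nat_lit 10320092583) (nat_lit 44) (nat_lit 5) (nat_lit 46) (nat_lit 5) (nat_lit 47) (nat_lit 5) (nat_lit 399) (nat_lit 385) (nat_lit 236)) (XT.lf (nat_lit 0) (nat_lit 26877742055) (nat_lit 228) (nat_lit 67107327310) (nat_lit 76) (nat_lit 151926236516) (nat_lit 43) (nat_lit 5) (nat_lit 46) (nat_lit 5) (nat_lit 44) (nat_lit 5) (nat_lit 400) (nat_lit 385) (nat_lit 235))) (XT.nd (nat_lit 78) (nat_lit 0) (nat_lit 0) (XT.lf (nat_lit 0) (nat_lit 68305904120) (nat_lit 304) (nat_lit 185992230818) (nat_lit 76) (nat_lit 3387338674) (nat_lit 40)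 (nat_lit 5) (nat_lit 44) (nat_lit 5) (nat_lit 41) (nat_lit 5) (nat_lit 401) (nat_lit 385) (nat_lit 234)) (XT.lf (nat_lit 0) (nat_lit 117371833229) (nat_lit 304) (nat_lit 47329510568) (nat_lit 76) (nat_lit 105354349958) (nat_lit 40) (nat_lit 5) (nat_lit 44) (nat_lit 5) (nat_lit 41) (nat_lit 5) (nat_lit 402) (nat_lit 385) (nat_lit 233)))) (XT.nd (nat_lit 156) (nat_lit 380) (nat_lit 0) (XT.nd (nat_lit 78) (nat_lit 0) (nat_lit 0) (XT.lf (nat_lit 0) (nat_lit 107819610619) (nat_lit 152) (nat_lit 65136353411) (nat_lit 228) (nat_lit 110252133401) (nat_lit 38) (nat_lit 5) (nat_lit 40) (nat_lit 5) (nat_lit 41) (nat_lit 5) (nat_lit 403) (nat_lit 385) (nat_lit 232)) (XT.lf (nat_lit 0) (nat_lit 235333950558) (nat_lit 228) (nat_lit 20290214691) (nat_lit 76) (nat_lit 41600758234) (nat_lit 38) (nat_lit 5) (nat_lit 41) (nat_lit 5) (nat_lit 39) (nat_lit 5) (nat_lit 404) (nat_lit 385) (nat_lit 231))) (XT.nd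 (nat_lit 78) (nat_lit 228) (nat_lit 0) (XT.lf (nat_lit 0) (nat_lit 153186915459) (nat_lit 152) (nat_lit 154891140206) (nat_lit 228) (nat_lit 3854969676) (nat_lit 36) (nat_lit 5) (nat_lit 38) (nat_lit 5) (nat_lit 39) (nat_lit 5) (nat_lit 405) (nat_lit 385) (nat_lit 230)) (XT.nd (nat_lit 78) (nat_lit 0) (nat_lit 0) (XT.lf (nat_lit 0) (nat_lit 13151318640) (nat_lit 152) (nat_lit 43615333400) (nat_lit 228) (nat_lit 270867118176) (nat_lit 33) (nat_lit 5) (nat_lit 35) (nat_lit 5) (nat_lit 36) (nat_lit 5) (nat_lit 406) (nat_lit 385) (nat_lit 229)) (XT.lf (nat_lit 0) (nat_lit 128324085765) (nat_lit 228) (nat_lit 138469152433) (nat_lit 76) (nat_lit 77285778172) (nat_lit 33) (nat_lit 5) (nat_lit 36) (nat_lit 5) (nat_lit 34) (nat_lit 5) (nat_lit 407) (nat_lit 385) (nat_lit 228)))))) (XT.nd (nat_lit 390) (nat_lit 380) (nat_lit 0) (XT.nd (nat_lit 156) (nat_lit 304) (nat_lit 0) (XT.nd (nat_lit 78) (nat_lit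 0) (nat_lit 0) (XT.lf (nat_lit 0) (nat_lit 53151001434) (nat_lit 152) (nat_lit 154866152393) (nat_lit 228) (nat_lit 153629845287) (nat_lit 31) (nat_lit 5) (nat_lit 33) (nat_lit 5) (nat_lit 34) (nat_lit 5) (nat_lit 408) (nat_lit 385) (nat_lit 227)) (XT.lf (nat_lit 0) (nat_lit 267975463592) (nat_lit 152) (nat_lit 29896090784) (nat_lit 228) (nat_lit 82445995204) (nat_lit 31) (nat_lit 5) (nat_lit 33) (nat_lit 5) (nat_lit 34) (nat_lit 5) (nat_lit 409) (nat_lit 385) (nat_lit 226))) (XT.nd (nat_lit 78) (nat_lit 228) (nat_lit 0) (XT.lf (nat_lit 0) (nat_lit 102083640393) (nat_lit 76) (nat_lit 297812655915) (nat_lit 152) (nat_lit 186888685) (nat_lit 30) (nat_lit 5) (nat_lit 31) (nat_lit 5) (nat_lit 32) (nat_lit 4) (nat_lit 410) (nat_lit 385) (nat_lit 225)) (XT.nd (nat_lit 78) (nat_lit 152) (nat_lit 0) (XT.lf (nat_lit 0) (nat_lit 88146005535) (nat_lit 152) (nat_lit 84120494376) (nat_lit 76) (nat_lit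 248678775853) (nat_lit 29) (nat_lit 5) (nat_lit 31) (nat_lit 5) (nat_lit 30) (nat_lit 5) (nat_lit 411) (nat_lit 385) (nat_lit 224)) (XT.lf (nat_lit 0) (nat_lit 154597466493) (nat_lit 152) (nat_lit 32655950381) (nat_lit 228) (nat_lit 255925090038) (nat_lit 27) (nat_lit 5) (nat_lit 29) (nat_lit 5) (nat_lit 30) (nat_lit 5) (nat_lit 412) (nat_lit 385) (nat_lit 223))))) (XT.nd (nat_lit 156) (nat_lit 304) (nat_lit 0) (XT.nd (nat_lit 78) (nat_lit 76) (nat_lit 0) (XT.lf (nat_lit 0) (nat_lit 299489947876) (nat_lit 228) (nat_lit 52710289285) (nat_lit 76) (nat_lit 114574117292) (nat_lit 27) (nat_lit 5) (nat_lit 30) (nat_lit 5) (nat_lit 28) (nat_lit 4) (nat_lit 413) (nat_lit 385) (nat_lit 222)) (XT.lf (nat_lit 0) (nat_lit 211775650137) (nat_lit 76) (nat_lit 214871085138) (nat_lit 152) (nat_lit 65135827850) (nat_lit 26) (nat_lit 5) (nat_lit 27) (nat_lit 5) (nat_lit 28) (nat_lit 4) (nat_lit 414) (nat_lit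 385) (nat_lit 221))) (XT.nd (nat_lit 78) (nat_lit 228) (nat_lit 0) (XT.lf (nat_lit 0) (nat_lit 44402863534) (nat_lit 152) (nat_lit 19382254456) (nat_lit 76) (nat_lit 454801091614) (nat_lit 25) (nat_lit 5) (nat_lit 27) (nat_lit 5) (nat_lit 26) (nat_lit 5) (nat_lit 415) (nat_lit 385) (nat_lit 220)) (XT.nd (nat_lit 78) (nat_lit 76) (nat_lit 0) (XT.lf (nat_lit 0) (nat_lit 168383414989) (nat_lit 228) (nat_lit 275364235075) (nat_lit 76) (nat_lit 102915327291) (nat_lit 23) (nat_lit 5) (nat_lit 26) (nat_lit 5) (nat_lit 24) (nat_lit 4) (nat_lit 416) (nat_lit 385) (nat_lit 219)) (XT.lf (nat_lit 0) (nat_lit 8129006038) (nat_lit 76) (nat_lit 296549299441) (nat_lit 152) (nat_lit 272115909483) (nat_lit 22) (nat_lit 5) (nat_lit 23) (nat_lit 5) (nat_lit 24) (nat_lit 4) (nat_lit 417) (nat_lit 385) (nat_lit 218))))))) (XT.nd (nat_lit 780) (nat_lit 456) (nat_lit 0) (XT.nd (nat_lit 390) (nat_lit 228) (nat_lit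 0) (XT.nd (nat_lit 156) (nat_lit 152) (nat_lit 0) (XT.nd (nat_lit 78) (nat_lit 76) (nat_lit 0) (XT.lf (nat_lit 0) (nat_lit 329961785363) (nat_lit 76) (nat_lit 129443876231) (nat_lit 152) (nat_lit 149327980061) (nat_lit 22) (nat_lit 5) (nat_lit 23) (nat_lit 5) (nat_lit 24) (nat_lit 4) (nat_lit 418) (nat_lit 385) (nat_lit 217)) (XT.lf (nat_lit 0) (nat_lit 34827796074) (nat_lit 76) (nat_lit 593748223976) (nat_lit 76) (nat_lit 14487017351) (nat_lit 21) (nat_lit 4) (nat_lit 22) (nat_lit 5) (nat_lit 22) (nat_lit 4) (nat_lit 419) (nat_lit 385) (nat_lit 216))) (XT.nd (nat_lit 78) (nat_lit 76) (nat_lit 0) (XT.lf (nat_lit 0) (nat_lit 135763212188) (nat_lit 152) (nat_lit 296873821640) (nat_lit 76) (nat_lit 246354858644) (nat_lit 20) (nat_lit 5) (nat_lit 22) (nat_lit 5) (nat_lit 21) (nat_lit 4) (nat_lit 420) (nat_lit 385) (nat_lit 215)) (XT.nd (nat_lit 78) (nat_lit 0) (nat_lit 0) (XT.lf (nat_lit 0)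 (nat_lit 41074840457) (nat_lit 76) (nat_lit 257163732945) (nat_lit 152) (nat_lit 419447356593) (nat_lit 19) (nat_lit 5) (nat_lit 20) (nat_lit 5) (nat_lit 21) (nat_lit 4) (nat_lit 421) (nat_lit 385) (nat_lit 214)) (XT.lf (nat_lit 0) (nat_lit 422942760849) (nat_lit 76) (nat_lit 58886198616) (nat_lit 152) (nat_lit 276997171398) (nat_lit 19) (nat_lit 5) (nat_lit 20) (nat_lit 5) (nat_lit 21) (nat_lit 4) (nat_lit 422) (nat_lit 385) (nat_lit 213))))) (XT.nd (nat_lit 156) (nat_lit 76) (nat_lit 0) (XT.nd (nat_lit 78) (nat_lit 76) (nat_lit 0) (XT.lf (nat_lit 0) (nat_lit 29862449382) (nat_lit 76) (nat_lit 654696113881) (nat_lit 76) (nat_lit 118342825605) (nat_lit 18) (nat_lit 4) (nat_lit 19) (nat_lit 5) (nat_lit 19) (nat_lit 4) (nat_lit 423) (nat_lit 385) (nat_lit 212)) (XT.lf (nat_lit 0) (nat_lit 61304037372) (nat_lit 152) (nat_lit 408840956127) (nat_lit 76) (nat_lit 379379563474) (nat_lit 17) (nat_lit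 5) (nat_lit 19) (nat_lit 5) (nat_lit 18) (nat_lit 4) (nat_lit 424) (nat_lit 385) (nat_lit 211))) (XT.nd (nat_lit 78) (nat_lit 76) (nat_lit 0) (XT.lf (nat_lit 0) (nat_lit 248929010335) (nat_lit 152) (nat_lit 18581073091) (nat_lit 76) (nat_lit 632121592155) (nat_lit 17) (nat_lit 5) (nat_lit 19) (nat_lit 5) (nat_lit 18) (nat_lit 4) (nat_lit 425) (nat_lit 385) (nat_lit 210)) (XT.nd (nat_lit 78) (nat_lit 0) (nat_lit 0) (XT.lf (nat_lit 0) (nat_lit 424115482703) (nat_lit 76) (nat_lit 37648437258) (nat_lit 152) (nat_lit 491167448622) (nat_lit 16) (nat_lit 5) (nat_lit 17) (nat_lit 5) (nat_lit 18) (nat_lit 4) (nat_lit 426) (nat_lit 385) (nat_lit 209)) (XT.lf (nat_lit 0) (nat_lit 697211795904) (nat_lit 152) (nat_lit 112248183646) (nat_lit 0) (nat_lit 200588163606) (nat_lit 16) (nat_lit 5) (nat_lit 18) (nat_lit 4) (nat_lit 16) (nat_lit 4) (nat_lit 427) (nat_lit 385) (nat_lit 208)))))) (XT.nd (nat_lit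 390) (nat_lit 228) (nat_lit 0) (XT.nd (nat_lit 156) (nat_lit 76) (nat_lit 0) (XT.nd (nat_lit 78) (nat_lit 76) (nat_lit 0) (XT.lf (nat_lit 0) (nat_lit 354395253571) (nat_lit 76) (nat_lit 606601299488) (nat_lit 76) (nat_lit 109977622553) (nat_lit 15) (nat_lit 4) (nat_lit 16) (nat_lit 5) (nat_lit 16) (nat_lit 4) (nat_lit 428) (nat_lit 385) (nat_lit 207)) (XT.lf (nat_lit 0) (nat_lit 106800421685) (nat_lit 152) (nat_lit 274478841159) (nat_lit 76) (nat_lit 755033201513) (nat_lit 14) (nat_lit 5) (nat_lit 16) (nat_lit 5) (nat_lit 15) (nat_lit 4) (nat_lit 429) (nat_lit 385) (nat_lit 206))) (XT.nd (nat_lit 78) (nat_lit 0) (nat_lit 0) (XT.lf (nat_lit 0) (nat_lit 210671233453) (nat_lit 76) (nat_lit 129374434809) (nat_lit 152) (nat_lit 866198294459) (nat_lit 13) (nat_lit 5) (nat_lit 14) (nat_lit 5) (nat_lit 15) (nat_lit 4) (nat_lit 430) (nat_lit 385) (nat_lit 205)) (XT.nd (nat_lit 78) (nat_lit 0) (nat_lit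 0) (XT.lf (nat_lit 0) (nat_lit 603081684081) (nat_lit 152) (nat_lit 534552965255) (nat_lit 0) (nat_lit 143244839667) (nat_lit 13) (nat_lit 5) (nat_lit 15) (nat_lit 4) (nat_lit 13) (nat_lit 4) (nat_lit 431) (nat_lit 385) (nat_lit 204)) (XT.lf (nat_lit 0) (nat_lit 890520918171) (nat_lit 152) (nat_lit 40012068883) (nat_lit 0) (nat_lit 430684043378) (nat_lit 13) (nat_lit 5) (nat_lit 15) (nat_lit 4) (nat_lit 13) (nat_lit 4) (nat_lit 432) (nat_lit 385) (nat_lit 203))))) (XT.nd (nat_lit 156) (nat_lit 76) (nat_lit 0) (XT.nd (nat_lit 78) (nat_lit 76) (nat_lit 0) (XT.lf (nat_lit 0) (nat_lit 520110041572) (nat_lit 76) (nat_lit 693353873311) (nat_lit 76) (nat_lit 233516970389) (nat_lit 12) (nat_lit 4) (nat_lit 13) (nat_lit 5) (nat_lit 13) (nat_lit 4) (nat_lit 433) (nat_lit 385) (nat_lit 202)) (XT.lf (nat_lit 0) (nat_lit 22626514751) (nat_lit 152) (nat_lit 412773778282) (nat_lit 76) (nat_lit 1104072212279)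 (nat_lit 11) (nat_lit 5) (nat_lit 13) (nat_lit 5) (nat_lit 12) (nat_lit 4) (nat_lit 434) (nat_lit 385) (nat_lit 201))) (XT.nd (nat_lit 78) (nat_lit 0) (nat_lit 0) (XT.lf (nat_lit 0) (nat_lit 143567437795) (nat_lit 76) (nat_lit 146530827049) (nat_lit 152) (nat_lit 1348503738616) (nat_lit 10) (nat_lit 5) (nat_lit 11) (nat_lit 5) (nat_lit 12) (nat_lit 4) (nat_lit 435) (nat_lit 385) (nat_lit 200)) (XT.nd (nat_lit 78) (nat_lit 0) (nat_lit 0) (XT.lf (nat_lit 0) (nat_lit 594525864400) (nat_lit 152) (nat_lit 981140461140) (nat_lit 0) (nat_lit 168750887167) (nat_lit 10) (nat_lit 5) (nat_lit 12) (nat_lit 4) (nat_lit 10) (nat_lit 4) (nat_lit 436) (nat_lit 385) (nat_lit 199)) (XT.lf (nat_lit 0) (nat_lit 927113637586) (nat_lit 152) (nat_lit 429940882651) (nat_lit 0) (nat_lit 501338641210) (nat_lit 10) (nat_lit 5) (nat_lit 12) (nat_lit 4) (nat_lit 10) (nat_lit 4) (nat_lit 437) (nat_lit 385) (nat_lit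 198))))))))
noncomputable def xc206 : XT := (XT.nd (nat_lit 49296) (nat_lit 0) (nat_lit 2204) (XT.nd (nat_lit 702) (nat_lit 152) (nat_lit 0) (XT.nd (nat_lit 312) (nat_lit 152) (nat_lit 0) (XT.nd (nat_lit 156) (nat_lit 76) (nat_lit 0) (XT.nd (nat_lit 78) (nat_lit 0) (nat_lit 0) (XT.lf (nat_lit 0) (nat_lit 174061888192) (nat_lit 76) (nat_lit 1116432709401) (nat_lit 76) (nat_lit 690657695299) (nat_lit 9) (nat_lit 4) (nat_lit 10) (nat_lit 5) (nat_lit 10) (nat_lit 4) (nat_lit 438) (nat_lit 385) (nat_lit 197)) (XT.lf (nat_lit 0) (nat_lit 850835946513) (nat_lit 76) (nat_lit 843865406678) (nat_lit 76) (nat_lit 418090376163) (nat_lit 9) (nat_lit 4) (nat_lit 10) (nat_lit 5) (nat_lit 10) (nat_lit 4) (nat_lit 439) (nat_lit 385) (nat_lit 196))) (XT.nd (nat_lit 78) (nat_lit 76) (nat_lit 0) (XT.lf (nat_lit 0) (nat_lit 1581751880289) (nat_lit 76) (nat_lit 549492744074) (nat_lit 76) (nat_lit 123717698363)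 (nat_lit 9) (nat_lit 4) (nat_lit 10) (nat_lit 5) (nat_lit 10) (nat_lit 4) (nat_lit 440) (nat_lit 385) (nat_lit 195)) (XT.lf (nat_lit 0) (nat_lit 184489859716) (nat_lit 152) (nat_lit 42036151572) (nat_lit 76) (nat_lit 2181606903777) (nat_lit 8) (nat_lit 5) (nat_lit 10) (nat_lit 5) (nat_lit 9) (nat_lit 4) (nat_lit 441) (nat_lit 385) (nat_lit 194)))) (XT.nd (nat_lit 156) (nat_lit 76) (nat_lit 0) (XT.nd (nat_lit 78) (nat_lit 0) (nat_lit 0) (XT.lf (nat_lit 0) (nat_lit 530224640374) (nat_lit 152) (nat_lit 1905522609873) (nat_lit 0) (nat_lit 135988461844) (nat_lit 7) (nat_lit 5) (nat_lit 9) (nat_lit 4) (nat_lit 7) (nat_lit 4) (nat_lit 442) (nat_lit 385) (nat_lit 193)) (XT.lf (nat_lit 0) (nat_lit 910681170145) (nat_lit 152) (nat_lit 1320735544959) (nat_lit 0) (nat_lit 516444980445) (nat_lit 7) (nat_lit 5) (nat_lit 9) (nat_lit 4) (nat_lit 7) (nat_lit 4) (nat_lit 443) (nat_lit 385) (nat_lit 192)))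 (XT.nd (nat_lit 78) (nat_lit 76) (nat_lit 0) (XT.lf (nat_lit 0) (nat_lit 1321574202129) (nat_lit 152) (nat_lit 689165555081) (nat_lit 0) (nat_lit 927338002087) (nat_lit 7) (nat_lit 5) (nat_lit 9) (nat_lit 4) (nat_lit 7) (nat_lit 4) (nat_lit 444) (nat_lit 385) (nat_lit 191)) (XT.nd (nat_lit 78) (nat_lit 76) (nat_lit 0) (XT.lf (nat_lit 0) (nat_lit 1765338658000) (nat_lit 152) (nat_lit 7070003264) (nat_lit 0) (nat_lit 1371102448380) (nat_lit 7) (nat_lit 5) (nat_lit 9) (nat_lit 4) (nat_lit 7) (nat_lit 4) (nat_lit 445) (nat_lit 385) (nat_lit 190)) (XT.lf (nat_lit 0) (nat_lit 768012240969) (nat_lit 76) (nat_lit 1495062724945) (nat_lit 76) (nat_lit 1100826506459) (nat_lit 6) (nat_lit 4) (nat_lit 7) (nat_lit 5) (nat_lit 7) (nat_lit 4) (nat_lit 446) (nat_lit 385) (nat_lit 189)))))) (XT.nd (nat_lit 390) (nat_lit 0) (nat_lit 0) (XT.nd (nat_lit 156) (nat_lit 152) (nat_lit 0) (XT.nd (nat_lit 78) (nat_lit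 0) (nat_lit 0) (XT.lf (nat_lit 0) (nat_lit 1605503108475) (nat_lit 76) (nat_lit 1195320359589) (nat_lit 76) (nat_lit 801084132892) (nat_lit 6) (nat_lit 4) (nat_lit 7) (nat_lit 5) (nat_lit 7) (nat_lit 4) (nat_lit 447) (nat_lit 385) (nat_lit 188)) (XT.lf (nat_lit 0) (nat_lit 2509993214254) (nat_lit 76) (nat_lit 871598620558) (nat_lit 76) (nat_lit 477362386259) (nat_lit 6) (nat_lit 4) (nat_lit 7) (nat_lit 5) (nat_lit 7) (nat_lit 4) (nat_lit 448) (nat_lit 385) (nat_lit 187))) (XT.nd (nat_lit 78) (nat_lit 152) (nat_lit 0) (XT.lf (nat_lit 0) (nat_lit 3486842499674) (nat_lit 76) (nat_lit 521979156809) (nat_lit 76) (nat_lit 127742915470) (nat_lit 6) (nat_lit 4) (nat_lit 7) (nat_lit 5) (nat_lit 7) (nat_lit 4) (nat_lit 449) (nat_lit 385) (nat_lit 186)) (XT.nd (nat_lit 78) (nat_lit 0) (nat_lit 0) (XT.lf (nat_lit 0) (nat_lit 104683854985) (nat_lit 76) (nat_lit 135181579072) (nat_lit 152) (nat_lit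 4195836201603) (nat_lit 4) (nat_lit 5) (nat_lit 5) (nat_lit 5) (nat_lit 6) (nat_lit 4) (nat_lit 450) (nat_lit 385) (nat_lit 185)) (XT.lf (nat_lit 0) (nat_lit 655002542390) (nat_lit 152) (nat_lit 3811530986178) (nat_lit 0) (nat_lit 289968973973) (nat_lit 4) (nat_lit 5) (nat_lit 6) (nat_lit 4) (nat_lit 4) (nat_lit 4) (nat_lit 451) (nat_lit 385) (nat_lit 184))))) (XT.nd (nat_lit 47970) (nat_lit 0) (nat_lit 4332) (XT.nd (nat_lit 78) (nat_lit 0) (nat_lit 0) (XT.lf (nat_lit 0) (nat_lit 1106861816598) (nat_lit 152) (nat_lit 3253996483392) (nat_lit 0) (nat_lit 741828243006) (nat_lit 4) (nat_lit 5) (nat_lit 6) (nat_lit 4) (nat_lit 4) (nat_lit 4) (nat_lit 452) (nat_lit 385) (nat_lit 183)) (XT.lf (nat_lit 0) (nat_lit 1594869821040) (nat_lit 152) (nat_lit 2651859243928) (nat_lit 0) (nat_lit 1229836242657) (nat_lit 4) (nat_lit 5) (nat_lit 6) (nat_lit 4) (nat_lit 4) (nat_lit 4) (nat_lit 453) (nat_lit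 385) (nat_lit 182))) (XT.nd (nat_lit 78) (nat_lit 0) (nat_lit 0) (XT.lf (nat_lit 0) (nat_lit 59397122303) (nat_lit 532) (nat_lit 5374435774) (nat_lit 532) (nat_lit 5374435774) (nat_lit 61) (nat_lit 3) (nat_lit 68) (nat_lit 3) (nat_lit 68) (nat_lit 5) (nat_lit 386) (nat_lit 386) (nat_lit 248)) (XT.nd (nat_lit 78) (nat_lit 0) (nat_lit 76) (XT.lf (nat_lit 76) (nat_lit 59874248168) (nat_lit 0) (nat_lit 65114844331) (nat_lit 532) (nat_lit 20799124678) (nat_lit 62) (nat_lit 5) (nat_lit 61) (nat_lit 3) (nat_lit 68) (nat_lit 5) (nat_lit 387) (nat_lit 386) (nat_lit 247)) (XT.lf (nat_lit 0) (nat_lit 132088191865) (nat_lit 456) (nat_lit 15057405274) (nat_lit 532) (nat_lit 4545855155) (nat_lit 62) (nat_lit 5) (nat_lit 68) (nat_lit 5) (nat_lit 69) (nat_lit 5) (nat_lit 388) (nat_lit 386) (nat_lit 246))))))) (XT.nd (nat_lit 780) (nat_lit 988) (nat_lit 0) (XT.nd (nat_lit 390) (nat_lit 760) (nat_lit 0)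 (XT.nd (nat_lit 156) (nat_lit 456) (nat_lit 0) (XT.nd (nat_lit 78) (nat_lit 0) (nat_lit 0) (XT.lf (nat_lit 76) (nat_lit 62923907397) (nat_lit 0) (nat_lit 80035639799) (nat_lit 532) (nat_lit 14851053134) (nat_lit 63) (nat_lit 5) (nat_lit 62) (nat_lit 5) (nat_lit 69) (nat_lit 5) (nat_lit 389) (nat_lit 386) (nat_lit 245)) (XT.lf (nat_lit 76) (nat_lit 147999867681) (nat_lit 0) (nat_lit 7112168175) (nat_lit 532) (nat_lit 9274330686) (nat_lit 63) (nat_lit 5) (nat_lit 62) (nat_lit 5) (nat_lit 69) (nat_lit 5) (nat_lit 390) (nat_lit 386) (nat_lit 244))) (XT.nd (nat_lit 78) (nat_lit 0) (nat_lit 0) (XT.lf (nat_lit 0) (nat_lit 410448589) (nat_lit 532) (nat_lit 101044535056) (nat_lit 608) (nat_lit 69759525135) (nat_lit 56) (nat_lit 5) (nat_lit 63) (nat_lit 5) (nat_lit 64) (nat_lit 5) (nat_lit 391) (nat_lit 386) (nat_lit 243)) (XT.nd (nat_lit 78) (nat_lit 0) (nat_lit 76) (XT.lf (nat_lit 0) (nat_lit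 11013118614) (nat_lit 532) (nat_lit 14407643369) (nat_lit 608) (nat_lit 153097336283) (nat_lit 56) (nat_lit 5) (nat_lit 63) (nat_lit 5) (nat_lit 64) (nat_lit 5) (nat_lit 392) (nat_lit 386) (nat_lit 242)) (XT.lf (nat_lit 0) (nat_lit 25883428463) (nat_lit 532) (nat_lit 104332829476) (nat_lit 76) (nat_lit 55916163113) (nat_lit 57) (nat_lit 5) (nat_lit 64) (nat_lit 5) (nat_lit 58) (nat_lit 5) (nat_lit 393) (nat_lit 386) (nat_lit 241))))) (XT.nd (nat_lit 156) (nat_lit 456) (nat_lit 0) (XT.nd (nat_lit 78) (nat_lit 380) (nat_lit 0) (XT.lf (nat_lit 0) (nat_lit 43007594194) (nat_lit 532) (nat_lit 8472306133) (nat_lit 76) (nat_lit 142790851067) (nat_lit 57) (nat_lit 5) (nat_lit 64) (nat_lit 5) (nat_lit 58) (nat_lit 5) (nat_lit 394) (nat_lit 386) (nat_lit 240)) (XT.lf (nat_lit 0) (nat_lit 64777515208) (nat_lit 456) (nat_lit 103674757672) (nat_lit 76) (nat_lit 34345809725) (nat_lit 52) (nat_lit 5)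 (nat_lit 58) (nat_lit 5) (nat_lit 53) (nat_lit 5) (nat_lit 395) (nat_lit 386) (nat_lit 239))) (XT.nd (nat_lit 78) (nat_lit 228) (nat_lit 0) (XT.lf (nat_lit 0) (nat_lit 2606395129) (nat_lit 228) (nat_lit 87319938550) (nat_lit 304) (nat_lit 121950282523) (nat_lit 49) (nat_lit 5) (nat_lit 52) (nat_lit 5) (nat_lit 53) (nat_lit 5) (nat_lit 396) (nat_lit 386) (nat_lit 238)) (XT.nd (nat_lit 78) (nat_lit 228) (nat_lit 0) (XT.lf (nat_lit 0) (nat_lit 120002446993) (nat_lit 304) (nat_lit 98249663629) (nat_lit 76) (nat_lit 3196090891) (nat_lit 49) (nat_lit 5) (nat_lit 53) (nat_lit 5) (nat_lit 50) (nat_lit 5) (nat_lit 397) (nat_lit 386) (nat_lit 237)) (XT.lf (nat_lit 0) (nat_lit 20405041322) (nat_lit 228) (nat_lit 134838236905) (nat_lit 304) (nat_lit 76321545276) (nat_lit 46) (nat_lit 5) (nat_lit 49) (nat_lit 5) (nat_lit 50) (nat_lit 5) (nat_lit 398) (nat_lit 386) (nat_lit 236)))))) (XT.nd (nat_lit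 390) (nat_lit 532) (nat_lit 0) (XT.nd (nat_lit 156) (nat_lit 304) (nat_lit 0) (XT.nd (nat_lit 78) (nat_lit 152) (nat_lit 0) (XT.lf (nat_lit 0) (nat_lit 154139483352) (nat_lit 228) (nat_lit 41850056942) (nat_lit 304) (nat_lit 46286341962) (nat_lit 46) (nat_lit 5) (nat_lit 49) (nat_lit 5) (nat_lit 50) (nat_lit 5) (nat_lit 399) (nat_lit 386) (nat_lit 235)) (XT.lf (nat_lit 0) (nat_lit 45601039095) (nat_lit 152) (nat_lit 196899808136) (nat_lit 228) (nat_lit 11142551104) (nat_lit 44) (nat_lit 5) (nat_lit 46) (nat_lit 5) (nat_lit 47) (nat_lit 5) (nat_lit 400) (nat_lit 386) (nat_lit 234))) (XT.nd (nat_lit 78) (nat_lit 228) (nat_lit 0) (XT.lf (nat_lit 0) (nat_lit 29030731203) (nat_lit 228) (nat_lit 72472303027) (nat_lit 76) (nat_lit 164080952208) (nat_lit 43) (nat_lit 5) (nat_lit 46) (nat_lit 5) (nat_lit 44) (nat_lit 5) (nat_lit 401) (nat_lit 386) (nat_lit 233)) (XT.nd (nat_lit 78) (nat_lit 0)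 (nat_lit 0) (XT.lf (nat_lit 0) (nat_lit 73773046616) (nat_lit 304) (nat_lit 200867897042) (nat_lit 76) (nat_lit 3659152072) (nat_lit 40) (nat_lit 5) (nat_lit 44) (nat_lit 5) (nat_lit 41) (nat_lit 5) (nat_lit 402) (nat_lit 386) (nat_lit 232)) (XT.lf (nat_lit 0) (nat_lit 126764052264) (nat_lit 304) (nat_lit 51112434152) (nat_lit 76) (nat_lit 113783463051) (nat_lit 40) (nat_lit 5) (nat_lit 44) (nat_lit 5) (nat_lit 41) (nat_lit 5) (nat_lit 403) (nat_lit 386) (nat_lit 231))))) (XT.nd (nat_lit 156) (nat_lit 380) (nat_lit 0) (XT.nd (nat_lit 78) (nat_lit 0) (nat_lit 0) (XT.lf (nat_lit 0) (nat_lit 116448529710) (nat_lit 152) (nat_lit 70346281253) (nat_lit 228) (nat_lit 119069742827) (nat_lit 38) (nat_lit 5) (nat_lit 40) (nat_lit 5) (nat_lit 41) (nat_lit 5) (nat_lit 404) (nat_lit 386) (nat_lit 230)) (XT.lf (nat_lit 0) (nat_lit 254162882705) (nat_lit 228) (nat_lit 21910174369) (nat_lit 76) (nat_lit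 44929681287) (nat_lit 38) (nat_lit 5) (nat_lit 41) (nat_lit 5) (nat_lit 39) (nat_lit 5) (nat_lit 405) (nat_lit 386) (nat_lit 229))) (XT.nd (nat_lit 78) (nat_lit 228) (nat_lit 0) (XT.lf (nat_lit 0) (nat_lit 165445043725) (nat_lit 152) (nat_lit 167281384699) (nat_lit 228) (nat_lit 4161067094) (nat_lit 36) (nat_lit 5) (nat_lit 38) (nat_lit 5) (nat_lit 39) (nat_lit 5) (nat_lit 406) (nat_lit 386) (nat_lit 228)) (XT.nd (nat_lit 78) (nat_lit 0) (nat_lit 0) (XT.lf (nat_lit 0) (nat_lit 14206632362) (nat_lit 152) (nat_lit 47103452235) (nat_lit 228) (nat_lit 292534217846) (nat_lit 33) (nat_lit 5) (nat_lit 35) (nat_lit 5) (nat_lit 36) (nat_lit 5) (nat_lit 407) (nat_lit 386) (nat_lit 227)) (XT.lf (nat_lit 0) (nat_lit 138591982105) (nat_lit 228) (nat_lit 149543581869) (nat_lit 76) (nat_lit 83469614888) (nat_lit 33) (nat_lit 5) (nat_lit 36) (nat_lit 5) (nat_lit 34) (nat_lit 5) (nat_lit 408) (nat_lit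 386) (nat_lit 226))))))))
noncomputable def xc207 : XT := (XT.nd (nat_lit 1482) (nat_lit 760) (nat_lit 0) (XT.nd (nat_lit 702) (nat_lit 532) (nat_lit 0) (XT.nd (nat_lit 312) (nat_lit 456) (nat_lit 0) (XT.nd (nat_lit 156) (nat_lit 152) (nat_lit 0) (XT.nd (nat_lit 78) (nat_lit 0) (nat_lit 0) (XT.lf (nat_lit 0) (nat_lit 57406105756) (nat_lit 152) (nat_lit 167254316701) (nat_lit 228) (nat_lit 165918183715) (nat_lit 31) (nat_lit 5) (nat_lit 33) (nat_lit 5) (nat_lit 34) (nat_lit 5) (nat_lit 409) (nat_lit 386) (nat_lit 225)) (XT.lf (nat_lit 0) (nat_lit 289416300871) (nat_lit 152) (nat_lit 32286733709) (nat_lit 228) (nat_lit 89039777417) (nat_lit 31) (nat_lit 5) (nat_lit 33) (nat_lit 5) (nat_lit 34) (nat_lit 5) (nat_lit 410) (nat_lit 386) (nat_lit 224))) (XT.nd (nat_lit 78) (nat_lit 76) (nat_lit 0) (XT.lf (nat_lit 0) (nat_lit 110253174410) (nat_lit 76) (nat_lit 321636543019) (nat_lit 152) (nat_lit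 199983971) (nat_lit 30) (nat_lit 5) (nat_lit 31) (nat_lit 5) (nat_lit 32) (nat_lit 4) (nat_lit 411) (nat_lit 386) (nat_lit 223)) (XT.lf (nat_lit 0) (nat_lit 95199318361) (nat_lit 152) (nat_lit 90847414903) (nat_lit 76) (nat_lit 268574033114) (nat_lit 29) (nat_lit 5) (nat_lit 31) (nat_lit 5) (nat_lit 30) (nat_lit 5) (nat_lit 412) (nat_lit 386) (nat_lit 222)))) (XT.nd (nat_lit 156) (nat_lit 304) (nat_lit 0) (XT.nd (nat_lit 78) (nat_lit 0) (nat_lit 0) (XT.lf (nat_lit 0) (nat_lit 166967914000) (nat_lit 152) (nat_lit 35267351427) (nat_lit 228) (nat_lit 276397395228) (nat_lit 27) (nat_lit 5) (nat_lit 29) (nat_lit 5) (nat_lit 30) (nat_lit 5) (nat_lit 413) (nat_lit 386) (nat_lit 221)) (XT.lf (nat_lit 0) (nat_lit 323450626166) (nat_lit 228) (nat_lit 56924565072) (nat_lit 76) (nat_lit 123740992239) (nat_lit 27) (nat_lit 5) (nat_lit 30) (nat_lit 5) (nat_lit 28) (nat_lit 4) (nat_lit 414) (nat_lit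 386) (nat_lit 220))) (XT.nd (nat_lit 78) (nat_lit 228) (nat_lit 0) (XT.lf (nat_lit 0) (nat_lit 228720185013) (nat_lit 76) (nat_lit 232059721444) (nat_lit 152) (nat_lit 70345146448) (nat_lit 26) (nat_lit 5) (nat_lit 27) (nat_lit 5) (nat_lit 28) (nat_lit 4) (nat_lit 415) (nat_lit 386) (nat_lit 219)) (XT.nd (nat_lit 78) (nat_lit 152) (nat_lit 0) (XT.lf (nat_lit 0) (nat_lit 47956453924) (nat_lit 152) (nat_lit 20930463596) (nat_lit 76) (nat_lit 491186079365) (nat_lit 25) (nat_lit 5) (nat_lit 27) (nat_lit 5) (nat_lit 26) (nat_lit 5) (nat_lit 416) (nat_lit 386) (nat_lit 218)) (XT.lf (nat_lit 0) (nat_lit 181855428174) (nat_lit 228) (nat_lit 297390980804) (nat_lit 76) (nat_lit 111149498826) (nat_lit 23) (nat_lit 5) (nat_lit 26) (nat_lit 5) (nat_lit 24) (nat_lit 4) (nat_lit 417) (nat_lit 386) (nat_lit 217)))))) (XT.nd (nat_lit 390) (nat_lit 228) (nat_lit 0) (XT.nd (nat_lit 156) (nat_lit 228) (nat_lit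 0) (XT.nd (nat_lit 78) (nat_lit 0) (nat_lit 0) (XT.lf (nat_lit 0) (nat_lit 8781659014) (nat_lit 76) (nat_lit 320272207728) (nat_lit 152) (nat_lit 293883781172) (nat_lit 22) (nat_lit 5) (nat_lit 23) (nat_lit 5) (nat_lit 24) (nat_lit 4) (nat_lit 418) (nat_lit 386) (nat_lit 216)) (XT.lf (nat_lit 0) (nat_lit 356360887907) (nat_lit 76) (nat_lit 139798427377) (nat_lit 152) (nat_lit 161272921178) (nat_lit 22) (nat_lit 5) (nat_lit 23) (nat_lit 5) (nat_lit 24) (nat_lit 4) (nat_lit 419) (nat_lit 386) (nat_lit 215))) (XT.nd (nat_lit 78) (nat_lit 152) (nat_lit 0) (XT.lf (nat_lit 0) (nat_lit 37616196400) (nat_lit 76) (nat_lit 641247090774) (nat_lit 76) (nat_lit 15644697947) (nat_lit 21) (nat_lit 4) (nat_lit 22) (nat_lit 5) (nat_lit 22) (nat_lit 4) (nat_lit 420) (nat_lit 386) (nat_lit 214)) (XT.nd (nat_lit 78) (nat_lit 76) (nat_lit 0) (XT.lf (nat_lit 0) (nat_lit 146625395756) (nat_lit 152) (nat_lit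 320621652272) (nat_lit 76) (nat_lit 266064105348) (nat_lit 20) (nat_lit 5) (nat_lit 22) (nat_lit 5) (nat_lit 21) (nat_lit 4) (nat_lit 421) (nat_lit 386) (nat_lit 213)) (XT.lf (nat_lit 0) (nat_lit 44362850259) (nat_lit 76) (nat_lit 277735900799) (nat_lit 152) (nat_lit 453001965653) (nat_lit 19) (nat_lit 5) (nat_lit 20) (nat_lit 5) (nat_lit 21) (nat_lit 4) (nat_lit 422) (nat_lit 386) (nat_lit 212))))) (XT.nd (nat_lit 156) (nat_lit 152) (nat_lit 0) (XT.nd (nat_lit 78) (nat_lit 76) (nat_lit 0) (XT.lf (nat_lit 0) (nat_lit 456780054463) (nat_lit 76) (nat_lit 63596232671) (nat_lit 152) (nat_lit 299155853010) (nat_lit 19) (nat_lit 5) (nat_lit 20) (nat_lit 5) (nat_lit 21) (nat_lit 4) (nat_lit 423) (nat_lit 386) (nat_lit 211)) (XT.lf (nat_lit 0) (nat_lit 32253329598) (nat_lit 76) (nat_lit 707070919265) (nat_lit 76) (nat_lit 127809170781) (nat_lit 18) (nat_lit 4) (nat_lit 19) (nat_lit 5) (nat_lit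 19) (nat_lit 4) (nat_lit 424) (nat_lit 386) (nat_lit 210))) (XT.nd (nat_lit 78) (nat_lit 76) (nat_lit 0) (XT.lf (nat_lit 0) (nat_lit 66209311105) (nat_lit 152) (nat_lit 441546437613) (nat_lit 76) (nat_lit 409730696504) (nat_lit 17) (nat_lit 5) (nat_lit 19) (nat_lit 5) (nat_lit 18) (nat_lit 4) (nat_lit 425) (nat_lit 386) (nat_lit 209)) (XT.nd (nat_lit 78) (nat_lit 76) (nat_lit 0) (XT.lf (nat_lit 0) (nat_lit 268844211480) (nat_lit 152) (nat_lit 20065896897) (nat_lit 76) (nat_lit 682692030593) (nat_lit 17) (nat_lit 5) (nat_lit 19) (nat_lit 5) (nat_lit 18) (nat_lit 4) (nat_lit 426) (nat_lit 386) (nat_lit 208)) (XT.lf (nat_lit 0) (nat_lit 458046341283) (nat_lit 76) (nat_lit 40659546344) (nat_lit 152) (nat_lit 530459921903) (nat_lit 16) (nat_lit 5) (nat_lit 17) (nat_lit 5) (nat_lit 18) (nat_lit 4) (nat_lit 427) (nat_lit 386) (nat_lit 207))))))) (XT.nd (nat_lit 780) (nat_lit 304) (nat_lit 0)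 (XT.nd (nat_lit 390) (nat_lit 228) (nat_lit 0) (XT.nd (nat_lit 156) (nat_lit 152) (nat_lit 0) (XT.nd (nat_lit 78) (nat_lit 76) (nat_lit 0) (XT.lf (nat_lit 0) (nat_lit 752989547437) (nat_lit 152) (nat_lit 121226491963) (nat_lit 0) (nat_lit 216635890381) (nat_lit 16) (nat_lit 5) (nat_lit 18) (nat_lit 4) (nat_lit 16) (nat_lit 4) (nat_lit 428) (nat_lit 386) (nat_lit 206)) (XT.lf (nat_lit 0) (nat_lit 382748381082) (nat_lit 76) (nat_lit 655128680489) (nat_lit 76) (nat_lit 118774985165) (nat_lit 15) (nat_lit 4) (nat_lit 16) (nat_lit 5) (nat_lit 16) (nat_lit 4) (nat_lit 429) (nat_lit 386) (nat_lit 205))) (XT.nd (nat_lit 78) (nat_lit 76) (nat_lit 0) (XT.lf (nat_lit 0) (nat_lit 115345200617) (nat_lit 152) (nat_lit 296435713474) (nat_lit 76) (nat_lit 815436487641) (nat_lit 14) (nat_lit 5) (nat_lit 16) (nat_lit 5) (nat_lit 15) (nat_lit 4) (nat_lit 430) (nat_lit 386) (nat_lit 204)) (XT.nd (nat_lit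 78) (nat_lit 0) (nat_lit 0) (XT.lf (nat_lit 0) (nat_lit 227526330779) (nat_lit 76) (nat_lit 139723714579) (nat_lit 152) (nat_lit 935493376344) (nat_lit 13) (nat_lit 5) (nat_lit 14) (nat_lit 5) (nat_lit 15) (nat_lit 4) (nat_lit 431) (nat_lit 386) (nat_lit 203)) (XT.lf (nat_lit 0) (nat_lit 651328903871) (nat_lit 152) (nat_lit 577315868723) (nat_lit 0) (nat_lit 154705020588) (nat_lit 13) (nat_lit 5) (nat_lit 15) (nat_lit 4) (nat_lit 13) (nat_lit 4) (nat_lit 432) (nat_lit 386) (nat_lit 202))))) (XT.nd (nat_lit 156) (nat_lit 152) (nat_lit 0) (XT.nd (nat_lit 78) (nat_lit 76) (nat_lit 0) (XT.lf (nat_lit 0) (nat_lit 961763225943) (nat_lit 152) (nat_lit 43211799438) (nat_lit 0) (nat_lit 465139316615) (nat_lit 13) (nat_lit 5) (nat_lit 15) (nat_lit 4) (nat_lit 13) (nat_lit 4) (nat_lit 433) (nat_lit 386) (nat_lit 201)) (XT.lf (nat_lit 0) (nat_lit 561720048588) (nat_lit 76) (nat_lit 748821595766) (nat_lit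 76) (nat_lit 252197662322) (nat_lit 12) (nat_lit 4) (nat_lit 13) (nat_lit 5) (nat_lit 13) (nat_lit 4) (nat_lit 434) (nat_lit 386) (nat_lit 200))) (XT.nd (nat_lit 78) (nat_lit 76) (nat_lit 0) (XT.lf (nat_lit 0) (nat_lit 24437221485) (nat_lit 152) (nat_lit 445794535083) (nat_lit 76) (nat_lit 1192398502226) (nat_lit 11) (nat_lit 5) (nat_lit 13) (nat_lit 5) (nat_lit 12) (nat_lit 4) (nat_lit 435) (nat_lit 386) (nat_lit 199)) (XT.nd (nat_lit 78) (nat_lit 0) (nat_lit 0) (XT.lf (nat_lit 0) (nat_lit 155053949282) (nat_lit 76) (nat_lit 158252745780) (nat_lit 152) (nat_lit 1456383423060) (nat_lit 10) (nat_lit 5) (nat_lit 11) (nat_lit 5) (nat_lit 12) (nat_lit 4) (nat_lit 436) (nat_lit 386) (nat_lit 198)) (XT.lf (nat_lit 0) (nat_lit 642088472623) (nat_lit 152) (nat_lit 1059630634224) (nat_lit 0) (nat_lit 182251439667) (nat_lit 10) (nat_lit 5) (nat_lit 12) (nat_lit 4) (nat_lit 10) (nat_lit 4) (nat_lit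 437) (nat_lit 386) (nat_lit 197)))))) (XT.nd (nat_lit 390) (nat_lit 152) (nat_lit 0) (XT.nd (nat_lit 156) (nat_lit 76) (nat_lit 0) (XT.nd (nat_lit 78) (nat_lit 76) (nat_lit 0) (XT.lf (nat_lit 0) (nat_lit 1001283227733) (nat_lit 152) (nat_lit 464335168256) (nat_lit 0) (nat_lit 541446178364) (nat_lit 10) (nat_lit 5) (nat_lit 12) (nat_lit 4) (nat_lit 10) (nat_lit 4) (nat_lit 438) (nat_lit 386) (nat_lit 196)) (XT.lf (nat_lit 0) (nat_lit 187987799317) (nat_lit 76) (nat_lit 1205746851339) (nat_lit 76) (nat_lit 745909786774) (nat_lit 9) (nat_lit 4) (nat_lit 10) (nat_lit 5) (nat_lit 10) (nat_lit 4) (nat_lit 439) (nat_lit 386) (nat_lit 195))) (XT.nd (nat_lit 78) (nat_lit 76) (nat_lit 0) (XT.lf (nat_lit 0) (nat_lit 918903711187) (nat_lit 76) (nat_lit 911374199570) (nat_lit 76) (nat_lit 451537120933) (nat_lit 9) (nat_lit 4) (nat_lit 10) (nat_lit 5) (nat_lit 10) (nat_lit 4) (nat_lit 440) (nat_lit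 386) (nat_lit 194)) (XT.nd (nat_lit 78) (nat_lit 76) (nat_lit 0) (XT.lf (nat_lit 0) (nat_lit 1708292853817) (nat_lit 76) (nat_lit 593451756524) (nat_lit 76) (nat_lit 133614664858) (nat_lit 9) (nat_lit 4) (nat_lit 10) (nat_lit 5) (nat_lit 10) (nat_lit 4) (nat_lit 441) (nat_lit 386) (nat_lit 193)) (XT.lf (nat_lit 0) (nat_lit 199249443766) (nat_lit 152) (nat_lit 45398260695) (nat_lit 76) (nat_lit 2356135812134) (nat_lit 8) (nat_lit 5) (nat_lit 10) (nat_lit 5) (nat_lit 9) (nat_lit 4) (nat_lit 442) (nat_lit 386) (nat_lit 192))))) (XT.nd (nat_lit 156) (nat_lit 76) (nat_lit 0) (XT.nd (nat_lit 78) (nat_lit 0) (nat_lit 0) (XT.lf (nat_lit 0) (nat_lit 572643005062) (nat_lit 152) (nat_lit 2057963633796) (nat_lit 0) (nat_lit 146867898673) (nat_lit 7) (nat_lit 5) (nat_lit 9) (nat_lit 4) (nat_lit 7) (nat_lit 4) (nat_lit 443) (nat_lit 386) (nat_lit 191)) (XT.lf (nat_lit 0) (nat_lit 983536028069) (nat_lit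 152) (nat_lit 1426393661828) (nat_lit 0) (nat_lit 557760912104) (nat_lit 7) (nat_lit 5) (nat_lit 9) (nat_lit 4) (nat_lit 7) (nat_lit 4) (nat_lit 444) (nat_lit 386) (nat_lit 190))) (XT.nd (nat_lit 78) (nat_lit 76) (nat_lit 0) (XT.lf (nat_lit 0) (nat_lit 1427300475627) (nat_lit 152) (nat_lit 744298126592) (nat_lit 0) (nat_lit 1001525350794) (nat_lit 7) (nat_lit 5) (nat_lit 9) (nat_lit 4) (nat_lit 7) (nat_lit 4) (nat_lit 445) (nat_lit 386) (nat_lit 189)) (XT.nd (nat_lit 78) (nat_lit 76) (nat_lit 0) (XT.lf (nat_lit 0) (nat_lit 1906566062979) (nat_lit 152) (nat_lit 7634980473) (nat_lit 0) (nat_lit 1480790929936) (nat_lit 7) (nat_lit 5) (nat_lit 9) (nat_lit 4) (nat_lit 7) (nat_lit 4) (nat_lit 446) (nat_lit 386) (nat_lit 188)) (XT.lf (nat_lit 0) (nat_lit 829453827525) (nat_lit 76) (nat_lit 1614667439471) (nat_lit 76) (nat_lit 1188892298825) (nat_lit 6) (nat_lit 4) (nat_lit 7) (nat_lit 5) (nat_lit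 7) (nat_lit 4) (nat_lit 447) (nat_lit 386) (nat_lit 187))))))))
noncomputable def xc208 : XT := (XT.nd (nat_lit 49374) (nat_lit 0) (nat_lit 1444) (XT.nd (nat_lit 48594) (nat_lit 0) (nat_lit 3192) (XT.nd (nat_lit 312) (nat_lit 0) (nat_lit 0) (XT.nd (nat_lit 156) (nat_lit 152) (nat_lit 0) (XT.nd (nat_lit 78) (nat_lit 0) (nat_lit 0) (XT.lf (nat_lit 0) (nat_lit 1733943919448) (nat_lit 76) (nat_lit 1290945707365) (nat_lit 76) (nat_lit 865170559681) (nat_lit 6) (nat_lit 4) (nat_lit 7) (nat_lit 5) (nat_lit 7) (nat_lit 4) (nat_lit 448) (nat_lit 386) (nat_lit 186)) (XT.lf (nat_lit 0) (nat_lit 2710793192038) (nat_lit 76) (nat_lit 941326250027) (nat_lit 76) (nat_lit 515551095824) (nat_lit 6) (nat_lit 4) (nat_lit 7) (nat_lit 5) (nat_lit 7) (nat_lit 4) (nat_lit 449) (nat_lit 386) (nat_lit 185))) (XT.nd (nat_lit 78) (nat_lit 152) (nat_lit 0) (XT.lf (nat_lit 0) (nat_lit 3765790381725) (nat_lit 76) (nat_lit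 563737248449) (nat_lit 76) (nat_lit 137962088212) (nat_lit 6) (nat_lit 4) (nat_lit 7) (nat_lit 5) (nat_lit 7) (nat_lit 4) (nat_lit 450) (nat_lit 386) (nat_lit 184)) (XT.lf (nat_lit 0) (nat_lit 113059045984) (nat_lit 76) (nat_lit 145995863539) (nat_lit 152) (nat_lit 4531502837707) (nat_lit 4) (nat_lit 5) (nat_lit 5) (nat_lit 5) (nat_lit 6) (nat_lit 4) (nat_lit 451) (nat_lit 386) (nat_lit 183)))) (XT.nd (nat_lit 48048) (nat_lit 0) (nat_lit 4332) (XT.nd (nat_lit 78) (nat_lit 0) (nat_lit 0) (XT.lf (nat_lit 0) (nat_lit 707402974076) (nat_lit 152) (nat_lit 4116453005750) (nat_lit 0) (nat_lit 313166704632) (nat_lit 4) (nat_lit 5) (nat_lit 6) (nat_lit 4) (nat_lit 4) (nat_lit 4) (nat_lit 452) (nat_lit 386) (nat_lit 182)) (XT.lf (nat_lit 0) (nat_lit 1195410973309) (nat_lit 152) (nat_lit 3514315776766) (nat_lit 0) (nat_lit 801174699429) (nat_lit 4) (nat_lit 5) (nat_lit 6) (nat_lit 4) (nat_lit 4)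 (nat_lit 4) (nat_lit 453) (nat_lit 386) (nat_lit 181))) (XT.nd (nat_lit 78) (nat_lit 0) (nat_lit 0) (XT.lf (nat_lit 0) (nat_lit 64151918508) (nat_lit 532) (nat_lit 5802754521) (nat_lit 532) (nat_lit 5802754521) (nat_lit 61) (nat_lit 3) (nat_lit 68) (nat_lit 3) (nat_lit 68) (nat_lit 5) (nat_lit 387) (nat_lit 387) (nat_lit 246)) (XT.nd (nat_lit 78) (nat_lit 0) (nat_lit 76) (XT.lf (nat_lit 76) (nat_lit 64667377411) (nat_lit 0) (nat_lit 70326523675) (nat_lit 532) (nat_lit 22456912124) (nat_lit 62) (nat_lit 5) (nat_lit 61) (nat_lit 3) (nat_lit 68) (nat_lit 5) (nat_lit 388) (nat_lit 387) (nat_lit 245)) (XT.lf (nat_lit 0) (nat_lit 142660452085) (nat_lit 456) (nat_lit 16258561901) (nat_lit 532) (nat_lit 4907331764) (nat_lit 62) (nat_lit 5) (nat_lit 68) (nat_lit 5) (nat_lit 69) (nat_lit 5) (nat_lit 389) (nat_lit 387) (nat_lit 244)))))) (XT.nd (nat_lit 390) (nat_lit 760) (nat_lit 0) (XT.nd (nat_lit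 156) (nat_lit 456) (nat_lit 0) (XT.nd (nat_lit 78) (nat_lit 0) (nat_lit 0) (XT.lf (nat_lit 76) (nat_lit 67961168801) (nat_lit 0) (nat_lit 86440042034) (nat_lit 532) (nat_lit 16033839663) (nat_lit 63) (nat_lit 5) (nat_lit 62) (nat_lit 5) (nat_lit 69) (nat_lit 5) (nat_lit 390) (nat_lit 387) (nat_lit 243)) (XT.lf (nat_lit 76) (nat_lit 159842957848) (nat_lit 0) (nat_lit 7682577787) (nat_lit 532) (nat_lit 10011371844) (nat_lit 63) (nat_lit 5) (nat_lit 62) (nat_lit 5) (nat_lit 69) (nat_lit 5) (nat_lit 391) (nat_lit 387) (nat_lit 242))) (XT.nd (nat_lit 78) (nat_lit 0) (nat_lit 0) (XT.lf (nat_lit 0) (nat_lit 447650664) (nat_lit 532) (nat_lit 109124448308) (nat_lit 608) (nat_lit 75339216557) (nat_lit 56) (nat_lit 5) (nat_lit 63) (nat_lit 5) (nat_lit 64) (nat_lit 5) (nat_lit 392) (nat_lit 387) (nat_lit 241)) (XT.nd (nat_lit 78) (nat_lit 0) (nat_lit 76) (XT.lf (nat_lit 0) (nat_lit 11898210870) (nat_lit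 532) (nat_lit 15556875623) (nat_lit 608) (nat_lit 165344131899) (nat_lit 56) (nat_lit 5) (nat_lit 63) (nat_lit 5) (nat_lit 64) (nat_lit 5) (nat_lit 393) (nat_lit 387) (nat_lit 240)) (XT.lf (nat_lit 0) (nat_lit 27957912536) (nat_lit 532) (nat_lit 112675839653) (nat_lit 76) (nat_lit 60388953768) (nat_lit 57) (nat_lit 5) (nat_lit 64) (nat_lit 5) (nat_lit 58) (nat_lit 5) (nat_lit 394) (nat_lit 387) (nat_lit 239))))) (XT.nd (nat_lit 156) (nat_lit 456) (nat_lit 0) (XT.nd (nat_lit 78) (nat_lit 380) (nat_lit 0) (XT.lf (nat_lit 0) (nat_lit 46451729318) (nat_lit 532) (nat_lit 9146742309) (nat_lit 76) (nat_lit 154213653972) (nat_lit 57) (nat_lit 5) (nat_lit 64) (nat_lit 5) (nat_lit 58) (nat_lit 5) (nat_lit 395) (nat_lit 387) (nat_lit 238)) (XT.lf (nat_lit 0) (nat_lit 69963059246) (nat_lit 456) (nat_lit 111965201779) (nat_lit 76) (nat_lit 37093397339) (nat_lit 52) (nat_lit 5) (nat_lit 58) (nat_lit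 5) (nat_lit 53) (nat_lit 5) (nat_lit 396) (nat_lit 387) (nat_lit 237))) (XT.nd (nat_lit 78) (nat_lit 228) (nat_lit 0) (XT.lf (nat_lit 0) (nat_lit 2818353715) (nat_lit 228) (nat_lit 94305264763) (nat_lit 304) (nat_lit 131702869601) (nat_lit 49) (nat_lit 5) (nat_lit 52) (nat_lit 5) (nat_lit 53) (nat_lit 5) (nat_lit 397) (nat_lit 387) (nat_lit 236)) (XT.nd (nat_lit 78) (nat_lit 228) (nat_lit 0) (XT.lf (nat_lit 0) (nat_lit 129605591429) (nat_lit 304) (nat_lit 106106212712) (nat_lit 76) (nat_lit 3452014663) (nat_lit 49) (nat_lit 5) (nat_lit 53) (nat_lit 5) (nat_lit 50) (nat_lit 5) (nat_lit 398) (nat_lit 387) (nat_lit 235)) (XT.lf (nat_lit 0) (nat_lit 22040781952) (nat_lit 228) (nat_lit 145624769052) (nat_lit 304) (nat_lit 82424230819) (nat_lit 46) (nat_lit 5) (nat_lit 49) (nat_lit 5) (nat_lit 50) (nat_lit 5) (nat_lit 399) (nat_lit 387) (nat_lit 234))))))) (XT.nd (nat_lit 702) (nat_lit 760)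 (nat_lit 0) (XT.nd (nat_lit 312) (nat_lit 532) (nat_lit 0) (XT.nd (nat_lit 156) (nat_lit 304) (nat_lit 0) (XT.nd (nat_lit 78) (nat_lit 152) (nat_lit 0) (XT.lf (nat_lit 0) (nat_lit 166473732135) (nat_lit 228) (nat_lit 45197573715) (nat_lit 304) (nat_lit 49986436283) (nat_lit 46) (nat_lit 5) (nat_lit 49) (nat_lit 5) (nat_lit 50) (nat_lit 5) (nat_lit 400) (nat_lit 387) (nat_lit 233)) (XT.lf (nat_lit 0) (nat_lit 49252328042) (nat_lit 152) (nat_lit 212651084497) (nat_lit 228) (nat_lit 12031255530) (nat_lit 44) (nat_lit 5) (nat_lit 46) (nat_lit 5) (nat_lit 47) (nat_lit 5) (nat_lit 401) (nat_lit 387) (nat_lit 232))) (XT.nd (nat_lit 78) (nat_lit 228) (nat_lit 0) (XT.lf (nat_lit 0) (nat_lit 31355564342) (nat_lit 228) (nat_lit 78266991875) (nat_lit 76) (nat_lit 177207957166) (nat_lit 43) (nat_lit 5) (nat_lit 46) (nat_lit 5) (nat_lit 44) (nat_lit 5) (nat_lit 402) (nat_lit 387) (nat_lit 231)) (XT.lf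 (nat_lit 0) (nat_lit 79677179583) (nat_lit 304) (nat_lit 216934146156) (nat_lit 76) (nat_lit 3952592660) (nat_lit 40) (nat_lit 5) (nat_lit 44) (nat_lit 5) (nat_lit 41) (nat_lit 5) (nat_lit 403) (nat_lit 387) (nat_lit 230)))) (XT.nd (nat_lit 156) (nat_lit 380) (nat_lit 0) (XT.nd (nat_lit 78) (nat_lit 152) (nat_lit 0) (XT.lf (nat_lit 0) (nat_lit 136907296109) (nat_lit 304) (nat_lit 55198481987) (nat_lit 76) (nat_lit 122886796042) (nat_lit 40) (nat_lit 5) (nat_lit 44) (nat_lit 5) (nat_lit 41) (nat_lit 5) (nat_lit 404) (nat_lit 387) (nat_lit 229)) (XT.lf (nat_lit 0) (nat_lit 125767284380) (nat_lit 152) (nat_lit 75973143192) (nat_lit 228) (nat_lit 128593126397) (nat_lit 38) (nat_lit 5) (nat_lit 40) (nat_lit 5) (nat_lit 41) (nat_lit 5) (nat_lit 405) (nat_lit 387) (nat_lit 228))) (XT.nd (nat_lit 78) (nat_lit 380) (nat_lit 0) (XT.lf (nat_lit 0) (nat_lit 274497813271) (nat_lit 228) (nat_lit 23660195540)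 (nat_lit 76) (nat_lit 48524795154) (nat_lit 38) (nat_lit 5) (nat_lit 41) (nat_lit 5) (nat_lit 39) (nat_lit 5) (nat_lit 406) (nat_lit 387) (nat_lit 227)) (XT.nd (nat_lit 78) (nat_lit 228) (nat_lit 0) (XT.lf (nat_lit 0) (nat_lit 178683369299) (nat_lit 152) (nat_lit 180662998079) (nat_lit 228) (nat_lit 4491980448) (nat_lit 36) (nat_lit 5) (nat_lit 38) (nat_lit 5) (nat_lit 39) (nat_lit 5) (nat_lit 407) (nat_lit 387) (nat_lit 226)) (XT.lf (nat_lit 0) (nat_lit 15345913492) (nat_lit 152) (nat_lit 50870778621) (nat_lit 228) (nat_lit 315935009300) (nat_lit 33) (nat_lit 5) (nat_lit 35) (nat_lit 5) (nat_lit 36) (nat_lit 5) (nat_lit 408) (nat_lit 387) (nat_lit 225)))))) (XT.nd (nat_lit 390) (nat_lit 456) (nat_lit 0) (XT.nd (nat_lit 156) (nat_lit 152) (nat_lit 0) (XT.nd (nat_lit 78) (nat_lit 152) (nat_lit 0) (XT.lf (nat_lit 0) (nat_lit 149681029183) (nat_lit 228) (nat_lit 161504408304) (nat_lit 76)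 (nat_lit 90148019524) (nat_lit 33) (nat_lit 5) (nat_lit 36) (nat_lit 5) (nat_lit 34) (nat_lit 5) (nat_lit 409) (nat_lit 387) (nat_lit 224)) (XT.lf (nat_lit 0) (nat_lit 62001186986) (nat_lit 152) (nat_lit 180633695059) (nat_lit 228) (nat_lit 179189881558) (nat_lit 31) (nat_lit 5) (nat_lit 33) (nat_lit 5) (nat_lit 34) (nat_lit 5) (nat_lit 410) (nat_lit 387) (nat_lit 223))) (XT.nd (nat_lit 78) (nat_lit 152) (nat_lit 0) (XT.lf (nat_lit 0) (nat_lit 312572005653) (nat_lit 152) (nat_lit 34868777056) (nat_lit 228) (nat_lit 96161332894) (nat_lit 31) (nat_lit 5) (nat_lit 33) (nat_lit 5) (nat_lit 34) (nat_lit 5) (nat_lit 411) (nat_lit 387) (nat_lit 222)) (XT.nd (nat_lit 78) (nat_lit 76) (nat_lit 0) (XT.lf (nat_lit 0) (nat_lit 119075865592) (nat_lit 76) (nat_lit 347366501639) (nat_lit 152) (nat_lit 214391632) (nat_lit 30) (nat_lit 5) (nat_lit 31) (nat_lit 5) (nat_lit 32) (nat_lit 4) (nat_lit 412)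 (nat_lit 387) (nat_lit 221)) (XT.lf (nat_lit 0) (nat_lit 102816663336) (nat_lit 152) (nat_lit 98112876971) (nat_lit 76) (nat_lit 290060774686) (nat_lit 29) (nat_lit 5) (nat_lit 31) (nat_lit 5) (nat_lit 30) (nat_lit 5) (nat_lit 413) (nat_lit 387) (nat_lit 220))))) (XT.nd (nat_lit 156) (nat_lit 304) (nat_lit 0) (XT.nd (nat_lit 78) (nat_lit 0) (nat_lit 0) (XT.lf (nat_lit 0) (nat_lit 180327619228) (nat_lit 152) (nat_lit 38087817915) (nat_lit 228) (nat_lit 298507727644) (nat_lit 27) (nat_lit 5) (nat_lit 29) (nat_lit 5) (nat_lit 30) (nat_lit 5) (nat_lit 414) (nat_lit 387) (nat_lit 219)) (XT.lf (nat_lit 0) (nat_lit 349327947229) (nat_lit 228) (nat_lit 61476346332) (nat_lit 76) (nat_lit 133641082287) (nat_lit 27) (nat_lit 5) (nat_lit 30) (nat_lit 5) (nat_lit 28) (nat_lit 4) (nat_lit 415) (nat_lit 387) (nat_lit 218))) (XT.nd (nat_lit 78) (nat_lit 228) (nat_lit 0) (XT.lf (nat_lit 0) (nat_lit 247019928471)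 (nat_lit 76) (nat_lit 250623598522) (nat_lit 152) (nat_lit 75971431321) (nat_lit 26) (nat_lit 5) (nat_lit 27) (nat_lit 5) (nat_lit 28) (nat_lit 4) (nat_lit 416) (nat_lit 387) (nat_lit 217)) (XT.nd (nat_lit 78) (nat_lit 152) (nat_lit 0) (XT.lf (nat_lit 0) (nat_lit 51794137339) (nat_lit 152) (nat_lit 22602867748) (nat_lit 76) (nat_lit 530481737680) (nat_lit 25) (nat_lit 5) (nat_lit 27) (nat_lit 5) (nat_lit 26) (nat_lit 5) (nat_lit 417) (nat_lit 387) (nat_lit 216)) (XT.lf (nat_lit 0) (nat_lit 196405011250) (nat_lit 228) (nat_lit 321180207591) (nat_lit 76) (nat_lit 120042269219) (nat_lit 23) (nat_lit 5) (nat_lit 26) (nat_lit 5) (nat_lit 24) (nat_lit 4) (nat_lit 418) (nat_lit 387) (nat_lit 215))))))))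
noncomputable def xc209 : XT := (XT.nd (nat_lit 1482) (nat_lit 456) (nat_lit 0) (XT.nd (nat_lit 702) (nat_lit 532) (nat_lit 0) (XT.nd (nat_lit 312) (nat_lit 228) (nat_lit 0) (XT.nd (nat_lit 156) (nat_lit 152) (nat_lit 0) (XT.nd (nat_lit 78) (nat_lit 0) (nat_lit 0) (XT.lf (nat_lit 0) (nat_lit 9486191471) (nat_lit 76) (nat_lit 345893096427) (nat_lit 152) (nat_lit 317393282473) (nat_lit 22) (nat_lit 5) (nat_lit 23) (nat_lit 5) (nat_lit 24) (nat_lit 4) (nat_lit 419) (nat_lit 387) (nat_lit 214)) (XT.lf (nat_lit 0) (nat_lit 384871610548) (nat_lit 76) (nat_lit 150981479421) (nat_lit 152) (nat_lit 174173642658) (nat_lit 22) (nat_lit 5) (nat_lit 23) (nat_lit 5) (nat_lit 24) (nat_lit 4) (nat_lit 420) (nat_lit 387) (nat_lit 213))) (XT.nd (nat_lit 78) (nat_lit 76) (nat_lit 0) (XT.lf (nat_lit 0) (nat_lit 40627358231) (nat_lit 76) (nat_lit 692546008310) (nat_lit 76) (nat_lit 16895175711) (nat_lit 21)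 (nat_lit 4) (nat_lit 22) (nat_lit 5) (nat_lit 22) (nat_lit 4) (nat_lit 421) (nat_lit 387) (nat_lit 212)) (XT.lf (nat_lit 0) (nat_lit 158356393289) (nat_lit 152) (nat_lit 346269605390) (nat_lit 76) (nat_lit 287349969382) (nat_lit 20) (nat_lit 5) (nat_lit 22) (nat_lit 5) (nat_lit 21) (nat_lit 4) (nat_lit 422) (nat_lit 387) (nat_lit 211)))) (XT.nd (nat_lit 156) (nat_lit 152) (nat_lit 0) (XT.nd (nat_lit 78) (nat_lit 0) (nat_lit 0) (XT.lf (nat_lit 0) (nat_lit 47913612304) (nat_lit 76) (nat_lit 299953974869) (nat_lit 152) (nat_lit 489241111702) (nat_lit 19) (nat_lit 5) (nat_lit 20) (nat_lit 5) (nat_lit 21) (nat_lit 4) (nat_lit 423) (nat_lit 387) (nat_lit 210)) (XT.lf (nat_lit 0) (nat_lit 493324064398) (nat_lit 76) (nat_lit 68683192401) (nat_lit 152) (nat_lit 323087384951) (nat_lit 19) (nat_lit 5) (nat_lit 20) (nat_lit 5) (nat_lit 21) (nat_lit 4) (nat_lit 424) (nat_lit 387) (nat_lit 209))) (XT.nd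 (nat_lit 78) (nat_lit 76) (nat_lit 0) (XT.lf (nat_lit 0) (nat_lit 34835211419) (nat_lit 76) (nat_lit 763635835152) (nat_lit 76) (nat_lit 138032977769) (nat_lit 18) (nat_lit 4) (nat_lit 19) (nat_lit 5) (nat_lit 19) (nat_lit 4) (nat_lit 425) (nat_lit 387) (nat_lit 208)) (XT.nd (nat_lit 78) (nat_lit 0) (nat_lit 0) (XT.lf (nat_lit 0) (nat_lit 71506871103) (nat_lit 152) (nat_lit 476868613695) (nat_lit 76) (nat_lit 442509810619) (nat_lit 17) (nat_lit 5) (nat_lit 19) (nat_lit 5) (nat_lit 18) (nat_lit 4) (nat_lit 426) (nat_lit 387) (nat_lit 207)) (XT.lf (nat_lit 0) (nat_lit 290352503129) (nat_lit 152) (nat_lit 21669743717) (nat_lit 76) (nat_lit 737308002665) (nat_lit 17) (nat_lit 5) (nat_lit 19) (nat_lit 5) (nat_lit 18) (nat_lit 4) (nat_lit 427) (nat_lit 387) (nat_lit 206)))))) (XT.nd (nat_lit 390) (nat_lit 228) (nat_lit 0) (XT.nd (nat_lit 156) (nat_lit 228) (nat_lit 0) (XT.nd (nat_lit 78) (nat_lit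 0) (nat_lit 0) (XT.lf (nat_lit 0) (nat_lit 494691437444) (nat_lit 76) (nat_lit 43911653421) (nat_lit 152) (nat_lit 572895924666) (nat_lit 16) (nat_lit 5) (nat_lit 17) (nat_lit 5) (nat_lit 18) (nat_lit 4) (nat_lit 428) (nat_lit 387) (nat_lit 205)) (XT.lf (nat_lit 0) (nat_lit 813229403842) (nat_lit 152) (nat_lit 130923285553) (nat_lit 0) (nat_lit 233967339189) (nat_lit 16) (nat_lit 5) (nat_lit 18) (nat_lit 4) (nat_lit 16) (nat_lit 4) (nat_lit 429) (nat_lit 387) (nat_lit 204))) (XT.nd (nat_lit 78) (nat_lit 152) (nat_lit 0) (XT.lf (nat_lit 0) (nat_lit 413369543772) (nat_lit 76) (nat_lit 707538355108) (nat_lit 76) (nat_lit 128276257646) (nat_lit 15) (nat_lit 4) (nat_lit 16) (nat_lit 5) (nat_lit 16) (nat_lit 4) (nat_lit 430) (nat_lit 387) (nat_lit 203)) (XT.nd (nat_lit 78) (nat_lit 76) (nat_lit 0) (XT.lf (nat_lit 0) (nat_lit 124573455553) (nat_lit 152) (nat_lit 320149340290) (nat_lit 76) (nat_lit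 880671946782) (nat_lit 14) (nat_lit 5) (nat_lit 16) (nat_lit 5) (nat_lit 15) (nat_lit 4) (nat_lit 431) (nat_lit 387) (nat_lit 202)) (XT.lf (nat_lit 0) (nat_lit 245729636358) (nat_lit 76) (nat_lit 150901033030) (nat_lit 152) (nat_lit 1010332176295) (nat_lit 13) (nat_lit 5) (nat_lit 14) (nat_lit 5) (nat_lit 15) (nat_lit 4) (nat_lit 432) (nat_lit 387) (nat_lit 201))))) (XT.nd (nat_lit 156) (nat_lit 228) (nat_lit 0) (XT.nd (nat_lit 78) (nat_lit 0) (nat_lit 0) (XT.lf (nat_lit 0) (nat_lit 703435803513) (nat_lit 152) (nat_lit 623499994744) (nat_lit 0) (nat_lit 167081931277) (nat_lit 13) (nat_lit 5) (nat_lit 15) (nat_lit 4) (nat_lit 13) (nat_lit 4) (nat_lit 433) (nat_lit 387) (nat_lit 200)) (XT.lf (nat_lit 0) (nat_lit 1038704827845) (nat_lit 152) (nat_lit 46667684618) (nat_lit 0) (nat_lit 502350933280) (nat_lit 13) (nat_lit 5) (nat_lit 15) (nat_lit 4) (nat_lit 13) (nat_lit 4) (nat_lit 434) (nat_lit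 387) (nat_lit 199))) (XT.nd (nat_lit 78) (nat_lit 152) (nat_lit 0) (XT.lf (nat_lit 0) (nat_lit 606658684446) (nat_lit 76) (nat_lit 808726819818) (nat_lit 76) (nat_lit 272372904578) (nat_lit 12) (nat_lit 4) (nat_lit 13) (nat_lit 5) (nat_lit 13) (nat_lit 4) (nat_lit 435) (nat_lit 387) (nat_lit 198)) (XT.nd (nat_lit 78) (nat_lit 76) (nat_lit 0) (XT.lf (nat_lit 0) (nat_lit 26392701222) (nat_lit 152) (nat_lit 481457115840) (nat_lit 76) (nat_lit 1287790822188) (nat_lit 11) (nat_lit 5) (nat_lit 13) (nat_lit 5) (nat_lit 12) (nat_lit 4) (nat_lit 436) (nat_lit 387) (nat_lit 197)) (XT.lf (nat_lit 0) (nat_lit 167459222412) (nat_lit 76) (nat_lit 170912496107) (nat_lit 152) (nat_lit 1572893569946) (nat_lit 10) (nat_lit 5) (nat_lit 11) (nat_lit 5) (nat_lit 12) (nat_lit 4) (nat_lit 437) (nat_lit 387) (nat_lit 196))))))) (XT.nd (nat_lit 780) (nat_lit 228) (nat_lit 0) (XT.nd (nat_lit 390) (nat_lit 152)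 (nat_lit 0) (XT.nd (nat_lit 156) (nat_lit 76) (nat_lit 0) (XT.nd (nat_lit 78) (nat_lit 0) (nat_lit 0) (XT.lf (nat_lit 0) (nat_lit 693456012599) (nat_lit 152) (nat_lit 1144400172919) (nat_lit 0) (nat_lit 196831967671) (nat_lit 10) (nat_lit 5) (nat_lit 12) (nat_lit 4) (nat_lit 10) (nat_lit 4) (nat_lit 438) (nat_lit 387) (nat_lit 195)) (XT.lf (nat_lit 0) (nat_lit 1081386313883) (nat_lit 152) (nat_lit 501481137232) (nat_lit 0) (nat_lit 584762254884) (nat_lit 10) (nat_lit 5) (nat_lit 12) (nat_lit 4) (nat_lit 10) (nat_lit 4) (nat_lit 439) (nat_lit 387) (nat_lit 194))) (XT.nd (nat_lit 78) (nat_lit 0) (nat_lit 0) (XT.lf (nat_lit 0) (nat_lit 203027646367) (nat_lit 76) (nat_lit 1302206192370) (nat_lit 76) (nat_lit 805582120342) (nat_lit 9) (nat_lit 4) (nat_lit 10) (nat_lit 5) (nat_lit 10) (nat_lit 4) (nat_lit 440) (nat_lit 387) (nat_lit 193)) (XT.nd (nat_lit 78) (nat_lit 0) (nat_lit 0) (XT.lf (nat_lit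 0) (nat_lit 992416770217) (nat_lit 76) (nat_lit 984283758613) (nat_lit 76) (nat_lit 487659674521) (nat_lit 9) (nat_lit 4) (nat_lit 10) (nat_lit 5) (nat_lit 10) (nat_lit 4) (nat_lit 441) (nat_lit 387) (nat_lit 192)) (XT.lf (nat_lit 0) (nat_lit 1844956987803) (nat_lit 76) (nat_lit 640927548044) (nat_lit 76) (nat_lit 144303452781) (nat_lit 9) (nat_lit 4) (nat_lit 10) (nat_lit 5) (nat_lit 10) (nat_lit 4) (nat_lit 442) (nat_lit 387) (nat_lit 191))))) (XT.nd (nat_lit 156) (nat_lit 0) (nat_lit 0) (XT.nd (nat_lit 78) (nat_lit 76) (nat_lit 0) (XT.lf (nat_lit 0) (nat_lit 215189738149) (nat_lit 152) (nat_lit 49029450253) (nat_lit 76) (nat_lit 2544626982364) (nat_lit 8) (nat_lit 5) (nat_lit 10) (nat_lit 5) (nat_lit 9) (nat_lit 4) (nat_lit 443) (nat_lit 387) (nat_lit 190)) (XT.lf (nat_lit 0) (nat_lit 618454782794) (nat_lit 152) (nat_lit 2222600051604) (nat_lit 0) (nat_lit 158617639107) (nat_lit 7)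 (nat_lit 5) (nat_lit 9) (nat_lit 4) (nat_lit 7) (nat_lit 4) (nat_lit 444) (nat_lit 387) (nat_lit 189))) (XT.nd (nat_lit 78) (nat_lit 0) (nat_lit 0) (XT.lf (nat_lit 0) (nat_lit 1062219222655) (nat_lit 152) (nat_lit 1540504531722) (nat_lit 0) (nat_lit 602382070758) (nat_lit 7) (nat_lit 5) (nat_lit 9) (nat_lit 4) (nat_lit 7) (nat_lit 4) (nat_lit 445) (nat_lit 387) (nat_lit 188)) (XT.nd (nat_lit 78) (nat_lit 0) (nat_lit 0) (XT.lf (nat_lit 0) (nat_lit 1541484802881) (nat_lit 152) (nat_lit 803841399819) (nat_lit 0) (nat_lit 1081647643381) (nat_lit 7) (nat_lit 5) (nat_lit 9) (nat_lit 4) (nat_lit 7) (nat_lit 4) (nat_lit 446) (nat_lit 387) (nat_lit 187)) (XT.lf (nat_lit 0) (nat_lit 2059091615799) (nat_lit 152) (nat_lit 8245244744) (nat_lit 0) (nat_lit 1599254449260) (nat_lit 7) (nat_lit 5) (nat_lit 9) (nat_lit 4) (nat_lit 7) (nat_lit 4) (nat_lit 447) (nat_lit 387) (nat_lit 186)))))) (XT.nd (nat_lit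 390) (nat_lit 0) (nat_lit 0) (XT.nd (nat_lit 156) (nat_lit 152) (nat_lit 0) (XT.nd (nat_lit 78) (nat_lit 0) (nat_lit 0) (XT.lf (nat_lit 0) (nat_lit 895810654371) (nat_lit 76) (nat_lit 1743840574452) (nat_lit 76) (nat_lit 1284003401396) (nat_lit 6) (nat_lit 4) (nat_lit 7) (nat_lit 5) (nat_lit 7) (nat_lit 4) (nat_lit 448) (nat_lit 387) (nat_lit 185)) (XT.lf (nat_lit 0) (nat_lit 1872659915081) (nat_lit 76) (nat_lit 1394221123050) (nat_lit 76) (nat_lit 934383943959) (nat_lit 6) (nat_lit 4) (nat_lit 7) (nat_lit 5) (nat_lit 7) (nat_lit 4) (nat_lit 449) (nat_lit 387) (nat_lit 184))) (XT.nd (nat_lit 78) (nat_lit 152) (nat_lit 0) (XT.lf (nat_lit 0) (nat_lit 2927657093769) (nat_lit 76) (nat_lit 1016632126970) (nat_lit 76) (nat_lit 556794942290) (nat_lit 6) (nat_lit 4) (nat_lit 7) (nat_lit 5) (nat_lit 7) (nat_lit 4) (nat_lit 450) (nat_lit 387) (nat_lit 183)) (XT.nd (nat_lit 78) (nat_lit 152) (nat_lit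 0) (XT.lf (nat_lit 0) (nat_lit 4067054025567) (nat_lit 76) (nat_lit 608836021789) (nat_lit 76) (nat_lit 148998831936) (nat_lit 6) (nat_lit 4) (nat_lit 7) (nat_lit 5) (nat_lit 7) (nat_lit 4) (nat_lit 451) (nat_lit 387) (nat_lit 182)) (XT.lf (nat_lit 0) (nat_lit 122104183415) (nat_lit 76) (nat_lit 157675325267) (nat_lit 152) (nat_lit 4894022841794) (nat_lit 4) (nat_lit 5) (nat_lit 5) (nat_lit 5) (nat_lit 6) (nat_lit 4) (nat_lit 452) (nat_lit 387) (nat_lit 181))))) (XT.nd (nat_lit 48126) (nat_lit 0) (nat_lit 4332) (XT.nd (nat_lit 48048) (nat_lit 0) (nat_lit 4332) (XT.lf (nat_lit 0) (nat_lit 763995407727) (nat_lit 152) (nat_lit 4445768852416) (nat_lit 0) (nat_lit 338220223394) (nat_lit 4) (nat_lit 5) (nat_lit 6) (nat_lit 4) (nat_lit 4) (nat_lit 4) (nat_lit 453) (nat_lit 387) (nat_lit 180)) (XT.lf (nat_lit 0) (nat_lit 69286666657) (nat_lit 532) (nat_lit 6265572177) (nat_lit 532) (nat_lit 6265572177)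 (nat_lit 61) (nat_lit 3) (nat_lit 68) (nat_lit 3) (nat_lit 68) (nat_lit 5) (nat_lit 388) (nat_lit 388) (nat_lit 244))) (XT.nd (nat_lit 78) (nat_lit 0) (nat_lit 76) (XT.lf (nat_lit 76) (nat_lit 69843501992) (nat_lit 0) (nat_lit 75954781884) (nat_lit 532) (nat_lit 24248198866) (nat_lit 62) (nat_lit 5) (nat_lit 61) (nat_lit 3) (nat_lit 68) (nat_lit 5) (nat_lit 389) (nat_lit 388) (nat_lit 243)) (XT.nd (nat_lit 78) (nat_lit 0) (nat_lit 0) (XT.lf (nat_lit 0) (nat_lit 154077750589) (nat_lit 456) (nat_lit 17556301213) (nat_lit 532) (nat_lit 5298039187) (nat_lit 62) (nat_lit 5) (nat_lit 68) (nat_lit 5) (nat_lit 69) (nat_lit 5) (nat_lit 390) (nat_lit 388) (nat_lit 242)) (XT.lf (nat_lit 76) (nat_lit 73400933372) (nat_lit 0) (nat_lit 93356575173) (nat_lit 532) (nat_lit 17312004894) (nat_lit 63) (nat_lit 5) (nat_lit 62) (nat_lit 5) (nat_lit 69) (nat_lit 5) (nat_lit 391) (nat_lit 388) (nat_lit 241))))))))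
noncomputable def xc210 : XT := (XT.nd (nat_lit 1482) (nat_lit 1292) (nat_lit 0) (XT.nd (nat_lit 702) (nat_lit 988) (nat_lit 0) (XT.nd (nat_lit 312) (nat_lit 760) (nat_lit 0) (XT.nd (nat_lit 156) (nat_lit 0) (nat_lit 0) (XT.nd (nat_lit 78) (nat_lit 456) (nat_lit 0) (XT.lf (nat_lit 76) (nat_lit 172633052871) (nat_lit 0) (nat_lit 8298415284) (nat_lit 532) (nat_lit 10808076089) (nat_lit 63) (nat_lit 5) (nat_lit 62) (nat_lit 5) (nat_lit 69) (nat_lit 5) (nat_lit 392) (nat_lit 388) (nat_lit 240)) (XT.lf (nat_lit 0) (nat_lit 487206019) (nat_lit 532) (nat_lit 117851275269) (nat_lit 608) (nat_lit 81365436024) (nat_lit 56) (nat_lit 5) (nat_lit 63) (nat_lit 5) (nat_lit 64) (nat_lit 5) (nat_lit 393) (nat_lit 388) (nat_lit 239))) (XT.nd (nat_lit 78) (nat_lit 0) (nat_lit 76) (XT.lf (nat_lit 0) (nat_lit 12853533760) (nat_lit 532) (nat_lit 16798528540) (nat_lit 608) (nat_lit 178570812584) (nat_lit 56)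 (nat_lit 5) (nat_lit 63) (nat_lit 5) (nat_lit 64) (nat_lit 5) (nat_lit 394) (nat_lit 388) (nat_lit 238)) (XT.lf (nat_lit 0) (nat_lit 30197811825) (nat_lit 532) (nat_lit 121686806534) (nat_lit 76) (nat_lit 65219639348) (nat_lit 57) (nat_lit 5) (nat_lit 64) (nat_lit 5) (nat_lit 58) (nat_lit 5) (nat_lit 395) (nat_lit 388) (nat_lit 237)))) (XT.nd (nat_lit 156) (nat_lit 456) (nat_lit 0) (XT.nd (nat_lit 78) (nat_lit 380) (nat_lit 0) (XT.lf (nat_lit 0) (nat_lit 50170892003) (nat_lit 532) (nat_lit 9875611053) (nat_lit 76) (nat_lit 166550347474) (nat_lit 57) (nat_lit 5) (nat_lit 64) (nat_lit 5) (nat_lit 58) (nat_lit 5) (nat_lit 396) (nat_lit 388) (nat_lit 236)) (XT.lf (nat_lit 0) (nat_lit 75562969916) (nat_lit 456) (nat_lit 120919385936) (nat_lit 76) (nat_lit 40060802971) (nat_lit 52) (nat_lit 5) (nat_lit 58) (nat_lit 5) (nat_lit 53) (nat_lit 5) (nat_lit 397) (nat_lit 388) (nat_lit 235))) (XT.nd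 (nat_lit 78) (nat_lit 228) (nat_lit 0) (XT.lf (nat_lit 0) (nat_lit 3046777239) (nat_lit 228) (nat_lit 101849455430) (nat_lit 304) (nat_lit 142236153762) (nat_lit 49) (nat_lit 5) (nat_lit 52) (nat_lit 5) (nat_lit 53) (nat_lit 5) (nat_lit 398) (nat_lit 388) (nat_lit 234)) (XT.nd (nat_lit 78) (nat_lit 228) (nat_lit 0) (XT.lf (nat_lit 0) (nat_lit 139976566759) (nat_lit 304) (nat_lit 114591774194) (nat_lit 76) (nat_lit 3728378598) (nat_lit 49) (nat_lit 5) (nat_lit 53) (nat_lit 5) (nat_lit 50) (nat_lit 5) (nat_lit 399) (nat_lit 388) (nat_lit 233)) (XT.lf (nat_lit 0) (nat_lit 23806905725) (nat_lit 228) (nat_lit 157274298926) (nat_lit 304) (nat_lit 89015564622) (nat_lit 46) (nat_lit 5) (nat_lit 49) (nat_lit 5) (nat_lit 50) (nat_lit 5) (nat_lit 400) (nat_lit 388) (nat_lit 232)))))) (XT.nd (nat_lit 390) (nat_lit 532) (nat_lit 0) (XT.nd (nat_lit 156) (nat_lit 304) (nat_lit 0) (XT.nd (nat_lit 78)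 (nat_lit 152) (nat_lit 0) (XT.lf (nat_lit 0) (nat_lit 179794279981) (nat_lit 228) (nat_lit 48812961417) (nat_lit 304) (nat_lit 53982939460) (nat_lit 46) (nat_lit 5) (nat_lit 49) (nat_lit 5) (nat_lit 50) (nat_lit 5) (nat_lit 401) (nat_lit 388) (nat_lit 231)) (XT.lf (nat_lit 0) (nat_lit 53195262759) (nat_lit 152) (nat_lit 229662564012) (nat_lit 228) (nat_lit 12991441447) (nat_lit 44) (nat_lit 5) (nat_lit 46) (nat_lit 5) (nat_lit 47) (nat_lit 5) (nat_lit 402) (nat_lit 388) (nat_lit 230))) (XT.nd (nat_lit 78) (nat_lit 228) (nat_lit 0) (XT.lf (nat_lit 0) (nat_lit 33866045362) (nat_lit 228) (nat_lit 84525697424) (nat_lit 76) (nat_lit 191385047084) (nat_lit 43) (nat_lit 5) (nat_lit 46) (nat_lit 5) (nat_lit 44) (nat_lit 5) (nat_lit 403) (nat_lit 388) (nat_lit 229)) (XT.nd (nat_lit 78) (nat_lit 0) (nat_lit 0) (XT.lf (nat_lit 0) (nat_lit 86053316602) (nat_lit 304) (nat_lit 234286149240) (nat_lit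 76) (nat_lit 4269407431) (nat_lit 40) (nat_lit 5) (nat_lit 44) (nat_lit 5) (nat_lit 41) (nat_lit 5) (nat_lit 404) (nat_lit 388) (nat_lit 228)) (XT.lf (nat_lit 0) (nat_lit 147861697069) (nat_lit 304) (nat_lit 59611834057) (nat_lit 76) (nat_lit 132718302094) (nat_lit 40) (nat_lit 5) (nat_lit 44) (nat_lit 5) (nat_lit 41) (nat_lit 5) (nat_lit 405) (nat_lit 388) (nat_lit 227))))) (XT.nd (nat_lit 156) (nat_lit 380) (nat_lit 0) (XT.nd (nat_lit 78) (nat_lit 0) (nat_lit 0) (XT.lf (nat_lit 0) (nat_lit 135831129658) (nat_lit 152) (nat_lit 82050274002) (nat_lit 228) (nat_lit 138878693917) (nat_lit 38) (nat_lit 5) (nat_lit 40) (nat_lit 5) (nat_lit 41) (nat_lit 5) (nat_lit 406) (nat_lit 388) (nat_lit 226)) (XT.lf (nat_lit 0) (nat_lit 296459267234) (nat_lit 228) (nat_lit 25550616825) (nat_lit 76) (nat_lit 52407412652) (nat_lit 38) (nat_lit 5) (nat_lit 41) (nat_lit 5) (nat_lit 39) (nat_lit 5) (nat_lit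 407) (nat_lit 388) (nat_lit 225))) (XT.nd (nat_lit 78) (nat_lit 228) (nat_lit 0) (XT.lf (nat_lit 0) (nat_lit 192980372584) (nat_lit 152) (nat_lit 195115268552) (nat_lit 228) (nat_lit 4849648200) (nat_lit 36) (nat_lit 5) (nat_lit 38) (nat_lit 5) (nat_lit 39) (nat_lit 5) (nat_lit 408) (nat_lit 388) (nat_lit 224)) (XT.nd (nat_lit 78) (nat_lit 0) (nat_lit 0) (XT.lf (nat_lit 0) (nat_lit 16575944716) (nat_lit 152) (nat_lit 54939626617) (nat_lit 228) (nat_lit 341208141685) (nat_lit 33) (nat_lit 5) (nat_lit 35) (nat_lit 5) (nat_lit 36) (nat_lit 5) (nat_lit 409) (nat_lit 388) (nat_lit 223)) (XT.lf (nat_lit 0) (nat_lit 161656959143) (nat_lit 228) (nat_lit 174422480349) (nat_lit 76) (nat_lit 97360577344) (nat_lit 33) (nat_lit 5) (nat_lit 36) (nat_lit 5) (nat_lit 34) (nat_lit 5) (nat_lit 410) (nat_lit 388) (nat_lit 222))))))) (XT.nd (nat_lit 780) (nat_lit 456) (nat_lit 0) (XT.nd (nat_lit 390) (nat_lit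 380) (nat_lit 0) (XT.nd (nat_lit 156) (nat_lit 304) (nat_lit 0) (XT.nd (nat_lit 78) (nat_lit 0) (nat_lit 0) (XT.lf (nat_lit 0) (nat_lit 66963504827) (nat_lit 152) (nat_lit 195083561635) (nat_lit 228) (nat_lit 193523565863) (nat_lit 31) (nat_lit 5) (nat_lit 33) (nat_lit 5) (nat_lit 34) (nat_lit 5) (nat_lit 411) (nat_lit 388) (nat_lit 221)) (XT.lf (nat_lit 0) (nat_lit 337579824330) (nat_lit 152) (nat_lit 37657511601) (nat_lit 228) (nat_lit 103852844878) (nat_lit 31) (nat_lit 5) (nat_lit 33) (nat_lit 5) (nat_lit 34) (nat_lit 5) (nat_lit 412) (nat_lit 388) (nat_lit 220))) (XT.nd (nat_lit 78) (nat_lit 228) (nat_lit 0) (XT.lf (nat_lit 0) (nat_lit 128604024371) (nat_lit 76) (nat_lit 375154994591) (nat_lit 152) (nat_lit 230178887) (nat_lit 30) (nat_lit 5) (nat_lit 31) (nat_lit 5) (nat_lit 32) (nat_lit 4) (nat_lit 413) (nat_lit 388) (nat_lit 219)) (XT.nd (nat_lit 78) (nat_lit 152) (nat_lit 0) (XT.lf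 (nat_lit 0) (nat_lit 111043196253) (nat_lit 152) (nat_lit 105959908566) (nat_lit 76) (nat_lit 313266338756) (nat_lit 29) (nat_lit 5) (nat_lit 31) (nat_lit 5) (nat_lit 30) (nat_lit 5) (nat_lit 414) (nat_lit 388) (nat_lit 218)) (XT.lf (nat_lit 0) (nat_lit 194755776733) (nat_lit 152) (nat_lit 41134053203) (nat_lit 228) (nat_lit 322387094826) (nat_lit 27) (nat_lit 5) (nat_lit 29) (nat_lit 5) (nat_lit 30) (nat_lit 5) (nat_lit 415) (nat_lit 388) (nat_lit 217))))) (XT.nd (nat_lit 156) (nat_lit 304) (nat_lit 0) (XT.nd (nat_lit 78) (nat_lit 76) (nat_lit 0) (XT.lf (nat_lit 0) (nat_lit 377275272660) (nat_lit 228) (nat_lit 66392581656) (nat_lit 76) (nat_lit 144333063888) (nat_lit 27) (nat_lit 5) (nat_lit 30) (nat_lit 5) (nat_lit 28) (nat_lit 4) (nat_lit 416) (nat_lit 388) (nat_lit 216)) (XT.lf (nat_lit 0) (nat_lit 266783347729) (nat_lit 76) (nat_lit 270672714252) (nat_lit 152) (nat_lit 82048008272)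 (nat_lit 26) (nat_lit 5) (nat_lit 27) (nat_lit 5) (nat_lit 28) (nat_lit 4) (nat_lit 417) (nat_lit 388) (nat_lit 215))) (XT.nd (nat_lit 78) (nat_lit 228) (nat_lit 0) (XT.lf (nat_lit 0) (nat_lit 55938668927) (nat_lit 152) (nat_lit 24409354253) (nat_lit 76) (nat_lit 572920938532) (nat_lit 25) (nat_lit 5) (nat_lit 27) (nat_lit 5) (nat_lit 26) (nat_lit 5) (nat_lit 418) (nat_lit 388) (nat_lit 214)) (XT.nd (nat_lit 78) (nat_lit 76) (nat_lit 0) (XT.lf (nat_lit 0) (nat_lit 212118397080) (nat_lit 228) (nat_lit 346872865215) (nat_lit 76) (nat_lit 129646345618) (nat_lit 23) (nat_lit 5) (nat_lit 26) (nat_lit 5) (nat_lit 24) (nat_lit 4) (nat_lit 419) (nat_lit 388) (nat_lit 213)) (XT.lf (nat_lit 0) (nat_lit 10246801241) (nat_lit 76) (nat_lit 373563782894) (nat_lit 152) (nat_lit 342783715242) (nat_lit 22) (nat_lit 5) (nat_lit 23) (nat_lit 5) (nat_lit 24) (nat_lit 4) (nat_lit 420) (nat_lit 388) (nat_lit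 212)))))) (XT.nd (nat_lit 390) (nat_lit 228) (nat_lit 0) (XT.nd (nat_lit 156) (nat_lit 152) (nat_lit 0) (XT.nd (nat_lit 78) (nat_lit 76) (nat_lit 0) (XT.lf (nat_lit 0) (nat_lit 415662926847) (nat_lit 76) (nat_lit 163059292916) (nat_lit 152) (nat_lit 188106580525) (nat_lit 22) (nat_lit 5) (nat_lit 23) (nat_lit 5) (nat_lit 24) (nat_lit 4) (nat_lit 421) (nat_lit 388) (nat_lit 211)) (XT.lf (nat_lit 0) (nat_lit 43879146785) (nat_lit 76) (nat_lit 747948960472) (nat_lit 76) (nat_lit 18245848349) (nat_lit 21) (nat_lit 4) (nat_lit 22) (nat_lit 5) (nat_lit 22) (nat_lit 4) (nat_lit 422) (nat_lit 388) (nat_lit 210))) (XT.nd (nat_lit 78) (nat_lit 76) (nat_lit 0) (XT.lf (nat_lit 0) (nat_lit 171025732831) (nat_lit 152) (nat_lit 373969648560) (nat_lit 76) (nat_lit 310338597597) (nat_lit 20) (nat_lit 5) (nat_lit 22) (nat_lit 5) (nat_lit 21) (nat_lit 4) (nat_lit 423) (nat_lit 388) (nat_lit 209)) (XT.nd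 (nat_lit 78) (nat_lit 0) (nat_lit 0) (XT.lf (nat_lit 0) (nat_lit 51748187935) (nat_lit 76) (nat_lit 323949608706) (nat_lit 152) (nat_lit 528379533694) (nat_lit 19) (nat_lit 5) (nat_lit 20) (nat_lit 5) (nat_lit 21) (nat_lit 4) (nat_lit 424) (nat_lit 388) (nat_lit 208)) (XT.lf (nat_lit 0) (nat_lit 532791366074) (nat_lit 76) (nat_lit 74177214319) (nat_lit 152) (nat_lit 348933573021) (nat_lit 19) (nat_lit 5) (nat_lit 20) (nat_lit 5) (nat_lit 21) (nat_lit 4) (nat_lit 425) (nat_lit 388) (nat_lit 207))))) (XT.nd (nat_lit 156) (nat_lit 76) (nat_lit 0) (XT.nd (nat_lit 78) (nat_lit 76) (nat_lit 0) (XT.lf (nat_lit 0) (nat_lit 37623413324) (nat_lit 76) (nat_lit 824726052398) (nat_lit 76) (nat_lit 149074821517) (nat_lit 18) (nat_lit 4) (nat_lit 19) (nat_lit 5) (nat_lit 19) (nat_lit 4) (nat_lit 426) (nat_lit 388) (nat_lit 206)) (XT.lf (nat_lit 0) (nat_lit 77228119616) (nat_lit 152) (nat_lit 515016783408)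 (nat_lit 76) (nat_lit 477911159936) (nat_lit 17) (nat_lit 5) (nat_lit 19) (nat_lit 5) (nat_lit 18) (nat_lit 4) (nat_lit 427) (nat_lit 388) (nat_lit 205))) (XT.nd (nat_lit 78) (nat_lit 76) (nat_lit 0) (XT.lf (nat_lit 0) (nat_lit 313581350439) (nat_lit 152) (nat_lit 23402101564) (nat_lit 76) (nat_lit 796293165534) (nat_lit 17) (nat_lit 5) (nat_lit 19) (nat_lit 5) (nat_lit 18) (nat_lit 4) (nat_lit 428) (nat_lit 388) (nat_lit 204)) (XT.nd (nat_lit 78) (nat_lit 0) (nat_lit 0) (XT.lf (nat_lit 0) (nat_lit 534267943162) (nat_lit 76) (nat_lit 47424022739) (nat_lit 152) (nat_lit 618726920494) (nat_lit 16) (nat_lit 5) (nat_lit 17) (nat_lit 5) (nat_lit 18) (nat_lit 4) (nat_lit 429) (nat_lit 388) (nat_lit 203)) (XT.lf (nat_lit 0) (nat_lit 878288349951) (nat_lit 152) (nat_lit 141396011766) (nat_lit 0) (nat_lit 252685221504) (nat_lit 16) (nat_lit 5) (nat_lit 18) (nat_lit 4) (nat_lit 16) (nat_lit 4) (nat_lit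 430) (nat_lit 388) (nat_lit 202))))))))
noncomputable def xc211 : XT := (XT.nd (nat_lit 1482) (nat_lit 152) (nat_lit 0) (XT.nd (nat_lit 702) (nat_lit 304) (nat_lit 0) (XT.nd (nat_lit 312) (nat_lit 228) (nat_lit 0) (XT.nd (nat_lit 156) (nat_lit 76) (nat_lit 0) (XT.nd (nat_lit 78) (nat_lit 76) (nat_lit 0) (XT.lf (nat_lit 0) (nat_lit 446440215130) (nat_lit 76) (nat_lit 764140892121) (nat_lit 76) (nat_lit 138537735546) (nat_lit 15) (nat_lit 4) (nat_lit 16) (nat_lit 5) (nat_lit 16) (nat_lit 4) (nat_lit 431) (nat_lit 388) (nat_lit 201)) (XT.lf (nat_lit 0) (nat_lit 134539879739) (nat_lit 152) (nat_lit 345760232761) (nat_lit 76) (nat_lit 951126165599) (nat_lit 14) (nat_lit 5) (nat_lit 16) (nat_lit 5) (nat_lit 15) (nat_lit 4) (nat_lit 432) (nat_lit 388) (nat_lit 200))) (XT.nd (nat_lit 78) (nat_lit 0) (nat_lit 0) (XT.lf (nat_lit 0) (nat_lit 265389035315) (nat_lit 76) (nat_lit 162972619516) (nat_lit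 152) (nat_lit 1091158175846) (nat_lit 13) (nat_lit 5) (nat_lit 14) (nat_lit 5) (nat_lit 15) (nat_lit 4) (nat_lit 433) (nat_lit 388) (nat_lit 199)) (XT.lf (nat_lit 0) (nat_lit 759711171336) (nat_lit 152) (nat_lit 673379013976) (nat_lit 0) (nat_lit 180448922202) (nat_lit 13) (nat_lit 5) (nat_lit 15) (nat_lit 4) (nat_lit 13) (nat_lit 4) (nat_lit 434) (nat_lit 388) (nat_lit 198)))) (XT.nd (nat_lit 156) (nat_lit 152) (nat_lit 0) (XT.nd (nat_lit 78) (nat_lit 76) (nat_lit 0) (XT.lf (nat_lit 0) (nat_lit 1121801680315) (nat_lit 152) (nat_lit 50400191658) (nat_lit 0) (nat_lit 542539412037) (nat_lit 13) (nat_lit 5) (nat_lit 15) (nat_lit 4) (nat_lit 13) (nat_lit 4) (nat_lit 435) (nat_lit 388) (nat_lit 197)) (XT.lf (nat_lit 0) (nat_lit 655192263950) (nat_lit 76) (nat_lit 873424533639) (nat_lit 76) (nat_lit 294162247635) (nat_lit 12) (nat_lit 4) (nat_lit 13) (nat_lit 5) (nat_lit 13) (nat_lit 4) (nat_lit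 436) (nat_lit 388) (nat_lit 196))) (XT.nd (nat_lit 78) (nat_lit 76) (nat_lit 0) (XT.lf (nat_lit 0) (nat_lit 28504547719) (nat_lit 152) (nat_lit 519972843159) (nat_lit 76) (nat_lit 1390814465008) (nat_lit 11) (nat_lit 5) (nat_lit 13) (nat_lit 5) (nat_lit 12) (nat_lit 4) (nat_lit 437) (nat_lit 388) (nat_lit 195)) (XT.nd (nat_lit 78) (nat_lit 0) (nat_lit 0) (XT.lf (nat_lit 0) (nat_lit 180856780838) (nat_lit 76) (nat_lit 184585093417) (nat_lit 152) (nat_lit 1698724603760) (nat_lit 10) (nat_lit 5) (nat_lit 11) (nat_lit 5) (nat_lit 12) (nat_lit 4) (nat_lit 438) (nat_lit 388) (nat_lit 194)) (XT.lf (nat_lit 0) (nat_lit 748932889839) (nat_lit 152) (nat_lit 1235951404823) (nat_lit 0) (nat_lit 212578879020) (nat_lit 10) (nat_lit 5) (nat_lit 12) (nat_lit 4) (nat_lit 10) (nat_lit 4) (nat_lit 439) (nat_lit 388) (nat_lit 193)))))) (XT.nd (nat_lit 390) (nat_lit 152) (nat_lit 0) (XT.nd (nat_lit 156) (nat_lit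 76) (nat_lit 0) (XT.nd (nat_lit 78) (nat_lit 76) (nat_lit 0) (XT.lf (nat_lit 0) (nat_lit 1167897585876) (nat_lit 152) (nat_lit 541598904202) (nat_lit 0) (nat_lit 631543562993) (nat_lit 10) (nat_lit 5) (nat_lit 12) (nat_lit 4) (nat_lit 10) (nat_lit 4) (nat_lit 440) (nat_lit 388) (nat_lit 192)) (XT.lf (nat_lit 0) (nat_lit 219270563757) (nat_lit 76) (nat_lit 1406382338758) (nat_lit 76) (nat_lit 870028304704) (nat_lit 9) (nat_lit 4) (nat_lit 10) (nat_lit 5) (nat_lit 10) (nat_lit 4) (nat_lit 441) (nat_lit 388) (nat_lit 191))) (XT.nd (nat_lit 78) (nat_lit 76) (nat_lit 0) (XT.lf (nat_lit 0) (nat_lit 1071810765241) (nat_lit 76) (nat_lit 1063026136152) (nat_lit 76) (nat_lit 526672091755) (nat_lit 9) (nat_lit 4) (nat_lit 10) (nat_lit 5) (nat_lit 10) (nat_lit 4) (nat_lit 442) (nat_lit 388) (nat_lit 190)) (XT.nd (nat_lit 78) (nat_lit 76) (nat_lit 0) (XT.lf (nat_lit 0) (nat_lit 1992554151834) (nat_lit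 76) (nat_lit 692201452674) (nat_lit 76) (nat_lit 155847398701) (nat_lit 9) (nat_lit 4) (nat_lit 10) (nat_lit 5) (nat_lit 10) (nat_lit 4) (nat_lit 443) (nat_lit 388) (nat_lit 189)) (XT.lf (nat_lit 0) (nat_lit 232405207738) (nat_lit 152) (nat_lit 52951230743) (nat_lit 76) (nat_lit 2748197402664) (nat_lit 8) (nat_lit 5) (nat_lit 10) (nat_lit 5) (nat_lit 9) (nat_lit 4) (nat_lit 444) (nat_lit 388) (nat_lit 188))))) (XT.nd (nat_lit 156) (nat_lit 76) (nat_lit 0) (XT.nd (nat_lit 78) (nat_lit 0) (nat_lit 0) (XT.lf (nat_lit 0) (nat_lit 667931454621) (nat_lit 152) (nat_lit 2400407478833) (nat_lit 0) (nat_lit 171307314760) (nat_lit 7) (nat_lit 5) (nat_lit 9) (nat_lit 4) (nat_lit 7) (nat_lit 4) (nat_lit 445) (nat_lit 388) (nat_lit 187)) (XT.lf (nat_lit 0) (nat_lit 1147197028248) (nat_lit 152) (nat_lit 1663744360093) (nat_lit 0) (nat_lit 650572881347) (nat_lit 7) (nat_lit 5) (nat_lit 9) (nat_lit 4)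 (nat_lit 7) (nat_lit 4) (nat_lit 446) (nat_lit 388) (nat_lit 186))) (XT.nd (nat_lit 78) (nat_lit 76) (nat_lit 0) (XT.lf (nat_lit 0) (nat_lit 1664803835057) (nat_lit 152) (nat_lit 868148217206) (nat_lit 0) (nat_lit 1168179681638) (nat_lit 7) (nat_lit 5) (nat_lit 9) (nat_lit 4) (nat_lit 7) (nat_lit 4) (nat_lit 447) (nat_lit 388) (nat_lit 185)) (XT.nd (nat_lit 78) (nat_lit 76) (nat_lit 0) (XT.lf (nat_lit 0) (nat_lit 2223819174642) (nat_lit 152) (nat_lit 8904406362) (nat_lit 0) (nat_lit 1727195015189) (nat_lit 7) (nat_lit 5) (nat_lit 9) (nat_lit 4) (nat_lit 7) (nat_lit 4) (nat_lit 448) (nat_lit 388) (nat_lit 184)) (XT.lf (nat_lit 0) (nat_lit 967475953088) (nat_lit 76) (nat_lit 1883347597349) (nat_lit 76) (nat_lit 1386723432308) (nat_lit 6) (nat_lit 4) (nat_lit 7) (nat_lit 5) (nat_lit 7) (nat_lit 4) (nat_lit 449) (nat_lit 388) (nat_lit 183))))))) (XT.nd (nat_lit 48828) (nat_lit 0) (nat_lit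 2964) (XT.nd (nat_lit 48438) (nat_lit 0) (nat_lit 3952) (XT.nd (nat_lit 156) (nat_lit 152) (nat_lit 0) (XT.nd (nat_lit 78) (nat_lit 0) (nat_lit 0) (XT.lf (nat_lit 0) (nat_lit 2022473121591) (nat_lit 76) (nat_lit 1505758606358) (nat_lit 76) (nat_lit 1009134436143) (nat_lit 6) (nat_lit 4) (nat_lit 7) (nat_lit 5) (nat_lit 7) (nat_lit 4) (nat_lit 450) (nat_lit 388) (nat_lit 182)) (XT.lf (nat_lit 0) (nat_lit 3161870043959) (nat_lit 76) (nat_lit 1097962505890) (nat_lit 76) (nat_lit 601338330884) (nat_lit 6) (nat_lit 4) (nat_lit 7) (nat_lit 5) (nat_lit 7) (nat_lit 4) (nat_lit 451) (nat_lit 388) (nat_lit 181))) (XT.nd (nat_lit 78) (nat_lit 152) (nat_lit 0) (XT.lf (nat_lit 0) (nat_lit 4392418701953) (nat_lit 76) (nat_lit 657542726460) (nat_lit 76) (nat_lit 160918547018) (nat_lit 6) (nat_lit 4) (nat_lit 7) (nat_lit 5) (nat_lit 7) (nat_lit 4) (nat_lit 452) (nat_lit 388) (nat_lit 180)) (XT.nd (nat_lit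 48126) (nat_lit 0) (nat_lit 4332) (XT.lf (nat_lit 0) (nat_lit 131872872813) (nat_lit 76) (nat_lit 170289173514) (nat_lit 152) (nat_lit 5285544478012) (nat_lit 4) (nat_lit 5) (nat_lit 5) (nat_lit 5) (nat_lit 6) (nat_lit 4) (nat_lit 453) (nat_lit 388) (nat_lit 179)) (XT.lf (nat_lit 0) (nat_lit 74831824499) (nat_lit 532) (nat_lit 6765615358) (nat_lit 532) (nat_lit 6765615358) (nat_lit 61) (nat_lit 3) (nat_lit 68) (nat_lit 3) (nat_lit 68) (nat_lit 5) (nat_lit 389) (nat_lit 389) (nat_lit 242))))) (XT.nd (nat_lit 156) (nat_lit 380) (nat_lit 0) (XT.nd (nat_lit 78) (nat_lit 0) (nat_lit 76) (XT.lf (nat_lit 76) (nat_lit 75433326448) (nat_lit 0) (nat_lit 82032995981) (nat_lit 532) (nat_lit 26183539834) (nat_lit 62) (nat_lit 5) (nat_lit 61) (nat_lit 3) (nat_lit 68) (nat_lit 5) (nat_lit 390) (nat_lit 389) (nat_lit 241)) (XT.lf (nat_lit 0) (nat_lit 166407796371) (nat_lit 456) (nat_lit 18958279899) (nat_lit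 532) (nat_lit 5720271280) (nat_lit 62) (nat_lit 5) (nat_lit 68) (nat_lit 5) (nat_lit 69) (nat_lit 5) (nat_lit 391) (nat_lit 389) (nat_lit 240))) (XT.nd (nat_lit 78) (nat_lit 456) (nat_lit 0) (XT.lf (nat_lit 76) (nat_lit 79275469519) (nat_lit 0) (nat_lit 100826241256) (nat_lit 532) (nat_lit 18693071302) (nat_lit 63) (nat_lit 5) (nat_lit 62) (nat_lit 5) (nat_lit 69) (nat_lit 5) (nat_lit 392) (nat_lit 389) (nat_lit 239)) (XT.nd (nat_lit 78) (nat_lit 456) (nat_lit 0) (XT.lf (nat_lit 76) (nat_lit 186445976246) (nat_lit 0) (nat_lit 8963344126) (nat_lit 532) (nat_lit 11669116636) (nat_lit 63) (nat_lit 5) (nat_lit 62) (nat_lit 5) (nat_lit 69) (nat_lit 5) (nat_lit 393) (nat_lit 389) (nat_lit 238)) (XT.lf (nat_lit 0) (nat_lit 529391779) (nat_lit 532) (nat_lit 127276694760) (nat_lit 608) (nat_lit 87873883991) (nat_lit 56) (nat_lit 5) (nat_lit 63) (nat_lit 5) (nat_lit 64) (nat_lit 5) (nat_lit 394)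 (nat_lit 389) (nat_lit 237)))))) (XT.nd (nat_lit 390) (nat_lit 456) (nat_lit 0) (XT.nd (nat_lit 156) (nat_lit 532) (nat_lit 0) (XT.nd (nat_lit 78) (nat_lit 0) (nat_lit 76) (XT.lf (nat_lit 0) (nat_lit 13884788015) (nat_lit 532) (nat_lit 18139926999) (nat_lit 608) (nat_lit 192855748966) (nat_lit 56) (nat_lit 5) (nat_lit 63) (nat_lit 5) (nat_lit 64) (nat_lit 5) (nat_lit 395) (nat_lit 389) (nat_lit 236)) (XT.lf (nat_lit 0) (nat_lit 32616437084) (nat_lit 532) (nat_lit 131419093057) (nat_lit 76) (nat_lit 70436841222) (nat_lit 57) (nat_lit 5) (nat_lit 64) (nat_lit 5) (nat_lit 58) (nat_lit 5) (nat_lit 396) (nat_lit 389) (nat_lit 235))) (XT.nd (nat_lit 78) (nat_lit 608) (nat_lit 0) (XT.lf (nat_lit 0) (nat_lit 54187156246) (nat_lit 532) (nat_lit 10663198826) (nat_lit 76) (nat_lit 179874033351) (nat_lit 57) (nat_lit 5) (nat_lit 64) (nat_lit 5) (nat_lit 58) (nat_lit 5) (nat_lit 397) (nat_lit 389)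 (nat_lit 234)) (XT.nd (nat_lit 78) (nat_lit 228) (nat_lit 0) (XT.lf (nat_lit 0) (nat_lit 81610464582) (nat_lit 456) (nat_lit 130590337372) (nat_lit 76) (nat_lit 43265610491) (nat_lit 52) (nat_lit 5) (nat_lit 58) (nat_lit 5) (nat_lit 53) (nat_lit 5) (nat_lit 398) (nat_lit 389) (nat_lit 233)) (XT.lf (nat_lit 0) (nat_lit 3293053048) (nat_lit 228) (nat_lit 109997214236) (nat_lit 304) (nat_lit 153612520850) (nat_lit 49) (nat_lit 5) (nat_lit 52) (nat_lit 5) (nat_lit 53) (nat_lit 5) (nat_lit 399) (nat_lit 389) (nat_lit 232))))) (XT.nd (nat_lit 156) (nat_lit 228) (nat_lit 0) (XT.nd (nat_lit 78) (nat_lit 228) (nat_lit 0) (XT.lf (nat_lit 0) (nat_lit 151176859465) (nat_lit 304) (nat_lit 123756599381) (nat_lit 76) (nat_lit 4026822721) (nat_lit 49) (nat_lit 5) (nat_lit 53) (nat_lit 5) (nat_lit 50) (nat_lit 5) (nat_lit 400) (nat_lit 389) (nat_lit 231)) (XT.lf (nat_lit 0) (nat_lit 25713911216) (nat_lit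 228) (nat_lit 169855855622) (nat_lit 304) (nat_lit 96134576713) (nat_lit 46) (nat_lit 5) (nat_lit 49) (nat_lit 5) (nat_lit 50) (nat_lit 5) (nat_lit 401) (nat_lit 389) (nat_lit 230))) (XT.nd (nat_lit 78) (nat_lit 228) (nat_lit 0) (XT.lf (nat_lit 0) (nat_lit 194180093707) (nat_lit 228) (nat_lit 52717639795) (nat_lit 304) (nat_lit 58299506952) (nat_lit 46) (nat_lit 5) (nat_lit 49) (nat_lit 5) (nat_lit 50) (nat_lit 5) (nat_lit 402) (nat_lit 389) (nat_lit 229)) (XT.nd (nat_lit 78) (nat_lit 76) (nat_lit 0) (XT.lf (nat_lit 0) (nat_lit 57453240152) (nat_lit 152) (nat_lit 248035048519) (nat_lit 228) (nat_lit 14028772431) (nat_lit 44) (nat_lit 5) (nat_lit 46) (nat_lit 5) (nat_lit 47) (nat_lit 5) (nat_lit 403) (nat_lit 389) (nat_lit 228)) (XT.lf (nat_lit 0) (nat_lit 36577074425) (nat_lit 228) (nat_lit 91285478011) (nat_lit 76) (nat_lit 206696239522) (nat_lit 43) (nat_lit 5) (nat_lit 46) (nat_lit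 5) (nat_lit 44) (nat_lit 5) (nat_lit 404) (nat_lit 389) (nat_lit 227))))))))
noncomputable def xc212 : XT := (XT.nd (nat_lit 1482) (nat_lit 912) (nat_lit 0) (XT.nd (nat_lit 702) (nat_lit 760) (nat_lit 0) (XT.nd (nat_lit 312) (nat_lit 532) (nat_lit 0) (XT.nd (nat_lit 156) (nat_lit 152) (nat_lit 0) (XT.nd (nat_lit 78) (nat_lit 0) (nat_lit 0) (XT.lf (nat_lit 0) (nat_lit 92939264588) (nat_lit 304) (nat_lit 253026701837) (nat_lit 76) (nat_lit 4611480737) (nat_lit 40) (nat_lit 5) (nat_lit 44) (nat_lit 5) (nat_lit 41) (nat_lit 5) (nat_lit 405) (nat_lit 389) (nat_lit 226)) (XT.lf (nat_lit 0) (nat_lit 159692190851) (nat_lit 304) (nat_lit 64378614724) (nat_lit 76) (nat_lit 143336248402) (nat_lit 40) (nat_lit 5) (nat_lit 44) (nat_lit 5) (nat_lit 41) (nat_lit 5) (nat_lit 406) (nat_lit 389) (nat_lit 225))) (XT.nd (nat_lit 78) (nat_lit 0) (nat_lit 0) (XT.lf (nat_lit 0) (nat_lit 146699731251) (nat_lit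 152) (nat_lit 88613678084) (nat_lit 228) (nat_lit 149987375411) (nat_lit 38) (nat_lit 5) (nat_lit 40) (nat_lit 5) (nat_lit 41) (nat_lit 5) (nat_lit 407) (nat_lit 389) (nat_lit 224)) (XT.lf (nat_lit 0) (nat_lit 320177405134) (nat_lit 228) (nat_lit 27592613395) (nat_lit 76) (nat_lit 56600549119) (nat_lit 38) (nat_lit 5) (nat_lit 41) (nat_lit 5) (nat_lit 39) (nat_lit 5) (nat_lit 408) (nat_lit 389) (nat_lit 223)))) (XT.nd (nat_lit 156) (nat_lit 152) (nat_lit 0) (XT.nd (nat_lit 78) (nat_lit 228) (nat_lit 0) (XT.lf (nat_lit 0) (nat_lit 208420803198) (nat_lit 152) (nat_lit 210723830423) (nat_lit 228) (nat_lit 5236170567) (nat_lit 36) (nat_lit 5) (nat_lit 38) (nat_lit 5) (nat_lit 39) (nat_lit 5) (nat_lit 409) (nat_lit 389) (nat_lit 222)) (XT.lf (nat_lit 0) (nat_lit 17904042023) (nat_lit 152) (nat_lit 59334098621) (nat_lit 228) (nat_lit 368503362671) (nat_lit 33) (nat_lit 5) (nat_lit 35) (nat_lit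 5) (nat_lit 36) (nat_lit 5) (nat_lit 410) (nat_lit 389) (nat_lit 221))) (XT.nd (nat_lit 78) (nat_lit 152) (nat_lit 0) (XT.lf (nat_lit 0) (nat_lit 174590756980) (nat_lit 228) (nat_lit 188374323514) (nat_lit 76) (nat_lit 105150037608) (nat_lit 33) (nat_lit 5) (nat_lit 36) (nat_lit 5) (nat_lit 34) (nat_lit 5) (nat_lit 411) (nat_lit 389) (nat_lit 220)) (XT.nd (nat_lit 78) (nat_lit 0) (nat_lit 0) (XT.lf (nat_lit 0) (nat_lit 72322490977) (nat_lit 152) (nat_lit 210689535808) (nat_lit 228) (nat_lit 209004159792) (nat_lit 31) (nat_lit 5) (nat_lit 33) (nat_lit 5) (nat_lit 34) (nat_lit 5) (nat_lit 412) (nat_lit 389) (nat_lit 219)) (XT.lf (nat_lit 0) (nat_lit 364587974872) (nat_lit 152) (nat_lit 40669454420) (nat_lit 228) (nat_lit 112159876782) (nat_lit 31) (nat_lit 5) (nat_lit 33) (nat_lit 5) (nat_lit 34) (nat_lit 5) (nat_lit 413) (nat_lit 389) (nat_lit 218)))))) (XT.nd (nat_lit 390) (nat_lit 380)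 (nat_lit 0) (XT.nd (nat_lit 156) (nat_lit 228) (nat_lit 0) (XT.nd (nat_lit 78) (nat_lit 76) (nat_lit 0) (XT.lf (nat_lit 0) (nat_lit 138894137757) (nat_lit 76) (nat_lit 405166684985) (nat_lit 152) (nat_lit 247423724) (nat_lit 30) (nat_lit 5) (nat_lit 31) (nat_lit 5) (nat_lit 32) (nat_lit 4) (nat_lit 414) (nat_lit 389) (nat_lit 217)) (XT.lf (nat_lit 0) (nat_lit 119927680632) (nat_lit 152) (nat_lit 114434987805) (nat_lit 76) (nat_lit 338328247790) (nat_lit 29) (nat_lit 5) (nat_lit 31) (nat_lit 5) (nat_lit 30) (nat_lit 5) (nat_lit 415) (nat_lit 389) (nat_lit 216))) (XT.nd (nat_lit 78) (nat_lit 76) (nat_lit 0) (XT.lf (nat_lit 0) (nat_lit 210337908939) (nat_lit 152) (nat_lit 44424100037) (nat_lit 228) (nat_lit 348176989855) (nat_lit 27) (nat_lit 5) (nat_lit 29) (nat_lit 5) (nat_lit 30) (nat_lit 5) (nat_lit 416) (nat_lit 389) (nat_lit 215)) (XT.nd (nat_lit 78) (nat_lit 76) (nat_lit 0) (XT.lf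 (nat_lit 0) (nat_lit 407458228674) (nat_lit 228) (nat_lit 71702382923) (nat_lit 76) (nat_lit 155880304865) (nat_lit 27) (nat_lit 5) (nat_lit 30) (nat_lit 5) (nat_lit 28) (nat_lit 4) (nat_lit 417) (nat_lit 389) (nat_lit 214)) (XT.lf (nat_lit 0) (nat_lit 288127580173) (nat_lit 76) (nat_lit 292325869396) (nat_lit 152) (nat_lit 88610873664) (nat_lit 26) (nat_lit 5) (nat_lit 27) (nat_lit 5) (nat_lit 28) (nat_lit 4) (nat_lit 418) (nat_lit 389) (nat_lit 213))))) (XT.nd (nat_lit 156) (nat_lit 152) (nat_lit 0) (XT.nd (nat_lit 78) (nat_lit 152) (nat_lit 0) (XT.lf (nat_lit 0) (nat_lit 60414620295) (nat_lit 152) (nat_lit 26360608325) (nat_lit 76) (nat_lit 618755181033) (nat_lit 25) (nat_lit 5) (nat_lit 27) (nat_lit 5) (nat_lit 26) (nat_lit 5) (nat_lit 419) (nat_lit 389) (nat_lit 212)) (XT.lf (nat_lit 0) (nat_lit 229088713265) (nat_lit 228) (nat_lit 374621186388) (nat_lit 76) (nat_lit 140018649000)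 (nat_lit 23) (nat_lit 5) (nat_lit 26) (nat_lit 5) (nat_lit 24) (nat_lit 4) (nat_lit 420) (nat_lit 389) (nat_lit 211))) (XT.nd (nat_lit 78) (nat_lit 76) (nat_lit 0) (XT.lf (nat_lit 0) (nat_lit 11068015206) (nat_lit 76) (nat_lit 403448232879) (nat_lit 152) (nat_lit 370205529550) (nat_lit 22) (nat_lit 5) (nat_lit 23) (nat_lit 5) (nat_lit 24) (nat_lit 4) (nat_lit 421) (nat_lit 389) (nat_lit 210)) (XT.nd (nat_lit 78) (nat_lit 76) (nat_lit 0) (XT.lf (nat_lit 0) (nat_lit 448917321982) (nat_lit 76) (nat_lit 176103432047) (nat_lit 152) (nat_lit 203154289456) (nat_lit 22) (nat_lit 5) (nat_lit 23) (nat_lit 5) (nat_lit 24) (nat_lit 4) (nat_lit 422) (nat_lit 389) (nat_lit 209)) (XT.lf (nat_lit 0) (nat_lit 47390850181) (nat_lit 76) (nat_lit 807784252736) (nat_lit 76) (nat_lit 19704709101) (nat_lit 21) (nat_lit 4) (nat_lit 22) (nat_lit 5) (nat_lit 22) (nat_lit 4) (nat_lit 423) (nat_lit 389) (nat_lit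 208))))))) (XT.nd (nat_lit 702) (nat_lit 456) (nat_lit 0) (XT.nd (nat_lit 312) (nat_lit 228) (nat_lit 0) (XT.nd (nat_lit 156) (nat_lit 76) (nat_lit 0) (XT.nd (nat_lit 78) (nat_lit 76) (nat_lit 0) (XT.lf (nat_lit 0) (nat_lit 184708501403) (nat_lit 152) (nat_lit 403885912780) (nat_lit 76) (nat_lit 335166226098) (nat_lit 20) (nat_lit 5) (nat_lit 22) (nat_lit 5) (nat_lit 21) (nat_lit 4) (nat_lit 424) (nat_lit 389) (nat_lit 207)) (XT.lf (nat_lit 0) (nat_lit 55889317529) (nat_lit 76) (nat_lit 349864990853) (nat_lit 152) (nat_lit 570649153125) (nat_lit 19) (nat_lit 5) (nat_lit 20) (nat_lit 5) (nat_lit 21) (nat_lit 4) (nat_lit 425) (nat_lit 389) (nat_lit 206))) (XT.nd (nat_lit 78) (nat_lit 76) (nat_lit 0) (XT.lf (nat_lit 0) (nat_lit 575415855508) (nat_lit 76) (nat_lit 80110848362) (nat_lit 152) (nat_lit 376847570655) (nat_lit 19) (nat_lit 5) (nat_lit 20) (nat_lit 5) (nat_lit 21) (nat_lit 4) (nat_lit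 426) (nat_lit 389) (nat_lit 205)) (XT.lf (nat_lit 0) (nat_lit 40634473797) (nat_lit 76) (nat_lit 890703579692) (nat_lit 76) (nat_lit 161000126106) (nat_lit 18) (nat_lit 4) (nat_lit 19) (nat_lit 5) (nat_lit 19) (nat_lit 4) (nat_lit 427) (nat_lit 389) (nat_lit 204)))) (XT.nd (nat_lit 156) (nat_lit 152) (nat_lit 0) (XT.nd (nat_lit 78) (nat_lit 0) (nat_lit 0) (XT.lf (nat_lit 0) (nat_lit 83406968315) (nat_lit 152) (nat_lit 556216994924) (nat_lit 76) (nat_lit 516144536670) (nat_lit 17) (nat_lit 5) (nat_lit 19) (nat_lit 5) (nat_lit 18) (nat_lit 4) (nat_lit 428) (nat_lit 389) (nat_lit 203)) (XT.lf (nat_lit 0) (nat_lit 338668413224) (nat_lit 152) (nat_lit 25273222321) (nat_lit 76) (nat_lit 859997066869) (nat_lit 17) (nat_lit 5) (nat_lit 19) (nat_lit 5) (nat_lit 18) (nat_lit 4) (nat_lit 429) (nat_lit 389) (nat_lit 202))) (XT.nd (nat_lit 78) (nat_lit 76) (nat_lit 0) (XT.lf (nat_lit 0) (nat_lit 577010399467)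 (nat_lit 76) (nat_lit 51217461914) (nat_lit 152) (nat_lit 668224492733) (nat_lit 16) (nat_lit 5) (nat_lit 17) (nat_lit 5) (nat_lit 18) (nat_lit 4) (nat_lit 430) (nat_lit 389) (nat_lit 201)) (XT.nd (nat_lit 78) (nat_lit 76) (nat_lit 0) (XT.lf (nat_lit 0) (nat_lit 948551927036) (nat_lit 152) (nat_lit 152706718229) (nat_lit 0) (nat_lit 272900463761) (nat_lit 16) (nat_lit 5) (nat_lit 18) (nat_lit 4) (nat_lit 16) (nat_lit 4) (nat_lit 431) (nat_lit 389) (nat_lit 200)) (XT.lf (nat_lit 0) (nat_lit 482156382148) (nat_lit 76) (nat_lit 825271707905) (nat_lit 76) (nat_lit 149620220514) (nat_lit 15) (nat_lit 4) (nat_lit 16) (nat_lit 5) (nat_lit 16) (nat_lit 4) (nat_lit 432) (nat_lit 389) (nat_lit 199)))))) (XT.nd (nat_lit 390) (nat_lit 228) (nat_lit 0) (XT.nd (nat_lit 156) (nat_lit 76) (nat_lit 0) (XT.nd (nat_lit 78) (nat_lit 76) (nat_lit 0) (XT.lf (nat_lit 0) (nat_lit 145303539719) (nat_lit 152) (nat_lit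 373420147103) (nat_lit 76) (nat_lit 1027216655859) (nat_lit 14) (nat_lit 5) (nat_lit 16) (nat_lit 5) (nat_lit 15) (nat_lit 4) (nat_lit 433) (nat_lit 389) (nat_lit 198)) (XT.lf (nat_lit 0) (nat_lit 286621039527) (nat_lit 76) (nat_lit 176010003704) (nat_lit 152) (nat_lit 1178450337328) (nat_lit 13) (nat_lit 5) (nat_lit 14) (nat_lit 5) (nat_lit 15) (nat_lit 4) (nat_lit 434) (nat_lit 389) (nat_lit 197))) (XT.nd (nat_lit 78) (nat_lit 76) (nat_lit 0) (XT.lf (nat_lit 0) (nat_lit 820488496750) (nat_lit 152) (nat_lit 727248494605) (nat_lit 0) (nat_lit 194885210140) (nat_lit 13) (nat_lit 5) (nat_lit 15) (nat_lit 4) (nat_lit 13) (nat_lit 4) (nat_lit 435) (nat_lit 389) (nat_lit 196)) (XT.nd (nat_lit 78) (nat_lit 76) (nat_lit 0) (XT.lf (nat_lit 0) (nat_lit 1211546214469) (nat_lit 152) (nat_lit 54431428760) (nat_lit 0) (nat_lit 585942911446) (nat_lit 13) (nat_lit 5) (nat_lit 15) (nat_lit 4) (nat_lit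 13) (nat_lit 4) (nat_lit 436) (nat_lit 389) (nat_lit 195)) (XT.lf (nat_lit 0) (nat_lit 707608403596) (nat_lit 76) (nat_lit 943298126163) (nat_lit 76) (nat_lit 317694807943) (nat_lit 12) (nat_lit 4) (nat_lit 13) (nat_lit 5) (nat_lit 13) (nat_lit 4) (nat_lit 437) (nat_lit 389) (nat_lit 194))))) (XT.nd (nat_lit 156) (nat_lit 76) (nat_lit 0) (XT.nd (nat_lit 78) (nat_lit 76) (nat_lit 0) (XT.lf (nat_lit 0) (nat_lit 30785280535) (nat_lit 152) (nat_lit 561569948776) (nat_lit 76) (nat_lit 1502079945463) (nat_lit 11) (nat_lit 5) (nat_lit 13) (nat_lit 5) (nat_lit 12) (nat_lit 4) (nat_lit 438) (nat_lit 389) (nat_lit 193)) (XT.lf (nat_lit 0) (nat_lit 195326026866) (nat_lit 76) (nat_lit 199351555915) (nat_lit 152) (nat_lit 1834622184730) (nat_lit 10) (nat_lit 5) (nat_lit 11) (nat_lit 5) (nat_lit 12) (nat_lit 4) (nat_lit 439) (nat_lit 389) (nat_lit 192))) (XT.nd (nat_lit 78) (nat_lit 76) (nat_lit 0)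 (XT.lf (nat_lit 0) (nat_lit 808847860733) (nat_lit 152) (nat_lit 1334826846830) (nat_lit 0) (nat_lit 229585492785) (nat_lit 10) (nat_lit 5) (nat_lit 12) (nat_lit 4) (nat_lit 10) (nat_lit 4) (nat_lit 440) (nat_lit 389) (nat_lit 191)) (XT.nd (nat_lit 78) (nat_lit 76) (nat_lit 0) (XT.lf (nat_lit 0) (nat_lit 1261329707288) (nat_lit 152) (nat_lit 584926195817) (nat_lit 0) (nat_lit 682067328998) (nat_lit 10) (nat_lit 5) (nat_lit 12) (nat_lit 4) (nat_lit 10) (nat_lit 4) (nat_lit 441) (nat_lit 389) (nat_lit 190)) (XT.lf (nat_lit 0) (nat_lit 236812813864) (nat_lit 76) (nat_lit 1518892626645) (nat_lit 76) (nat_lit 939630238778) (nat_lit 9) (nat_lit 4) (nat_lit 10) (nat_lit 5) (nat_lit 10) (nat_lit 4) (nat_lit 442) (nat_lit 389) (nat_lit 189))))))))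
noncomputable def xc213 : XT := (XT.nd (nat_lit 49608) (nat_lit 0) (nat_lit 1596) (XT.nd (nat_lit 702) (nat_lit 0) (nat_lit 0) (XT.nd (nat_lit 312) (nat_lit 76) (nat_lit 0) (XT.nd (nat_lit 156) (nat_lit 152) (nat_lit 0) (XT.nd (nat_lit 78) (nat_lit 0) (nat_lit 0) (XT.lf (nat_lit 0) (nat_lit 1157556186652) (nat_lit 76) (nat_lit 1148067949994) (nat_lit 76) (nat_lit 568805553260) (nat_lit 9) (nat_lit 4) (nat_lit 10) (nat_lit 5) (nat_lit 10) (nat_lit 4) (nat_lit 443) (nat_lit 389) (nat_lit 188)) (XT.lf (nat_lit 0) (nat_lit 2151959002676) (nat_lit 76) (nat_lit 747577312361) (nat_lit 76) (nat_lit 168314907416) (nat_lit 9) (nat_lit 4) (nat_lit 10) (nat_lit 5) (nat_lit 10) (nat_lit 4) (nat_lit 444) (nat_lit 389) (nat_lit 187))) (XT.nd (nat_lit 78) (nat_lit 76) (nat_lit 0) (XT.lf (nat_lit 0) (nat_lit 250997873446) (nat_lit 152) (nat_lit 57186835778) (nat_lit 76) (nat_lit 2968053419252) (nat_lit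 8) (nat_lit 5) (nat_lit 10) (nat_lit 5) (nat_lit 9) (nat_lit 4) (nat_lit 445) (nat_lit 389) (nat_lit 186)) (XT.lf (nat_lit 0) (nat_lit 721366218936) (nat_lit 152) (nat_lit 2592439582541) (nat_lit 0) (nat_lit 185012126727) (nat_lit 7) (nat_lit 5) (nat_lit 9) (nat_lit 4) (nat_lit 7) (nat_lit 4) (nat_lit 446) (nat_lit 389) (nat_lit 185)))) (XT.nd (nat_lit 156) (nat_lit 76) (nat_lit 0) (XT.nd (nat_lit 78) (nat_lit 0) (nat_lit 0) (XT.lf (nat_lit 0) (nat_lit 1238973020087) (nat_lit 152) (nat_lit 1796843450939) (nat_lit 0) (nat_lit 702618921843) (nat_lit 7) (nat_lit 5) (nat_lit 9) (nat_lit 4) (nat_lit 7) (nat_lit 4) (nat_lit 447) (nat_lit 389) (nat_lit 184)) (XT.lf (nat_lit 0) (nat_lit 1797988354434) (nat_lit 152) (nat_lit 937599650544) (nat_lit 0) (nat_lit 1261634250602) (nat_lit 7) (nat_lit 5) (nat_lit 9) (nat_lit 4) (nat_lit 7) (nat_lit 4) (nat_lit 448) (nat_lit 389) (nat_lit 183))) (XT.nd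 (nat_lit 78) (nat_lit 76) (nat_lit 0) (XT.lf (nat_lit 0) (nat_lit 2401724905440) (nat_lit 152) (nat_lit 9616366243) (nat_lit 0) (nat_lit 1865370796434) (nat_lit 7) (nat_lit 5) (nat_lit 9) (nat_lit 4) (nat_lit 7) (nat_lit 4) (nat_lit 449) (nat_lit 389) (nat_lit 182)) (XT.nd (nat_lit 78) (nat_lit 0) (nat_lit 0) (XT.lf (nat_lit 0) (nat_lit 1044874412024) (nat_lit 76) (nat_lit 2034015213900) (nat_lit 76) (nat_lit 1497661100102) (nat_lit 6) (nat_lit 4) (nat_lit 7) (nat_lit 5) (nat_lit 7) (nat_lit 4) (nat_lit 450) (nat_lit 389) (nat_lit 181)) (XT.lf (nat_lit 0) (nat_lit 2184271325660) (nat_lit 76) (nat_lit 1626219117795) (nat_lit 76) (nat_lit 1089864999562) (nat_lit 6) (nat_lit 4) (nat_lit 7) (nat_lit 5) (nat_lit 7) (nat_lit 4) (nat_lit 451) (nat_lit 389) (nat_lit 180)))))) (XT.nd (nat_lit 48516) (nat_lit 0) (nat_lit 3800) (XT.nd (nat_lit 48282) (nat_lit 0) (nat_lit 4180) (XT.nd (nat_lit 78)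 (nat_lit 0) (nat_lit 0) (XT.lf (nat_lit 0) (nat_lit 3414819975569) (nat_lit 76) (nat_lit 1185799342406) (nat_lit 76) (nat_lit 649445220065) (nat_lit 6) (nat_lit 4) (nat_lit 7) (nat_lit 5) (nat_lit 7) (nat_lit 4) (nat_lit 452) (nat_lit 389) (nat_lit 179)) (XT.lf (nat_lit 0) (nat_lit 4743812501900) (nat_lit 76) (nat_lit 710145992766) (nat_lit 76) (nat_lit 173791866623) (nat_lit 6) (nat_lit 4) (nat_lit 7) (nat_lit 5) (nat_lit 7) (nat_lit 4) (nat_lit 453) (nat_lit 389) (nat_lit 178))) (XT.nd (nat_lit 78) (nat_lit 0) (nat_lit 0) (XT.lf (nat_lit 0) (nat_lit 80820277617) (nat_lit 532) (nat_lit 7305833556) (nat_lit 532) (nat_lit 7305833556) (nat_lit 61) (nat_lit 3) (nat_lit 68) (nat_lit 3) (nat_lit 68) (nat_lit 5) (nat_lit 390) (nat_lit 390) (nat_lit 240)) (XT.nd (nat_lit 78) (nat_lit 0) (nat_lit 76) (XT.lf (nat_lit 76) (nat_lit 81470002420) (nat_lit 0) (nat_lit 88597205915) (nat_lit 532) (nat_lit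 28274352186) (nat_lit 62) (nat_lit 5) (nat_lit 61) (nat_lit 3) (nat_lit 68) (nat_lit 5) (nat_lit 391) (nat_lit 390) (nat_lit 239)) (XT.lf (nat_lit 0) (nat_lit 179723700032) (nat_lit 456) (nat_lit 20472777157) (nat_lit 532) (nat_lit 6176511774) (nat_lit 62) (nat_lit 5) (nat_lit 68) (nat_lit 5) (nat_lit 69) (nat_lit 5) (nat_lit 392) (nat_lit 390) (nat_lit 238))))) (XT.nd (nat_lit 156) (nat_lit 456) (nat_lit 0) (XT.nd (nat_lit 78) (nat_lit 0) (nat_lit 0) (XT.lf (nat_lit 76) (nat_lit 85619617401) (nat_lit 0) (nat_lit 108893317982) (nat_lit 532) (nat_lit 20185178543) (nat_lit 63) (nat_lit 5) (nat_lit 62) (nat_lit 5) (nat_lit 69) (nat_lit 5) (nat_lit 393) (nat_lit 390) (nat_lit 237)) (XT.lf (nat_lit 76) (nat_lit 201363608346) (nat_lit 0) (nat_lit 9681316680) (nat_lit 532) (nat_lit 12599554797) (nat_lit 63) (nat_lit 5) (nat_lit 62) (nat_lit 5) (nat_lit 69) (nat_lit 5) (nat_lit 394) (nat_lit 390)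 (nat_lit 236))) (XT.nd (nat_lit 78) (nat_lit 0) (nat_lit 0) (XT.lf (nat_lit 0) (nat_lit 574494560) (nat_lit 532) (nat_lit 137456530504) (nat_lit 608) (nat_lit 94903120058) (nat_lit 56) (nat_lit 5) (nat_lit 63) (nat_lit 5) (nat_lit 64) (nat_lit 5) (nat_lit 395) (nat_lit 390) (nat_lit 235)) (XT.nd (nat_lit 78) (nat_lit 0) (nat_lit 76) (XT.lf (nat_lit 0) (nat_lit 14998118684) (nat_lit 532) (nat_lit 19588991679) (nat_lit 608) (nat_lit 208283584205) (nat_lit 56) (nat_lit 5) (nat_lit 63) (nat_lit 5) (nat_lit 64) (nat_lit 5) (nat_lit 396) (nat_lit 390) (nat_lit 234)) (XT.lf (nat_lit 0) (nat_lit 35228152869) (nat_lit 532) (nat_lit 141930341694) (nat_lit 76) (nat_lit 76071471926) (nat_lit 57) (nat_lit 5) (nat_lit 64) (nat_lit 5) (nat_lit 58) (nat_lit 5) (nat_lit 397) (nat_lit 390) (nat_lit 233))))))) (XT.nd (nat_lit 780) (nat_lit 988) (nat_lit 0) (XT.nd (nat_lit 390) (nat_lit 456) (nat_lit 0) (XT.nd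 (nat_lit 156) (nat_lit 456) (nat_lit 0) (XT.nd (nat_lit 78) (nat_lit 380) (nat_lit 0) (XT.lf (nat_lit 0) (nat_lit 58524351725) (nat_lit 532) (nat_lit 11514144725) (nat_lit 76) (nat_lit 194263662877) (nat_lit 57) (nat_lit 5) (nat_lit 64) (nat_lit 5) (nat_lit 58) (nat_lit 5) (nat_lit 398) (nat_lit 390) (nat_lit 232)) (XT.lf (nat_lit 0) (nat_lit 88141408293) (nat_lit 456) (nat_lit 141035335763) (nat_lit 76) (nat_lit 46726810704) (nat_lit 52) (nat_lit 5) (nat_lit 58) (nat_lit 5) (nat_lit 53) (nat_lit 5) (nat_lit 399) (nat_lit 390) (nat_lit 231))) (XT.nd (nat_lit 78) (nat_lit 228) (nat_lit 0) (XT.lf (nat_lit 0) (nat_lit 3558669471) (nat_lit 228) (nat_lit 118796821941) (nat_lit 304) (nat_lit 165899357556) (nat_lit 49) (nat_lit 5) (nat_lit 52) (nat_lit 5) (nat_lit 53) (nat_lit 5) (nat_lit 400) (nat_lit 390) (nat_lit 230)) (XT.nd (nat_lit 78) (nat_lit 228) (nat_lit 0) (XT.lf (nat_lit 0) (nat_lit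 163272866388) (nat_lit 304) (nat_lit 133654969626) (nat_lit 76) (nat_lit 4349117575) (nat_lit 49) (nat_lit 5) (nat_lit 53) (nat_lit 5) (nat_lit 50) (nat_lit 5) (nat_lit 401) (nat_lit 390) (nat_lit 229)) (XT.lf (nat_lit 0) (nat_lit 27773127194) (nat_lit 228) (nat_lit 183443992095) (nat_lit 304) (nat_lit 103823428345) (nat_lit 46) (nat_lit 5) (nat_lit 49) (nat_lit 5) (nat_lit 50) (nat_lit 5) (nat_lit 402) (nat_lit 390) (nat_lit 228))))) (XT.nd (nat_lit 156) (nat_lit 304) (nat_lit 0) (XT.nd (nat_lit 78) (nat_lit 152) (nat_lit 0) (XT.lf (nat_lit 0) (nat_lit 209716448500) (nat_lit 228) (nat_lit 56934743593) (nat_lit 304) (nat_lit 62961694818) (nat_lit 46) (nat_lit 5) (nat_lit 49) (nat_lit 5) (nat_lit 50) (nat_lit 5) (nat_lit 403) (nat_lit 390) (nat_lit 227)) (XT.lf (nat_lit 0) (nat_lit 62051519575) (nat_lit 152) (nat_lit 267877406057) (nat_lit 228) (nat_lit 15149372980) (nat_lit 44) (nat_lit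 5) (nat_lit 46) (nat_lit 5) (nat_lit 47) (nat_lit 5) (nat_lit 404) (nat_lit 390) (nat_lit 226))) (XT.nd (nat_lit 78) (nat_lit 228) (nat_lit 0) (XT.lf (nat_lit 0) (nat_lit 39504736806) (nat_lit 228) (nat_lit 98586365629) (nat_lit 76) (nat_lit 223232271905) (nat_lit 43) (nat_lit 5) (nat_lit 46) (nat_lit 5) (nat_lit 44) (nat_lit 5) (nat_lit 405) (nat_lit 390) (nat_lit 225)) (XT.nd (nat_lit 78) (nat_lit 0) (nat_lit 0) (XT.lf (nat_lit 0) (nat_lit 100375848363) (nat_lit 304) (nat_lit 273266832375) (nat_lit 76) (nat_lit 4980845622) (nat_lit 40) (nat_lit 5) (nat_lit 44) (nat_lit 5) (nat_lit 41) (nat_lit 5) (nat_lit 406) (nat_lit 390) (nat_lit 224)) (XT.lf (nat_lit 0) (nat_lit 172468901867) (nat_lit 304) (nat_lit 69527046856) (nat_lit 76) (nat_lit 154803561632) (nat_lit 40) (nat_lit 5) (nat_lit 44) (nat_lit 5) (nat_lit 41) (nat_lit 5) (nat_lit 407) (nat_lit 390) (nat_lit 223)))))) (XT.nd (nat_lit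 390) (nat_lit 456) (nat_lit 0) (XT.nd (nat_lit 156) (nat_lit 380) (nat_lit 0) (XT.nd (nat_lit 78) (nat_lit 0) (nat_lit 0) (XT.lf (nat_lit 0) (nat_lit 158437519783) (nat_lit 152) (nat_lit 95702242635) (nat_lit 228) (nat_lit 161984981682) (nat_lit 38) (nat_lit 5) (nat_lit 40) (nat_lit 5) (nat_lit 41) (nat_lit 5) (nat_lit 408) (nat_lit 390) (nat_lit 222)) (XT.lf (nat_lit 0) (nat_lit 345792794835) (nat_lit 228) (nat_lit 29798262542) (nat_lit 76) (nat_lit 61129058973) (nat_lit 38) (nat_lit 5) (nat_lit 41) (nat_lit 5) (nat_lit 39) (nat_lit 5) (nat_lit 409) (nat_lit 390) (nat_lit 221))) (XT.nd (nat_lit 78) (nat_lit 228) (nat_lit 0) (XT.lf (nat_lit 0) (nat_lit 225096182823) (nat_lit 152) (nat_lit 227581171345) (nat_lit 228) (nat_lit 5653821509) (nat_lit 36) (nat_lit 5) (nat_lit 38) (nat_lit 5) (nat_lit 39) (nat_lit 5) (nat_lit 410) (nat_lit 390) (nat_lit 220)) (XT.nd (nat_lit 78) (nat_lit 0) (nat_lit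 0) (XT.lf (nat_lit 0) (nat_lit 19338098692) (nat_lit 152) (nat_lit 64080227980) (nat_lit 228) (nat_lit 397982405390) (nat_lit 33) (nat_lit 5) (nat_lit 35) (nat_lit 5) (nat_lit 36) (nat_lit 5) (nat_lit 411) (nat_lit 390) (nat_lit 219)) (XT.lf (nat_lit 0) (nat_lit 188559081586) (nat_lit 228) (nat_lit 203442593071) (nat_lit 76) (nat_lit 113562567089) (nat_lit 33) (nat_lit 5) (nat_lit 36) (nat_lit 5) (nat_lit 34) (nat_lit 5) (nat_lit 412) (nat_lit 390) (nat_lit 218))))) (XT.nd (nat_lit 156) (nat_lit 304) (nat_lit 0) (XT.nd (nat_lit 78) (nat_lit 0) (nat_lit 0) (XT.lf (nat_lit 0) (nat_lit 78109924140) (nat_lit 152) (nat_lit 227544089312) (nat_lit 228) (nat_lit 225723385459) (nat_lit 31) (nat_lit 5) (nat_lit 33) (nat_lit 5) (nat_lit 34) (nat_lit 5) (nat_lit 413) (nat_lit 390) (nat_lit 217)) (XT.lf (nat_lit 0) (nat_lit 393756525719) (nat_lit 152) (nat_lit 43922446551) (nat_lit 228) (nat_lit 121131641818)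 (nat_lit 31) (nat_lit 5) (nat_lit 33) (nat_lit 5) (nat_lit 34) (nat_lit 5) (nat_lit 414) (nat_lit 390) (nat_lit 216))) (XT.nd (nat_lit 78) (nat_lit 228) (nat_lit 0) (XT.lf (nat_lit 0) (nat_lit 150007204646) (nat_lit 76) (nat_lit 437579411783) (nat_lit 152) (nat_lit 266214986) (nat_lit 30) (nat_lit 5) (nat_lit 31) (nat_lit 5) (nat_lit 32) (nat_lit 4) (nat_lit 415) (nat_lit 390) (nat_lit 215)) (XT.nd (nat_lit 78) (nat_lit 152) (nat_lit 0) (XT.lf (nat_lit 0) (nat_lit 129522777009) (nat_lit 152) (nat_lit 123588317826) (nat_lit 76) (nat_lit 365395023674) (nat_lit 29) (nat_lit 5) (nat_lit 31) (nat_lit 5) (nat_lit 30) (nat_lit 5) (nat_lit 416) (nat_lit 390) (nat_lit 214)) (XT.lf (nat_lit 0) (nat_lit 227166373468) (nat_lit 152) (nat_lit 47977447260) (nat_lit 228) (nat_lit 376030229499) (nat_lit 27) (nat_lit 5) (nat_lit 29) (nat_lit 5) (nat_lit 30) (nat_lit 5) (nat_lit 417) (nat_lit 390) (nat_lit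 213))))))))
noncomputable def xc214 : XT := (XT.nd (nat_lit 1482) (nat_lit 532) (nat_lit 0) (XT.nd (nat_lit 702) (nat_lit 456) (nat_lit 0) (XT.nd (nat_lit 312) (nat_lit 304) (nat_lit 0) (XT.nd (nat_lit 156) (nat_lit 228) (nat_lit 0) (XT.nd (nat_lit 78) (nat_lit 76) (nat_lit 0) (XT.lf (nat_lit 0) (nat_lit 440055687895) (nat_lit 228) (nat_lit 77437197300) (nat_lit 76) (nat_lit 168351240113) (nat_lit 27) (nat_lit 5) (nat_lit 30) (nat_lit 5) (nat_lit 28) (nat_lit 4) (nat_lit 418) (nat_lit 390) (nat_lit 212)) (XT.lf (nat_lit 0) (nat_lit 311179128002) (nat_lit 76) (nat_lit 315711371393) (nat_lit 152) (nat_lit 95698907421) (nat_lit 26) (nat_lit 5) (nat_lit 27) (nat_lit 5) (nat_lit 28) (nat_lit 4) (nat_lit 419) (nat_lit 390) (nat_lit 211))) (XT.nd (nat_lit 78) (nat_lit 152) (nat_lit 0) (XT.lf (nat_lit 0) (nat_lit 65248525391) (nat_lit 152) (nat_lit 28468175896) (nat_lit 76) (nat_lit 668256081986)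 (nat_lit 25) (nat_lit 5) (nat_lit 27) (nat_lit 5) (nat_lit 26) (nat_lit 5) (nat_lit 420) (nat_lit 390) (nat_lit 210)) (XT.lf (nat_lit 0) (nat_lit 247416534280) (nat_lit 228) (nat_lit 404589588394) (nat_lit 76) (nat_lit 151220651664) (nat_lit 23) (nat_lit 5) (nat_lit 26) (nat_lit 5) (nat_lit 24) (nat_lit 4) (nat_lit 421) (nat_lit 390) (nat_lit 209)))) (XT.nd (nat_lit 156) (nat_lit 228) (nat_lit 0) (XT.nd (nat_lit 78) (nat_lit 0) (nat_lit 0) (XT.lf (nat_lit 0) (nat_lit 11954716596) (nat_lit 76) (nat_lit 435723531970) (nat_lit 152) (nat_lit 399821214959) (nat_lit 22) (nat_lit 5) (nat_lit 23) (nat_lit 5) (nat_lit 24) (nat_lit 4) (nat_lit 422) (nat_lit 390) (nat_lit 208)) (XT.lf (nat_lit 0) (nat_lit 484831874568) (nat_lit 76) (nat_lit 190191188518) (nat_lit 152) (nat_lit 219405931728) (nat_lit 22) (nat_lit 5) (nat_lit 23) (nat_lit 5) (nat_lit 24) (nat_lit 4) (nat_lit 423) (nat_lit 390) (nat_lit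 207))) (XT.nd (nat_lit 78) (nat_lit 152) (nat_lit 0) (XT.lf (nat_lit 0) (nat_lit 51183294167) (nat_lit 76) (nat_lit 872406457484) (nat_lit 76) (nat_lit 21280393857) (nat_lit 21) (nat_lit 4) (nat_lit 22) (nat_lit 5) (nat_lit 22) (nat_lit 4) (nat_lit 424) (nat_lit 390) (nat_lit 206)) (XT.nd (nat_lit 78) (nat_lit 76) (nat_lit 0) (XT.lf (nat_lit 0) (nat_lit 199485790178) (nat_lit 152) (nat_lit 436195664690) (nat_lit 76) (nat_lit 361979987743) (nat_lit 20) (nat_lit 5) (nat_lit 22) (nat_lit 5) (nat_lit 21) (nat_lit 4) (nat_lit 425) (nat_lit 390) (nat_lit 205)) (XT.lf (nat_lit 0) (nat_lit 60361555661) (nat_lit 76) (nat_lit 377853687249) (nat_lit 152) (nat_lit 616300448145) (nat_lit 19) (nat_lit 5) (nat_lit 20) (nat_lit 5) (nat_lit 21) (nat_lit 4) (nat_lit 426) (nat_lit 390) (nat_lit 204)))))) (XT.nd (nat_lit 390) (nat_lit 228) (nat_lit 0) (XT.nd (nat_lit 156) (nat_lit 152) (nat_lit 0) (XT.nd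 (nat_lit 78) (nat_lit 76) (nat_lit 0) (XT.lf (nat_lit 0) (nat_lit 621450135735) (nat_lit 76) (nat_lit 86519250609) (nat_lit 152) (nat_lit 406994786280) (nat_lit 19) (nat_lit 5) (nat_lit 20) (nat_lit 5) (nat_lit 21) (nat_lit 4) (nat_lit 427) (nat_lit 390) (nat_lit 203)) (XT.lf (nat_lit 0) (nat_lit 43886249710) (nat_lit 76) (nat_lit 961959388617) (nat_lit 76) (nat_lit 173879552232) (nat_lit 18) (nat_lit 4) (nat_lit 19) (nat_lit 5) (nat_lit 19) (nat_lit 4) (nat_lit 428) (nat_lit 390) (nat_lit 202))) (XT.nd (nat_lit 78) (nat_lit 76) (nat_lit 0) (XT.lf (nat_lit 0) (nat_lit 90080039437) (nat_lit 152) (nat_lit 600713384733) (nat_lit 76) (nat_lit 557436514504) (nat_lit 17) (nat_lit 5) (nat_lit 19) (nat_lit 5) (nat_lit 18) (nat_lit 4) (nat_lit 429) (nat_lit 390) (nat_lit 201)) (XT.nd (nat_lit 78) (nat_lit 76) (nat_lit 0) (XT.lf (nat_lit 0) (nat_lit 365762361891) (nat_lit 152) (nat_lit 27294182158)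 (nat_lit 76) (nat_lit 928797216385) (nat_lit 17) (nat_lit 5) (nat_lit 19) (nat_lit 5) (nat_lit 18) (nat_lit 4) (nat_lit 430) (nat_lit 390) (nat_lit 200)) (XT.lf (nat_lit 0) (nat_lit 623172106641) (nat_lit 76) (nat_lit 55314445078) (nat_lit 152) (nat_lit 721681953694) (nat_lit 16) (nat_lit 5) (nat_lit 17) (nat_lit 5) (nat_lit 18) (nat_lit 4) (nat_lit 431) (nat_lit 390) (nat_lit 199))))) (XT.nd (nat_lit 156) (nat_lit 152) (nat_lit 0) (XT.nd (nat_lit 78) (nat_lit 76) (nat_lit 0) (XT.lf (nat_lit 0) (nat_lit 1024436517661) (nat_lit 152) (nat_lit 164922420229) (nat_lit 0) (nat_lit 294732864834) (nat_lit 16) (nat_lit 5) (nat_lit 18) (nat_lit 4) (nat_lit 16) (nat_lit 4) (nat_lit 432) (nat_lit 390) (nat_lit 198)) (XT.lf (nat_lit 0) (nat_lit 520729707027) (nat_lit 76) (nat_lit 891293053945) (nat_lit 76) (nat_lit 161589380444) (nat_lit 15) (nat_lit 4) (nat_lit 16) (nat_lit 5) (nat_lit 16) (nat_lit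 4) (nat_lit 433) (nat_lit 390) (nat_lit 197))) (XT.nd (nat_lit 78) (nat_lit 76) (nat_lit 0) (XT.lf (nat_lit 0) (nat_lit 156928225503) (nat_lit 152) (nat_lit 403292983597) (nat_lit 76) (nat_lit 1109394328701) (nat_lit 14) (nat_lit 5) (nat_lit 16) (nat_lit 5) (nat_lit 15) (nat_lit 4) (nat_lit 434) (nat_lit 390) (nat_lit 196)) (XT.nd (nat_lit 78) (nat_lit 0) (nat_lit 0) (XT.lf (nat_lit 0) (nat_lit 309551478336) (nat_lit 76) (nat_lit 190090439311) (nat_lit 152) (nat_lit 1272725942001) (nat_lit 13) (nat_lit 5) (nat_lit 14) (nat_lit 5) (nat_lit 15) (nat_lit 4) (nat_lit 435) (nat_lit 390) (nat_lit 195)) (XT.lf (nat_lit 0) (nat_lit 886127946609) (nat_lit 152) (nat_lit 785427653588) (nat_lit 0) (nat_lit 210476347734) (nat_lit 13) (nat_lit 5) (nat_lit 15) (nat_lit 4) (nat_lit 13) (nat_lit 4) (nat_lit 436) (nat_lit 390) (nat_lit 194))))))) (XT.nd (nat_lit 780) (nat_lit 152) (nat_lit 0) (XT.nd (nat_lit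 390) (nat_lit 152) (nat_lit 0) (XT.nd (nat_lit 156) (nat_lit 152) (nat_lit 0) (XT.nd (nat_lit 78) (nat_lit 76) (nat_lit 0) (XT.lf (nat_lit 0) (nat_lit 1308470254329) (nat_lit 152) (nat_lit 58785275853) (nat_lit 0) (nat_lit 632818641383) (nat_lit 13) (nat_lit 5) (nat_lit 15) (nat_lit 4) (nat_lit 13) (nat_lit 4) (nat_lit 437) (nat_lit 390) (nat_lit 193)) (XT.lf (nat_lit 0) (nat_lit 764217726200) (nat_lit 76) (nat_lit 1018761658896) (nat_lit 76) (nat_lit 343110032922) (nat_lit 12) (nat_lit 4) (nat_lit 13) (nat_lit 5) (nat_lit 13) (nat_lit 4) (nat_lit 438) (nat_lit 390) (nat_lit 192))) (XT.nd (nat_lit 78) (nat_lit 76) (nat_lit 0) (XT.lf (nat_lit 0) (nat_lit 33248419335) (nat_lit 152) (nat_lit 606494925821) (nat_lit 76) (nat_lit 1622246618239) (nat_lit 11) (nat_lit 5) (nat_lit 13) (nat_lit 5) (nat_lit 12) (nat_lit 4) (nat_lit 439) (nat_lit 390) (nat_lit 191)) (XT.nd (nat_lit 78) (nat_lit 0)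 (nat_lit 0) (XT.lf (nat_lit 0) (nat_lit 210952712206) (nat_lit 76) (nat_lit 215299384627) (nat_lit 152) (nat_lit 1981391627435) (nat_lit 10) (nat_lit 5) (nat_lit 11) (nat_lit 5) (nat_lit 12) (nat_lit 4) (nat_lit 440) (nat_lit 390) (nat_lit 190)) (XT.lf (nat_lit 0) (nat_lit 873555980834) (nat_lit 152) (nat_lit 1441612419834) (nat_lit 0) (nat_lit 247952592361) (nat_lit 10) (nat_lit 5) (nat_lit 12) (nat_lit 4) (nat_lit 10) (nat_lit 4) (nat_lit 441) (nat_lit 390) (nat_lit 189))))) (XT.nd (nat_lit 156) (nat_lit 76) (nat_lit 0) (XT.nd (nat_lit 78) (nat_lit 76) (nat_lit 0) (XT.lf (nat_lit 0) (nat_lit 1362236353541) (nat_lit 152) (nat_lit 631719759314) (nat_lit 0) (nat_lit 736632956200) (nat_lit 10) (nat_lit 5) (nat_lit 12) (nat_lit 4) (nat_lit 10) (nat_lit 4) (nat_lit 442) (nat_lit 390) (nat_lit 188)) (XT.lf (nat_lit 0) (nat_lit 255758357669) (nat_lit 76) (nat_lit 1640403780249) (nat_lit 76)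 (nat_lit 1014800374698) (nat_lit 9) (nat_lit 4) (nat_lit 10) (nat_lit 5) (nat_lit 10) (nat_lit 4) (nat_lit 443) (nat_lit 390) (nat_lit 187))) (XT.nd (nat_lit 78) (nat_lit 76) (nat_lit 0) (XT.lf (nat_lit 0) (nat_lit 1250161161858) (nat_lit 76) (nat_lit 1239913148469) (nat_lit 76) (nat_lit 614309735315) (nat_lit 9) (nat_lit 4) (nat_lit 10) (nat_lit 5) (nat_lit 10) (nat_lit 4) (nat_lit 444) (nat_lit 390) (nat_lit 186)) (XT.nd (nat_lit 78) (nat_lit 76) (nat_lit 0) (XT.lf (nat_lit 0) (nat_lit 2324116167588) (nat_lit 76) (nat_lit 807383277419) (nat_lit 76) (nat_lit 181779857226) (nat_lit 9) (nat_lit 4) (nat_lit 10) (nat_lit 5) (nat_lit 10) (nat_lit 4) (nat_lit 445) (nat_lit 390) (nat_lit 185)) (XT.lf (nat_lit 0) (nat_lit 271077916875) (nat_lit 152) (nat_lit 61761359609) (nat_lit 76) (nat_lit 3205497885158) (nat_lit 8) (nat_lit 5) (nat_lit 10) (nat_lit 5) (nat_lit 9) (nat_lit 4) (nat_lit 446)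 (nat_lit 390) (nat_lit 184)))))) (XT.nd (nat_lit 390) (nat_lit 0) (nat_lit 0) (XT.nd (nat_lit 156) (nat_lit 76) (nat_lit 0) (XT.nd (nat_lit 78) (nat_lit 0) (nat_lit 0) (XT.lf (nat_lit 0) (nat_lit 779075729025) (nat_lit 152) (nat_lit 2799834325105) (nat_lit 0) (nat_lit 199813291297) (nat_lit 7) (nat_lit 5) (nat_lit 9) (nat_lit 4) (nat_lit 7) (nat_lit 4) (nat_lit 447) (nat_lit 390) (nat_lit 183)) (XT.lf (nat_lit 0) (nat_lit 1338091058521) (nat_lit 152) (nat_lit 1940590534386) (nat_lit 0) (nat_lit 758828615620) (nat_lit 7) (nat_lit 5) (nat_lit 9) (nat_lit 4) (nat_lit 7) (nat_lit 4) (nat_lit 448) (nat_lit 390) (nat_lit 182))) (XT.nd (nat_lit 78) (nat_lit 76) (nat_lit 0) (XT.lf (nat_lit 0) (nat_lit 1941827605036) (nat_lit 152) (nat_lit 1012607259043) (nat_lit 0) (nat_lit 1362565157345) (nat_lit 7) (nat_lit 5) (nat_lit 9) (nat_lit 4) (nat_lit 7) (nat_lit 4) (nat_lit 449) (nat_lit 390) (nat_lit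 181)) (XT.nd (nat_lit 78) (nat_lit 76) (nat_lit 0) (XT.lf (nat_lit 0) (nat_lit 2593863066623) (nat_lit 152) (nat_lit 10385338926) (nat_lit 0) (nat_lit 2014600614496) (nat_lit 7) (nat_lit 5) (nat_lit 9) (nat_lit 4) (nat_lit 7) (nat_lit 4) (nat_lit 450) (nat_lit 390) (nat_lit 180)) (XT.lf (nat_lit 0) (nat_lit 1128464693080) (nat_lit 76) (nat_lit 2196736267056) (nat_lit 76) (nat_lit 1617473810822) (nat_lit 6) (nat_lit 4) (nat_lit 7) (nat_lit 5) (nat_lit 7) (nat_lit 4) (nat_lit 451) (nat_lit 390) (nat_lit 179))))) (XT.nd (nat_lit 48360) (nat_lit 0) (nat_lit 4180) (XT.nd (nat_lit 78) (nat_lit 0) (nat_lit 0) (XT.lf (nat_lit 0) (nat_lit 2359013335503) (nat_lit 76) (nat_lit 1756316495408) (nat_lit 76) (nat_lit 1177054035370) (nat_lit 6) (nat_lit 4) (nat_lit 7) (nat_lit 5) (nat_lit 7) (nat_lit 4) (nat_lit 452) (nat_lit 390) (nat_lit 178)) (XT.lf (nat_lit 0) (nat_lit 3688005854902) (nat_lit 76)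 (nat_lit 1280663149233) (nat_lit 76) (nat_lit 701400685674) (nat_lit 6) (nat_lit 4) (nat_lit 7) (nat_lit 5) (nat_lit 7) (nat_lit 4) (nat_lit 453) (nat_lit 390) (nat_lit 177))) (XT.nd (nat_lit 78) (nat_lit 0) (nat_lit 0) (XT.lf (nat_lit 0) (nat_lit 87287534908) (nat_lit 532) (nat_lit 7889416298) (nat_lit 532) (nat_lit 7889416298) (nat_lit 61) (nat_lit 3) (nat_lit 68) (nat_lit 3) (nat_lit 68) (nat_lit 5) (nat_lit 391) (nat_lit 391) (nat_lit 238)) (XT.nd (nat_lit 78) (nat_lit 0) (nat_lit 76) (XT.lf (nat_lit 76) (nat_lit 87989325742) (nat_lit 0) (nat_lit 95686328629) (nat_lit 532) (nat_lit 30532981744) (nat_lit 62) (nat_lit 5) (nat_lit 61) (nat_lit 3) (nat_lit 68) (nat_lit 5) (nat_lit 392) (nat_lit 391) (nat_lit 237)) (XT.lf (nat_lit 0) (nat_lit 194104408064) (nat_lit 456) (nat_lit 22108743077) (nat_lit 532) (nat_lit 6669448553) (nat_lit 62) (nat_lit 5) (nat_lit 68) (nat_lit 5) (nat_lit 69)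 (nat_lit 5) (nat_lit 393) (nat_lit 391) (nat_lit 236))))))))
noncomputable def xc215 : XT := (XT.nd (nat_lit 1482) (nat_lit 1292) (nat_lit 0) (XT.nd (nat_lit 702) (nat_lit 1216) (nat_lit 0) (XT.nd (nat_lit 312) (nat_lit 532) (nat_lit 0) (XT.nd (nat_lit 156) (nat_lit 456) (nat_lit 0) (XT.nd (nat_lit 78) (nat_lit 0) (nat_lit 0) (XT.lf (nat_lit 76) (nat_lit 92470996052) (nat_lit 0) (nat_lit 117605621405) (nat_lit 532) (nat_lit 21797130633) (nat_lit 63) (nat_lit 5) (nat_lit 62) (nat_lit 5) (nat_lit 69) (nat_lit 5) (nat_lit 394) (nat_lit 391) (nat_lit 235)) (XT.lf (nat_lit 76) (nat_lit 217474372254) (nat_lit 0) (nat_lit 10456597926) (nat_lit 532) (nat_lit 13604869002) (nat_lit 63) (nat_lit 5) (nat_lit 62) (nat_lit 5) (nat_lit 69) (nat_lit 5) (nat_lit 395) (nat_lit 391) (nat_lit 234))) (XT.nd (nat_lit 78) (nat_lit 0) (nat_lit 0) (XT.lf (nat_lit 0) (nat_lit 622813040) (nat_lit 532) (nat_lit 148451081204)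 (nat_lit 608) (nat_lit 102494791257) (nat_lit 56) (nat_lit 5) (nat_lit 63) (nat_lit 5) (nat_lit 64) (nat_lit 5) (nat_lit 396) (nat_lit 391) (nat_lit 233)) (XT.lf (nat_lit 0) (nat_lit 16200152360) (nat_lit 532) (nat_lit 21154285329) (nat_lit 608) (nat_lit 224945735380) (nat_lit 56) (nat_lit 5) (nat_lit 63) (nat_lit 5) (nat_lit 64) (nat_lit 5) (nat_lit 397) (nat_lit 391) (nat_lit 232)))) (XT.nd (nat_lit 156) (nat_lit 608) (nat_lit 0) (XT.nd (nat_lit 78) (nat_lit 0) (nat_lit 0) (XT.lf (nat_lit 0) (nat_lit 38048463413) (nat_lit 532) (nat_lit 153282815320) (nat_lit 76) (nat_lit 82156918253) (nat_lit 57) (nat_lit 5) (nat_lit 64) (nat_lit 5) (nat_lit 58) (nat_lit 5) (nat_lit 398) (nat_lit 391) (nat_lit 231)) (XT.lf (nat_lit 0) (nat_lit 63208205710) (nat_lit 532) (nat_lit 12433467313) (nat_lit 76) (nat_lit 209804504585) (nat_lit 57) (nat_lit 5) (nat_lit 64) (nat_lit 5) (nat_lit 58) (nat_lit 5)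 (nat_lit 399) (nat_lit 391) (nat_lit 230))) (XT.nd (nat_lit 78) (nat_lit 228) (nat_lit 0) (XT.lf (nat_lit 0) (nat_lit 95194526979) (nat_lit 456) (nat_lit 152316251959) (nat_lit 76) (nat_lit 50464913872) (nat_lit 52) (nat_lit 5) (nat_lit 58) (nat_lit 5) (nat_lit 53) (nat_lit 5) (nat_lit 400) (nat_lit 391) (nat_lit 229)) (XT.nd (nat_lit 78) (nat_lit 0) (nat_lit 0) (XT.lf (nat_lit 0) (nat_lit 3845225322) (nat_lit 228) (nat_lit 128300422433) (nat_lit 304) (nat_lit 179169450054) (nat_lit 49) (nat_lit 5) (nat_lit 52) (nat_lit 5) (nat_lit 53) (nat_lit 5) (nat_lit 401) (nat_lit 391) (nat_lit 228)) (XT.lf (nat_lit 0) (nat_lit 176336288778) (nat_lit 304) (nat_lit 144345517311) (nat_lit 76) (nat_lit 4697174755) (nat_lit 49) (nat_lit 5) (nat_lit 53) (nat_lit 5) (nat_lit 50) (nat_lit 5) (nat_lit 402) (nat_lit 391) (nat_lit 227)))))) (XT.nd (nat_lit 390) (nat_lit 532) (nat_lit 0) (XT.nd (nat_lit 156)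 (nat_lit 456) (nat_lit 0) (XT.nd (nat_lit 78) (nat_lit 0) (nat_lit 0) (XT.lf (nat_lit 0) (nat_lit 29996780422) (nat_lit 228) (nat_lit 198119226846) (nat_lit 304) (nat_lit 112127661233) (nat_lit 46) (nat_lit 5) (nat_lit 49) (nat_lit 5) (nat_lit 50) (nat_lit 5) (nat_lit 403) (nat_lit 391) (nat_lit 226)) (XT.lf (nat_lit 0) (nat_lit 226495433873) (nat_lit 228) (nat_lit 61489259547) (nat_lit 304) (nat_lit 67997110608) (nat_lit 46) (nat_lit 5) (nat_lit 49) (nat_lit 5) (nat_lit 50) (nat_lit 5) (nat_lit 404) (nat_lit 391) (nat_lit 225))) (XT.nd (nat_lit 78) (nat_lit 304) (nat_lit 0) (XT.lf (nat_lit 0) (nat_lit 67017373145) (nat_lit 152) (nat_lit 289307215875) (nat_lit 228) (nat_lit 16359864275) (nat_lit 44) (nat_lit 5) (nat_lit 46) (nat_lit 5) (nat_lit 47) (nat_lit 5) (nat_lit 405) (nat_lit 391) (nat_lit 224)) (XT.nd (nat_lit 78) (nat_lit 228) (nat_lit 0) (XT.lf (nat_lit 0) (nat_lit 42666398696)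 (nat_lit 228) (nat_lit 106471602534) (nat_lit 76) (nat_lit 241091139342) (nat_lit 43) (nat_lit 5) (nat_lit 46) (nat_lit 5) (nat_lit 44) (nat_lit 5) (nat_lit 406) (nat_lit 391) (nat_lit 223)) (XT.lf (nat_lit 0) (nat_lit 108407153036) (nat_lit 304) (nat_lit 295126459479) (nat_lit 76) (nat_lit 5379696011) (nat_lit 40) (nat_lit 5) (nat_lit 44) (nat_lit 5) (nat_lit 41) (nat_lit 5) (nat_lit 407) (nat_lit 391) (nat_lit 222))))) (XT.nd (nat_lit 156) (nat_lit 380) (nat_lit 0) (XT.nd (nat_lit 78) (nat_lit 152) (nat_lit 0) (XT.lf (nat_lit 0) (nat_lit 186267559205) (nat_lit 304) (nat_lit 75087618488) (nat_lit 76) (nat_lit 167188200950) (nat_lit 40) (nat_lit 5) (nat_lit 44) (nat_lit 5) (nat_lit 41) (nat_lit 5) (nat_lit 408) (nat_lit 391) (nat_lit 221)) (XT.lf (nat_lit 0) (nat_lit 171114073176) (nat_lit 152) (nat_lit 103357967917) (nat_lit 228) (nat_lit 174942593864) (nat_lit 38) (nat_lit 5) (nat_lit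 40) (nat_lit 5) (nat_lit 41) (nat_lit 5) (nat_lit 409) (nat_lit 391) (nat_lit 220))) (XT.nd (nat_lit 78) (nat_lit 380) (nat_lit 0) (XT.lf (nat_lit 0) (nat_lit 373457244906) (nat_lit 228) (nat_lit 32180614693) (nat_lit 76) (nat_lit 66019783146) (nat_lit 38) (nat_lit 5) (nat_lit 41) (nat_lit 5) (nat_lit 39) (nat_lit 5) (nat_lit 410) (nat_lit 391) (nat_lit 219)) (XT.nd (nat_lit 78) (nat_lit 228) (nat_lit 0) (XT.lf (nat_lit 0) (nat_lit 243105348102) (nat_lit 152) (nat_lit 245787180217) (nat_lit 228) (nat_lit 6105061812) (nat_lit 36) (nat_lit 5) (nat_lit 38) (nat_lit 5) (nat_lit 39) (nat_lit 5) (nat_lit 411) (nat_lit 391) (nat_lit 218)) (XT.lf (nat_lit 0) (nat_lit 20886632619) (nat_lit 152) (nat_lit 69206133075) (nat_lit 228) (nat_lit 429819946473) (nat_lit 33) (nat_lit 5) (nat_lit 35) (nat_lit 5) (nat_lit 36) (nat_lit 5) (nat_lit 412) (nat_lit 391) (nat_lit 217))))))) (XT.nd (nat_lit 780)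 (nat_lit 532) (nat_lit 0) (XT.nd (nat_lit 390) (nat_lit 456) (nat_lit 0) (XT.nd (nat_lit 156) (nat_lit 152) (nat_lit 0) (XT.nd (nat_lit 78) (nat_lit 152) (nat_lit 0) (XT.lf (nat_lit 0) (nat_lit 203644720362) (nat_lit 228) (nat_lit 219716563340) (nat_lit 76) (nat_lit 122648023821) (nat_lit 33) (nat_lit 5) (nat_lit 36) (nat_lit 5) (nat_lit 34) (nat_lit 5) (nat_lit 413) (nat_lit 391) (nat_lit 216)) (XT.lf (nat_lit 0) (nat_lit 84360118864) (nat_lit 152) (nat_lit 245747094028) (nat_lit 228) (nat_lit 243780307122) (nat_lit 31) (nat_lit 5) (nat_lit 33) (nat_lit 5) (nat_lit 34) (nat_lit 5) (nat_lit 414) (nat_lit 391) (nat_lit 215))) (XT.nd (nat_lit 78) (nat_lit 152) (nat_lit 0) (XT.lf (nat_lit 0) (nat_lit 425258344807) (nat_lit 152) (nat_lit 47435758545) (nat_lit 228) (nat_lit 130821294298) (nat_lit 31) (nat_lit 5) (nat_lit 33) (nat_lit 5) (nat_lit 34) (nat_lit 5) (nat_lit 415) (nat_lit 391) (nat_lit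 214)) (XT.nd (nat_lit 78) (nat_lit 76) (nat_lit 0) (XT.lf (nat_lit 0) (nat_lit 162009097777) (nat_lit 76) (nat_lit 472585243462) (nat_lit 152) (nat_lit 286652586) (nat_lit 30) (nat_lit 5) (nat_lit 31) (nat_lit 5) (nat_lit 32) (nat_lit 4) (nat_lit 416) (nat_lit 391) (nat_lit 213)) (XT.lf (nat_lit 0) (nat_lit 139885355279) (nat_lit 152) (nat_lit 133474123818) (nat_lit 76) (nat_lit 394627068007) (nat_lit 29) (nat_lit 5) (nat_lit 31) (nat_lit 5) (nat_lit 30) (nat_lit 5) (nat_lit 417) (nat_lit 391) (nat_lit 212))))) (XT.nd (nat_lit 156) (nat_lit 304) (nat_lit 0) (XT.nd (nat_lit 78) (nat_lit 0) (nat_lit 0) (XT.lf (nat_lit 0) (nat_lit 245340910895) (nat_lit 152) (nat_lit 51815145115) (nat_lit 228) (nat_lit 406111859497) (nat_lit 27) (nat_lit 5) (nat_lit 29) (nat_lit 5) (nat_lit 30) (nat_lit 5) (nat_lit 418) (nat_lit 391) (nat_lit 211)) (XT.lf (nat_lit 0) (nat_lit 475260829592) (nat_lit 228) (nat_lit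 83630993165) (nat_lit 76) (nat_lit 181819777301) (nat_lit 27) (nat_lit 5) (nat_lit 30) (nat_lit 5) (nat_lit 28) (nat_lit 4) (nat_lit 419) (nat_lit 391) (nat_lit 210))) (XT.nd (nat_lit 78) (nat_lit 228) (nat_lit 0) (XT.lf (nat_lit 0) (nat_lit 336074608289) (nat_lit 76) (nat_lit 340967794518) (nat_lit 152) (nat_lit 103354103163) (nat_lit 26) (nat_lit 5) (nat_lit 27) (nat_lit 5) (nat_lit 28) (nat_lit 4) (nat_lit 420) (nat_lit 391) (nat_lit 209)) (XT.nd (nat_lit 78) (nat_lit 152) (nat_lit 0) (XT.lf (nat_lit 0) (nat_lit 70469037970) (nat_lit 152) (nat_lit 30744531636) (nat_lit 76) (nat_lit 721716985614) (nat_lit 25) (nat_lit 5) (nat_lit 27) (nat_lit 5) (nat_lit 26) (nat_lit 5) (nat_lit 421) (nat_lit 391) (nat_lit 208)) (XT.lf (nat_lit 0) (nat_lit 267210477695) (nat_lit 228) (nat_lit 436955647007) (nat_lit 76) (nat_lit 163318741678) (nat_lit 23) (nat_lit 5) (nat_lit 26) (nat_lit 5) (nat_lit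 24) (nat_lit 4) (nat_lit 422) (nat_lit 391) (nat_lit 207)))))) (XT.nd (nat_lit 390) (nat_lit 228) (nat_lit 0) (XT.nd (nat_lit 156) (nat_lit 228) (nat_lit 0) (XT.nd (nat_lit 78) (nat_lit 0) (nat_lit 0) (XT.lf (nat_lit 0) (nat_lit 12912174320) (nat_lit 76) (nat_lit 470580934813) (nat_lit 152) (nat_lit 431806263189) (nat_lit 22) (nat_lit 5) (nat_lit 23) (nat_lit 5) (nat_lit 24) (nat_lit 4) (nat_lit 423) (nat_lit 391) (nat_lit 206)) (XT.lf (nat_lit 0) (nat_lit 523619424900) (nat_lit 76) (nat_lit 205406039419) (nat_lit 152) (nat_lit 236957805372) (nat_lit 22) (nat_lit 5) (nat_lit 23) (nat_lit 5) (nat_lit 24) (nat_lit 4) (nat_lit 424) (nat_lit 391) (nat_lit 205))) (XT.nd (nat_lit 78) (nat_lit 152) (nat_lit 0) (XT.lf (nat_lit 0) (nat_lit 55278965906) (nat_lit 76) (nat_lit 942198515003) (nat_lit 76) (nat_lit 22982232112) (nat_lit 21) (nat_lit 4) (nat_lit 22) (nat_lit 5) (nat_lit 22) (nat_lit 4)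 (nat_lit 425) (nat_lit 391) (nat_lit 204)) (XT.nd (nat_lit 78) (nat_lit 76) (nat_lit 0) (XT.lf (nat_lit 0) (nat_lit 215445175223) (nat_lit 152) (nat_lit 471090356693) (nat_lit 76) (nat_lit 390938784188) (nat_lit 20) (nat_lit 5) (nat_lit 22) (nat_lit 5) (nat_lit 21) (nat_lit 4) (nat_lit 426) (nat_lit 391) (nat_lit 203)) (XT.lf (nat_lit 0) (nat_lit 65191416954) (nat_lit 76) (nat_lit 408081551097) (nat_lit 152) (nat_lit 665603937675) (nat_lit 19) (nat_lit 5) (nat_lit 20) (nat_lit 5) (nat_lit 21) (nat_lit 4) (nat_lit 427) (nat_lit 391) (nat_lit 202))))) (XT.nd (nat_lit 156) (nat_lit 152) (nat_lit 0) (XT.nd (nat_lit 78) (nat_lit 76) (nat_lit 0) (XT.lf (nat_lit 0) (nat_lit 671167014037) (nat_lit 76) (nat_lit 93440391462) (nat_lit 152) (nat_lit 439553863329) (nat_lit 19) (nat_lit 5) (nat_lit 20) (nat_lit 5) (nat_lit 21) (nat_lit 4) (nat_lit 428) (nat_lit 391) (nat_lit 201)) (XT.lf (nat_lit 0)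 (nat_lit 47398022466) (nat_lit 76) (nat_lit 1038915730370) (nat_lit 76) (nat_lit 187789415758) (nat_lit 18) (nat_lit 4) (nat_lit 19) (nat_lit 5) (nat_lit 19) (nat_lit 4) (nat_lit 429) (nat_lit 391) (nat_lit 200))) (XT.nd (nat_lit 78) (nat_lit 76) (nat_lit 0) (XT.lf (nat_lit 0) (nat_lit 97286882971) (nat_lit 152) (nat_lit 648769624077) (nat_lit 76) (nat_lit 602031791374) (nat_lit 17) (nat_lit 5) (nat_lit 19) (nat_lit 5) (nat_lit 18) (nat_lit 4) (nat_lit 430) (nat_lit 391) (nat_lit 199)) (XT.nd (nat_lit 78) (nat_lit 76) (nat_lit 0) (XT.lf (nat_lit 0) (nat_lit 395023758600) (nat_lit 152) (nat_lit 29476946884) (nat_lit 76) (nat_lit 1003101323057) (nat_lit 17) (nat_lit 5) (nat_lit 19) (nat_lit 5) (nat_lit 18) (nat_lit 4) (nat_lit 431) (nat_lit 391) (nat_lit 198)) (XT.lf (nat_lit 0) (nat_lit 673026625529) (nat_lit 76) (nat_lit 59739245927) (nat_lit 152) (nat_lit 779416082643) (nat_lit 16) (nat_lit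 5) (nat_lit 17) (nat_lit 5) (nat_lit 18) (nat_lit 4) (nat_lit 432) (nat_lit 391) (nat_lit 197))))))))
noncomputable def xc216 : XT := (XT.nd (nat_lit 1482) (nat_lit 76) (nat_lit 0) (XT.nd (nat_lit 702) (nat_lit 228) (nat_lit 0) (XT.nd (nat_lit 312) (nat_lit 228) (nat_lit 0) (XT.nd (nat_lit 156) (nat_lit 152) (nat_lit 0) (XT.nd (nat_lit 78) (nat_lit 76) (nat_lit 0) (XT.lf (nat_lit 0) (nat_lit 1106391813269) (nat_lit 152) (nat_lit 178115497577) (nat_lit 0) (nat_lit 318311806068) (nat_lit 16) (nat_lit 5) (nat_lit 18) (nat_lit 4) (nat_lit 16) (nat_lit 4) (nat_lit 433) (nat_lit 391) (nat_lit 196)) (XT.lf (nat_lit 0) (nat_lit 562388781727) (nat_lit 76) (nat_lit 962596163392) (nat_lit 76) (nat_lit 174516138465) (nat_lit 15) (nat_lit 4) (nat_lit 16) (nat_lit 5) (nat_lit 16) (nat_lit 4) (nat_lit 434) (nat_lit 391) (nat_lit 195))) (XT.nd (nat_lit 78) (nat_lit 76) (nat_lit 0) (XT.lf (nat_lit 0) (nat_lit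 169482828714) (nat_lit 152) (nat_lit 435555757613) (nat_lit 76) (nat_lit 1198146166812) (nat_lit 14) (nat_lit 5) (nat_lit 16) (nat_lit 5) (nat_lit 15) (nat_lit 4) (nat_lit 435) (nat_lit 391) (nat_lit 194)) (XT.lf (nat_lit 0) (nat_lit 334316244448) (nat_lit 76) (nat_lit 205297361794) (nat_lit 152) (nat_lit 1374543655296) (nat_lit 13) (nat_lit 5) (nat_lit 14) (nat_lit 5) (nat_lit 15) (nat_lit 4) (nat_lit 436) (nat_lit 391) (nat_lit 193)))) (XT.nd (nat_lit 156) (nat_lit 228) (nat_lit 0) (XT.nd (nat_lit 78) (nat_lit 0) (nat_lit 0) (XT.lf (nat_lit 0) (nat_lit 957018499654) (nat_lit 152) (nat_lit 848261248090) (nat_lit 0) (nat_lit 227314730573) (nat_lit 13) (nat_lit 5) (nat_lit 15) (nat_lit 4) (nat_lit 13) (nat_lit 4) (nat_lit 437) (nat_lit 391) (nat_lit 192)) (XT.lf (nat_lit 0) (nat_lit 1413148168487) (nat_lit 152) (nat_lit 63487525898) (nat_lit 0) (nat_lit 683444387342) (nat_lit 13) (nat_lit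 5) (nat_lit 15) (nat_lit 4) (nat_lit 13) (nat_lit 4) (nat_lit 438) (nat_lit 391) (nat_lit 191))) (XT.nd (nat_lit 78) (nat_lit 152) (nat_lit 0) (XT.lf (nat_lit 0) (nat_lit 825355701838) (nat_lit 76) (nat_lit 1100262319524) (nat_lit 76) (nat_lit 370558527208) (nat_lit 12) (nat_lit 4) (nat_lit 13) (nat_lit 5) (nat_lit 13) (nat_lit 4) (nat_lit 439) (nat_lit 391) (nat_lit 190)) (XT.nd (nat_lit 78) (nat_lit 76) (nat_lit 0) (XT.lf (nat_lit 0) (nat_lit 35908564106) (nat_lit 152) (nat_lit 655013989316) (nat_lit 76) (nat_lit 1752026585300) (nat_lit 11) (nat_lit 5) (nat_lit 13) (nat_lit 5) (nat_lit 12) (nat_lit 4) (nat_lit 440) (nat_lit 391) (nat_lit 189)) (XT.lf (nat_lit 0) (nat_lit 227829446321) (nat_lit 76) (nat_lit 232523081830) (nat_lit 152) (nat_lit 2139902672930) (nat_lit 10) (nat_lit 5) (nat_lit 11) (nat_lit 5) (nat_lit 12) (nat_lit 4) (nat_lit 441) (nat_lit 391) (nat_lit 188)))))) (XT.nd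 (nat_lit 390) (nat_lit 152) (nat_lit 0) (XT.nd (nat_lit 156) (nat_lit 76) (nat_lit 0) (XT.nd (nat_lit 78) (nat_lit 0) (nat_lit 0) (XT.lf (nat_lit 0) (nat_lit 943440708995) (nat_lit 152) (nat_lit 1556940920673) (nat_lit 0) (nat_lit 267789022789) (nat_lit 10) (nat_lit 5) (nat_lit 12) (nat_lit 4) (nat_lit 10) (nat_lit 4) (nat_lit 442) (nat_lit 391) (nat_lit 187)) (XT.lf (nat_lit 0) (nat_lit 1471215493022) (nat_lit 152) (nat_lit 682256883810) (nat_lit 0) (nat_lit 795563799214) (nat_lit 10) (nat_lit 5) (nat_lit 12) (nat_lit 4) (nat_lit 10) (nat_lit 4) (nat_lit 443) (nat_lit 391) (nat_lit 186))) (XT.nd (nat_lit 78) (nat_lit 0) (nat_lit 0) (XT.lf (nat_lit 0) (nat_lit 276219470980) (nat_lit 76) (nat_lit 1771635862739) (nat_lit 76) (nat_lit 1095984161892) (nat_lit 9) (nat_lit 4) (nat_lit 10) (nat_lit 5) (nat_lit 10) (nat_lit 4) (nat_lit 444) (nat_lit 391) (nat_lit 185)) (XT.nd (nat_lit 78) (nat_lit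 0) (nat_lit 0) (XT.lf (nat_lit 0) (nat_lit 1350174466564) (nat_lit 76) (nat_lit 1339105996707) (nat_lit 76) (nat_lit 663454289342) (nat_lit 9) (nat_lit 4) (nat_lit 10) (nat_lit 5) (nat_lit 10) (nat_lit 4) (nat_lit 445) (nat_lit 391) (nat_lit 184)) (XT.lf (nat_lit 0) (nat_lit 2510045842252) (nat_lit 76) (nat_lit 871973751057) (nat_lit 76) (nat_lit 196322037658) (nat_lit 9) (nat_lit 4) (nat_lit 10) (nat_lit 5) (nat_lit 10) (nat_lit 4) (nat_lit 446) (nat_lit 391) (nat_lit 183))))) (XT.nd (nat_lit 156) (nat_lit 0) (nat_lit 0) (XT.nd (nat_lit 78) (nat_lit 76) (nat_lit 0) (XT.lf (nat_lit 0) (nat_lit 292764333313) (nat_lit 152) (nat_lit 66701905696) (nat_lit 76) (nat_lit 3461937880892) (nat_lit 8) (nat_lit 5) (nat_lit 10) (nat_lit 5) (nat_lit 9) (nat_lit 4) (nat_lit 447) (nat_lit 391) (nat_lit 182)) (XT.lf (nat_lit 0) (nat_lit 841401969594) (nat_lit 152) (nat_lit 3023820707569) (nat_lit 0) (nat_lit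 215798521296) (nat_lit 7) (nat_lit 5) (nat_lit 9) (nat_lit 4) (nat_lit 7) (nat_lit 4) (nat_lit 448) (nat_lit 391) (nat_lit 181))) (XT.nd (nat_lit 78) (nat_lit 0) (nat_lit 0) (XT.lf (nat_lit 0) (nat_lit 1445138511951) (nat_lit 152) (nat_lit 2095837440521) (nat_lit 0) (nat_lit 819535059217) (nat_lit 7) (nat_lit 5) (nat_lit 9) (nat_lit 4) (nat_lit 7) (nat_lit 4) (nat_lit 449) (nat_lit 391) (nat_lit 180)) (XT.nd (nat_lit 78) (nat_lit 0) (nat_lit 0) (XT.lf (nat_lit 0) (nat_lit 2097173969687) (nat_lit 152) (nat_lit 1093615528085) (nat_lit 0) (nat_lit 1471570512846) (nat_lit 7) (nat_lit 5) (nat_lit 9) (nat_lit 4) (nat_lit 7) (nat_lit 4) (nat_lit 450) (nat_lit 391) (nat_lit 179)) (XT.lf (nat_lit 0) (nat_lit 2801372256627) (nat_lit 152) (nat_lit 11215877447) (nat_lit 0) (nat_lit 2175768795983) (nat_lit 7) (nat_lit 5) (nat_lit 9) (nat_lit 4) (nat_lit 7) (nat_lit 4) (nat_lit 451) (nat_lit 391) (nat_lit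 178))))))) (XT.nd (nat_lit 49062) (nat_lit 0) (nat_lit 2584) (XT.nd (nat_lit 48672) (nat_lit 0) (nat_lit 3800) (XT.nd (nat_lit 48516) (nat_lit 0) (nat_lit 4180) (XT.nd (nat_lit 48438) (nat_lit 0) (nat_lit 4180) (XT.lf (nat_lit 0) (nat_lit 1218742149813) (nat_lit 76) (nat_lit 2372475027856) (nat_lit 76) (nat_lit 1746871563690) (nat_lit 6) (nat_lit 4) (nat_lit 7) (nat_lit 5) (nat_lit 7) (nat_lit 4) (nat_lit 452) (nat_lit 391) (nat_lit 177)) (XT.lf (nat_lit 0) (nat_lit 94271939519) (nat_lit 532) (nat_lit 8519811764) (nat_lit 532) (nat_lit 8519811764) (nat_lit 61) (nat_lit 3) (nat_lit 68) (nat_lit 3) (nat_lit 68) (nat_lit 5) (nat_lit 392) (nat_lit 392) (nat_lit 236))) (XT.nd (nat_lit 78) (nat_lit 0) (nat_lit 76) (XT.lf (nat_lit 76) (nat_lit 95029949106) (nat_lit 0) (nat_lit 103342389104) (nat_lit 532) (nat_lit 32972775105) (nat_lit 62) (nat_lit 5) (nat_lit 61) (nat_lit 3) (nat_lit 68) (nat_lit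 5) (nat_lit 393) (nat_lit 392) (nat_lit 235)) (XT.lf (nat_lit 0) (nat_lit 209635171571) (nat_lit 456) (nat_lit 23875851086) (nat_lit 532) (nat_lit 7201989208) (nat_lit 62) (nat_lit 5) (nat_lit 68) (nat_lit 5) (nat_lit 69) (nat_lit 5) (nat_lit 394) (nat_lit 392) (nat_lit 234)))) (XT.nd (nat_lit 156) (nat_lit 456) (nat_lit 0) (XT.nd (nat_lit 78) (nat_lit 0) (nat_lit 0) (XT.lf (nat_lit 76) (nat_lit 99870226884) (nat_lit 0) (nat_lit 127014789554) (nat_lit 532) (nat_lit 23538447213) (nat_lit 63) (nat_lit 5) (nat_lit 62) (nat_lit 5) (nat_lit 69) (nat_lit 5) (nat_lit 395) (nat_lit 392) (nat_lit 233)) (XT.lf (nat_lit 76) (nat_lit 234873758282) (nat_lit 0) (nat_lit 11293790979) (nat_lit 532) (nat_lit 14690986420) (nat_lit 63) (nat_lit 5) (nat_lit 62) (nat_lit 5) (nat_lit 69) (nat_lit 5) (nat_lit 396) (nat_lit 392) (nat_lit 232))) (XT.nd (nat_lit 78) (nat_lit 0) (nat_lit 0) (XT.lf (nat_lit 0) (nat_lit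 674660473) (nat_lit 532) (nat_lit 160325477251) (nat_lit 608) (nat_lit 110693878668) (nat_lit 56) (nat_lit 5) (nat_lit 63) (nat_lit 5) (nat_lit 64) (nat_lit 5) (nat_lit 397) (nat_lit 392) (nat_lit 231)) (XT.nd (nat_lit 78) (nat_lit 0) (nat_lit 76) (XT.lf (nat_lit 0) (nat_lit 17498037132) (nat_lit 532) (nat_lit 22845062924) (nat_lit 608) (nat_lit 242940935054) (nat_lit 56) (nat_lit 5) (nat_lit 63) (nat_lit 5) (nat_lit 64) (nat_lit 5) (nat_lit 398) (nat_lit 392) (nat_lit 230)) (XT.lf (nat_lit 0) (nat_lit 41094105158) (nat_lit 532) (nat_lit 165543765555) (nat_lit 76) (nat_lit 88729239007) (nat_lit 57) (nat_lit 5) (nat_lit 64) (nat_lit 5) (nat_lit 58) (nat_lit 5) (nat_lit 399) (nat_lit 392) (nat_lit 229)))))) (XT.nd (nat_lit 390) (nat_lit 456) (nat_lit 0) (XT.nd (nat_lit 156) (nat_lit 456) (nat_lit 0) (XT.nd (nat_lit 78) (nat_lit 380) (nat_lit 0) (XT.lf (nat_lit 0) (nat_lit 68266496123) (nat_lit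 532) (nat_lit 13426593780) (nat_lit 76) (nat_lit 226588649484) (nat_lit 57) (nat_lit 5) (nat_lit 64) (nat_lit 5) (nat_lit 58) (nat_lit 5) (nat_lit 400) (nat_lit 392) (nat_lit 228)) (XT.lf (nat_lit 0) (nat_lit 102811637510) (nat_lit 456) (nat_lit 164499914028) (nat_lit 76) (nat_lit 54502071240) (nat_lit 52) (nat_lit 5) (nat_lit 58) (nat_lit 5) (nat_lit 53) (nat_lit 5) (nat_lit 401) (nat_lit 392) (nat_lit 227))) (XT.nd (nat_lit 78) (nat_lit 228) (nat_lit 0) (XT.lf (nat_lit 0) (nat_lit 4154439965) (nat_lit 228) (nat_lit 138564331688) (nat_lit 304) (nat_lit 193501414746) (nat_lit 49) (nat_lit 5) (nat_lit 52) (nat_lit 5) (nat_lit 53) (nat_lit 5) (nat_lit 402) (nat_lit 392) (nat_lit 226)) (XT.nd (nat_lit 78) (nat_lit 228) (nat_lit 0) (XT.lf (nat_lit 0) (nat_lit 190444557688) (nat_lit 304) (nat_lit 155891572718) (nat_lit 76) (nat_lit 5073058281) (nat_lit 49) (nat_lit 5) (nat_lit 53) (nat_lit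 5) (nat_lit 50) (nat_lit 5) (nat_lit 403) (nat_lit 392) (nat_lit 225)) (XT.lf (nat_lit 0) (nat_lit 32398068683) (nat_lit 228) (nat_lit 213968520981) (nat_lit 304) (nat_lit 121096466914) (nat_lit 46) (nat_lit 5) (nat_lit 49) (nat_lit 5) (nat_lit 50) (nat_lit 5) (nat_lit 404) (nat_lit 392) (nat_lit 224))))) (XT.nd (nat_lit 156) (nat_lit 304) (nat_lit 0) (XT.nd (nat_lit 78) (nat_lit 152) (nat_lit 0) (XT.lf (nat_lit 0) (nat_lit 244616499904) (nat_lit 228) (nat_lit 66408174373) (nat_lit 304) (nat_lit 73435576477) (nat_lit 46) (nat_lit 5) (nat_lit 49) (nat_lit 5) (nat_lit 50) (nat_lit 5) (nat_lit 405) (nat_lit 392) (nat_lit 223)) (XT.lf (nat_lit 0) (nat_lit 72380247911) (nat_lit 152) (nat_lit 312451465069) (nat_lit 228) (nat_lit 17667402952) (nat_lit 44) (nat_lit 5) (nat_lit 46) (nat_lit 5) (nat_lit 47) (nat_lit 5) (nat_lit 406) (nat_lit 392) (nat_lit 222))) (XT.nd (nat_lit 78) (nat_lit 228)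 (nat_lit 0) (XT.lf (nat_lit 0) (nat_lit 46080810511) (nat_lit 228) (nat_lit 114987896970) (nat_lit 76) (nat_lit 260378675418) (nat_lit 43) (nat_lit 5) (nat_lit 46) (nat_lit 5) (nat_lit 44) (nat_lit 5) (nat_lit 407) (nat_lit 392) (nat_lit 221)) (XT.nd (nat_lit 78) (nat_lit 0) (nat_lit 0) (XT.lf (nat_lit 0) (nat_lit 117080785639) (nat_lit 304) (nat_lit 318735102055) (nat_lit 76) (nat_lit 5810399828) (nat_lit 40) (nat_lit 5) (nat_lit 44) (nat_lit 5) (nat_lit 41) (nat_lit 5) (nat_lit 408) (nat_lit 392) (nat_lit 220)) (XT.lf (nat_lit 0) (nat_lit 201169945757) (nat_lit 304) (nat_lit 81093262983) (nat_lit 76) (nat_lit 180563560856) (nat_lit 40) (nat_lit 5) (nat_lit 44) (nat_lit 5) (nat_lit 41) (nat_lit 5) (nat_lit 409) (nat_lit 392) (nat_lit 219))))))))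
noncomputable def xc217 : XT := (XT.nd (nat_lit 1482) (nat_lit 836) (nat_lit 0) (XT.nd (nat_lit 702) (nat_lit 760) (nat_lit 0) (XT.nd (nat_lit 312) (nat_lit 304) (nat_lit 0) (XT.nd (nat_lit 156) (nat_lit 380) (nat_lit 0) (XT.nd (nat_lit 78) (nat_lit 0) (nat_lit 0) (XT.lf (nat_lit 0) (nat_lit 184804529457) (nat_lit 152) (nat_lit 111626216007) (nat_lit 228) (nat_lit 188936984268) (nat_lit 38) (nat_lit 5) (nat_lit 40) (nat_lit 5) (nat_lit 41) (nat_lit 5) (nat_lit 410) (nat_lit 392) (nat_lit 218)) (XT.lf (nat_lit 0) (nat_lit 403334704544) (nat_lit 228) (nat_lit 34753770272) (nat_lit 76) (nat_lit 71301708266) (nat_lit 38) (nat_lit 5) (nat_lit 41) (nat_lit 5) (nat_lit 39) (nat_lit 5) (nat_lit 411) (nat_lit 392) (nat_lit 217))) (XT.nd (nat_lit 78) (nat_lit 228) (nat_lit 0) (XT.lf (nat_lit 0) (nat_lit 262555036798) (nat_lit 152) (nat_lit 265449738967) (nat_lit 228) (nat_lit 6592553334) (nat_lit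 36) (nat_lit 5) (nat_lit 38) (nat_lit 5) (nat_lit 39) (nat_lit 5) (nat_lit 412) (nat_lit 392) (nat_lit 216)) (XT.lf (nat_lit 0) (nat_lit 22558837261) (nat_lit 152) (nat_lit 74742183784) (nat_lit 228) (nat_lit 464204640828) (nat_lit 33) (nat_lit 5) (nat_lit 35) (nat_lit 5) (nat_lit 36) (nat_lit 5) (nat_lit 413) (nat_lit 392) (nat_lit 215)))) (XT.nd (nat_lit 156) (nat_lit 152) (nat_lit 0) (XT.nd (nat_lit 78) (nat_lit 152) (nat_lit 0) (XT.lf (nat_lit 0) (nat_lit 219937080098) (nat_lit 228) (nat_lit 237292656259) (nat_lit 76) (nat_lit 132460252699) (nat_lit 33) (nat_lit 5) (nat_lit 36) (nat_lit 5) (nat_lit 34) (nat_lit 5) (nat_lit 414) (nat_lit 392) (nat_lit 214)) (XT.lf (nat_lit 0) (nat_lit 91110129328) (nat_lit 152) (nat_lit 265406413652) (nat_lit 228) (nat_lit 263281917929) (nat_lit 31) (nat_lit 5) (nat_lit 33) (nat_lit 5) (nat_lit 34) (nat_lit 5) (nat_lit 415) (nat_lit 392) (nat_lit 213)))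 (XT.nd (nat_lit 78) (nat_lit 152) (nat_lit 0) (XT.lf (nat_lit 0) (nat_lit 459280124386) (nat_lit 152) (nat_lit 51230204508) (nat_lit 228) (nat_lit 141286244358) (nat_lit 31) (nat_lit 5) (nat_lit 33) (nat_lit 5) (nat_lit 34) (nat_lit 5) (nat_lit 416) (nat_lit 392) (nat_lit 212)) (XT.nd (nat_lit 78) (nat_lit 76) (nat_lit 0) (XT.lf (nat_lit 0) (nat_lit 174970954508) (nat_lit 76) (nat_lit 510391616040) (nat_lit 152) (nat_lit 308847825) (nat_lit 30) (nat_lit 5) (nat_lit 31) (nat_lit 5) (nat_lit 32) (nat_lit 4) (nat_lit 417) (nat_lit 392) (nat_lit 211)) (XT.lf (nat_lit 0) (nat_lit 151076831943) (nat_lit 152) (nat_lit 144150973962) (nat_lit 76) (nat_lit 426197612767) (nat_lit 29) (nat_lit 5) (nat_lit 31) (nat_lit 5) (nat_lit 30) (nat_lit 5) (nat_lit 418) (nat_lit 392) (nat_lit 210)))))) (XT.nd (nat_lit 390) (nat_lit 304) (nat_lit 0) (XT.nd (nat_lit 156) (nat_lit 304) (nat_lit 0) (XT.nd (nat_lit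 78) (nat_lit 0) (nat_lit 0) (XT.lf (nat_lit 0) (nat_lit 264969236193) (nat_lit 152) (nat_lit 55959929833) (nat_lit 228) (nat_lit 438600132364) (nat_lit 27) (nat_lit 5) (nat_lit 29) (nat_lit 5) (nat_lit 30) (nat_lit 5) (nat_lit 419) (nat_lit 392) (nat_lit 209)) (XT.lf (nat_lit 0) (nat_lit 513282284664) (nat_lit 228) (nat_lit 90320461029) (nat_lit 76) (nat_lit 196365734981) (nat_lit 27) (nat_lit 5) (nat_lit 30) (nat_lit 5) (nat_lit 28) (nat_lit 4) (nat_lit 420) (nat_lit 392) (nat_lit 208))) (XT.nd (nat_lit 78) (nat_lit 228) (nat_lit 0) (XT.lf (nat_lit 0) (nat_lit 362961562932) (nat_lit 76) (nat_lit 368244800909) (nat_lit 152) (nat_lit 111621816830) (nat_lit 26) (nat_lit 5) (nat_lit 27) (nat_lit 5) (nat_lit 28) (nat_lit 4) (nat_lit 421) (nat_lit 392) (nat_lit 207)) (XT.nd (nat_lit 78) (nat_lit 152) (nat_lit 0) (XT.lf (nat_lit 0) (nat_lit 76107101602) (nat_lit 152) (nat_lit 33203152524) (nat_lit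 76) (nat_lit 779454702033) (nat_lit 25) (nat_lit 5) (nat_lit 27) (nat_lit 5) (nat_lit 26) (nat_lit 5) (nat_lit 422) (nat_lit 392) (nat_lit 206)) (XT.lf (nat_lit 0) (nat_lit 288587848038) (nat_lit 228) (nat_lit 471911148444) (nat_lit 76) (nat_lit 176384616424) (nat_lit 23) (nat_lit 5) (nat_lit 26) (nat_lit 5) (nat_lit 24) (nat_lit 4) (nat_lit 423) (nat_lit 392) (nat_lit 205))))) (XT.nd (nat_lit 156) (nat_lit 228) (nat_lit 0) (XT.nd (nat_lit 78) (nat_lit 0) (nat_lit 0) (XT.lf (nat_lit 0) (nat_lit 13946074530) (nat_lit 76) (nat_lit 508226998320) (nat_lit 152) (nat_lit 466350207859) (nat_lit 22) (nat_lit 5) (nat_lit 23) (nat_lit 5) (nat_lit 24) (nat_lit 4) (nat_lit 424) (nat_lit 392) (nat_lit 204)) (XT.lf (nat_lit 0) (nat_lit 565509836544) (nat_lit 76) (nat_lit 221838141760) (nat_lit 152) (nat_lit 255913914631) (nat_lit 22) (nat_lit 5) (nat_lit 23) (nat_lit 5) (nat_lit 24) (nat_lit 4) (nat_lit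 425) (nat_lit 392) (nat_lit 203))) (XT.nd (nat_lit 78) (nat_lit 152) (nat_lit 0) (XT.lf (nat_lit 0) (nat_lit 59702147553) (nat_lit 76) (nat_lit 1017574002615) (nat_lit 76) (nat_lit 24820302061) (nat_lit 21) (nat_lit 4) (nat_lit 22) (nat_lit 5) (nat_lit 22) (nat_lit 4) (nat_lit 426) (nat_lit 392) (nat_lit 202)) (XT.nd (nat_lit 78) (nat_lit 76) (nat_lit 0) (XT.lf (nat_lit 0) (nat_lit 232681236627) (nat_lit 152) (nat_lit 508776761178) (nat_lit 76) (nat_lit 422214227651) (nat_lit 20) (nat_lit 5) (nat_lit 22) (nat_lit 5) (nat_lit 21) (nat_lit 4) (nat_lit 427) (nat_lit 392) (nat_lit 201)) (XT.lf (nat_lit 0) (nat_lit 70407533499) (nat_lit 76) (nat_lit 440727705559) (nat_lit 152) (nat_lit 718851784306) (nat_lit 19) (nat_lit 5) (nat_lit 20) (nat_lit 5) (nat_lit 21) (nat_lit 4) (nat_lit 428) (nat_lit 392) (nat_lit 200))))))) (XT.nd (nat_lit 780) (nat_lit 380) (nat_lit 0) (XT.nd (nat_lit 390) (nat_lit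 228) (nat_lit 0) (XT.nd (nat_lit 156) (nat_lit 152) (nat_lit 0) (XT.nd (nat_lit 78) (nat_lit 76) (nat_lit 0) (XT.lf (nat_lit 0) (nat_lit 724861118854) (nat_lit 76) (nat_lit 100915280532) (nat_lit 152) (nat_lit 474717738707) (nat_lit 19) (nat_lit 5) (nat_lit 20) (nat_lit 5) (nat_lit 21) (nat_lit 4) (nat_lit 429) (nat_lit 392) (nat_lit 199)) (XT.lf (nat_lit 0) (nat_lit 51190612531) (nat_lit 76) (nat_lit 1122028637859) (nat_lit 76) (nat_lit 202812139789) (nat_lit 18) (nat_lit 4) (nat_lit 19) (nat_lit 5) (nat_lit 19) (nat_lit 4) (nat_lit 430) (nat_lit 392) (nat_lit 198))) (XT.nd (nat_lit 78) (nat_lit 76) (nat_lit 0) (XT.lf (nat_lit 0) (nat_lit 105070211162) (nat_lit 152) (nat_lit 700670481182) (nat_lit 76) (nat_lit 650194639649) (nat_lit 17) (nat_lit 5) (nat_lit 19) (nat_lit 5) (nat_lit 18) (nat_lit 4) (nat_lit 431) (nat_lit 392) (nat_lit 197)) (XT.nd (nat_lit 78) (nat_lit 76) (nat_lit 0)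 (XT.lf (nat_lit 0) (nat_lit 426626008874) (nat_lit 152) (nat_lit 31834442615) (nat_lit 76) (nat_lit 1083349711276) (nat_lit 17) (nat_lit 5) (nat_lit 19) (nat_lit 5) (nat_lit 18) (nat_lit 4) (nat_lit 432) (nat_lit 392) (nat_lit 196)) (XT.lf (nat_lit 0) (nat_lit 726869398882) (nat_lit 76) (nat_lit 64518081454) (nat_lit 152) (nat_lit 841769002874) (nat_lit 16) (nat_lit 5) (nat_lit 17) (nat_lit 5) (nat_lit 18) (nat_lit 4) (nat_lit 433) (nat_lit 392) (nat_lit 195))))) (XT.nd (nat_lit 156) (nat_lit 152) (nat_lit 0) (XT.nd (nat_lit 78) (nat_lit 76) (nat_lit 0) (XT.lf (nat_lit 0) (nat_lit 1194903479144) (nat_lit 152) (nat_lit 192364123296) (nat_lit 0) (nat_lit 343777018084) (nat_lit 16) (nat_lit 5) (nat_lit 18) (nat_lit 4) (nat_lit 16) (nat_lit 4) (nat_lit 434) (nat_lit 392) (nat_lit 194)) (XT.lf (nat_lit 0) (nat_lit 607380482805) (nat_lit 76) (nat_lit 1039603569366) (nat_lit 76) (nat_lit 188477093110)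 (nat_lit 15) (nat_lit 4) (nat_lit 16) (nat_lit 5) (nat_lit 16) (nat_lit 4) (nat_lit 435) (nat_lit 392) (nat_lit 193))) (XT.nd (nat_lit 78) (nat_lit 76) (nat_lit 0) (XT.lf (nat_lit 0) (nat_lit 183041750939) (nat_lit 152) (nat_lit 470399648372) (nat_lit 76) (nat_lit 1293998110341) (nat_lit 14) (nat_lit 5) (nat_lit 16) (nat_lit 5) (nat_lit 15) (nat_lit 4) (nat_lit 436) (nat_lit 392) (nat_lit 192)) (XT.nd (nat_lit 78) (nat_lit 0) (nat_lit 0) (XT.lf (nat_lit 0) (nat_lit 361062099426) (nat_lit 76) (nat_lit 221720882680) (nat_lit 152) (nat_lit 1484506837307) (nat_lit 13) (nat_lit 5) (nat_lit 14) (nat_lit 5) (nat_lit 15) (nat_lit 4) (nat_lit 437) (nat_lit 392) (nat_lit 191)) (XT.lf (nat_lit 0) (nat_lit 1033580251675) (nat_lit 152) (nat_lit 916121618286) (nat_lit 0) (nat_lit 245500144804) (nat_lit 13) (nat_lit 5) (nat_lit 15) (nat_lit 4) (nat_lit 13) (nat_lit 4) (nat_lit 438) (nat_lit 392) (nat_lit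 190)))))) (XT.nd (nat_lit 390) (nat_lit 152) (nat_lit 0) (XT.nd (nat_lit 156) (nat_lit 152) (nat_lit 0) (XT.nd (nat_lit 78) (nat_lit 76) (nat_lit 0) (XT.lf (nat_lit 0) (nat_lit 1526200273863) (nat_lit 152) (nat_lit 68566037552) (nat_lit 0) (nat_lit 738120156649) (nat_lit 13) (nat_lit 5) (nat_lit 15) (nat_lit 4) (nat_lit 13) (nat_lit 4) (nat_lit 439) (nat_lit 392) (nat_lit 189)) (XT.lf (nat_lit 0) (nat_lit 891384635987) (nat_lit 76) (nat_lit 1188283071817) (nat_lit 76) (nat_lit 400202945027) (nat_lit 12) (nat_lit 4) (nat_lit 13) (nat_lit 5) (nat_lit 13) (nat_lit 4) (nat_lit 440) (nat_lit 392) (nat_lit 188))) (XT.nd (nat_lit 78) (nat_lit 76) (nat_lit 0) (XT.lf (nat_lit 0) (nat_lit 38781481766) (nat_lit 152) (nat_lit 707414653583) (nat_lit 76) (nat_lit 1892188915829) (nat_lit 11) (nat_lit 5) (nat_lit 13) (nat_lit 5) (nat_lit 12) (nat_lit 4) (nat_lit 441) (nat_lit 392) (nat_lit 187)) (XT.nd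 (nat_lit 78) (nat_lit 0) (nat_lit 0) (XT.lf (nat_lit 0) (nat_lit 246056245389) (nat_lit 76) (nat_lit 251124710984) (nat_lit 152) (nat_lit 2311094642681) (nat_lit 10) (nat_lit 5) (nat_lit 11) (nat_lit 5) (nat_lit 12) (nat_lit 4) (nat_lit 442) (nat_lit 392) (nat_lit 186)) (XT.lf (nat_lit 0) (nat_lit 1018916179787) (nat_lit 152) (nat_lit 1681495771874) (nat_lit 0) (nat_lit 289212335833) (nat_lit 10) (nat_lit 5) (nat_lit 12) (nat_lit 4) (nat_lit 10) (nat_lit 4) (nat_lit 443) (nat_lit 392) (nat_lit 185))))) (XT.nd (nat_lit 156) (nat_lit 76) (nat_lit 0) (XT.nd (nat_lit 78) (nat_lit 76) (nat_lit 0) (XT.lf (nat_lit 0) (nat_lit 1588912930679) (nat_lit 152) (nat_lit 736837043356) (nat_lit 0) (nat_lit 859209080208) (nat_lit 10) (nat_lit 5) (nat_lit 12) (nat_lit 4) (nat_lit 10) (nat_lit 4) (nat_lit 444) (nat_lit 392) (nat_lit 184)) (XT.lf (nat_lit 0) (nat_lit 298317409916) (nat_lit 76) (nat_lit 1913366543203)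 (nat_lit 76) (nat_lit 1183662686696) (nat_lit 9) (nat_lit 4) (nat_lit 10) (nat_lit 5) (nat_lit 10) (nat_lit 4) (nat_lit 445) (nat_lit 392) (nat_lit 183))) (XT.nd (nat_lit 78) (nat_lit 76) (nat_lit 0) (XT.lf (nat_lit 0) (nat_lit 1458188776905) (nat_lit 76) (nat_lit 1446234301855) (nat_lit 76) (nat_lit 716530439761) (nat_lit 9) (nat_lit 4) (nat_lit 10) (nat_lit 5) (nat_lit 10) (nat_lit 4) (nat_lit 446) (nat_lit 392) (nat_lit 182)) (XT.nd (nat_lit 78) (nat_lit 76) (nat_lit 0) (XT.lf (nat_lit 0) (nat_lit 2710849836499) (nat_lit 76) (nat_lit 941731489486) (nat_lit 76) (nat_lit 212027622218) (nat_lit 9) (nat_lit 4) (nat_lit 10) (nat_lit 5) (nat_lit 10) (nat_lit 4) (nat_lit 447) (nat_lit 392) (nat_lit 181)) (XT.lf (nat_lit 0) (nat_lit 316185636946) (nat_lit 152) (nat_lit 72037747211) (nat_lit 76) (nat_lit 3738893052758) (nat_lit 8) (nat_lit 5) (nat_lit 10) (nat_lit 5) (nat_lit 9) (nat_lit 4)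 (nat_lit 448) (nat_lit 392) (nat_lit 180))))))))
noncomputable def xc218 : XT := (XT.nd (nat_lit 49920) (nat_lit 0) (nat_lit 1064) (XT.nd (nat_lit 49140) (nat_lit 0) (nat_lit 2812) (XT.nd (nat_lit 48750) (nat_lit 0) (nat_lit 4104) (XT.nd (nat_lit 156) (nat_lit 0) (nat_lit 0) (XT.nd (nat_lit 78) (nat_lit 0) (nat_lit 0) (XT.lf (nat_lit 0) (nat_lit 908714283409) (nat_lit 152) (nat_lit 3265726052493) (nat_lit 0) (nat_lit 233062545914) (nat_lit 7) (nat_lit 5) (nat_lit 9) (nat_lit 4) (nat_lit 7) (nat_lit 4) (nat_lit 449) (nat_lit 392) (nat_lit 179)) (XT.lf (nat_lit 0) (nat_lit 1560749737580) (nat_lit 152) (nat_lit 2263504147169) (nat_lit 0) (nat_lit 885097996282) (nat_lit 7) (nat_lit 5) (nat_lit 9) (nat_lit 4) (nat_lit 7) (nat_lit 4) (nat_lit 450) (nat_lit 392) (nat_lit 178))) (XT.nd (nat_lit 78) (nat_lit 0) (nat_lit 0) (XT.lf (nat_lit 0) (nat_lit 2264948021219) (nat_lit 152) (nat_lit 1181104503116)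 (nat_lit 0) (nat_lit 1589296276399) (nat_lit 7) (nat_lit 5) (nat_lit 9) (nat_lit 4) (nat_lit 7) (nat_lit 4) (nat_lit 451) (nat_lit 392) (nat_lit 177)) (XT.lf (nat_lit 0) (nat_lit 3025482161192) (nat_lit 152) (nat_lit 12112900220) (nat_lit 0) (nat_lit 2349830413111) (nat_lit 7) (nat_lit 5) (nat_lit 9) (nat_lit 4) (nat_lit 7) (nat_lit 4) (nat_lit 452) (nat_lit 392) (nat_lit 176)))) (XT.nd (nat_lit 156) (nat_lit 0) (nat_lit 76) (XT.nd (nat_lit 78) (nat_lit 0) (nat_lit 0) (XT.lf (nat_lit 0) (nat_lit 101814896513) (nat_lit 532) (nat_lit 9200746981) (nat_lit 532) (nat_lit 9200746981) (nat_lit 61) (nat_lit 3) (nat_lit 68) (nat_lit 3) (nat_lit 68) (nat_lit 5) (nat_lit 393) (nat_lit 393) (nat_lit 234)) (XT.lf (nat_lit 76) (nat_lit 102633611585) (nat_lit 0) (nat_lit 111610769760) (nat_lit 532) (nat_lit 35608157830) (nat_lit 62) (nat_lit 5) (nat_lit 61) (nat_lit 3) (nat_lit 68) (nat_lit 5) (nat_lit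 394) (nat_lit 393) (nat_lit 233))) (XT.nd (nat_lit 78) (nat_lit 0) (nat_lit 0) (XT.lf (nat_lit 0) (nat_lit 226408052222) (nat_lit 456) (nat_lit 25784554771) (nat_lit 532) (nat_lit 7777277949) (nat_lit 62) (nat_lit 5) (nat_lit 68) (nat_lit 5) (nat_lit 69) (nat_lit 5) (nat_lit 395) (nat_lit 393) (nat_lit 232)) (XT.nd (nat_lit 78) (nat_lit 0) (nat_lit 0) (XT.lf (nat_lit 76) (nat_lit 107861174894) (nat_lit 0) (nat_lit 137176588662) (nat_lit 532) (nat_lit 25419419192) (nat_lit 63) (nat_lit 5) (nat_lit 62) (nat_lit 5) (nat_lit 69) (nat_lit 5) (nat_lit 396) (nat_lit 393) (nat_lit 231)) (XT.lf (nat_lit 76) (nat_lit 253664890296) (nat_lit 0) (nat_lit 12197864576) (nat_lit 532) (nat_lit 15864317372) (nat_lit 63) (nat_lit 5) (nat_lit 62) (nat_lit 5) (nat_lit 69) (nat_lit 5) (nat_lit 397) (nat_lit 393) (nat_lit 230)))))) (XT.nd (nat_lit 390) (nat_lit 608) (nat_lit 0) (XT.nd (nat_lit 156) (nat_lit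 304) (nat_lit 0) (XT.nd (nat_lit 78) (nat_lit 0) (nat_lit 0) (XT.lf (nat_lit 0) (nat_lit 730367184) (nat_lit 532) (nat_lit 173150066144) (nat_lit 608) (nat_lit 119548963816) (nat_lit 56) (nat_lit 5) (nat_lit 63) (nat_lit 5) (nat_lit 64) (nat_lit 5) (nat_lit 398) (nat_lit 393) (nat_lit 229)) (XT.lf (nat_lit 0) (nat_lit 18899485541) (nat_lit 532) (nat_lit 24671326025) (nat_lit 608) (nat_lit 262375816205) (nat_lit 56) (nat_lit 5) (nat_lit 63) (nat_lit 5) (nat_lit 64) (nat_lit 5) (nat_lit 399) (nat_lit 393) (nat_lit 228))) (XT.nd (nat_lit 78) (nat_lit 380) (nat_lit 0) (XT.lf (nat_lit 0) (nat_lit 44383146494) (nat_lit 532) (nat_lit 178785830764) (nat_lit 76) (nat_lit 95827378620) (nat_lit 57) (nat_lit 5) (nat_lit 64) (nat_lit 5) (nat_lit 58) (nat_lit 5) (nat_lit 400) (nat_lit 393) (nat_lit 227)) (XT.nd (nat_lit 78) (nat_lit 380) (nat_lit 0) (XT.lf (nat_lit 0) (nat_lit 73729216667) (nat_lit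 532) (nat_lit 14499391621) (nat_lit 76) (nat_lit 244715556714) (nat_lit 57) (nat_lit 5) (nat_lit 64) (nat_lit 5) (nat_lit 58) (nat_lit 5) (nat_lit 401) (nat_lit 393) (nat_lit 226)) (XT.lf (nat_lit 0) (nat_lit 111037895991) (nat_lit 456) (nat_lit 177658502755) (nat_lit 76) (nat_lit 58862206296) (nat_lit 52) (nat_lit 5) (nat_lit 58) (nat_lit 5) (nat_lit 53) (nat_lit 5) (nat_lit 402) (nat_lit 393) (nat_lit 225))))) (XT.nd (nat_lit 156) (nat_lit 380) (nat_lit 0) (XT.nd (nat_lit 78) (nat_lit 0) (nat_lit 0) (XT.lf (nat_lit 0) (nat_lit 4488164003) (nat_lit 228) (nat_lit 149649371451) (nat_lit 304) (nat_lit 208980163632) (nat_lit 49) (nat_lit 5) (nat_lit 52) (nat_lit 5) (nat_lit 53) (nat_lit 5) (nat_lit 403) (nat_lit 393) (nat_lit 224)) (XT.lf (nat_lit 0) (nat_lit 205681293263) (nat_lit 304) (nat_lit 168361538815) (nat_lit 76) (nat_lit 5478996862) (nat_lit 49) (nat_lit 5) (nat_lit 53) (nat_lit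 5) (nat_lit 50) (nat_lit 5) (nat_lit 404) (nat_lit 393) (nat_lit 223))) (XT.nd (nat_lit 78) (nat_lit 152) (nat_lit 0) (XT.lf (nat_lit 0) (nat_lit 34991239475) (nat_lit 228) (nat_lit 231085793458) (nat_lit 304) (nat_lit 130782977804) (nat_lit 46) (nat_lit 5) (nat_lit 49) (nat_lit 5) (nat_lit 50) (nat_lit 5) (nat_lit 405) (nat_lit 393) (nat_lit 222)) (XT.nd (nat_lit 78) (nat_lit 152) (nat_lit 0) (XT.lf (nat_lit 0) (nat_lit 264187047023) (nat_lit 228) (nat_lit 71720634618) (nat_lit 304) (nat_lit 79309305499) (nat_lit 46) (nat_lit 5) (nat_lit 49) (nat_lit 5) (nat_lit 50) (nat_lit 5) (nat_lit 406) (nat_lit 393) (nat_lit 221)) (XT.lf (nat_lit 0) (nat_lit 78171940819) (nat_lit 152) (nat_lit 337447301003) (nat_lit 228) (nat_lit 19079723115) (nat_lit 44) (nat_lit 5) (nat_lit 46) (nat_lit 5) (nat_lit 47) (nat_lit 5) (nat_lit 407) (nat_lit 393) (nat_lit 220))))))) (XT.nd (nat_lit 780) (nat_lit 760)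 (nat_lit 0) (XT.nd (nat_lit 390) (nat_lit 532) (nat_lit 0) (XT.nd (nat_lit 156) (nat_lit 152) (nat_lit 0) (XT.nd (nat_lit 78) (nat_lit 228) (nat_lit 0) (XT.lf (nat_lit 0) (nat_lit 49768218355) (nat_lit 228) (nat_lit 124185699504) (nat_lit 76) (nat_lit 281209179438) (nat_lit 43) (nat_lit 5) (nat_lit 46) (nat_lit 5) (nat_lit 44) (nat_lit 5) (nat_lit 408) (nat_lit 393) (nat_lit 219)) (XT.lf (nat_lit 0) (nat_lit 126448157578) (nat_lit 304) (nat_lit 344232646345) (nat_lit 76) (nat_lit 6275513139) (nat_lit 40) (nat_lit 5) (nat_lit 44) (nat_lit 5) (nat_lit 41) (nat_lit 5) (nat_lit 409) (nat_lit 393) (nat_lit 218))) (XT.nd (nat_lit 78) (nat_lit 152) (nat_lit 0) (XT.lf (nat_lit 0) (nat_lit 217264383165) (nat_lit 304) (nat_lit 87579553769) (nat_lit 76) (nat_lit 195008906210) (nat_lit 40) (nat_lit 5) (nat_lit 44) (nat_lit 5) (nat_lit 41) (nat_lit 5) (nat_lit 410) (nat_lit 393) (nat_lit 217)) (XT.nd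 (nat_lit 78) (nat_lit 0) (nat_lit 0) (XT.lf (nat_lit 0) (nat_lit 199590032440) (nat_lit 152) (nat_lit 120555979490) (nat_lit 228) (nat_lit 204051071004) (nat_lit 38) (nat_lit 5) (nat_lit 40) (nat_lit 5) (nat_lit 41) (nat_lit 5) (nat_lit 411) (nat_lit 393) (nat_lit 216)) (XT.lf (nat_lit 0) (nat_lit 435602235403) (nat_lit 228) (nat_lit 37532962842) (nat_lit 76) (nat_lit 77006138539) (nat_lit 38) (nat_lit 5) (nat_lit 41) (nat_lit 5) (nat_lit 39) (nat_lit 5) (nat_lit 412) (nat_lit 393) (nat_lit 215))))) (XT.nd (nat_lit 156) (nat_lit 152) (nat_lit 0) (XT.nd (nat_lit 78) (nat_lit 228) (nat_lit 0) (XT.lf (nat_lit 0) (nat_lit 283560520716) (nat_lit 152) (nat_lit 286685361715) (nat_lit 228) (nat_lit 7119174487) (nat_lit 36) (nat_lit 5) (nat_lit 38) (nat_lit 5) (nat_lit 39) (nat_lit 5) (nat_lit 413) (nat_lit 393) (nat_lit 214)) (XT.lf (nat_lit 0) (nat_lit 24364636520) (nat_lit 152) (nat_lit 80721181311)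 (nat_lit 228) (nat_lit 501340239321) (nat_lit 33) (nat_lit 5) (nat_lit 35) (nat_lit 5) (nat_lit 36) (nat_lit 5) (nat_lit 414) (nat_lit 393) (nat_lit 213))) (XT.nd (nat_lit 78) (nat_lit 152) (nat_lit 0) (XT.lf (nat_lit 0) (nat_lit 237532717036) (nat_lit 228) (nat_lit 256275012392) (nat_lit 76) (nat_lit 143057404681) (nat_lit 33) (nat_lit 5) (nat_lit 36) (nat_lit 5) (nat_lit 34) (nat_lit 5) (nat_lit 415) (nat_lit 393) (nat_lit 212)) (XT.nd (nat_lit 78) (nat_lit 0) (nat_lit 0) (XT.lf (nat_lit 0) (nat_lit 98399969298) (nat_lit 152) (nat_lit 286638542744) (nat_lit 228) (nat_lit 284343773692) (nat_lit 31) (nat_lit 5) (nat_lit 33) (nat_lit 5) (nat_lit 34) (nat_lit 5) (nat_lit 416) (nat_lit 393) (nat_lit 211)) (XT.lf (nat_lit 0) (nat_lit 496023487693) (nat_lit 152) (nat_lit 55328265313) (nat_lit 228) (nat_lit 152588497915) (nat_lit 31) (nat_lit 5) (nat_lit 33) (nat_lit 5) (nat_lit 34) (nat_lit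 5) (nat_lit 417) (nat_lit 393) (nat_lit 210)))))) (XT.nd (nat_lit 390) (nat_lit 380) (nat_lit 0) (XT.nd (nat_lit 156) (nat_lit 228) (nat_lit 0) (XT.nd (nat_lit 78) (nat_lit 76) (nat_lit 0) (XT.lf (nat_lit 0) (nat_lit 188969598726) (nat_lit 76) (nat_lit 551222562179) (nat_lit 152) (nat_lit 332923821) (nat_lit 30) (nat_lit 5) (nat_lit 31) (nat_lit 5) (nat_lit 32) (nat_lit 4) (nat_lit 418) (nat_lit 393) (nat_lit 209)) (XT.lf (nat_lit 0) (nat_lit 163163534261) (nat_lit 152) (nat_lit 155682126157) (nat_lit 76) (nat_lit 460293746995) (nat_lit 29) (nat_lit 5) (nat_lit 31) (nat_lit 5) (nat_lit 30) (nat_lit 5) (nat_lit 419) (nat_lit 393) (nat_lit 208))) (XT.nd (nat_lit 78) (nat_lit 76) (nat_lit 0) (XT.lf (nat_lit 0) (nat_lit 286167677374) (nat_lit 152) (nat_lit 60436358230) (nat_lit 228) (nat_lit 473687563484) (nat_lit 27) (nat_lit 5) (nat_lit 29) (nat_lit 5) (nat_lit 30) (nat_lit 5) (nat_lit 420)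 (nat_lit 393) (nat_lit 207)) (XT.nd (nat_lit 78) (nat_lit 76) (nat_lit 0) (XT.lf (nat_lit 0) (nat_lit 554345372157) (nat_lit 228) (nat_lit 97545230636) (nat_lit 76) (nat_lit 212075315708) (nat_lit 27) (nat_lit 5) (nat_lit 30) (nat_lit 5) (nat_lit 28) (nat_lit 4) (nat_lit 421) (nat_lit 393) (nat_lit 206)) (XT.lf (nat_lit 0) (nat_lit 391999333286) (nat_lit 76) (nat_lit 397704027326) (nat_lit 152) (nat_lit 120551035269) (nat_lit 26) (nat_lit 5) (nat_lit 27) (nat_lit 5) (nat_lit 28) (nat_lit 4) (nat_lit 422) (nat_lit 393) (nat_lit 205))))) (XT.nd (nat_lit 156) (nat_lit 152) (nat_lit 0) (XT.nd (nat_lit 78) (nat_lit 152) (nat_lit 0) (XT.lf (nat_lit 0) (nat_lit 82196133202) (nat_lit 152) (nat_lit 35858597419) (nat_lit 76) (nat_lit 841811384755) (nat_lit 25) (nat_lit 5) (nat_lit 27) (nat_lit 5) (nat_lit 26) (nat_lit 5) (nat_lit 423) (nat_lit 393) (nat_lit 204)) (XT.lf (nat_lit 0) (nat_lit 311675332094)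 (nat_lit 228) (nat_lit 509663225570) (nat_lit 76) (nat_lit 190495707594) (nat_lit 23) (nat_lit 5) (nat_lit 26) (nat_lit 5) (nat_lit 24) (nat_lit 4) (nat_lit 424) (nat_lit 393) (nat_lit 203))) (XT.nd (nat_lit 78) (nat_lit 76) (nat_lit 0) (XT.lf (nat_lit 0) (nat_lit 15062554616) (nat_lit 76) (nat_lit 548884805581) (nat_lit 152) (nat_lit 503657747478) (nat_lit 22) (nat_lit 5) (nat_lit 23) (nat_lit 5) (nat_lit 24) (nat_lit 4) (nat_lit 425) (nat_lit 393) (nat_lit 202)) (XT.nd (nat_lit 78) (nat_lit 76) (nat_lit 0) (XT.lf (nat_lit 0) (nat_lit 610751358767) (nat_lit 76) (nat_lit 239584866615) (nat_lit 152) (nat_lit 276386586125) (nat_lit 22) (nat_lit 5) (nat_lit 23) (nat_lit 5) (nat_lit 24) (nat_lit 4) (nat_lit 426) (nat_lit 393) (nat_lit 201)) (XT.lf (nat_lit 0) (nat_lit 64479060418) (nat_lit 76) (nat_lit 1098979585387) (nat_lit 76) (nat_lit 26805490166) (nat_lit 21) (nat_lit 4) (nat_lit 22)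 (nat_lit 5) (nat_lit 22) (nat_lit 4) (nat_lit 427) (nat_lit 393) (nat_lit 200))))))))
noncomputable def xc219 : XT := (XT.nd (nat_lit 1482) (nat_lit 152) (nat_lit 0) (XT.nd (nat_lit 702) (nat_lit 456) (nat_lit 0) (XT.nd (nat_lit 312) (nat_lit 228) (nat_lit 0) (XT.nd (nat_lit 156) (nat_lit 76) (nat_lit 0) (XT.nd (nat_lit 78) (nat_lit 76) (nat_lit 0) (XT.lf (nat_lit 0) (nat_lit 251296119118) (nat_lit 152) (nat_lit 549478195581) (nat_lit 76) (nat_lit 455991657983) (nat_lit 20) (nat_lit 5) (nat_lit 22) (nat_lit 5) (nat_lit 21) (nat_lit 4) (nat_lit 428) (nat_lit 393) (nat_lit 199)) (XT.lf (nat_lit 0) (nat_lit 76040824783) (nat_lit 76) (nat_lit 475985605109) (nat_lit 152) (nat_lit 776359525487) (nat_lit 19) (nat_lit 5) (nat_lit 20) (nat_lit 5) (nat_lit 21) (nat_lit 4) (nat_lit 429) (nat_lit 393) (nat_lit 198))) (XT.nd (nat_lit 78) (nat_lit 76) (nat_lit 0) (XT.lf (nat_lit 0) (nat_lit 782850645959)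 (nat_lit 76) (nat_lit 108988209554) (nat_lit 152) (nat_lit 512694785986) (nat_lit 19) (nat_lit 5) (nat_lit 20) (nat_lit 5) (nat_lit 21) (nat_lit 4) (nat_lit 430) (nat_lit 393) (nat_lit 197)) (XT.lf (nat_lit 0) (nat_lit 55286503053) (nat_lit 76) (nat_lit 1211790628013) (nat_lit 76) (nat_lit 219036742977) (nat_lit 18) (nat_lit 4) (nat_lit 19) (nat_lit 5) (nat_lit 19) (nat_lit 4) (nat_lit 431) (nat_lit 393) (nat_lit 196)))) (XT.nd (nat_lit 156) (nat_lit 152) (nat_lit 0) (XT.nd (nat_lit 78) (nat_lit 0) (nat_lit 0) (XT.lf (nat_lit 0) (nat_lit 113476151746) (nat_lit 152) (nat_lit 756723508547) (nat_lit 76) (nat_lit 702210472278) (nat_lit 17) (nat_lit 5) (nat_lit 19) (nat_lit 5) (nat_lit 18) (nat_lit 4) (nat_lit 432) (nat_lit 393) (nat_lit 195)) (XT.lf (nat_lit 0) (nat_lit 460756389298) (nat_lit 152) (nat_lit 34380632164) (nat_lit 76) (nat_lit 1170017930268) (nat_lit 17) (nat_lit 5) (nat_lit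 19) (nat_lit 5) (nat_lit 18) (nat_lit 4) (nat_lit 433) (nat_lit 393) (nat_lit 194))) (XT.nd (nat_lit 78) (nat_lit 76) (nat_lit 0) (XT.lf (nat_lit 0) (nat_lit 785019502327) (nat_lit 76) (nat_lit 69679267213) (nat_lit 152) (nat_lit 909110208991) (nat_lit 16) (nat_lit 5) (nat_lit 17) (nat_lit 5) (nat_lit 18) (nat_lit 4) (nat_lit 434) (nat_lit 393) (nat_lit 193)) (XT.nd (nat_lit 78) (nat_lit 76) (nat_lit 0) (XT.lf (nat_lit 0) (nat_lit 1290496032520) (nat_lit 152) (nat_lit 207752726680) (nat_lit 0) (nat_lit 371279408895) (nat_lit 16) (nat_lit 5) (nat_lit 18) (nat_lit 4) (nat_lit 16) (nat_lit 4) (nat_lit 435) (nat_lit 393) (nat_lit 192)) (XT.lf (nat_lit 0) (nat_lit 655971434581) (nat_lit 76) (nat_lit 1122771608777) (nat_lit 76) (nat_lit 203554972123) (nat_lit 15) (nat_lit 4) (nat_lit 16) (nat_lit 5) (nat_lit 16) (nat_lit 4) (nat_lit 436) (nat_lit 393) (nat_lit 191)))))) (XT.nd (nat_lit 390)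 (nat_lit 228) (nat_lit 0) (XT.nd (nat_lit 156) (nat_lit 76) (nat_lit 0) (XT.nd (nat_lit 78) (nat_lit 76) (nat_lit 0) (XT.lf (nat_lit 0) (nat_lit 197685344725) (nat_lit 152) (nat_lit 508031131688) (nat_lit 76) (nat_lit 1397518173662) (nat_lit 14) (nat_lit 5) (nat_lit 16) (nat_lit 5) (nat_lit 15) (nat_lit 4) (nat_lit 437) (nat_lit 393) (nat_lit 190)) (XT.lf (nat_lit 0) (nat_lit 389947543566) (nat_lit 76) (nat_lit 239458323478) (nat_lit 152) (nat_lit 1603267118163) (nat_lit 13) (nat_lit 5) (nat_lit 14) (nat_lit 5) (nat_lit 15) (nat_lit 4) (nat_lit 438) (nat_lit 393) (nat_lit 189))) (XT.nd (nat_lit 78) (nat_lit 76) (nat_lit 0) (XT.lf (nat_lit 0) (nat_lit 1116266905047) (nat_lit 152) (nat_lit 989410893659) (nat_lit 0) (nat_lit 265140358537) (nat_lit 13) (nat_lit 5) (nat_lit 15) (nat_lit 4) (nat_lit 13) (nat_lit 4) (nat_lit 439) (nat_lit 393) (nat_lit 188)) (XT.nd (nat_lit 78) (nat_lit 76) (nat_lit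 0) (XT.lf (nat_lit 0) (nat_lit 1648296511733) (nat_lit 152) (nat_lit 74050900102) (nat_lit 0) (nat_lit 797169956355) (nat_lit 13) (nat_lit 5) (nat_lit 15) (nat_lit 4) (nat_lit 13) (nat_lit 4) (nat_lit 440) (nat_lit 393) (nat_lit 187)) (XT.lf (nat_lit 0) (nat_lit 962695816676) (nat_lit 76) (nat_lit 1283345517572) (nat_lit 76) (nat_lit 432218953984) (nat_lit 12) (nat_lit 4) (nat_lit 13) (nat_lit 5) (nat_lit 13) (nat_lit 4) (nat_lit 441) (nat_lit 393) (nat_lit 186))))) (XT.nd (nat_lit 156) (nat_lit 76) (nat_lit 0) (XT.nd (nat_lit 78) (nat_lit 76) (nat_lit 0) (XT.lf (nat_lit 0) (nat_lit 41884199666) (nat_lit 152) (nat_lit 764007435884) (nat_lit 76) (nat_lit 2043564203740) (nat_lit 11) (nat_lit 5) (nat_lit 13) (nat_lit 5) (nat_lit 12) (nat_lit 4) (nat_lit 442) (nat_lit 393) (nat_lit 185)) (XT.lf (nat_lit 0) (nat_lit 265741125132) (nat_lit 76) (nat_lit 271214501483) (nat_lit 152) (nat_lit 2495982004833)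 (nat_lit 10) (nat_lit 5) (nat_lit 11) (nat_lit 5) (nat_lit 12) (nat_lit 4) (nat_lit 443) (nat_lit 393) (nat_lit 184))) (XT.nd (nat_lit 78) (nat_lit 76) (nat_lit 0) (XT.lf (nat_lit 0) (nat_lit 1100429657702) (nat_lit 152) (nat_lit 1816015071439) (nat_lit 0) (nat_lit 312349486640) (nat_lit 10) (nat_lit 5) (nat_lit 12) (nat_lit 4) (nat_lit 10) (nat_lit 4) (nat_lit 444) (nat_lit 393) (nat_lit 183)) (XT.nd (nat_lit 78) (nat_lit 76) (nat_lit 0) (XT.lf (nat_lit 0) (nat_lit 1716026135071) (nat_lit 152) (nat_lit 795783671468) (nat_lit 0) (nat_lit 927945958421) (nat_lit 10) (nat_lit 5) (nat_lit 12) (nat_lit 4) (nat_lit 10) (nat_lit 4) (nat_lit 445) (nat_lit 393) (nat_lit 182)) (XT.lf (nat_lit 0) (nat_lit 322183129575) (nat_lit 76) (nat_lit 2066435705003) (nat_lit 76) (nat_lit 1278355523179) (nat_lit 9) (nat_lit 4) (nat_lit 10) (nat_lit 5) (nat_lit 10) (nat_lit 4) (nat_lit 446) (nat_lit 393) (nat_lit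 181))))))) (XT.nd (nat_lit 49296) (nat_lit 0) (nat_lit 2964) (XT.nd (nat_lit 390) (nat_lit 0) (nat_lit 0) (XT.nd (nat_lit 156) (nat_lit 152) (nat_lit 0) (XT.nd (nat_lit 78) (nat_lit 0) (nat_lit 0) (XT.lf (nat_lit 0) (nat_lit 1574844181711) (nat_lit 76) (nat_lit 1561932896323) (nat_lit 76) (nat_lit 773852709708) (nat_lit 9) (nat_lit 4) (nat_lit 10) (nat_lit 5) (nat_lit 10) (nat_lit 4) (nat_lit 447) (nat_lit 393) (nat_lit 180)) (XT.lf (nat_lit 0) (nat_lit 2927718103654) (nat_lit 76) (nat_lit 1017069870052) (nat_lit 76) (nat_lit 228989679001) (nat_lit 9) (nat_lit 4) (nat_lit 10) (nat_lit 5) (nat_lit 10) (nat_lit 4) (nat_lit 448) (nat_lit 393) (nat_lit 179))) (XT.nd (nat_lit 78) (nat_lit 76) (nat_lit 0) (XT.lf (nat_lit 0) (nat_lit 341480622476) (nat_lit 152) (nat_lit 77800500406) (nat_lit 76) (nat_lit 4038004618201) (nat_lit 8) (nat_lit 5) (nat_lit 10) (nat_lit 5) (nat_lit 9) (nat_lit 4) (nat_lit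 449) (nat_lit 393) (nat_lit 178)) (XT.nd (nat_lit 78) (nat_lit 0) (nat_lit 0) (XT.lf (nat_lit 0) (nat_lit 981411560039) (nat_lit 152) (nat_lit 3526983869477) (nat_lit 0) (nat_lit 251707672112) (nat_lit 7) (nat_lit 5) (nat_lit 9) (nat_lit 4) (nat_lit 7) (nat_lit 4) (nat_lit 450) (nat_lit 393) (nat_lit 177)) (XT.lf (nat_lit 0) (nat_lit 1685609840621) (nat_lit 152) (nat_lit 2444584231520) (nat_lit 0) (nat_lit 955905949434) (nat_lit 7) (nat_lit 5) (nat_lit 9) (nat_lit 4) (nat_lit 7) (nat_lit 4) (nat_lit 451) (nat_lit 393) (nat_lit 176))))) (XT.nd (nat_lit 48672) (nat_lit 0) (nat_lit 4104) (XT.nd (nat_lit 48594) (nat_lit 0) (nat_lit 4104) (XT.lf (nat_lit 0) (nat_lit 2446143977763) (nat_lit 152) (nat_lit 1275592634270) (nat_lit 0) (nat_lit 1716440083557) (nat_lit 7) (nat_lit 5) (nat_lit 9) (nat_lit 4) (nat_lit 7) (nat_lit 4) (nat_lit 452) (nat_lit 393) (nat_lit 175)) (XT.lf (nat_lit 0) (nat_lit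 109961118613) (nat_lit 532) (nat_lit 9936249706) (nat_lit 532) (nat_lit 9936249706) (nat_lit 61) (nat_lit 3) (nat_lit 68) (nat_lit 3) (nat_lit 68) (nat_lit 5) (nat_lit 394) (nat_lit 394) (nat_lit 232))) (XT.nd (nat_lit 78) (nat_lit 0) (nat_lit 76) (XT.lf (nat_lit 76) (nat_lit 110845386374) (nat_lit 0) (nat_lit 120540479701) (nat_lit 532) (nat_lit 38454719165) (nat_lit 62) (nat_lit 5) (nat_lit 61) (nat_lit 3) (nat_lit 68) (nat_lit 5) (nat_lit 395) (nat_lit 394) (nat_lit 231)) (XT.nd (nat_lit 78) (nat_lit 0) (nat_lit 0) (XT.lf (nat_lit 0) (nat_lit 244522468456) (nat_lit 456) (nat_lit 27846149399) (nat_lit 532) (nat_lit 8398713961) (nat_lit 62) (nat_lit 5) (nat_lit 68) (nat_lit 5) (nat_lit 69) (nat_lit 5) (nat_lit 396) (nat_lit 394) (nat_lit 230)) (XT.lf (nat_lit 76) (nat_lit 116491209026) (nat_lit 0) (nat_lit 148151243828) (nat_lit 532) (nat_lit 27451169060) (nat_lit 63) (nat_lit 5) (nat_lit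 62) (nat_lit 5) (nat_lit 69) (nat_lit 5) (nat_lit 397) (nat_lit 394) (nat_lit 229)))))) (XT.nd (nat_lit 390) (nat_lit 760) (nat_lit 0) (XT.nd (nat_lit 156) (nat_lit 0) (nat_lit 0) (XT.nd (nat_lit 78) (nat_lit 456) (nat_lit 0) (XT.lf (nat_lit 76) (nat_lit 273959137205) (nat_lit 0) (nat_lit 13174182698) (nat_lit 532) (nat_lit 17131792700) (nat_lit 63) (nat_lit 5) (nat_lit 62) (nat_lit 5) (nat_lit 69) (nat_lit 5) (nat_lit 398) (nat_lit 394) (nat_lit 228)) (XT.lf (nat_lit 0) (nat_lit 790283076) (nat_lit 532) (nat_lit 187000828905) (nat_lit 608) (nat_lit 129112516428) (nat_lit 56) (nat_lit 5) (nat_lit 63) (nat_lit 5) (nat_lit 64) (nat_lit 5) (nat_lit 399) (nat_lit 394) (nat_lit 227))) (XT.nd (nat_lit 78) (nat_lit 0) (nat_lit 76) (XT.lf (nat_lit 0) (nat_lit 20412820788) (nat_lit 532) (nat_lit 26643881616) (nat_lit 608) (nat_lit 283365544007) (nat_lit 56) (nat_lit 5) (nat_lit 63) (nat_lit 5)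 (nat_lit 64) (nat_lit 5) (nat_lit 400) (nat_lit 394) (nat_lit 226)) (XT.nd (nat_lit 78) (nat_lit 0) (nat_lit 0) (XT.lf (nat_lit 0) (nat_lit 47935095300) (nat_lit 532) (nat_lit 193087466057) (nat_lit 76) (nat_lit 103493397864) (nat_lit 57) (nat_lit 5) (nat_lit 64) (nat_lit 5) (nat_lit 58) (nat_lit 5) (nat_lit 401) (nat_lit 394) (nat_lit 225)) (XT.lf (nat_lit 0) (nat_lit 79628755007) (nat_lit 532) (nat_lit 15658202980) (nat_lit 76) (nat_lit 264292642876) (nat_lit 57) (nat_lit 5) (nat_lit 64) (nat_lit 5) (nat_lit 58) (nat_lit 5) (nat_lit 402) (nat_lit 394) (nat_lit 224))))) (XT.nd (nat_lit 156) (nat_lit 228) (nat_lit 0) (XT.nd (nat_lit 78) (nat_lit 228) (nat_lit 0) (XT.lf (nat_lit 0) (nat_lit 119922065771) (nat_lit 456) (nat_lit 191869978932) (nat_lit 76) (nat_lit 63571156529) (nat_lit 52) (nat_lit 5) (nat_lit 58) (nat_lit 5) (nat_lit 53) (nat_lit 5) (nat_lit 403) (nat_lit 394) (nat_lit 223))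 (XT.lf (nat_lit 0) (nat_lit 4848390685) (nat_lit 228) (nat_lit 161621229627) (nat_lit 304) (nat_lit 225697407061) (nat_lit 49) (nat_lit 5) (nat_lit 52) (nat_lit 5) (nat_lit 53) (nat_lit 5) (nat_lit 404) (nat_lit 394) (nat_lit 222))) (XT.nd (nat_lit 78) (nat_lit 228) (nat_lit 0) (XT.lf (nat_lit 0) (nat_lit 222136800633) (nat_lit 304) (nat_lit 181829296179) (nat_lit 76) (nat_lit 5917397130) (nat_lit 49) (nat_lit 5) (nat_lit 53) (nat_lit 5) (nat_lit 50) (nat_lit 5) (nat_lit 405) (nat_lit 394) (nat_lit 221)) (XT.nd (nat_lit 78) (nat_lit 0) (nat_lit 0) (XT.lf (nat_lit 0) (nat_lit 37791674861) (nat_lit 228) (nat_lit 249572477578) (nat_lit 304) (nat_lit 141244581681) (nat_lit 46) (nat_lit 5) (nat_lit 49) (nat_lit 5) (nat_lit 50) (nat_lit 5) (nat_lit 406) (nat_lit 394) (nat_lit 220)) (XT.lf (nat_lit 0) (nat_lit 285323062849) (nat_lit 228) (nat_lit 77458119316) (nat_lit 304) (nat_lit 85653092210)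 (nat_lit 46) (nat_lit 5) (nat_lit 49) (nat_lit 5) (nat_lit 50) (nat_lit 5) (nat_lit 407) (nat_lit 394) (nat_lit 219))))))))
noncomputable def xc220 : XT := (XT.nd (nat_lit 1482) (nat_lit 912) (nat_lit 0) (XT.nd (nat_lit 702) (nat_lit 836) (nat_lit 0) (XT.nd (nat_lit 312) (nat_lit 532) (nat_lit 0) (XT.nd (nat_lit 156) (nat_lit 228) (nat_lit 0) (XT.nd (nat_lit 78) (nat_lit 76) (nat_lit 0) (XT.lf (nat_lit 0) (nat_lit 84426787542) (nat_lit 152) (nat_lit 364442843938) (nat_lit 228) (nat_lit 20605181834) (nat_lit 44) (nat_lit 5) (nat_lit 46) (nat_lit 5) (nat_lit 47) (nat_lit 5) (nat_lit 408) (nat_lit 394) (nat_lit 218)) (XT.lf (nat_lit 0) (nat_lit 53750484297) (nat_lit 228) (nat_lit 134119501604) (nat_lit 76) (nat_lit 303706093822) (nat_lit 43) (nat_lit 5) (nat_lit 46) (nat_lit 5) (nat_lit 44) (nat_lit 5) (nat_lit 409) (nat_lit 394) (nat_lit 217))) (XT.nd (nat_lit 78) (nat_lit 0) (nat_lit 0)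 (XT.lf (nat_lit 0) (nat_lit 136564789580) (nat_lit 304) (nat_lit 371770174485) (nat_lit 76) (nat_lit 6777795380) (nat_lit 40) (nat_lit 5) (nat_lit 44) (nat_lit 5) (nat_lit 41) (nat_lit 5) (nat_lit 410) (nat_lit 394) (nat_lit 216)) (XT.lf (nat_lit 0) (nat_lit 234646255482) (nat_lit 304) (nat_lit 94584914766) (nat_lit 76) (nat_lit 210609842031) (nat_lit 40) (nat_lit 5) (nat_lit 44) (nat_lit 5) (nat_lit 41) (nat_lit 5) (nat_lit 411) (nat_lit 394) (nat_lit 215)))) (XT.nd (nat_lit 156) (nat_lit 380) (nat_lit 0) (XT.nd (nat_lit 78) (nat_lit 0) (nat_lit 0) (XT.lf (nat_lit 0) (nat_lit 215558212939) (nat_lit 152) (nat_lit 130200171670) (nat_lit 228) (nat_lit 220374409082) (nat_lit 38) (nat_lit 5) (nat_lit 40) (nat_lit 5) (nat_lit 41) (nat_lit 5) (nat_lit 412) (nat_lit 394) (nat_lit 214)) (XT.lf (nat_lit 0) (nat_lit 470451061095) (nat_lit 228) (nat_lit 40534649037) (nat_lit 76) (nat_lit 83166881347)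 (nat_lit 38) (nat_lit 5) (nat_lit 41) (nat_lit 5) (nat_lit 39) (nat_lit 5) (nat_lit 413) (nat_lit 394) (nat_lit 213))) (XT.nd (nat_lit 78) (nat_lit 228) (nat_lit 0) (XT.lf (nat_lit 0) (nat_lit 306246289134) (nat_lit 152) (nat_lit 309619885124) (nat_lit 228) (nat_lit 7688037052) (nat_lit 36) (nat_lit 5) (nat_lit 38) (nat_lit 5) (nat_lit 39) (nat_lit 5) (nat_lit 414) (nat_lit 394) (nat_lit 212)) (XT.nd (nat_lit 78) (nat_lit 0) (nat_lit 0) (XT.lf (nat_lit 0) (nat_lit 26314743893) (nat_lit 152) (nat_lit 87178552448) (nat_lit 228) (nat_lit 541446795938) (nat_lit 33) (nat_lit 5) (nat_lit 35) (nat_lit 5) (nat_lit 36) (nat_lit 5) (nat_lit 415) (nat_lit 394) (nat_lit 211)) (XT.lf (nat_lit 0) (nat_lit 256535909271) (nat_lit 228) (nat_lit 276776107718) (nat_lit 76) (nat_lit 154502281492) (nat_lit 33) (nat_lit 5) (nat_lit 36) (nat_lit 5) (nat_lit 34) (nat_lit 5) (nat_lit 416) (nat_lit 394) (nat_lit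 210)))))) (XT.nd (nat_lit 390) (nat_lit 380) (nat_lit 0) (XT.nd (nat_lit 156) (nat_lit 304) (nat_lit 0) (XT.nd (nat_lit 78) (nat_lit 0) (nat_lit 0) (XT.lf (nat_lit 0) (nat_lit 106272849579) (nat_lit 152) (nat_lit 309569296945) (nat_lit 228) (nat_lit 307090677447) (nat_lit 31) (nat_lit 5) (nat_lit 33) (nat_lit 5) (nat_lit 34) (nat_lit 5) (nat_lit 417) (nat_lit 394) (nat_lit 209)) (XT.lf (nat_lit 0) (nat_lit 535706184057) (nat_lit 152) (nat_lit 59754221706) (nat_lit 228) (nat_lit 164795023914) (nat_lit 31) (nat_lit 5) (nat_lit 33) (nat_lit 5) (nat_lit 34) (nat_lit 5) (nat_lit 418) (nat_lit 394) (nat_lit 208))) (XT.nd (nat_lit 78) (nat_lit 228) (nat_lit 0) (XT.lf (nat_lit 0) (nat_lit 204087996406) (nat_lit 76) (nat_lit 595320038669) (nat_lit 152) (nat_lit 359016033) (nat_lit 30) (nat_lit 5) (nat_lit 31) (nat_lit 5) (nat_lit 32) (nat_lit 4) (nat_lit 419) (nat_lit 394) (nat_lit 207)) (XT.nd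 (nat_lit 78) (nat_lit 152) (nat_lit 0) (XT.lf (nat_lit 0) (nat_lit 176217093479) (nat_lit 152) (nat_lit 168135902593) (nat_lit 76) (nat_lit 497117525566) (nat_lit 29) (nat_lit 5) (nat_lit 31) (nat_lit 5) (nat_lit 30) (nat_lit 5) (nat_lit 420) (nat_lit 394) (nat_lit 206)) (XT.lf (nat_lit 0) (nat_lit 309061865128) (nat_lit 152) (nat_lit 65270953110) (nat_lit 228) (nat_lit 511582071762) (nat_lit 27) (nat_lit 5) (nat_lit 29) (nat_lit 5) (nat_lit 30) (nat_lit 5) (nat_lit 421) (nat_lit 394) (nat_lit 205))))) (XT.nd (nat_lit 156) (nat_lit 304) (nat_lit 0) (XT.nd (nat_lit 78) (nat_lit 76) (nat_lit 0) (XT.lf (nat_lit 0) (nat_lit 598693434646) (nat_lit 228) (nat_lit 105348105538) (nat_lit 76) (nat_lit 229041616965) (nat_lit 27) (nat_lit 5) (nat_lit 30) (nat_lit 5) (nat_lit 28) (nat_lit 4) (nat_lit 422) (nat_lit 394) (nat_lit 204)) (XT.lf (nat_lit 0) (nat_lit 423360004674) (nat_lit 76) (nat_lit 429520042880)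 (nat_lit 152) (nat_lit 130194666352) (nat_lit 26) (nat_lit 5) (nat_lit 27) (nat_lit 5) (nat_lit 28) (nat_lit 4) (nat_lit 423) (nat_lit 394) (nat_lit 203))) (XT.nd (nat_lit 78) (nat_lit 228) (nat_lit 0) (XT.lf (nat_lit 0) (nat_lit 88772221211) (nat_lit 152) (nat_lit 38726593077) (nat_lit 76) (nat_lit 909156558360) (nat_lit 25) (nat_lit 5) (nat_lit 27) (nat_lit 5) (nat_lit 26) (nat_lit 5) (nat_lit 424) (nat_lit 394) (nat_lit 202)) (XT.nd (nat_lit 78) (nat_lit 76) (nat_lit 0) (XT.lf (nat_lit 0) (nat_lit 336609749790) (nat_lit 228) (nat_lit 550435585100) (nat_lit 76) (nat_lit 205735640141) (nat_lit 23) (nat_lit 5) (nat_lit 26) (nat_lit 5) (nat_lit 24) (nat_lit 4) (nat_lit 425) (nat_lit 394) (nat_lit 201)) (XT.lf (nat_lit 0) (nat_lit 16268239817) (nat_lit 76) (nat_lit 592795287726) (nat_lit 152) (nat_lit 543949958317) (nat_lit 22) (nat_lit 5) (nat_lit 23) (nat_lit 5) (nat_lit 24) (nat_lit 4)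 (nat_lit 426) (nat_lit 394) (nat_lit 200))))))) (XT.nd (nat_lit 702) (nat_lit 456) (nat_lit 0) (XT.nd (nat_lit 312) (nat_lit 228) (nat_lit 0) (XT.nd (nat_lit 156) (nat_lit 152) (nat_lit 0) (XT.nd (nat_lit 78) (nat_lit 76) (nat_lit 0) (XT.lf (nat_lit 0) (nat_lit 659612097869) (nat_lit 76) (nat_lit 258751376035) (nat_lit 152) (nat_lit 298497134350) (nat_lit 22) (nat_lit 5) (nat_lit 23) (nat_lit 5) (nat_lit 24) (nat_lit 4) (nat_lit 427) (nat_lit 394) (nat_lit 199)) (XT.lf (nat_lit 0) (nat_lit 69638020592) (nat_lit 76) (nat_lit 1186897662919) (nat_lit 76) (nat_lit 28949555529) (nat_lit 21) (nat_lit 4) (nat_lit 22) (nat_lit 5) (nat_lit 22) (nat_lit 4) (nat_lit 428) (nat_lit 394) (nat_lit 198))) (XT.nd (nat_lit 78) (nat_lit 76) (nat_lit 0) (XT.lf (nat_lit 0) (nat_lit 271400137490) (nat_lit 152) (nat_lit 593435845526) (nat_lit 76) (nat_lit 492471241067) (nat_lit 20) (nat_lit 5) (nat_lit 22) (nat_lit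 5) (nat_lit 21) (nat_lit 4) (nat_lit 429) (nat_lit 394) (nat_lit 197)) (XT.lf (nat_lit 0) (nat_lit 82124681134) (nat_lit 76) (nat_lit 514064181831) (nat_lit 152) (nat_lit 838467943251) (nat_lit 19) (nat_lit 5) (nat_lit 20) (nat_lit 5) (nat_lit 21) (nat_lit 4) (nat_lit 430) (nat_lit 394) (nat_lit 196)))) (XT.nd (nat_lit 156) (nat_lit 152) (nat_lit 0) (XT.nd (nat_lit 78) (nat_lit 76) (nat_lit 0) (XT.lf (nat_lit 0) (nat_lit 845479244273) (nat_lit 76) (nat_lit 117707014757) (nat_lit 152) (nat_lit 553710050092) (nat_lit 19) (nat_lit 5) (nat_lit 20) (nat_lit 5) (nat_lit 21) (nat_lit 4) (nat_lit 431) (nat_lit 394) (nat_lit 195)) (XT.lf (nat_lit 0) (nat_lit 59709973296) (nat_lit 76) (nat_lit 1308733620303) (nat_lit 76) (nat_lit 236559366919) (nat_lit 18) (nat_lit 4) (nat_lit 19) (nat_lit 5) (nat_lit 19) (nat_lit 4) (nat_lit 432) (nat_lit 394) (nat_lit 194))) (XT.nd (nat_lit 78) (nat_lit 76) (nat_lit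 0) (XT.lf (nat_lit 0) (nat_lit 122554521398) (nat_lit 152) (nat_lit 817260865286) (nat_lit 76) (nat_lit 758387534218) (nat_lit 17) (nat_lit 5) (nat_lit 19) (nat_lit 5) (nat_lit 18) (nat_lit 4) (nat_lit 433) (nat_lit 394) (nat_lit 193)) (XT.nd (nat_lit 78) (nat_lit 76) (nat_lit 0) (XT.lf (nat_lit 0) (nat_lit 497617157398) (nat_lit 152) (nat_lit 37130597603) (nat_lit 76) (nat_lit 1263619572243) (nat_lit 17) (nat_lit 5) (nat_lit 19) (nat_lit 5) (nat_lit 18) (nat_lit 4) (nat_lit 434) (nat_lit 394) (nat_lit 192)) (XT.lf (nat_lit 0) (nat_lit 847821535366) (nat_lit 76) (nat_lit 75253385033) (nat_lit 152) (nat_lit 981838756410) (nat_lit 16) (nat_lit 5) (nat_lit 17) (nat_lit 5) (nat_lit 18) (nat_lit 4) (nat_lit 435) (nat_lit 394) (nat_lit 191)))))) (XT.nd (nat_lit 390) (nat_lit 228) (nat_lit 0) (XT.nd (nat_lit 156) (nat_lit 152) (nat_lit 0) (XT.nd (nat_lit 78) (nat_lit 76) (nat_lit 0) (XT.lf (nat_lit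 0) (nat_lit 1393735950929) (nat_lit 152) (nat_lit 224372493442) (nat_lit 0) (nat_lit 400981958249) (nat_lit 16) (nat_lit 5) (nat_lit 18) (nat_lit 4) (nat_lit 16) (nat_lit 4) (nat_lit 436) (nat_lit 394) (nat_lit 190)) (XT.lf (nat_lit 0) (nat_lit 708449589292) (nat_lit 76) (nat_lit 1212593126454) (nat_lit 76) (nat_lit 219839122605) (nat_lit 15) (nat_lit 4) (nat_lit 16) (nat_lit 5) (nat_lit 16) (nat_lit 4) (nat_lit 437) (nat_lit 394) (nat_lit 189))) (XT.nd (nat_lit 78) (nat_lit 76) (nat_lit 0) (XT.lf (nat_lit 0) (nat_lit 213500389819) (nat_lit 152) (nat_lit 548673203367) (nat_lit 76) (nat_lit 1509319811448) (nat_lit 14) (nat_lit 5) (nat_lit 16) (nat_lit 5) (nat_lit 15) (nat_lit 4) (nat_lit 438) (nat_lit 394) (nat_lit 188)) (XT.nd (nat_lit 78) (nat_lit 0) (nat_lit 0) (XT.lf (nat_lit 0) (nat_lit 421143755304) (nat_lit 76) (nat_lit 258614792327) (nat_lit 152) (nat_lit 1731528259454) (nat_lit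 13) (nat_lit 5) (nat_lit 14) (nat_lit 5) (nat_lit 15) (nat_lit 4) (nat_lit 439) (nat_lit 394) (nat_lit 187)) (XT.lf (nat_lit 0) (nat_lit 1205568457414) (nat_lit 152) (nat_lit 1068563375842) (nat_lit 0) (nat_lit 286351760529) (nat_lit 13) (nat_lit 5) (nat_lit 15) (nat_lit 4) (nat_lit 13) (nat_lit 4) (nat_lit 440) (nat_lit 394) (nat_lit 186))))) (XT.nd (nat_lit 156) (nat_lit 152) (nat_lit 0) (XT.nd (nat_lit 78) (nat_lit 76) (nat_lit 0) (XT.lf (nat_lit 0) (nat_lit 1780160417823) (nat_lit 152) (nat_lit 79974611638) (nat_lit 0) (nat_lit 860943713335) (nat_lit 13) (nat_lit 5) (nat_lit 15) (nat_lit 4) (nat_lit 13) (nat_lit 4) (nat_lit 441) (nat_lit 394) (nat_lit 185)) (XT.lf (nat_lit 0) (nat_lit 1039711833356) (nat_lit 76) (nat_lit 1386012987519) (nat_lit 76) (nat_lit 466796275992) (nat_lit 12) (nat_lit 4) (nat_lit 13) (nat_lit 5) (nat_lit 13) (nat_lit 4) (nat_lit 442) (nat_lit 394) (nat_lit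 184))) (XT.nd (nat_lit 78) (nat_lit 76) (nat_lit 0) (XT.lf (nat_lit 0) (nat_lit 45235106557) (nat_lit 152) (nat_lit 825127696405) (nat_lit 76) (nat_lit 2207049489769) (nat_lit 11) (nat_lit 5) (nat_lit 13) (nat_lit 5) (nat_lit 12) (nat_lit 4) (nat_lit 443) (nat_lit 394) (nat_lit 183)) (XT.nd (nat_lit 78) (nat_lit 0) (nat_lit 0) (XT.lf (nat_lit 0) (nat_lit 287000741028) (nat_lit 76) (nat_lit 292911501811) (nat_lit 152) (nat_lit 2695660385810) (nat_lit 10) (nat_lit 5) (nat_lit 11) (nat_lit 5) (nat_lit 12) (nat_lit 4) (nat_lit 444) (nat_lit 394) (nat_lit 182)) (XT.lf (nat_lit 0) (nat_lit 1188464187668) (nat_lit 152) (nat_lit 1961295966639) (nat_lit 0) (nat_lit 337337586124) (nat_lit 10) (nat_lit 5) (nat_lit 12) (nat_lit 4) (nat_lit 10) (nat_lit 4) (nat_lit 445) (nat_lit 394) (nat_lit 181))))))))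
noncomputable def xc221 : XT := (XT.nd (nat_lit 50076) (nat_lit 0) (nat_lit 1216) (XT.nd (nat_lit 49296) (nat_lit 0) (nat_lit 3192) (XT.nd (nat_lit 312) (nat_lit 152) (nat_lit 0) (XT.nd (nat_lit 156) (nat_lit 0) (nat_lit 0) (XT.nd (nat_lit 78) (nat_lit 76) (nat_lit 0) (XT.lf (nat_lit 0) (nat_lit 1853308371571) (nat_lit 152) (nat_lit 859446077671) (nat_lit 0) (nat_lit 1002181765236) (nat_lit 10) (nat_lit 5) (nat_lit 12) (nat_lit 4) (nat_lit 10) (nat_lit 4) (nat_lit 446) (nat_lit 394) (nat_lit 180)) (XT.lf (nat_lit 0) (nat_lit 347958060177) (nat_lit 76) (nat_lit 2231750422810) (nat_lit 76) (nat_lit 1380623812040) (nat_lit 9) (nat_lit 4) (nat_lit 10) (nat_lit 5) (nat_lit 10) (nat_lit 4) (nat_lit 447) (nat_lit 394) (nat_lit 179))) (XT.nd (nat_lit 78) (nat_lit 0) (nat_lit 0) (XT.lf (nat_lit 0) (nat_lit 1700831975725) (nat_lit 76) (nat_lit 1686887399701) (nat_lit 76) (nat_lit 835760784824) (nat_lit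 9) (nat_lit 4) (nat_lit 10) (nat_lit 5) (nat_lit 10) (nat_lit 4) (nat_lit 448) (nat_lit 394) (nat_lit 178)) (XT.lf (nat_lit 0) (nat_lit 3161935792203) (nat_lit 76) (nat_lit 1098435340834) (nat_lit 76) (nat_lit 247308722153) (nat_lit 9) (nat_lit 4) (nat_lit 10) (nat_lit 5) (nat_lit 10) (nat_lit 4) (nat_lit 449) (nat_lit 394) (nat_lit 177)))) (XT.nd (nat_lit 156) (nat_lit 0) (nat_lit 0) (XT.nd (nat_lit 78) (nat_lit 76) (nat_lit 0) (XT.lf (nat_lit 0) (nat_lit 368799187650) (nat_lit 152) (nat_lit 84024311888) (nat_lit 76) (nat_lit 4361045091586) (nat_lit 8) (nat_lit 5) (nat_lit 10) (nat_lit 5) (nat_lit 9) (nat_lit 4) (nat_lit 450) (nat_lit 394) (nat_lit 176)) (XT.lf (nat_lit 0) (nat_lit 1059924599689) (nat_lit 152) (nat_lit 3809142349940) (nat_lit 0) (nat_lit 271844390927) (nat_lit 7) (nat_lit 5) (nat_lit 9) (nat_lit 4) (nat_lit 7) (nat_lit 4) (nat_lit 451) (nat_lit 394) (nat_lit 175))) (XT.nd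 (nat_lit 48672) (nat_lit 0) (nat_lit 4104) (XT.lf (nat_lit 0) (nat_lit 1820458734211) (nat_lit 152) (nat_lit 2640150757917) (nat_lit 0) (nat_lit 1032378522654) (nat_lit 7) (nat_lit 5) (nat_lit 9) (nat_lit 4) (nat_lit 7) (nat_lit 4) (nat_lit 452) (nat_lit 394) (nat_lit 174)) (XT.nd (nat_lit 78) (nat_lit 0) (nat_lit 0) (XT.lf (nat_lit 0) (nat_lit 118758891485) (nat_lit 532) (nat_lit 10730672116) (nat_lit 532) (nat_lit 10730672116) (nat_lit 61) (nat_lit 3) (nat_lit 68) (nat_lit 3) (nat_lit 68) (nat_lit 5) (nat_lit 395) (nat_lit 395) (nat_lit 230)) (XT.lf (nat_lit 76) (nat_lit 119713948237) (nat_lit 0) (nat_lit 130184445409) (nat_lit 532) (nat_lit 41529303753) (nat_lit 62) (nat_lit 5) (nat_lit 61) (nat_lit 3) (nat_lit 68) (nat_lit 5) (nat_lit 396) (nat_lit 395) (nat_lit 229)))))) (XT.nd (nat_lit 390) (nat_lit 532) (nat_lit 0) (XT.nd (nat_lit 156) (nat_lit 456) (nat_lit 0) (XT.nd (nat_lit 78)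 (nat_lit 0) (nat_lit 0) (XT.lf (nat_lit 0) (nat_lit 264085785184) (nat_lit 456) (nat_lit 30072838475) (nat_lit 532) (nat_lit 9069971312) (nat_lit 62) (nat_lit 5) (nat_lit 68) (nat_lit 5) (nat_lit 69) (nat_lit 5) (nat_lit 397) (nat_lit 395) (nat_lit 228)) (XT.lf (nat_lit 76) (nat_lit 125811483235) (nat_lit 0) (nat_lit 160003796071) (nat_lit 532) (nat_lit 29645716231) (nat_lit 63) (nat_lit 5) (nat_lit 62) (nat_lit 5) (nat_lit 69) (nat_lit 5) (nat_lit 398) (nat_lit 395) (nat_lit 227))) (XT.nd (nat_lit 78) (nat_lit 456) (nat_lit 0) (XT.lf (nat_lit 76) (nat_lit 295876773262) (nat_lit 0) (nat_lit 14228536514) (nat_lit 532) (nat_lit 18500904306) (nat_lit 63) (nat_lit 5) (nat_lit 62) (nat_lit 5) (nat_lit 69) (nat_lit 5) (nat_lit 399) (nat_lit 395) (nat_lit 226)) (XT.nd (nat_lit 78) (nat_lit 0) (nat_lit 0) (XT.lf (nat_lit 0) (nat_lit 854780171) (nat_lit 532) (nat_lit 201959829948) (nat_lit 608)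 (nat_lit 139441205247) (nat_lit 56) (nat_lit 5) (nat_lit 63) (nat_lit 5) (nat_lit 64) (nat_lit 5) (nat_lit 400) (nat_lit 395) (nat_lit 225)) (XT.lf (nat_lit 0) (nat_lit 22047026496) (nat_lit 532) (nat_lit 28774405785) (nat_lit 608) (nat_lit 306034498181) (nat_lit 56) (nat_lit 5) (nat_lit 63) (nat_lit 5) (nat_lit 64) (nat_lit 5) (nat_lit 401) (nat_lit 395) (nat_lit 224))))) (XT.nd (nat_lit 156) (nat_lit 608) (nat_lit 0) (XT.nd (nat_lit 78) (nat_lit 0) (nat_lit 0) (XT.lf (nat_lit 0) (nat_lit 51771014967) (nat_lit 532) (nat_lit 208533407813) (nat_lit 76) (nat_lit 111772723050) (nat_lit 57) (nat_lit 5) (nat_lit 64) (nat_lit 5) (nat_lit 58) (nat_lit 5) (nat_lit 402) (nat_lit 395) (nat_lit 223)) (XT.lf (nat_lit 0) (nat_lit 86000085077) (nat_lit 532) (nat_lit 16909881877) (nat_lit 76) (nat_lit 285435918524) (nat_lit 57) (nat_lit 5) (nat_lit 64) (nat_lit 5) (nat_lit 58) (nat_lit 5) (nat_lit 403)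 (nat_lit 395) (nat_lit 222))) (XT.nd (nat_lit 78) (nat_lit 228) (nat_lit 0) (XT.lf (nat_lit 0) (nat_lit 129516806770) (nat_lit 456) (nat_lit 207218544974) (nat_lit 76) (nat_lit 68656826528) (nat_lit 52) (nat_lit 5) (nat_lit 58) (nat_lit 5) (nat_lit 53) (nat_lit 5) (nat_lit 404) (nat_lit 395) (nat_lit 221)) (XT.nd (nat_lit 78) (nat_lit 0) (nat_lit 0) (XT.lf (nat_lit 0) (nat_lit 5237268079) (nat_lit 228) (nat_lit 174550849516) (nat_lit 304) (nat_lit 243752196829) (nat_lit 49) (nat_lit 5) (nat_lit 52) (nat_lit 5) (nat_lit 53) (nat_lit 5) (nat_lit 405) (nat_lit 395) (nat_lit 220)) (XT.lf (nat_lit 0) (nat_lit 239908605375) (nat_lit 304) (nat_lit 196374640438) (nat_lit 76) (nat_lit 6390857933) (nat_lit 49) (nat_lit 5) (nat_lit 53) (nat_lit 5) (nat_lit 50) (nat_lit 5) (nat_lit 406) (nat_lit 395) (nat_lit 219))))))) (XT.nd (nat_lit 780) (nat_lit 760) (nat_lit 0) (XT.nd (nat_lit 390) (nat_lit 532)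 (nat_lit 0) (XT.nd (nat_lit 156) (nat_lit 456) (nat_lit 0) (XT.nd (nat_lit 78) (nat_lit 0) (nat_lit 0) (XT.lf (nat_lit 0) (nat_lit 40815982983) (nat_lit 228) (nat_lit 269538122015) (nat_lit 304) (nat_lit 152543261429) (nat_lit 46) (nat_lit 5) (nat_lit 49) (nat_lit 5) (nat_lit 50) (nat_lit 5) (nat_lit 407) (nat_lit 395) (nat_lit 218)) (XT.lf (nat_lit 0) (nat_lit 308149809852) (nat_lit 228) (nat_lit 83654626482) (nat_lit 304) (nat_lit 92504518489) (nat_lit 46) (nat_lit 5) (nat_lit 49) (nat_lit 5) (nat_lit 50) (nat_lit 5) (nat_lit 408) (nat_lit 395) (nat_lit 217))) (XT.nd (nat_lit 78) (nat_lit 304) (nat_lit 0) (XT.lf (nat_lit 0) (nat_lit 91181866293) (nat_lit 152) (nat_lit 393598064710) (nat_lit 228) (nat_lit 22252808375) (nat_lit 44) (nat_lit 5) (nat_lit 46) (nat_lit 5) (nat_lit 47) (nat_lit 5) (nat_lit 409) (nat_lit 395) (nat_lit 216)) (XT.nd (nat_lit 78) (nat_lit 228) (nat_lit 0) (XT.lf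 (nat_lit 0) (nat_lit 58051216177) (nat_lit 228) (nat_lit 144848158216) (nat_lit 76) (nat_lit 328002735674) (nat_lit 43) (nat_lit 5) (nat_lit 46) (nat_lit 5) (nat_lit 44) (nat_lit 5) (nat_lit 410) (nat_lit 395) (nat_lit 215)) (XT.lf (nat_lit 0) (nat_lit 147490640954) (nat_lit 304) (nat_lit 401510859459) (nat_lit 76) (nat_lit 7320225792) (nat_lit 40) (nat_lit 5) (nat_lit 44) (nat_lit 5) (nat_lit 41) (nat_lit 5) (nat_lit 411) (nat_lit 395) (nat_lit 214))))) (XT.nd (nat_lit 156) (nat_lit 380) (nat_lit 0) (XT.nd (nat_lit 78) (nat_lit 152) (nat_lit 0) (XT.lf (nat_lit 0) (nat_lit 253418574630) (nat_lit 304) (nat_lit 102150847776) (nat_lit 76) (nat_lit 227458820858) (nat_lit 40) (nat_lit 5) (nat_lit 44) (nat_lit 5) (nat_lit 41) (nat_lit 5) (nat_lit 412) (nat_lit 395) (nat_lit 213)) (XT.lf (nat_lit 0) (nat_lit 232803708369) (nat_lit 152) (nat_lit 140615940052) (nat_lit 228) (nat_lit 238003720859)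 (nat_lit 38) (nat_lit 5) (nat_lit 40) (nat_lit 5) (nat_lit 41) (nat_lit 5) (nat_lit 413) (nat_lit 395) (nat_lit 212))) (XT.nd (nat_lit 78) (nat_lit 380) (nat_lit 0) (XT.lf (nat_lit 0) (nat_lit 508087700560) (nat_lit 228) (nat_lit 43776605775) (nat_lit 76) (nat_lit 89820447668) (nat_lit 38) (nat_lit 5) (nat_lit 41) (nat_lit 5) (nat_lit 39) (nat_lit 5) (nat_lit 414) (nat_lit 395) (nat_lit 211)) (XT.nd (nat_lit 78) (nat_lit 228) (nat_lit 0) (XT.lf (nat_lit 0) (nat_lit 330746786813) (nat_lit 152) (nat_lit 334389213993) (nat_lit 228) (nat_lit 8302504404) (nat_lit 36) (nat_lit 5) (nat_lit 38) (nat_lit 5) (nat_lit 39) (nat_lit 5) (nat_lit 415) (nat_lit 395) (nat_lit 210)) (XT.lf (nat_lit 0) (nat_lit 28420726261) (nat_lit 152) (nat_lit 94152559409) (nat_lit 228) (nat_lit 584761971602) (nat_lit 33) (nat_lit 5) (nat_lit 35) (nat_lit 5) (nat_lit 36) (nat_lit 5) (nat_lit 416) (nat_lit 395) (nat_lit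 209)))))) (XT.nd (nat_lit 390) (nat_lit 456) (nat_lit 0) (XT.nd (nat_lit 156) (nat_lit 152) (nat_lit 0) (XT.nd (nat_lit 78) (nat_lit 152) (nat_lit 0) (XT.lf (nat_lit 0) (nat_lit 277059274873) (nat_lit 228) (nat_lit 298917419873) (nat_lit 76) (nat_lit 166862707869) (nat_lit 33) (nat_lit 5) (nat_lit 36) (nat_lit 5) (nat_lit 34) (nat_lit 5) (nat_lit 417) (nat_lit 395) (nat_lit 208)) (XT.lf (nat_lit 0) (nat_lit 114775434351) (nat_lit 152) (nat_lit 334334558449) (nat_lit 228) (nat_lit 331657418834) (nat_lit 31) (nat_lit 5) (nat_lit 33) (nat_lit 5) (nat_lit 34) (nat_lit 5) (nat_lit 418) (nat_lit 395) (nat_lit 207))) (XT.nd (nat_lit 78) (nat_lit 152) (nat_lit 0) (XT.lf (nat_lit 0) (nat_lit 578563379527) (nat_lit 152) (nat_lit 64534298098) (nat_lit 228) (nat_lit 177978151004) (nat_lit 31) (nat_lit 5) (nat_lit 33) (nat_lit 5) (nat_lit 34) (nat_lit 5) (nat_lit 419) (nat_lit 395) (nat_lit 206)) (XT.nd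 (nat_lit 78) (nat_lit 76) (nat_lit 0) (XT.lf (nat_lit 0) (nat_lit 220415747522) (nat_lit 76) (nat_lit 642945360140) (nat_lit 152) (nat_lit 387272902) (nat_lit 30) (nat_lit 5) (nat_lit 31) (nat_lit 5) (nat_lit 32) (nat_lit 4) (nat_lit 420) (nat_lit 395) (nat_lit 205)) (XT.lf (nat_lit 0) (nat_lit 190314869460) (nat_lit 152) (nat_lit 181586094367) (nat_lit 76) (nat_lit 536887166647) (nat_lit 29) (nat_lit 5) (nat_lit 31) (nat_lit 5) (nat_lit 30) (nat_lit 5) (nat_lit 421) (nat_lit 395) (nat_lit 204))))) (XT.nd (nat_lit 156) (nat_lit 304) (nat_lit 0) (XT.nd (nat_lit 78) (nat_lit 0) (nat_lit 0) (XT.lf (nat_lit 0) (nat_lit 333787477545) (nat_lit 152) (nat_lit 70492360346) (nat_lit 228) (nat_lit 552508211576) (nat_lit 27) (nat_lit 5) (nat_lit 29) (nat_lit 5) (nat_lit 30) (nat_lit 5) (nat_lit 422) (nat_lit 395) (nat_lit 203)) (XT.lf (nat_lit 0) (nat_lit 646589280402) (nat_lit 228) (nat_lit 113775316508)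 (nat_lit 76) (nat_lit 247365182949) (nat_lit 27) (nat_lit 5) (nat_lit 30) (nat_lit 5) (nat_lit 28) (nat_lit 4) (nat_lit 423) (nat_lit 395) (nat_lit 202))) (XT.nd (nat_lit 78) (nat_lit 228) (nat_lit 0) (XT.lf (nat_lit 0) (nat_lit 457229426382) (nat_lit 76) (nat_lit 463881383423) (nat_lit 152) (nat_lit 140609852367) (nat_lit 26) (nat_lit 5) (nat_lit 27) (nat_lit 5) (nat_lit 28) (nat_lit 4) (nat_lit 424) (nat_lit 395) (nat_lit 201)) (XT.nd (nat_lit 78) (nat_lit 152) (nat_lit 0) (XT.lf (nat_lit 0) (nat_lit 95874339573) (nat_lit 152) (nat_lit 41824127129) (nat_lit 76) (nat_lit 981889308358) (nat_lit 25) (nat_lit 5) (nat_lit 27) (nat_lit 5) (nat_lit 26) (nat_lit 5) (nat_lit 425) (nat_lit 395) (nat_lit 200)) (XT.lf (nat_lit 0) (nat_lit 363538865104) (nat_lit 228) (nat_lit 594469833042) (nat_lit 76) (nat_lit 222194727925) (nat_lit 23) (nat_lit 5) (nat_lit 26) (nat_lit 5) (nat_lit 24) (nat_lit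 4) (nat_lit 426) (nat_lit 395) (nat_lit 199))))))))
noncomputable def xc222 : XT := (XT.nd (nat_lit 1482) (nat_lit 228) (nat_lit 0) (XT.nd (nat_lit 702) (nat_lit 532) (nat_lit 0) (XT.nd (nat_lit 312) (nat_lit 228) (nat_lit 0) (XT.nd (nat_lit 156) (nat_lit 152) (nat_lit 0) (XT.nd (nat_lit 78) (nat_lit 0) (nat_lit 0) (XT.lf (nat_lit 0) (nat_lit 17570282707) (nat_lit 76) (nat_lit 640218651569) (nat_lit 152) (nat_lit 587465604366) (nat_lit 22) (nat_lit 5) (nat_lit 23) (nat_lit 5) (nat_lit 24) (nat_lit 4) (nat_lit 427) (nat_lit 395) (nat_lit 198)) (XT.lf (nat_lit 0) (nat_lit 712381606165) (nat_lit 76) (nat_lit 279451246141) (nat_lit 152) (nat_lit 322376580453) (nat_lit 22) (nat_lit 5) (nat_lit 23) (nat_lit 5) (nat_lit 24) (nat_lit 4) (nat_lit 428) (nat_lit 395) (nat_lit 197))) (XT.nd (nat_lit 78) (nat_lit 76) (nat_lit 0) (XT.lf (nat_lit 0) (nat_lit 75209606942) (nat_lit 76) (nat_lit 1281849227926)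 (nat_lit 76) (nat_lit 31265199455) (nat_lit 21) (nat_lit 4) (nat_lit 22) (nat_lit 5) (nat_lit 22) (nat_lit 4) (nat_lit 429) (nat_lit 395) (nat_lit 196)) (XT.lf (nat_lit 0) (nat_lit 293112430418) (nat_lit 152) (nat_lit 640910193876) (nat_lit 76) (nat_lit 531869155069) (nat_lit 20) (nat_lit 5) (nat_lit 22) (nat_lit 5) (nat_lit 21) (nat_lit 4) (nat_lit 430) (nat_lit 395) (nat_lit 195)))) (XT.nd (nat_lit 156) (nat_lit 152) (nat_lit 0) (XT.nd (nat_lit 78) (nat_lit 0) (nat_lit 0) (XT.lf (nat_lit 0) (nat_lit 88695161770) (nat_lit 76) (nat_lit 555189083451) (nat_lit 152) (nat_lit 905545083551) (nat_lit 19) (nat_lit 5) (nat_lit 20) (nat_lit 5) (nat_lit 21) (nat_lit 4) (nat_lit 431) (nat_lit 395) (nat_lit 194)) (XT.lf (nat_lit 0) (nat_lit 913118052467) (nat_lit 76) (nat_lit 127123360264) (nat_lit 152) (nat_lit 598006580802) (nat_lit 19) (nat_lit 5) (nat_lit 20) (nat_lit 5) (nat_lit 21) (nat_lit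 4) (nat_lit 432) (nat_lit 395) (nat_lit 193))) (XT.nd (nat_lit 78) (nat_lit 76) (nat_lit 0) (XT.lf (nat_lit 0) (nat_lit 64487242695) (nat_lit 76) (nat_lit 1413432088775) (nat_lit 76) (nat_lit 255483845785) (nat_lit 18) (nat_lit 4) (nat_lit 19) (nat_lit 5) (nat_lit 19) (nat_lit 4) (nat_lit 433) (nat_lit 395) (nat_lit 192)) (XT.nd (nat_lit 78) (nat_lit 0) (nat_lit 0) (XT.lf (nat_lit 0) (nat_lit 132359121033) (nat_lit 152) (nat_lit 882641285311) (nat_lit 76) (nat_lit 819058729135) (nat_lit 17) (nat_lit 5) (nat_lit 19) (nat_lit 5) (nat_lit 18) (nat_lit 4) (nat_lit 434) (nat_lit 395) (nat_lit 191)) (XT.lf (nat_lit 0) (nat_lit 537426750289) (nat_lit 152) (nat_lit 40100629487) (nat_lit 76) (nat_lit 1364709315966) (nat_lit 17) (nat_lit 5) (nat_lit 19) (nat_lit 5) (nat_lit 18) (nat_lit 4) (nat_lit 435) (nat_lit 395) (nat_lit 190)))))) (XT.nd (nat_lit 390) (nat_lit 228) (nat_lit 0) (XT.nd (nat_lit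 156) (nat_lit 228) (nat_lit 0) (XT.nd (nat_lit 78) (nat_lit 0) (nat_lit 0) (XT.lf (nat_lit 0) (nat_lit 915647663589) (nat_lit 76) (nat_lit 81273464171) (nat_lit 152) (nat_lit 1060385626040) (nat_lit 16) (nat_lit 5) (nat_lit 17) (nat_lit 5) (nat_lit 18) (nat_lit 4) (nat_lit 436) (nat_lit 395) (nat_lit 189)) (XT.lf (nat_lit 0) (nat_lit 1505235029169) (nat_lit 152) (nat_lit 242321905939) (nat_lit 0) (nat_lit 433060683499) (nat_lit 16) (nat_lit 5) (nat_lit 18) (nat_lit 4) (nat_lit 16) (nat_lit 4) (nat_lit 437) (nat_lit 395) (nat_lit 188))) (XT.nd (nat_lit 78) (nat_lit 152) (nat_lit 0) (XT.lf (nat_lit 0) (nat_lit 765125933618) (nat_lit 76) (nat_lit 1309600395651) (nat_lit 76) (nat_lit 237426040404) (nat_lit 15) (nat_lit 4) (nat_lit 16) (nat_lit 5) (nat_lit 16) (nat_lit 4) (nat_lit 438) (nat_lit 395) (nat_lit 187)) (XT.nd (nat_lit 78) (nat_lit 76) (nat_lit 0) (XT.lf (nat_lit 0) (nat_lit 230580607490)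 (nat_lit 152) (nat_lit 592566700534) (nat_lit 76) (nat_lit 1630065554022) (nat_lit 14) (nat_lit 5) (nat_lit 16) (nat_lit 5) (nat_lit 15) (nat_lit 4) (nat_lit 439) (nat_lit 395) (nat_lit 186)) (XT.lf (nat_lit 0) (nat_lit 454835605739) (nat_lit 76) (nat_lit 279303806791) (nat_lit 152) (nat_lit 1870050324598) (nat_lit 13) (nat_lit 5) (nat_lit 14) (nat_lit 5) (nat_lit 15) (nat_lit 4) (nat_lit 440) (nat_lit 395) (nat_lit 185))))) (XT.nd (nat_lit 156) (nat_lit 228) (nat_lit 0) (XT.nd (nat_lit 78) (nat_lit 0) (nat_lit 0) (XT.lf (nat_lit 0) (nat_lit 1302014105444) (nat_lit 152) (nat_lit 1154048112139) (nat_lit 0) (nat_lit 309260049956) (nat_lit 13) (nat_lit 5) (nat_lit 15) (nat_lit 4) (nat_lit 13) (nat_lit 4) (nat_lit 441) (nat_lit 395) (nat_lit 184)) (XT.lf (nat_lit 0) (nat_lit 1922573409987) (nat_lit 152) (nat_lit 86372271523) (nat_lit 0) (nat_lit 929819347981) (nat_lit 13) (nat_lit 5) (nat_lit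 15) (nat_lit 4) (nat_lit 13) (nat_lit 4) (nat_lit 442) (nat_lit 395) (nat_lit 183))) (XT.nd (nat_lit 78) (nat_lit 152) (nat_lit 0) (XT.lf (nat_lit 0) (nat_lit 1122889081247) (nat_lit 76) (nat_lit 1496893879521) (nat_lit 76) (nat_lit 504139811480) (nat_lit 12) (nat_lit 4) (nat_lit 13) (nat_lit 5) (nat_lit 13) (nat_lit 4) (nat_lit 443) (nat_lit 395) (nat_lit 182)) (XT.nd (nat_lit 78) (nat_lit 76) (nat_lit 0) (XT.lf (nat_lit 0) (nat_lit 48854061615) (nat_lit 152) (nat_lit 891137625467) (nat_lit 76) (nat_lit 2383613577319) (nat_lit 11) (nat_lit 5) (nat_lit 13) (nat_lit 5) (nat_lit 12) (nat_lit 4) (nat_lit 444) (nat_lit 395) (nat_lit 181)) (XT.lf (nat_lit 0) (nat_lit 309961079704) (nat_lit 76) (nat_lit 316344284962) (nat_lit 152) (nat_lit 2911313062861) (nat_lit 10) (nat_lit 5) (nat_lit 11) (nat_lit 5) (nat_lit 12) (nat_lit 4) (nat_lit 445) (nat_lit 395) (nat_lit 180))))))) (XT.nd (nat_lit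 49452) (nat_lit 0) (nat_lit 2964) (XT.nd (nat_lit 390) (nat_lit 152) (nat_lit 0) (XT.nd (nat_lit 156) (nat_lit 76) (nat_lit 0) (XT.nd (nat_lit 78) (nat_lit 0) (nat_lit 0) (XT.lf (nat_lit 0) (nat_lit 1283541457584) (nat_lit 152) (nat_lit 2118199377754) (nat_lit 0) (nat_lit 364324713516) (nat_lit 10) (nat_lit 5) (nat_lit 12) (nat_lit 4) (nat_lit 10) (nat_lit 4) (nat_lit 446) (nat_lit 395) (nat_lit 179)) (XT.lf (nat_lit 0) (nat_lit 2001573166206) (nat_lit 152) (nat_lit 928201517388) (nat_lit 0) (nat_lit 1082356418031) (nat_lit 10) (nat_lit 5) (nat_lit 12) (nat_lit 4) (nat_lit 10) (nat_lit 4) (nat_lit 447) (nat_lit 395) (nat_lit 178))) (XT.nd (nat_lit 78) (nat_lit 0) (nat_lit 0) (XT.lf (nat_lit 0) (nat_lit 375794945247) (nat_lit 76) (nat_lit 2410290337813) (nat_lit 76) (nat_lit 1491073585835) (nat_lit 9) (nat_lit 4) (nat_lit 10) (nat_lit 5) (nat_lit 10) (nat_lit 4) (nat_lit 448) (nat_lit 395)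 (nat_lit 177)) (XT.nd (nat_lit 78) (nat_lit 0) (nat_lit 0) (XT.lf (nat_lit 0) (nat_lit 1836898756243) (nat_lit 76) (nat_lit 1821838281657) (nat_lit 76) (nat_lit 902621526158) (nat_lit 9) (nat_lit 4) (nat_lit 10) (nat_lit 5) (nat_lit 10) (nat_lit 4) (nat_lit 449) (nat_lit 395) (nat_lit 176)) (XT.lf (nat_lit 0) (nat_lit 3414890861560) (nat_lit 76) (nat_lit 1186310066231) (nat_lit 76) (nat_lit 267093307471) (nat_lit 9) (nat_lit 4) (nat_lit 10) (nat_lit 5) (nat_lit 10) (nat_lit 4) (nat_lit 450) (nat_lit 395) (nat_lit 175))))) (XT.nd (nat_lit 48828) (nat_lit 0) (nat_lit 4104) (XT.nd (nat_lit 78) (nat_lit 76) (nat_lit 0) (XT.lf (nat_lit 0) (nat_lit 398303221579) (nat_lit 152) (nat_lit 90746060893) (nat_lit 76) (nat_lit 4709928788016) (nat_lit 8) (nat_lit 5) (nat_lit 10) (nat_lit 5) (nat_lit 9) (nat_lit 4) (nat_lit 451) (nat_lit 395) (nat_lit 174)) (XT.lf (nat_lit 0) (nat_lit 1144718666127) (nat_lit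 152) (nat_lit 4113873541523) (nat_lit 0) (nat_lit 293592032261) (nat_lit 7) (nat_lit 5) (nat_lit 9) (nat_lit 4) (nat_lit 7) (nat_lit 4) (nat_lit 452) (nat_lit 395) (nat_lit 173))) (XT.nd (nat_lit 78) (nat_lit 0) (nat_lit 0) (XT.lf (nat_lit 0) (nat_lit 128260360163) (nat_lit 532) (nat_lit 11588716449) (nat_lit 532) (nat_lit 11588716449) (nat_lit 61) (nat_lit 3) (nat_lit 68) (nat_lit 3) (nat_lit 68) (nat_lit 5) (nat_lit 396) (nat_lit 396) (nat_lit 228)) (XT.nd (nat_lit 78) (nat_lit 0) (nat_lit 76) (XT.lf (nat_lit 76) (nat_lit 129291862237) (nat_lit 0) (nat_lit 140599824612) (nat_lit 532) (nat_lit 44850110892) (nat_lit 62) (nat_lit 5) (nat_lit 61) (nat_lit 3) (nat_lit 68) (nat_lit 5) (nat_lit 397) (nat_lit 396) (nat_lit 227)) (XT.lf (nat_lit 0) (nat_lit 285213950513) (nat_lit 456) (nat_lit 32477805749) (nat_lit 532) (nat_lit 9795020520) (nat_lit 62) (nat_lit 5) (nat_lit 68) (nat_lit 5) (nat_lit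 69) (nat_lit 5) (nat_lit 398) (nat_lit 396) (nat_lit 226)))))) (XT.nd (nat_lit 390) (nat_lit 760) (nat_lit 0) (XT.nd (nat_lit 156) (nat_lit 456) (nat_lit 0) (XT.nd (nat_lit 78) (nat_lit 0) (nat_lit 0) (XT.lf (nat_lit 76) (nat_lit 135877239930) (nat_lit 0) (nat_lit 172804487906) (nat_lit 532) (nat_lit 32016047779) (nat_lit 63) (nat_lit 5) (nat_lit 62) (nat_lit 5) (nat_lit 69) (nat_lit 5) (nat_lit 399) (nat_lit 396) (nat_lit 225)) (XT.lf (nat_lit 76) (nat_lit 319547691083) (nat_lit 0) (nat_lit 15367178833) (nat_lit 532) (nat_lit 19979749105) (nat_lit 63) (nat_lit 5) (nat_lit 62) (nat_lit 5) (nat_lit 69) (nat_lit 5) (nat_lit 400) (nat_lit 396) (nat_lit 224))) (XT.nd (nat_lit 78) (nat_lit 0) (nat_lit 0) (XT.lf (nat_lit 0) (nat_lit 924255218) (nat_lit 532) (nat_lit 218115703046) (nat_lit 608) (nat_lit 150596233753) (nat_lit 56) (nat_lit 5) (nat_lit 63) (nat_lit 5) (nat_lit 64) (nat_lit 5) (nat_lit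 401) (nat_lit 396) (nat_lit 223)) (XT.nd (nat_lit 78) (nat_lit 0) (nat_lit 76) (XT.lf (nat_lit 0) (nat_lit 23811800314) (nat_lit 532) (nat_lit 31075512602) (nat_lit 608) (nat_lit 330517009967) (nat_lit 56) (nat_lit 5) (nat_lit 63) (nat_lit 5) (nat_lit 64) (nat_lit 5) (nat_lit 402) (nat_lit 396) (nat_lit 222)) (XT.lf (nat_lit 0) (nat_lit 55913649563) (nat_lit 532) (nat_lit 225215175492) (nat_lit 76) (nat_lit 120714415170) (nat_lit 57) (nat_lit 5) (nat_lit 64) (nat_lit 5) (nat_lit 58) (nat_lit 5) (nat_lit 403) (nat_lit 396) (nat_lit 221))))) (XT.nd (nat_lit 156) (nat_lit 456) (nat_lit 0) (XT.nd (nat_lit 78) (nat_lit 380) (nat_lit 0) (XT.lf (nat_lit 0) (nat_lit 92880974659) (nat_lit 532) (nat_lit 18261834515) (nat_lit 76) (nat_lit 308270675595) (nat_lit 57) (nat_lit 5) (nat_lit 64) (nat_lit 5) (nat_lit 58) (nat_lit 5) (nat_lit 404) (nat_lit 396) (nat_lit 220)) (XT.lf (nat_lit 0) (nat_lit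 139878987849) (nat_lit 456) (nat_lit 223795143564) (nat_lit 76) (nat_lit 74149353340) (nat_lit 52) (nat_lit 5) (nat_lit 58) (nat_lit 5) (nat_lit 53) (nat_lit 5) (nat_lit 405) (nat_lit 396) (nat_lit 219))) (XT.nd (nat_lit 78) (nat_lit 228) (nat_lit 0) (XT.lf (nat_lit 0) (nat_lit 5657112128) (nat_lit 228) (nat_lit 188514850193) (nat_lit 304) (nat_lit 263251512839) (nat_lit 49) (nat_lit 5) (nat_lit 52) (nat_lit 5) (nat_lit 53) (nat_lit 5) (nat_lit 406) (nat_lit 396) (nat_lit 218)) (XT.nd (nat_lit 78) (nat_lit 228) (nat_lit 0) (XT.lf (nat_lit 0) (nat_lit 259102031708) (nat_lit 304) (nat_lit 212083754818) (nat_lit 76) (nat_lit 6902185752) (nat_lit 49) (nat_lit 5) (nat_lit 53) (nat_lit 5) (nat_lit 50) (nat_lit 5) (nat_lit 407) (nat_lit 396) (nat_lit 217)) (XT.lf (nat_lit 0) (nat_lit 44082096784) (nat_lit 228) (nat_lit 291101039944) (nat_lit 304) (nat_lit 164745962067) (nat_lit 46) (nat_lit 5)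 (nat_lit 49) (nat_lit 5) (nat_lit 50) (nat_lit 5) (nat_lit 408) (nat_lit 396) (nat_lit 216))))))))
noncomputable def xc223 : XT := (XT.nd (nat_lit 1482) (nat_lit 988) (nat_lit 0) (XT.nd (nat_lit 702) (nat_lit 760) (nat_lit 0) (XT.nd (nat_lit 312) (nat_lit 532) (nat_lit 0) (XT.nd (nat_lit 156) (nat_lit 304) (nat_lit 0) (XT.nd (nat_lit 78) (nat_lit 152) (nat_lit 0) (XT.lf (nat_lit 0) (nat_lit 332802567938) (nat_lit 228) (nat_lit 90346874534) (nat_lit 304) (nat_lit 99904176008) (nat_lit 46) (nat_lit 5) (nat_lit 49) (nat_lit 5) (nat_lit 50) (nat_lit 5) (nat_lit 409) (nat_lit 396) (nat_lit 215)) (XT.lf (nat_lit 0) (nat_lit 98477217850) (nat_lit 152) (nat_lit 425085732638) (nat_lit 228) (nat_lit 24032357457) (nat_lit 44) (nat_lit 5) (nat_lit 46) (nat_lit 5) (nat_lit 47) (nat_lit 5) (nat_lit 410) (nat_lit 396) (nat_lit 214))) (XT.nd (nat_lit 78) (nat_lit 228) (nat_lit 0) (XT.lf (nat_lit 0) (nat_lit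 62695907723) (nat_lit 228) (nat_lit 156435236254) (nat_lit 76) (nat_lit 354243086856) (nat_lit 43) (nat_lit 5) (nat_lit 46) (nat_lit 5) (nat_lit 44) (nat_lit 5) (nat_lit 411) (nat_lit 396) (nat_lit 213)) (XT.lf (nat_lit 0) (nat_lit 159290465109) (nat_lit 304) (nat_lit 433630931761) (nat_lit 76) (nat_lit 7906021138) (nat_lit 40) (nat_lit 5) (nat_lit 44) (nat_lit 5) (nat_lit 41) (nat_lit 5) (nat_lit 412) (nat_lit 396) (nat_lit 212)))) (XT.nd (nat_lit 156) (nat_lit 380) (nat_lit 0) (XT.nd (nat_lit 78) (nat_lit 152) (nat_lit 0) (XT.lf (nat_lit 0) (nat_lit 273692591044) (nat_lit 304) (nat_lit 110322178140) (nat_lit 76) (nat_lit 245655690677) (nat_lit 40) (nat_lit 5) (nat_lit 44) (nat_lit 5) (nat_lit 41) (nat_lit 5) (nat_lit 413) (nat_lit 396) (nat_lit 211)) (XT.lf (nat_lit 0) (nat_lit 251428723827) (nat_lit 152) (nat_lit 151865004907) (nat_lit 228) (nat_lit 257043469017) (nat_lit 38) (nat_lit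 5) (nat_lit 40) (nat_lit 5) (nat_lit 41) (nat_lit 5) (nat_lit 414) (nat_lit 396) (nat_lit 210))) (XT.nd (nat_lit 78) (nat_lit 380) (nat_lit 0) (XT.lf (nat_lit 0) (nat_lit 548735192066) (nat_lit 228) (nat_lit 47278035347) (nat_lit 76) (nat_lit 97006268507) (nat_lit 38) (nat_lit 5) (nat_lit 41) (nat_lit 5) (nat_lit 39) (nat_lit 5) (nat_lit 415) (nat_lit 396) (nat_lit 209)) (XT.nd (nat_lit 78) (nat_lit 228) (nat_lit 0) (XT.lf (nat_lit 0) (nat_lit 357207210955) (nat_lit 152) (nat_lit 361140126539) (nat_lit 228) (nat_lit 8966211262) (nat_lit 36) (nat_lit 5) (nat_lit 38) (nat_lit 5) (nat_lit 39) (nat_lit 5) (nat_lit 416) (nat_lit 396) (nat_lit 208)) (XT.lf (nat_lit 0) (nat_lit 30695072682) (nat_lit 152) (nat_lit 101684526477) (nat_lit 228) (nat_lit 631542442352) (nat_lit 33) (nat_lit 5) (nat_lit 35) (nat_lit 5) (nat_lit 36) (nat_lit 5) (nat_lit 417) (nat_lit 396) (nat_lit 207)))))) (XT.nd (nat_lit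 390) (nat_lit 456) (nat_lit 0) (XT.nd (nat_lit 156) (nat_lit 152) (nat_lit 0) (XT.nd (nat_lit 78) (nat_lit 152) (nat_lit 0) (XT.lf (nat_lit 0) (nat_lit 299224439411) (nat_lit 228) (nat_lit 322830147772) (nat_lit 76) (nat_lit 180211933568) (nat_lit 33) (nat_lit 5) (nat_lit 36) (nat_lit 5) (nat_lit 34) (nat_lit 5) (nat_lit 418) (nat_lit 396) (nat_lit 206)) (XT.lf (nat_lit 0) (nat_lit 123958117937) (nat_lit 152) (nat_lit 361081081140) (nat_lit 228) (nat_lit 358189572689) (nat_lit 31) (nat_lit 5) (nat_lit 33) (nat_lit 5) (nat_lit 34) (nat_lit 5) (nat_lit 419) (nat_lit 396) (nat_lit 205))) (XT.nd (nat_lit 78) (nat_lit 152) (nat_lit 0) (XT.lf (nat_lit 0) (nat_lit 624849050666) (nat_lit 152) (nat_lit 69696817885) (nat_lit 228) (nat_lit 192215996000) (nat_lit 31) (nat_lit 5) (nat_lit 33) (nat_lit 5) (nat_lit 34) (nat_lit 5) (nat_lit 420) (nat_lit 396) (nat_lit 204)) (XT.nd (nat_lit 78) (nat_lit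 76) (nat_lit 0) (XT.lf (nat_lit 0) (nat_lit 238049617239) (nat_lit 76) (nat_lit 694380747506) (nat_lit 152) (nat_lit 417856573) (nat_lit 30) (nat_lit 5) (nat_lit 31) (nat_lit 5) (nat_lit 32) (nat_lit 4) (nat_lit 421) (nat_lit 396) (nat_lit 203)) (XT.lf (nat_lit 0) (nat_lit 205540409242) (nat_lit 152) (nat_lit 196112398555) (nat_lit 76) (nat_lit 579838344914) (nat_lit 29) (nat_lit 5) (nat_lit 31) (nat_lit 5) (nat_lit 30) (nat_lit 5) (nat_lit 422) (nat_lit 396) (nat_lit 202))))) (XT.nd (nat_lit 156) (nat_lit 304) (nat_lit 0) (XT.nd (nat_lit 78) (nat_lit 0) (nat_lit 0) (XT.lf (nat_lit 0) (nat_lit 360491044342) (nat_lit 152) (nat_lit 76131518537) (nat_lit 228) (nat_lit 596708503338) (nat_lit 27) (nat_lit 5) (nat_lit 29) (nat_lit 5) (nat_lit 30) (nat_lit 5) (nat_lit 423) (nat_lit 396) (nat_lit 201)) (XT.lf (nat_lit 0) (nat_lit 698316740893) (nat_lit 228) (nat_lit 122876795298) (nat_lit 76)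 (nat_lit 267154600454) (nat_lit 27) (nat_lit 5) (nat_lit 30) (nat_lit 5) (nat_lit 28) (nat_lit 4) (nat_lit 424) (nat_lit 396) (nat_lit 200))) (XT.nd (nat_lit 78) (nat_lit 228) (nat_lit 0) (XT.lf (nat_lit 0) (nat_lit 493808313187) (nat_lit 76) (nat_lit 500991668713) (nat_lit 152) (nat_lit 151858308516) (nat_lit 26) (nat_lit 5) (nat_lit 27) (nat_lit 5) (nat_lit 28) (nat_lit 4) (nat_lit 425) (nat_lit 396) (nat_lit 199)) (XT.nd (nat_lit 78) (nat_lit 152) (nat_lit 0) (XT.lf (nat_lit 0) (nat_lit 103544578805) (nat_lit 152) (nat_lit 45169548559) (nat_lit 76) (nat_lit 1060440646211) (nat_lit 25) (nat_lit 5) (nat_lit 27) (nat_lit 5) (nat_lit 26) (nat_lit 5) (nat_lit 426) (nat_lit 396) (nat_lit 198)) (XT.lf (nat_lit 0) (nat_lit 392622261804) (nat_lit 228) (nat_lit 642026906255) (nat_lit 76) (nat_lit 239970508983) (nat_lit 23) (nat_lit 5) (nat_lit 26) (nat_lit 5) (nat_lit 24) (nat_lit 4) (nat_lit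 427) (nat_lit 396) (nat_lit 197))))))) (XT.nd (nat_lit 780) (nat_lit 456) (nat_lit 0) (XT.nd (nat_lit 390) (nat_lit 228) (nat_lit 0) (XT.nd (nat_lit 156) (nat_lit 228) (nat_lit 0) (XT.nd (nat_lit 78) (nat_lit 0) (nat_lit 0) (XT.lf (nat_lit 0) (nat_lit 18976405756) (nat_lit 76) (nat_lit 691435921494) (nat_lit 152) (nat_lit 634462552119) (nat_lit 22) (nat_lit 5) (nat_lit 23) (nat_lit 5) (nat_lit 24) (nat_lit 4) (nat_lit 428) (nat_lit 396) (nat_lit 196)) (XT.lf (nat_lit 0) (nat_lit 769372598022) (nat_lit 76) (nat_lit 301807140091) (nat_lit 152) (nat_lit 348166428558) (nat_lit 22) (nat_lit 5) (nat_lit 23) (nat_lit 5) (nat_lit 24) (nat_lit 4) (nat_lit 429) (nat_lit 396) (nat_lit 195))) (XT.nd (nat_lit 78) (nat_lit 152) (nat_lit 0) (XT.lf (nat_lit 0) (nat_lit 81226842492) (nat_lit 76) (nat_lit 1384396953517) (nat_lit 76) (nat_lit 33766140620) (nat_lit 21) (nat_lit 4) (nat_lit 22) (nat_lit 5)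 (nat_lit 22) (nat_lit 4) (nat_lit 430) (nat_lit 396) (nat_lit 194)) (XT.nd (nat_lit 78) (nat_lit 76) (nat_lit 0) (XT.lf (nat_lit 0) (nat_lit 316561666560) (nat_lit 152) (nat_lit 692182564177) (nat_lit 76) (nat_lit 574418871560) (nat_lit 20) (nat_lit 5) (nat_lit 22) (nat_lit 5) (nat_lit 21) (nat_lit 4) (nat_lit 431) (nat_lit 396) (nat_lit 193)) (XT.lf (nat_lit 0) (nat_lit 95791208649) (nat_lit 76) (nat_lit 599604010430) (nat_lit 152) (nat_lit 977988437182) (nat_lit 19) (nat_lit 5) (nat_lit 20) (nat_lit 5) (nat_lit 21) (nat_lit 4) (nat_lit 432) (nat_lit 396) (nat_lit 192))))) (XT.nd (nat_lit 156) (nat_lit 152) (nat_lit 0) (XT.nd (nat_lit 78) (nat_lit 76) (nat_lit 0) (XT.lf (nat_lit 0) (nat_lit 986167898459) (nat_lit 76) (nat_lit 137293044181) (nat_lit 152) (nat_lit 645846872958) (nat_lit 19) (nat_lit 5) (nat_lit 20) (nat_lit 5) (nat_lit 21) (nat_lit 4) (nat_lit 433) (nat_lit 396) (nat_lit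 191)) (XT.lf (nat_lit 0) (nat_lit 69646626377) (nat_lit 76) (nat_lit 1526506466275) (nat_lit 76) (nat_lit 275922321549) (nat_lit 18) (nat_lit 4) (nat_lit 19) (nat_lit 5) (nat_lit 19) (nat_lit 4) (nat_lit 434) (nat_lit 396) (nat_lit 190))) (XT.nd (nat_lit 78) (nat_lit 76) (nat_lit 0) (XT.lf (nat_lit 0) (nat_lit 142948054696) (nat_lit 152) (nat_lit 953252203021) (nat_lit 76) (nat_lit 884583592228) (nat_lit 17) (nat_lit 5) (nat_lit 19) (nat_lit 5) (nat_lit 18) (nat_lit 4) (nat_lit 435) (nat_lit 396) (nat_lit 189)) (XT.nd (nat_lit 78) (nat_lit 76) (nat_lit 0) (XT.lf (nat_lit 0) (nat_lit 580421079183) (nat_lit 152) (nat_lit 43308323259) (nat_lit 76) (nat_lit 1473886213802) (nat_lit 17) (nat_lit 5) (nat_lit 19) (nat_lit 5) (nat_lit 18) (nat_lit 4) (nat_lit 436) (nat_lit 396) (nat_lit 188)) (XT.lf (nat_lit 0) (nat_lit 988899824237) (nat_lit 76) (nat_lit 87775176984) (nat_lit 152) (nat_lit 1145216278179)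 (nat_lit 16) (nat_lit 5) (nat_lit 17) (nat_lit 5) (nat_lit 18) (nat_lit 4) (nat_lit 437) (nat_lit 396) (nat_lit 187)))))) (XT.nd (nat_lit 390) (nat_lit 228) (nat_lit 0) (XT.nd (nat_lit 156) (nat_lit 152) (nat_lit 0) (XT.nd (nat_lit 78) (nat_lit 76) (nat_lit 0) (XT.lf (nat_lit 0) (nat_lit 1625654004828) (nat_lit 152) (nat_lit 261707326642) (nat_lit 0) (nat_lit 467705682717) (nat_lit 16) (nat_lit 5) (nat_lit 18) (nat_lit 4) (nat_lit 16) (nat_lit 4) (nat_lit 438) (nat_lit 396) (nat_lit 186)) (XT.lf (nat_lit 0) (nat_lit 826336331680) (nat_lit 76) (nat_lit 1414368272194) (nat_lit 76) (nat_lit 256419941873) (nat_lit 15) (nat_lit 4) (nat_lit 16) (nat_lit 5) (nat_lit 16) (nat_lit 4) (nat_lit 439) (nat_lit 396) (nat_lit 185))) (XT.nd (nat_lit 78) (nat_lit 76) (nat_lit 0) (XT.lf (nat_lit 0) (nat_lit 249027215970) (nat_lit 152) (nat_lit 639971728705) (nat_lit 76) (nat_lit 1760470933511) (nat_lit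 14) (nat_lit 5) (nat_lit 16) (nat_lit 5) (nat_lit 15) (nat_lit 4) (nat_lit 440) (nat_lit 396) (nat_lit 184)) (XT.nd (nat_lit 78) (nat_lit 0) (nat_lit 0) (XT.lf (nat_lit 0) (nat_lit 491222754276) (nat_lit 76) (nat_lit 301647966511) (nat_lit 152) (nat_lit 2019654182859) (nat_lit 13) (nat_lit 5) (nat_lit 14) (nat_lit 5) (nat_lit 15) (nat_lit 4) (nat_lit 441) (nat_lit 396) (nat_lit 183)) (XT.lf (nat_lit 0) (nat_lit 1406175380859) (nat_lit 152) (nat_lit 1246371674957) (nat_lit 0) (nat_lit 334000981340) (nat_lit 13) (nat_lit 5) (nat_lit 15) (nat_lit 4) (nat_lit 13) (nat_lit 4) (nat_lit 442) (nat_lit 396) (nat_lit 182))))) (XT.nd (nat_lit 156) (nat_lit 152) (nat_lit 0) (XT.nd (nat_lit 78) (nat_lit 76) (nat_lit 0) (XT.lf (nat_lit 0) (nat_lit 2076379418877) (nat_lit 152) (nat_lit 93281788287) (nat_lit 0) (nat_lit 1004205013771) (nat_lit 13) (nat_lit 5) (nat_lit 15) (nat_lit 4) (nat_lit 13) (nat_lit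 4) (nat_lit 443) (nat_lit 396) (nat_lit 181)) (XT.lf (nat_lit 0) (nat_lit 1212720465996) (nat_lit 76) (nat_lit 1616645263855) (nat_lit 76) (nat_lit 544470853574) (nat_lit 12) (nat_lit 4) (nat_lit 13) (nat_lit 5) (nat_lit 13) (nat_lit 4) (nat_lit 444) (nat_lit 396) (nat_lit 180))) (XT.nd (nat_lit 78) (nat_lit 76) (nat_lit 0) (XT.lf (nat_lit 0) (nat_lit 52762512174) (nat_lit 152) (nat_lit 962428389748) (nat_lit 76) (nat_lit 2574302773561) (nat_lit 11) (nat_lit 5) (nat_lit 13) (nat_lit 5) (nat_lit 12) (nat_lit 4) (nat_lit 445) (nat_lit 396) (nat_lit 179)) (XT.nd (nat_lit 78) (nat_lit 0) (nat_lit 0) (XT.lf (nat_lit 0) (nat_lit 334758205615) (nat_lit 76) (nat_lit 341651710308) (nat_lit 152) (nat_lit 3144217976019) (nat_lit 10) (nat_lit 5) (nat_lit 11) (nat_lit 5) (nat_lit 12) (nat_lit 4) (nat_lit 446) (nat_lit 396) (nat_lit 178)) (XT.lf (nat_lit 0) (nat_lit 1386224889847) (nat_lit 152) (nat_lit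 2287655099736) (nat_lit 0) (nat_lit 393470793907) (nat_lit 10) (nat_lit 5) (nat_lit 12) (nat_lit 4) (nat_lit 10) (nat_lit 4) (nat_lit 447) (nat_lit 396) (nat_lit 177))))))))
noncomputable def xc224 : XT := (XT.nd (nat_lit 50232) (nat_lit 0) (nat_lit 1064) (XT.nd (nat_lit 49452) (nat_lit 0) (nat_lit 2888) (XT.nd (nat_lit 312) (nat_lit 76) (nat_lit 0) (XT.nd (nat_lit 156) (nat_lit 0) (nat_lit 0) (XT.nd (nat_lit 78) (nat_lit 76) (nat_lit 0) (XT.lf (nat_lit 0) (nat_lit 2161699126592) (nat_lit 152) (nat_lit 1002457427448) (nat_lit 0) (nat_lit 1168945027131) (nat_lit 10) (nat_lit 5) (nat_lit 12) (nat_lit 4) (nat_lit 10) (nat_lit 4) (nat_lit 448) (nat_lit 396) (nat_lit 176)) (XT.lf (nat_lit 0) (nat_lit 405858746848) (nat_lit 76) (nat_lit 2603113462968) (nat_lit 76) (nat_lit 1610359360247) (nat_lit 9) (nat_lit 4) (nat_lit 10) (nat_lit 5) (nat_lit 10) (nat_lit 4) (nat_lit 449) (nat_lit 396) (nat_lit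 175))) (XT.nd (nat_lit 78) (nat_lit 0) (nat_lit 0) (XT.lf (nat_lit 0) (nat_lit 1983850847466) (nat_lit 76) (nat_lit 1967585249865) (nat_lit 76) (nat_lit 974831144125) (nat_lit 9) (nat_lit 4) (nat_lit 10) (nat_lit 5) (nat_lit 10) (nat_lit 4) (nat_lit 450) (nat_lit 396) (nat_lit 174)) (XT.lf (nat_lit 0) (nat_lit 3688082307081) (nat_lit 76) (nat_lit 1281214784192) (nat_lit 76) (nat_lit 288460675656) (nat_lit 9) (nat_lit 4) (nat_lit 10) (nat_lit 5) (nat_lit 10) (nat_lit 4) (nat_lit 451) (nat_lit 396) (nat_lit 173)))) (XT.nd (nat_lit 48906) (nat_lit 0) (nat_lit 4028) (XT.nd (nat_lit 48828) (nat_lit 0) (nat_lit 4028) (XT.lf (nat_lit 0) (nat_lit 430167564110) (nat_lit 152) (nat_lit 98005577773) (nat_lit 76) (nat_lit 5086723167448) (nat_lit 8) (nat_lit 5) (nat_lit 10) (nat_lit 5) (nat_lit 9) (nat_lit 4) (nat_lit 452) (nat_lit 396) (nat_lit 172)) (XT.lf (nat_lit 0) (nat_lit 138521838289) (nat_lit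 532) (nat_lit 12515462740) (nat_lit 532) (nat_lit 12515462740) (nat_lit 61) (nat_lit 3) (nat_lit 68) (nat_lit 3) (nat_lit 68) (nat_lit 5) (nat_lit 397) (nat_lit 397) (nat_lit 226))) (XT.nd (nat_lit 78) (nat_lit 0) (nat_lit 76) (XT.lf (nat_lit 76) (nat_lit 139635895494) (nat_lit 0) (nat_lit 151848345191) (nat_lit 532) (nat_lit 48436801895) (nat_lit 62) (nat_lit 5) (nat_lit 61) (nat_lit 3) (nat_lit 68) (nat_lit 5) (nat_lit 398) (nat_lit 397) (nat_lit 225)) (XT.nd (nat_lit 78) (nat_lit 0) (nat_lit 0) (XT.lf (nat_lit 0) (nat_lit 308032183250) (nat_lit 456) (nat_lit 35075293065) (nat_lit 532) (nat_lit 10578151914) (nat_lit 62) (nat_lit 5) (nat_lit 68) (nat_lit 5) (nat_lit 69) (nat_lit 5) (nat_lit 399) (nat_lit 397) (nat_lit 224)) (XT.lf (nat_lit 76) (nat_lit 146748137607) (nat_lit 0) (nat_lit 186629179713) (nat_lit 532) (nat_lit 34576194985) (nat_lit 63) (nat_lit 5) (nat_lit 62) (nat_lit 5)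 (nat_lit 69) (nat_lit 5) (nat_lit 400) (nat_lit 397) (nat_lit 223)))))) (XT.nd (nat_lit 390) (nat_lit 760) (nat_lit 0) (XT.nd (nat_lit 156) (nat_lit 0) (nat_lit 0) (XT.nd (nat_lit 78) (nat_lit 456) (nat_lit 0) (XT.lf (nat_lit 76) (nat_lit 345112171630) (nat_lit 0) (nat_lit 16596861265) (nat_lit 532) (nat_lit 21577076610) (nat_lit 63) (nat_lit 5) (nat_lit 62) (nat_lit 5) (nat_lit 69) (nat_lit 5) (nat_lit 401) (nat_lit 397) (nat_lit 222)) (XT.lf (nat_lit 0) (nat_lit 999132394) (nat_lit 532) (nat_lit 235564176285) (nat_lit 608) (nat_lit 162643702761) (nat_lit 56) (nat_lit 5) (nat_lit 63) (nat_lit 5) (nat_lit 64) (nat_lit 5) (nat_lit 402) (nat_lit 397) (nat_lit 221))) (XT.nd (nat_lit 78) (nat_lit 0) (nat_lit 76) (XT.lf (nat_lit 0) (nat_lit 25717611708) (nat_lit 532) (nat_lit 33560828606) (nat_lit 608) (nat_lit 356958158085) (nat_lit 56) (nat_lit 5) (nat_lit 63) (nat_lit 5) (nat_lit 64) (nat_lit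 5) (nat_lit 403) (nat_lit 397) (nat_lit 220)) (XT.nd (nat_lit 78) (nat_lit 0) (nat_lit 0) (XT.lf (nat_lit 0) (nat_lit 60387558912) (nat_lit 532) (nat_lit 243231613687) (nat_lit 76) (nat_lit 130371460596) (nat_lit 57) (nat_lit 5) (nat_lit 64) (nat_lit 5) (nat_lit 58) (nat_lit 5) (nat_lit 404) (nat_lit 397) (nat_lit 219)) (XT.lf (nat_lit 0) (nat_lit 100312209470) (nat_lit 532) (nat_lit 19722062901) (nat_lit 76) (nat_lit 332932229840) (nat_lit 57) (nat_lit 5) (nat_lit 64) (nat_lit 5) (nat_lit 58) (nat_lit 5) (nat_lit 405) (nat_lit 397) (nat_lit 218))))) (XT.nd (nat_lit 156) (nat_lit 228) (nat_lit 0) (XT.nd (nat_lit 78) (nat_lit 228) (nat_lit 0) (XT.lf (nat_lit 0) (nat_lit 151070024073) (nat_lit 456) (nat_lit 241697996298) (nat_lit 76) (nat_lit 80081285052) (nat_lit 52) (nat_lit 5) (nat_lit 58) (nat_lit 5) (nat_lit 53) (nat_lit 5) (nat_lit 406) (nat_lit 397) (nat_lit 217)) (XT.lf (nat_lit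 0) (nat_lit 6110420640) (nat_lit 228) (nat_lit 203595980522) (nat_lit 304) (nat_lit 284310896781) (nat_lit 49) (nat_lit 5) (nat_lit 52) (nat_lit 5) (nat_lit 53) (nat_lit 5) (nat_lit 407) (nat_lit 397) (nat_lit 216))) (XT.nd (nat_lit 78) (nat_lit 228) (nat_lit 0) (XT.lf (nat_lit 0) (nat_lit 279830826878) (nat_lit 304) (nat_lit 229049720589) (nat_lit 76) (nat_lit 7454411353) (nat_lit 49) (nat_lit 5) (nat_lit 53) (nat_lit 5) (nat_lit 50) (nat_lit 5) (nat_lit 408) (nat_lit 397) (nat_lit 215)) (XT.nd (nat_lit 78) (nat_lit 0) (nat_lit 0) (XT.lf (nat_lit 0) (nat_lit 47609380544) (nat_lit 228) (nat_lit 314389010115) (nat_lit 304) (nat_lit 177924987218) (nat_lit 46) (nat_lit 5) (nat_lit 49) (nat_lit 5) (nat_lit 50) (nat_lit 5) (nat_lit 409) (nat_lit 397) (nat_lit 214)) (XT.lf (nat_lit 0) (nat_lit 359427436352) (nat_lit 228) (nat_lit 97574519844) (nat_lit 304) (nat_lit 107895906557) (nat_lit 46)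 (nat_lit 5) (nat_lit 49) (nat_lit 5) (nat_lit 50) (nat_lit 5) (nat_lit 410) (nat_lit 397) (nat_lit 213))))))) (XT.nd (nat_lit 702) (nat_lit 836) (nat_lit 0) (XT.nd (nat_lit 312) (nat_lit 532) (nat_lit 0) (XT.nd (nat_lit 156) (nat_lit 228) (nat_lit 0) (XT.nd (nat_lit 78) (nat_lit 76) (nat_lit 0) (XT.lf (nat_lit 0) (nat_lit 106356083080) (nat_lit 152) (nat_lit 459092439287) (nat_lit 228) (nat_lit 25954366846) (nat_lit 44) (nat_lit 5) (nat_lit 46) (nat_lit 5) (nat_lit 47) (nat_lit 5) (nat_lit 411) (nat_lit 397) (nat_lit 212)) (XT.lf (nat_lit 0) (nat_lit 67712089816) (nat_lit 228) (nat_lit 168949391043) (nat_lit 76) (nat_lit 382582647253) (nat_lit 43) (nat_lit 5) (nat_lit 46) (nat_lit 5) (nat_lit 44) (nat_lit 5) (nat_lit 412) (nat_lit 397) (nat_lit 211))) (XT.nd (nat_lit 78) (nat_lit 0) (nat_lit 0) (XT.lf (nat_lit 0) (nat_lit 172034193470) (nat_lit 304) (nat_lit 468320723470) (nat_lit 76)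 (nat_lit 8538654819) (nat_lit 40) (nat_lit 5) (nat_lit 44) (nat_lit 5) (nat_lit 41) (nat_lit 5) (nat_lit 413) (nat_lit 397) (nat_lit 210)) (XT.lf (nat_lit 0) (nat_lit 295588453098) (nat_lit 304) (nat_lit 119147320140) (nat_lit 76) (nat_lit 265308286663) (nat_lit 40) (nat_lit 5) (nat_lit 44) (nat_lit 5) (nat_lit 41) (nat_lit 5) (nat_lit 414) (nat_lit 397) (nat_lit 209)))) (XT.nd (nat_lit 156) (nat_lit 380) (nat_lit 0) (XT.nd (nat_lit 78) (nat_lit 0) (nat_lit 0) (XT.lf (nat_lit 0) (nat_lit 271543637978) (nat_lit 152) (nat_lit 164014024958) (nat_lit 228) (nat_lit 277606475421) (nat_lit 38) (nat_lit 5) (nat_lit 40) (nat_lit 5) (nat_lit 41) (nat_lit 5) (nat_lit 415) (nat_lit 397) (nat_lit 208)) (XT.lf (nat_lit 0) (nat_lit 592634415062) (nat_lit 228) (nat_lit 51059678989) (nat_lit 76) (nat_lit 104766928616) (nat_lit 38) (nat_lit 5) (nat_lit 41) (nat_lit 5) (nat_lit 39) (nat_lit 5) (nat_lit 416)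 (nat_lit 397) (nat_lit 207))) (XT.nd (nat_lit 78) (nat_lit 228) (nat_lit 0) (XT.lf (nat_lit 0) (nat_lit 385784371847) (nat_lit 152) (nat_lit 390031144128) (nat_lit 228) (nat_lit 9683085071) (nat_lit 36) (nat_lit 5) (nat_lit 38) (nat_lit 5) (nat_lit 39) (nat_lit 5) (nat_lit 417) (nat_lit 397) (nat_lit 206)) (XT.nd (nat_lit 78) (nat_lit 0) (nat_lit 0) (XT.lf (nat_lit 0) (nat_lit 33151268620) (nat_lit 152) (nat_lit 109819084819) (nat_lit 228) (nat_lit 682065420235) (nat_lit 33) (nat_lit 5) (nat_lit 35) (nat_lit 5) (nat_lit 36) (nat_lit 5) (nat_lit 418) (nat_lit 397) (nat_lit 205)) (XT.lf (nat_lit 0) (nat_lit 323162756830) (nat_lit 228) (nat_lit 348655988871) (nat_lit 76) (nat_lit 194629067497) (nat_lit 33) (nat_lit 5) (nat_lit 36) (nat_lit 5) (nat_lit 34) (nat_lit 5) (nat_lit 419) (nat_lit 397) (nat_lit 204)))))) (XT.nd (nat_lit 390) (nat_lit 380) (nat_lit 0) (XT.nd (nat_lit 156) (nat_lit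 304) (nat_lit 0) (XT.nd (nat_lit 78) (nat_lit 0) (nat_lit 0) (XT.lf (nat_lit 0) (nat_lit 133875323646) (nat_lit 152) (nat_lit 389967360167) (nat_lit 228) (nat_lit 386844361575) (nat_lit 31) (nat_lit 5) (nat_lit 33) (nat_lit 5) (nat_lit 34) (nat_lit 5) (nat_lit 420) (nat_lit 397) (nat_lit 203)) (XT.lf (nat_lit 0) (nat_lit 674837489788) (nat_lit 152) (nat_lit 75272371220) (nat_lit 228) (nat_lit 207592926671) (nat_lit 31) (nat_lit 5) (nat_lit 33) (nat_lit 5) (nat_lit 34) (nat_lit 5) (nat_lit 421) (nat_lit 397) (nat_lit 202))) (XT.nd (nat_lit 78) (nat_lit 228) (nat_lit 0) (XT.lf (nat_lit 0) (nat_lit 257094109521) (nat_lit 76) (nat_lit 749931000305) (nat_lit 152) (nat_lit 450943741) (nat_lit 30) (nat_lit 5) (nat_lit 31) (nat_lit 5) (nat_lit 32) (nat_lit 4) (nat_lit 422) (nat_lit 397) (nat_lit 201)) (XT.nd (nat_lit 78) (nat_lit 152) (nat_lit 0) (XT.lf (nat_lit 0) (nat_lit 221983942243) (nat_lit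 152) (nat_lit 211800890301) (nat_lit 76) (nat_lit 626225588205) (nat_lit 29) (nat_lit 5) (nat_lit 31) (nat_lit 5) (nat_lit 30) (nat_lit 5) (nat_lit 423) (nat_lit 397) (nat_lit 200)) (XT.lf (nat_lit 0) (nat_lit 389330815366) (nat_lit 152) (nat_lit 82221842287) (nat_lit 228) (nat_lit 644444870536) (nat_lit 27) (nat_lit 5) (nat_lit 29) (nat_lit 5) (nat_lit 30) (nat_lit 5) (nat_lit 424) (nat_lit 397) (nat_lit 199))))) (XT.nd (nat_lit 156) (nat_lit 304) (nat_lit 0) (XT.nd (nat_lit 78) (nat_lit 76) (nat_lit 0) (XT.lf (nat_lit 0) (nat_lit 754182352849) (nat_lit 228) (nat_lit 132706470360) (nat_lit 76) (nat_lit 288527142418) (nat_lit 27) (nat_lit 5) (nat_lit 30) (nat_lit 5) (nat_lit 28) (nat_lit 4) (nat_lit 425) (nat_lit 397) (nat_lit 198)) (XT.lf (nat_lit 0) (nat_lit 533313434942) (nat_lit 76) (nat_lit 541070808980) (nat_lit 152) (nat_lit 164006688525) (nat_lit 26) (nat_lit 5) (nat_lit 27) (nat_lit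 5) (nat_lit 28) (nat_lit 4) (nat_lit 426) (nat_lit 397) (nat_lit 197))) (XT.nd (nat_lit 78) (nat_lit 228) (nat_lit 0) (XT.lf (nat_lit 0) (nat_lit 111828395509) (nat_lit 152) (nat_lit 48782676281) (nat_lit 76) (nat_lit 1145276063532) (nat_lit 25) (nat_lit 5) (nat_lit 27) (nat_lit 5) (nat_lit 26) (nat_lit 5) (nat_lit 427) (nat_lit 397) (nat_lit 196)) (XT.nd (nat_lit 78) (nat_lit 76) (nat_lit 0) (XT.lf (nat_lit 0) (nat_lit 424032289226) (nat_lit 228) (nat_lit 693388618572) (nat_lit 76) (nat_lit 259168323590) (nat_lit 23) (nat_lit 5) (nat_lit 26) (nat_lit 5) (nat_lit 24) (nat_lit 4) (nat_lit 428) (nat_lit 397) (nat_lit 195)) (XT.lf (nat_lit 0) (nat_lit 20494947256) (nat_lit 76) (nat_lit 746750604712) (nat_lit 152) (nat_lit 685219298574) (nat_lit 22) (nat_lit 5) (nat_lit 23) (nat_lit 5) (nat_lit 24) (nat_lit 4) (nat_lit 429) (nat_lit 397) (nat_lit 194))))))))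
noncomputable def xc225 : XT := (XT.nd (nat_lit 1482) (nat_lit 76) (nat_lit 0) (XT.nd (nat_lit 702) (nat_lit 456) (nat_lit 0) (XT.nd (nat_lit 312) (nat_lit 228) (nat_lit 0) (XT.nd (nat_lit 156) (nat_lit 152) (nat_lit 0) (XT.nd (nat_lit 78) (nat_lit 76) (nat_lit 0) (XT.lf (nat_lit 0) (nat_lit 830922803123) (nat_lit 76) (nat_lit 325951534908) (nat_lit 152) (nat_lit 376019504219) (nat_lit 22) (nat_lit 5) (nat_lit 23) (nat_lit 5) (nat_lit 24) (nat_lit 4) (nat_lit 430) (nat_lit 397) (nat_lit 193)) (XT.lf (nat_lit 0) (nat_lit 87725390264) (nat_lit 76) (nat_lit 1495148527492) (nat_lit 76) (nat_lit 36467196280) (nat_lit 21) (nat_lit 4) (nat_lit 22) (nat_lit 5) (nat_lit 22) (nat_lit 4) (nat_lit 431) (nat_lit 397) (nat_lit 192))) (XT.nd (nat_lit 78) (nat_lit 76) (nat_lit 0) (XT.lf (nat_lit 0) (nat_lit 341886807111) (nat_lit 152) (nat_lit 747556787616) (nat_lit 76) (nat_lit 620372539108) (nat_lit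 20) (nat_lit 5) (nat_lit 22) (nat_lit 5) (nat_lit 21) (nat_lit 4) (nat_lit 432) (nat_lit 397) (nat_lit 191)) (XT.lf (nat_lit 0) (nat_lit 103454877373) (nat_lit 76) (nat_lit 647572160056) (nat_lit 152) (nat_lit 1056227295205) (nat_lit 19) (nat_lit 5) (nat_lit 20) (nat_lit 5) (nat_lit 21) (nat_lit 4) (nat_lit 433) (nat_lit 397) (nat_lit 190)))) (XT.nd (nat_lit 156) (nat_lit 152) (nat_lit 0) (XT.nd (nat_lit 78) (nat_lit 76) (nat_lit 0) (XT.lf (nat_lit 0) (nat_lit 1065061674810) (nat_lit 76) (nat_lit 148276329189) (nat_lit 152) (nat_lit 697514421913) (nat_lit 19) (nat_lit 5) (nat_lit 20) (nat_lit 5) (nat_lit 21) (nat_lit 4) (nat_lit 434) (nat_lit 397) (nat_lit 189)) (XT.lf (nat_lit 0) (nat_lit 75218703079) (nat_lit 76) (nat_lit 1648626821024) (nat_lit 76) (nat_lit 297995908456) (nat_lit 18) (nat_lit 4) (nat_lit 19) (nat_lit 5) (nat_lit 19) (nat_lit 4) (nat_lit 435) (nat_lit 397) (nat_lit 188)))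 (XT.nd (nat_lit 78) (nat_lit 76) (nat_lit 0) (XT.lf (nat_lit 0) (nat_lit 154384073952) (nat_lit 152) (nat_lit 1029512049089) (nat_lit 76) (nat_lit 955350420864) (nat_lit 17) (nat_lit 5) (nat_lit 19) (nat_lit 5) (nat_lit 18) (nat_lit 4) (nat_lit 436) (nat_lit 397) (nat_lit 187)) (XT.nd (nat_lit 78) (nat_lit 76) (nat_lit 0) (XT.lf (nat_lit 0) (nat_lit 626854927444) (nat_lit 152) (nat_lit 46772683403) (nat_lit 76) (nat_lit 1591797241700) (nat_lit 17) (nat_lit 5) (nat_lit 19) (nat_lit 5) (nat_lit 18) (nat_lit 4) (nat_lit 437) (nat_lit 397) (nat_lit 186)) (XT.lf (nat_lit 0) (nat_lit 1068012108153) (nat_lit 76) (nat_lit 94797050263) (nat_lit 152) (nat_lit 1236833410728) (nat_lit 16) (nat_lit 5) (nat_lit 17) (nat_lit 5) (nat_lit 18) (nat_lit 4) (nat_lit 438) (nat_lit 397) (nat_lit 185)))))) (XT.nd (nat_lit 390) (nat_lit 228) (nat_lit 0) (XT.nd (nat_lit 156) (nat_lit 152) (nat_lit 0) (XT.nd (nat_lit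 78) (nat_lit 76) (nat_lit 0) (XT.lf (nat_lit 0) (nat_lit 1755706473812) (nat_lit 152) (nat_lit 282643628333) (nat_lit 0) (nat_lit 505122261252) (nat_lit 16) (nat_lit 5) (nat_lit 18) (nat_lit 4) (nat_lit 16) (nat_lit 4) (nat_lit 439) (nat_lit 397) (nat_lit 184)) (XT.lf (nat_lit 0) (nat_lit 892443515454) (nat_lit 76) (nat_lit 1527517600988) (nat_lit 76) (nat_lit 276933381389) (nat_lit 15) (nat_lit 4) (nat_lit 16) (nat_lit 5) (nat_lit 16) (nat_lit 4) (nat_lit 440) (nat_lit 397) (nat_lit 183))) (XT.nd (nat_lit 78) (nat_lit 76) (nat_lit 0) (XT.lf (nat_lit 0) (nat_lit 268949530319) (nat_lit 152) (nat_lit 691169203051) (nat_lit 76) (nat_lit 1901308724076) (nat_lit 14) (nat_lit 5) (nat_lit 16) (nat_lit 5) (nat_lit 15) (nat_lit 4) (nat_lit 441) (nat_lit 397) (nat_lit 182)) (XT.nd (nat_lit 78) (nat_lit 0) (nat_lit 0) (XT.lf (nat_lit 0) (nat_lit 530520831886) (nat_lit 76) (nat_lit 325779679670) (nat_lit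 152) (nat_lit 2181226373707) (nat_lit 13) (nat_lit 5) (nat_lit 14) (nat_lit 5) (nat_lit 15) (nat_lit 4) (nat_lit 442) (nat_lit 397) (nat_lit 181)) (XT.lf (nat_lit 0) (nat_lit 1518669537339) (nat_lit 152) (nat_lit 1346081163622) (nat_lit 0) (nat_lit 360721169061) (nat_lit 13) (nat_lit 5) (nat_lit 15) (nat_lit 4) (nat_lit 13) (nat_lit 4) (nat_lit 443) (nat_lit 397) (nat_lit 180))))) (XT.nd (nat_lit 156) (nat_lit 152) (nat_lit 0) (XT.nd (nat_lit 78) (nat_lit 76) (nat_lit 0) (XT.lf (nat_lit 0) (nat_lit 2242489889065) (nat_lit 152) (nat_lit 100744104192) (nat_lit 0) (nat_lit 1084541515997) (nat_lit 13) (nat_lit 5) (nat_lit 15) (nat_lit 4) (nat_lit 13) (nat_lit 4) (nat_lit 444) (nat_lit 397) (nat_lit 179)) (XT.lf (nat_lit 0) (nat_lit 1309738324683) (nat_lit 76) (nat_lit 1745976776915) (nat_lit 76) (nat_lit 588028399411) (nat_lit 12) (nat_lit 4) (nat_lit 13) (nat_lit 5) (nat_lit 13) (nat_lit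 4) (nat_lit 445) (nat_lit 397) (nat_lit 178))) (XT.nd (nat_lit 78) (nat_lit 76) (nat_lit 0) (XT.lf (nat_lit 0) (nat_lit 56983620855) (nat_lit 152) (nat_lit 1039422450231) (nat_lit 76) (nat_lit 2780247089800) (nat_lit 11) (nat_lit 5) (nat_lit 13) (nat_lit 5) (nat_lit 12) (nat_lit 4) (nat_lit 446) (nat_lit 397) (nat_lit 177)) (XT.nd (nat_lit 78) (nat_lit 0) (nat_lit 0) (XT.lf (nat_lit 0) (nat_lit 361539067428) (nat_lit 76) (nat_lit 368983746438) (nat_lit 152) (nat_lit 3395755301042) (nat_lit 10) (nat_lit 5) (nat_lit 11) (nat_lit 5) (nat_lit 12) (nat_lit 4) (nat_lit 447) (nat_lit 397) (nat_lit 176)) (XT.lf (nat_lit 0) (nat_lit 1497122980192) (nat_lit 152) (nat_lit 2470667312038) (nat_lit 0) (nat_lit 424948545992) (nat_lit 10) (nat_lit 5) (nat_lit 12) (nat_lit 4) (nat_lit 10) (nat_lit 4) (nat_lit 448) (nat_lit 397) (nat_lit 175))))))) (XT.nd (nat_lit 49608) (nat_lit 0) (nat_lit 2584) (XT.nd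 (nat_lit 49218) (nat_lit 0) (nat_lit 3572) (XT.nd (nat_lit 156) (nat_lit 0) (nat_lit 0) (XT.nd (nat_lit 78) (nat_lit 76) (nat_lit 0) (XT.lf (nat_lit 0) (nat_lit 2334635148531) (nat_lit 152) (nat_lit 1082653840461) (nat_lit 0) (nat_lit 1262460711313) (nat_lit 10) (nat_lit 5) (nat_lit 12) (nat_lit 4) (nat_lit 10) (nat_lit 4) (nat_lit 449) (nat_lit 397) (nat_lit 174)) (XT.lf (nat_lit 0) (nat_lit 438327623192) (nat_lit 76) (nat_lit 2811362452668) (nat_lit 76) (nat_lit 1739188012654) (nat_lit 9) (nat_lit 4) (nat_lit 10) (nat_lit 5) (nat_lit 10) (nat_lit 4) (nat_lit 450) (nat_lit 397) (nat_lit 173))) (XT.nd (nat_lit 78) (nat_lit 0) (nat_lit 0) (XT.lf (nat_lit 0) (nat_lit 2142559078778) (nat_lit 76) (nat_lit 2124991988987) (nat_lit 76) (nat_lit 1052817546385) (nat_lit 9) (nat_lit 4) (nat_lit 10) (nat_lit 5) (nat_lit 10) (nat_lit 4) (nat_lit 451) (nat_lit 397) (nat_lit 172)) (XT.nd (nat_lit 48906)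 (nat_lit 0) (nat_lit 3952) (XT.lf (nat_lit 0) (nat_lit 3983129043050) (nat_lit 76) (nat_lit 1383711892049) (nat_lit 76) (nat_lit 311537447050) (nat_lit 9) (nat_lit 4) (nat_lit 10) (nat_lit 5) (nat_lit 10) (nat_lit 4) (nat_lit 452) (nat_lit 397) (nat_lit 171)) (XT.lf (nat_lit 0) (nat_lit 149604142034) (nat_lit 532) (nat_lit 13516398811) (nat_lit 532) (nat_lit 13516398811) (nat_lit 61) (nat_lit 3) (nat_lit 68) (nat_lit 3) (nat_lit 68) (nat_lit 5) (nat_lit 398) (nat_lit 398) (nat_lit 224))))) (XT.nd (nat_lit 156) (nat_lit 380) (nat_lit 0) (XT.nd (nat_lit 78) (nat_lit 0) (nat_lit 76) (XT.lf (nat_lit 76) (nat_lit 150807353792) (nat_lit 0) (nat_lit 163996671149) (nat_lit 532) (nat_lit 52310616187) (nat_lit 62) (nat_lit 5) (nat_lit 61) (nat_lit 3) (nat_lit 68) (nat_lit 5) (nat_lit 399) (nat_lit 398) (nat_lit 223)) (XT.lf (nat_lit 0) (nat_lit 332675715296) (nat_lit 456) (nat_lit 37880684529) (nat_lit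 532) (nat_lit 11424000906) (nat_lit 62) (nat_lit 5) (nat_lit 68) (nat_lit 5) (nat_lit 69) (nat_lit 5) (nat_lit 400) (nat_lit 398) (nat_lit 222))) (XT.nd (nat_lit 78) (nat_lit 456) (nat_lit 0) (XT.lf (nat_lit 76) (nat_lit 158488604597) (nat_lit 0) (nat_lit 201559799391) (nat_lit 532) (nat_lit 37341316119) (nat_lit 63) (nat_lit 5) (nat_lit 62) (nat_lit 5) (nat_lit 69) (nat_lit 5) (nat_lit 401) (nat_lit 398) (nat_lit 221)) (XT.nd (nat_lit 78) (nat_lit 456) (nat_lit 0) (XT.lf (nat_lit 76) (nat_lit 372721715715) (nat_lit 0) (nat_lit 17924874334) (nat_lit 532) (nat_lit 23302340456) (nat_lit 63) (nat_lit 5) (nat_lit 62) (nat_lit 5) (nat_lit 69) (nat_lit 5) (nat_lit 402) (nat_lit 398) (nat_lit 220)) (XT.lf (nat_lit 0) (nat_lit 1079866104) (nat_lit 532) (nat_lit 254408639087) (nat_lit 608) (nat_lit 175655002057) (nat_lit 56) (nat_lit 5) (nat_lit 63) (nat_lit 5) (nat_lit 64) (nat_lit 5) (nat_lit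 403) (nat_lit 398) (nat_lit 219)))))) (XT.nd (nat_lit 390) (nat_lit 456) (nat_lit 0) (XT.nd (nat_lit 156) (nat_lit 532) (nat_lit 0) (XT.nd (nat_lit 78) (nat_lit 0) (nat_lit 76) (XT.lf (nat_lit 0) (nat_lit 27775764273) (nat_lit 532) (nat_lit 36245073320) (nat_lit 608) (nat_lit 385514628395) (nat_lit 56) (nat_lit 5) (nat_lit 63) (nat_lit 5) (nat_lit 64) (nat_lit 5) (nat_lit 404) (nat_lit 398) (nat_lit 218)) (XT.lf (nat_lit 0) (nat_lit 65219264401) (nat_lit 532) (nat_lit 262689477620) (nat_lit 76) (nat_lit 140801085033) (nat_lit 57) (nat_lit 5) (nat_lit 64) (nat_lit 5) (nat_lit 58) (nat_lit 5) (nat_lit 405) (nat_lit 398) (nat_lit 217))) (XT.nd (nat_lit 78) (nat_lit 608) (nat_lit 0) (XT.lf (nat_lit 0) (nat_lit 108337835094) (nat_lit 532) (nat_lit 21299212042) (nat_lit 76) (nat_lit 359566722662) (nat_lit 57) (nat_lit 5) (nat_lit 64) (nat_lit 5) (nat_lit 58) (nat_lit 5) (nat_lit 406) (nat_lit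 398) (nat_lit 216)) (XT.nd (nat_lit 78) (nat_lit 228) (nat_lit 0) (XT.lf (nat_lit 0) (nat_lit 163156240879) (nat_lit 456) (nat_lit 261033185495) (nat_lit 76) (nat_lit 86487773663) (nat_lit 52) (nat_lit 5) (nat_lit 58) (nat_lit 5) (nat_lit 53) (nat_lit 5) (nat_lit 407) (nat_lit 398) (nat_lit 215)) (XT.lf (nat_lit 0) (nat_lit 6599888330) (nat_lit 228) (nat_lit 219883609508) (nat_lit 304) (nat_lit 307055136591) (nat_lit 49) (nat_lit 5) (nat_lit 52) (nat_lit 5) (nat_lit 53) (nat_lit 5) (nat_lit 408) (nat_lit 398) (nat_lit 214))))) (XT.nd (nat_lit 156) (nat_lit 228) (nat_lit 0) (XT.nd (nat_lit 78) (nat_lit 228) (nat_lit 0) (XT.lf (nat_lit 0) (nat_lit 302217835409) (nat_lit 304) (nat_lit 247373068423) (nat_lit 76) (nat_lit 8050807763) (nat_lit 49) (nat_lit 5) (nat_lit 53) (nat_lit 5) (nat_lit 50) (nat_lit 5) (nat_lit 409) (nat_lit 398) (nat_lit 213)) (XT.lf (nat_lit 0) (nat_lit 51418744857)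 (nat_lit 228) (nat_lit 339540034023) (nat_lit 304) (nat_lit 192158427370) (nat_lit 46) (nat_lit 5) (nat_lit 49) (nat_lit 5) (nat_lit 50) (nat_lit 5) (nat_lit 410) (nat_lit 398) (nat_lit 212))) (XT.nd (nat_lit 78) (nat_lit 228) (nat_lit 0) (XT.lf (nat_lit 0) (nat_lit 388182199658) (nat_lit 228) (nat_lit 105380391708) (nat_lit 304) (nat_lit 116527061651) (nat_lit 46) (nat_lit 5) (nat_lit 49) (nat_lit 5) (nat_lit 50) (nat_lit 5) (nat_lit 411) (nat_lit 398) (nat_lit 211)) (XT.nd (nat_lit 78) (nat_lit 76) (nat_lit 0) (XT.lf (nat_lit 0) (nat_lit 114865159407) (nat_lit 152) (nat_lit 495819704147) (nat_lit 228) (nat_lit 28030219617) (nat_lit 44) (nat_lit 5) (nat_lit 46) (nat_lit 5) (nat_lit 47) (nat_lit 5) (nat_lit 412) (nat_lit 398) (nat_lit 210)) (XT.lf (nat_lit 0) (nat_lit 73129493794) (nat_lit 228) (nat_lit 182464772958) (nat_lit 76) (nat_lit 413189356298) (nat_lit 43) (nat_lit 5) (nat_lit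 46) (nat_lit 5) (nat_lit 44) (nat_lit 5) (nat_lit 413) (nat_lit 398) (nat_lit 209))))))))
noncomputable def xc226 : XT := (XT.nd (nat_lit 1482) (nat_lit 912) (nat_lit 0) (XT.nd (nat_lit 702) (nat_lit 760) (nat_lit 0) (XT.nd (nat_lit 312) (nat_lit 532) (nat_lit 0) (XT.nd (nat_lit 156) (nat_lit 152) (nat_lit 0) (XT.nd (nat_lit 78) (nat_lit 0) (nat_lit 0) (XT.lf (nat_lit 0) (nat_lit 185797350031) (nat_lit 304) (nat_lit 505785795929) (nat_lit 76) (nat_lit 9221877512) (nat_lit 40) (nat_lit 5) (nat_lit 44) (nat_lit 5) (nat_lit 41) (nat_lit 5) (nat_lit 414) (nat_lit 398) (nat_lit 208)) (XT.lf (nat_lit 0) (nat_lit 319235919238) (nat_lit 304) (nat_lit 128678563698) (nat_lit 76) (nat_lit 286533070252) (nat_lit 40) (nat_lit 5) (nat_lit 44) (nat_lit 5) (nat_lit 41) (nat_lit 5) (nat_lit 415) (nat_lit 398) (nat_lit 207))) (XT.nd (nat_lit 78) (nat_lit 0) (nat_lit 0) (XT.lf (nat_lit 0) (nat_lit 293267657347)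 (nat_lit 152) (nat_lit 177134992342) (nat_lit 228) (nat_lit 299814589548) (nat_lit 38) (nat_lit 5) (nat_lit 40) (nat_lit 5) (nat_lit 41) (nat_lit 5) (nat_lit 416) (nat_lit 398) (nat_lit 206)) (XT.lf (nat_lit 0) (nat_lit 640045517745) (nat_lit 228) (nat_lit 55143939602) (nat_lit 76) (nat_lit 113148418905) (nat_lit 38) (nat_lit 5) (nat_lit 41) (nat_lit 5) (nat_lit 39) (nat_lit 5) (nat_lit 417) (nat_lit 398) (nat_lit 205)))) (XT.nd (nat_lit 156) (nat_lit 152) (nat_lit 0) (XT.nd (nat_lit 78) (nat_lit 228) (nat_lit 0) (XT.lf (nat_lit 0) (nat_lit 416647622295) (nat_lit 152) (nat_lit 421233470591) (nat_lit 228) (nat_lit 10457369143) (nat_lit 36) (nat_lit 5) (nat_lit 38) (nat_lit 5) (nat_lit 39) (nat_lit 5) (nat_lit 418) (nat_lit 398) (nat_lit 204)) (XT.lf (nat_lit 0) (nat_lit 35803876046) (nat_lit 152) (nat_lit 118604436900) (nat_lit 228) (nat_lit 736630295911) (nat_lit 33) (nat_lit 5) (nat_lit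 35) (nat_lit 5) (nat_lit 36) (nat_lit 5) (nat_lit 419) (nat_lit 398) (nat_lit 203))) (XT.nd (nat_lit 78) (nat_lit 152) (nat_lit 0) (XT.lf (nat_lit 0) (nat_lit 349016087962) (nat_lit 228) (nat_lit 376547978678) (nat_lit 76) (nat_lit 210199546568) (nat_lit 33) (nat_lit 5) (nat_lit 36) (nat_lit 5) (nat_lit 34) (nat_lit 5) (nat_lit 420) (nat_lit 398) (nat_lit 202)) (XT.nd (nat_lit 78) (nat_lit 0) (nat_lit 0) (XT.lf (nat_lit 0) (nat_lit 144585826453) (nat_lit 152) (nat_lit 421164571114) (nat_lit 228) (nat_lit 417791587344) (nat_lit 31) (nat_lit 5) (nat_lit 33) (nat_lit 5) (nat_lit 34) (nat_lit 5) (nat_lit 421) (nat_lit 398) (nat_lit 201)) (XT.lf (nat_lit 0) (nat_lit 728824930559) (nat_lit 152) (nat_lit 81293996227) (nat_lit 228) (nat_lit 224200061586) (nat_lit 31) (nat_lit 5) (nat_lit 33) (nat_lit 5) (nat_lit 34) (nat_lit 5) (nat_lit 422) (nat_lit 398) (nat_lit 200)))))) (XT.nd (nat_lit 390)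 (nat_lit 380) (nat_lit 0) (XT.nd (nat_lit 156) (nat_lit 228) (nat_lit 0) (XT.nd (nat_lit 78) (nat_lit 76) (nat_lit 0) (XT.lf (nat_lit 0) (nat_lit 277662086588) (nat_lit 76) (nat_lit 809925302860) (nat_lit 152) (nat_lit 486726580) (nat_lit 30) (nat_lit 5) (nat_lit 31) (nat_lit 5) (nat_lit 32) (nat_lit 4) (nat_lit 423) (nat_lit 398) (nat_lit 199)) (XT.lf (nat_lit 0) (nat_lit 239742915048) (nat_lit 152) (nat_lit 228744532737) (nat_lit 76) (nat_lit 676323785895) (nat_lit 29) (nat_lit 5) (nat_lit 31) (nat_lit 5) (nat_lit 30) (nat_lit 5) (nat_lit 424) (nat_lit 398) (nat_lit 198))) (XT.nd (nat_lit 78) (nat_lit 76) (nat_lit 0) (XT.lf (nat_lit 0) (nat_lit 420477698528) (nat_lit 152) (nat_lit 88799420146) (nat_lit 228) (nat_lit 696000191772) (nat_lit 27) (nat_lit 5) (nat_lit 29) (nat_lit 5) (nat_lit 30) (nat_lit 5) (nat_lit 425) (nat_lit 398) (nat_lit 197)) (XT.nd (nat_lit 78) (nat_lit 76) (nat_lit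 0) (XT.lf (nat_lit 0) (nat_lit 814517174860) (nat_lit 228) (nat_lit 143322586273) (nat_lit 76) (nat_lit 311609462926) (nat_lit 27) (nat_lit 5) (nat_lit 30) (nat_lit 5) (nat_lit 28) (nat_lit 4) (nat_lit 426) (nat_lit 398) (nat_lit 196)) (XT.lf (nat_lit 0) (nat_lit 575978901283) (nat_lit 76) (nat_lit 584356308034) (nat_lit 152) (nat_lit 177126979547) (nat_lit 26) (nat_lit 5) (nat_lit 27) (nat_lit 5) (nat_lit 28) (nat_lit 4) (nat_lit 427) (nat_lit 398) (nat_lit 195))))) (XT.nd (nat_lit 156) (nat_lit 152) (nat_lit 0) (XT.nd (nat_lit 78) (nat_lit 152) (nat_lit 0) (XT.lf (nat_lit 0) (nat_lit 120774881827) (nat_lit 152) (nat_lit 52684916444) (nat_lit 76) (nat_lit 1236898290610) (nat_lit 25) (nat_lit 5) (nat_lit 27) (nat_lit 5) (nat_lit 26) (nat_lit 5) (nat_lit 428) (nat_lit 398) (nat_lit 194)) (XT.lf (nat_lit 0) (nat_lit 457955083679) (nat_lit 228) (nat_lit 748859330671) (nat_lit 76) (nat_lit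 279901938559) (nat_lit 23) (nat_lit 5) (nat_lit 26) (nat_lit 5) (nat_lit 24) (nat_lit 4) (nat_lit 429) (nat_lit 398) (nat_lit 193))) (XT.nd (nat_lit 78) (nat_lit 76) (nat_lit 0) (XT.lf (nat_lit 0) (nat_lit 22134910869) (nat_lit 76) (nat_lit 806490489765) (nat_lit 152) (nat_lit 740036621513) (nat_lit 22) (nat_lit 5) (nat_lit 23) (nat_lit 5) (nat_lit 24) (nat_lit 4) (nat_lit 430) (nat_lit 398) (nat_lit 192)) (XT.nd (nat_lit 78) (nat_lit 76) (nat_lit 0) (XT.lf (nat_lit 0) (nat_lit 897396967958) (nat_lit 76) (nat_lit 352027506475) (nat_lit 152) (nat_lit 406100859975) (nat_lit 22) (nat_lit 5) (nat_lit 23) (nat_lit 5) (nat_lit 24) (nat_lit 4) (nat_lit 431) (nat_lit 398) (nat_lit 191)) (XT.lf (nat_lit 0) (nat_lit 94743764740) (nat_lit 76) (nat_lit 1614760253392) (nat_lit 76) (nat_lit 39384370002) (nat_lit 21) (nat_lit 4) (nat_lit 22) (nat_lit 5) (nat_lit 22) (nat_lit 4) (nat_lit 432) (nat_lit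 398) (nat_lit 190))))))) (XT.nd (nat_lit 780) (nat_lit 380) (nat_lit 0) (XT.nd (nat_lit 390) (nat_lit 228) (nat_lit 0) (XT.nd (nat_lit 156) (nat_lit 152) (nat_lit 0) (XT.nd (nat_lit 78) (nat_lit 76) (nat_lit 0) (XT.lf (nat_lit 0) (nat_lit 369237929343) (nat_lit 152) (nat_lit 807361003384) (nat_lit 76) (nat_lit 670002477544) (nat_lit 20) (nat_lit 5) (nat_lit 22) (nat_lit 5) (nat_lit 21) (nat_lit 4) (nat_lit 433) (nat_lit 398) (nat_lit 189)) (XT.lf (nat_lit 0) (nat_lit 111731586520) (nat_lit 76) (nat_lit 699377786076) (nat_lit 152) (nat_lit 1140725292820) (nat_lit 19) (nat_lit 5) (nat_lit 20) (nat_lit 5) (nat_lit 21) (nat_lit 4) (nat_lit 434) (nat_lit 398) (nat_lit 188))) (XT.nd (nat_lit 78) (nat_lit 152) (nat_lit 0) (XT.lf (nat_lit 0) (nat_lit 1150266904126) (nat_lit 76) (nat_lit 160138299613) (nat_lit 152) (nat_lit 753315403443) (nat_lit 19) (nat_lit 5) (nat_lit 20) (nat_lit 5) (nat_lit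 21) (nat_lit 4) (nat_lit 435) (nat_lit 398) (nat_lit 187)) (XT.nd (nat_lit 78) (nat_lit 76) (nat_lit 0) (XT.lf (nat_lit 0) (nat_lit 81236496473) (nat_lit 76) (nat_lit 1780516827342) (nat_lit 76) (nat_lit 321835410680) (nat_lit 18) (nat_lit 4) (nat_lit 19) (nat_lit 5) (nat_lit 19) (nat_lit 4) (nat_lit 436) (nat_lit 398) (nat_lit 186)) (XT.lf (nat_lit 0) (nat_lit 166734949800) (nat_lit 152) (nat_lit 1111872729945) (nat_lit 76) (nat_lit 1031778575638) (nat_lit 17) (nat_lit 5) (nat_lit 19) (nat_lit 5) (nat_lit 18) (nat_lit 4) (nat_lit 437) (nat_lit 398) (nat_lit 185))))) (XT.nd (nat_lit 156) (nat_lit 152) (nat_lit 0) (XT.nd (nat_lit 78) (nat_lit 76) (nat_lit 0) (XT.lf (nat_lit 0) (nat_lit 677003460465) (nat_lit 152) (nat_lit 50514235972) (nat_lit 76) (nat_lit 1719141133170) (nat_lit 17) (nat_lit 5) (nat_lit 19) (nat_lit 5) (nat_lit 18) (nat_lit 4) (nat_lit 438) (nat_lit 398) (nat_lit 184))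 (XT.lf (nat_lit 0) (nat_lit 1153453332273) (nat_lit 76) (nat_lit 102380693503) (nat_lit 152) (nat_lit 1335779938092) (nat_lit 16) (nat_lit 5) (nat_lit 17) (nat_lit 5) (nat_lit 18) (nat_lit 4) (nat_lit 439) (nat_lit 398) (nat_lit 183))) (XT.nd (nat_lit 78) (nat_lit 152) (nat_lit 0) (XT.lf (nat_lit 0) (nat_lit 1896163119116) (nat_lit 152) (nat_lit 305254874737) (nat_lit 0) (nat_lit 545532148393) (nat_lit 16) (nat_lit 5) (nat_lit 18) (nat_lit 4) (nat_lit 16) (nat_lit 4) (nat_lit 440) (nat_lit 398) (nat_lit 182)) (XT.nd (nat_lit 78) (nat_lit 76) (nat_lit 0) (XT.lf (nat_lit 0) (nat_lit 963839234379) (nat_lit 76) (nat_lit 1649718895057) (nat_lit 76) (nat_lit 299087918299) (nat_lit 15) (nat_lit 4) (nat_lit 16) (nat_lit 5) (nat_lit 16) (nat_lit 4) (nat_lit 441) (nat_lit 398) (nat_lit 181)) (XT.lf (nat_lit 0) (nat_lit 290465610262) (nat_lit 152) (nat_lit 746462513000) (nat_lit 76) (nat_lit 2053413521354)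 (nat_lit 14) (nat_lit 5) (nat_lit 16) (nat_lit 5) (nat_lit 15) (nat_lit 4) (nat_lit 442) (nat_lit 398) (nat_lit 180)))))) (XT.nd (nat_lit 390) (nat_lit 152) (nat_lit 0) (XT.nd (nat_lit 156) (nat_lit 152) (nat_lit 0) (XT.nd (nat_lit 78) (nat_lit 0) (nat_lit 0) (XT.lf (nat_lit 0) (nat_lit 572962719003) (nat_lit 76) (nat_lit 351841947594) (nat_lit 152) (nat_lit 2355724360334) (nat_lit 13) (nat_lit 5) (nat_lit 14) (nat_lit 5) (nat_lit 15) (nat_lit 4) (nat_lit 443) (nat_lit 398) (nat_lit 179)) (XT.lf (nat_lit 0) (nat_lit 1640163208360) (nat_lit 152) (nat_lit 1453767446380) (nat_lit 0) (nat_lit 389578956220) (nat_lit 13) (nat_lit 5) (nat_lit 15) (nat_lit 4) (nat_lit 13) (nat_lit 4) (nat_lit 444) (nat_lit 398) (nat_lit 178))) (XT.nd (nat_lit 78) (nat_lit 152) (nat_lit 0) (XT.lf (nat_lit 0) (nat_lit 2421889180221) (nat_lit 152) (nat_lit 108803437776) (nat_lit 0) (nat_lit 1171304923974) (nat_lit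 13) (nat_lit 5) (nat_lit 15) (nat_lit 4) (nat_lit 13) (nat_lit 4) (nat_lit 445) (nat_lit 398) (nat_lit 177)) (XT.nd (nat_lit 78) (nat_lit 76) (nat_lit 0) (XT.lf (nat_lit 0) (nat_lit 1414517580479) (nat_lit 76) (nat_lit 1885654826434) (nat_lit 76) (nat_lit 635070566384) (nat_lit 12) (nat_lit 4) (nat_lit 13) (nat_lit 5) (nat_lit 13) (nat_lit 4) (nat_lit 446) (nat_lit 398) (nat_lit 176)) (XT.lf (nat_lit 0) (nat_lit 61542402865) (nat_lit 152) (nat_lit 1122576065611) (nat_lit 76) (nat_lit 3002666937879) (nat_lit 11) (nat_lit 5) (nat_lit 13) (nat_lit 5) (nat_lit 12) (nat_lit 4) (nat_lit 447) (nat_lit 398) (nat_lit 175))))) (XT.nd (nat_lit 156) (nat_lit 76) (nat_lit 0) (XT.nd (nat_lit 78) (nat_lit 0) (nat_lit 0) (XT.lf (nat_lit 0) (nat_lit 390462368887) (nat_lit 76) (nat_lit 398502359823) (nat_lit 152) (nat_lit 3667415628197) (nat_lit 10) (nat_lit 5) (nat_lit 11) (nat_lit 5) (nat_lit 12) (nat_lit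 4) (nat_lit 448) (nat_lit 398) (nat_lit 174)) (XT.lf (nat_lit 0) (nat_lit 1616892903618) (nat_lit 152) (nat_lit 2668320529240) (nat_lit 0) (nat_lit 458944505608) (nat_lit 10) (nat_lit 5) (nat_lit 12) (nat_lit 4) (nat_lit 10) (nat_lit 4) (nat_lit 449) (nat_lit 398) (nat_lit 173))) (XT.nd (nat_lit 78) (nat_lit 76) (nat_lit 0) (XT.lf (nat_lit 0) (nat_lit 2521406039128) (nat_lit 152) (nat_lit 1169265992363) (nat_lit 0) (nat_lit 1363457638529) (nat_lit 10) (nat_lit 5) (nat_lit 12) (nat_lit 4) (nat_lit 10) (nat_lit 4) (nat_lit 450) (nat_lit 398) (nat_lit 172)) (XT.nd (nat_lit 78) (nat_lit 0) (nat_lit 0) (XT.lf (nat_lit 0) (nat_lit 473393984450) (nat_lit 76) (nat_lit 3036271374003) (nat_lit 76) (nat_lit 1878322971008) (nat_lit 9) (nat_lit 4) (nat_lit 10) (nat_lit 5) (nat_lit 10) (nat_lit 4) (nat_lit 451) (nat_lit 398) (nat_lit 171)) (XT.lf (nat_lit 0) (nat_lit 2313963945267) (nat_lit 76) (nat_lit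 2294991278774) (nat_lit 76) (nat_lit 1137042873560) (nat_lit 9) (nat_lit 4) (nat_lit 10) (nat_lit 5) (nat_lit 10) (nat_lit 4) (nat_lit 452) (nat_lit 398) (nat_lit 170))))))))
noncomputable def xc227 : XT := (XT.nd (nat_lit 1482) (nat_lit 1520) (nat_lit 0) (XT.nd (nat_lit 702) (nat_lit 1368) (nat_lit 0) (XT.nd (nat_lit 312) (nat_lit 380) (nat_lit 0) (XT.nd (nat_lit 156) (nat_lit 0) (nat_lit 76) (XT.nd (nat_lit 78) (nat_lit 0) (nat_lit 0) (XT.lf (nat_lit 0) (nat_lit 161572950661) (nat_lit 532) (nat_lit 14597452702) (nat_lit 532) (nat_lit 14597452702) (nat_lit 61) (nat_lit 3) (nat_lit 68) (nat_lit 3) (nat_lit 68) (nat_lit 5) (nat_lit 399) (nat_lit 399) (nat_lit 222)) (XT.lf (nat_lit 76) (nat_lit 162872445060) (nat_lit 0) (nat_lit 177116797796) (nat_lit 532) (nat_lit 56494496809) (nat_lit 62) (nat_lit 5) (nat_lit 61) (nat_lit 3) (nat_lit 68) (nat_lit 5) (nat_lit 400) (nat_lit 399) (nat_lit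 221))) (XT.nd (nat_lit 78) (nat_lit 0) (nat_lit 0) (XT.lf (nat_lit 0) (nat_lit 359290593324) (nat_lit 456) (nat_lit 40910597468) (nat_lit 532) (nat_lit 12337575332) (nat_lit 62) (nat_lit 5) (nat_lit 68) (nat_lit 5) (nat_lit 69) (nat_lit 5) (nat_lit 401) (nat_lit 399) (nat_lit 220)) (XT.lf (nat_lit 76) (nat_lit 171168221071) (nat_lit 0) (nat_lit 217684827943) (nat_lit 532) (nat_lit 40327785961) (nat_lit 63) (nat_lit 5) (nat_lit 62) (nat_lit 5) (nat_lit 69) (nat_lit 5) (nat_lit 402) (nat_lit 399) (nat_lit 219)))) (XT.nd (nat_lit 156) (nat_lit 0) (nat_lit 0) (XT.nd (nat_lit 78) (nat_lit 456) (nat_lit 0) (XT.lf (nat_lit 76) (nat_lit 402539941958) (nat_lit 0) (nat_lit 19359090762) (nat_lit 532) (nat_lit 25165754130) (nat_lit 63) (nat_lit 5) (nat_lit 62) (nat_lit 5) (nat_lit 69) (nat_lit 5) (nat_lit 403) (nat_lit 399) (nat_lit 218)) (XT.lf (nat_lit 0) (nat_lit 1166943937) (nat_lit 532) (nat_lit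 274760754682) (nat_lit 608) (nat_lit 189707233391) (nat_lit 56) (nat_lit 5) (nat_lit 63) (nat_lit 5) (nat_lit 64) (nat_lit 5) (nat_lit 404) (nat_lit 399) (nat_lit 217))) (XT.nd (nat_lit 78) (nat_lit 0) (nat_lit 76) (XT.lf (nat_lit 0) (nat_lit 29998462956) (nat_lit 532) (nat_lit 39144146285) (nat_lit 608) (nat_lit 416355642341) (nat_lit 56) (nat_lit 5) (nat_lit 63) (nat_lit 5) (nat_lit 64) (nat_lit 5) (nat_lit 405) (nat_lit 399) (nat_lit 216)) (XT.nd (nat_lit 78) (nat_lit 0) (nat_lit 0) (XT.lf (nat_lit 0) (nat_lit 70437406356) (nat_lit 532) (nat_lit 283704065560) (nat_lit 76) (nat_lit 152065092609) (nat_lit 57) (nat_lit 5) (nat_lit 64) (nat_lit 5) (nat_lit 58) (nat_lit 5) (nat_lit 406) (nat_lit 399) (nat_lit 215)) (XT.lf (nat_lit 0) (nat_lit 117005418200) (nat_lit 532) (nat_lit 23002620979) (nat_lit 76) (nat_lit 388331987116) (nat_lit 57) (nat_lit 5) (nat_lit 64) (nat_lit 5) (nat_lit 58)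 (nat_lit 5) (nat_lit 407) (nat_lit 399) (nat_lit 214)))))) (XT.nd (nat_lit 390) (nat_lit 608) (nat_lit 0) (XT.nd (nat_lit 156) (nat_lit 228) (nat_lit 0) (XT.nd (nat_lit 78) (nat_lit 228) (nat_lit 0) (XT.lf (nat_lit 0) (nat_lit 176209267310) (nat_lit 456) (nat_lit 281915282630) (nat_lit 76) (nat_lit 93406783387) (nat_lit 52) (nat_lit 5) (nat_lit 58) (nat_lit 5) (nat_lit 53) (nat_lit 5) (nat_lit 408) (nat_lit 399) (nat_lit 213)) (XT.lf (nat_lit 0) (nat_lit 7128422982) (nat_lit 228) (nat_lit 237474255868) (nat_lit 304) (nat_lit 331619005739) (nat_lit 49) (nat_lit 5) (nat_lit 52) (nat_lit 5) (nat_lit 53) (nat_lit 5) (nat_lit 409) (nat_lit 399) (nat_lit 212))) (XT.nd (nat_lit 78) (nat_lit 228) (nat_lit 0) (XT.lf (nat_lit 0) (nat_lit 326395727247) (nat_lit 304) (nat_lit 267162373933) (nat_lit 76) (nat_lit 8694909680) (nat_lit 49) (nat_lit 5) (nat_lit 53) (nat_lit 5) (nat_lit 50) (nat_lit 5)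 (nat_lit 410) (nat_lit 399) (nat_lit 211)) (XT.nd (nat_lit 78) (nat_lit 0) (nat_lit 0) (XT.lf (nat_lit 0) (nat_lit 55532770739) (nat_lit 228) (nat_lit 366703153668) (nat_lit 304) (nat_lit 207530622457) (nat_lit 46) (nat_lit 5) (nat_lit 49) (nat_lit 5) (nat_lit 50) (nat_lit 5) (nat_lit 411) (nat_lit 399) (nat_lit 210)) (XT.lf (nat_lit 0) (nat_lit 419237262939) (nat_lit 228) (nat_lit 113810746122) (nat_lit 304) (nat_lit 125848782969) (nat_lit 46) (nat_lit 5) (nat_lit 49) (nat_lit 5) (nat_lit 50) (nat_lit 5) (nat_lit 412) (nat_lit 399) (nat_lit 209))))) (XT.nd (nat_lit 156) (nat_lit 380) (nat_lit 0) (XT.nd (nat_lit 78) (nat_lit 76) (nat_lit 0) (XT.lf (nat_lit 0) (nat_lit 124054877715) (nat_lit 152) (nat_lit 535485168781) (nat_lit 228) (nat_lit 30272211451) (nat_lit 44) (nat_lit 5) (nat_lit 46) (nat_lit 5) (nat_lit 47) (nat_lit 5) (nat_lit 413) (nat_lit 399) (nat_lit 208)) (XT.lf (nat_lit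 0) (nat_lit 78980227778) (nat_lit 228) (nat_lit 197061466654) (nat_lit 76) (nat_lit 446244588190) (nat_lit 43) (nat_lit 5) (nat_lit 46) (nat_lit 5) (nat_lit 44) (nat_lit 5) (nat_lit 414) (nat_lit 399) (nat_lit 207))) (XT.nd (nat_lit 78) (nat_lit 152) (nat_lit 0) (XT.lf (nat_lit 0) (nat_lit 200661499045) (nat_lit 304) (nat_lit 546248157702) (nat_lit 76) (nat_lit 9959739431) (nat_lit 40) (nat_lit 5) (nat_lit 44) (nat_lit 5) (nat_lit 41) (nat_lit 5) (nat_lit 415) (nat_lit 399) (nat_lit 206)) (XT.nd (nat_lit 78) (nat_lit 152) (nat_lit 0) (XT.lf (nat_lit 0) (nat_lit 344775127047) (nat_lit 304) (nat_lit 138972384070) (nat_lit 76) (nat_lit 309455819314) (nat_lit 40) (nat_lit 5) (nat_lit 44) (nat_lit 5) (nat_lit 41) (nat_lit 5) (nat_lit 416) (nat_lit 399) (nat_lit 205)) (XT.lf (nat_lit 0) (nat_lit 316729522894) (nat_lit 152) (nat_lit 191305659173) (nat_lit 228) (nat_lit 323799410427) (nat_lit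 38) (nat_lit 5) (nat_lit 40) (nat_lit 5) (nat_lit 41) (nat_lit 5) (nat_lit 417) (nat_lit 399) (nat_lit 204))))))) (XT.nd (nat_lit 780) (nat_lit 684) (nat_lit 0) (XT.nd (nat_lit 390) (nat_lit 304) (nat_lit 0) (XT.nd (nat_lit 156) (nat_lit 380) (nat_lit 0) (XT.nd (nat_lit 78) (nat_lit 152) (nat_lit 0) (XT.lf (nat_lit 0) (nat_lit 691249458785) (nat_lit 228) (nat_lit 59555014351) (nat_lit 76) (nat_lit 122200409014) (nat_lit 38) (nat_lit 5) (nat_lit 41) (nat_lit 5) (nat_lit 39) (nat_lit 5) (nat_lit 418) (nat_lit 399) (nat_lit 203)) (XT.lf (nat_lit 0) (nat_lit 449979861349) (nat_lit 152) (nat_lit 454932006719) (nat_lit 228) (nat_lit 11293647689) (nat_lit 36) (nat_lit 5) (nat_lit 38) (nat_lit 5) (nat_lit 39) (nat_lit 5) (nat_lit 419) (nat_lit 399) (nat_lit 202))) (XT.nd (nat_lit 78) (nat_lit 152) (nat_lit 0) (XT.lf (nat_lit 0) (nat_lit 38668619888) (nat_lit 152) (nat_lit 128092642070) (nat_lit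 228) (nat_lit 795560412705) (nat_lit 33) (nat_lit 5) (nat_lit 35) (nat_lit 5) (nat_lit 36) (nat_lit 5) (nat_lit 420) (nat_lit 399) (nat_lit 201)) (XT.nd (nat_lit 78) (nat_lit 152) (nat_lit 0) (XT.lf (nat_lit 0) (nat_lit 376937641276) (nat_lit 228) (nat_lit 406671397474) (nat_lit 76) (nat_lit 227015642043) (nat_lit 33) (nat_lit 5) (nat_lit 36) (nat_lit 5) (nat_lit 34) (nat_lit 5) (nat_lit 421) (nat_lit 399) (nat_lit 200)) (XT.lf (nat_lit 0) (nat_lit 156153101448) (nat_lit 152) (nat_lit 454857584311) (nat_lit 228) (nat_lit 451214637277) (nat_lit 31) (nat_lit 5) (nat_lit 33) (nat_lit 5) (nat_lit 34) (nat_lit 5) (nat_lit 422) (nat_lit 399) (nat_lit 199))))) (XT.nd (nat_lit 156) (nat_lit 228) (nat_lit 0) (XT.nd (nat_lit 78) (nat_lit 76) (nat_lit 0) (XT.lf (nat_lit 0) (nat_lit 787131303595) (nat_lit 152) (nat_lit 87797374729) (nat_lit 228) (nat_lit 242135809980) (nat_lit 31) (nat_lit 5) (nat_lit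 33) (nat_lit 5) (nat_lit 34) (nat_lit 5) (nat_lit 423) (nat_lit 399) (nat_lit 198)) (XT.lf (nat_lit 0) (nat_lit 299875437864) (nat_lit 76) (nat_lit 874719174937) (nat_lit 152) (nat_lit 525413798) (nat_lit 30) (nat_lit 5) (nat_lit 31) (nat_lit 5) (nat_lit 32) (nat_lit 4) (nat_lit 424) (nat_lit 399) (nat_lit 197))) (XT.nd (nat_lit 78) (nat_lit 152) (nat_lit 0) (XT.lf (nat_lit 0) (nat_lit 258922568953) (nat_lit 152) (nat_lit 247043727739) (nat_lit 76) (nat_lit 730429817910) (nat_lit 29) (nat_lit 5) (nat_lit 31) (nat_lit 5) (nat_lit 30) (nat_lit 5) (nat_lit 425) (nat_lit 399) (nat_lit 196)) (XT.nd (nat_lit 78) (nat_lit 0) (nat_lit 0) (XT.lf (nat_lit 0) (nat_lit 454116272721) (nat_lit 152) (nat_lit 95903228418) (nat_lit 228) (nat_lit 751679976999) (nat_lit 27) (nat_lit 5) (nat_lit 29) (nat_lit 5) (nat_lit 30) (nat_lit 5) (nat_lit 426) (nat_lit 399) (nat_lit 195)) (XT.lf (nat_lit 0) (nat_lit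 879678749280) (nat_lit 228) (nat_lit 154788048768) (nat_lit 76) (nat_lit 336538347803) (nat_lit 27) (nat_lit 5) (nat_lit 30) (nat_lit 5) (nat_lit 28) (nat_lit 4) (nat_lit 427) (nat_lit 399) (nat_lit 194)))))) (XT.nd (nat_lit 390) (nat_lit 304) (nat_lit 0) (XT.nd (nat_lit 156) (nat_lit 228) (nat_lit 0) (XT.nd (nat_lit 78) (nat_lit 76) (nat_lit 0) (XT.lf (nat_lit 0) (nat_lit 622057549074) (nat_lit 76) (nat_lit 631104670647) (nat_lit 152) (nat_lit 191296928668) (nat_lit 26) (nat_lit 5) (nat_lit 27) (nat_lit 5) (nat_lit 28) (nat_lit 4) (nat_lit 428) (nat_lit 399) (nat_lit 193)) (XT.lf (nat_lit 0) (nat_lit 130437056424) (nat_lit 152) (nat_lit 56899389167) (nat_lit 76) (nat_lit 1335850275598) (nat_lit 25) (nat_lit 5) (nat_lit 27) (nat_lit 5) (nat_lit 26) (nat_lit 5) (nat_lit 429) (nat_lit 399) (nat_lit 192))) (XT.nd (nat_lit 78) (nat_lit 76) (nat_lit 0) (XT.lf (nat_lit 0) (nat_lit 494591671542)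 (nat_lit 228) (nat_lit 808767753577) (nat_lit 76) (nat_lit 302294221457) (nat_lit 23) (nat_lit 5) (nat_lit 26) (nat_lit 5) (nat_lit 24) (nat_lit 4) (nat_lit 430) (nat_lit 399) (nat_lit 191)) (XT.nd (nat_lit 78) (nat_lit 0) (nat_lit 0) (XT.lf (nat_lit 0) (nat_lit 23906019096) (nat_lit 76) (nat_lit 871009588922) (nat_lit 152) (nat_lit 799239361806) (nat_lit 22) (nat_lit 5) (nat_lit 23) (nat_lit 5) (nat_lit 24) (nat_lit 4) (nat_lit 431) (nat_lit 399) (nat_lit 190)) (XT.lf (nat_lit 0) (nat_lit 969189017392) (nat_lit 76) (nat_lit 380189577341) (nat_lit 152) (nat_lit 438588753378) (nat_lit 22) (nat_lit 5) (nat_lit 23) (nat_lit 5) (nat_lit 24) (nat_lit 4) (nat_lit 432) (nat_lit 399) (nat_lit 189))))) (XT.nd (nat_lit 156) (nat_lit 152) (nat_lit 0) (XT.nd (nat_lit 78) (nat_lit 76) (nat_lit 0) (XT.lf (nat_lit 0) (nat_lit 102323560205) (nat_lit 76) (nat_lit 1743940939662) (nat_lit 76) (nat_lit 42534946437)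 (nat_lit 21) (nat_lit 4) (nat_lit 22) (nat_lit 5) (nat_lit 22) (nat_lit 4) (nat_lit 433) (nat_lit 399) (nat_lit 188)) (XT.lf (nat_lit 0) (nat_lit 398777116008) (nat_lit 152) (nat_lit 871949603097) (nat_lit 76) (nat_lit 723602791752) (nat_lit 20) (nat_lit 5) (nat_lit 22) (nat_lit 5) (nat_lit 21) (nat_lit 4) (nat_lit 434) (nat_lit 399) (nat_lit 187))) (XT.nd (nat_lit 78) (nat_lit 76) (nat_lit 0) (XT.lf (nat_lit 0) (nat_lit 120670386896) (nat_lit 76) (nat_lit 755327883119) (nat_lit 152) (nat_lit 1231983156779) (nat_lit 19) (nat_lit 5) (nat_lit 20) (nat_lit 5) (nat_lit 21) (nat_lit 4) (nat_lit 435) (nat_lit 399) (nat_lit 186)) (XT.nd (nat_lit 78) (nat_lit 76) (nat_lit 0) (XT.lf (nat_lit 0) (nat_lit 1242288509654) (nat_lit 76) (nat_lit 172949247061) (nat_lit 152) (nat_lit 813580488065) (nat_lit 19) (nat_lit 5) (nat_lit 20) (nat_lit 5) (nat_lit 21) (nat_lit 4) (nat_lit 436) (nat_lit 399) (nat_lit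 185)) (XT.lf (nat_lit 0) (nat_lit 87735670947) (nat_lit 76) (nat_lit 1922958054048) (nat_lit 76) (nat_lit 347582097398) (nat_lit 18) (nat_lit 4) (nat_lit 19) (nat_lit 5) (nat_lit 19) (nat_lit 4) (nat_lit 437) (nat_lit 399) (nat_lit 184))))))))
noncomputable def xc228 : XT := (XT.nd (nat_lit 50544) (nat_lit 0) (nat_lit 1596) (XT.nd (nat_lit 702) (nat_lit 228) (nat_lit 0) (XT.nd (nat_lit 312) (nat_lit 228) (nat_lit 0) (XT.nd (nat_lit 156) (nat_lit 76) (nat_lit 0) (XT.nd (nat_lit 78) (nat_lit 0) (nat_lit 0) (XT.lf (nat_lit 0) (nat_lit 180073874326) (nat_lit 152) (nat_lit 1200822305653) (nat_lit 76) (nat_lit 1114320965518) (nat_lit 17) (nat_lit 5) (nat_lit 19) (nat_lit 5) (nat_lit 18) (nat_lit 4) (nat_lit 438) (nat_lit 399) (nat_lit 183)) (XT.lf (nat_lit 0) (nat_lit 731163856323) (nat_lit 152) (nat_lit 54555150139) (nat_lit 76) (nat_lit 1856672519961) (nat_lit 17) (nat_lit 5) (nat_lit 19)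 (nat_lit 5) (nat_lit 18) (nat_lit 4) (nat_lit 439) (nat_lit 399) (nat_lit 182))) (XT.nd (nat_lit 78) (nat_lit 0) (nat_lit 0) (XT.lf (nat_lit 0) (nat_lit 1245729817876) (nat_lit 76) (nat_lit 110571045433) (nat_lit 152) (nat_lit 1442642208401) (nat_lit 16) (nat_lit 5) (nat_lit 17) (nat_lit 5) (nat_lit 18) (nat_lit 4) (nat_lit 440) (nat_lit 399) (nat_lit 181)) (XT.lf (nat_lit 0) (nat_lit 2047856277870) (nat_lit 152) (nat_lit 329675055643) (nat_lit 0) (nat_lit 589174811348) (nat_lit 16) (nat_lit 5) (nat_lit 18) (nat_lit 4) (nat_lit 16) (nat_lit 4) (nat_lit 441) (nat_lit 399) (nat_lit 180)))) (XT.nd (nat_lit 156) (nat_lit 76) (nat_lit 0) (XT.nd (nat_lit 78) (nat_lit 76) (nat_lit 0) (XT.lf (nat_lit 0) (nat_lit 1040946576909) (nat_lit 76) (nat_lit 1781696308917) (nat_lit 76) (nat_lit 323014837221) (nat_lit 15) (nat_lit 4) (nat_lit 16) (nat_lit 5) (nat_lit 16) (nat_lit 4) (nat_lit 442) (nat_lit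 399) (nat_lit 179)) (XT.lf (nat_lit 0) (nat_lit 313702959835) (nat_lit 152) (nat_lit 806179320029) (nat_lit 76) (nat_lit 2217686688240) (nat_lit 14) (nat_lit 5) (nat_lit 16) (nat_lit 5) (nat_lit 15) (nat_lit 4) (nat_lit 443) (nat_lit 399) (nat_lit 178))) (XT.nd (nat_lit 78) (nat_lit 0) (nat_lit 0) (XT.lf (nat_lit 0) (nat_lit 618799925623) (nat_lit 76) (nat_lit 379989212138) (nat_lit 152) (nat_lit 2544182203478) (nat_lit 13) (nat_lit 5) (nat_lit 14) (nat_lit 5) (nat_lit 15) (nat_lit 4) (nat_lit 444) (nat_lit 399) (nat_lit 177)) (XT.nd (nat_lit 78) (nat_lit 0) (nat_lit 0) (XT.lf (nat_lit 0) (nat_lit 1771376357651) (nat_lit 152) (nat_lit 1570068661765) (nat_lit 0) (nat_lit 420745352993) (nat_lit 13) (nat_lit 5) (nat_lit 15) (nat_lit 4) (nat_lit 13) (nat_lit 4) (nat_lit 445) (nat_lit 399) (nat_lit 176)) (XT.lf (nat_lit 0) (nat_lit 2615640400400) (nat_lit 152) (nat_lit 117507545830) (nat_lit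 0) (nat_lit 1265009392221) (nat_lit 13) (nat_lit 5) (nat_lit 15) (nat_lit 4) (nat_lit 13) (nat_lit 4) (nat_lit 446) (nat_lit 399) (nat_lit 175)))))) (XT.nd (nat_lit 49452) (nat_lit 0) (nat_lit 3876) (XT.nd (nat_lit 156) (nat_lit 76) (nat_lit 0) (XT.nd (nat_lit 78) (nat_lit 76) (nat_lit 0) (XT.lf (nat_lit 0) (nat_lit 1527679149659) (nat_lit 76) (nat_lit 2036507133130) (nat_lit 76) (nat_lit 685876121691) (nat_lit 12) (nat_lit 4) (nat_lit 13) (nat_lit 5) (nat_lit 13) (nat_lit 4) (nat_lit 447) (nat_lit 399) (nat_lit 174)) (XT.lf (nat_lit 0) (nat_lit 66465874262) (nat_lit 152) (nat_lit 1212381995991) (nat_lit 76) (nat_lit 3242880362263) (nat_lit 11) (nat_lit 5) (nat_lit 13) (nat_lit 5) (nat_lit 12) (nat_lit 4) (nat_lit 448) (nat_lit 399) (nat_lit 173))) (XT.nd (nat_lit 78) (nat_lit 0) (nat_lit 0) (XT.lf (nat_lit 0) (nat_lit 421699509346) (nat_lit 76) (nat_lit 430382474595) (nat_lit 152) (nat_lit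 3960808795351) (nat_lit 10) (nat_lit 5) (nat_lit 11) (nat_lit 5) (nat_lit 12) (nat_lit 4) (nat_lit 449) (nat_lit 399) (nat_lit 172)) (XT.nd (nat_lit 78) (nat_lit 0) (nat_lit 0) (XT.lf (nat_lit 0) (nat_lit 1746244408791) (nat_lit 152) (nat_lit 2881786027750) (nat_lit 0) (nat_lit 495660131160) (nat_lit 10) (nat_lit 5) (nat_lit 12) (nat_lit 4) (nat_lit 10) (nat_lit 4) (nat_lit 450) (nat_lit 399) (nat_lit 171)) (XT.lf (nat_lit 0) (nat_lit 2723118589743) (nat_lit 152) (nat_lit 1262807138577) (nat_lit 0) (nat_lit 1472534309892) (nat_lit 10) (nat_lit 5) (nat_lit 12) (nat_lit 4) (nat_lit 10) (nat_lit 4) (nat_lit 451) (nat_lit 399) (nat_lit 170))))) (XT.nd (nat_lit 156) (nat_lit 0) (nat_lit 76) (XT.nd (nat_lit 78) (nat_lit 0) (nat_lit 0) (XT.lf (nat_lit 0) (nat_lit 174499195891) (nat_lit 532) (nat_lit 15765027712) (nat_lit 532) (nat_lit 15765027712) (nat_lit 61) (nat_lit 3) (nat_lit 68) (nat_lit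 3) (nat_lit 68) (nat_lit 5) (nat_lit 400) (nat_lit 400) (nat_lit 220)) (XT.lf (nat_lit 76) (nat_lit 175902671876) (nat_lit 0) (nat_lit 191286478516) (nat_lit 532) (nat_lit 61013226073) (nat_lit 62) (nat_lit 5) (nat_lit 61) (nat_lit 3) (nat_lit 68) (nat_lit 5) (nat_lit 401) (nat_lit 400) (nat_lit 219))) (XT.nd (nat_lit 78) (nat_lit 0) (nat_lit 0) (XT.lf (nat_lit 0) (nat_lit 388034544498) (nat_lit 456) (nat_lit 44182980741) (nat_lit 532) (nat_lit 13324285023) (nat_lit 62) (nat_lit 5) (nat_lit 68) (nat_lit 5) (nat_lit 69) (nat_lit 5) (nat_lit 402) (nat_lit 400) (nat_lit 218)) (XT.nd (nat_lit 78) (nat_lit 0) (nat_lit 0) (XT.lf (nat_lit 76) (nat_lit 184862131522) (nat_lit 0) (nat_lit 235099823883) (nat_lit 532) (nat_lit 43553292577) (nat_lit 63) (nat_lit 5) (nat_lit 62) (nat_lit 5) (nat_lit 69) (nat_lit 5) (nat_lit 403) (nat_lit 400) (nat_lit 217)) (XT.lf (nat_lit 76) (nat_lit 434743556542)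 (nat_lit 0) (nat_lit 20908012194) (nat_lit 532) (nat_lit 27178351256) (nat_lit 63) (nat_lit 5) (nat_lit 62) (nat_lit 5) (nat_lit 69) (nat_lit 5) (nat_lit 404) (nat_lit 400) (nat_lit 216))))))) (XT.nd (nat_lit 702) (nat_lit 1140) (nat_lit 0) (XT.nd (nat_lit 312) (nat_lit 760) (nat_lit 0) (XT.nd (nat_lit 156) (nat_lit 0) (nat_lit 76) (XT.nd (nat_lit 78) (nat_lit 0) (nat_lit 0) (XT.lf (nat_lit 0) (nat_lit 1260889769) (nat_lit 532) (nat_lit 296741121631) (nat_lit 608) (nat_lit 204883667316) (nat_lit 56) (nat_lit 5) (nat_lit 63) (nat_lit 5) (nat_lit 64) (nat_lit 5) (nat_lit 405) (nat_lit 400) (nat_lit 215)) (XT.lf (nat_lit 0) (nat_lit 32398886582) (nat_lit 532) (nat_lit 42275221112) (nat_lit 608) (nat_lit 449663959705) (nat_lit 56) (nat_lit 5) (nat_lit 63) (nat_lit 5) (nat_lit 64) (nat_lit 5) (nat_lit 406) (nat_lit 400) (nat_lit 214))) (XT.nd (nat_lit 78) (nat_lit 0) (nat_lit 0) (XT.lf (nat_lit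 0) (nat_lit 76072913955) (nat_lit 532) (nat_lit 306399901891) (nat_lit 76) (nat_lit 164230232093) (nat_lit 57) (nat_lit 5) (nat_lit 64) (nat_lit 5) (nat_lit 58) (nat_lit 5) (nat_lit 407) (nat_lit 400) (nat_lit 213)) (XT.lf (nat_lit 0) (nat_lit 126366328592) (nat_lit 532) (nat_lit 24842377959) (nat_lit 76) (nat_lit 419398483192) (nat_lit 57) (nat_lit 5) (nat_lit 64) (nat_lit 5) (nat_lit 58) (nat_lit 5) (nat_lit 408) (nat_lit 400) (nat_lit 212)))) (XT.nd (nat_lit 156) (nat_lit 228) (nat_lit 0) (XT.nd (nat_lit 78) (nat_lit 228) (nat_lit 0) (XT.lf (nat_lit 0) (nat_lit 190306460651) (nat_lit 456) (nat_lit 304468027098) (nat_lit 76) (nat_lit 100879315625) (nat_lit 52) (nat_lit 5) (nat_lit 58) (nat_lit 5) (nat_lit 53) (nat_lit 5) (nat_lit 409) (nat_lit 400) (nat_lit 211)) (XT.lf (nat_lit 0) (nat_lit 7699162858) (nat_lit 228) (nat_lit 256472159985) (nat_lit 304) (nat_lit 358148061709) (nat_lit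 49) (nat_lit 5) (nat_lit 52) (nat_lit 5) (nat_lit 53) (nat_lit 5) (nat_lit 410) (nat_lit 400) (nat_lit 210))) (XT.nd (nat_lit 78) (nat_lit 228) (nat_lit 0) (XT.lf (nat_lit 0) (nat_lit 352507784093) (nat_lit 304) (nat_lit 288534900916) (nat_lit 76) (nat_lit 9390534430) (nat_lit 49) (nat_lit 5) (nat_lit 53) (nat_lit 5) (nat_lit 50) (nat_lit 5) (nat_lit 411) (nat_lit 400) (nat_lit 209)) (XT.nd (nat_lit 78) (nat_lit 0) (nat_lit 0) (XT.lf (nat_lit 0) (nat_lit 59975843610) (nat_lit 228) (nat_lit 396039334736) (nat_lit 304) (nat_lit 224132661499) (nat_lit 46) (nat_lit 5) (nat_lit 49) (nat_lit 5) (nat_lit 50) (nat_lit 5) (nat_lit 412) (nat_lit 400) (nat_lit 208)) (XT.lf (nat_lit 0) (nat_lit 452776661763) (nat_lit 228) (nat_lit 122915539863) (nat_lit 304) (nat_lit 135916305279) (nat_lit 46) (nat_lit 5) (nat_lit 49) (nat_lit 5) (nat_lit 50) (nat_lit 5) (nat_lit 413) (nat_lit 400) (nat_lit 207))))))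 (XT.nd (nat_lit 390) (nat_lit 532) (nat_lit 0) (XT.nd (nat_lit 156) (nat_lit 380) (nat_lit 0) (XT.nd (nat_lit 78) (nat_lit 76) (nat_lit 0) (XT.lf (nat_lit 0) (nat_lit 133979701365) (nat_lit 152) (nat_lit 578323886522) (nat_lit 228) (nat_lit 32693623369) (nat_lit 44) (nat_lit 5) (nat_lit 46) (nat_lit 5) (nat_lit 47) (nat_lit 5) (nat_lit 414) (nat_lit 400) (nat_lit 206)) (XT.lf (nat_lit 0) (nat_lit 85298967056) (nat_lit 228) (nat_lit 212825965483) (nat_lit 76) (nat_lit 481944226738) (nat_lit 43) (nat_lit 5) (nat_lit 46) (nat_lit 5) (nat_lit 44) (nat_lit 5) (nat_lit 415) (nat_lit 400) (nat_lit 205))) (XT.nd (nat_lit 78) (nat_lit 152) (nat_lit 0) (XT.lf (nat_lit 0) (nat_lit 216714728478) (nat_lit 304) (nat_lit 589947580018) (nat_lit 76) (nat_lit 10756614366) (nat_lit 40) (nat_lit 5) (nat_lit 44) (nat_lit 5) (nat_lit 41) (nat_lit 5) (nat_lit 416) (nat_lit 400) (nat_lit 204)) (XT.nd (nat_lit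 78) (nat_lit 152) (nat_lit 0) (XT.lf (nat_lit 0) (nat_lit 372357423793) (nat_lit 304) (nat_lit 150089776370) (nat_lit 76) (nat_lit 334212373545) (nat_lit 40) (nat_lit 5) (nat_lit 44) (nat_lit 5) (nat_lit 41) (nat_lit 5) (nat_lit 417) (nat_lit 400) (nat_lit 203)) (XT.lf (nat_lit 0) (nat_lit 342068273064) (nat_lit 152) (nat_lit 206609998262) (nat_lit 228) (nat_lit 349703066378) (nat_lit 38) (nat_lit 5) (nat_lit 40) (nat_lit 5) (nat_lit 41) (nat_lit 5) (nat_lit 418) (nat_lit 400) (nat_lit 202))))) (XT.nd (nat_lit 156) (nat_lit 380) (nat_lit 0) (XT.nd (nat_lit 78) (nat_lit 152) (nat_lit 0) (XT.lf (nat_lit 0) (nat_lit 746549672365) (nat_lit 228) (nat_lit 64319037911) (nat_lit 76) (nat_lit 131976541699) (nat_lit 38) (nat_lit 5) (nat_lit 41) (nat_lit 5) (nat_lit 39) (nat_lit 5) (nat_lit 419) (nat_lit 400) (nat_lit 201)) (XT.lf (nat_lit 0) (nat_lit 485978618286) (nat_lit 152) (nat_lit 491326445927)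 (nat_lit 228) (nat_lit 12196872885) (nat_lit 36) (nat_lit 5) (nat_lit 38) (nat_lit 5) (nat_lit 39) (nat_lit 5) (nat_lit 420) (nat_lit 400) (nat_lit 200))) (XT.nd (nat_lit 78) (nat_lit 152) (nat_lit 0) (XT.lf (nat_lit 0) (nat_lit 41762481357) (nat_lit 152) (nat_lit 138339925022) (nat_lit 228) (nat_lit 859204982622) (nat_lit 33) (nat_lit 5) (nat_lit 35) (nat_lit 5) (nat_lit 36) (nat_lit 5) (nat_lit 421) (nat_lit 400) (nat_lit 199)) (XT.nd (nat_lit 78) (nat_lit 152) (nat_lit 0) (XT.lf (nat_lit 0) (nat_lit 407092880868) (nat_lit 228) (nat_lit 439204749619) (nat_lit 76) (nat_lit 245177006360) (nat_lit 33) (nat_lit 5) (nat_lit 36) (nat_lit 5) (nat_lit 34) (nat_lit 5) (nat_lit 422) (nat_lit 400) (nat_lit 198)) (XT.lf (nat_lit 0) (nat_lit 168645700111) (nat_lit 152) (nat_lit 491246060319) (nat_lit 228) (nat_lit 487311570729) (nat_lit 31) (nat_lit 5) (nat_lit 33) (nat_lit 5) (nat_lit 34) (nat_lit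 5) (nat_lit 423) (nat_lit 400) (nat_lit 197))))))))
noncomputable def xc229 : XT := (XT.nd (nat_lit 1482) (nat_lit 456) (nat_lit 0) (XT.nd (nat_lit 702) (nat_lit 456) (nat_lit 0) (XT.nd (nat_lit 312) (nat_lit 380) (nat_lit 0) (XT.nd (nat_lit 156) (nat_lit 228) (nat_lit 0) (XT.nd (nat_lit 78) (nat_lit 76) (nat_lit 0) (XT.lf (nat_lit 0) (nat_lit 850102132463) (nat_lit 152) (nat_lit 94821043654) (nat_lit 228) (nat_lit 261506454844) (nat_lit 31) (nat_lit 5) (nat_lit 33) (nat_lit 5) (nat_lit 34) (nat_lit 5) (nat_lit 424) (nat_lit 400) (nat_lit 196)) (XT.lf (nat_lit 0) (nat_lit 323865802411) (nat_lit 76) (nat_lit 944696578486) (nat_lit 152) (nat_lit 567231788) (nat_lit 30) (nat_lit 5) (nat_lit 31) (nat_lit 5) (nat_lit 32) (nat_lit 4) (nat_lit 425) (nat_lit 400) (nat_lit 195))) (XT.nd (nat_lit 78) (nat_lit 152) (nat_lit 0) (XT.lf (nat_lit 0) (nat_lit 279636563685) (nat_lit 152) (nat_lit 266806910786)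 (nat_lit 76) (nat_lit 788864314063) (nat_lit 29) (nat_lit 5) (nat_lit 31) (nat_lit 5) (nat_lit 30) (nat_lit 5) (nat_lit 426) (nat_lit 400) (nat_lit 194)) (XT.lf (nat_lit 0) (nat_lit 490445881731) (nat_lit 152) (nat_lit 103575362086) (nat_lit 228) (nat_lit 811814177872) (nat_lit 27) (nat_lit 5) (nat_lit 29) (nat_lit 5) (nat_lit 30) (nat_lit 5) (nat_lit 427) (nat_lit 400) (nat_lit 193)))) (XT.nd (nat_lit 156) (nat_lit 304) (nat_lit 0) (XT.nd (nat_lit 78) (nat_lit 76) (nat_lit 0) (XT.lf (nat_lit 0) (nat_lit 950053221060) (nat_lit 228) (nat_lit 167170797396) (nat_lit 76) (nat_lit 363461525231) (nat_lit 27) (nat_lit 5) (nat_lit 30) (nat_lit 5) (nat_lit 28) (nat_lit 4) (nat_lit 428) (nat_lit 400) (nat_lit 192)) (XT.lf (nat_lit 0) (nat_lit 671822440798) (nat_lit 76) (nat_lit 681592922531) (nat_lit 152) (nat_lit 206600503570) (nat_lit 26) (nat_lit 5) (nat_lit 27) (nat_lit 5) (nat_lit 28) (nat_lit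 4) (nat_lit 429) (nat_lit 400) (nat_lit 191))) (XT.nd (nat_lit 78) (nat_lit 228) (nat_lit 0) (XT.lf (nat_lit 0) (nat_lit 140872178732) (nat_lit 152) (nat_lit 61451065444) (nat_lit 76) (nat_lit 1442718402017) (nat_lit 25) (nat_lit 5) (nat_lit 27) (nat_lit 5) (nat_lit 26) (nat_lit 5) (nat_lit 430) (nat_lit 400) (nat_lit 190)) (XT.nd (nat_lit 78) (nat_lit 76) (nat_lit 0) (XT.lf (nat_lit 0) (nat_lit 534159160588) (nat_lit 228) (nat_lit 873468896472) (nat_lit 76) (nat_lit 326477868752) (nat_lit 23) (nat_lit 5) (nat_lit 26) (nat_lit 5) (nat_lit 24) (nat_lit 4) (nat_lit 431) (nat_lit 400) (nat_lit 189)) (XT.lf (nat_lit 0) (nat_lit 25818770992) (nat_lit 76) (nat_lit 940690235987) (nat_lit 152) (nat_lit 863178348348) (nat_lit 22) (nat_lit 5) (nat_lit 23) (nat_lit 5) (nat_lit 24) (nat_lit 4) (nat_lit 432) (nat_lit 400) (nat_lit 188)))))) (XT.nd (nat_lit 390) (nat_lit 228) (nat_lit 0) (XT.nd (nat_lit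 156) (nat_lit 152) (nat_lit 0) (XT.nd (nat_lit 78) (nat_lit 76) (nat_lit 0) (XT.lf (nat_lit 0) (nat_lit 1046724389124) (nat_lit 76) (nat_lit 410604632372) (nat_lit 152) (nat_lit 473675703275) (nat_lit 22) (nat_lit 5) (nat_lit 23) (nat_lit 5) (nat_lit 24) (nat_lit 4) (nat_lit 433) (nat_lit 400) (nat_lit 187)) (XT.lf (nat_lit 0) (nat_lit 110509697324) (nat_lit 76) (nat_lit 1883456099951) (nat_lit 76) (nat_lit 45937593691) (nat_lit 21) (nat_lit 4) (nat_lit 22) (nat_lit 5) (nat_lit 22) (nat_lit 4) (nat_lit 434) (nat_lit 400) (nat_lit 186))) (XT.nd (nat_lit 78) (nat_lit 76) (nat_lit 0) (XT.lf (nat_lit 0) (nat_lit 430679415876) (nat_lit 152) (nat_lit 941705330813) (nat_lit 76) (nat_lit 781491114548) (nat_lit 20) (nat_lit 5) (nat_lit 22) (nat_lit 5) (nat_lit 21) (nat_lit 4) (nat_lit 435) (nat_lit 400) (nat_lit 185)) (XT.nd (nat_lit 78) (nat_lit 0) (nat_lit 0) (XT.lf (nat_lit 0) (nat_lit 130324252291)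 (nat_lit 76) (nat_lit 815754005879) (nat_lit 152) (nat_lit 1330541672605) (nat_lit 19) (nat_lit 5) (nat_lit 20) (nat_lit 5) (nat_lit 21) (nat_lit 4) (nat_lit 436) (nat_lit 400) (nat_lit 184)) (XT.lf (nat_lit 0) (nat_lit 1341671807504) (nat_lit 76) (nat_lit 186785086927) (nat_lit 152) (nat_lit 878666800521) (nat_lit 19) (nat_lit 5) (nat_lit 20) (nat_lit 5) (nat_lit 21) (nat_lit 4) (nat_lit 437) (nat_lit 400) (nat_lit 183))))) (XT.nd (nat_lit 156) (nat_lit 76) (nat_lit 0) (XT.nd (nat_lit 78) (nat_lit 76) (nat_lit 0) (XT.lf (nat_lit 0) (nat_lit 94754743035) (nat_lit 76) (nat_lit 2076794595936) (nat_lit 76) (nat_lit 375388539902) (nat_lit 18) (nat_lit 4) (nat_lit 19) (nat_lit 5) (nat_lit 19) (nat_lit 4) (nat_lit 438) (nat_lit 400) (nat_lit 182)) (XT.lf (nat_lit 0) (nat_lit 194479894476) (nat_lit 152) (nat_lit 1296887882040) (nat_lit 76) (nat_lit 1203466731775) (nat_lit 17) (nat_lit 5) (nat_lit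 19) (nat_lit 5) (nat_lit 18) (nat_lit 4) (nat_lit 439) (nat_lit 400) (nat_lit 181))) (XT.nd (nat_lit 78) (nat_lit 76) (nat_lit 0) (XT.lf (nat_lit 0) (nat_lit 789657066869) (nat_lit 152) (nat_lit 58919369497) (nat_lit 76) (nat_lit 2005206403981) (nat_lit 17) (nat_lit 5) (nat_lit 19) (nat_lit 5) (nat_lit 18) (nat_lit 4) (nat_lit 440) (nat_lit 400) (nat_lit 180)) (XT.nd (nat_lit 78) (nat_lit 0) (nat_lit 0) (XT.lf (nat_lit 0) (nat_lit 1345388391083) (nat_lit 76) (nat_lit 119416640290) (nat_lit 152) (nat_lit 1558053478130) (nat_lit 16) (nat_lit 5) (nat_lit 17) (nat_lit 5) (nat_lit 18) (nat_lit 4) (nat_lit 441) (nat_lit 400) (nat_lit 179)) (XT.lf (nat_lit 0) (nat_lit 2211684873742) (nat_lit 152) (nat_lit 356048880849) (nat_lit 0) (nat_lit 636308874345) (nat_lit 16) (nat_lit 5) (nat_lit 18) (nat_lit 4) (nat_lit 16) (nat_lit 4) (nat_lit 442) (nat_lit 400) (nat_lit 178))))))) (XT.nd (nat_lit 49920)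 (nat_lit 0) (nat_lit 2964) (XT.nd (nat_lit 390) (nat_lit 228) (nat_lit 0) (XT.nd (nat_lit 156) (nat_lit 76) (nat_lit 0) (XT.nd (nat_lit 78) (nat_lit 76) (nat_lit 0) (XT.lf (nat_lit 0) (nat_lit 1124222477770) (nat_lit 76) (nat_lit 1924231929830) (nat_lit 76) (nat_lit 348855925997) (nat_lit 15) (nat_lit 4) (nat_lit 16) (nat_lit 5) (nat_lit 16) (nat_lit 4) (nat_lit 443) (nat_lit 400) (nat_lit 177)) (XT.lf (nat_lit 0) (nat_lit 338799283000) (nat_lit 152) (nat_lit 870673499297) (nat_lit 76) (nat_lit 2395101696326) (nat_lit 14) (nat_lit 5) (nat_lit 16) (nat_lit 5) (nat_lit 15) (nat_lit 4) (nat_lit 444) (nat_lit 400) (nat_lit 176))) (XT.nd (nat_lit 78) (nat_lit 0) (nat_lit 0) (XT.lf (nat_lit 0) (nat_lit 668304081796) (nat_lit 76) (nat_lit 410388270866) (nat_lit 152) (nat_lit 2747716689149) (nat_lit 13) (nat_lit 5) (nat_lit 14) (nat_lit 5) (nat_lit 15) (nat_lit 4) (nat_lit 445) (nat_lit 400) (nat_lit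 175)) (XT.nd (nat_lit 78) (nat_lit 0) (nat_lit 0) (XT.lf (nat_lit 0) (nat_lit 1913086545671) (nat_lit 152) (nat_lit 1695674000106) (nat_lit 0) (nat_lit 454405050056) (nat_lit 13) (nat_lit 5) (nat_lit 15) (nat_lit 4) (nat_lit 13) (nat_lit 4) (nat_lit 446) (nat_lit 400) (nat_lit 174)) (XT.lf (nat_lit 0) (nat_lit 2824891705958) (nat_lit 152) (nat_lit 126908006348) (nat_lit 0) (nat_lit 1366210207325) (nat_lit 13) (nat_lit 5) (nat_lit 15) (nat_lit 4) (nat_lit 13) (nat_lit 4) (nat_lit 447) (nat_lit 400) (nat_lit 173))))) (XT.nd (nat_lit 156) (nat_lit 76) (nat_lit 0) (XT.nd (nat_lit 78) (nat_lit 76) (nat_lit 0) (XT.lf (nat_lit 0) (nat_lit 1649893621156) (nat_lit 76) (nat_lit 2199427635692) (nat_lit 76) (nat_lit 740746134263) (nat_lit 12) (nat_lit 4) (nat_lit 13) (nat_lit 5) (nat_lit 13) (nat_lit 4) (nat_lit 448) (nat_lit 400) (nat_lit 172)) (XT.lf (nat_lit 0) (nat_lit 71783212077) (nat_lit 152)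 (nat_lit 1309372422896) (nat_lit 76) (nat_lit 3502310850703) (nat_lit 11) (nat_lit 5) (nat_lit 13) (nat_lit 5) (nat_lit 12) (nat_lit 4) (nat_lit 449) (nat_lit 400) (nat_lit 171))) (XT.nd (nat_lit 78) (nat_lit 0) (nat_lit 0) (XT.lf (nat_lit 0) (nat_lit 455435599507) (nat_lit 76) (nat_lit 464813009108) (nat_lit 152) (nat_lit 4277673427734) (nat_lit 10) (nat_lit 5) (nat_lit 11) (nat_lit 5) (nat_lit 12) (nat_lit 4) (nat_lit 450) (nat_lit 400) (nat_lit 170)) (XT.nd (nat_lit 49218) (nat_lit 0) (nat_lit 3876) (XT.lf (nat_lit 0) (nat_lit 1885944023980) (nat_lit 152) (nat_lit 3112328786660) (nat_lit 0) (nat_lit 535312997468) (nat_lit 10) (nat_lit 5) (nat_lit 12) (nat_lit 4) (nat_lit 10) (nat_lit 4) (nat_lit 451) (nat_lit 400) (nat_lit 169)) (XT.lf (nat_lit 0) (nat_lit 188459482366) (nat_lit 532) (nat_lit 17026040281) (nat_lit 532) (nat_lit 17026040281) (nat_lit 61) (nat_lit 3) (nat_lit 68) (nat_lit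 3) (nat_lit 68) (nat_lit 5) (nat_lit 401) (nat_lit 401) (nat_lit 218)))))) (XT.nd (nat_lit 390) (nat_lit 532) (nat_lit 0) (XT.nd (nat_lit 156) (nat_lit 380) (nat_lit 0) (XT.nd (nat_lit 78) (nat_lit 0) (nat_lit 76) (XT.lf (nat_lit 76) (nat_lit 189975255320) (nat_lit 0) (nat_lit 206589685630) (nat_lit 532) (nat_lit 65893572156) (nat_lit 62) (nat_lit 5) (nat_lit 61) (nat_lit 3) (nat_lit 68) (nat_lit 5) (nat_lit 402) (nat_lit 401) (nat_lit 217)) (XT.lf (nat_lit 0) (nat_lit 419077911374) (nat_lit 456) (nat_lit 47717220944) (nat_lit 532) (nat_lit 14389973765) (nat_lit 62) (nat_lit 5) (nat_lit 68) (nat_lit 5) (nat_lit 69) (nat_lit 5) (nat_lit 403) (nat_lit 401) (nat_lit 216))) (XT.nd (nat_lit 78) (nat_lit 456) (nat_lit 0) (XT.lf (nat_lit 76) (nat_lit 199651490217) (nat_lit 0) (nat_lit 253907989582) (nat_lit 532) (nat_lit 47036941904) (nat_lit 63) (nat_lit 5) (nat_lit 62) (nat_lit 5) (nat_lit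 69) (nat_lit 5) (nat_lit 404) (nat_lit 401) (nat_lit 215)) (XT.nd (nat_lit 78) (nat_lit 456) (nat_lit 0) (XT.lf (nat_lit 76) (nat_lit 469523400485) (nat_lit 0) (nat_lit 22580819640) (nat_lit 532) (nat_lit 29352050765) (nat_lit 63) (nat_lit 5) (nat_lit 62) (nat_lit 5) (nat_lit 69) (nat_lit 5) (nat_lit 405) (nat_lit 401) (nat_lit 214)) (XT.lf (nat_lit 0) (nat_lit 1362267051) (nat_lit 532) (nat_lit 320479988328) (nat_lit 608) (nat_lit 221274236606) (nat_lit 56) (nat_lit 5) (nat_lit 63) (nat_lit 5) (nat_lit 64) (nat_lit 5) (nat_lit 406) (nat_lit 401) (nat_lit 213))))) (XT.nd (nat_lit 156) (nat_lit 532) (nat_lit 0) (XT.nd (nat_lit 78) (nat_lit 0) (nat_lit 76) (XT.lf (nat_lit 0) (nat_lit 34991266121) (nat_lit 532) (nat_lit 45656847104) (nat_lit 608) (nat_lit 485636961578) (nat_lit 56) (nat_lit 5) (nat_lit 63) (nat_lit 5) (nat_lit 64) (nat_lit 5) (nat_lit 407) (nat_lit 401) (nat_lit 212)) (XT.lf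 (nat_lit 0) (nat_lit 82159188680) (nat_lit 532) (nat_lit 330911474877) (nat_lit 76) (nat_lit 177368592426) (nat_lit 57) (nat_lit 5) (nat_lit 64) (nat_lit 5) (nat_lit 58) (nat_lit 5) (nat_lit 408) (nat_lit 401) (nat_lit 211))) (XT.nd (nat_lit 78) (nat_lit 608) (nat_lit 0) (XT.lf (nat_lit 0) (nat_lit 136476043775) (nat_lit 532) (nat_lit 26829380080) (nat_lit 76) (nat_lit 452950307927) (nat_lit 57) (nat_lit 5) (nat_lit 64) (nat_lit 5) (nat_lit 58) (nat_lit 5) (nat_lit 409) (nat_lit 401) (nat_lit 210)) (XT.nd (nat_lit 78) (nat_lit 228) (nat_lit 0) (XT.lf (nat_lit 0) (nat_lit 205531364981) (nat_lit 456) (nat_lit 328825059336) (nat_lit 76) (nat_lit 108949651931) (nat_lit 52) (nat_lit 5) (nat_lit 58) (nat_lit 5) (nat_lit 53) (nat_lit 5) (nat_lit 410) (nat_lit 401) (nat_lit 209)) (XT.lf (nat_lit 0) (nat_lit 8315495438) (nat_lit 228) (nat_lit 276989901618) (nat_lit 304) (nat_lit 386799508422) (nat_lit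 49) (nat_lit 5) (nat_lit 52) (nat_lit 5) (nat_lit 53) (nat_lit 5) (nat_lit 411) (nat_lit 401) (nat_lit 208))))))))
noncomputable def xc230 : XT := (XT.nd (nat_lit 1482) (nat_lit 1140) (nat_lit 0) (XT.nd (nat_lit 702) (nat_lit 912) (nat_lit 0) (XT.nd (nat_lit 312) (nat_lit 456) (nat_lit 0) (XT.nd (nat_lit 156) (nat_lit 152) (nat_lit 0) (XT.nd (nat_lit 78) (nat_lit 228) (nat_lit 0) (XT.lf (nat_lit 0) (nat_lit 380708748612) (nat_lit 304) (nat_lit 311617296099) (nat_lit 76) (nat_lit 10141804599) (nat_lit 49) (nat_lit 5) (nat_lit 53) (nat_lit 5) (nat_lit 50) (nat_lit 5) (nat_lit 412) (nat_lit 401) (nat_lit 207)) (XT.lf (nat_lit 0) (nat_lit 64774297941) (nat_lit 228) (nat_lit 427722420451) (nat_lit 304) (nat_lit 242062922264) (nat_lit 46) (nat_lit 5) (nat_lit 49) (nat_lit 5) (nat_lit 50) (nat_lit 5) (nat_lit 413) (nat_lit 401) (nat_lit 206))) (XT.nd (nat_lit 78) (nat_lit 152) (nat_lit 0) (XT.lf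 (nat_lit 0) (nat_lit 488999152891) (nat_lit 228) (nat_lit 132748726511) (nat_lit 304) (nat_lit 146789283632) (nat_lit 46) (nat_lit 5) (nat_lit 49) (nat_lit 5) (nat_lit 50) (nat_lit 5) (nat_lit 414) (nat_lit 401) (nat_lit 205)) (XT.lf (nat_lit 0) (nat_lit 144698449073) (nat_lit 152) (nat_lit 624589715343) (nat_lit 228) (nat_lit 35308800310) (nat_lit 44) (nat_lit 5) (nat_lit 46) (nat_lit 5) (nat_lit 47) (nat_lit 5) (nat_lit 415) (nat_lit 401) (nat_lit 204)))) (XT.nd (nat_lit 156) (nat_lit 152) (nat_lit 0) (XT.nd (nat_lit 78) (nat_lit 228) (nat_lit 0) (XT.lf (nat_lit 0) (nat_lit 92123159674) (nat_lit 228) (nat_lit 229851683923) (nat_lit 76) (nat_lit 520499826170) (nat_lit 43) (nat_lit 5) (nat_lit 46) (nat_lit 5) (nat_lit 44) (nat_lit 5) (nat_lit 416) (nat_lit 401) (nat_lit 203)) (XT.lf (nat_lit 0) (nat_lit 234052172110) (nat_lit 304) (nat_lit 637143017507) (nat_lit 76) (nat_lit 11617225631)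 (nat_lit 40) (nat_lit 5) (nat_lit 44) (nat_lit 5) (nat_lit 41) (nat_lit 5) (nat_lit 417) (nat_lit 401) (nat_lit 202))) (XT.nd (nat_lit 78) (nat_lit 152) (nat_lit 0) (XT.lf (nat_lit 0) (nat_lit 402146263395) (nat_lit 304) (nat_lit 162096616893) (nat_lit 76) (nat_lit 360949439461) (nat_lit 40) (nat_lit 5) (nat_lit 44) (nat_lit 5) (nat_lit 41) (nat_lit 5) (nat_lit 418) (nat_lit 401) (nat_lit 201)) (XT.nd (nat_lit 78) (nat_lit 0) (nat_lit 0) (XT.lf (nat_lit 0) (nat_lit 369434067848) (nat_lit 152) (nat_lit 223138700690) (nat_lit 228) (nat_lit 377679057158) (nat_lit 38) (nat_lit 5) (nat_lit 40) (nat_lit 5) (nat_lit 41) (nat_lit 5) (nat_lit 419) (nat_lit 401) (nat_lit 200)) (XT.lf (nat_lit 0) (nat_lit 806273866384) (nat_lit 228) (nat_lit 69464237222) (nat_lit 76) (nat_lit 142534750737) (nat_lit 38) (nat_lit 5) (nat_lit 41) (nat_lit 5) (nat_lit 39) (nat_lit 5) (nat_lit 420) (nat_lit 401) (nat_lit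 199)))))) (XT.nd (nat_lit 390) (nat_lit 380) (nat_lit 0) (XT.nd (nat_lit 156) (nat_lit 152) (nat_lit 0) (XT.nd (nat_lit 78) (nat_lit 228) (nat_lit 0) (XT.lf (nat_lit 0) (nat_lit 524857223275) (nat_lit 152) (nat_lit 530632457581) (nat_lit 228) (nat_lit 13172394132) (nat_lit 36) (nat_lit 5) (nat_lit 38) (nat_lit 5) (nat_lit 39) (nat_lit 5) (nat_lit 421) (nat_lit 401) (nat_lit 198)) (XT.lf (nat_lit 0) (nat_lit 45103798691) (nat_lit 152) (nat_lit 149407008930) (nat_lit 228) (nat_lit 927941155667) (nat_lit 33) (nat_lit 5) (nat_lit 35) (nat_lit 5) (nat_lit 36) (nat_lit 5) (nat_lit 422) (nat_lit 401) (nat_lit 197))) (XT.nd (nat_lit 78) (nat_lit 152) (nat_lit 0) (XT.lf (nat_lit 0) (nat_lit 439660507059) (nat_lit 228) (nat_lit 474340821245) (nat_lit 76) (nat_lit 264791263708) (nat_lit 33) (nat_lit 5) (nat_lit 36) (nat_lit 5) (nat_lit 34) (nat_lit 5) (nat_lit 423) (nat_lit 401) (nat_lit 196)) (XT.nd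 (nat_lit 78) (nat_lit 0) (nat_lit 0) (XT.lf (nat_lit 0) (nat_lit 182137656657) (nat_lit 152) (nat_lit 530545633059) (nat_lit 228) (nat_lit 526296292744) (nat_lit 31) (nat_lit 5) (nat_lit 33) (nat_lit 5) (nat_lit 34) (nat_lit 5) (nat_lit 424) (nat_lit 401) (nat_lit 195)) (XT.lf (nat_lit 0) (nat_lit 918110581335) (nat_lit 152) (nat_lit 102406623363) (nat_lit 228) (nat_lit 282426782673) (nat_lit 31) (nat_lit 5) (nat_lit 33) (nat_lit 5) (nat_lit 34) (nat_lit 5) (nat_lit 425) (nat_lit 401) (nat_lit 194))))) (XT.nd (nat_lit 156) (nat_lit 228) (nat_lit 0) (XT.nd (nat_lit 78) (nat_lit 76) (nat_lit 0) (XT.lf (nat_lit 0) (nat_lit 349775349113) (nat_lit 76) (nat_lit 1020272192929) (nat_lit 152) (nat_lit 612425906) (nat_lit 30) (nat_lit 5) (nat_lit 31) (nat_lit 5) (nat_lit 32) (nat_lit 4) (nat_lit 426) (nat_lit 401) (nat_lit 193)) (XT.lf (nat_lit 0) (nat_lit 302007651002) (nat_lit 152) (nat_lit 288151193440)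 (nat_lit 76) (nat_lit 851973554112) (nat_lit 29) (nat_lit 5) (nat_lit 31) (nat_lit 5) (nat_lit 30) (nat_lit 5) (nat_lit 427) (nat_lit 401) (nat_lit 192))) (XT.nd (nat_lit 78) (nat_lit 76) (nat_lit 0) (XT.lf (nat_lit 0) (nat_lit 529681815639) (nat_lit 152) (nat_lit 111861284224) (nat_lit 228) (nat_lit 876759142961) (nat_lit 27) (nat_lit 5) (nat_lit 29) (nat_lit 5) (nat_lit 30) (nat_lit 5) (nat_lit 428) (nat_lit 401) (nat_lit 191)) (XT.nd (nat_lit 78) (nat_lit 76) (nat_lit 0) (XT.lf (nat_lit 0) (nat_lit 1026057626067) (nat_lit 228) (nat_lit 180544208038) (nat_lit 76) (nat_lit 392538541217) (nat_lit 27) (nat_lit 5) (nat_lit 30) (nat_lit 5) (nat_lit 28) (nat_lit 4) (nat_lit 429) (nat_lit 401) (nat_lit 190)) (XT.lf (nat_lit 0) (nat_lit 725568482802) (nat_lit 76) (nat_lit 736120251937) (nat_lit 152) (nat_lit 223128390057) (nat_lit 26) (nat_lit 5) (nat_lit 27) (nat_lit 5) (nat_lit 28) (nat_lit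 4) (nat_lit 430) (nat_lit 401) (nat_lit 189))))))) (XT.nd (nat_lit 780) (nat_lit 456) (nat_lit 0) (XT.nd (nat_lit 390) (nat_lit 304) (nat_lit 0) (XT.nd (nat_lit 156) (nat_lit 152) (nat_lit 0) (XT.nd (nat_lit 78) (nat_lit 152) (nat_lit 0) (XT.lf (nat_lit 0) (nat_lit 152142088314) (nat_lit 152) (nat_lit 66366915034) (nat_lit 76) (nat_lit 1558135963660) (nat_lit 25) (nat_lit 5) (nat_lit 27) (nat_lit 5) (nat_lit 26) (nat_lit 5) (nat_lit 431) (nat_lit 401) (nat_lit 188)) (XT.lf (nat_lit 0) (nat_lit 576892026600) (nat_lit 228) (nat_lit 943346170372) (nat_lit 76) (nat_lit 352596192199) (nat_lit 23) (nat_lit 5) (nat_lit 26) (nat_lit 5) (nat_lit 24) (nat_lit 4) (nat_lit 432) (nat_lit 401) (nat_lit 187))) (XT.nd (nat_lit 78) (nat_lit 76) (nat_lit 0) (XT.lf (nat_lit 0) (nat_lit 27884504468) (nat_lit 76) (nat_lit 1015945351945) (nat_lit 152) (nat_lit 932232476981) (nat_lit 22) (nat_lit 5) (nat_lit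 23) (nat_lit 5) (nat_lit 24) (nat_lit 4) (nat_lit 433) (nat_lit 401) (nat_lit 186)) (XT.nd (nat_lit 78) (nat_lit 76) (nat_lit 0) (XT.lf (nat_lit 0) (nat_lit 1130462554881) (nat_lit 76) (nat_lit 443452907664) (nat_lit 152) (nat_lit 511569630616) (nat_lit 22) (nat_lit 5) (nat_lit 23) (nat_lit 5) (nat_lit 24) (nat_lit 4) (nat_lit 434) (nat_lit 401) (nat_lit 185)) (XT.lf (nat_lit 0) (nat_lit 119350689418) (nat_lit 76) (nat_lit 2034132489452) (nat_lit 76) (nat_lit 49612473905) (nat_lit 21) (nat_lit 4) (nat_lit 22) (nat_lit 5) (nat_lit 22) (nat_lit 4) (nat_lit 435) (nat_lit 401) (nat_lit 184))))) (XT.nd (nat_lit 156) (nat_lit 152) (nat_lit 0) (XT.nd (nat_lit 78) (nat_lit 76) (nat_lit 0) (XT.lf (nat_lit 0) (nat_lit 465133881104) (nat_lit 152) (nat_lit 1017041551060) (nat_lit 76) (nat_lit 844010488979) (nat_lit 20) (nat_lit 5) (nat_lit 22) (nat_lit 5) (nat_lit 21) (nat_lit 4) (nat_lit 436) (nat_lit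 401) (nat_lit 183)) (XT.lf (nat_lit 0) (nat_lit 140750393472) (nat_lit 76) (nat_lit 881014233850) (nat_lit 152) (nat_lit 1436984889201) (nat_lit 19) (nat_lit 5) (nat_lit 20) (nat_lit 5) (nat_lit 21) (nat_lit 4) (nat_lit 437) (nat_lit 401) (nat_lit 182))) (XT.nd (nat_lit 78) (nat_lit 152) (nat_lit 0) (XT.lf (nat_lit 0) (nat_lit 1449005738212) (nat_lit 76) (nat_lit 201727808235) (nat_lit 152) (nat_lit 948960036032) (nat_lit 19) (nat_lit 5) (nat_lit 20) (nat_lit 5) (nat_lit 21) (nat_lit 4) (nat_lit 438) (nat_lit 401) (nat_lit 181)) (XT.nd (nat_lit 78) (nat_lit 76) (nat_lit 0) (XT.lf (nat_lit 0) (nat_lit 102335309731) (nat_lit 76) (nat_lit 2242938075789) (nat_lit 76) (nat_lit 405419515680) (nat_lit 18) (nat_lit 4) (nat_lit 19) (nat_lit 5) (nat_lit 19) (nat_lit 4) (nat_lit 439) (nat_lit 401) (nat_lit 180)) (XT.lf (nat_lit 0) (nat_lit 210038380517) (nat_lit 152) (nat_lit 1400638734220) (nat_lit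 76) (nat_lit 1299744146634) (nat_lit 17) (nat_lit 5) (nat_lit 19) (nat_lit 5) (nat_lit 18) (nat_lit 4) (nat_lit 440) (nat_lit 401) (nat_lit 179)))))) (XT.nd (nat_lit 390) (nat_lit 228) (nat_lit 0) (XT.nd (nat_lit 156) (nat_lit 152) (nat_lit 0) (XT.nd (nat_lit 78) (nat_lit 76) (nat_lit 0) (XT.lf (nat_lit 0) (nat_lit 852829719703) (nat_lit 152) (nat_lit 63632753887) (nat_lit 76) (nat_lit 2165622986963) (nat_lit 17) (nat_lit 5) (nat_lit 19) (nat_lit 5) (nat_lit 18) (nat_lit 4) (nat_lit 441) (nat_lit 401) (nat_lit 178)) (XT.lf (nat_lit 0) (nat_lit 1453019623357) (nat_lit 76) (nat_lit 128969895401) (nat_lit 152) (nat_lit 1682697664694) (nat_lit 16) (nat_lit 5) (nat_lit 17) (nat_lit 5) (nat_lit 18) (nat_lit 4) (nat_lit 442) (nat_lit 401) (nat_lit 177))) (XT.nd (nat_lit 78) (nat_lit 152) (nat_lit 0) (XT.lf (nat_lit 0) (nat_lit 2388619743924) (nat_lit 152) (nat_lit 384532637642) (nat_lit 0) (nat_lit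 687213651242) (nat_lit 16) (nat_lit 5) (nat_lit 18) (nat_lit 4) (nat_lit 16) (nat_lit 4) (nat_lit 443) (nat_lit 401) (nat_lit 176)) (XT.nd (nat_lit 78) (nat_lit 76) (nat_lit 0) (XT.lf (nat_lit 0) (nat_lit 1214160425775) (nat_lit 76) (nat_lit 2078170412370) (nat_lit 76) (nat_lit 376764315885) (nat_lit 15) (nat_lit 4) (nat_lit 16) (nat_lit 5) (nat_lit 16) (nat_lit 4) (nat_lit 444) (nat_lit 401) (nat_lit 175)) (XT.lf (nat_lit 0) (nat_lit 365903299696) (nat_lit 152) (nat_lit 940327236637) (nat_lit 76) (nat_lit 2586709894640) (nat_lit 14) (nat_lit 5) (nat_lit 16) (nat_lit 5) (nat_lit 15) (nat_lit 4) (nat_lit 445) (nat_lit 401) (nat_lit 174))))) (XT.nd (nat_lit 156) (nat_lit 152) (nat_lit 0) (XT.nd (nat_lit 78) (nat_lit 0) (nat_lit 0) (XT.lf (nat_lit 0) (nat_lit 721768547334) (nat_lit 76) (nat_lit 443219265454) (nat_lit 152) (nat_lit 2967533946601) (nat_lit 13) (nat_lit 5) (nat_lit 14) (nat_lit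 5) (nat_lit 15) (nat_lit 4) (nat_lit 446) (nat_lit 401) (nat_lit 173)) (XT.lf (nat_lit 0) (nat_lit 2066133537405) (nat_lit 152) (nat_lit 1831327787570) (nat_lit 0) (nat_lit 490757513066) (nat_lit 13) (nat_lit 5) (nat_lit 15) (nat_lit 4) (nat_lit 13) (nat_lit 4) (nat_lit 447) (nat_lit 401) (nat_lit 172))) (XT.nd (nat_lit 78) (nat_lit 152) (nat_lit 0) (XT.lf (nat_lit 0) (nat_lit 3050883105472) (nat_lit 152) (nat_lit 137060524129) (nat_lit 0) (nat_lit 1475507078545) (nat_lit 13) (nat_lit 5) (nat_lit 15) (nat_lit 4) (nat_lit 13) (nat_lit 4) (nat_lit 448) (nat_lit 401) (nat_lit 171)) (XT.nd (nat_lit 78) (nat_lit 76) (nat_lit 0) (XT.lf (nat_lit 0) (nat_lit 1781885230468) (nat_lit 76) (nat_lit 2375381788172) (nat_lit 76) (nat_lit 800005758848) (nat_lit 12) (nat_lit 4) (nat_lit 13) (nat_lit 5) (nat_lit 13) (nat_lit 4) (nat_lit 449) (nat_lit 401) (nat_lit 170)) (XT.lf (nat_lit 0) (nat_lit 77525927234)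 (nat_lit 152) (nat_lit 1414122102894) (nat_lit 76) (nat_lit 3782495769737) (nat_lit 11) (nat_lit 5) (nat_lit 13) (nat_lit 5) (nat_lit 12) (nat_lit 4) (nat_lit 450) (nat_lit 401) (nat_lit 169))))))))
noncomputable def xc231 : XT := (XT.nd (nat_lit 50700) (nat_lit 0) (nat_lit 684) (XT.nd (nat_lit 49920) (nat_lit 0) (nat_lit 2280) (XT.nd (nat_lit 49530) (nat_lit 0) (nat_lit 3496) (XT.nd (nat_lit 49374) (nat_lit 0) (nat_lit 3876) (XT.nd (nat_lit 49296) (nat_lit 0) (nat_lit 3876) (XT.lf (nat_lit 0) (nat_lit 491870558419) (nat_lit 76) (nat_lit 501997995434) (nat_lit 152) (nat_lit 4619887240871) (nat_lit 10) (nat_lit 5) (nat_lit 11) (nat_lit 5) (nat_lit 12) (nat_lit 4) (nat_lit 451) (nat_lit 401) (nat_lit 168)) (XT.lf (nat_lit 0) (nat_lit 203536541713) (nat_lit 532) (nat_lit 18387960911) (nat_lit 532) (nat_lit 18387960911) (nat_lit 61) (nat_lit 3) (nat_lit 68) (nat_lit 3) (nat_lit 68) (nat_lit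 5) (nat_lit 402) (nat_lit 402) (nat_lit 216))) (XT.nd (nat_lit 78) (nat_lit 0) (nat_lit 76) (XT.lf (nat_lit 76) (nat_lit 205173592699) (nat_lit 0) (nat_lit 223117108109) (nat_lit 532) (nat_lit 71164447500) (nat_lit 62) (nat_lit 5) (nat_lit 61) (nat_lit 3) (nat_lit 68) (nat_lit 5) (nat_lit 403) (nat_lit 402) (nat_lit 215)) (XT.lf (nat_lit 0) (nat_lit 452604661530) (nat_lit 456) (nat_lit 51534257180) (nat_lit 532) (nat_lit 15540953850) (nat_lit 62) (nat_lit 5) (nat_lit 68) (nat_lit 5) (nat_lit 69) (nat_lit 5) (nat_lit 404) (nat_lit 402) (nat_lit 214)))) (XT.nd (nat_lit 156) (nat_lit 456) (nat_lit 0) (XT.nd (nat_lit 78) (nat_lit 0) (nat_lit 0) (XT.lf (nat_lit 76) (nat_lit 215623942230) (nat_lit 0) (nat_lit 274220782887) (nat_lit 532) (nat_lit 50799370783) (nat_lit 63) (nat_lit 5) (nat_lit 62) (nat_lit 5) (nat_lit 69) (nat_lit 5) (nat_lit 405) (nat_lit 402) (nat_lit 213)) (XT.lf (nat_lit 76)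 (nat_lit 507085580669) (nat_lit 0) (nat_lit 24387427932) (nat_lit 532) (nat_lit 31699727351) (nat_lit 63) (nat_lit 5) (nat_lit 62) (nat_lit 5) (nat_lit 69) (nat_lit 5) (nat_lit 406) (nat_lit 402) (nat_lit 212))) (XT.nd (nat_lit 78) (nat_lit 0) (nat_lit 0) (XT.lf (nat_lit 0) (nat_lit 1471682315) (nat_lit 532) (nat_lit 346118024712) (nat_lit 608) (nat_lit 238976069142) (nat_lit 56) (nat_lit 5) (nat_lit 63) (nat_lit 5) (nat_lit 64) (nat_lit 5) (nat_lit 407) (nat_lit 402) (nat_lit 211)) (XT.nd (nat_lit 78) (nat_lit 0) (nat_lit 76) (XT.lf (nat_lit 0) (nat_lit 37790969170) (nat_lit 532) (nat_lit 49309059055) (nat_lit 608) (nat_lit 524487819993) (nat_lit 56) (nat_lit 5) (nat_lit 63) (nat_lit 5) (nat_lit 64) (nat_lit 5) (nat_lit 408) (nat_lit 402) (nat_lit 210)) (XT.lf (nat_lit 0) (nat_lit 88732302381) (nat_lit 532) (nat_lit 357384033501) (nat_lit 76) (nat_lit 191558029894) (nat_lit 57) (nat_lit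 5) (nat_lit 64) (nat_lit 5) (nat_lit 58) (nat_lit 5) (nat_lit 409) (nat_lit 402) (nat_lit 209)))))) (XT.nd (nat_lit 390) (nat_lit 456) (nat_lit 0) (XT.nd (nat_lit 156) (nat_lit 456) (nat_lit 0) (XT.nd (nat_lit 78) (nat_lit 380) (nat_lit 0) (XT.lf (nat_lit 0) (nat_lit 147394477840) (nat_lit 532) (nat_lit 28975397740) (nat_lit 76) (nat_lit 489186286333) (nat_lit 57) (nat_lit 5) (nat_lit 64) (nat_lit 5) (nat_lit 58) (nat_lit 5) (nat_lit 410) (nat_lit 402) (nat_lit 208)) (XT.lf (nat_lit 0) (nat_lit 221974206381) (nat_lit 456) (nat_lit 355130712634) (nat_lit 76) (nat_lit 117665616417) (nat_lit 52) (nat_lit 5) (nat_lit 58) (nat_lit 5) (nat_lit 53) (nat_lit 5) (nat_lit 411) (nat_lit 402) (nat_lit 207))) (XT.nd (nat_lit 78) (nat_lit 228) (nat_lit 0) (XT.lf (nat_lit 0) (nat_lit 8981077625) (nat_lit 228) (nat_lit 299149067028) (nat_lit 304) (nat_lit 417743127682) (nat_lit 49) (nat_lit 5) (nat_lit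 52) (nat_lit 5) (nat_lit 53) (nat_lit 5) (nat_lit 412) (nat_lit 402) (nat_lit 206)) (XT.nd (nat_lit 78) (nat_lit 228) (nat_lit 0) (XT.lf (nat_lit 0) (nat_lit 411165741533) (nat_lit 304) (nat_lit 336546339519) (nat_lit 76) (nat_lit 10953172469) (nat_lit 49) (nat_lit 5) (nat_lit 53) (nat_lit 5) (nat_lit 50) (nat_lit 5) (nat_lit 413) (nat_lit 402) (nat_lit 205)) (XT.lf (nat_lit 0) (nat_lit 69956573430) (nat_lit 228) (nat_lit 461940161735) (nat_lit 304) (nat_lit 261427654129) (nat_lit 46) (nat_lit 5) (nat_lit 49) (nat_lit 5) (nat_lit 50) (nat_lit 5) (nat_lit 414) (nat_lit 402) (nat_lit 204))))) (XT.nd (nat_lit 156) (nat_lit 304) (nat_lit 0) (XT.nd (nat_lit 78) (nat_lit 152) (nat_lit 0) (XT.lf (nat_lit 0) (nat_lit 528119392210) (nat_lit 228) (nat_lit 143368576157) (nat_lit 304) (nat_lit 158532146770) (nat_lit 46) (nat_lit 5) (nat_lit 49) (nat_lit 5) (nat_lit 50) (nat_lit 5) (nat_lit 415) (nat_lit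 402) (nat_lit 203)) (XT.lf (nat_lit 0) (nat_lit 156274643584) (nat_lit 152) (nat_lit 674556822183) (nat_lit 228) (nat_lit 38133236050) (nat_lit 44) (nat_lit 5) (nat_lit 46) (nat_lit 5) (nat_lit 47) (nat_lit 5) (nat_lit 416) (nat_lit 402) (nat_lit 202))) (XT.nd (nat_lit 78) (nat_lit 228) (nat_lit 0) (XT.lf (nat_lit 0) (nat_lit 99493248433) (nat_lit 228) (nat_lit 248239511025) (nat_lit 76) (nat_lit 562139864812) (nat_lit 43) (nat_lit 5) (nat_lit 46) (nat_lit 5) (nat_lit 44) (nat_lit 5) (nat_lit 417) (nat_lit 402) (nat_lit 201)) (XT.nd (nat_lit 78) (nat_lit 0) (nat_lit 0) (XT.lf (nat_lit 0) (nat_lit 252776573377) (nat_lit 304) (nat_lit 688114142625) (nat_lit 76) (nat_lit 12546674083) (nat_lit 40) (nat_lit 5) (nat_lit 44) (nat_lit 5) (nat_lit 41) (nat_lit 5) (nat_lit 418) (nat_lit 402) (nat_lit 200)) (XT.lf (nat_lit 0) (nat_lit 434318175113) (nat_lit 304) (nat_lit 175064053390) (nat_lit 76)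 (nat_lit 389825459805) (nat_lit 40) (nat_lit 5) (nat_lit 44) (nat_lit 5) (nat_lit 41) (nat_lit 5) (nat_lit 419) (nat_lit 402) (nat_lit 199))))))) (XT.nd (nat_lit 780) (nat_lit 608) (nat_lit 0) (XT.nd (nat_lit 390) (nat_lit 456) (nat_lit 0) (XT.nd (nat_lit 156) (nat_lit 380) (nat_lit 0) (XT.nd (nat_lit 78) (nat_lit 0) (nat_lit 0) (XT.lf (nat_lit 0) (nat_lit 398989078716) (nat_lit 152) (nat_lit 240989713213) (nat_lit 228) (nat_lit 407893163513) (nat_lit 38) (nat_lit 5) (nat_lit 40) (nat_lit 5) (nat_lit 41) (nat_lit 5) (nat_lit 420) (nat_lit 402) (nat_lit 198)) (XT.lf (nat_lit 0) (nat_lit 870775964507) (nat_lit 228) (nat_lit 75021098661) (nat_lit 76) (nat_lit 153937604272) (nat_lit 38) (nat_lit 5) (nat_lit 41) (nat_lit 5) (nat_lit 39) (nat_lit 5) (nat_lit 421) (nat_lit 402) (nat_lit 197))) (XT.nd (nat_lit 78) (nat_lit 228) (nat_lit 0) (XT.lf (nat_lit 0) (nat_lit 566846071649) (nat_lit 152)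 (nat_lit 573082965006) (nat_lit 228) (nat_lit 14225989690) (nat_lit 36) (nat_lit 5) (nat_lit 38) (nat_lit 5) (nat_lit 39) (nat_lit 5) (nat_lit 422) (nat_lit 402) (nat_lit 196)) (XT.nd (nat_lit 78) (nat_lit 0) (nat_lit 0) (XT.lf (nat_lit 0) (nat_lit 48712375928) (nat_lit 152) (nat_lit 161359475256) (nat_lit 228) (nat_lit 1002176254735) (nat_lit 33) (nat_lit 5) (nat_lit 35) (nat_lit 5) (nat_lit 36) (nat_lit 5) (nat_lit 423) (nat_lit 402) (nat_lit 195)) (XT.lf (nat_lit 0) (nat_lit 474833515423) (nat_lit 228) (nat_lit 512287822590) (nat_lit 76) (nat_lit 285974647829) (nat_lit 33) (nat_lit 5) (nat_lit 36) (nat_lit 5) (nat_lit 34) (nat_lit 5) (nat_lit 424) (nat_lit 402) (nat_lit 194))))) (XT.nd (nat_lit 156) (nat_lit 304) (nat_lit 0) (XT.nd (nat_lit 78) (nat_lit 0) (nat_lit 0) (XT.lf (nat_lit 0) (nat_lit 196708926852) (nat_lit 152) (nat_lit 572989187608) (nat_lit 228) (nat_lit 568399821572)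 (nat_lit 31) (nat_lit 5) (nat_lit 33) (nat_lit 5) (nat_lit 34) (nat_lit 5) (nat_lit 425) (nat_lit 402) (nat_lit 193)) (XT.lf (nat_lit 0) (nat_lit 991559666419) (nat_lit 152) (nat_lit 110599064255) (nat_lit 228) (nat_lit 305020763628) (nat_lit 31) (nat_lit 5) (nat_lit 33) (nat_lit 5) (nat_lit 34) (nat_lit 5) (nat_lit 426) (nat_lit 402) (nat_lit 192))) (XT.nd (nat_lit 78) (nat_lit 228) (nat_lit 0) (XT.lf (nat_lit 0) (nat_lit 377757619247) (nat_lit 76) (nat_lit 1101893872482) (nat_lit 152) (nat_lit 661261863) (nat_lit 30) (nat_lit 5) (nat_lit 31) (nat_lit 5) (nat_lit 32) (nat_lit 4) (nat_lit 427) (nat_lit 402) (nat_lit 191)) (XT.nd (nat_lit 78) (nat_lit 152) (nat_lit 0) (XT.lf (nat_lit 0) (nat_lit 326168402161) (nat_lit 152) (nat_lit 311203057254) (nat_lit 76) (nat_lit 920131519824) (nat_lit 29) (nat_lit 5) (nat_lit 31) (nat_lit 5) (nat_lit 30) (nat_lit 5) (nat_lit 428) (nat_lit 402) (nat_lit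 190)) (XT.lf (nat_lit 0) (nat_lit 572056586686) (nat_lit 152) (nat_lit 120810095373) (nat_lit 228) (nat_lit 946899729386) (nat_lit 27) (nat_lit 5) (nat_lit 29) (nat_lit 5) (nat_lit 30) (nat_lit 5) (nat_lit 429) (nat_lit 402) (nat_lit 189)))))) (XT.nd (nat_lit 390) (nat_lit 228) (nat_lit 0) (XT.nd (nat_lit 156) (nat_lit 304) (nat_lit 0) (XT.nd (nat_lit 78) (nat_lit 76) (nat_lit 0) (XT.lf (nat_lit 0) (nat_lit 1108142362459) (nat_lit 228) (nat_lit 194987527647) (nat_lit 76) (nat_lit 423941705076) (nat_lit 27) (nat_lit 5) (nat_lit 30) (nat_lit 5) (nat_lit 28) (nat_lit 4) (nat_lit 430) (nat_lit 402) (nat_lit 188)) (XT.lf (nat_lit 0) (nat_lit 783614172967) (nat_lit 76) (nat_lit 795009782589) (nat_lit 152) (nat_lit 240978529403) (nat_lit 26) (nat_lit 5) (nat_lit 27) (nat_lit 5) (nat_lit 28) (nat_lit 4) (nat_lit 431) (nat_lit 402) (nat_lit 187))) (XT.nd (nat_lit 78) (nat_lit 228) (nat_lit 0) (XT.lf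 (nat_lit 0) (nat_lit 164313571362) (nat_lit 152) (nat_lit 71676066209) (nat_lit 76) (nat_lit 1682786917469) (nat_lit 25) (nat_lit 5) (nat_lit 27) (nat_lit 5) (nat_lit 26) (nat_lit 5) (nat_lit 432) (nat_lit 402) (nat_lit 186)) (XT.nd (nat_lit 78) (nat_lit 76) (nat_lit 0) (XT.lf (nat_lit 0) (nat_lit 623043502895) (nat_lit 228) (nat_lit 1018813660112) (nat_lit 76) (nat_lit 380803968119) (nat_lit 23) (nat_lit 5) (nat_lit 26) (nat_lit 5) (nat_lit 24) (nat_lit 4) (nat_lit 433) (nat_lit 402) (nat_lit 185)) (XT.lf (nat_lit 0) (nat_lit 30115463554) (nat_lit 76) (nat_lit 1097220891861) (nat_lit 152) (nat_lit 1006810955768) (nat_lit 22) (nat_lit 5) (nat_lit 23) (nat_lit 5) (nat_lit 24) (nat_lit 4) (nat_lit 434) (nat_lit 402) (nat_lit 184))))) (XT.nd (nat_lit 156) (nat_lit 152) (nat_lit 0) (XT.nd (nat_lit 78) (nat_lit 76) (nat_lit 0) (XT.lf (nat_lit 0) (nat_lit 1220899743279) (nat_lit 76) (nat_lit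 478929058574) (nat_lit 152) (nat_lit 552495090536) (nat_lit 22) (nat_lit 5) (nat_lit 23) (nat_lit 5) (nat_lit 24) (nat_lit 4) (nat_lit 435) (nat_lit 402) (nat_lit 183)) (XT.lf (nat_lit 0) (nat_lit 128898930022) (nat_lit 76) (nat_lit 2196863004165) (nat_lit 76) (nat_lit 53581362694) (nat_lit 21) (nat_lit 4) (nat_lit 22) (nat_lit 5) (nat_lit 22) (nat_lit 4) (nat_lit 436) (nat_lit 402) (nat_lit 182))) (XT.nd (nat_lit 78) (nat_lit 76) (nat_lit 0) (XT.lf (nat_lit 0) (nat_lit 502344687578) (nat_lit 152) (nat_lit 1098404698346) (nat_lit 76) (nat_lit 911531401200) (nat_lit 20) (nat_lit 5) (nat_lit 22) (nat_lit 5) (nat_lit 21) (nat_lit 4) (nat_lit 437) (nat_lit 402) (nat_lit 181)) (XT.nd (nat_lit 78) (nat_lit 0) (nat_lit 0) (XT.lf (nat_lit 0) (nat_lit 152010597272) (nat_lit 76) (nat_lit 951495293256) (nat_lit 152) (nat_lit 1551943579847) (nat_lit 19) (nat_lit 5) (nat_lit 20) (nat_lit 5) (nat_lit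 21) (nat_lit 4) (nat_lit 438) (nat_lit 402) (nat_lit 180)) (XT.lf (nat_lit 0) (nat_lit 1564926356828) (nat_lit 76) (nat_lit 217865959465) (nat_lit 152) (nat_lit 1024876745868) (nat_lit 19) (nat_lit 5) (nat_lit 20) (nat_lit 5) (nat_lit 21) (nat_lit 4) (nat_lit 439) (nat_lit 402) (nat_lit 179))))))))
noncomputable def xc232 : XT := (XT.nd (nat_lit 50778) (nat_lit 0) (nat_lit 1444) (XT.nd (nat_lit 702) (nat_lit 152) (nat_lit 0) (XT.nd (nat_lit 312) (nat_lit 228) (nat_lit 0) (XT.nd (nat_lit 156) (nat_lit 76) (nat_lit 0) (XT.nd (nat_lit 78) (nat_lit 76) (nat_lit 0) (XT.lf (nat_lit 0) (nat_lit 110522295049) (nat_lit 76) (nat_lit 2422373046558) (nat_lit 76) (nat_lit 437852984844) (nat_lit 18) (nat_lit 4) (nat_lit 19) (nat_lit 5) (nat_lit 19) (nat_lit 4) (nat_lit 440) (nat_lit 402) (nat_lit 178)) (XT.lf (nat_lit 0) (nat_lit 226841531961) (nat_lit 152) (nat_lit 1512689680023) (nat_lit 76) (nat_lit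 1403723743795) (nat_lit 17) (nat_lit 5) (nat_lit 19) (nat_lit 5) (nat_lit 18) (nat_lit 4) (nat_lit 441) (nat_lit 402) (nat_lit 177))) (XT.nd (nat_lit 78) (nat_lit 76) (nat_lit 0) (XT.lf (nat_lit 0) (nat_lit 921056172282) (nat_lit 152) (nat_lit 68723232592) (nat_lit 76) (nat_lit 2338872886503) (nat_lit 17) (nat_lit 5) (nat_lit 19) (nat_lit 5) (nat_lit 18) (nat_lit 4) (nat_lit 442) (nat_lit 402) (nat_lit 176)) (XT.lf (nat_lit 0) (nat_lit 1569261331247) (nat_lit 76) (nat_lit 139287421779) (nat_lit 152) (nat_lit 1817313399263) (nat_lit 16) (nat_lit 5) (nat_lit 17) (nat_lit 5) (nat_lit 18) (nat_lit 4) (nat_lit 443) (nat_lit 402) (nat_lit 175)))) (XT.nd (nat_lit 156) (nat_lit 152) (nat_lit 0) (XT.nd (nat_lit 78) (nat_lit 76) (nat_lit 0) (XT.lf (nat_lit 0) (nat_lit 2579709392268) (nat_lit 152) (nat_lit 415295116902) (nat_lit 0) (nat_lit 742190800739) (nat_lit 16) (nat_lit 5) (nat_lit 18) (nat_lit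 4) (nat_lit 16) (nat_lit 4) (nat_lit 444) (nat_lit 402) (nat_lit 174)) (XT.lf (nat_lit 0) (nat_lit 1311293388253) (nat_lit 76) (nat_lit 2244423983764) (nat_lit 76) (nat_lit 406905388975) (nat_lit 15) (nat_lit 4) (nat_lit 16) (nat_lit 5) (nat_lit 16) (nat_lit 4) (nat_lit 445) (nat_lit 402) (nat_lit 173))) (XT.nd (nat_lit 78) (nat_lit 76) (nat_lit 0) (XT.lf (nat_lit 0) (nat_lit 395175627163) (nat_lit 152) (nat_lit 1015553293308) (nat_lit 76) (nat_lit 2793646739888) (nat_lit 14) (nat_lit 5) (nat_lit 16) (nat_lit 5) (nat_lit 15) (nat_lit 4) (nat_lit 446) (nat_lit 402) (nat_lit 172)) (XT.nd (nat_lit 78) (nat_lit 0) (nat_lit 0) (XT.lf (nat_lit 0) (nat_lit 779510150285) (nat_lit 76) (nat_lit 478676749179) (nat_lit 152) (nat_lit 3204936595731) (nat_lit 13) (nat_lit 5) (nat_lit 14) (nat_lit 5) (nat_lit 15) (nat_lit 4) (nat_lit 447) (nat_lit 402) (nat_lit 171)) (XT.lf (nat_lit 0) (nat_lit 2231424278764)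 (nat_lit 152) (nat_lit 1977833896940) (nat_lit 0) (nat_lit 530018164698) (nat_lit 13) (nat_lit 5) (nat_lit 15) (nat_lit 4) (nat_lit 13) (nat_lit 4) (nat_lit 448) (nat_lit 402) (nat_lit 170)))))) (XT.nd (nat_lit 49686) (nat_lit 0) (nat_lit 3420) (XT.nd (nat_lit 156) (nat_lit 76) (nat_lit 0) (XT.nd (nat_lit 78) (nat_lit 76) (nat_lit 0) (XT.lf (nat_lit 0) (nat_lit 3294953807954) (nat_lit 152) (nat_lit 148025260841) (nat_lit 0) (nat_lit 1593547691669) (nat_lit 13) (nat_lit 5) (nat_lit 15) (nat_lit 4) (nat_lit 13) (nat_lit 4) (nat_lit 449) (nat_lit 402) (nat_lit 169)) (XT.lf (nat_lit 0) (nat_lit 1924436151460) (nat_lit 76) (nat_lit 2565412281178) (nat_lit 76) (nat_lit 864006162839) (nat_lit 12) (nat_lit 4) (nat_lit 13) (nat_lit 5) (nat_lit 13) (nat_lit 4) (nat_lit 450) (nat_lit 402) (nat_lit 168))) (XT.nd (nat_lit 49374) (nat_lit 0) (nat_lit 3800) (XT.lf (nat_lit 0) (nat_lit 83728051302) (nat_lit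 152) (nat_lit 1527251773533) (nat_lit 76) (nat_lit 4085095475020) (nat_lit 11) (nat_lit 5) (nat_lit 13) (nat_lit 5) (nat_lit 12) (nat_lit 4) (nat_lit 451) (nat_lit 402) (nat_lit 167)) (XT.nd (nat_lit 78) (nat_lit 0) (nat_lit 0) (XT.lf (nat_lit 0) (nat_lit 219819722902) (nat_lit 532) (nat_lit 19858858387) (nat_lit 532) (nat_lit 19858858387) (nat_lit 61) (nat_lit 3) (nat_lit 68) (nat_lit 3) (nat_lit 68) (nat_lit 5) (nat_lit 403) (nat_lit 403) (nat_lit 214)) (XT.lf (nat_lit 76) (nat_lit 221587751851) (nat_lit 0) (nat_lit 240966689059) (nat_lit 532) (nat_lit 76857079956) (nat_lit 62) (nat_lit 5) (nat_lit 61) (nat_lit 3) (nat_lit 68) (nat_lit 5) (nat_lit 404) (nat_lit 403) (nat_lit 213))))) (XT.nd (nat_lit 156) (nat_lit 456) (nat_lit 0) (XT.nd (nat_lit 78) (nat_lit 0) (nat_lit 0) (XT.lf (nat_lit 0) (nat_lit 488813477907) (nat_lit 456) (nat_lit 55656705024) (nat_lit 532) (nat_lit 16784043417)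 (nat_lit 62) (nat_lit 5) (nat_lit 68) (nat_lit 5) (nat_lit 69) (nat_lit 5) (nat_lit 405) (nat_lit 403) (nat_lit 212)) (XT.lf (nat_lit 76) (nat_lit 232874142928) (nat_lit 0) (nat_lit 296158577668) (nat_lit 532) (nat_lit 54862869080) (nat_lit 63) (nat_lit 5) (nat_lit 62) (nat_lit 5) (nat_lit 69) (nat_lit 5) (nat_lit 406) (nat_lit 403) (nat_lit 211))) (XT.nd (nat_lit 78) (nat_lit 456) (nat_lit 0) (XT.lf (nat_lit 76) (nat_lit 547652691307) (nat_lit 0) (nat_lit 26338544528) (nat_lit 532) (nat_lit 34235287608) (nat_lit 63) (nat_lit 5) (nat_lit 62) (nat_lit 5) (nat_lit 69) (nat_lit 5) (nat_lit 407) (nat_lit 403) (nat_lit 210)) (XT.nd (nat_lit 78) (nat_lit 0) (nat_lit 0) (XT.lf (nat_lit 0) (nat_lit 1589788900) (nat_lit 532) (nat_lit 373807155747) (nat_lit 608) (nat_lit 258094063459) (nat_lit 56) (nat_lit 5) (nat_lit 63) (nat_lit 5) (nat_lit 64) (nat_lit 5) (nat_lit 408) (nat_lit 403) (nat_lit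 209)) (XT.lf (nat_lit 0) (nat_lit 40814591147) (nat_lit 532) (nat_lit 53253495870) (nat_lit 608) (nat_lit 566446761135) (nat_lit 56) (nat_lit 5) (nat_lit 63) (nat_lit 5) (nat_lit 64) (nat_lit 5) (nat_lit 409) (nat_lit 403) (nat_lit 208))))))) (XT.nd (nat_lit 702) (nat_lit 988) (nat_lit 0) (XT.nd (nat_lit 312) (nat_lit 456) (nat_lit 0) (XT.nd (nat_lit 156) (nat_lit 608) (nat_lit 0) (XT.nd (nat_lit 78) (nat_lit 0) (nat_lit 0) (XT.lf (nat_lit 0) (nat_lit 95831211167) (nat_lit 532) (nat_lit 385974448083) (nat_lit 76) (nat_lit 206882629481) (nat_lit 57) (nat_lit 5) (nat_lit 64) (nat_lit 5) (nat_lit 58) (nat_lit 5) (nat_lit 410) (nat_lit 403) (nat_lit 207)) (XT.lf (nat_lit 0) (nat_lit 159186336618) (nat_lit 532) (nat_lit 31293144282) (nat_lit 76) (nat_lit 528321149606) (nat_lit 57) (nat_lit 5) (nat_lit 64) (nat_lit 5) (nat_lit 58) (nat_lit 5) (nat_lit 411) (nat_lit 403) (nat_lit 206))) (XT.nd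 (nat_lit 78) (nat_lit 228) (nat_lit 0) (XT.lf (nat_lit 0) (nat_lit 239732427700) (nat_lit 456) (nat_lit 383540868335) (nat_lit 76) (nat_lit 127078859156) (nat_lit 52) (nat_lit 5) (nat_lit 58) (nat_lit 5) (nat_lit 53) (nat_lit 5) (nat_lit 412) (nat_lit 403) (nat_lit 205)) (XT.lf (nat_lit 0) (nat_lit 9699857517) (nat_lit 228) (nat_lit 323080969482) (nat_lit 304) (nat_lit 451162285190) (nat_lit 49) (nat_lit 5) (nat_lit 52) (nat_lit 5) (nat_lit 53) (nat_lit 5) (nat_lit 413) (nat_lit 403) (nat_lit 204)))) (XT.nd (nat_lit 156) (nat_lit 228) (nat_lit 0) (XT.nd (nat_lit 78) (nat_lit 228) (nat_lit 0) (XT.lf (nat_lit 0) (nat_lit 444059252083) (nat_lit 304) (nat_lit 363469754954) (nat_lit 76) (nat_lit 11829446417) (nat_lit 49) (nat_lit 5) (nat_lit 53) (nat_lit 5) (nat_lit 50) (nat_lit 5) (nat_lit 414) (nat_lit 403) (nat_lit 203)) (XT.lf (nat_lit 0) (nat_lit 75553383645) (nat_lit 228) (nat_lit 498895329790)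 (nat_lit 304) (nat_lit 282341607615) (nat_lit 46) (nat_lit 5) (nat_lit 49) (nat_lit 5) (nat_lit 50) (nat_lit 5) (nat_lit 415) (nat_lit 403) (nat_lit 202))) (XT.nd (nat_lit 78) (nat_lit 228) (nat_lit 0) (XT.lf (nat_lit 0) (nat_lit 570369206865) (nat_lit 228) (nat_lit 154838020691) (nat_lit 304) (nat_lit 171214478841) (nat_lit 46) (nat_lit 5) (nat_lit 49) (nat_lit 5) (nat_lit 50) (nat_lit 5) (nat_lit 416) (nat_lit 403) (nat_lit 201)) (XT.nd (nat_lit 78) (nat_lit 76) (nat_lit 0) (XT.lf (nat_lit 0) (nat_lit 168776888207) (nat_lit 152) (nat_lit 728521307611) (nat_lit 228) (nat_lit 41183664922) (nat_lit 44) (nat_lit 5) (nat_lit 46) (nat_lit 5) (nat_lit 47) (nat_lit 5) (nat_lit 417) (nat_lit 403) (nat_lit 200)) (XT.lf (nat_lit 0) (nat_lit 107452910628) (nat_lit 228) (nat_lit 268098408180) (nat_lit 76) (nat_lit 607111099049) (nat_lit 43) (nat_lit 5) (nat_lit 46) (nat_lit 5) (nat_lit 44) (nat_lit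 5) (nat_lit 418) (nat_lit 403) (nat_lit 199)))))) (XT.nd (nat_lit 390) (nat_lit 456) (nat_lit 0) (XT.nd (nat_lit 156) (nat_lit 304) (nat_lit 0) (XT.nd (nat_lit 78) (nat_lit 0) (nat_lit 0) (XT.lf (nat_lit 0) (nat_lit 272998894290) (nat_lit 304) (nat_lit 743163002873) (nat_lit 76) (nat_lit 13550468367) (nat_lit 40) (nat_lit 5) (nat_lit 44) (nat_lit 5) (nat_lit 41) (nat_lit 5) (nat_lit 419) (nat_lit 403) (nat_lit 198)) (XT.lf (nat_lit 0) (nat_lit 469063809718) (nat_lit 304) (nat_lit 189068926585) (nat_lit 76) (nat_lit 421011552476) (nat_lit 40) (nat_lit 5) (nat_lit 44) (nat_lit 5) (nat_lit 41) (nat_lit 5) (nat_lit 420) (nat_lit 403) (nat_lit 197))) (XT.nd (nat_lit 78) (nat_lit 152) (nat_lit 0) (XT.lf (nat_lit 0) (nat_lit 430908449733) (nat_lit 152) (nat_lit 260268818654) (nat_lit 228) (nat_lit 440524429507) (nat_lit 38) (nat_lit 5) (nat_lit 40) (nat_lit 5) (nat_lit 41) (nat_lit 5) (nat_lit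 421) (nat_lit 403) (nat_lit 196)) (XT.nd (nat_lit 78) (nat_lit 152) (nat_lit 0) (XT.lf (nat_lit 0) (nat_lit 940438203544) (nat_lit 228) (nat_lit 81022548609) (nat_lit 76) (nat_lit 166252675608) (nat_lit 38) (nat_lit 5) (nat_lit 41) (nat_lit 5) (nat_lit 39) (nat_lit 5) (nat_lit 422) (nat_lit 403) (nat_lit 195)) (XT.lf (nat_lit 0) (nat_lit 612193989302) (nat_lit 152) (nat_lit 618929525748) (nat_lit 228) (nat_lit 15363900849) (nat_lit 36) (nat_lit 5) (nat_lit 38) (nat_lit 5) (nat_lit 39) (nat_lit 5) (nat_lit 423) (nat_lit 403) (nat_lit 194))))) (XT.nd (nat_lit 156) (nat_lit 228) (nat_lit 0) (XT.nd (nat_lit 78) (nat_lit 0) (nat_lit 0) (XT.lf (nat_lit 0) (nat_lit 52609600348) (nat_lit 152) (nat_lit 174268152355) (nat_lit 228) (nat_lit 1082350189316) (nat_lit 33) (nat_lit 5) (nat_lit 35) (nat_lit 5) (nat_lit 36) (nat_lit 5) (nat_lit 424) (nat_lit 403) (nat_lit 193)) (XT.lf (nat_lit 0) (nat_lit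 512820340518) (nat_lit 228) (nat_lit 553270621755) (nat_lit 76) (nat_lit 308852690835) (nat_lit 33) (nat_lit 5) (nat_lit 36) (nat_lit 5) (nat_lit 34) (nat_lit 5) (nat_lit 425) (nat_lit 403) (nat_lit 192))) (XT.nd (nat_lit 78) (nat_lit 76) (nat_lit 0) (XT.lf (nat_lit 0) (nat_lit 212445861905) (nat_lit 152) (nat_lit 618828240230) (nat_lit 228) (nat_lit 613871657614) (nat_lit 31) (nat_lit 5) (nat_lit 33) (nat_lit 5) (nat_lit 34) (nat_lit 5) (nat_lit 426) (nat_lit 403) (nat_lit 191)) (XT.nd (nat_lit 78) (nat_lit 76) (nat_lit 0) (XT.lf (nat_lit 0) (nat_lit 1070884644273) (nat_lit 152) (nat_lit 119446913111) (nat_lit 228) (nat_lit 329422286122) (nat_lit 31) (nat_lit 5) (nat_lit 33) (nat_lit 5) (nat_lit 34) (nat_lit 5) (nat_lit 427) (nat_lit 403) (nat_lit 190)) (XT.lf (nat_lit 0) (nat_lit 407978436439) (nat_lit 76) (nat_lit 1190045300078) (nat_lit 152) (nat_lit 714027254) (nat_lit 30) (nat_lit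 5) (nat_lit 31) (nat_lit 5) (nat_lit 32) (nat_lit 4) (nat_lit 428) (nat_lit 403) (nat_lit 189))))))))
noncomputable def xc233 : XT := (XT.nd (nat_lit 1482) (nat_lit 152) (nat_lit 0) (XT.nd (nat_lit 702) (nat_lit 532) (nat_lit 0) (XT.nd (nat_lit 312) (nat_lit 380) (nat_lit 0) (XT.nd (nat_lit 156) (nat_lit 76) (nat_lit 0) (XT.nd (nat_lit 78) (nat_lit 152) (nat_lit 0) (XT.lf (nat_lit 0) (nat_lit 352261993572) (nat_lit 152) (nat_lit 336099103223) (nat_lit 76) (nat_lit 993742111182) (nat_lit 29) (nat_lit 5) (nat_lit 31) (nat_lit 5) (nat_lit 30) (nat_lit 5) (nat_lit 429) (nat_lit 403) (nat_lit 188)) (XT.lf (nat_lit 0) (nat_lit 617821307204) (nat_lit 152) (nat_lit 130474824480) (nat_lit 228) (nat_lit 1022651583413) (nat_lit 27) (nat_lit 5) (nat_lit 29) (nat_lit 5) (nat_lit 30) (nat_lit 5) (nat_lit 430) (nat_lit 403) (nat_lit 187))) (XT.nd (nat_lit 78) (nat_lit 76) (nat_lit 0) (XT.lf (nat_lit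 0) (nat_lit 1196793859742) (nat_lit 228) (nat_lit 210586343786) (nat_lit 76) (nat_lit 457857110551) (nat_lit 27) (nat_lit 5) (nat_lit 30) (nat_lit 5) (nat_lit 28) (nat_lit 4) (nat_lit 431) (nat_lit 403) (nat_lit 186)) (XT.lf (nat_lit 0) (nat_lit 846303488166) (nat_lit 76) (nat_lit 858610488462) (nat_lit 152) (nat_lit 260256698708) (nat_lit 26) (nat_lit 5) (nat_lit 27) (nat_lit 5) (nat_lit 28) (nat_lit 4) (nat_lit 432) (nat_lit 403) (nat_lit 185)))) (XT.nd (nat_lit 156) (nat_lit 152) (nat_lit 0) (XT.nd (nat_lit 78) (nat_lit 152) (nat_lit 0) (XT.lf (nat_lit 0) (nat_lit 177458756508) (nat_lit 152) (nat_lit 77409978299) (nat_lit 76) (nat_lit 1817409936638) (nat_lit 25) (nat_lit 5) (nat_lit 27) (nat_lit 5) (nat_lit 26) (nat_lit 5) (nat_lit 433) (nat_lit 403) (nat_lit 184)) (XT.lf (nat_lit 0) (nat_lit 672887081006) (nat_lit 228) (nat_lit 1100318578118) (nat_lit 76) (nat_lit 411268354622) (nat_lit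 23) (nat_lit 5) (nat_lit 26) (nat_lit 5) (nat_lit 24) (nat_lit 4) (nat_lit 434) (nat_lit 403) (nat_lit 183))) (XT.nd (nat_lit 78) (nat_lit 76) (nat_lit 0) (XT.lf (nat_lit 0) (nat_lit 32524871016) (nat_lit 76) (nat_lit 1184998487559) (nat_lit 152) (nat_lit 1087355729888) (nat_lit 22) (nat_lit 5) (nat_lit 23) (nat_lit 5) (nat_lit 24) (nat_lit 4) (nat_lit 435) (nat_lit 403) (nat_lit 182)) (XT.nd (nat_lit 78) (nat_lit 76) (nat_lit 0) (XT.lf (nat_lit 0) (nat_lit 1318571880499) (nat_lit 76) (nat_lit 517243313214) (nat_lit 152) (nat_lit 596694603018) (nat_lit 22) (nat_lit 5) (nat_lit 23) (nat_lit 5) (nat_lit 24) (nat_lit 4) (nat_lit 436) (nat_lit 403) (nat_lit 181)) (XT.lf (nat_lit 0) (nat_lit 139211003417) (nat_lit 76) (nat_lit 2372611972102) (nat_lit 76) (nat_lit 57867778154) (nat_lit 21) (nat_lit 4) (nat_lit 22) (nat_lit 5) (nat_lit 22) (nat_lit 4) (nat_lit 437) (nat_lit 403) (nat_lit 180))))))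 (XT.nd (nat_lit 390) (nat_lit 228) (nat_lit 0) (XT.nd (nat_lit 156) (nat_lit 152) (nat_lit 0) (XT.nd (nat_lit 78) (nat_lit 76) (nat_lit 0) (XT.lf (nat_lit 0) (nat_lit 542532344877) (nat_lit 152) (nat_lit 1186276922638) (nat_lit 76) (nat_lit 984453975969) (nat_lit 20) (nat_lit 5) (nat_lit 22) (nat_lit 5) (nat_lit 21) (nat_lit 4) (nat_lit 438) (nat_lit 403) (nat_lit 179)) (XT.lf (nat_lit 0) (nat_lit 164171592793) (nat_lit 76) (nat_lit 1027614848727) (nat_lit 152) (nat_lit 1676098980080) (nat_lit 19) (nat_lit 5) (nat_lit 20) (nat_lit 5) (nat_lit 21) (nat_lit 4) (nat_lit 439) (nat_lit 403) (nat_lit 178))) (XT.nd (nat_lit 78) (nat_lit 152) (nat_lit 0) (XT.lf (nat_lit 0) (nat_lit 1690120602169) (nat_lit 76) (nat_lit 235295173269) (nat_lit 152) (nat_lit 1106866805765) (nat_lit 19) (nat_lit 5) (nat_lit 20) (nat_lit 5) (nat_lit 21) (nat_lit 4) (nat_lit 440) (nat_lit 403) (nat_lit 177)) (XT.nd (nat_lit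 78) (nat_lit 76) (nat_lit 0) (XT.lf (nat_lit 0) (nat_lit 119364216290) (nat_lit 76) (nat_lit 2616162825731) (nat_lit 76) (nat_lit 472881144679) (nat_lit 18) (nat_lit 4) (nat_lit 19) (nat_lit 5) (nat_lit 19) (nat_lit 4) (nat_lit 441) (nat_lit 403) (nat_lit 176)) (XT.lf (nat_lit 0) (nat_lit 244988923966) (nat_lit 152) (nat_lit 1633704723308) (nat_lit 76) (nat_lit 1516021699393) (nat_lit 17) (nat_lit 5) (nat_lit 19) (nat_lit 5) (nat_lit 18) (nat_lit 4) (nat_lit 442) (nat_lit 403) (nat_lit 175))))) (XT.nd (nat_lit 156) (nat_lit 152) (nat_lit 0) (XT.nd (nat_lit 78) (nat_lit 76) (nat_lit 0) (XT.lf (nat_lit 0) (nat_lit 994740730368) (nat_lit 152) (nat_lit 74220969795) (nat_lit 76) (nat_lit 2525982769363) (nat_lit 17) (nat_lit 5) (nat_lit 19) (nat_lit 5) (nat_lit 18) (nat_lit 4) (nat_lit 443) (nat_lit 403) (nat_lit 174)) (XT.lf (nat_lit 0) (nat_lit 1694802356077) (nat_lit 76) (nat_lit 150430359576)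 (nat_lit 152) (nat_lit 1962698403812) (nat_lit 16) (nat_lit 5) (nat_lit 17) (nat_lit 5) (nat_lit 18) (nat_lit 4) (nat_lit 444) (nat_lit 403) (nat_lit 173))) (XT.nd (nat_lit 78) (nat_lit 152) (nat_lit 0) (XT.lf (nat_lit 0) (nat_lit 2786086202660) (nat_lit 152) (nat_lit 448518613299) (nat_lit 0) (nat_lit 801566114008) (nat_lit 16) (nat_lit 5) (nat_lit 18) (nat_lit 4) (nat_lit 16) (nat_lit 4) (nat_lit 445) (nat_lit 403) (nat_lit 172)) (XT.nd (nat_lit 78) (nat_lit 76) (nat_lit 0) (XT.lf (nat_lit 0) (nat_lit 1416196969409) (nat_lit 76) (nat_lit 2423977849656) (nat_lit 76) (nat_lit 439457758210) (nat_lit 15) (nat_lit 4) (nat_lit 16) (nat_lit 5) (nat_lit 16) (nat_lit 4) (nat_lit 446) (nat_lit 403) (nat_lit 171)) (XT.lf (nat_lit 0) (nat_lit 426789731769) (nat_lit 152) (nat_lit 1096797451954) (nat_lit 76) (nat_lit 3017138525098) (nat_lit 14) (nat_lit 5) (nat_lit 16) (nat_lit 5) (nat_lit 15) (nat_lit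 4) (nat_lit 447) (nat_lit 403) (nat_lit 170))))))) (XT.nd (nat_lit 50154) (nat_lit 0) (nat_lit 2356) (XT.nd (nat_lit 49764) (nat_lit 0) (nat_lit 3344) (XT.nd (nat_lit 156) (nat_lit 76) (nat_lit 0) (XT.nd (nat_lit 78) (nat_lit 0) (nat_lit 0) (XT.lf (nat_lit 0) (nat_lit 841871064473) (nat_lit 76) (nat_lit 516970839807) (nat_lit 152) (nat_lit 3461331466292) (nat_lit 13) (nat_lit 5) (nat_lit 14) (nat_lit 5) (nat_lit 15) (nat_lit 4) (nat_lit 448) (nat_lit 403) (nat_lit 169)) (XT.lf (nat_lit 0) (nat_lit 2409938271106) (nat_lit 152) (nat_lit 2136060511271) (nat_lit 0) (nat_lit 572419661245) (nat_lit 13) (nat_lit 5) (nat_lit 15) (nat_lit 4) (nat_lit 13) (nat_lit 4) (nat_lit 449) (nat_lit 403) (nat_lit 168))) (XT.nd (nat_lit 78) (nat_lit 76) (nat_lit 0) (XT.lf (nat_lit 0) (nat_lit 3558550158924) (nat_lit 152) (nat_lit 159867191501) (nat_lit 0) (nat_lit 1721031547160) (nat_lit 13) (nat_lit 5) (nat_lit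 15) (nat_lit 4) (nat_lit 13) (nat_lit 4) (nat_lit 450) (nat_lit 403) (nat_lit 167)) (XT.nd (nat_lit 49452) (nat_lit 0) (nat_lit 3724) (XT.lf (nat_lit 0) (nat_lit 2078391131500) (nat_lit 76) (nat_lit 2770645220765) (nat_lit 76) (nat_lit 933126607240) (nat_lit 12) (nat_lit 4) (nat_lit 13) (nat_lit 5) (nat_lit 13) (nat_lit 4) (nat_lit 451) (nat_lit 403) (nat_lit 166)) (XT.lf (nat_lit 0) (nat_lit 237405521799) (nat_lit 532) (nat_lit 21447447547) (nat_lit 532) (nat_lit 21447447547) (nat_lit 61) (nat_lit 3) (nat_lit 68) (nat_lit 3) (nat_lit 68) (nat_lit 5) (nat_lit 404) (nat_lit 404) (nat_lit 212))))) (XT.nd (nat_lit 156) (nat_lit 380) (nat_lit 0) (XT.nd (nat_lit 78) (nat_lit 0) (nat_lit 76) (XT.lf (nat_lit 76) (nat_lit 239315004969) (nat_lit 0) (nat_lit 260244206198) (nat_lit 532) (nat_lit 83005197670) (nat_lit 62) (nat_lit 5) (nat_lit 61) (nat_lit 3) (nat_lit 68) (nat_lit 5) (nat_lit 405)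 (nat_lit 404) (nat_lit 211)) (XT.lf (nat_lit 0) (nat_lit 527918936331) (nat_lit 456) (nat_lit 60108990457) (nat_lit 532) (nat_lit 18126606789) (nat_lit 62) (nat_lit 5) (nat_lit 68) (nat_lit 5) (nat_lit 69) (nat_lit 5) (nat_lit 406) (nat_lit 404) (nat_lit 210))) (XT.nd (nat_lit 78) (nat_lit 456) (nat_lit 0) (XT.lf (nat_lit 76) (nat_lit 251504318977) (nat_lit 0) (nat_lit 319851377178) (nat_lit 532) (nat_lit 59251511632) (nat_lit 63) (nat_lit 5) (nat_lit 62) (nat_lit 5) (nat_lit 69) (nat_lit 5) (nat_lit 407) (nat_lit 404) (nat_lit 209)) (XT.nd (nat_lit 78) (nat_lit 456) (nat_lit 0) (XT.lf (nat_lit 76) (nat_lit 591465133107) (nat_lit 0) (nat_lit 28445732995) (nat_lit 532) (nat_lit 36973752307) (nat_lit 63) (nat_lit 5) (nat_lit 62) (nat_lit 5) (nat_lit 69) (nat_lit 5) (nat_lit 408) (nat_lit 404) (nat_lit 208)) (XT.lf (nat_lit 0) (nat_lit 1717290941) (nat_lit 532) (nat_lit 403711461624) (nat_lit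 608) (nat_lit 278741510334) (nat_lit 56) (nat_lit 5) (nat_lit 63) (nat_lit 5) (nat_lit 64) (nat_lit 5) (nat_lit 409) (nat_lit 404) (nat_lit 207)))))) (XT.nd (nat_lit 390) (nat_lit 456) (nat_lit 0) (XT.nd (nat_lit 156) (nat_lit 532) (nat_lit 0) (XT.nd (nat_lit 78) (nat_lit 0) (nat_lit 76) (XT.lf (nat_lit 0) (nat_lit 44080053744) (nat_lit 532) (nat_lit 57513528703) (nat_lit 608) (nat_lit 611762429617) (nat_lit 56) (nat_lit 5) (nat_lit 63) (nat_lit 5) (nat_lit 64) (nat_lit 5) (nat_lit 410) (nat_lit 404) (nat_lit 206)) (XT.lf (nat_lit 0) (nat_lit 103497986348) (nat_lit 532) (nat_lit 416852139784) (nat_lit 76) (nat_lit 223433203142) (nat_lit 57) (nat_lit 5) (nat_lit 64) (nat_lit 5) (nat_lit 58) (nat_lit 5) (nat_lit 411) (nat_lit 404) (nat_lit 205))) (XT.nd (nat_lit 78) (nat_lit 608) (nat_lit 0) (XT.lf (nat_lit 0) (nat_lit 171921501221) (nat_lit 532) (nat_lit 33796351246) (nat_lit 76) (nat_lit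 570586807596) (nat_lit 57) (nat_lit 5) (nat_lit 64) (nat_lit 5) (nat_lit 58) (nat_lit 5) (nat_lit 412) (nat_lit 404) (nat_lit 204)) (XT.nd (nat_lit 78) (nat_lit 228) (nat_lit 0) (XT.lf (nat_lit 0) (nat_lit 258911266093) (nat_lit 456) (nat_lit 414223879476) (nat_lit 76) (nat_lit 137245162253) (nat_lit 52) (nat_lit 5) (nat_lit 58) (nat_lit 5) (nat_lit 53) (nat_lit 5) (nat_lit 413) (nat_lit 404) (nat_lit 203)) (XT.lf (nat_lit 0) (nat_lit 10476097904) (nat_lit 228) (nat_lit 348927427401) (nat_lit 304) (nat_lit 487255017056) (nat_lit 49) (nat_lit 5) (nat_lit 52) (nat_lit 5) (nat_lit 53) (nat_lit 5) (nat_lit 414) (nat_lit 404) (nat_lit 202))))) (XT.nd (nat_lit 156) (nat_lit 228) (nat_lit 0) (XT.nd (nat_lit 78) (nat_lit 228) (nat_lit 0) (XT.lf (nat_lit 0) (nat_lit 479584207636) (nat_lit 304) (nat_lit 392547085243) (nat_lit 76) (nat_lit 12775819405) (nat_lit 49) (nat_lit 5) (nat_lit 53) (nat_lit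 5) (nat_lit 50) (nat_lit 5) (nat_lit 415) (nat_lit 404) (nat_lit 201)) (XT.lf (nat_lit 0) (nat_lit 81597898112) (nat_lit 228) (nat_lit 538806917693) (nat_lit 304) (nat_lit 304928714307) (nat_lit 46) (nat_lit 5) (nat_lit 49) (nat_lit 5) (nat_lit 50) (nat_lit 5) (nat_lit 416) (nat_lit 404) (nat_lit 200))) (XT.nd (nat_lit 78) (nat_lit 228) (nat_lit 0) (XT.lf (nat_lit 0) (nat_lit 615998969132) (nat_lit 228) (nat_lit 167225026716) (nat_lit 304) (nat_lit 184911431669) (nat_lit 46) (nat_lit 5) (nat_lit 49) (nat_lit 5) (nat_lit 50) (nat_lit 5) (nat_lit 417) (nat_lit 404) (nat_lit 199)) (XT.nd (nat_lit 78) (nat_lit 76) (nat_lit 0) (XT.lf (nat_lit 0) (nat_lit 182279273434) (nat_lit 152) (nat_lit 786802960483) (nat_lit 228) (nat_lit 44478160919) (nat_lit 44) (nat_lit 5) (nat_lit 46) (nat_lit 5) (nat_lit 47) (nat_lit 5) (nat_lit 418) (nat_lit 404) (nat_lit 198)) (XT.lf (nat_lit 0) (nat_lit 116049316935)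 (nat_lit 228) (nat_lit 289546054730) (nat_lit 76) (nat_lit 655680025599) (nat_lit 43) (nat_lit 5) (nat_lit 46) (nat_lit 5) (nat_lit 44) (nat_lit 5) (nat_lit 419) (nat_lit 404) (nat_lit 197))))))))
noncomputable def xc234 : XT := (XT.nd (nat_lit 1482) (nat_lit 608) (nat_lit 0) (XT.nd (nat_lit 702) (nat_lit 760) (nat_lit 0) (XT.nd (nat_lit 312) (nat_lit 532) (nat_lit 0) (XT.nd (nat_lit 156) (nat_lit 152) (nat_lit 0) (XT.nd (nat_lit 78) (nat_lit 0) (nat_lit 0) (XT.lf (nat_lit 0) (nat_lit 294838973052) (nat_lit 304) (nat_lit 802615810625) (nat_lit 76) (nat_lit 14634557583) (nat_lit 40) (nat_lit 5) (nat_lit 44) (nat_lit 5) (nat_lit 41) (nat_lit 5) (nat_lit 420) (nat_lit 404) (nat_lit 196)) (XT.lf (nat_lit 0) (nat_lit 506589069327) (nat_lit 304) (nat_lit 204194225455) (nat_lit 76) (nat_lit 454692524588) (nat_lit 40) (nat_lit 5) (nat_lit 44) (nat_lit 5) (nat_lit 41) (nat_lit 5) (nat_lit 421)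 (nat_lit 404) (nat_lit 195))) (XT.nd (nat_lit 78) (nat_lit 0) (nat_lit 0) (XT.lf (nat_lit 0) (nat_lit 465381335519) (nat_lit 152) (nat_lit 281090262747) (nat_lit 228) (nat_lit 475766223470) (nat_lit 38) (nat_lit 5) (nat_lit 40) (nat_lit 5) (nat_lit 41) (nat_lit 5) (nat_lit 422) (nat_lit 404) (nat_lit 194)) (XT.lf (nat_lit 0) (nat_lit 1015673398610) (nat_lit 228) (nat_lit 87504148498) (nat_lit 76) (nat_lit 179552943664) (nat_lit 38) (nat_lit 5) (nat_lit 41) (nat_lit 5) (nat_lit 39) (nat_lit 5) (nat_lit 423) (nat_lit 404) (nat_lit 193)))) (XT.nd (nat_lit 156) (nat_lit 152) (nat_lit 0) (XT.nd (nat_lit 78) (nat_lit 228) (nat_lit 0) (XT.lf (nat_lit 0) (nat_lit 661169707282) (nat_lit 152) (nat_lit 668443822258) (nat_lit 228) (nat_lit 16592868871) (nat_lit 36) (nat_lit 5) (nat_lit 38) (nat_lit 5) (nat_lit 39) (nat_lit 5) (nat_lit 424) (nat_lit 404) (nat_lit 192)) (XT.lf (nat_lit 0) (nat_lit 56818569290)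 (nat_lit 152) (nat_lit 188209535165) (nat_lit 228) (nat_lit 1168938062317) (nat_lit 33) (nat_lit 5) (nat_lit 35) (nat_lit 5) (nat_lit 36) (nat_lit 5) (nat_lit 425) (nat_lit 404) (nat_lit 191))) (XT.nd (nat_lit 78) (nat_lit 152) (nat_lit 0) (XT.lf (nat_lit 0) (nat_lit 553846091097) (nat_lit 228) (nat_lit 597532077187) (nat_lit 76) (nat_lit 333560967127) (nat_lit 33) (nat_lit 5) (nat_lit 36) (nat_lit 5) (nat_lit 34) (nat_lit 5) (nat_lit 426) (nat_lit 404) (nat_lit 190)) (XT.nd (nat_lit 78) (nat_lit 0) (nat_lit 0) (XT.lf (nat_lit 0) (nat_lit 229441720247) (nat_lit 152) (nat_lit 668334428815) (nat_lit 228) (nat_lit 662981261893) (nat_lit 31) (nat_lit 5) (nat_lit 33) (nat_lit 5) (nat_lit 34) (nat_lit 5) (nat_lit 427) (nat_lit 404) (nat_lit 189)) (XT.lf (nat_lit 0) (nat_lit 1156555591176) (nat_lit 152) (nat_lit 129002600759) (nat_lit 228) (nat_lit 355775950187) (nat_lit 31) (nat_lit 5) (nat_lit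 33) (nat_lit 5) (nat_lit 34) (nat_lit 5) (nat_lit 428) (nat_lit 404) (nat_lit 188)))))) (XT.nd (nat_lit 390) (nat_lit 380) (nat_lit 0) (XT.nd (nat_lit 156) (nat_lit 228) (nat_lit 0) (XT.nd (nat_lit 78) (nat_lit 76) (nat_lit 0) (XT.lf (nat_lit 0) (nat_lit 440616889382) (nat_lit 76) (nat_lit 1285248853609) (nat_lit 152) (nat_lit 771033215) (nat_lit 30) (nat_lit 5) (nat_lit 31) (nat_lit 5) (nat_lit 32) (nat_lit 4) (nat_lit 429) (nat_lit 404) (nat_lit 187)) (XT.lf (nat_lit 0) (nat_lit 380443055285) (nat_lit 152) (nat_lit 362986861203) (nat_lit 76) (nat_lit 1073241539895) (nat_lit 29) (nat_lit 5) (nat_lit 31) (nat_lit 5) (nat_lit 30) (nat_lit 5) (nat_lit 430) (nat_lit 404) (nat_lit 186))) (XT.nd (nat_lit 78) (nat_lit 76) (nat_lit 0) (XT.lf (nat_lit 0) (nat_lit 667247177748) (nat_lit 152) (nat_lit 140912743118) (nat_lit 228) (nat_lit 1104463603498) (nat_lit 27) (nat_lit 5) (nat_lit 29) (nat_lit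 5) (nat_lit 30) (nat_lit 5) (nat_lit 431) (nat_lit 404) (nat_lit 185)) (XT.nd (nat_lit 78) (nat_lit 76) (nat_lit 0) (XT.lf (nat_lit 0) (nat_lit 1292537461360) (nat_lit 228) (nat_lit 227433091762) (nat_lit 76) (nat_lit 494485738611) (nat_lit 27) (nat_lit 5) (nat_lit 30) (nat_lit 5) (nat_lit 28) (nat_lit 4) (nat_lit 432) (nat_lit 404) (nat_lit 184)) (XT.lf (nat_lit 0) (nat_lit 914007922707) (nat_lit 76) (nat_lit 927299261752) (nat_lit 152) (nat_lit 281077137685) (nat_lit 26) (nat_lit 5) (nat_lit 27) (nat_lit 5) (nat_lit 28) (nat_lit 4) (nat_lit 433) (nat_lit 404) (nat_lit 183))))) (XT.nd (nat_lit 156) (nat_lit 152) (nat_lit 0) (XT.nd (nat_lit 78) (nat_lit 152) (nat_lit 0) (XT.lf (nat_lit 0) (nat_lit 191655542280) (nat_lit 152) (nat_lit 83602628067) (nat_lit 76) (nat_lit 1962802787958) (nat_lit 25) (nat_lit 5) (nat_lit 27) (nat_lit 5) (nat_lit 26) (nat_lit 5) (nat_lit 434) (nat_lit 404) (nat_lit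 182)) (XT.lf (nat_lit 0) (nat_lit 726718131402) (nat_lit 228) (nat_lit 1188343914502) (nat_lit 76) (nat_lit 444169882194) (nat_lit 23) (nat_lit 5) (nat_lit 26) (nat_lit 5) (nat_lit 24) (nat_lit 4) (nat_lit 435) (nat_lit 404) (nat_lit 181))) (XT.nd (nat_lit 78) (nat_lit 76) (nat_lit 0) (XT.lf (nat_lit 0) (nat_lit 35127006769) (nat_lit 76) (nat_lit 1279798301706) (nat_lit 152) (nat_lit 1174344100537) (nat_lit 22) (nat_lit 5) (nat_lit 23) (nat_lit 5) (nat_lit 24) (nat_lit 4) (nat_lit 436) (nat_lit 404) (nat_lit 180)) (XT.nd (nat_lit 78) (nat_lit 76) (nat_lit 0) (XT.lf (nat_lit 0) (nat_lit 1424057766190) (nat_lit 76) (nat_lit 558622718217) (nat_lit 152) (nat_lit 644430090017) (nat_lit 22) (nat_lit 5) (nat_lit 23) (nat_lit 5) (nat_lit 24) (nat_lit 4) (nat_lit 437) (nat_lit 404) (nat_lit 179)) (XT.lf (nat_lit 0) (nat_lit 150348020001) (nat_lit 76) (nat_lit 2562420867801) (nat_lit 76) (nat_lit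 62497120197) (nat_lit 21) (nat_lit 4) (nat_lit 22) (nat_lit 5) (nat_lit 22) (nat_lit 4) (nat_lit 438) (nat_lit 404) (nat_lit 178))))))) (XT.nd (nat_lit 780) (nat_lit 76) (nat_lit 0) (XT.nd (nat_lit 390) (nat_lit 228) (nat_lit 0) (XT.nd (nat_lit 156) (nat_lit 152) (nat_lit 0) (XT.nd (nat_lit 78) (nat_lit 76) (nat_lit 0) (XT.lf (nat_lit 0) (nat_lit 585935003019) (nat_lit 152) (nat_lit 1281178946496) (nat_lit 76) (nat_lit 1063210347780) (nat_lit 20) (nat_lit 5) (nat_lit 22) (nat_lit 5) (nat_lit 21) (nat_lit 4) (nat_lit 439) (nat_lit 404) (nat_lit 177)) (XT.lf (nat_lit 0) (nat_lit 177305446879) (nat_lit 76) (nat_lit 1109823978336) (nat_lit 152) (nat_lit 1810186824623) (nat_lit 19) (nat_lit 5) (nat_lit 20) (nat_lit 5) (nat_lit 21) (nat_lit 4) (nat_lit 440) (nat_lit 404) (nat_lit 176))) (XT.nd (nat_lit 78) (nat_lit 152) (nat_lit 0) (XT.lf (nat_lit 0) (nat_lit 1825330367623) (nat_lit 76) (nat_lit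 254118733159) (nat_lit 152) (nat_lit 1195416081834) (nat_lit 19) (nat_lit 5) (nat_lit 20) (nat_lit 5) (nat_lit 21) (nat_lit 4) (nat_lit 441) (nat_lit 404) (nat_lit 175)) (XT.nd (nat_lit 78) (nat_lit 76) (nat_lit 0) (XT.lf (nat_lit 0) (nat_lit 128913471594) (nat_lit 76) (nat_lit 2825455796446) (nat_lit 76) (nat_lit 510711568565) (nat_lit 18) (nat_lit 4) (nat_lit 19) (nat_lit 5) (nat_lit 19) (nat_lit 4) (nat_lit 442) (nat_lit 404) (nat_lit 174)) (XT.lf (nat_lit 0) (nat_lit 264588097423) (nat_lit 152) (nat_lit 1764400988762) (nat_lit 76) (nat_lit 1637303483438) (nat_lit 17) (nat_lit 5) (nat_lit 19) (nat_lit 5) (nat_lit 18) (nat_lit 4) (nat_lit 443) (nat_lit 404) (nat_lit 173))))) (XT.nd (nat_lit 156) (nat_lit 152) (nat_lit 0) (XT.nd (nat_lit 78) (nat_lit 76) (nat_lit 0) (XT.lf (nat_lit 0) (nat_lit 1074320043927) (nat_lit 152) (nat_lit 80158543294) (nat_lit 76) (nat_lit 2728061435443) (nat_lit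 17) (nat_lit 5) (nat_lit 19) (nat_lit 5) (nat_lit 18) (nat_lit 4) (nat_lit 444) (nat_lit 404) (nat_lit 172)) (XT.lf (nat_lit 0) (nat_lit 1830386646013) (nat_lit 76) (nat_lit 162464740378) (nat_lit 152) (nat_lit 2119714218339) (nat_lit 16) (nat_lit 5) (nat_lit 17) (nat_lit 5) (nat_lit 18) (nat_lit 4) (nat_lit 445) (nat_lit 404) (nat_lit 171))) (XT.nd (nat_lit 78) (nat_lit 152) (nat_lit 0) (XT.lf (nat_lit 0) (nat_lit 3008973149464) (nat_lit 152) (nat_lit 484400005522) (nat_lit 0) (nat_lit 865691445318) (nat_lit 16) (nat_lit 5) (nat_lit 18) (nat_lit 4) (nat_lit 16) (nat_lit 4) (nat_lit 446) (nat_lit 404) (nat_lit 170)) (XT.nd (nat_lit 78) (nat_lit 76) (nat_lit 0) (XT.lf (nat_lit 0) (nat_lit 1529492821351) (nat_lit 76) (nat_lit 2617896032354) (nat_lit 76) (nat_lit 474614325811) (nat_lit 15) (nat_lit 4) (nat_lit 16) (nat_lit 5) (nat_lit 16) (nat_lit 4) (nat_lit 447) (nat_lit 404) (nat_lit 169))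 (XT.lf (nat_lit 0) (nat_lit 460932956978) (nat_lit 152) (nat_lit 1184541158245) (nat_lit 76) (nat_lit 3258509646560) (nat_lit 14) (nat_lit 5) (nat_lit 16) (nat_lit 5) (nat_lit 15) (nat_lit 4) (nat_lit 448) (nat_lit 404) (nat_lit 168)))))) (XT.nd (nat_lit 49920) (nat_lit 0) (nat_lit 3268) (XT.nd (nat_lit 49686) (nat_lit 0) (nat_lit 3648) (XT.nd (nat_lit 78) (nat_lit 0) (nat_lit 0) (XT.lf (nat_lit 0) (nat_lit 909220837221) (nat_lit 76) (nat_lit 558328464719) (nat_lit 152) (nat_lit 3738237934643) (nat_lit 13) (nat_lit 5) (nat_lit 14) (nat_lit 5) (nat_lit 15) (nat_lit 4) (nat_lit 449) (nat_lit 404) (nat_lit 167)) (XT.lf (nat_lit 0) (nat_lit 2602733375697) (nat_lit 152) (nat_lit 2306945268647) (nat_lit 0) (nat_lit 618213271328) (nat_lit 13) (nat_lit 5) (nat_lit 15) (nat_lit 4) (nat_lit 13) (nat_lit 4) (nat_lit 450) (nat_lit 404) (nat_lit 166))) (XT.nd (nat_lit 78) (nat_lit 0) (nat_lit 0) (XT.lf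 (nat_lit 0) (nat_lit 256398153072) (nat_lit 532) (nat_lit 23163140890) (nat_lit 532) (nat_lit 23163140890) (nat_lit 61) (nat_lit 3) (nat_lit 68) (nat_lit 3) (nat_lit 68) (nat_lit 5) (nat_lit 405) (nat_lit 405) (nat_lit 210)) (XT.nd (nat_lit 78) (nat_lit 0) (nat_lit 76) (XT.lf (nat_lit 76) (nat_lit 258460405100) (nat_lit 0) (nat_lit 281063898742) (nat_lit 532) (nat_lit 89645228810) (nat_lit 62) (nat_lit 5) (nat_lit 61) (nat_lit 3) (nat_lit 68) (nat_lit 5) (nat_lit 406) (nat_lit 405) (nat_lit 209)) (XT.lf (nat_lit 0) (nat_lit 570152777191) (nat_lit 456) (nat_lit 64917494529) (nat_lit 532) (nat_lit 19576598071) (nat_lit 62) (nat_lit 5) (nat_lit 68) (nat_lit 5) (nat_lit 69) (nat_lit 5) (nat_lit 407) (nat_lit 405) (nat_lit 208))))) (XT.nd (nat_lit 156) (nat_lit 456) (nat_lit 0) (XT.nd (nat_lit 78) (nat_lit 0) (nat_lit 0) (XT.lf (nat_lit 76) (nat_lit 271624874213) (nat_lit 0) (nat_lit 345439584487)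 (nat_lit 532) (nat_lit 63991300795) (nat_lit 63) (nat_lit 5) (nat_lit 62) (nat_lit 5) (nat_lit 69) (nat_lit 5) (nat_lit 408) (nat_lit 405) (nat_lit 207)) (XT.lf (nat_lit 76) (nat_lit 638782537938) (nat_lit 0) (nat_lit 30721481573) (nat_lit 532) (nat_lit 39931345300) (nat_lit 63) (nat_lit 5) (nat_lit 62) (nat_lit 5) (nat_lit 69) (nat_lit 5) (nat_lit 409) (nat_lit 405) (nat_lit 206))) (XT.nd (nat_lit 78) (nat_lit 0) (nat_lit 0) (XT.lf (nat_lit 0) (nat_lit 1854947647) (nat_lit 532) (nat_lit 436008150002) (nat_lit 608) (nat_lit 301040764116) (nat_lit 56) (nat_lit 5) (nat_lit 63) (nat_lit 5) (nat_lit 64) (nat_lit 5) (nat_lit 410) (nat_lit 405) (nat_lit 205)) (XT.nd (nat_lit 78) (nat_lit 0) (nat_lit 76) (XT.lf (nat_lit 0) (nat_lit 47606711220) (nat_lit 532) (nat_lit 62114399378) (nat_lit 608) (nat_lit 660703361907) (nat_lit 56) (nat_lit 5) (nat_lit 63) (nat_lit 5) (nat_lit 64) (nat_lit 5) (nat_lit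 411) (nat_lit 405) (nat_lit 204)) (XT.lf (nat_lit 0) (nat_lit 111778063842) (nat_lit 532) (nat_lit 450200084505) (nat_lit 76) (nat_lit 241307827932) (nat_lit 57) (nat_lit 5) (nat_lit 64) (nat_lit 5) (nat_lit 58) (nat_lit 5) (nat_lit 412) (nat_lit 405) (nat_lit 203))))))))
noncomputable def xc235 : XT := (XT.nd (nat_lit 1482) (nat_lit 1216) (nat_lit 0) (XT.nd (nat_lit 702) (nat_lit 836) (nat_lit 0) (XT.nd (nat_lit 312) (nat_lit 684) (nat_lit 0) (XT.nd (nat_lit 156) (nat_lit 228) (nat_lit 0) (XT.nd (nat_lit 78) (nat_lit 380) (nat_lit 0) (XT.lf (nat_lit 0) (nat_lit 185675442232) (nat_lit 532) (nat_lit 36499849659) (nat_lit 76) (nat_lit 616233723072) (nat_lit 57) (nat_lit 5) (nat_lit 64) (nat_lit 5) (nat_lit 58) (nat_lit 5) (nat_lit 413) (nat_lit 405) (nat_lit 202)) (XT.lf (nat_lit 0) (nat_lit 279624376723) (nat_lit 456) (nat_lit 447361568362) (nat_lit 76) (nat_lit 148224770400) (nat_lit 52)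 (nat_lit 5) (nat_lit 58) (nat_lit 5) (nat_lit 53) (nat_lit 5) (nat_lit 414) (nat_lit 405) (nat_lit 201))) (XT.nd (nat_lit 78) (nat_lit 0) (nat_lit 0) (XT.lf (nat_lit 0) (nat_lit 11314401602) (nat_lit 228) (nat_lit 376841604755) (nat_lit 304) (nat_lit 526235203273) (nat_lit 49) (nat_lit 5) (nat_lit 52) (nat_lit 5) (nat_lit 53) (nat_lit 5) (nat_lit 415) (nat_lit 405) (nat_lit 200)) (XT.lf (nat_lit 0) (nat_lit 517951128907) (nat_lit 304) (nat_lit 423950637636) (nat_lit 76) (nat_lit 13797899769) (nat_lit 49) (nat_lit 5) (nat_lit 53) (nat_lit 5) (nat_lit 50) (nat_lit 5) (nat_lit 416) (nat_lit 405) (nat_lit 199)))) (XT.nd (nat_lit 156) (nat_lit 456) (nat_lit 0) (XT.nd (nat_lit 78) (nat_lit 0) (nat_lit 0) (XT.lf (nat_lit 0) (nat_lit 88125938960) (nat_lit 228) (nat_lit 581911438117) (nat_lit 304) (nat_lit 329322821193) (nat_lit 46) (nat_lit 5) (nat_lit 49) (nat_lit 5) (nat_lit 50) (nat_lit 5)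 (nat_lit 417) (nat_lit 405) (nat_lit 198)) (XT.lf (nat_lit 0) (nat_lit 665279080180) (nat_lit 228) (nat_lit 180602998306) (nat_lit 304) (nat_lit 199704170038) (nat_lit 46) (nat_lit 5) (nat_lit 49) (nat_lit 5) (nat_lit 50) (nat_lit 5) (nat_lit 418) (nat_lit 405) (nat_lit 197))) (XT.nd (nat_lit 78) (nat_lit 304) (nat_lit 0) (XT.lf (nat_lit 0) (nat_lit 196861816071) (nat_lit 152) (nat_lit 849747152965) (nat_lit 228) (nat_lit 48036244727) (nat_lit 44) (nat_lit 5) (nat_lit 46) (nat_lit 5) (nat_lit 47) (nat_lit 5) (nat_lit 419) (nat_lit 405) (nat_lit 196)) (XT.nd (nat_lit 78) (nat_lit 228) (nat_lit 0) (XT.lf (nat_lit 0) (nat_lit 125333411000) (nat_lit 228) (nat_lit 312709545261) (nat_lit 76) (nat_lit 708134460761) (nat_lit 43) (nat_lit 5) (nat_lit 46) (nat_lit 5) (nat_lit 44) (nat_lit 5) (nat_lit 420) (nat_lit 405) (nat_lit 195)) (XT.lf (nat_lit 0) (nat_lit 318426234258) (nat_lit 304) (nat_lit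 866824876163) (nat_lit 76) (nat_lit 15805366554) (nat_lit 40) (nat_lit 5) (nat_lit 44) (nat_lit 5) (nat_lit 41) (nat_lit 5) (nat_lit 421) (nat_lit 405) (nat_lit 194)))))) (XT.nd (nat_lit 390) (nat_lit 304) (nat_lit 0) (XT.nd (nat_lit 156) (nat_lit 380) (nat_lit 0) (XT.nd (nat_lit 78) (nat_lit 152) (nat_lit 0) (XT.lf (nat_lit 0) (nat_lit 547116327616) (nat_lit 304) (nat_lit 220529578944) (nat_lit 76) (nat_lit 491067967633) (nat_lit 40) (nat_lit 5) (nat_lit 44) (nat_lit 5) (nat_lit 41) (nat_lit 5) (nat_lit 422) (nat_lit 405) (nat_lit 193)) (XT.lf (nat_lit 0) (nat_lit 502612022237) (nat_lit 152) (nat_lit 303577431127) (nat_lit 228) (nat_lit 513827383833) (nat_lit 38) (nat_lit 5) (nat_lit 40) (nat_lit 5) (nat_lit 41) (nat_lit 5) (nat_lit 423) (nat_lit 405) (nat_lit 192))) (XT.nd (nat_lit 78) (nat_lit 380) (nat_lit 0) (XT.lf (nat_lit 0) (nat_lit 1096927389482) (nat_lit 228) (nat_lit 94504305482)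 (nat_lit 76) (nat_lit 193917225459) (nat_lit 38) (nat_lit 5) (nat_lit 41) (nat_lit 5) (nat_lit 39) (nat_lit 5) (nat_lit 424) (nat_lit 405) (nat_lit 191)) (XT.nd (nat_lit 78) (nat_lit 228) (nat_lit 0) (XT.lf (nat_lit 0) (nat_lit 714063454333) (nat_lit 152) (nat_lit 721919271839) (nat_lit 228) (nat_lit 17920174884) (nat_lit 36) (nat_lit 5) (nat_lit 38) (nat_lit 5) (nat_lit 39) (nat_lit 5) (nat_lit 425) (nat_lit 405) (nat_lit 190)) (XT.lf (nat_lit 0) (nat_lit 61364227085) (nat_lit 152) (nat_lit 203266238498) (nat_lit 228) (nat_lit 1262452985437) (nat_lit 33) (nat_lit 5) (nat_lit 35) (nat_lit 5) (nat_lit 36) (nat_lit 5) (nat_lit 426) (nat_lit 405) (nat_lit 189))))) (XT.nd (nat_lit 156) (nat_lit 152) (nat_lit 0) (XT.nd (nat_lit 78) (nat_lit 152) (nat_lit 0) (XT.lf (nat_lit 0) (nat_lit 598153884128) (nat_lit 228) (nat_lit 645334476773) (nat_lit 76) (nat_lit 360245896817) (nat_lit 33) (nat_lit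 5) (nat_lit 36) (nat_lit 5) (nat_lit 34) (nat_lit 5) (nat_lit 427) (nat_lit 405) (nat_lit 188)) (XT.lf (nat_lit 0) (nat_lit 247797220238) (nat_lit 152) (nat_lit 721801122563) (nat_lit 228) (nat_lit 716019652822) (nat_lit 31) (nat_lit 5) (nat_lit 33) (nat_lit 5) (nat_lit 34) (nat_lit 5) (nat_lit 428) (nat_lit 405) (nat_lit 187))) (XT.nd (nat_lit 78) (nat_lit 152) (nat_lit 0) (XT.lf (nat_lit 0) (nat_lit 1249080188814) (nat_lit 152) (nat_lit 139322752749) (nat_lit 228) (nat_lit 384237924330) (nat_lit 31) (nat_lit 5) (nat_lit 33) (nat_lit 5) (nat_lit 34) (nat_lit 5) (nat_lit 429) (nat_lit 405) (nat_lit 186)) (XT.nd (nat_lit 78) (nat_lit 76) (nat_lit 0) (XT.lf (nat_lit 0) (nat_lit 475866393163) (nat_lit 76) (nat_lit 1388068701476) (nat_lit 152) (nat_lit 832616233) (nat_lit 30) (nat_lit 5) (nat_lit 31) (nat_lit 5) (nat_lit 32) (nat_lit 4) (nat_lit 430) (nat_lit 405) (nat_lit 185)) (XT.lf (nat_lit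 0) (nat_lit 410878587351) (nat_lit 152) (nat_lit 392025664113) (nat_lit 76) (nat_lit 1159100914372) (nat_lit 29) (nat_lit 5) (nat_lit 31) (nat_lit 5) (nat_lit 30) (nat_lit 5) (nat_lit 431) (nat_lit 405) (nat_lit 184))))))) (XT.nd (nat_lit 780) (nat_lit 456) (nat_lit 0) (XT.nd (nat_lit 390) (nat_lit 304) (nat_lit 0) (XT.nd (nat_lit 156) (nat_lit 304) (nat_lit 0) (XT.nd (nat_lit 78) (nat_lit 0) (nat_lit 0) (XT.lf (nat_lit 0) (nat_lit 720627094257) (nat_lit 152) (nat_lit 152185704851) (nat_lit 228) (nat_lit 1192820600396) (nat_lit 27) (nat_lit 5) (nat_lit 29) (nat_lit 5) (nat_lit 30) (nat_lit 5) (nat_lit 432) (nat_lit 405) (nat_lit 183)) (XT.lf (nat_lit 0) (nat_lit 1395940537863) (nat_lit 228) (nat_lit 245627602334) (nat_lit 76) (nat_lit 534044648468) (nat_lit 27) (nat_lit 5) (nat_lit 30) (nat_lit 5) (nat_lit 28) (nat_lit 4) (nat_lit 433) (nat_lit 405) (nat_lit 182))) (XT.nd (nat_lit 78)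 (nat_lit 228) (nat_lit 0) (XT.lf (nat_lit 0) (nat_lit 987128689830) (nat_lit 76) (nat_lit 1001483146290) (nat_lit 152) (nat_lit 303563225607) (nat_lit 26) (nat_lit 5) (nat_lit 27) (nat_lit 5) (nat_lit 28) (nat_lit 4) (nat_lit 434) (nat_lit 405) (nat_lit 181)) (XT.nd (nat_lit 78) (nat_lit 152) (nat_lit 0) (XT.lf (nat_lit 0) (nat_lit 206988058752) (nat_lit 152) (nat_lit 90290711001) (nat_lit 76) (nat_lit 2119827059338) (nat_lit 25) (nat_lit 5) (nat_lit 27) (nat_lit 5) (nat_lit 26) (nat_lit 5) (nat_lit 435) (nat_lit 405) (nat_lit 180)) (XT.lf (nat_lit 0) (nat_lit 784855653859) (nat_lit 228) (nat_lit 1283411299177) (nat_lit 76) (nat_lit 479703523526) (nat_lit 23) (nat_lit 5) (nat_lit 26) (nat_lit 5) (nat_lit 24) (nat_lit 4) (nat_lit 436) (nat_lit 405) (nat_lit 179))))) (XT.nd (nat_lit 156) (nat_lit 228) (nat_lit 0) (XT.nd (nat_lit 78) (nat_lit 0) (nat_lit 0) (XT.lf (nat_lit 0) (nat_lit 37937292543)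 (nat_lit 76) (nat_lit 1382182110237) (nat_lit 152) (nat_lit 1268291553356) (nat_lit 22) (nat_lit 5) (nat_lit 23) (nat_lit 5) (nat_lit 24) (nat_lit 4) (nat_lit 437) (nat_lit 405) (nat_lit 178)) (XT.lf (nat_lit 0) (nat_lit 1537982503441) (nat_lit 76) (nat_lit 603312484187) (nat_lit 152) (nat_lit 695984427567) (nat_lit 22) (nat_lit 5) (nat_lit 23) (nat_lit 5) (nat_lit 24) (nat_lit 4) (nat_lit 438) (nat_lit 405) (nat_lit 177))) (XT.nd (nat_lit 78) (nat_lit 152) (nat_lit 0) (XT.lf (nat_lit 0) (nat_lit 162375978466) (nat_lit 76) (nat_lit 2767414484012) (nat_lit 76) (nat_lit 67496821047) (nat_lit 21) (nat_lit 4) (nat_lit 22) (nat_lit 5) (nat_lit 22) (nat_lit 4) (nat_lit 439) (nat_lit 405) (nat_lit 176)) (XT.nd (nat_lit 78) (nat_lit 76) (nat_lit 0) (XT.lf (nat_lit 0) (nat_lit 632809863748) (nat_lit 152) (nat_lit 1383673150803) (nat_lit 76) (nat_lit 1148267221669) (nat_lit 20) (nat_lit 5) (nat_lit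 22) (nat_lit 5) (nat_lit 21) (nat_lit 4) (nat_lit 440) (nat_lit 405) (nat_lit 175)) (XT.lf (nat_lit 0) (nat_lit 191489991222) (nat_lit 76) (nat_lit 1198609846629) (nat_lit 152) (nat_lit 1955001707266) (nat_lit 19) (nat_lit 5) (nat_lit 20) (nat_lit 5) (nat_lit 21) (nat_lit 4) (nat_lit 441) (nat_lit 405) (nat_lit 174)))))) (XT.nd (nat_lit 390) (nat_lit 228) (nat_lit 0) (XT.nd (nat_lit 156) (nat_lit 152) (nat_lit 0) (XT.nd (nat_lit 78) (nat_lit 76) (nat_lit 0) (XT.lf (nat_lit 0) (nat_lit 1971356897581) (nat_lit 76) (nat_lit 274448185539) (nat_lit 152) (nat_lit 1291049309745) (nat_lit 19) (nat_lit 5) (nat_lit 20) (nat_lit 5) (nat_lit 21) (nat_lit 4) (nat_lit 442) (nat_lit 405) (nat_lit 173)) (XT.lf (nat_lit 0) (nat_lit 139226650489) (nat_lit 76) (nat_lit 3051492212714) (nat_lit 76) (nat_lit 551568436017) (nat_lit 18) (nat_lit 4) (nat_lit 19) (nat_lit 5) (nat_lit 19) (nat_lit 4) (nat_lit 443)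 (nat_lit 405) (nat_lit 172))) (XT.nd (nat_lit 78) (nat_lit 76) (nat_lit 0) (XT.lf (nat_lit 0) (nat_lit 285755196263) (nat_lit 152) (nat_lit 1905552971488) (nat_lit 76) (nat_lit 1768287803344) (nat_lit 17) (nat_lit 5) (nat_lit 19) (nat_lit 5) (nat_lit 18) (nat_lit 4) (nat_lit 444) (nat_lit 405) (nat_lit 171)) (XT.nd (nat_lit 78) (nat_lit 76) (nat_lit 0) (XT.lf (nat_lit 0) (nat_lit 1160265694705) (nat_lit 152) (nat_lit 86571137522) (nat_lit 76) (nat_lit 2946306388455) (nat_lit 17) (nat_lit 5) (nat_lit 19) (nat_lit 5) (nat_lit 18) (nat_lit 4) (nat_lit 445) (nat_lit 405) (nat_lit 170)) (XT.lf (nat_lit 0) (nat_lit 1976817664671) (nat_lit 76) (nat_lit 175461878487) (nat_lit 152) (nat_lit 2289291306270) (nat_lit 16) (nat_lit 5) (nat_lit 17) (nat_lit 5) (nat_lit 18) (nat_lit 4) (nat_lit 446) (nat_lit 405) (nat_lit 169))))) (XT.nd (nat_lit 156) (nat_lit 152) (nat_lit 0) (XT.nd (nat_lit 78) (nat_lit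 76) (nat_lit 0) (XT.lf (nat_lit 0) (nat_lit 3249691044796) (nat_lit 152) (nat_lit 523151922938) (nat_lit 0) (nat_lit 934946797114) (nat_lit 16) (nat_lit 5) (nat_lit 18) (nat_lit 4) (nat_lit 16) (nat_lit 4) (nat_lit 447) (nat_lit 405) (nat_lit 168)) (XT.lf (nat_lit 0) (nat_lit 1651852327983) (nat_lit 76) (nat_lit 2827327676126) (nat_lit 76) (nat_lit 512583426390) (nat_lit 15) (nat_lit 4) (nat_lit 16) (nat_lit 5) (nat_lit 16) (nat_lit 4) (nat_lit 448) (nat_lit 405) (nat_lit 167))) (XT.nd (nat_lit 78) (nat_lit 76) (nat_lit 0) (XT.lf (nat_lit 0) (nat_lit 497807633546) (nat_lit 152) (nat_lit 1279304373860) (nat_lit 76) (nat_lit 3519190452110) (nat_lit 14) (nat_lit 5) (nat_lit 16) (nat_lit 5) (nat_lit 15) (nat_lit 4) (nat_lit 449) (nat_lit 405) (nat_lit 166)) (XT.nd (nat_lit 49686) (nat_lit 0) (nat_lit 3648) (XT.lf (nat_lit 0) (nat_lit 981958579292) (nat_lit 76) (nat_lit 602994705655) (nat_lit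 152) (nat_lit 4037296927446) (nat_lit 13) (nat_lit 5) (nat_lit 14) (nat_lit 5) (nat_lit 15) (nat_lit 4) (nat_lit 450) (nat_lit 405) (nat_lit 165)) (XT.lf (nat_lit 0) (nat_lit 276910167808) (nat_lit 532) (nat_lit 25016104317) (nat_lit 532) (nat_lit 25016104317) (nat_lit 61) (nat_lit 3) (nat_lit 68) (nat_lit 3) (nat_lit 68) (nat_lit 5) (nat_lit 406) (nat_lit 406) (nat_lit 208))))))))
noncomputable def xc236 : XT := (XT.nd (nat_lit 1482) (nat_lit 1520) (nat_lit 0) (XT.nd (nat_lit 702) (nat_lit 1064) (nat_lit 0) (XT.nd (nat_lit 312) (nat_lit 684) (nat_lit 0) (XT.nd (nat_lit 156) (nat_lit 0) (nat_lit 76) (XT.nd (nat_lit 78) (nat_lit 0) (nat_lit 76) (XT.lf (nat_lit 76) (nat_lit 279137408748) (nat_lit 0) (nat_lit 303549144427) (nat_lit 532) (nat_lit 96816517320) (nat_lit 62) (nat_lit 5) (nat_lit 61) (nat_lit 3) (nat_lit 68) (nat_lit 5) (nat_lit 407) (nat_lit 406) (nat_lit 207)) (XT.lf (nat_lit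 0) (nat_lit 615765278818) (nat_lit 456) (nat_lit 70110709622) (nat_lit 532) (nat_lit 21142608238) (nat_lit 62) (nat_lit 5) (nat_lit 68) (nat_lit 5) (nat_lit 69) (nat_lit 5) (nat_lit 408) (nat_lit 406) (nat_lit 206))) (XT.nd (nat_lit 78) (nat_lit 0) (nat_lit 0) (XT.lf (nat_lit 76) (nat_lit 293355043950) (nat_lit 0) (nat_lit 373074834522) (nat_lit 532) (nat_lit 69110320422) (nat_lit 63) (nat_lit 5) (nat_lit 62) (nat_lit 5) (nat_lit 69) (nat_lit 5) (nat_lit 409) (nat_lit 406) (nat_lit 205)) (XT.lf (nat_lit 76) (nat_lit 689885307454) (nat_lit 0) (nat_lit 33179277207) (nat_lit 532) (nat_lit 43125589556) (nat_lit 63) (nat_lit 5) (nat_lit 62) (nat_lit 5) (nat_lit 69) (nat_lit 5) (nat_lit 410) (nat_lit 406) (nat_lit 204)))) (XT.nd (nat_lit 156) (nat_lit 304) (nat_lit 0) (XT.nd (nat_lit 78) (nat_lit 0) (nat_lit 0) (XT.lf (nat_lit 0) (nat_lit 2003577882) (nat_lit 532) (nat_lit 470888606056) (nat_lit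 608) (nat_lit 325123967765) (nat_lit 56) (nat_lit 5) (nat_lit 63) (nat_lit 5) (nat_lit 64) (nat_lit 5) (nat_lit 411) (nat_lit 406) (nat_lit 203)) (XT.lf (nat_lit 0) (nat_lit 51415465176) (nat_lit 532) (nat_lit 67083369896) (nat_lit 608) (nat_lit 713559577637) (nat_lit 56) (nat_lit 5) (nat_lit 63) (nat_lit 5) (nat_lit 64) (nat_lit 5) (nat_lit 412) (nat_lit 406) (nat_lit 202))) (XT.nd (nat_lit 78) (nat_lit 380) (nat_lit 0) (XT.lf (nat_lit 0) (nat_lit 120720513500) (nat_lit 532) (nat_lit 486215897111) (nat_lit 76) (nat_lit 260612427192) (nat_lit 57) (nat_lit 5) (nat_lit 64) (nat_lit 5) (nat_lit 58) (nat_lit 5) (nat_lit 413) (nat_lit 406) (nat_lit 201)) (XT.nd (nat_lit 78) (nat_lit 380) (nat_lit 0) (XT.lf (nat_lit 0) (nat_lit 200529667009) (nat_lit 532) (nat_lit 39419657859) (nat_lit 76) (nat_lit 665532395942) (nat_lit 57) (nat_lit 5) (nat_lit 64) (nat_lit 5) (nat_lit 58) (nat_lit 5) (nat_lit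 414) (nat_lit 406) (nat_lit 200)) (XT.lf (nat_lit 0) (nat_lit 301994506339) (nat_lit 456) (nat_lit 483150303954) (nat_lit 76) (nat_lit 160082747890) (nat_lit 52) (nat_lit 5) (nat_lit 58) (nat_lit 5) (nat_lit 53) (nat_lit 5) (nat_lit 415) (nat_lit 406) (nat_lit 199)))))) (XT.nd (nat_lit 390) (nat_lit 456) (nat_lit 0) (XT.nd (nat_lit 156) (nat_lit 380) (nat_lit 0) (XT.nd (nat_lit 78) (nat_lit 0) (nat_lit 0) (XT.lf (nat_lit 0) (nat_lit 12219738800) (nat_lit 228) (nat_lit 406988918700) (nat_lit 304) (nat_lit 568333835080) (nat_lit 49) (nat_lit 5) (nat_lit 52) (nat_lit 5) (nat_lit 53) (nat_lit 5) (nat_lit 416) (nat_lit 406) (nat_lit 198)) (XT.lf (nat_lit 0) (nat_lit 559387377536) (nat_lit 304) (nat_lit 457866504810) (nat_lit 76) (nat_lit 14901744448) (nat_lit 49) (nat_lit 5) (nat_lit 53) (nat_lit 5) (nat_lit 50) (nat_lit 5) (nat_lit 417) (nat_lit 406) (nat_lit 197))) (XT.nd (nat_lit 78) (nat_lit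 152) (nat_lit 0) (XT.lf (nat_lit 0) (nat_lit 95176193259) (nat_lit 228) (nat_lit 628464324882) (nat_lit 304) (nat_lit 355668483773) (nat_lit 46) (nat_lit 5) (nat_lit 49) (nat_lit 5) (nat_lit 50) (nat_lit 5) (nat_lit 418) (nat_lit 406) (nat_lit 196)) (XT.nd (nat_lit 78) (nat_lit 152) (nat_lit 0) (XT.lf (nat_lit 0) (nat_lit 718501572504) (nat_lit 228) (nat_lit 195051211981) (nat_lit 304) (nat_lit 215680352608) (nat_lit 46) (nat_lit 5) (nat_lit 49) (nat_lit 5) (nat_lit 50) (nat_lit 5) (nat_lit 419) (nat_lit 406) (nat_lit 195)) (XT.lf (nat_lit 0) (nat_lit 212610933479) (nat_lit 152) (nat_lit 917726887174) (nat_lit 228) (nat_lit 51878999359) (nat_lit 44) (nat_lit 5) (nat_lit 46) (nat_lit 5) (nat_lit 47) (nat_lit 5) (nat_lit 420) (nat_lit 406) (nat_lit 194))))) (XT.nd (nat_lit 156) (nat_lit 152) (nat_lit 0) (XT.nd (nat_lit 78) (nat_lit 228) (nat_lit 0) (XT.lf (nat_lit 0) (nat_lit 135360211376)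 (nat_lit 228) (nat_lit 337726142688) (nat_lit 76) (nat_lit 764785246013) (nat_lit 43) (nat_lit 5) (nat_lit 46) (nat_lit 5) (nat_lit 44) (nat_lit 5) (nat_lit 421) (nat_lit 406) (nat_lit 193)) (XT.lf (nat_lit 0) (nat_lit 343900455909) (nat_lit 304) (nat_lit 936170695378) (nat_lit 76) (nat_lit 17069833914) (nat_lit 40) (nat_lit 5) (nat_lit 44) (nat_lit 5) (nat_lit 41) (nat_lit 5) (nat_lit 422) (nat_lit 406) (nat_lit 192))) (XT.nd (nat_lit 78) (nat_lit 152) (nat_lit 0) (XT.lf (nat_lit 0) (nat_lit 590885747631) (nat_lit 304) (nat_lit 238171787039) (nat_lit 76) (nat_lit 530353440262) (nat_lit 40) (nat_lit 5) (nat_lit 44) (nat_lit 5) (nat_lit 41) (nat_lit 5) (nat_lit 423) (nat_lit 406) (nat_lit 191)) (XT.nd (nat_lit 78) (nat_lit 0) (nat_lit 0) (XT.lf (nat_lit 0) (nat_lit 542821138231) (nat_lit 152) (nat_lit 327863580487) (nat_lit 228) (nat_lit 554933456644) (nat_lit 38) (nat_lit 5) (nat_lit 40)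 (nat_lit 5) (nat_lit 41) (nat_lit 5) (nat_lit 424) (nat_lit 406) (nat_lit 190)) (XT.lf (nat_lit 0) (nat_lit 1184681682650) (nat_lit 228) (nat_lit 102064499975) (nat_lit 76) (nat_lit 209430643193) (nat_lit 38) (nat_lit 5) (nat_lit 41) (nat_lit 5) (nat_lit 39) (nat_lit 5) (nat_lit 425) (nat_lit 406) (nat_lit 189))))))) (XT.nd (nat_lit 702) (nat_lit 684) (nat_lit 0) (XT.nd (nat_lit 312) (nat_lit 304) (nat_lit 0) (XT.nd (nat_lit 156) (nat_lit 152) (nat_lit 0) (XT.nd (nat_lit 78) (nat_lit 228) (nat_lit 0) (XT.lf (nat_lit 0) (nat_lit 771188676829) (nat_lit 152) (nat_lit 779672765405) (nat_lit 228) (nat_lit 19353682996) (nat_lit 36) (nat_lit 5) (nat_lit 38) (nat_lit 5) (nat_lit 39) (nat_lit 5) (nat_lit 426) (nat_lit 406) (nat_lit 188)) (XT.lf (nat_lit 0) (nat_lit 66273512929) (nat_lit 152) (nat_lit 219527486583) (nat_lit 228) (nat_lit 1363449119792) (nat_lit 33) (nat_lit 5) (nat_lit 35) (nat_lit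 5) (nat_lit 36) (nat_lit 5) (nat_lit 427) (nat_lit 406) (nat_lit 187))) (XT.nd (nat_lit 78) (nat_lit 152) (nat_lit 0) (XT.lf (nat_lit 0) (nat_lit 646006285515) (nat_lit 228) (nat_lit 696961092092) (nat_lit 76) (nat_lit 389065613418) (nat_lit 33) (nat_lit 5) (nat_lit 36) (nat_lit 5) (nat_lit 34) (nat_lit 5) (nat_lit 428) (nat_lit 406) (nat_lit 186)) (XT.lf (nat_lit 0) (nat_lit 267621137064) (nat_lit 152) (nat_lit 779545160451) (nat_lit 228) (nat_lit 773301130722) (nat_lit 31) (nat_lit 5) (nat_lit 33) (nat_lit 5) (nat_lit 34) (nat_lit 5) (nat_lit 429) (nat_lit 406) (nat_lit 185)))) (XT.nd (nat_lit 156) (nat_lit 228) (nat_lit 0) (XT.nd (nat_lit 78) (nat_lit 76) (nat_lit 0) (XT.lf (nat_lit 0) (nat_lit 1349006732814) (nat_lit 152) (nat_lit 150468524897) (nat_lit 228) (nat_lit 414976870937) (nat_lit 31) (nat_lit 5) (nat_lit 33) (nat_lit 5) (nat_lit 34) (nat_lit 5) (nat_lit 430) (nat_lit 406)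 (nat_lit 184)) (XT.lf (nat_lit 0) (nat_lit 513935835472) (nat_lit 76) (nat_lit 1499114145792) (nat_lit 152) (nat_lit 899140107) (nat_lit 30) (nat_lit 5) (nat_lit 31) (nat_lit 5) (nat_lit 32) (nat_lit 4) (nat_lit 431) (nat_lit 406) (nat_lit 183))) (XT.nd (nat_lit 78) (nat_lit 152) (nat_lit 0) (XT.lf (nat_lit 0) (nat_lit 443748949480) (nat_lit 152) (nat_lit 423387592083) (nat_lit 76) (nat_lit 1251829031490) (nat_lit 29) (nat_lit 5) (nat_lit 31) (nat_lit 5) (nat_lit 30) (nat_lit 5) (nat_lit 432) (nat_lit 406) (nat_lit 182)) (XT.nd (nat_lit 78) (nat_lit 0) (nat_lit 0) (XT.lf (nat_lit 0) (nat_lit 778277383789) (nat_lit 152) (nat_lit 164360511757) (nat_lit 228) (nat_lit 1288246170083) (nat_lit 27) (nat_lit 5) (nat_lit 29) (nat_lit 5) (nat_lit 30) (nat_lit 5) (nat_lit 433) (nat_lit 406) (nat_lit 181)) (XT.lf (nat_lit 0) (nat_lit 1507615849131) (nat_lit 228) (nat_lit 265277693264) (nat_lit 76)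 (nat_lit 576768263870) (nat_lit 27) (nat_lit 5) (nat_lit 30) (nat_lit 5) (nat_lit 28) (nat_lit 4) (nat_lit 434) (nat_lit 406) (nat_lit 180)))))) (XT.nd (nat_lit 390) (nat_lit 304) (nat_lit 0) (XT.nd (nat_lit 156) (nat_lit 228) (nat_lit 0) (XT.nd (nat_lit 78) (nat_lit 76) (nat_lit 0) (XT.lf (nat_lit 0) (nat_lit 1066099099305) (nat_lit 76) (nat_lit 1081601749637) (nat_lit 152) (nat_lit 327848212417) (nat_lit 26) (nat_lit 5) (nat_lit 27) (nat_lit 5) (nat_lit 28) (nat_lit 4) (nat_lit 435) (nat_lit 406) (nat_lit 179)) (XT.lf (nat_lit 0) (nat_lit 223547166115) (nat_lit 152) (nat_lit 97513858731) (nat_lit 76) (nat_lit 2289413265533) (nat_lit 25) (nat_lit 5) (nat_lit 27) (nat_lit 5) (nat_lit 26) (nat_lit 5) (nat_lit 436) (nat_lit 406) (nat_lit 178))) (XT.nd (nat_lit 78) (nat_lit 76) (nat_lit 0) (XT.lf (nat_lit 0) (nat_lit 847644167849) (nat_lit 228) (nat_lit 1386084092955) (nat_lit 76) (nat_lit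 518079848924) (nat_lit 23) (nat_lit 5) (nat_lit 26) (nat_lit 5) (nat_lit 24) (nat_lit 4) (nat_lit 437) (nat_lit 406) (nat_lit 177)) (XT.nd (nat_lit 78) (nat_lit 0) (nat_lit 0) (XT.lf (nat_lit 0) (nat_lit 40972383313) (nat_lit 76) (nat_lit 1492756631383) (nat_lit 152) (nat_lit 1369754813132) (nat_lit 22) (nat_lit 5) (nat_lit 23) (nat_lit 5) (nat_lit 24) (nat_lit 4) (nat_lit 438) (nat_lit 406) (nat_lit 176)) (XT.lf (nat_lit 0) (nat_lit 1661021203131) (nat_lit 76) (nat_lit 651577438781) (nat_lit 152) (nat_lit 751663122057) (nat_lit 22) (nat_lit 5) (nat_lit 23) (nat_lit 5) (nat_lit 24) (nat_lit 4) (nat_lit 439) (nat_lit 406) (nat_lit 175))))) (XT.nd (nat_lit 156) (nat_lit 152) (nat_lit 0) (XT.nd (nat_lit 78) (nat_lit 76) (nat_lit 0) (XT.lf (nat_lit 0) (nat_lit 175366156936) (nat_lit 76) (nat_lit 2988807597110) (nat_lit 76) (nat_lit 72896507774) (nat_lit 21) (nat_lit 4) (nat_lit 22) (nat_lit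 5) (nat_lit 22) (nat_lit 4) (nat_lit 440) (nat_lit 406) (nat_lit 174)) (XT.lf (nat_lit 0) (nat_lit 683434704706) (nat_lit 152) (nat_lit 1494366907348) (nat_lit 76) (nat_lit 1240128638898) (nat_lit 20) (nat_lit 5) (nat_lit 22) (nat_lit 5) (nat_lit 21) (nat_lit 4) (nat_lit 441) (nat_lit 406) (nat_lit 173))) (XT.nd (nat_lit 78) (nat_lit 76) (nat_lit 0) (XT.lf (nat_lit 0) (nat_lit 206809283620) (nat_lit 76) (nat_lit 1294498591514) (nat_lit 152) (nat_lit 2111401789556) (nat_lit 19) (nat_lit 5) (nat_lit 20) (nat_lit 5) (nat_lit 21) (nat_lit 4) (nat_lit 442) (nat_lit 406) (nat_lit 172)) (XT.nd (nat_lit 78) (nat_lit 76) (nat_lit 0) (XT.lf (nat_lit 0) (nat_lit 2129065535592) (nat_lit 76) (nat_lit 296404000712) (nat_lit 152) (nat_lit 1394333204254) (nat_lit 19) (nat_lit 5) (nat_lit 20) (nat_lit 5) (nat_lit 21) (nat_lit 4) (nat_lit 443) (nat_lit 406) (nat_lit 171)) (XT.lf (nat_lit 0) (nat_lit 150364869263)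 (nat_lit 76) (nat_lit 3295611549052) (nat_lit 76) (nat_lit 595693861145) (nat_lit 18) (nat_lit 4) (nat_lit 19) (nat_lit 5) (nat_lit 19) (nat_lit 4) (nat_lit 444) (nat_lit 406) (nat_lit 170))))))))
noncomputable def xc237 : XT := (XT.nd (nat_lit 51168) (nat_lit 0) (nat_lit 608) (XT.nd (nat_lit 50388) (nat_lit 0) (nat_lit 2432) (XT.nd (nat_lit 312) (nat_lit 152) (nat_lit 0) (XT.nd (nat_lit 156) (nat_lit 76) (nat_lit 0) (XT.nd (nat_lit 78) (nat_lit 0) (nat_lit 0) (XT.lf (nat_lit 0) (nat_lit 308615655727) (nat_lit 152) (nat_lit 2057997126581) (nat_lit 76) (nat_lit 1909750862961) (nat_lit 17) (nat_lit 5) (nat_lit 19) (nat_lit 5) (nat_lit 18) (nat_lit 4) (nat_lit 445) (nat_lit 406) (nat_lit 169)) (XT.lf (nat_lit 0) (nat_lit 1253086990804) (nat_lit 152) (nat_lit 93496752019) (nat_lit 76) (nat_lit 3182010932263) (nat_lit 17) (nat_lit 5) (nat_lit 19) (nat_lit 5) (nat_lit 18) (nat_lit 4) (nat_lit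 446) (nat_lit 406) (nat_lit 168))) (XT.nd (nat_lit 78) (nat_lit 0) (nat_lit 0) (XT.lf (nat_lit 0) (nat_lit 2134963152413) (nat_lit 76) (nat_lit 189498793511) (nat_lit 152) (nat_lit 2472434568303) (nat_lit 16) (nat_lit 5) (nat_lit 17) (nat_lit 5) (nat_lit 18) (nat_lit 4) (nat_lit 447) (nat_lit 406) (nat_lit 167)) (XT.lf (nat_lit 0) (nat_lit 3509666365566) (nat_lit 152) (nat_lit 565004005593) (nat_lit 0) (nat_lit 1009742571894) (nat_lit 16) (nat_lit 5) (nat_lit 18) (nat_lit 4) (nat_lit 16) (nat_lit 4) (nat_lit 448) (nat_lit 406) (nat_lit 166)))) (XT.nd (nat_lit 49842) (nat_lit 0) (nat_lit 3572) (XT.nd (nat_lit 78) (nat_lit 76) (nat_lit 0) (XT.lf (nat_lit 0) (nat_lit 1784000583601) (nat_lit 76) (nat_lit 3053513856938) (nat_lit 76) (nat_lit 553590061504) (nat_lit 15) (nat_lit 4) (nat_lit 16) (nat_lit 5) (nat_lit 16) (nat_lit 4) (nat_lit 449) (nat_lit 406) (nat_lit 165)) (XT.lf (nat_lit 0)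 (nat_lit 537632278532) (nat_lit 152) (nat_lit 1381648657716) (nat_lit 76) (nat_lit 3800725717279) (nat_lit 14) (nat_lit 5) (nat_lit 16) (nat_lit 5) (nat_lit 15) (nat_lit 4) (nat_lit 450) (nat_lit 406) (nat_lit 164))) (XT.nd (nat_lit 78) (nat_lit 0) (nat_lit 0) (XT.lf (nat_lit 0) (nat_lit 299063120541) (nat_lit 532) (nat_lit 27017317351) (nat_lit 532) (nat_lit 27017317351) (nat_lit 61) (nat_lit 3) (nat_lit 68) (nat_lit 3) (nat_lit 68) (nat_lit 5) (nat_lit 407) (nat_lit 407) (nat_lit 206)) (XT.nd (nat_lit 78) (nat_lit 0) (nat_lit 76) (XT.lf (nat_lit 76) (nat_lit 301468548259) (nat_lit 0) (nat_lit 327833190681) (nat_lit 532) (nat_lit 104561555959) (nat_lit 62) (nat_lit 5) (nat_lit 61) (nat_lit 3) (nat_lit 68) (nat_lit 5) (nat_lit 408) (nat_lit 407) (nat_lit 205)) (XT.lf (nat_lit 0) (nat_lit 665026740708) (nat_lit 456) (nat_lit 75719408239) (nat_lit 532) (nat_lit 22833916006) (nat_lit 62)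 (nat_lit 5) (nat_lit 68) (nat_lit 5) (nat_lit 69) (nat_lit 5) (nat_lit 409) (nat_lit 407) (nat_lit 204)))))) (XT.nd (nat_lit 390) (nat_lit 760) (nat_lit 0) (XT.nd (nat_lit 156) (nat_lit 456) (nat_lit 0) (XT.nd (nat_lit 78) (nat_lit 0) (nat_lit 0) (XT.lf (nat_lit 76) (nat_lit 316823601615) (nat_lit 0) (nat_lit 402920892681) (nat_lit 532) (nat_lit 74638902197) (nat_lit 63) (nat_lit 5) (nat_lit 62) (nat_lit 5) (nat_lit 69) (nat_lit 5) (nat_lit 410) (nat_lit 407) (nat_lit 203)) (XT.lf (nat_lit 76) (nat_lit 745076274781) (nat_lit 0) (nat_lit 35833685491) (nat_lit 532) (nat_lit 46575410925) (nat_lit 63) (nat_lit 5) (nat_lit 62) (nat_lit 5) (nat_lit 69) (nat_lit 5) (nat_lit 411) (nat_lit 407) (nat_lit 202))) (XT.nd (nat_lit 78) (nat_lit 0) (nat_lit 0) (XT.lf (nat_lit 0) (nat_lit 2164065092) (nat_lit 532) (nat_lit 508559526548) (nat_lit 608) (nat_lit 351133835906) (nat_lit 56) (nat_lit 5) (nat_lit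 63) (nat_lit 5) (nat_lit 64) (nat_lit 5) (nat_lit 412) (nat_lit 407) (nat_lit 201)) (XT.nd (nat_lit 78) (nat_lit 0) (nat_lit 76) (XT.lf (nat_lit 0) (nat_lit 55528888482) (nat_lit 532) (nat_lit 72449883940) (nat_lit 608) (nat_lit 770644298218) (nat_lit 56) (nat_lit 5) (nat_lit 63) (nat_lit 5) (nat_lit 64) (nat_lit 5) (nat_lit 413) (nat_lit 407) (nat_lit 200)) (XT.lf (nat_lit 0) (nat_lit 130378329948) (nat_lit 532) (nat_lit 525113002424) (nat_lit 76) (nat_lit 281461398242) (nat_lit 57) (nat_lit 5) (nat_lit 64) (nat_lit 5) (nat_lit 58) (nat_lit 5) (nat_lit 414) (nat_lit 407) (nat_lit 199))))) (XT.nd (nat_lit 156) (nat_lit 456) (nat_lit 0) (XT.nd (nat_lit 78) (nat_lit 380) (nat_lit 0) (XT.lf (nat_lit 0) (nat_lit 216572202748) (nat_lit 532) (nat_lit 42573076362) (nat_lit 76) (nat_lit 718774966204) (nat_lit 57) (nat_lit 5) (nat_lit 64) (nat_lit 5) (nat_lit 58) (nat_lit 5) (nat_lit 415) (nat_lit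 407) (nat_lit 198)) (XT.lf (nat_lit 0) (nat_lit 326154220719) (nat_lit 456) (nat_lit 521802165482) (nat_lit 76) (nat_lit 172889364169) (nat_lit 52) (nat_lit 5) (nat_lit 58) (nat_lit 5) (nat_lit 53) (nat_lit 5) (nat_lit 416) (nat_lit 407) (nat_lit 197))) (XT.nd (nat_lit 78) (nat_lit 228) (nat_lit 0) (XT.lf (nat_lit 0) (nat_lit 13197476571) (nat_lit 228) (nat_lit 439548019820) (nat_lit 304) (nat_lit 613800383746) (nat_lit 49) (nat_lit 5) (nat_lit 52) (nat_lit 5) (nat_lit 53) (nat_lit 5) (nat_lit 417) (nat_lit 407) (nat_lit 196)) (XT.nd (nat_lit 78) (nat_lit 228) (nat_lit 0) (XT.lf (nat_lit 0) (nat_lit 604138503469) (nat_lit 304) (nat_lit 494495667584) (nat_lit 76) (nat_lit 16093894890) (nat_lit 49) (nat_lit 5) (nat_lit 53) (nat_lit 5) (nat_lit 50) (nat_lit 5) (nat_lit 418) (nat_lit 407) (nat_lit 195)) (XT.lf (nat_lit 0) (nat_lit 102790442340) (nat_lit 228) (nat_lit 678741446624) (nat_lit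 304) (nat_lit 384121822629) (nat_lit 46) (nat_lit 5) (nat_lit 49) (nat_lit 5) (nat_lit 50) (nat_lit 5) (nat_lit 419) (nat_lit 407) (nat_lit 194))))))) (XT.nd (nat_lit 780) (nat_lit 836) (nat_lit 0) (XT.nd (nat_lit 390) (nat_lit 532) (nat_lit 0) (XT.nd (nat_lit 156) (nat_lit 304) (nat_lit 0) (XT.nd (nat_lit 78) (nat_lit 152) (nat_lit 0) (XT.lf (nat_lit 0) (nat_lit 775981840546) (nat_lit 228) (nat_lit 210655286487) (nat_lit 304) (nat_lit 232934651330) (nat_lit 46) (nat_lit 5) (nat_lit 49) (nat_lit 5) (nat_lit 50) (nat_lit 5) (nat_lit 420) (nat_lit 407) (nat_lit 193)) (XT.lf (nat_lit 0) (nat_lit 229619955724) (nat_lit 152) (nat_lit 991145005544) (nat_lit 228) (nat_lit 56029195040) (nat_lit 44) (nat_lit 5) (nat_lit 46) (nat_lit 5) (nat_lit 47) (nat_lit 5) (nat_lit 421) (nat_lit 407) (nat_lit 192))) (XT.nd (nat_lit 78) (nat_lit 228) (nat_lit 0) (XT.lf (nat_lit 0) (nat_lit 146189137593) (nat_lit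 228) (nat_lit 364744091620) (nat_lit 76) (nat_lit 825968090034) (nat_lit 43) (nat_lit 5) (nat_lit 46) (nat_lit 5) (nat_lit 44) (nat_lit 5) (nat_lit 422) (nat_lit 407) (nat_lit 191)) (XT.nd (nat_lit 78) (nat_lit 0) (nat_lit 0) (XT.lf (nat_lit 0) (nat_lit 371412597758) (nat_lit 304) (nat_lit 1011064204508) (nat_lit 76) (nat_lit 18435453237) (nat_lit 40) (nat_lit 5) (nat_lit 44) (nat_lit 5) (nat_lit 41) (nat_lit 5) (nat_lit 423) (nat_lit 407) (nat_lit 190)) (XT.lf (nat_lit 0) (nat_lit 638156705012) (nat_lit 304) (nat_lit 257225394354) (nat_lit 76) (nat_lit 572781745677) (nat_lit 40) (nat_lit 5) (nat_lit 44) (nat_lit 5) (nat_lit 41) (nat_lit 5) (nat_lit 424) (nat_lit 407) (nat_lit 189))))) (XT.nd (nat_lit 156) (nat_lit 380) (nat_lit 0) (XT.nd (nat_lit 78) (nat_lit 0) (nat_lit 0) (XT.lf (nat_lit 0) (nat_lit 586246961504) (nat_lit 152) (nat_lit 354092628234) (nat_lit 228) (nat_lit 599328032098)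 (nat_lit 38) (nat_lit 5) (nat_lit 40) (nat_lit 5) (nat_lit 41) (nat_lit 5) (nat_lit 425) (nat_lit 407) (nat_lit 188)) (XT.lf (nat_lit 0) (nat_lit 1279456304718) (nat_lit 228) (nat_lit 110229531418) (nat_lit 76) (nat_lit 226185128682) (nat_lit 38) (nat_lit 5) (nat_lit 41) (nat_lit 5) (nat_lit 39) (nat_lit 5) (nat_lit 426) (nat_lit 407) (nat_lit 187))) (XT.nd (nat_lit 78) (nat_lit 228) (nat_lit 0) (XT.lf (nat_lit 0) (nat_lit 832883896275) (nat_lit 152) (nat_lit 842046545329) (nat_lit 228) (nat_lit 20901886862) (nat_lit 36) (nat_lit 5) (nat_lit 38) (nat_lit 5) (nat_lit 39) (nat_lit 5) (nat_lit 427) (nat_lit 407) (nat_lit 186)) (XT.nd (nat_lit 78) (nat_lit 0) (nat_lit 0) (XT.lf (nat_lit 0) (nat_lit 71575520574) (nat_lit 152) (nat_lit 237089641790) (nat_lit 228) (nat_lit 1472524959800) (nat_lit 33) (nat_lit 5) (nat_lit 35) (nat_lit 5) (nat_lit 36) (nat_lit 5) (nat_lit 428) (nat_lit 407) (nat_lit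 185)) (XT.lf (nat_lit 0) (nat_lit 697686866080) (nat_lit 228) (nat_lit 752717857012) (nat_lit 76) (nat_lit 420190900948) (nat_lit 33) (nat_lit 5) (nat_lit 36) (nat_lit 5) (nat_lit 34) (nat_lit 5) (nat_lit 429) (nat_lit 407) (nat_lit 184)))))) (XT.nd (nat_lit 390) (nat_lit 380) (nat_lit 0) (XT.nd (nat_lit 156) (nat_lit 304) (nat_lit 0) (XT.nd (nat_lit 78) (nat_lit 0) (nat_lit 0) (XT.lf (nat_lit 0) (nat_lit 289030947376) (nat_lit 152) (nat_lit 841908728776) (nat_lit 228) (nat_lit 835165140310) (nat_lit 31) (nat_lit 5) (nat_lit 33) (nat_lit 5) (nat_lit 34) (nat_lit 5) (nat_lit 430) (nat_lit 407) (nat_lit 183)) (XT.lf (nat_lit 0) (nat_lit 1456927381946) (nat_lit 152) (nat_lit 162505965675) (nat_lit 228) (nat_lit 448174945733) (nat_lit 31) (nat_lit 5) (nat_lit 33) (nat_lit 5) (nat_lit 34) (nat_lit 5) (nat_lit 431) (nat_lit 407) (nat_lit 182))) (XT.nd (nat_lit 78) (nat_lit 228) (nat_lit 0) (XT.lf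 (nat_lit 0) (nat_lit 555050814498) (nat_lit 76) (nat_lit 1619043233044) (nat_lit 152) (nat_lit 970998078) (nat_lit 30) (nat_lit 5) (nat_lit 31) (nat_lit 5) (nat_lit 32) (nat_lit 4) (nat_lit 432) (nat_lit 407) (nat_lit 181)) (XT.nd (nat_lit 78) (nat_lit 152) (nat_lit 0) (XT.lf (nat_lit 0) (nat_lit 479248929859) (nat_lit 152) (nat_lit 457258492146) (nat_lit 76) (nat_lit 1351975391705) (nat_lit 29) (nat_lit 5) (nat_lit 31) (nat_lit 5) (nat_lit 30) (nat_lit 5) (nat_lit 433) (nat_lit 407) (nat_lit 180)) (XT.lf (nat_lit 0) (nat_lit 840539679079) (nat_lit 152) (nat_lit 177509310274) (nat_lit 228) (nat_lit 1391305796521) (nat_lit 27) (nat_lit 5) (nat_lit 29) (nat_lit 5) (nat_lit 30) (nat_lit 5) (nat_lit 434) (nat_lit 407) (nat_lit 179))))) (XT.nd (nat_lit 156) (nat_lit 304) (nat_lit 0) (XT.nd (nat_lit 78) (nat_lit 76) (nat_lit 0) (XT.lf (nat_lit 0) (nat_lit 1628225175565) (nat_lit 228) (nat_lit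 286499808196) (nat_lit 76) (nat_lit 622909762296) (nat_lit 27) (nat_lit 5) (nat_lit 30) (nat_lit 5) (nat_lit 28) (nat_lit 4) (nat_lit 435) (nat_lit 407) (nat_lit 178)) (XT.lf (nat_lit 0) (nat_lit 1151387125234) (nat_lit 76) (nat_lit 1168129848151) (nat_lit 152) (nat_lit 354076008334) (nat_lit 26) (nat_lit 5) (nat_lit 27) (nat_lit 5) (nat_lit 28) (nat_lit 4) (nat_lit 436) (nat_lit 407) (nat_lit 177))) (XT.nd (nat_lit 78) (nat_lit 228) (nat_lit 0) (XT.lf (nat_lit 0) (nat_lit 241430993127) (nat_lit 152) (nat_lit 105314873852) (nat_lit 76) (nat_lit 2472566362310) (nat_lit 25) (nat_lit 5) (nat_lit 27) (nat_lit 5) (nat_lit 26) (nat_lit 5) (nat_lit 437) (nat_lit 407) (nat_lit 176)) (XT.nd (nat_lit 78) (nat_lit 76) (nat_lit 0) (XT.lf (nat_lit 0) (nat_lit 915455754158) (nat_lit 228) (nat_lit 1496970725951) (nat_lit 76) (nat_lit 559526274145) (nat_lit 23) (nat_lit 5) (nat_lit 26) (nat_lit 5) (nat_lit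 24) (nat_lit 4) (nat_lit 438) (nat_lit 407) (nat_lit 175)) (XT.lf (nat_lit 0) (nat_lit 44250266028) (nat_lit 76) (nat_lit 1612177121022) (nat_lit 152) (nat_lit 1479335142891) (nat_lit 22) (nat_lit 5) (nat_lit 23) (nat_lit 5) (nat_lit 24) (nat_lit 4) (nat_lit 439) (nat_lit 407) (nat_lit 174))))))))
noncomputable def xc238 : XT := (XT.nd (nat_lit 51324) (nat_lit 0) (nat_lit 836) (XT.nd (nat_lit 702) (nat_lit 0) (nat_lit 0) (XT.nd (nat_lit 312) (nat_lit 228) (nat_lit 0) (XT.nd (nat_lit 156) (nat_lit 152) (nat_lit 0) (XT.nd (nat_lit 78) (nat_lit 76) (nat_lit 0) (XT.lf (nat_lit 0) (nat_lit 1793902984612) (nat_lit 76) (nat_lit 703703596039) (nat_lit 152) (nat_lit 811796120625) (nat_lit 22) (nat_lit 5) (nat_lit 23) (nat_lit 5) (nat_lit 24) (nat_lit 4) (nat_lit 440) (nat_lit 407) (nat_lit 173)) (XT.lf (nat_lit 0) (nat_lit 189395535391) (nat_lit 76) (nat_lit 3227912165766) (nat_lit 76) (nat_lit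 78728177851) (nat_lit 21) (nat_lit 4) (nat_lit 22) (nat_lit 5) (nat_lit 22) (nat_lit 4) (nat_lit 441) (nat_lit 407) (nat_lit 172))) (XT.nd (nat_lit 78) (nat_lit 76) (nat_lit 0) (XT.lf (nat_lit 0) (nat_lit 738109525543) (nat_lit 152) (nat_lit 1613916178044) (nat_lit 76) (nat_lit 1339338963870) (nat_lit 20) (nat_lit 5) (nat_lit 22) (nat_lit 5) (nat_lit 21) (nat_lit 4) (nat_lit 442) (nat_lit 407) (nat_lit 171)) (XT.lf (nat_lit 0) (nat_lit 223354106128) (nat_lit 76) (nat_lit 1398058442103) (nat_lit 152) (nat_lit 2280313886173) (nat_lit 19) (nat_lit 5) (nat_lit 20) (nat_lit 5) (nat_lit 21) (nat_lit 4) (nat_lit 443) (nat_lit 407) (nat_lit 170)))) (XT.nd (nat_lit 156) (nat_lit 152) (nat_lit 0) (XT.nd (nat_lit 78) (nat_lit 76) (nat_lit 0) (XT.lf (nat_lit 0) (nat_lit 2299390852345) (nat_lit 76) (nat_lit 320116286757) (nat_lit 152) (nat_lit 1505879817496) (nat_lit 19) (nat_lit 5) (nat_lit 20) (nat_lit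 5) (nat_lit 21) (nat_lit 4) (nat_lit 444) (nat_lit 407) (nat_lit 169)) (XT.lf (nat_lit 0) (nat_lit 162394133165) (nat_lit 76) (nat_lit 3559260438101) (nat_lit 76) (nat_lit 643349327381) (nat_lit 18) (nat_lit 4) (nat_lit 19) (nat_lit 5) (nat_lit 19) (nat_lit 4) (nat_lit 445) (nat_lit 407) (nat_lit 168))) (XT.nd (nat_lit 78) (nat_lit 76) (nat_lit 0) (XT.lf (nat_lit 0) (nat_lit 333304945706) (nat_lit 152) (nat_lit 2222636825870) (nat_lit 76) (nat_lit 2062530962305) (nat_lit 17) (nat_lit 5) (nat_lit 19) (nat_lit 5) (nat_lit 18) (nat_lit 4) (nat_lit 446) (nat_lit 407) (nat_lit 167)) (XT.nd (nat_lit 78) (nat_lit 76) (nat_lit 0) (XT.lf (nat_lit 0) (nat_lit 1353333984809) (nat_lit 152) (nat_lit 100976426589) (nat_lit 76) (nat_lit 3436571834906) (nat_lit 17) (nat_lit 5) (nat_lit 19) (nat_lit 5) (nat_lit 18) (nat_lit 4) (nat_lit 447) (nat_lit 407) (nat_lit 166)) (XT.lf (nat_lit 0) (nat_lit 2305760268536)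 (nat_lit 76) (nat_lit 204658666767) (nat_lit 152) (nat_lit 2670229297358) (nat_lit 16) (nat_lit 5) (nat_lit 17) (nat_lit 5) (nat_lit 18) (nat_lit 4) (nat_lit 448) (nat_lit 407) (nat_lit 165)))))) (XT.nd (nat_lit 50232) (nat_lit 0) (nat_lit 3040) (XT.nd (nat_lit 49998) (nat_lit 0) (nat_lit 3420) (XT.nd (nat_lit 49920) (nat_lit 0) (nat_lit 3420) (XT.lf (nat_lit 0) (nat_lit 3790439706693) (nat_lit 152) (nat_lit 610204265014) (nat_lit 0) (nat_lit 1090522004232) (nat_lit 16) (nat_lit 5) (nat_lit 18) (nat_lit 4) (nat_lit 16) (nat_lit 4) (nat_lit 449) (nat_lit 407) (nat_lit 164)) (XT.lf (nat_lit 0) (nat_lit 322988289620) (nat_lit 532) (nat_lit 29178638171) (nat_lit 532) (nat_lit 29178638171) (nat_lit 61) (nat_lit 3) (nat_lit 68) (nat_lit 3) (nat_lit 68) (nat_lit 5) (nat_lit 408) (nat_lit 408) (nat_lit 204))) (XT.nd (nat_lit 78) (nat_lit 0) (nat_lit 76) (XT.lf (nat_lit 76) (nat_lit 325586157986)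 (nat_lit 0) (nat_lit 354059944272) (nat_lit 532) (nat_lit 112926238027) (nat_lit 62) (nat_lit 5) (nat_lit 61) (nat_lit 3) (nat_lit 68) (nat_lit 5) (nat_lit 409) (nat_lit 408) (nat_lit 203)) (XT.nd (nat_lit 78) (nat_lit 0) (nat_lit 0) (XT.lf (nat_lit 0) (nat_lit 718229085371) (nat_lit 456) (nat_lit 81776825307) (nat_lit 532) (nat_lit 24660542789) (nat_lit 62) (nat_lit 5) (nat_lit 68) (nat_lit 5) (nat_lit 69) (nat_lit 5) (nat_lit 410) (nat_lit 408) (nat_lit 202)) (XT.lf (nat_lit 76) (nat_lit 342169621902) (nat_lit 0) (nat_lit 435154625306) (nat_lit 532) (nat_lit 80609805303) (nat_lit 63) (nat_lit 5) (nat_lit 62) (nat_lit 5) (nat_lit 69) (nat_lit 5) (nat_lit 411) (nat_lit 408) (nat_lit 201))))) (XT.nd (nat_lit 156) (nat_lit 0) (nat_lit 0) (XT.nd (nat_lit 78) (nat_lit 456) (nat_lit 0) (XT.lf (nat_lit 76) (nat_lit 804682499132) (nat_lit 0) (nat_lit 38700437007) (nat_lit 532) (nat_lit 50301250216)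 (nat_lit 63) (nat_lit 5) (nat_lit 62) (nat_lit 5) (nat_lit 69) (nat_lit 5) (nat_lit 412) (nat_lit 408) (nat_lit 200)) (XT.lf (nat_lit 0) (nat_lit 2337362607) (nat_lit 532) (nat_lit 549244144646) (nat_lit 608) (nat_lit 379224500529) (nat_lit 56) (nat_lit 5) (nat_lit 63) (nat_lit 5) (nat_lit 64) (nat_lit 5) (nat_lit 413) (nat_lit 408) (nat_lit 199))) (XT.nd (nat_lit 78) (nat_lit 0) (nat_lit 76) (XT.lf (nat_lit 0) (nat_lit 59971359105) (nat_lit 532) (nat_lit 78245741297) (nat_lit 608) (nat_lit 832295802956) (nat_lit 56) (nat_lit 5) (nat_lit 63) (nat_lit 5) (nat_lit 64) (nat_lit 5) (nat_lit 414) (nat_lit 408) (nat_lit 198)) (XT.nd (nat_lit 78) (nat_lit 0) (nat_lit 0) (XT.lf (nat_lit 0) (nat_lit 140808746694) (nat_lit 532) (nat_lit 567121899909) (nat_lit 76) (nat_lit 303978290275) (nat_lit 57) (nat_lit 5) (nat_lit 64) (nat_lit 5) (nat_lit 58) (nat_lit 5) (nat_lit 415) (nat_lit 408) (nat_lit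 197)) (XT.lf (nat_lit 0) (nat_lit 233898118181) (nat_lit 532) (nat_lit 45978790333) (nat_lit 76) (nat_lit 776276945143) (nat_lit 57) (nat_lit 5) (nat_lit 64) (nat_lit 5) (nat_lit 58) (nat_lit 5) (nat_lit 416) (nat_lit 408) (nat_lit 196))))))) (XT.nd (nat_lit 780) (nat_lit 836) (nat_lit 0) (XT.nd (nat_lit 390) (nat_lit 608) (nat_lit 0) (XT.nd (nat_lit 156) (nat_lit 228) (nat_lit 0) (XT.nd (nat_lit 78) (nat_lit 228) (nat_lit 0) (XT.lf (nat_lit 0) (nat_lit 352246690298) (nat_lit 456) (nat_lit 563546199155) (nat_lit 76) (nat_lit 186720510257) (nat_lit 52) (nat_lit 5) (nat_lit 58) (nat_lit 5) (nat_lit 53) (nat_lit 5) (nat_lit 417) (nat_lit 408) (nat_lit 195)) (XT.lf (nat_lit 0) (nat_lit 14253410729) (nat_lit 228) (nat_lit 474711850795) (nat_lit 304) (nat_lit 662904278865) (nat_lit 49) (nat_lit 5) (nat_lit 52) (nat_lit 5) (nat_lit 53) (nat_lit 5) (nat_lit 418) (nat_lit 408) (nat_lit 194))) (XT.nd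 (nat_lit 78) (nat_lit 228) (nat_lit 0) (XT.lf (nat_lit 0) (nat_lit 652469700113) (nat_lit 304) (nat_lit 534055185866) (nat_lit 76) (nat_lit 17381415815) (nat_lit 49) (nat_lit 5) (nat_lit 53) (nat_lit 5) (nat_lit 50) (nat_lit 5) (nat_lit 419) (nat_lit 408) (nat_lit 193)) (XT.nd (nat_lit 78) (nat_lit 0) (nat_lit 0) (XT.lf (nat_lit 0) (nat_lit 111013809432) (nat_lit 228) (nat_lit 733040741564) (nat_lit 304) (nat_lit 414851448545) (nat_lit 46) (nat_lit 5) (nat_lit 49) (nat_lit 5) (nat_lit 50) (nat_lit 5) (nat_lit 420) (nat_lit 408) (nat_lit 192)) (XT.lf (nat_lit 0) (nat_lit 838060509738) (nat_lit 228) (nat_lit 227507690156) (nat_lit 304) (nat_lit 251569312422) (nat_lit 46) (nat_lit 5) (nat_lit 49) (nat_lit 5) (nat_lit 50) (nat_lit 5) (nat_lit 421) (nat_lit 408) (nat_lit 191))))) (XT.nd (nat_lit 156) (nat_lit 380) (nat_lit 0) (XT.nd (nat_lit 78) (nat_lit 76) (nat_lit 0) (XT.lf (nat_lit 0) (nat_lit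 247989678697) (nat_lit 152) (nat_lit 1070436578036) (nat_lit 228) (nat_lit 60511424103) (nat_lit 44) (nat_lit 5) (nat_lit 46) (nat_lit 5) (nat_lit 47) (nat_lit 5) (nat_lit 422) (nat_lit 408) (nat_lit 190)) (XT.lf (nat_lit 0) (nat_lit 157884362314) (nat_lit 228) (nat_lit 393923496792) (nat_lit 76) (nat_lit 892045558105) (nat_lit 43) (nat_lit 5) (nat_lit 46) (nat_lit 5) (nat_lit 44) (nat_lit 5) (nat_lit 423) (nat_lit 408) (nat_lit 189))) (XT.nd (nat_lit 78) (nat_lit 152) (nat_lit 0) (XT.lf (nat_lit 0) (nat_lit 401125695921) (nat_lit 304) (nat_lit 1091949215269) (nat_lit 76) (nat_lit 19910317453) (nat_lit 40) (nat_lit 5) (nat_lit 44) (nat_lit 5) (nat_lit 41) (nat_lit 5) (nat_lit 424) (nat_lit 408) (nat_lit 188)) (XT.nd (nat_lit 78) (nat_lit 152) (nat_lit 0) (XT.lf (nat_lit 0) (nat_lit 689209325063) (nat_lit 304) (nat_lit 277803309605) (nat_lit 76) (nat_lit 618604311217) (nat_lit 40) (nat_lit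 5) (nat_lit 44) (nat_lit 5) (nat_lit 41) (nat_lit 5) (nat_lit 425) (nat_lit 408) (nat_lit 187)) (XT.lf (nat_lit 0) (nat_lit 633146831776) (nat_lit 152) (nat_lit 382420005321) (nat_lit 228) (nat_lit 647274188008) (nat_lit 38) (nat_lit 5) (nat_lit 40) (nat_lit 5) (nat_lit 41) (nat_lit 5) (nat_lit 426) (nat_lit 408) (nat_lit 186)))))) (XT.nd (nat_lit 390) (nat_lit 304) (nat_lit 0) (XT.nd (nat_lit 156) (nat_lit 380) (nat_lit 0) (XT.nd (nat_lit 78) (nat_lit 152) (nat_lit 0) (XT.lf (nat_lit 0) (nat_lit 1381812884076) (nat_lit 228) (nat_lit 119047783717) (nat_lit 76) (nat_lit 244279968155) (nat_lit 38) (nat_lit 5) (nat_lit 41) (nat_lit 5) (nat_lit 39) (nat_lit 5) (nat_lit 427) (nat_lit 408) (nat_lit 185)) (XT.lf (nat_lit 0) (nat_lit 899514715402) (nat_lit 152) (nat_lit 909410233541) (nat_lit 228) (nat_lit 22573959988) (nat_lit 36) (nat_lit 5) (nat_lit 38) (nat_lit 5) (nat_lit 39) (nat_lit 5)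 (nat_lit 428) (nat_lit 408) (nat_lit 184))) (XT.nd (nat_lit 78) (nat_lit 152) (nat_lit 0) (XT.lf (nat_lit 0) (nat_lit 77301670767) (nat_lit 152) (nat_lit 256056775651) (nat_lit 228) (nat_lit 1590326879788) (nat_lit 33) (nat_lit 5) (nat_lit 35) (nat_lit 5) (nat_lit 36) (nat_lit 5) (nat_lit 429) (nat_lit 408) (nat_lit 183)) (XT.nd (nat_lit 78) (nat_lit 152) (nat_lit 0) (XT.lf (nat_lit 0) (nat_lit 753501882002) (nat_lit 228) (nat_lit 812935180594) (nat_lit 76) (nat_lit 453806205994) (nat_lit 33) (nat_lit 5) (nat_lit 36) (nat_lit 5) (nat_lit 34) (nat_lit 5) (nat_lit 430) (nat_lit 408) (nat_lit 182)) (XT.lf (nat_lit 0) (nat_lit 312153525488) (nat_lit 152) (nat_lit 909261388917) (nat_lit 228) (nat_lit 901978282202) (nat_lit 31) (nat_lit 5) (nat_lit 33) (nat_lit 5) (nat_lit 34) (nat_lit 5) (nat_lit 431) (nat_lit 408) (nat_lit 181))))) (XT.nd (nat_lit 156) (nat_lit 228) (nat_lit 0) (XT.nd (nat_lit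 78) (nat_lit 76) (nat_lit 0) (XT.lf (nat_lit 0) (nat_lit 1573481667244) (nat_lit 152) (nat_lit 175506407595) (nat_lit 228) (nat_lit 484028877194) (nat_lit 31) (nat_lit 5) (nat_lit 33) (nat_lit 5) (nat_lit 34) (nat_lit 5) (nat_lit 432) (nat_lit 408) (nat_lit 180)) (XT.lf (nat_lit 0) (nat_lit 599454975841) (nat_lit 76) (nat_lit 1748566653612) (nat_lit 152) (nat_lit 1048615135) (nat_lit 30) (nat_lit 5) (nat_lit 31) (nat_lit 5) (nat_lit 32) (nat_lit 4) (nat_lit 433) (nat_lit 408) (nat_lit 179))) (XT.nd (nat_lit 78) (nat_lit 152) (nat_lit 0) (XT.lf (nat_lit 0) (nat_lit 517588899478) (nat_lit 152) (nat_lit 493839079522) (nat_lit 76) (nat_lit 1460133455359) (nat_lit 29) (nat_lit 5) (nat_lit 31) (nat_lit 5) (nat_lit 30) (nat_lit 5) (nat_lit 434) (nat_lit 408) (nat_lit 178)) (XT.nd (nat_lit 78) (nat_lit 0) (nat_lit 0) (XT.lf (nat_lit 0) (nat_lit 907782943072) (nat_lit 152) (nat_lit 191710018725)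 (nat_lit 228) (nat_lit 1502610202657) (nat_lit 27) (nat_lit 5) (nat_lit 29) (nat_lit 5) (nat_lit 30) (nat_lit 5) (nat_lit 435) (nat_lit 408) (nat_lit 177)) (XT.lf (nat_lit 0) (nat_lit 1758483239768) (nat_lit 228) (nat_lit 309419706664) (nat_lit 76) (nat_lit 672742575272) (nat_lit 27) (nat_lit 5) (nat_lit 30) (nat_lit 5) (nat_lit 28) (nat_lit 4) (nat_lit 436) (nat_lit 408) (nat_lit 176))))))))
noncomputable def xc239 : XT := (XT.nd (nat_lit 51402) (nat_lit 0) (nat_lit 1064) (XT.nd (nat_lit 702) (nat_lit 228) (nat_lit 0) (XT.nd (nat_lit 312) (nat_lit 228) (nat_lit 0) (XT.nd (nat_lit 156) (nat_lit 228) (nat_lit 0) (XT.nd (nat_lit 78) (nat_lit 76) (nat_lit 0) (XT.lf (nat_lit 0) (nat_lit 1243498179258) (nat_lit 76) (nat_lit 1261580200460) (nat_lit 152) (nat_lit 382402036638) (nat_lit 26) (nat_lit 5) (nat_lit 27) (nat_lit 5) (nat_lit 28) (nat_lit 4) (nat_lit 437) (nat_lit 408) (nat_lit 175))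 (XT.lf (nat_lit 0) (nat_lit 260745518635) (nat_lit 152) (nat_lit 113739983532) (nat_lit 76) (nat_lit 2670371701759) (nat_lit 25) (nat_lit 5) (nat_lit 27) (nat_lit 5) (nat_lit 26) (nat_lit 5) (nat_lit 438) (nat_lit 408) (nat_lit 174))) (XT.nd (nat_lit 78) (nat_lit 76) (nat_lit 0) (XT.lf (nat_lit 0) (nat_lit 988692259828) (nat_lit 228) (nat_lit 1616728303060) (nat_lit 76) (nat_lit 604288408062) (nat_lit 23) (nat_lit 5) (nat_lit 26) (nat_lit 5) (nat_lit 24) (nat_lit 4) (nat_lit 439) (nat_lit 408) (nat_lit 173)) (XT.lf (nat_lit 0) (nat_lit 47790366228) (nat_lit 76) (nat_lit 1741151255663) (nat_lit 152) (nat_lit 1597681906918) (nat_lit 22) (nat_lit 5) (nat_lit 23) (nat_lit 5) (nat_lit 24) (nat_lit 4) (nat_lit 440) (nat_lit 408) (nat_lit 172)))) (XT.nd (nat_lit 156) (nat_lit 152) (nat_lit 0) (XT.nd (nat_lit 78) (nat_lit 76) (nat_lit 0) (XT.lf (nat_lit 0) (nat_lit 1937415296453) (nat_lit 76)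 (nat_lit 759999851277) (nat_lit 152) (nat_lit 876739766383) (nat_lit 22) (nat_lit 5) (nat_lit 23) (nat_lit 5) (nat_lit 24) (nat_lit 4) (nat_lit 441) (nat_lit 408) (nat_lit 171)) (XT.lf (nat_lit 0) (nat_lit 204547251867) (nat_lit 76) (nat_lit 3486145105493) (nat_lit 76) (nat_lit 85026388745) (nat_lit 21) (nat_lit 4) (nat_lit 22) (nat_lit 5) (nat_lit 22) (nat_lit 4) (nat_lit 442) (nat_lit 408) (nat_lit 170))) (XT.nd (nat_lit 78) (nat_lit 76) (nat_lit 0) (XT.lf (nat_lit 0) (nat_lit 797158325704) (nat_lit 152) (nat_lit 1743029402079) (nat_lit 76) (nat_lit 1446486110010) (nat_lit 20) (nat_lit 5) (nat_lit 22) (nat_lit 5) (nat_lit 21) (nat_lit 4) (nat_lit 443) (nat_lit 408) (nat_lit 169)) (XT.nd (nat_lit 78) (nat_lit 0) (nat_lit 0) (XT.lf (nat_lit 0) (nat_lit 241222503050) (nat_lit 76) (nat_lit 1509903085979) (nat_lit 152) (nat_lit 2462738957161) (nat_lit 19) (nat_lit 5) (nat_lit 20) (nat_lit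 5) (nat_lit 21) (nat_lit 4) (nat_lit 444) (nat_lit 408) (nat_lit 168)) (XT.lf (nat_lit 0) (nat_lit 2483342183896) (nat_lit 76) (nat_lit 345725560538) (nat_lit 152) (nat_lit 1626350165945) (nat_lit 19) (nat_lit 5) (nat_lit 20) (nat_lit 5) (nat_lit 21) (nat_lit 4) (nat_lit 445) (nat_lit 408) (nat_lit 167)))))) (XT.nd (nat_lit 50310) (nat_lit 0) (nat_lit 3040) (XT.nd (nat_lit 156) (nat_lit 76) (nat_lit 0) (XT.nd (nat_lit 78) (nat_lit 76) (nat_lit 0) (XT.lf (nat_lit 0) (nat_lit 175385727570) (nat_lit 76) (nat_lit 3844001243249) (nat_lit 76) (nat_lit 694817237001) (nat_lit 18) (nat_lit 4) (nat_lit 19) (nat_lit 5) (nat_lit 19) (nat_lit 4) (nat_lit 446) (nat_lit 408) (nat_lit 166)) (XT.lf (nat_lit 0) (nat_lit 359969373530) (nat_lit 152) (nat_lit 2400447711207) (nat_lit 76) (nat_lit 2227533465272) (nat_lit 17) (nat_lit 5) (nat_lit 19) (nat_lit 5) (nat_lit 18) (nat_lit 4) (nat_lit 447) (nat_lit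 408) (nat_lit 165))) (XT.nd (nat_lit 78) (nat_lit 76) (nat_lit 0) (XT.lf (nat_lit 0) (nat_lit 1461600733379) (nat_lit 152) (nat_lit 109054484483) (nat_lit 76) (nat_lit 3711497605756) (nat_lit 17) (nat_lit 5) (nat_lit 19) (nat_lit 5) (nat_lit 18) (nat_lit 4) (nat_lit 448) (nat_lit 408) (nat_lit 164)) (XT.nd (nat_lit 49998) (nat_lit 0) (nat_lit 3420) (XT.lf (nat_lit 0) (nat_lit 2490221144829) (nat_lit 76) (nat_lit 221031334195) (nat_lit 152) (nat_lit 2883847609931) (nat_lit 16) (nat_lit 5) (nat_lit 17) (nat_lit 5) (nat_lit 18) (nat_lit 4) (nat_lit 449) (nat_lit 408) (nat_lit 163)) (XT.lf (nat_lit 0) (nat_lit 348827455185) (nat_lit 532) (nat_lit 31512873868) (nat_lit 532) (nat_lit 31512873868) (nat_lit 61) (nat_lit 3) (nat_lit 68) (nat_lit 3) (nat_lit 68) (nat_lit 5) (nat_lit 409) (nat_lit 409) (nat_lit 202))))) (XT.nd (nat_lit 156) (nat_lit 380) (nat_lit 0) (XT.nd (nat_lit 78) (nat_lit 0)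 (nat_lit 76) (XT.lf (nat_lit 76) (nat_lit 351633158535) (nat_lit 0) (nat_lit 382384824122) (nat_lit 532) (nat_lit 121960129242) (nat_lit 62) (nat_lit 5) (nat_lit 61) (nat_lit 3) (nat_lit 68) (nat_lit 5) (nat_lit 410) (nat_lit 409) (nat_lit 201)) (XT.lf (nat_lit 0) (nat_lit 775687588303) (nat_lit 456) (nat_lit 88318855085) (nat_lit 532) (nat_lit 26633312055) (nat_lit 62) (nat_lit 5) (nat_lit 68) (nat_lit 5) (nat_lit 69) (nat_lit 5) (nat_lit 411) (nat_lit 409) (nat_lit 200))) (XT.nd (nat_lit 78) (nat_lit 456) (nat_lit 0) (XT.lf (nat_lit 76) (nat_lit 369543304958) (nat_lit 0) (nat_lit 469967047809) (nat_lit 532) (nat_lit 87058410483) (nat_lit 63) (nat_lit 5) (nat_lit 62) (nat_lit 5) (nat_lit 69) (nat_lit 5) (nat_lit 412) (nat_lit 409) (nat_lit 199)) (XT.nd (nat_lit 78) (nat_lit 456) (nat_lit 0) (XT.lf (nat_lit 76) (nat_lit 869057203974) (nat_lit 0) (nat_lit 41796520559) (nat_lit 532) (nat_lit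 54325184267) (nat_lit 63) (nat_lit 5) (nat_lit 62) (nat_lit 5) (nat_lit 69) (nat_lit 5) (nat_lit 413) (nat_lit 409) (nat_lit 198)) (XT.lf (nat_lit 0) (nat_lit 2524499342) (nat_lit 532) (nat_lit 593183552738) (nat_lit 608) (nat_lit 409562424349) (nat_lit 56) (nat_lit 5) (nat_lit 63) (nat_lit 5) (nat_lit 64) (nat_lit 5) (nat_lit 414) (nat_lit 409) (nat_lit 197))))))) (XT.nd (nat_lit 780) (nat_lit 988) (nat_lit 0) (XT.nd (nat_lit 390) (nat_lit 456) (nat_lit 0) (XT.nd (nat_lit 156) (nat_lit 532) (nat_lit 0) (XT.nd (nat_lit 78) (nat_lit 0) (nat_lit 76) (XT.lf (nat_lit 0) (nat_lit 64769204617) (nat_lit 532) (nat_lit 84505286268) (nat_lit 608) (nat_lit 898879433653) (nat_lit 56) (nat_lit 5) (nat_lit 63) (nat_lit 5) (nat_lit 64) (nat_lit 5) (nat_lit 415) (nat_lit 409) (nat_lit 196)) (XT.lf (nat_lit 0) (nat_lit 152073575331) (nat_lit 532) (nat_lit 612491529551) (nat_lit 76) (nat_lit 328296536499)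 (nat_lit 57) (nat_lit 5) (nat_lit 64) (nat_lit 5) (nat_lit 58) (nat_lit 5) (nat_lit 416) (nat_lit 409) (nat_lit 195))) (XT.nd (nat_lit 78) (nat_lit 608) (nat_lit 0) (XT.lf (nat_lit 0) (nat_lit 252610086988) (nat_lit 532) (nat_lit 49656980272) (nat_lit 76) (nat_lit 838379085015) (nat_lit 57) (nat_lit 5) (nat_lit 64) (nat_lit 5) (nat_lit 58) (nat_lit 5) (nat_lit 417) (nat_lit 409) (nat_lit 194)) (XT.nd (nat_lit 78) (nat_lit 228) (nat_lit 0) (XT.lf (nat_lit 0) (nat_lit 380426538623) (nat_lit 456) (nat_lit 608629775433) (nat_lit 76) (nat_lit 201658148467) (nat_lit 52) (nat_lit 5) (nat_lit 58) (nat_lit 5) (nat_lit 53) (nat_lit 5) (nat_lit 418) (nat_lit 409) (nat_lit 193)) (XT.lf (nat_lit 0) (nat_lit 15393800213) (nat_lit 228) (nat_lit 512688789761) (nat_lit 304) (nat_lit 715936504937) (nat_lit 49) (nat_lit 5) (nat_lit 52) (nat_lit 5) (nat_lit 53) (nat_lit 5) (nat_lit 419) (nat_lit 409) (nat_lit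 192))))) (XT.nd (nat_lit 156) (nat_lit 228) (nat_lit 0) (XT.nd (nat_lit 78) (nat_lit 228) (nat_lit 0) (XT.lf (nat_lit 0) (nat_lit 704667375888) (nat_lit 304) (nat_lit 576779484887) (nat_lit 76) (nat_lit 18771937082) (nat_lit 49) (nat_lit 5) (nat_lit 53) (nat_lit 5) (nat_lit 50) (nat_lit 5) (nat_lit 420) (nat_lit 409) (nat_lit 191)) (XT.lf (nat_lit 0) (nat_lit 119895027102) (nat_lit 228) (nat_lit 791683983065) (nat_lit 304) (nat_lit 448039461638) (nat_lit 46) (nat_lit 5) (nat_lit 49) (nat_lit 5) (nat_lit 50) (nat_lit 5) (nat_lit 421) (nat_lit 409) (nat_lit 190))) (XT.nd (nat_lit 78) (nat_lit 228) (nat_lit 0) (XT.lf (nat_lit 0) (nat_lit 905105455068) (nat_lit 228) (nat_lit 245708288865) (nat_lit 304) (nat_lit 271694762239) (nat_lit 46) (nat_lit 5) (nat_lit 49) (nat_lit 5) (nat_lit 50) (nat_lit 5) (nat_lit 422) (nat_lit 409) (nat_lit 189)) (XT.nd (nat_lit 78) (nat_lit 76) (nat_lit 0) (XT.lf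 (nat_lit 0) (nat_lit 267828961459) (nat_lit 152) (nat_lit 1156071480314) (nat_lit 228) (nat_lit 65352246691) (nat_lit 44) (nat_lit 5) (nat_lit 46) (nat_lit 5) (nat_lit 47) (nat_lit 5) (nat_lit 423) (nat_lit 409) (nat_lit 188)) (XT.lf (nat_lit 0) (nat_lit 170515191643) (nat_lit 228) (nat_lit 425437271806) (nat_lit 76) (nat_lit 963409220644) (nat_lit 43) (nat_lit 5) (nat_lit 46) (nat_lit 5) (nat_lit 44) (nat_lit 5) (nat_lit 424) (nat_lit 409) (nat_lit 187)))))) (XT.nd (nat_lit 390) (nat_lit 456) (nat_lit 0) (XT.nd (nat_lit 156) (nat_lit 304) (nat_lit 0) (XT.nd (nat_lit 78) (nat_lit 0) (nat_lit 0) (XT.lf (nat_lit 0) (nat_lit 433215829049) (nat_lit 304) (nat_lit 1179305044808) (nat_lit 76) (nat_lit 21503166818) (nat_lit 40) (nat_lit 5) (nat_lit 44) (nat_lit 5) (nat_lit 41) (nat_lit 5) (nat_lit 425) (nat_lit 409) (nat_lit 186)) (XT.lf (nat_lit 0) (nat_lit 744346142785) (nat_lit 304) (nat_lit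 300027474668) (nat_lit 76) (nat_lit 668092678308) (nat_lit 40) (nat_lit 5) (nat_lit 44) (nat_lit 5) (nat_lit 41) (nat_lit 5) (nat_lit 426) (nat_lit 409) (nat_lit 185))) (XT.nd (nat_lit 78) (nat_lit 152) (nat_lit 0) (XT.lf (nat_lit 0) (nat_lit 683798675500) (nat_lit 152) (nat_lit 413013577307) (nat_lit 228) (nat_lit 699056048754) (nat_lit 38) (nat_lit 5) (nat_lit 40) (nat_lit 5) (nat_lit 41) (nat_lit 5) (nat_lit 427) (nat_lit 409) (nat_lit 184)) (XT.nd (nat_lit 78) (nat_lit 152) (nat_lit 0) (XT.lf (nat_lit 0) (nat_lit 1492357979085) (nat_lit 228) (nat_lit 128571511924) (nat_lit 76) (nat_lit 263822390623) (nat_lit 38) (nat_lit 5) (nat_lit 41) (nat_lit 5) (nat_lit 39) (nat_lit 5) (nat_lit 428) (nat_lit 409) (nat_lit 183)) (XT.lf (nat_lit 0) (nat_lit 971475984733) (nat_lit 152) (nat_lit 982163021861) (nat_lit 228) (nat_lit 24379810065) (nat_lit 36) (nat_lit 5) (nat_lit 38) (nat_lit 5) (nat_lit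 39) (nat_lit 5) (nat_lit 429) (nat_lit 409) (nat_lit 182))))) (XT.nd (nat_lit 156) (nat_lit 228) (nat_lit 0) (XT.nd (nat_lit 78) (nat_lit 0) (nat_lit 0) (XT.lf (nat_lit 0) (nat_lit 83485897491) (nat_lit 152) (nat_lit 276541285567) (nat_lit 228) (nat_lit 1717552964331) (nat_lit 33) (nat_lit 5) (nat_lit 35) (nat_lit 5) (nat_lit 36) (nat_lit 5) (nat_lit 430) (nat_lit 409) (nat_lit 181)) (XT.lf (nat_lit 0) (nat_lit 813782089691) (nat_lit 228) (nat_lit 877969905039) (nat_lit 76) (nat_lit 490110730740) (nat_lit 33) (nat_lit 5) (nat_lit 36) (nat_lit 5) (nat_lit 34) (nat_lit 5) (nat_lit 431) (nat_lit 409) (nat_lit 180))) (XT.nd (nat_lit 78) (nat_lit 76) (nat_lit 0) (XT.lf (nat_lit 0) (nat_lit 337125895251) (nat_lit 152) (nat_lit 982002267314) (nat_lit 228) (nat_lit 974136485336) (nat_lit 31) (nat_lit 5) (nat_lit 33) (nat_lit 5) (nat_lit 34) (nat_lit 5) (nat_lit 432) (nat_lit 409) (nat_lit 179))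 (XT.nd (nat_lit 78) (nat_lit 76) (nat_lit 0) (XT.lf (nat_lit 0) (nat_lit 1699360281850) (nat_lit 152) (nat_lit 189546889909) (nat_lit 228) (nat_lit 522751132332) (nat_lit 31) (nat_lit 5) (nat_lit 33) (nat_lit 5) (nat_lit 34) (nat_lit 5) (nat_lit 433) (nat_lit 409) (nat_lit 178)) (XT.lf (nat_lit 0) (nat_lit 647411456370) (nat_lit 76) (nat_lit 1888451953257) (nat_lit 152) (nat_lit 1132450514) (nat_lit 30) (nat_lit 5) (nat_lit 31) (nat_lit 5) (nat_lit 32) (nat_lit 4) (nat_lit 434) (nat_lit 409) (nat_lit 177))))))))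
noncomputable def xc240 : XT := (XT.nd (nat_lit 51480) (nat_lit 0) (nat_lit 1216) (XT.nd (nat_lit 702) (nat_lit 304) (nat_lit 0) (XT.nd (nat_lit 312) (nat_lit 380) (nat_lit 0) (XT.nd (nat_lit 156) (nat_lit 76) (nat_lit 0) (XT.nd (nat_lit 78) (nat_lit 152) (nat_lit 0) (XT.lf (nat_lit 0) (nat_lit 558996058787) (nat_lit 152) (nat_lit 533346127012) (nat_lit 76) (nat_lit 1576944159496) (nat_lit 29) (nat_lit 5) (nat_lit 31) (nat_lit 5) (nat_lit 30) (nat_lit 5) (nat_lit 435) (nat_lit 409) (nat_lit 176)) (XT.lf (nat_lit 0) (nat_lit 980405655393) (nat_lit 152) (nat_lit 207046789041) (nat_lit 228) (nat_lit 1622818969498) (nat_lit 27) (nat_lit 5) (nat_lit 29) (nat_lit 5) (nat_lit 30) (nat_lit 5) (nat_lit 436) (nat_lit 409) (nat_lit 175))) (XT.nd (nat_lit 78) (nat_lit 76) (nat_lit 0) (XT.lf (nat_lit 0) (nat_lit 1899161941952) (nat_lit 228) (nat_lit 334173209306) (nat_lit 76) (nat_lit 726562008722)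 (nat_lit 27) (nat_lit 5) (nat_lit 30) (nat_lit 5) (nat_lit 28) (nat_lit 4) (nat_lit 437) (nat_lit 409) (nat_lit 174)) (XT.lf (nat_lit 0) (nat_lit 1342978105620) (nat_lit 76) (nat_lit 1362506586025) (nat_lit 152) (nat_lit 412994154677) (nat_lit 26) (nat_lit 5) (nat_lit 27) (nat_lit 5) (nat_lit 28) (nat_lit 4) (nat_lit 438) (nat_lit 409) (nat_lit 173)))) (XT.nd (nat_lit 156) (nat_lit 152) (nat_lit 0) (XT.nd (nat_lit 78) (nat_lit 152) (nat_lit 0) (XT.lf (nat_lit 0) (nat_lit 281605199614) (nat_lit 152) (nat_lit 122839113432) (nat_lit 76) (nat_lit 2884001464019) (nat_lit 25) (nat_lit 5) (nat_lit 27) (nat_lit 5) (nat_lit 26) (nat_lit 5) (nat_lit 439) (nat_lit 409) (nat_lit 172)) (XT.lf (nat_lit 0) (nat_lit 1067787679484) (nat_lit 228) (nat_lit 1746066497888) (nat_lit 76) (nat_lit 652631508129) (nat_lit 23) (nat_lit 5) (nat_lit 26) (nat_lit 5) (nat_lit 24) (nat_lit 4) (nat_lit 440) (nat_lit 409)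 (nat_lit 171))) (XT.nd (nat_lit 78) (nat_lit 76) (nat_lit 0) (XT.lf (nat_lit 0) (nat_lit 51613663186) (nat_lit 76) (nat_lit 1880443326074) (nat_lit 152) (nat_lit 1725496418831) (nat_lit 22) (nat_lit 5) (nat_lit 23) (nat_lit 5) (nat_lit 24) (nat_lit 4) (nat_lit 441) (nat_lit 409) (nat_lit 170)) (XT.nd (nat_lit 78) (nat_lit 76) (nat_lit 0) (XT.lf (nat_lit 0) (nat_lit 2092408582817) (nat_lit 76) (nat_lit 820799811563) (nat_lit 152) (nat_lit 946878910062) (nat_lit 22) (nat_lit 5) (nat_lit 23) (nat_lit 5) (nat_lit 24) (nat_lit 4) (nat_lit 442) (nat_lit 409) (nat_lit 169)) (XT.lf (nat_lit 0) (nat_lit 220911095154) (nat_lit 76) (nat_lit 3765036685183) (nat_lit 76) (nat_lit 91828462692) (nat_lit 21) (nat_lit 4) (nat_lit 22) (nat_lit 5) (nat_lit 22) (nat_lit 4) (nat_lit 443) (nat_lit 409) (nat_lit 168)))))) (XT.nd (nat_lit 390) (nat_lit 0) (nat_lit 0) (XT.nd (nat_lit 156) (nat_lit 152) (nat_lit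 0) (XT.nd (nat_lit 78) (nat_lit 76) (nat_lit 0) (XT.lf (nat_lit 0) (nat_lit 860931024439) (nat_lit 152) (nat_lit 1882471694052) (nat_lit 76) (nat_lit 1562205023700) (nat_lit 20) (nat_lit 5) (nat_lit 22) (nat_lit 5) (nat_lit 21) (nat_lit 4) (nat_lit 444) (nat_lit 409) (nat_lit 167)) (XT.lf (nat_lit 0) (nat_lit 260520361964) (nat_lit 76) (nat_lit 1630695305858) (nat_lit 152) (nat_lit 2659758039521) (nat_lit 19) (nat_lit 5) (nat_lit 20) (nat_lit 5) (nat_lit 21) (nat_lit 4) (nat_lit 445) (nat_lit 409) (nat_lit 166))) (XT.nd (nat_lit 78) (nat_lit 152) (nat_lit 0) (XT.lf (nat_lit 0) (nat_lit 2682009612931) (nat_lit 76) (nat_lit 373383580382) (nat_lit 152) (nat_lit 1756458147542) (nat_lit 19) (nat_lit 5) (nat_lit 20) (nat_lit 5) (nat_lit 21) (nat_lit 4) (nat_lit 446) (nat_lit 409) (nat_lit 165)) (XT.nd (nat_lit 78) (nat_lit 76) (nat_lit 0) (XT.lf (nat_lit 0) (nat_lit 189416640433) (nat_lit 76)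 (nat_lit 4151521317075) (nat_lit 76) (nat_lit 750402584608) (nat_lit 18) (nat_lit 4) (nat_lit 19) (nat_lit 5) (nat_lit 19) (nat_lit 4) (nat_lit 447) (nat_lit 409) (nat_lit 164)) (XT.lf (nat_lit 0) (nat_lit 388766950991) (nat_lit 152) (nat_lit 2592483476035) (nat_lit 76) (nat_lit 2405736164770) (nat_lit 17) (nat_lit 5) (nat_lit 19) (nat_lit 5) (nat_lit 18) (nat_lit 4) (nat_lit 448) (nat_lit 409) (nat_lit 163))))) (XT.nd (nat_lit 50154) (nat_lit 0) (nat_lit 3344) (XT.nd (nat_lit 50076) (nat_lit 0) (nat_lit 3344) (XT.lf (nat_lit 0) (nat_lit 1578528817585) (nat_lit 152) (nat_lit 117778795030) (nat_lit 76) (nat_lit 4008417434843) (nat_lit 17) (nat_lit 5) (nat_lit 19) (nat_lit 5) (nat_lit 18) (nat_lit 4) (nat_lit 449) (nat_lit 409) (nat_lit 162)) (XT.lf (nat_lit 0) (nat_lit 376733739389) (nat_lit 532) (nat_lit 34033856318) (nat_lit 532) (nat_lit 34033856318) (nat_lit 61) (nat_lit 3) (nat_lit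 68) (nat_lit 3) (nat_lit 68) (nat_lit 5) (nat_lit 410) (nat_lit 410) (nat_lit 200))) (XT.nd (nat_lit 78) (nat_lit 0) (nat_lit 76) (XT.lf (nat_lit 76) (nat_lit 379763903734) (nat_lit 0) (nat_lit 412975682332) (nat_lit 532) (nat_lit 131716761403) (nat_lit 62) (nat_lit 5) (nat_lit 61) (nat_lit 3) (nat_lit 68) (nat_lit 5) (nat_lit 411) (nat_lit 410) (nat_lit 199)) (XT.nd (nat_lit 78) (nat_lit 0) (nat_lit 0) (XT.lf (nat_lit 0) (nat_lit 837742746346) (nat_lit 456) (nat_lit 95384263829) (nat_lit 532) (nat_lit 28763913441) (nat_lit 62) (nat_lit 5) (nat_lit 68) (nat_lit 5) (nat_lit 69) (nat_lit 5) (nat_lit 412) (nat_lit 410) (nat_lit 198)) (XT.lf (nat_lit 76) (nat_lit 399106866495) (nat_lit 0) (nat_lit 507564456625) (nat_lit 532) (nat_lit 94022929649) (nat_lit 63) (nat_lit 5) (nat_lit 62) (nat_lit 5) (nat_lit 69) (nat_lit 5) (nat_lit 413) (nat_lit 410) (nat_lit 197))))))) (XT.nd (nat_lit 702) (nat_lit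 988) (nat_lit 0) (XT.nd (nat_lit 312) (nat_lit 760) (nat_lit 0) (XT.nd (nat_lit 156) (nat_lit 0) (nat_lit 0) (XT.nd (nat_lit 78) (nat_lit 456) (nat_lit 0) (XT.lf (nat_lit 76) (nat_lit 938581870236) (nat_lit 0) (nat_lit 45140283863) (nat_lit 532) (nat_lit 58671056719) (nat_lit 63) (nat_lit 5) (nat_lit 62) (nat_lit 5) (nat_lit 69) (nat_lit 5) (nat_lit 414) (nat_lit 410) (nat_lit 196)) (XT.lf (nat_lit 0) (nat_lit 2726585941) (nat_lit 532) (nat_lit 640638131093) (nat_lit 608) (nat_lit 442327387242) (nat_lit 56) (nat_lit 5) (nat_lit 63) (nat_lit 5) (nat_lit 64) (nat_lit 5) (nat_lit 415) (nat_lit 410) (nat_lit 195))) (XT.nd (nat_lit 78) (nat_lit 0) (nat_lit 76) (XT.lf (nat_lit 0) (nat_lit 69950858256) (nat_lit 532) (nat_lit 91265611148) (nat_lit 608) (nat_lit 970789759591) (nat_lit 56) (nat_lit 5) (nat_lit 63) (nat_lit 5) (nat_lit 64) (nat_lit 5) (nat_lit 416) (nat_lit 410) (nat_lit 194)) (XT.lf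 (nat_lit 0) (nat_lit 164239571869) (nat_lit 532) (nat_lit 661490747020) (nat_lit 76) (nat_lit 354560244846) (nat_lit 57) (nat_lit 5) (nat_lit 64) (nat_lit 5) (nat_lit 58) (nat_lit 5) (nat_lit 417) (nat_lit 410) (nat_lit 193)))) (XT.nd (nat_lit 156) (nat_lit 456) (nat_lit 0) (XT.nd (nat_lit 78) (nat_lit 380) (nat_lit 0) (XT.lf (nat_lit 0) (nat_lit 272818996273) (nat_lit 532) (nat_lit 53629441568) (nat_lit 76) (nat_lit 905449398323) (nat_lit 57) (nat_lit 5) (nat_lit 64) (nat_lit 5) (nat_lit 58) (nat_lit 5) (nat_lit 418) (nat_lit 410) (nat_lit 192)) (XT.lf (nat_lit 0) (nat_lit 410860758680) (nat_lit 456) (nat_lit 657320054883) (nat_lit 76) (nat_lit 217790798106) (nat_lit 52) (nat_lit 5) (nat_lit 58) (nat_lit 5) (nat_lit 53) (nat_lit 5) (nat_lit 419) (nat_lit 410) (nat_lit 191))) (XT.nd (nat_lit 78) (nat_lit 228) (nat_lit 0) (XT.lf (nat_lit 0) (nat_lit 16625404217) (nat_lit 228) (nat_lit 553703885143)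 (nat_lit 304) (nat_lit 773211325677) (nat_lit 49) (nat_lit 5) (nat_lit 52) (nat_lit 5) (nat_lit 53) (nat_lit 5) (nat_lit 420) (nat_lit 410) (nat_lit 190)) (XT.nd (nat_lit 78) (nat_lit 228) (nat_lit 0) (XT.lf (nat_lit 0) (nat_lit 761040851492) (nat_lit 304) (nat_lit 622921744357) (nat_lit 76) (nat_lit 20273698909) (nat_lit 49) (nat_lit 5) (nat_lit 53) (nat_lit 5) (nat_lit 50) (nat_lit 5) (nat_lit 421) (nat_lit 410) (nat_lit 189)) (XT.lf (nat_lit 0) (nat_lit 129486726077) (nat_lit 228) (nat_lit 855018686429) (nat_lit 304) (nat_lit 483882530442) (nat_lit 46) (nat_lit 5) (nat_lit 49) (nat_lit 5) (nat_lit 50) (nat_lit 5) (nat_lit 422) (nat_lit 410) (nat_lit 188)))))) (XT.nd (nat_lit 390) (nat_lit 532) (nat_lit 0) (XT.nd (nat_lit 156) (nat_lit 304) (nat_lit 0) (XT.nd (nat_lit 78) (nat_lit 152) (nat_lit 0) (XT.lf (nat_lit 0) (nat_lit 977513981110) (nat_lit 228) (nat_lit 265364937825) (nat_lit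 304) (nat_lit 293430261620) (nat_lit 46) (nat_lit 5) (nat_lit 49) (nat_lit 5) (nat_lit 50) (nat_lit 5) (nat_lit 423) (nat_lit 410) (nat_lit 187)) (XT.lf (nat_lit 0) (nat_lit 289255371368) (nat_lit 152) (nat_lit 1248557178194) (nat_lit 228) (nat_lit 70580348116) (nat_lit 44) (nat_lit 5) (nat_lit 46) (nat_lit 5) (nat_lit 47) (nat_lit 5) (nat_lit 424) (nat_lit 410) (nat_lit 186))) (XT.nd (nat_lit 78) (nat_lit 228) (nat_lit 0) (XT.lf (nat_lit 0) (nat_lit 184156475856) (nat_lit 228) (nat_lit 459472163761) (nat_lit 76) (nat_lit 1040481973634) (nat_lit 43) (nat_lit 5) (nat_lit 46) (nat_lit 5) (nat_lit 44) (nat_lit 5) (nat_lit 425) (nat_lit 410) (nat_lit 185)) (XT.nd (nat_lit 78) (nat_lit 0) (nat_lit 0) (XT.lf (nat_lit 0) (nat_lit 467873161778) (nat_lit 304) (nat_lit 1273649356073) (nat_lit 76) (nat_lit 23223440713) (nat_lit 40) (nat_lit 5) (nat_lit 44) (nat_lit 5) (nat_lit 41) (nat_lit 5) (nat_lit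 426) (nat_lit 410) (nat_lit 184)) (XT.lf (nat_lit 0) (nat_lit 803893895694) (nat_lit 304) (nat_lit 324029587160) (nat_lit 76) (nat_lit 721540111600) (nat_lit 40) (nat_lit 5) (nat_lit 44) (nat_lit 5) (nat_lit 41) (nat_lit 5) (nat_lit 427) (nat_lit 410) (nat_lit 183))))) (XT.nd (nat_lit 156) (nat_lit 380) (nat_lit 0) (XT.nd (nat_lit 78) (nat_lit 0) (nat_lit 0) (XT.lf (nat_lit 0) (nat_lit 738502652857) (nat_lit 152) (nat_lit 446054639109) (nat_lit 228) (nat_lit 754980468959) (nat_lit 38) (nat_lit 5) (nat_lit 40) (nat_lit 5) (nat_lit 41) (nat_lit 5) (nat_lit 428) (nat_lit 410) (nat_lit 182)) (XT.lf (nat_lit 0) (nat_lit 1611746672524) (nat_lit 228) (nat_lit 138857151867) (nat_lit 76) (nat_lit 284928203320) (nat_lit 38) (nat_lit 5) (nat_lit 41) (nat_lit 5) (nat_lit 39) (nat_lit 5) (nat_lit 429) (nat_lit 410) (nat_lit 181))) (XT.nd (nat_lit 78) (nat_lit 228) (nat_lit 0) (XT.lf (nat_lit 0) (nat_lit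 1049194142472) (nat_lit 152) (nat_lit 1060736037579) (nat_lit 228) (nat_lit 26330137668) (nat_lit 36) (nat_lit 5) (nat_lit 38) (nat_lit 5) (nat_lit 39) (nat_lit 5) (nat_lit 430) (nat_lit 410) (nat_lit 180)) (XT.nd (nat_lit 78) (nat_lit 0) (nat_lit 0) (XT.lf (nat_lit 0) (nat_lit 90164849076) (nat_lit 152) (nat_lit 298664560862) (nat_lit 228) (nat_lit 1854957145030) (nat_lit 33) (nat_lit 5) (nat_lit 35) (nat_lit 5) (nat_lit 36) (nat_lit 5) (nat_lit 431) (nat_lit 410) (nat_lit 179)) (XT.lf (nat_lit 0) (nat_lit 878884705845) (nat_lit 228) (nat_lit 948207420279) (nat_lit 76) (nat_lit 529319613433) (nat_lit 33) (nat_lit 5) (nat_lit 36) (nat_lit 5) (nat_lit 34) (nat_lit 5) (nat_lit 432) (nat_lit 410) (nat_lit 178))))))))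
noncomputable def xc241 : XT := (XT.nd (nat_lit 51636) (nat_lit 0) (nat_lit 1140) (XT.nd (nat_lit 702) (nat_lit 380) (nat_lit 0) (XT.nd (nat_lit 312) (nat_lit 456) (nat_lit 0) (XT.nd (nat_lit 156) (nat_lit 152) (nat_lit 0) (XT.nd (nat_lit 78) (nat_lit 0) (nat_lit 0) (XT.lf (nat_lit 0) (nat_lit 364096042081) (nat_lit 152) (nat_lit 1060562420649) (nat_lit 228) (nat_lit 1052067353202) (nat_lit 31) (nat_lit 5) (nat_lit 33) (nat_lit 5) (nat_lit 34) (nat_lit 5) (nat_lit 433) (nat_lit 410) (nat_lit 177)) (XT.lf (nat_lit 0) (nat_lit 1835309174036) (nat_lit 152) (nat_lit 204710615130) (nat_lit 228) (nat_lit 564571175731) (nat_lit 31) (nat_lit 5) (nat_lit 33) (nat_lit 5) (nat_lit 34) (nat_lit 5) (nat_lit 434) (nat_lit 410) (nat_lit 176))) (XT.nd (nat_lit 78) (nat_lit 76) (nat_lit 0) (XT.lf (nat_lit 0) (nat_lit 699204443577) (nat_lit 76) (nat_lit 2039528081530) (nat_lit 152) (nat_lit 1223000402)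 (nat_lit 30) (nat_lit 5) (nat_lit 31) (nat_lit 5) (nat_lit 32) (nat_lit 4) (nat_lit 435) (nat_lit 410) (nat_lit 175)) (XT.lf (nat_lit 0) (nat_lit 603715784086) (nat_lit 152) (nat_lit 576013749554) (nat_lit 76) (nat_lit 1703099716010) (nat_lit 29) (nat_lit 5) (nat_lit 31) (nat_lit 5) (nat_lit 30) (nat_lit 5) (nat_lit 436) (nat_lit 410) (nat_lit 174)))) (XT.nd (nat_lit 156) (nat_lit 304) (nat_lit 0) (XT.nd (nat_lit 78) (nat_lit 0) (nat_lit 0) (XT.lf (nat_lit 0) (nat_lit 1058838173732) (nat_lit 152) (nat_lit 223610505430) (nat_lit 228) (nat_lit 1752644444731) (nat_lit 27) (nat_lit 5) (nat_lit 29) (nat_lit 5) (nat_lit 30) (nat_lit 5) (nat_lit 437) (nat_lit 410) (nat_lit 173)) (XT.lf (nat_lit 0) (nat_lit 2051094934175) (nat_lit 228) (nat_lit 360907002700) (nat_lit 76) (nat_lit 784686992935) (nat_lit 27) (nat_lit 5) (nat_lit 30) (nat_lit 5) (nat_lit 28) (nat_lit 4) (nat_lit 438) (nat_lit 410)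 (nat_lit 172))) (XT.nd (nat_lit 78) (nat_lit 228) (nat_lit 0) (XT.lf (nat_lit 0) (nat_lit 1450416415816) (nat_lit 76) (nat_lit 1471507086782) (nat_lit 152) (nat_lit 446033648563) (nat_lit 26) (nat_lit 5) (nat_lit 27) (nat_lit 5) (nat_lit 28) (nat_lit 4) (nat_lit 439) (nat_lit 410) (nat_lit 171)) (XT.nd (nat_lit 78) (nat_lit 152) (nat_lit 0) (XT.lf (nat_lit 0) (nat_lit 304133649438) (nat_lit 152) (nat_lit 132666183537) (nat_lit 76) (nat_lit 3114721603533) (nat_lit 25) (nat_lit 5) (nat_lit 27) (nat_lit 5) (nat_lit 26) (nat_lit 5) (nat_lit 440) (nat_lit 410) (nat_lit 170)) (XT.lf (nat_lit 0) (nat_lit 1153210727167) (nat_lit 228) (nat_lit 1885751758205) (nat_lit 76) (nat_lit 704842052289) (nat_lit 23) (nat_lit 5) (nat_lit 26) (nat_lit 5) (nat_lit 24) (nat_lit 4) (nat_lit 441) (nat_lit 410) (nat_lit 169)))))) (XT.nd (nat_lit 390) (nat_lit 76) (nat_lit 0) (XT.nd (nat_lit 156) (nat_lit 228) (nat_lit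 0) (XT.nd (nat_lit 78) (nat_lit 0) (nat_lit 0) (XT.lf (nat_lit 0) (nat_lit 55742814247) (nat_lit 76) (nat_lit 2030878766404) (nat_lit 152) (nat_lit 1863536097494) (nat_lit 22) (nat_lit 5) (nat_lit 23) (nat_lit 5) (nat_lit 24) (nat_lit 4) (nat_lit 442) (nat_lit 410) (nat_lit 168)) (XT.lf (nat_lit 0) (nat_lit 2259801323153) (nat_lit 76) (nat_lit 886463772640) (nat_lit 152) (nat_lit 1022629190605) (nat_lit 22) (nat_lit 5) (nat_lit 23) (nat_lit 5) (nat_lit 24) (nat_lit 4) (nat_lit 443) (nat_lit 410) (nat_lit 167))) (XT.nd (nat_lit 78) (nat_lit 152) (nat_lit 0) (XT.lf (nat_lit 0) (nat_lit 238584036898) (nat_lit 76) (nat_lit 4066239595350) (nat_lit 76) (nat_lit 99174707855) (nat_lit 21) (nat_lit 4) (nat_lit 22) (nat_lit 5) (nat_lit 22) (nat_lit 4) (nat_lit 444) (nat_lit 410) (nat_lit 166)) (XT.nd (nat_lit 78) (nat_lit 76) (nat_lit 0) (XT.lf (nat_lit 0) (nat_lit 929805534412) (nat_lit 152) (nat_lit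 2033069377971) (nat_lit 76) (nat_lit 1687181446934) (nat_lit 20) (nat_lit 5) (nat_lit 22) (nat_lit 5) (nat_lit 21) (nat_lit 4) (nat_lit 445) (nat_lit 410) (nat_lit 165)) (XT.lf (nat_lit 0) (nat_lit 281362041220) (nat_lit 76) (nat_lit 1761150907179) (nat_lit 152) (nat_lit 2872538653350) (nat_lit 19) (nat_lit 5) (nat_lit 20) (nat_lit 5) (nat_lit 21) (nat_lit 4) (nat_lit 446) (nat_lit 410) (nat_lit 164))))) (XT.nd (nat_lit 50310) (nat_lit 0) (nat_lit 3268) (XT.nd (nat_lit 78) (nat_lit 76) (nat_lit 0) (XT.lf (nat_lit 0) (nat_lit 2896570428539) (nat_lit 76) (nat_lit 403254245379) (nat_lit 152) (nat_lit 1896974772186) (nat_lit 19) (nat_lit 5) (nat_lit 20) (nat_lit 5) (nat_lit 21) (nat_lit 4) (nat_lit 447) (nat_lit 410) (nat_lit 163)) (XT.lf (nat_lit 0) (nat_lit 204570018528) (nat_lit 76) (nat_lit 4483643000463) (nat_lit 76) (nat_lit 810434764497) (nat_lit 18) (nat_lit 4) (nat_lit 19) (nat_lit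 5) (nat_lit 19) (nat_lit 4) (nat_lit 448) (nat_lit 410) (nat_lit 162))) (XT.nd (nat_lit 78) (nat_lit 0) (nat_lit 0) (XT.lf (nat_lit 0) (nat_lit 406872513804) (nat_lit 532) (nat_lit 36756524135) (nat_lit 532) (nat_lit 36756524135) (nat_lit 61) (nat_lit 3) (nat_lit 68) (nat_lit 3) (nat_lit 68) (nat_lit 5) (nat_lit 411) (nat_lit 411) (nat_lit 198)) (XT.nd (nat_lit 78) (nat_lit 0) (nat_lit 76) (XT.lf (nat_lit 76) (nat_lit 410145095349) (nat_lit 0) (nat_lit 446013798887) (nat_lit 532) (nat_lit 142253949556) (nat_lit 62) (nat_lit 5) (nat_lit 61) (nat_lit 3) (nat_lit 68) (nat_lit 5) (nat_lit 412) (nat_lit 411) (nat_lit 197)) (XT.lf (nat_lit 0) (nat_lit 904762295494) (nat_lit 456) (nat_lit 103014919490) (nat_lit 532) (nat_lit 31064972008) (nat_lit 62) (nat_lit 5) (nat_lit 68) (nat_lit 5) (nat_lit 69) (nat_lit 5) (nat_lit 413) (nat_lit 411) (nat_lit 196))))))) (XT.nd (nat_lit 780) (nat_lit 988)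 (nat_lit 0) (XT.nd (nat_lit 390) (nat_lit 760) (nat_lit 0) (XT.nd (nat_lit 156) (nat_lit 456) (nat_lit 0) (XT.nd (nat_lit 78) (nat_lit 0) (nat_lit 0) (XT.lf (nat_lit 76) (nat_lit 431035499096) (nat_lit 0) (nat_lit 548169651729) (nat_lit 532) (nat_lit 101544632272) (nat_lit 63) (nat_lit 5) (nat_lit 62) (nat_lit 5) (nat_lit 69) (nat_lit 5) (nat_lit 414) (nat_lit 411) (nat_lit 195)) (XT.lf (nat_lit 76) (nat_lit 1013668496968) (nat_lit 0) (nat_lit 48751542288) (nat_lit 532) (nat_lit 63364619266) (nat_lit 63) (nat_lit 5) (nat_lit 62) (nat_lit 5) (nat_lit 69) (nat_lit 5) (nat_lit 415) (nat_lit 411) (nat_lit 194))) (XT.nd (nat_lit 78) (nat_lit 0) (nat_lit 0) (XT.lf (nat_lit 0) (nat_lit 2944821399) (nat_lit 532) (nat_lit 691889090820) (nat_lit 608) (nat_lit 477713551597) (nat_lit 56) (nat_lit 5) (nat_lit 63) (nat_lit 5) (nat_lit 64) (nat_lit 5) (nat_lit 416) (nat_lit 411) (nat_lit 193)) (XT.nd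 (nat_lit 78) (nat_lit 0) (nat_lit 76) (XT.lf (nat_lit 0) (nat_lit 75547027457) (nat_lit 532) (nat_lit 98566776002) (nat_lit 608) (nat_lit 1048452915705) (nat_lit 56) (nat_lit 5) (nat_lit 63) (nat_lit 5) (nat_lit 64) (nat_lit 5) (nat_lit 417) (nat_lit 411) (nat_lit 192)) (XT.lf (nat_lit 0) (nat_lit 177378832365) (nat_lit 532) (nat_lit 714409916851) (nat_lit 76) (nat_lit 382925051940) (nat_lit 57) (nat_lit 5) (nat_lit 64) (nat_lit 5) (nat_lit 58) (nat_lit 5) (nat_lit 418) (nat_lit 411) (nat_lit 191))))) (XT.nd (nat_lit 156) (nat_lit 456) (nat_lit 0) (XT.nd (nat_lit 78) (nat_lit 380) (nat_lit 0) (XT.lf (nat_lit 0) (nat_lit 294644603703) (nat_lit 532) (nat_lit 57919713624) (nat_lit 76) (nat_lit 977885338620) (nat_lit 57) (nat_lit 5) (nat_lit 64) (nat_lit 5) (nat_lit 58) (nat_lit 5) (nat_lit 419) (nat_lit 411) (nat_lit 190)) (XT.lf (nat_lit 0) (nat_lit 443729702507) (nat_lit 456) (nat_lit 709905571324)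 (nat_lit 76) (nat_lit 235214060036) (nat_lit 52) (nat_lit 5) (nat_lit 58) (nat_lit 5) (nat_lit 53) (nat_lit 5) (nat_lit 420) (nat_lit 411) (nat_lit 189))) (XT.nd (nat_lit 78) (nat_lit 228) (nat_lit 0) (XT.lf (nat_lit 0) (nat_lit 17955522278) (nat_lit 228) (nat_lit 598000189268) (nat_lit 304) (nat_lit 835068146292) (nat_lit 49) (nat_lit 5) (nat_lit 52) (nat_lit 5) (nat_lit 53) (nat_lit 5) (nat_lit 421) (nat_lit 411) (nat_lit 188)) (XT.nd (nat_lit 78) (nat_lit 228) (nat_lit 0) (XT.lf (nat_lit 0) (nat_lit 821924192943) (nat_lit 304) (nat_lit 672755398753) (nat_lit 76) (nat_lit 21895600703) (nat_lit 49) (nat_lit 5) (nat_lit 53) (nat_lit 5) (nat_lit 50) (nat_lit 5) (nat_lit 422) (nat_lit 411) (nat_lit 187)) (XT.lf (nat_lit 0) (nat_lit 139845747159) (nat_lit 228) (nat_lit 923420168242) (nat_lit 304) (nat_lit 522593057323) (nat_lit 46) (nat_lit 5) (nat_lit 49) (nat_lit 5) (nat_lit 50) (nat_lit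 5) (nat_lit 423) (nat_lit 411) (nat_lit 186)))))) (XT.nd (nat_lit 390) (nat_lit 532) (nat_lit 0) (XT.nd (nat_lit 156) (nat_lit 304) (nat_lit 0) (XT.nd (nat_lit 78) (nat_lit 152) (nat_lit 0) (XT.lf (nat_lit 0) (nat_lit 1055715176447) (nat_lit 228) (nat_lit 286594120720) (nat_lit 304) (nat_lit 316904612592) (nat_lit 46) (nat_lit 5) (nat_lit 49) (nat_lit 5) (nat_lit 50) (nat_lit 5) (nat_lit 424) (nat_lit 411) (nat_lit 185)) (XT.lf (nat_lit 0) (nat_lit 312395880803) (nat_lit 152) (nat_lit 1348441734835) (nat_lit 228) (nat_lit 76226708828) (nat_lit 44) (nat_lit 5) (nat_lit 46) (nat_lit 5) (nat_lit 47) (nat_lit 5) (nat_lit 425) (nat_lit 411) (nat_lit 184))) (XT.nd (nat_lit 78) (nat_lit 228) (nat_lit 0) (XT.lf (nat_lit 0) (nat_lit 198889052980) (nat_lit 228) (nat_lit 496229859883) (nat_lit 76) (nat_lit 1123720544675) (nat_lit 43) (nat_lit 5) (nat_lit 46) (nat_lit 5) (nat_lit 44) (nat_lit 5) (nat_lit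 426) (nat_lit 411) (nat_lit 183)) (XT.nd (nat_lit 78) (nat_lit 0) (nat_lit 0) (XT.lf (nat_lit 0) (nat_lit 505303071651) (nat_lit 304) (nat_lit 1375541225409) (nat_lit 76) (nat_lit 25081333588) (nat_lit 40) (nat_lit 5) (nat_lit 44) (nat_lit 5) (nat_lit 41) (nat_lit 5) (nat_lit 427) (nat_lit 411) (nat_lit 182)) (XT.lf (nat_lit 0) (nat_lit 868205460064) (nat_lit 304) (nat_lit 349951880846) (nat_lit 76) (nat_lit 779263336841) (nat_lit 40) (nat_lit 5) (nat_lit 44) (nat_lit 5) (nat_lit 41) (nat_lit 5) (nat_lit 428) (nat_lit 411) (nat_lit 181))))) (XT.nd (nat_lit 156) (nat_lit 380) (nat_lit 0) (XT.nd (nat_lit 78) (nat_lit 0) (nat_lit 0) (XT.lf (nat_lit 0) (nat_lit 797582936517) (nat_lit 152) (nat_lit 481738989334) (nat_lit 228) (nat_lit 815378851866) (nat_lit 38) (nat_lit 5) (nat_lit 40) (nat_lit 5) (nat_lit 41) (nat_lit 5) (nat_lit 429) (nat_lit 411) (nat_lit 180)) (XT.lf (nat_lit 0) (nat_lit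 1740686453576) (nat_lit 228) (nat_lit 149965654562) (nat_lit 76) (nat_lit 307722477973) (nat_lit 38) (nat_lit 5) (nat_lit 41) (nat_lit 5) (nat_lit 39) (nat_lit 5) (nat_lit 430) (nat_lit 411) (nat_lit 179))) (XT.nd (nat_lit 78) (nat_lit 228) (nat_lit 0) (XT.lf (nat_lit 0) (nat_lit 1133129741565) (nat_lit 152) (nat_lit 1145594898268) (nat_lit 228) (nat_lit 28436499639) (nat_lit 36) (nat_lit 5) (nat_lit 38) (nat_lit 5) (nat_lit 39) (nat_lit 5) (nat_lit 431) (nat_lit 411) (nat_lit 178)) (XT.nd (nat_lit 78) (nat_lit 0) (nat_lit 0) (XT.lf (nat_lit 0) (nat_lit 97378105406) (nat_lit 152) (nat_lit 322557702110) (nat_lit 228) (nat_lit 2003353668238) (nat_lit 33) (nat_lit 5) (nat_lit 35) (nat_lit 5) (nat_lit 36) (nat_lit 5) (nat_lit 432) (nat_lit 411) (nat_lit 177)) (XT.lf (nat_lit 0) (nat_lit 949195524305) (nat_lit 228) (nat_lit 1024063947747) (nat_lit 76) (nat_lit 571665203284) (nat_lit 33) (nat_lit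 5) (nat_lit 36) (nat_lit 5) (nat_lit 34) (nat_lit 5) (nat_lit 433) (nat_lit 411) (nat_lit 176))))))))
noncomputable def xc242 : XT := (XT.nd (nat_lit 51714) (nat_lit 0) (nat_lit 912) (XT.nd (nat_lit 702) (nat_lit 304) (nat_lit 0) (XT.nd (nat_lit 312) (nat_lit 456) (nat_lit 0) (XT.nd (nat_lit 156) (nat_lit 152) (nat_lit 0) (XT.nd (nat_lit 78) (nat_lit 0) (nat_lit 0) (XT.lf (nat_lit 0) (nat_lit 393223789927) (nat_lit 152) (nat_lit 1145407390254) (nat_lit 228) (nat_lit 1136232697767) (nat_lit 31) (nat_lit 5) (nat_lit 33) (nat_lit 5) (nat_lit 34) (nat_lit 5) (nat_lit 434) (nat_lit 411) (nat_lit 175)) (XT.lf (nat_lit 0) (nat_lit 1982133967662) (nat_lit 152) (nat_lit 221087442074) (nat_lit 228) (nat_lit 609736829335) (nat_lit 31) (nat_lit 5) (nat_lit 33) (nat_lit 5) (nat_lit 34) (nat_lit 5) (nat_lit 435) (nat_lit 411) (nat_lit 174))) (XT.nd (nat_lit 78) (nat_lit 76) (nat_lit 0) (XT.lf (nat_lit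 0) (nat_lit 755140859675) (nat_lit 76) (nat_lit 2202690304059) (nat_lit 152) (nat_lit 1320800866) (nat_lit 30) (nat_lit 5) (nat_lit 31) (nat_lit 5) (nat_lit 32) (nat_lit 4) (nat_lit 436) (nat_lit 411) (nat_lit 173)) (XT.lf (nat_lit 0) (nat_lit 652013081617) (nat_lit 152) (nat_lit 622094791545) (nat_lit 76) (nat_lit 1839347713657) (nat_lit 29) (nat_lit 5) (nat_lit 31) (nat_lit 5) (nat_lit 30) (nat_lit 5) (nat_lit 437) (nat_lit 411) (nat_lit 172)))) (XT.nd (nat_lit 156) (nat_lit 304) (nat_lit 0) (XT.nd (nat_lit 78) (nat_lit 0) (nat_lit 0) (XT.lf (nat_lit 0) (nat_lit 1143545284136) (nat_lit 152) (nat_lit 241499322945) (nat_lit 228) (nat_lit 1892855964020) (nat_lit 27) (nat_lit 5) (nat_lit 29) (nat_lit 5) (nat_lit 30) (nat_lit 5) (nat_lit 438) (nat_lit 411) (nat_lit 171)) (XT.lf (nat_lit 0) (nat_lit 2215182560517) (nat_lit 228) (nat_lit 389779508603) (nat_lit 76) (nat_lit 847461972531) (nat_lit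 27) (nat_lit 5) (nat_lit 30) (nat_lit 5) (nat_lit 28) (nat_lit 4) (nat_lit 439) (nat_lit 411) (nat_lit 170))) (XT.nd (nat_lit 78) (nat_lit 228) (nat_lit 0) (XT.lf (nat_lit 0) (nat_lit 1566449782019) (nat_lit 76) (nat_lit 1589227631326) (nat_lit 152) (nat_lit 481716307451) (nat_lit 26) (nat_lit 5) (nat_lit 27) (nat_lit 5) (nat_lit 28) (nat_lit 4) (nat_lit 440) (nat_lit 411) (nat_lit 169)) (XT.nd (nat_lit 78) (nat_lit 152) (nat_lit 0) (XT.lf (nat_lit 0) (nat_lit 328464370417) (nat_lit 152) (nat_lit 143279427663) (nat_lit 76) (nat_lit 3363899351014) (nat_lit 25) (nat_lit 5) (nat_lit 27) (nat_lit 5) (nat_lit 26) (nat_lit 5) (nat_lit 441) (nat_lit 411) (nat_lit 168)) (XT.lf (nat_lit 0) (nat_lit 1245467613910) (nat_lit 228) (nat_lit 2036611847838) (nat_lit 76) (nat_lit 761229436629) (nat_lit 23) (nat_lit 5) (nat_lit 26) (nat_lit 5) (nat_lit 24) (nat_lit 4) (nat_lit 442) (nat_lit 411) (nat_lit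 167)))))) (XT.nd (nat_lit 390) (nat_lit 0) (nat_lit 0) (XT.nd (nat_lit 156) (nat_lit 228) (nat_lit 0) (XT.nd (nat_lit 78) (nat_lit 0) (nat_lit 0) (XT.lf (nat_lit 0) (nat_lit 60202289119) (nat_lit 76) (nat_lit 2193349045635) (nat_lit 152) (nat_lit 2012618955421) (nat_lit 22) (nat_lit 5) (nat_lit 23) (nat_lit 5) (nat_lit 24) (nat_lit 4) (nat_lit 443) (nat_lit 411) (nat_lit 166)) (XT.lf (nat_lit 0) (nat_lit 2440585475053) (nat_lit 76) (nat_lit 957380854005) (nat_lit 152) (nat_lit 1104439498194) (nat_lit 22) (nat_lit 5) (nat_lit 23) (nat_lit 5) (nat_lit 24) (nat_lit 4) (nat_lit 444) (nat_lit 411) (nat_lit 165))) (XT.nd (nat_lit 78) (nat_lit 152) (nat_lit 0) (XT.lf (nat_lit 0) (nat_lit 257670806258) (nat_lit 76) (nat_lit 4391538741846) (nat_lit 76) (nat_lit 107108657176) (nat_lit 21) (nat_lit 4) (nat_lit 22) (nat_lit 5) (nat_lit 22) (nat_lit 4) (nat_lit 445) (nat_lit 411) (nat_lit 164)) (XT.nd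 (nat_lit 78) (nat_lit 76) (nat_lit 0) (XT.lf (nat_lit 0) (nat_lit 1004190001185) (nat_lit 152) (nat_lit 2195714883964) (nat_lit 76) (nat_lit 1822155980982) (nat_lit 20) (nat_lit 5) (nat_lit 22) (nat_lit 5) (nat_lit 21) (nat_lit 4) (nat_lit 446) (nat_lit 411) (nat_lit 163)) (XT.lf (nat_lit 0) (nat_lit 303871047641) (nat_lit 76) (nat_lit 1902042959908) (nat_lit 152) (nat_lit 3102341720471) (nat_lit 19) (nat_lit 5) (nat_lit 20) (nat_lit 5) (nat_lit 21) (nat_lit 4) (nat_lit 447) (nat_lit 411) (nat_lit 162))))) (XT.nd (nat_lit 50388) (nat_lit 0) (nat_lit 3192) (XT.nd (nat_lit 50310) (nat_lit 0) (nat_lit 3192) (XT.lf (nat_lit 0) (nat_lit 3128296102751) (nat_lit 76) (nat_lit 435514566634) (nat_lit 152) (nat_lit 2048732730676) (nat_lit 19) (nat_lit 5) (nat_lit 20) (nat_lit 5) (nat_lit 21) (nat_lit 4) (nat_lit 448) (nat_lit 411) (nat_lit 161)) (XT.lf (nat_lit 0) (nat_lit 439422379435) (nat_lit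 532) (nat_lit 39697011182) (nat_lit 532) (nat_lit 39697011182) (nat_lit 61) (nat_lit 3) (nat_lit 68) (nat_lit 3) (nat_lit 68) (nat_lit 5) (nat_lit 412) (nat_lit 412) (nat_lit 196))) (XT.nd (nat_lit 78) (nat_lit 0) (nat_lit 76) (XT.lf (nat_lit 76) (nat_lit 442956770979) (nat_lit 0) (nat_lit 481694955926) (nat_lit 532) (nat_lit 153634134555) (nat_lit 62) (nat_lit 5) (nat_lit 61) (nat_lit 3) (nat_lit 68) (nat_lit 5) (nat_lit 413) (nat_lit 412) (nat_lit 195)) (XT.nd (nat_lit 78) (nat_lit 0) (nat_lit 0) (XT.lf (nat_lit 0) (nat_lit 977143390108) (nat_lit 456) (nat_lit 111256039794) (nat_lit 532) (nat_lit 33550123037) (nat_lit 62) (nat_lit 5) (nat_lit 68) (nat_lit 5) (nat_lit 69) (nat_lit 5) (nat_lit 414) (nat_lit 412) (nat_lit 194)) (XT.lf (nat_lit 76) (nat_lit 465518410425) (nat_lit 0) (nat_lit 592023256937) (nat_lit 532) (nat_lit 109668089900) (nat_lit 63) (nat_lit 5) (nat_lit 62) (nat_lit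 5) (nat_lit 69) (nat_lit 5) (nat_lit 415) (nat_lit 412) (nat_lit 193))))))) (XT.nd (nat_lit 780) (nat_lit 1140) (nat_lit 0) (XT.nd (nat_lit 390) (nat_lit 760) (nat_lit 0) (XT.nd (nat_lit 156) (nat_lit 0) (nat_lit 0) (XT.nd (nat_lit 78) (nat_lit 456) (nat_lit 0) (XT.lf (nat_lit 76) (nat_lit 1094762042838) (nat_lit 0) (nat_lit 52651696292) (nat_lit 532) (nat_lit 68433684221) (nat_lit 63) (nat_lit 5) (nat_lit 62) (nat_lit 5) (nat_lit 69) (nat_lit 5) (nat_lit 416) (nat_lit 412) (nat_lit 192)) (XT.lf (nat_lit 0) (nat_lit 3180500204) (nat_lit 532) (nat_lit 747240140273) (nat_lit 608) (nat_lit 515930612898) (nat_lit 56) (nat_lit 5) (nat_lit 63) (nat_lit 5) (nat_lit 64) (nat_lit 5) (nat_lit 417) (nat_lit 412) (nat_lit 191))) (XT.nd (nat_lit 78) (nat_lit 0) (nat_lit 76) (XT.lf (nat_lit 0) (nat_lit 81590875850) (nat_lit 532) (nat_lit 106452046033) (nat_lit 608) (nat_lit 1132329127827) (nat_lit 56)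 (nat_lit 5) (nat_lit 63) (nat_lit 5) (nat_lit 64) (nat_lit 5) (nat_lit 418) (nat_lit 412) (nat_lit 190)) (XT.nd (nat_lit 78) (nat_lit 0) (nat_lit 0) (XT.lf (nat_lit 0) (nat_lit 191569220184) (nat_lit 532) (nat_lit 771562633097) (nat_lit 76) (nat_lit 413559045383) (nat_lit 57) (nat_lit 5) (nat_lit 64) (nat_lit 5) (nat_lit 58) (nat_lit 5) (nat_lit 419) (nat_lit 412) (nat_lit 189)) (XT.lf (nat_lit 0) (nat_lit 318216247212) (nat_lit 532) (nat_lit 62553219324) (nat_lit 76) (nat_lit 1056116155792) (nat_lit 57) (nat_lit 5) (nat_lit 64) (nat_lit 5) (nat_lit 58) (nat_lit 5) (nat_lit 420) (nat_lit 412) (nat_lit 188))))) (XT.nd (nat_lit 156) (nat_lit 228) (nat_lit 0) (XT.nd (nat_lit 78) (nat_lit 228) (nat_lit 0) (XT.lf (nat_lit 0) (nat_lit 479228149980) (nat_lit 456) (nat_lit 766697941628) (nat_lit 76) (nat_lit 254031183193) (nat_lit 52) (nat_lit 5) (nat_lit 58) (nat_lit 5) (nat_lit 53) (nat_lit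 5) (nat_lit 421) (nat_lit 412) (nat_lit 187)) (XT.lf (nat_lit 0) (nat_lit 19392037554) (nat_lit 228) (nat_lit 645840198677) (nat_lit 304) (nat_lit 901873524746) (nat_lit 49) (nat_lit 5) (nat_lit 52) (nat_lit 5) (nat_lit 53) (nat_lit 5) (nat_lit 422) (nat_lit 412) (nat_lit 186))) (XT.nd (nat_lit 78) (nat_lit 228) (nat_lit 0) (XT.lf (nat_lit 0) (nat_lit 887678191248) (nat_lit 304) (nat_lit 726575757650) (nat_lit 76) (nat_lit 23647253802) (nat_lit 49) (nat_lit 5) (nat_lit 53) (nat_lit 5) (nat_lit 50) (nat_lit 5) (nat_lit 423) (nat_lit 412) (nat_lit 185)) (XT.nd (nat_lit 78) (nat_lit 0) (nat_lit 0) (XT.lf (nat_lit 0) (nat_lit 151033478088) (nat_lit 228) (nat_lit 997293770469) (nat_lit 304) (nat_lit 564400437134) (nat_lit 46) (nat_lit 5) (nat_lit 49) (nat_lit 5) (nat_lit 50) (nat_lit 5) (nat_lit 424) (nat_lit 412) (nat_lit 184)) (XT.lf (nat_lit 0) (nat_lit 1140172456448) (nat_lit 228) (nat_lit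 309521639978) (nat_lit 304) (nat_lit 342256921622) (nat_lit 46) (nat_lit 5) (nat_lit 49) (nat_lit 5) (nat_lit 50) (nat_lit 5) (nat_lit 425) (nat_lit 412) (nat_lit 183)))))) (XT.nd (nat_lit 390) (nat_lit 532) (nat_lit 0) (XT.nd (nat_lit 156) (nat_lit 380) (nat_lit 0) (XT.nd (nat_lit 78) (nat_lit 76) (nat_lit 0) (XT.lf (nat_lit 0) (nat_lit 337387619619) (nat_lit 152) (nat_lit 1456317058520) (nat_lit 228) (nat_lit 82324787974) (nat_lit 44) (nat_lit 5) (nat_lit 46) (nat_lit 5) (nat_lit 47) (nat_lit 5) (nat_lit 426) (nat_lit 412) (nat_lit 182)) (XT.lf (nat_lit 0) (nat_lit 214800227849) (nat_lit 228) (nat_lit 535928182676) (nat_lit 76) (nat_lit 1213618199523) (nat_lit 43) (nat_lit 5) (nat_lit 46) (nat_lit 5) (nat_lit 44) (nat_lit 5) (nat_lit 427) (nat_lit 412) (nat_lit 181))) (XT.nd (nat_lit 78) (nat_lit 152) (nat_lit 0) (XT.lf (nat_lit 0) (nat_lit 545727366193) (nat_lit 304) (nat_lit 1485584455584)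 (nat_lit 76) (nat_lit 27087855380) (nat_lit 40) (nat_lit 5) (nat_lit 44) (nat_lit 5) (nat_lit 41) (nat_lit 5) (nat_lit 428) (nat_lit 412) (nat_lit 180)) (XT.nd (nat_lit 78) (nat_lit 152) (nat_lit 0) (XT.lf (nat_lit 0) (nat_lit 937661942063) (nat_lit 304) (nat_lit 377947968482) (nat_lit 76) (nat_lit 841604417773) (nat_lit 40) (nat_lit 5) (nat_lit 44) (nat_lit 5) (nat_lit 41) (nat_lit 5) (nat_lit 429) (nat_lit 412) (nat_lit 179)) (XT.lf (nat_lit 0) (nat_lit 861389632679) (nat_lit 152) (nat_lit 520278090559) (nat_lit 228) (nat_lit 880609113198) (nat_lit 38) (nat_lit 5) (nat_lit 40) (nat_lit 5) (nat_lit 41) (nat_lit 5) (nat_lit 430) (nat_lit 412) (nat_lit 178))))) (XT.nd (nat_lit 156) (nat_lit 380) (nat_lit 0) (XT.nd (nat_lit 78) (nat_lit 152) (nat_lit 0) (XT.lf (nat_lit 0) (nat_lit 1879941410371) (nat_lit 228) (nat_lit 161962847382) (nat_lit 76) (nat_lit 332340291975) (nat_lit 38) (nat_lit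 5) (nat_lit 41) (nat_lit 5) (nat_lit 39) (nat_lit 5) (nat_lit 431) (nat_lit 412) (nat_lit 177)) (XT.lf (nat_lit 0) (nat_lit 1223780178928) (nat_lit 152) (nat_lit 1237242470996) (nat_lit 228) (nat_lit 30711377565) (nat_lit 36) (nat_lit 5) (nat_lit 38) (nat_lit 5) (nat_lit 39) (nat_lit 5) (nat_lit 432) (nat_lit 412) (nat_lit 176))) (XT.nd (nat_lit 78) (nat_lit 152) (nat_lit 0) (XT.lf (nat_lit 0) (nat_lit 105168412483) (nat_lit 152) (nat_lit 348362298028) (nat_lit 228) (nat_lit 2163621920206) (nat_lit 33) (nat_lit 5) (nat_lit 35) (nat_lit 5) (nat_lit 36) (nat_lit 5) (nat_lit 433) (nat_lit 412) (nat_lit 175)) (XT.nd (nat_lit 78) (nat_lit 152) (nat_lit 0) (XT.lf (nat_lit 0) (nat_lit 1025131202250) (nat_lit 228) (nat_lit 1105989006850) (nat_lit 76) (nat_lit 617398437360) (nat_lit 33) (nat_lit 5) (nat_lit 36) (nat_lit 5) (nat_lit 34) (nat_lit 5) (nat_lit 434) (nat_lit 412) (nat_lit 174)) (XT.lf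 (nat_lit 0) (nat_lit 424681748402) (nat_lit 152) (nat_lit 1237039960857) (nat_lit 228) (nat_lit 1227131276130) (nat_lit 31) (nat_lit 5) (nat_lit 33) (nat_lit 5) (nat_lit 34) (nat_lit 5) (nat_lit 435) (nat_lit 412) (nat_lit 173))))))))
noncomputable def xc243 : XT := (XT.nd (nat_lit 51792) (nat_lit 0) (nat_lit 836) (XT.nd (nat_lit 702) (nat_lit 228) (nat_lit 0) (XT.nd (nat_lit 312) (nat_lit 380) (nat_lit 0) (XT.nd (nat_lit 156) (nat_lit 228) (nat_lit 0) (XT.nd (nat_lit 78) (nat_lit 76) (nat_lit 0) (XT.lf (nat_lit 0) (nat_lit 2140704736262) (nat_lit 152) (nat_lit 238774418350) (nat_lit 228) (nat_lit 658515740998) (nat_lit 31) (nat_lit 5) (nat_lit 33) (nat_lit 5) (nat_lit 34) (nat_lit 5) (nat_lit 436) (nat_lit 412) (nat_lit 172)) (XT.lf (nat_lit 0) (nat_lit 815552180414) (nat_lit 76) (nat_lit 2378905507812) (nat_lit 152) (nat_lit 1426431013) (nat_lit 30) (nat_lit 5) (nat_lit 31) (nat_lit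 5) (nat_lit 32) (nat_lit 4) (nat_lit 437) (nat_lit 412) (nat_lit 171))) (XT.nd (nat_lit 78) (nat_lit 152) (nat_lit 0) (XT.lf (nat_lit 0) (nat_lit 704174157986) (nat_lit 152) (nat_lit 671862325166) (nat_lit 76) (nat_lit 1986495548210) (nat_lit 29) (nat_lit 5) (nat_lit 31) (nat_lit 5) (nat_lit 30) (nat_lit 5) (nat_lit 438) (nat_lit 412) (nat_lit 170)) (XT.lf (nat_lit 0) (nat_lit 1235028955311) (nat_lit 152) (nat_lit 260819249130) (nat_lit 228) (nat_lit 2044284410030) (nat_lit 27) (nat_lit 5) (nat_lit 29) (nat_lit 5) (nat_lit 30) (nat_lit 5) (nat_lit 439) (nat_lit 412) (nat_lit 169)))) (XT.nd (nat_lit 156) (nat_lit 304) (nat_lit 0) (XT.nd (nat_lit 78) (nat_lit 76) (nat_lit 0) (XT.lf (nat_lit 0) (nat_lit 2392397192457) (nat_lit 228) (nat_lit 420961822727) (nat_lit 76) (nat_lit 915258947618) (nat_lit 27) (nat_lit 5) (nat_lit 30) (nat_lit 5) (nat_lit 28) (nat_lit 4) (nat_lit 440) (nat_lit 412)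 (nat_lit 168)) (XT.lf (nat_lit 0) (nat_lit 1691765809966) (nat_lit 76) (nat_lit 1716365822630) (nat_lit 152) (nat_lit 520253583757) (nat_lit 26) (nat_lit 5) (nat_lit 27) (nat_lit 5) (nat_lit 28) (nat_lit 4) (nat_lit 441) (nat_lit 412) (nat_lit 167))) (XT.nd (nat_lit 78) (nat_lit 228) (nat_lit 0) (XT.lf (nat_lit 0) (nat_lit 354741544935) (nat_lit 152) (nat_lit 154741738531) (nat_lit 76) (nat_lit 3633011315555) (nat_lit 25) (nat_lit 5) (nat_lit 27) (nat_lit 5) (nat_lit 26) (nat_lit 5) (nat_lit 442) (nat_lit 412) (nat_lit 166)) (XT.nd (nat_lit 78) (nat_lit 76) (nat_lit 0) (XT.lf (nat_lit 0) (nat_lit 1345105047517) (nat_lit 228) (nat_lit 2199540751921) (nat_lit 76) (nat_lit 822127808840) (nat_lit 23) (nat_lit 5) (nat_lit 26) (nat_lit 5) (nat_lit 24) (nat_lit 4) (nat_lit 443) (nat_lit 412) (nat_lit 165)) (XT.lf (nat_lit 0) (nat_lit 65018514885) (nat_lit 76) (nat_lit 2368816950354) (nat_lit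 152) (nat_lit 2173628446243) (nat_lit 22) (nat_lit 5) (nat_lit 23) (nat_lit 5) (nat_lit 24) (nat_lit 4) (nat_lit 444) (nat_lit 412) (nat_lit 164)))))) (XT.nd (nat_lit 50700) (nat_lit 0) (nat_lit 2812) (XT.nd (nat_lit 156) (nat_lit 152) (nat_lit 0) (XT.nd (nat_lit 78) (nat_lit 76) (nat_lit 0) (XT.lf (nat_lit 0) (nat_lit 2635832352536) (nat_lit 76) (nat_lit 1033971304796) (nat_lit 152) (nat_lit 1192794634336) (nat_lit 22) (nat_lit 5) (nat_lit 23) (nat_lit 5) (nat_lit 24) (nat_lit 4) (nat_lit 445) (nat_lit 412) (nat_lit 163)) (XT.lf (nat_lit 0) (nat_lit 278284510547) (nat_lit 76) (nat_lit 4742861823076) (nat_lit 76) (nat_lit 115677326338) (nat_lit 21) (nat_lit 4) (nat_lit 22) (nat_lit 5) (nat_lit 22) (nat_lit 4) (nat_lit 446) (nat_lit 412) (nat_lit 162))) (XT.nd (nat_lit 78) (nat_lit 76) (nat_lit 0) (XT.lf (nat_lit 0) (nat_lit 1084525221874) (nat_lit 152) (nat_lit 2371372036750) (nat_lit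 76) (nat_lit 1967928475145) (nat_lit 20) (nat_lit 5) (nat_lit 22) (nat_lit 5) (nat_lit 21) (nat_lit 4) (nat_lit 447) (nat_lit 412) (nat_lit 161)) (XT.nd (nat_lit 50388) (nat_lit 0) (nat_lit 3192) (XT.lf (nat_lit 0) (nat_lit 328180768424) (nat_lit 76) (nat_lit 2054206379686) (nat_lit 152) (nat_lit 3350529036548) (nat_lit 19) (nat_lit 5) (nat_lit 20) (nat_lit 5) (nat_lit 21) (nat_lit 4) (nat_lit 448) (nat_lit 412) (nat_lit 160)) (XT.lf (nat_lit 0) (nat_lit 474576225112) (nat_lit 532) (nat_lit 42872742169) (nat_lit 532) (nat_lit 42872742169) (nat_lit 61) (nat_lit 3) (nat_lit 68) (nat_lit 3) (nat_lit 68) (nat_lit 5) (nat_lit 413) (nat_lit 413) (nat_lit 194))))) (XT.nd (nat_lit 156) (nat_lit 380) (nat_lit 0) (XT.nd (nat_lit 78) (nat_lit 0) (nat_lit 76) (XT.lf (nat_lit 76) (nat_lit 478393370958) (nat_lit 0) (nat_lit 520230597949) (nat_lit 532) (nat_lit 165924753037) (nat_lit 62) (nat_lit 5)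 (nat_lit 61) (nat_lit 3) (nat_lit 68) (nat_lit 5) (nat_lit 414) (nat_lit 413) (nat_lit 193)) (XT.lf (nat_lit 0) (nat_lit 1055314956459) (nat_lit 456) (nat_lit 120156460173) (nat_lit 532) (nat_lit 36234092815) (nat_lit 62) (nat_lit 5) (nat_lit 68) (nat_lit 5) (nat_lit 69) (nat_lit 5) (nat_lit 415) (nat_lit 413) (nat_lit 192))) (XT.nd (nat_lit 78) (nat_lit 456) (nat_lit 0) (XT.lf (nat_lit 76) (nat_lit 502759944473) (nat_lit 0) (nat_lit 639385145845) (nat_lit 532) (nat_lit 118441440252) (nat_lit 63) (nat_lit 5) (nat_lit 62) (nat_lit 5) (nat_lit 69) (nat_lit 5) (nat_lit 416) (nat_lit 413) (nat_lit 191)) (XT.nd (nat_lit 78) (nat_lit 456) (nat_lit 0) (XT.lf (nat_lit 76) (nat_lit 1182343062945) (nat_lit 0) (nat_lit 56863858247) (nat_lit 532) (nat_lit 73908289292) (nat_lit 63) (nat_lit 5) (nat_lit 62) (nat_lit 5) (nat_lit 69) (nat_lit 5) (nat_lit 417) (nat_lit 413) (nat_lit 190)) (XT.lf (nat_lit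 0) (nat_lit 3435020032) (nat_lit 532) (nat_lit 807019284782) (nat_lit 608) (nat_lit 557205042360) (nat_lit 56) (nat_lit 5) (nat_lit 63) (nat_lit 5) (nat_lit 64) (nat_lit 5) (nat_lit 418) (nat_lit 413) (nat_lit 189))))))) (XT.nd (nat_lit 780) (nat_lit 988) (nat_lit 0) (XT.nd (nat_lit 390) (nat_lit 456) (nat_lit 0) (XT.nd (nat_lit 156) (nat_lit 532) (nat_lit 0) (XT.nd (nat_lit 78) (nat_lit 0) (nat_lit 76) (XT.lf (nat_lit 0) (nat_lit 88118219818) (nat_lit 532) (nat_lit 114968147945) (nat_lit 608) (nat_lit 1222915439932) (nat_lit 56) (nat_lit 5) (nat_lit 63) (nat_lit 5) (nat_lit 64) (nat_lit 5) (nat_lit 419) (nat_lit 413) (nat_lit 188)) (XT.lf (nat_lit 0) (nat_lit 206894827440) (nat_lit 532) (nat_lit 833287577643) (nat_lit 76) (nat_lit 446643759830) (nat_lit 57) (nat_lit 5) (nat_lit 64) (nat_lit 5) (nat_lit 58) (nat_lit 5) (nat_lit 420) (nat_lit 413) (nat_lit 187))) (XT.nd (nat_lit 78) (nat_lit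 608) (nat_lit 0) (XT.lf (nat_lit 0) (nat_lit 343673611471) (nat_lit 532) (nat_lit 67557415665) (nat_lit 76) (nat_lit 1140605439752) (nat_lit 57) (nat_lit 5) (nat_lit 64) (nat_lit 5) (nat_lit 58) (nat_lit 5) (nat_lit 421) (nat_lit 413) (nat_lit 186)) (XT.nd (nat_lit 78) (nat_lit 228) (nat_lit 0) (XT.lf (nat_lit 0) (nat_lit 517566463084) (nat_lit 456) (nat_lit 828033712312) (nat_lit 76) (nat_lit 274353676438) (nat_lit 52) (nat_lit 5) (nat_lit 58) (nat_lit 5) (nat_lit 53) (nat_lit 5) (nat_lit 422) (nat_lit 413) (nat_lit 185)) (XT.lf (nat_lit 0) (nat_lit 20943463567) (nat_lit 228) (nat_lit 697507409656) (nat_lit 304) (nat_lit 974023343926) (nat_lit 49) (nat_lit 5) (nat_lit 52) (nat_lit 5) (nat_lit 53) (nat_lit 5) (nat_lit 423) (nat_lit 413) (nat_lit 184))))) (XT.nd (nat_lit 156) (nat_lit 228) (nat_lit 0) (XT.nd (nat_lit 78) (nat_lit 228) (nat_lit 0) (XT.lf (nat_lit 0) (nat_lit 958692500448)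 (nat_lit 304) (nat_lit 784701755672) (nat_lit 76) (nat_lit 25539038429) (nat_lit 49) (nat_lit 5) (nat_lit 53) (nat_lit 5) (nat_lit 50) (nat_lit 5) (nat_lit 424) (nat_lit 413) (nat_lit 183)) (XT.lf (nat_lit 0) (nat_lit 163116217340) (nat_lit 228) (nat_lit 1077077262477) (nat_lit 304) (nat_lit 609552416570) (nat_lit 46) (nat_lit 5) (nat_lit 49) (nat_lit 5) (nat_lit 50) (nat_lit 5) (nat_lit 425) (nat_lit 413) (nat_lit 182))) (XT.nd (nat_lit 78) (nat_lit 228) (nat_lit 0) (XT.lf (nat_lit 0) (nat_lit 1231386309449) (nat_lit 228) (nat_lit 334283362259) (nat_lit 304) (nat_lit 369637423931) (nat_lit 46) (nat_lit 5) (nat_lit 49) (nat_lit 5) (nat_lit 50) (nat_lit 5) (nat_lit 426) (nat_lit 413) (nat_lit 181)) (XT.nd (nat_lit 78) (nat_lit 76) (nat_lit 0) (XT.lf (nat_lit 0) (nat_lit 364378687790) (nat_lit 152) (nat_lit 1572822410255) (nat_lit 228) (nat_lit 88910721663) (nat_lit 44) (nat_lit 5) (nat_lit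 46) (nat_lit 5) (nat_lit 47) (nat_lit 5) (nat_lit 427) (nat_lit 413) (nat_lit 180)) (XT.lf (nat_lit 0) (nat_lit 231984289484) (nat_lit 228) (nat_lit 578802380708) (nat_lit 76) (nat_lit 1310707665151) (nat_lit 43) (nat_lit 5) (nat_lit 46) (nat_lit 5) (nat_lit 44) (nat_lit 5) (nat_lit 428) (nat_lit 413) (nat_lit 179)))))) (XT.nd (nat_lit 390) (nat_lit 456) (nat_lit 0) (XT.nd (nat_lit 156) (nat_lit 304) (nat_lit 0) (XT.nd (nat_lit 78) (nat_lit 0) (nat_lit 0) (XT.lf (nat_lit 0) (nat_lit 589385597335) (nat_lit 304) (nat_lit 1604431153853) (nat_lit 76) (nat_lit 29254896760) (nat_lit 40) (nat_lit 5) (nat_lit 44) (nat_lit 5) (nat_lit 41) (nat_lit 5) (nat_lit 429) (nat_lit 413) (nat_lit 178)) (XT.lf (nat_lit 0) (nat_lit 1012674936174) (nat_lit 304) (nat_lit 408183752093) (nat_lit 76) (nat_lit 908932783186) (nat_lit 40) (nat_lit 5) (nat_lit 44) (nat_lit 5) (nat_lit 41) (nat_lit 5) (nat_lit 430)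 (nat_lit 413) (nat_lit 177))) (XT.nd (nat_lit 78) (nat_lit 152) (nat_lit 0) (XT.lf (nat_lit 0) (nat_lit 930300855798) (nat_lit 152) (nat_lit 561900322439) (nat_lit 228) (nat_lit 951057802114) (nat_lit 38) (nat_lit 5) (nat_lit 40) (nat_lit 5) (nat_lit 41) (nat_lit 5) (nat_lit 431) (nat_lit 413) (nat_lit 176)) (XT.nd (nat_lit 78) (nat_lit 152) (nat_lit 0) (XT.lf (nat_lit 0) (nat_lit 2030336757931) (nat_lit 228) (nat_lit 174919824122) (nat_lit 76) (nat_lit 358927528848) (nat_lit 38) (nat_lit 5) (nat_lit 41) (nat_lit 5) (nat_lit 39) (nat_lit 5) (nat_lit 432) (nat_lit 413) (nat_lit 175)) (XT.lf (nat_lit 0) (nat_lit 1321682643001) (nat_lit 152) (nat_lit 1336221852272) (nat_lit 228) (nat_lit 33168251722) (nat_lit 36) (nat_lit 5) (nat_lit 38) (nat_lit 5) (nat_lit 39) (nat_lit 5) (nat_lit 433) (nat_lit 413) (nat_lit 174))))) (XT.nd (nat_lit 156) (nat_lit 228) (nat_lit 0) (XT.nd (nat_lit 78) (nat_lit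 0) (nat_lit 0) (XT.lf (nat_lit 0) (nat_lit 113581935760) (nat_lit 152) (nat_lit 376231264509) (nat_lit 228) (nat_lit 2336711638251) (nat_lit 33) (nat_lit 5) (nat_lit 35) (nat_lit 5) (nat_lit 36) (nat_lit 5) (nat_lit 434) (nat_lit 413) (nat_lit 173)) (XT.lf (nat_lit 0) (nat_lit 1107141729296) (nat_lit 228) (nat_lit 1194468078772) (nat_lit 76) (nat_lit 666790327620) (nat_lit 33) (nat_lit 5) (nat_lit 36) (nat_lit 5) (nat_lit 34) (nat_lit 5) (nat_lit 435) (nat_lit 413) (nat_lit 172))) (XT.nd (nat_lit 78) (nat_lit 76) (nat_lit 0) (XT.lf (nat_lit 0) (nat_lit 458656335669) (nat_lit 152) (nat_lit 1336003140049) (nat_lit 228) (nat_lit 1325301746106) (nat_lit 31) (nat_lit 5) (nat_lit 33) (nat_lit 5) (nat_lit 34) (nat_lit 5) (nat_lit 436) (nat_lit 413) (nat_lit 171)) (XT.nd (nat_lit 78) (nat_lit 76) (nat_lit 0) (XT.lf (nat_lit 0) (nat_lit 2311961159046) (nat_lit 152) (nat_lit 257876355451) (nat_lit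 228) (nat_lit 711196970543) (nat_lit 31) (nat_lit 5) (nat_lit 33) (nat_lit 5) (nat_lit 34) (nat_lit 5) (nat_lit 437) (nat_lit 413) (nat_lit 170)) (XT.lf (nat_lit 0) (nat_lit 880796399398) (nat_lit 76) (nat_lit 2569217930801) (nat_lit 152) (nat_lit 1540516410) (nat_lit 30) (nat_lit 5) (nat_lit 31) (nat_lit 5) (nat_lit 32) (nat_lit 4) (nat_lit 438) (nat_lit 413) (nat_lit 169))))))))
noncomputable def xc244 : XT := (XT.nd (nat_lit 51948) (nat_lit 0) (nat_lit 456) (XT.nd (nat_lit 51168) (nat_lit 0) (nat_lit 2356) (XT.nd (nat_lit 312) (nat_lit 380) (nat_lit 0) (XT.nd (nat_lit 156) (nat_lit 76) (nat_lit 0) (XT.nd (nat_lit 78) (nat_lit 152) (nat_lit 0) (XT.lf (nat_lit 0) (nat_lit 760508116207) (nat_lit 152) (nat_lit 725611268568) (nat_lit 76) (nat_lit 2145415207036) (nat_lit 29) (nat_lit 5) (nat_lit 31) (nat_lit 5) (nat_lit 30) (nat_lit 5) (nat_lit 439) (nat_lit 413) (nat_lit 168)) (XT.lf (nat_lit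 0) (nat_lit 1333831313269) (nat_lit 152) (nat_lit 281684772214) (nat_lit 228) (nat_lit 2207827136159) (nat_lit 27) (nat_lit 5) (nat_lit 29) (nat_lit 5) (nat_lit 30) (nat_lit 5) (nat_lit 440) (nat_lit 413) (nat_lit 167))) (XT.nd (nat_lit 78) (nat_lit 76) (nat_lit 0) (XT.lf (nat_lit 0) (nat_lit 2583788991087) (nat_lit 228) (nat_lit 454638728624) (nat_lit 76) (nat_lit 988479678246) (nat_lit 27) (nat_lit 5) (nat_lit 30) (nat_lit 5) (nat_lit 28) (nat_lit 4) (nat_lit 441) (nat_lit 413) (nat_lit 166)) (XT.lf (nat_lit 0) (nat_lit 1827107113674) (nat_lit 76) (nat_lit 1853675071977) (nat_lit 152) (nat_lit 561873846204) (nat_lit 26) (nat_lit 5) (nat_lit 27) (nat_lit 5) (nat_lit 28) (nat_lit 4) (nat_lit 442) (nat_lit 413) (nat_lit 165)))) (XT.nd (nat_lit 156) (nat_lit 152) (nat_lit 0) (XT.nd (nat_lit 78) (nat_lit 152) (nat_lit 0) (XT.lf (nat_lit 0) (nat_lit 383120889864) (nat_lit 152) (nat_lit 167121040452)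 (nat_lit 76) (nat_lit 3923652234910) (nat_lit 25) (nat_lit 5) (nat_lit 27) (nat_lit 5) (nat_lit 26) (nat_lit 5) (nat_lit 443) (nat_lit 413) (nat_lit 164)) (XT.lf (nat_lit 0) (nat_lit 1452713472319) (nat_lit 228) (nat_lit 2375503974571) (nat_lit 76) (nat_lit 887898048362) (nat_lit 23) (nat_lit 5) (nat_lit 26) (nat_lit 5) (nat_lit 24) (nat_lit 4) (nat_lit 444) (nat_lit 413) (nat_lit 163))) (XT.nd (nat_lit 78) (nat_lit 76) (nat_lit 0) (XT.lf (nat_lit 0) (nat_lit 70220032630) (nat_lit 76) (nat_lit 2558322290151) (nat_lit 152) (nat_lit 2347518699986) (nat_lit 22) (nat_lit 5) (nat_lit 23) (nat_lit 5) (nat_lit 24) (nat_lit 4) (nat_lit 445) (nat_lit 413) (nat_lit 162)) (XT.nd (nat_lit 78) (nat_lit 76) (nat_lit 0) (XT.lf (nat_lit 0) (nat_lit 2846698974585) (nat_lit 76) (nat_lit 1116688994151) (nat_lit 152) (nat_lit 1288218184752) (nat_lit 22) (nat_lit 5) (nat_lit 23) (nat_lit 5) (nat_lit 24) (nat_lit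 4) (nat_lit 446) (nat_lit 413) (nat_lit 161)) (XT.lf (nat_lit 0) (nat_lit 300547305503) (nat_lit 76) (nat_lit 5122290753390) (nat_lit 76) (nat_lit 124931492372) (nat_lit 21) (nat_lit 4) (nat_lit 22) (nat_lit 5) (nat_lit 22) (nat_lit 4) (nat_lit 447) (nat_lit 413) (nat_lit 160)))))) (XT.nd (nat_lit 390) (nat_lit 684) (nat_lit 0) (XT.nd (nat_lit 156) (nat_lit 0) (nat_lit 76) (XT.nd (nat_lit 78) (nat_lit 0) (nat_lit 0) (XT.lf (nat_lit 0) (nat_lit 512542370550) (nat_lit 532) (nat_lit 46302535902) (nat_lit 532) (nat_lit 46302535902) (nat_lit 61) (nat_lit 3) (nat_lit 68) (nat_lit 3) (nat_lit 68) (nat_lit 5) (nat_lit 414) (nat_lit 414) (nat_lit 192)) (XT.lf (nat_lit 76) (nat_lit 516664890618) (nat_lit 0) (nat_lit 561849084836) (nat_lit 532) (nat_lit 179198637016) (nat_lit 62) (nat_lit 5) (nat_lit 61) (nat_lit 3) (nat_lit 68) (nat_lit 5) (nat_lit 415) (nat_lit 414) (nat_lit 191))) (XT.nd (nat_lit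 78) (nat_lit 0) (nat_lit 0) (XT.lf (nat_lit 0) (nat_lit 1139740234545) (nat_lit 456) (nat_lit 129768923142) (nat_lit 532) (nat_lit 39132785890) (nat_lit 62) (nat_lit 5) (nat_lit 68) (nat_lit 5) (nat_lit 69) (nat_lit 5) (nat_lit 416) (nat_lit 414) (nat_lit 190)) (XT.nd (nat_lit 78) (nat_lit 0) (nat_lit 0) (XT.lf (nat_lit 76) (nat_lit 542980792513) (nat_lit 0) (nat_lit 690535981820) (nat_lit 532) (nat_lit 127916672448) (nat_lit 63) (nat_lit 5) (nat_lit 62) (nat_lit 5) (nat_lit 69) (nat_lit 5) (nat_lit 417) (nat_lit 414) (nat_lit 189)) (XT.lf (nat_lit 76) (nat_lit 1276930556575) (nat_lit 0) (nat_lit 61412989414) (nat_lit 532) (nat_lit 79820875561) (nat_lit 63) (nat_lit 5) (nat_lit 62) (nat_lit 5) (nat_lit 69) (nat_lit 5) (nat_lit 418) (nat_lit 414) (nat_lit 188))))) (XT.nd (nat_lit 156) (nat_lit 304) (nat_lit 0) (XT.nd (nat_lit 78) (nat_lit 0) (nat_lit 0) (XT.lf (nat_lit 0) (nat_lit 3709890060)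 (nat_lit 532) (nat_lit 871580770370) (nat_lit 608) (nat_lit 601781428971) (nat_lit 56) (nat_lit 5) (nat_lit 63) (nat_lit 5) (nat_lit 64) (nat_lit 5) (nat_lit 419) (nat_lit 414) (nat_lit 187)) (XT.lf (nat_lit 0) (nat_lit 95167740760) (nat_lit 532) (nat_lit 124165546822) (nat_lit 608) (nat_lit 1320748659592) (nat_lit 56) (nat_lit 5) (nat_lit 63) (nat_lit 5) (nat_lit 64) (nat_lit 5) (nat_lit 420) (nat_lit 414) (nat_lit 186))) (XT.nd (nat_lit 78) (nat_lit 380) (nat_lit 0) (XT.lf (nat_lit 0) (nat_lit 223446473341) (nat_lit 532) (nat_lit 899950527183) (nat_lit 76) (nat_lit 482375252743) (nat_lit 57) (nat_lit 5) (nat_lit 64) (nat_lit 5) (nat_lit 58) (nat_lit 5) (nat_lit 421) (nat_lit 414) (nat_lit 185)) (XT.nd (nat_lit 78) (nat_lit 380) (nat_lit 0) (XT.lf (nat_lit 0) (nat_lit 371167555672) (nat_lit 532) (nat_lit 72961956444) (nat_lit 76) (nat_lit 1231853867642) (nat_lit 57) (nat_lit 5) (nat_lit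 64) (nat_lit 5) (nat_lit 58) (nat_lit 5) (nat_lit 422) (nat_lit 414) (nat_lit 184)) (XT.lf (nat_lit 0) (nat_lit 558971832519) (nat_lit 456) (nat_lit 894276353874) (nat_lit 76) (nat_lit 296301969344) (nat_lit 52) (nat_lit 5) (nat_lit 58) (nat_lit 5) (nat_lit 53) (nat_lit 5) (nat_lit 423) (nat_lit 414) (nat_lit 183))))))) (XT.nd (nat_lit 702) (nat_lit 836) (nat_lit 0) (XT.nd (nat_lit 312) (nat_lit 608) (nat_lit 0) (XT.nd (nat_lit 156) (nat_lit 228) (nat_lit 0) (XT.nd (nat_lit 78) (nat_lit 0) (nat_lit 0) (XT.lf (nat_lit 0) (nat_lit 22618994672) (nat_lit 228) (nat_lit 753307998215) (nat_lit 304) (nat_lit 1051945157600) (nat_lit 49) (nat_lit 5) (nat_lit 52) (nat_lit 5) (nat_lit 53) (nat_lit 5) (nat_lit 424) (nat_lit 414) (nat_lit 182)) (XT.lf (nat_lit 0) (nat_lit 1035387946694) (nat_lit 304) (nat_lit 847477842466) (nat_lit 76) (nat_lit 27582165210) (nat_lit 49) (nat_lit 5) (nat_lit 53) (nat_lit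 5) (nat_lit 50) (nat_lit 5) (nat_lit 425) (nat_lit 414) (nat_lit 181))) (XT.nd (nat_lit 78) (nat_lit 0) (nat_lit 0) (XT.lf (nat_lit 0) (nat_lit 176165567029) (nat_lit 228) (nat_lit 1163243435219) (nat_lit 304) (nat_lit 658316562284) (nat_lit 46) (nat_lit 5) (nat_lit 49) (nat_lit 5) (nat_lit 50) (nat_lit 5) (nat_lit 426) (nat_lit 414) (nat_lit 180)) (XT.lf (nat_lit 0) (nat_lit 1329897262633) (nat_lit 228) (nat_lit 361026023596) (nat_lit 304) (nat_lit 399208373760) (nat_lit 46) (nat_lit 5) (nat_lit 49) (nat_lit 5) (nat_lit 50) (nat_lit 5) (nat_lit 427) (nat_lit 414) (nat_lit 179)))) (XT.nd (nat_lit 156) (nat_lit 380) (nat_lit 0) (XT.nd (nat_lit 78) (nat_lit 76) (nat_lit 0) (XT.lf (nat_lit 0) (nat_lit 393529033054) (nat_lit 152) (nat_lit 1698648191975) (nat_lit 228) (nat_lit 96023537088) (nat_lit 44) (nat_lit 5) (nat_lit 46) (nat_lit 5) (nat_lit 47) (nat_lit 5) (nat_lit 428) (nat_lit 414)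 (nat_lit 178)) (XT.lf (nat_lit 0) (nat_lit 250543069858) (nat_lit 228) (nat_lit 625106522654) (nat_lit 76) (nat_lit 1415564286650) (nat_lit 43) (nat_lit 5) (nat_lit 46) (nat_lit 5) (nat_lit 44) (nat_lit 5) (nat_lit 429) (nat_lit 414) (nat_lit 177))) (XT.nd (nat_lit 78) (nat_lit 152) (nat_lit 0) (XT.lf (nat_lit 0) (nat_lit 636536480998) (nat_lit 304) (nat_lit 1732785596284) (nat_lit 76) (nat_lit 31595299603) (nat_lit 40) (nat_lit 5) (nat_lit 44) (nat_lit 5) (nat_lit 41) (nat_lit 5) (nat_lit 430) (nat_lit 414) (nat_lit 176)) (XT.nd (nat_lit 78) (nat_lit 152) (nat_lit 0) (XT.lf (nat_lit 0) (nat_lit 1093688964287) (nat_lit 304) (nat_lit 440838406078) (nat_lit 76) (nat_lit 981647416121) (nat_lit 40) (nat_lit 5) (nat_lit 44) (nat_lit 5) (nat_lit 41) (nat_lit 5) (nat_lit 431) (nat_lit 414) (nat_lit 175)) (XT.lf (nat_lit 0) (nat_lit 1004724969276) (nat_lit 152) (nat_lit 606852335061) (nat_lit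 228) (nat_lit 1027142391870) (nat_lit 38) (nat_lit 5) (nat_lit 40) (nat_lit 5) (nat_lit 41) (nat_lit 5) (nat_lit 432) (nat_lit 414) (nat_lit 174)))))) (XT.nd (nat_lit 390) (nat_lit 304) (nat_lit 0) (XT.nd (nat_lit 156) (nat_lit 380) (nat_lit 0) (XT.nd (nat_lit 78) (nat_lit 152) (nat_lit 0) (XT.lf (nat_lit 0) (nat_lit 2192763728341) (nat_lit 228) (nat_lit 188913366284) (nat_lit 76) (nat_lit 387641742743) (nat_lit 38) (nat_lit 5) (nat_lit 41) (nat_lit 5) (nat_lit 39) (nat_lit 5) (nat_lit 433) (nat_lit 414) (nat_lit 173)) (XT.lf (nat_lit 0) (nat_lit 1427417297100) (nat_lit 152) (nat_lit 1443119586390) (nat_lit 228) (nat_lit 35821680955) (nat_lit 36) (nat_lit 5) (nat_lit 38) (nat_lit 5) (nat_lit 39) (nat_lit 5) (nat_lit 434) (nat_lit 414) (nat_lit 172))) (XT.nd (nat_lit 78) (nat_lit 152) (nat_lit 0) (XT.lf (nat_lit 0) (nat_lit 122668533727) (nat_lit 152) (nat_lit 406329750785) (nat_lit 228)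 (nat_lit 2523648538815) (nat_lit 33) (nat_lit 5) (nat_lit 35) (nat_lit 5) (nat_lit 36) (nat_lit 5) (nat_lit 435) (nat_lit 414) (nat_lit 171)) (XT.nd (nat_lit 78) (nat_lit 152) (nat_lit 0) (XT.lf (nat_lit 0) (nat_lit 1195713094101) (nat_lit 228) (nat_lit 1290025483386) (nat_lit 76) (nat_lit 720133566922) (nat_lit 33) (nat_lit 5) (nat_lit 36) (nat_lit 5) (nat_lit 34) (nat_lit 5) (nat_lit 436) (nat_lit 414) (nat_lit 170)) (XT.lf (nat_lit 0) (nat_lit 495348883156) (nat_lit 152) (nat_lit 1442883376099) (nat_lit 228) (nat_lit 1431325858261) (nat_lit 31) (nat_lit 5) (nat_lit 33) (nat_lit 5) (nat_lit 34) (nat_lit 5) (nat_lit 437) (nat_lit 414) (nat_lit 169))))) (XT.nd (nat_lit 156) (nat_lit 228) (nat_lit 0) (XT.nd (nat_lit 78) (nat_lit 76) (nat_lit 0) (XT.lf (nat_lit 0) (nat_lit 2496918089394) (nat_lit 152) (nat_lit 278506449855) (nat_lit 228) (nat_lit 768092702693) (nat_lit 31) (nat_lit 5) (nat_lit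 33) (nat_lit 5) (nat_lit 34) (nat_lit 5) (nat_lit 438) (nat_lit 414) (nat_lit 168)) (XT.lf (nat_lit 0) (nat_lit 951260149546) (nat_lit 76) (nat_lit 2774755350144) (nat_lit 152) (nat_lit 1663732788) (nat_lit 30) (nat_lit 5) (nat_lit 31) (nat_lit 5) (nat_lit 32) (nat_lit 4) (nat_lit 439) (nat_lit 414) (nat_lit 167))) (XT.nd (nat_lit 78) (nat_lit 152) (nat_lit 0) (XT.lf (nat_lit 0) (nat_lit 821348787436) (nat_lit 152) (nat_lit 783660133521) (nat_lit 76) (nat_lit 2317048436433) (nat_lit 29) (nat_lit 5) (nat_lit 31) (nat_lit 5) (nat_lit 30) (nat_lit 5) (nat_lit 440) (nat_lit 414) (nat_lit 166)) (XT.nd (nat_lit 78) (nat_lit 0) (nat_lit 0) (XT.lf (nat_lit 0) (nat_lit 1440537853938) (nat_lit 152) (nat_lit 304219539548) (nat_lit 228) (nat_lit 2384453284183) (nat_lit 27) (nat_lit 5) (nat_lit 29) (nat_lit 5) (nat_lit 30) (nat_lit 5) (nat_lit 441) (nat_lit 414) (nat_lit 165)) (XT.lf (nat_lit 0) (nat_lit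 2790492130292) (nat_lit 228) (nat_lit 491009792687) (nat_lit 76) (nat_lit 1067558065210) (nat_lit 27) (nat_lit 5) (nat_lit 30) (nat_lit 5) (nat_lit 28) (nat_lit 4) (nat_lit 442) (nat_lit 414) (nat_lit 164))))))))
noncomputable def xc245 : XT := (XT.nd (nat_lit 52026) (nat_lit 0) (nat_lit 0) (XT.nd (nat_lit 51246) (nat_lit 0) (nat_lit 1824) (XT.nd (nat_lit 312) (nat_lit 0) (nat_lit 0) (XT.nd (nat_lit 156) (nat_lit 228) (nat_lit 0) (XT.nd (nat_lit 78) (nat_lit 76) (nat_lit 0) (XT.lf (nat_lit 0) (nat_lit 1973275716128) (nat_lit 76) (nat_lit 2001969063621) (nat_lit 152) (nat_lit 606823733106) (nat_lit 26) (nat_lit 5) (nat_lit 27) (nat_lit 5) (nat_lit 28) (nat_lit 4) (nat_lit 443) (nat_lit 414) (nat_lit 163)) (XT.lf (nat_lit 0) (nat_lit 413770579343) (nat_lit 152) (nat_lit 180490691829) (nat_lit 76) (nat_lit 4237544425801) (nat_lit 25) (nat_lit 5) (nat_lit 27) (nat_lit 5) (nat_lit 26) (nat_lit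 5) (nat_lit 444) (nat_lit 414) (nat_lit 162))) (XT.nd (nat_lit 78) (nat_lit 76) (nat_lit 0) (XT.lf (nat_lit 0) (nat_lit 1568930568108) (nat_lit 228) (nat_lit 2565544260384) (nat_lit 76) (nat_lit 958929904933) (nat_lit 23) (nat_lit 5) (nat_lit 26) (nat_lit 5) (nat_lit 24) (nat_lit 4) (nat_lit 445) (nat_lit 414) (nat_lit 161)) (XT.lf (nat_lit 0) (nat_lit 75837666580) (nat_lit 76) (nat_lit 2762988059448) (nat_lit 152) (nat_lit 2535320177160) (nat_lit 22) (nat_lit 5) (nat_lit 23) (nat_lit 5) (nat_lit 24) (nat_lit 4) (nat_lit 446) (nat_lit 414) (nat_lit 160)))) (XT.nd (nat_lit 50700) (nat_lit 0) (nat_lit 2964) (XT.nd (nat_lit 50622) (nat_lit 0) (nat_lit 2964) (XT.lf (nat_lit 0) (nat_lit 3074434921570) (nat_lit 76) (nat_lit 1206024100799) (nat_lit 152) (nat_lit 1391275622102) (nat_lit 22) (nat_lit 5) (nat_lit 23) (nat_lit 5) (nat_lit 24) (nat_lit 4) (nat_lit 447) (nat_lit 414) (nat_lit 159))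 (XT.lf (nat_lit 0) (nat_lit 553545800857) (nat_lit 532) (nat_lit 50006716791) (nat_lit 532) (nat_lit 50006716791) (nat_lit 61) (nat_lit 3) (nat_lit 68) (nat_lit 3) (nat_lit 68) (nat_lit 5) (nat_lit 415) (nat_lit 415) (nat_lit 190))) (XT.nd (nat_lit 78) (nat_lit 0) (nat_lit 76) (XT.lf (nat_lit 76) (nat_lit 557998124720) (nat_lit 0) (nat_lit 606797045103) (nat_lit 532) (nat_lit 193534445446) (nat_lit 62) (nat_lit 5) (nat_lit 61) (nat_lit 3) (nat_lit 68) (nat_lit 5) (nat_lit 416) (nat_lit 415) (nat_lit 189)) (XT.nd (nat_lit 78) (nat_lit 0) (nat_lit 0) (XT.lf (nat_lit 0) (nat_lit 1230919523242) (nat_lit 456) (nat_lit 140150390830) (nat_lit 532) (nat_lit 42263379313) (nat_lit 62) (nat_lit 5) (nat_lit 68) (nat_lit 5) (nat_lit 69) (nat_lit 5) (nat_lit 417) (nat_lit 415) (nat_lit 188)) (XT.lf (nat_lit 76) (nat_lit 586419300909) (nat_lit 0) (nat_lit 745778881206) (nat_lit 532) (nat_lit 138149935063)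 (nat_lit 63) (nat_lit 5) (nat_lit 62) (nat_lit 5) (nat_lit 69) (nat_lit 5) (nat_lit 418) (nat_lit 415) (nat_lit 187)))))) (XT.nd (nat_lit 390) (nat_lit 760) (nat_lit 0) (XT.nd (nat_lit 156) (nat_lit 0) (nat_lit 0) (XT.nd (nat_lit 78) (nat_lit 456) (nat_lit 0) (XT.lf (nat_lit 76) (nat_lit 1379085042762) (nat_lit 0) (nat_lit 66326047864) (nat_lit 532) (nat_lit 86206479698) (nat_lit 63) (nat_lit 5) (nat_lit 62) (nat_lit 5) (nat_lit 69) (nat_lit 5) (nat_lit 419) (nat_lit 415) (nat_lit 186)) (XT.lf (nat_lit 0) (nat_lit 4006739929) (nat_lit 532) (nat_lit 941307182965) (nat_lit 608) (nat_lit 649923928904) (nat_lit 56) (nat_lit 5) (nat_lit 63) (nat_lit 5) (nat_lit 64) (nat_lit 5) (nat_lit 420) (nat_lit 415) (nat_lit 185))) (XT.nd (nat_lit 78) (nat_lit 0) (nat_lit 76) (XT.lf (nat_lit 0) (nat_lit 102781214340) (nat_lit 532) (nat_lit 134098745165) (nat_lit 608) (nat_lit 1426408539040) (nat_lit 56)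 (nat_lit 5) (nat_lit 63) (nat_lit 5) (nat_lit 64) (nat_lit 5) (nat_lit 421) (nat_lit 415) (nat_lit 184)) (XT.nd (nat_lit 78) (nat_lit 0) (nat_lit 0) (XT.lf (nat_lit 0) (nat_lit 241322242397) (nat_lit 532) (nat_lit 971946520770) (nat_lit 76) (nat_lit 520965266213) (nat_lit 57) (nat_lit 5) (nat_lit 64) (nat_lit 5) (nat_lit 58) (nat_lit 5) (nat_lit 422) (nat_lit 415) (nat_lit 183)) (XT.lf (nat_lit 0) (nat_lit 400861007523) (nat_lit 532) (nat_lit 78798867971) (nat_lit 76) (nat_lit 1330402170803) (nat_lit 57) (nat_lit 5) (nat_lit 64) (nat_lit 5) (nat_lit 58) (nat_lit 5) (nat_lit 423) (nat_lit 415) (nat_lit 182))))) (XT.nd (nat_lit 156) (nat_lit 228) (nat_lit 0) (XT.nd (nat_lit 78) (nat_lit 228) (nat_lit 0) (XT.lf (nat_lit 0) (nat_lit 603689624034) (nat_lit 456) (nat_lit 965818414668) (nat_lit 76) (nat_lit 320006125855) (nat_lit 52) (nat_lit 5) (nat_lit 58) (nat_lit 5) (nat_lit 53) (nat_lit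 5) (nat_lit 424) (nat_lit 415) (nat_lit 181)) (XT.lf (nat_lit 0) (nat_lit 24428560560) (nat_lit 228) (nat_lit 813572634459) (nat_lit 304) (nat_lit 1136100724048) (nat_lit 49) (nat_lit 5) (nat_lit 52) (nat_lit 5) (nat_lit 53) (nat_lit 5) (nat_lit 425) (nat_lit 415) (nat_lit 180))) (XT.nd (nat_lit 78) (nat_lit 228) (nat_lit 0) (XT.lf (nat_lit 0) (nat_lit 1118219022048) (nat_lit 304) (nat_lit 915276023858) (nat_lit 76) (nat_lit 29788741605) (nat_lit 49) (nat_lit 5) (nat_lit 53) (nat_lit 5) (nat_lit 50) (nat_lit 5) (nat_lit 426) (nat_lit 415) (nat_lit 179)) (XT.nd (nat_lit 78) (nat_lit 0) (nat_lit 0) (XT.lf (nat_lit 0) (nat_lit 190258857231) (nat_lit 228) (nat_lit 1256302902959) (nat_lit 304) (nat_lit 710981846447) (nat_lit 46) (nat_lit 5) (nat_lit 49) (nat_lit 5) (nat_lit 50) (nat_lit 5) (nat_lit 427) (nat_lit 415) (nat_lit 178)) (XT.lf (nat_lit 0) (nat_lit 1436289085162) (nat_lit 228) (nat_lit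 389908098930) (nat_lit 304) (nat_lit 431145005865) (nat_lit 46) (nat_lit 5) (nat_lit 49) (nat_lit 5) (nat_lit 50) (nat_lit 5) (nat_lit 428) (nat_lit 415) (nat_lit 177))))))) (XT.nd (nat_lit 780) (nat_lit 684) (nat_lit 0) (XT.nd (nat_lit 390) (nat_lit 532) (nat_lit 0) (XT.nd (nat_lit 156) (nat_lit 380) (nat_lit 0) (XT.nd (nat_lit 78) (nat_lit 76) (nat_lit 0) (XT.lf (nat_lit 0) (nat_lit 425011398772) (nat_lit 152) (nat_lit 1834540037816) (nat_lit 228) (nat_lit 103705383782) (nat_lit 44) (nat_lit 5) (nat_lit 46) (nat_lit 5) (nat_lit 47) (nat_lit 5) (nat_lit 429) (nat_lit 415) (nat_lit 176)) (XT.lf (nat_lit 0) (nat_lit 270586547352) (nat_lit 228) (nat_lit 675115002877) (nat_lit 76) (nat_lit 1528809436687) (nat_lit 43) (nat_lit 5) (nat_lit 46) (nat_lit 5) (nat_lit 44) (nat_lit 5) (nat_lit 430) (nat_lit 415) (nat_lit 175))) (XT.nd (nat_lit 78) (nat_lit 152) (nat_lit 0) (XT.lf (nat_lit 0) (nat_lit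 687459430236) (nat_lit 304) (nat_lit 1871408401224) (nat_lit 76) (nat_lit 34122933089) (nat_lit 40) (nat_lit 5) (nat_lit 44) (nat_lit 5) (nat_lit 41) (nat_lit 5) (nat_lit 431) (nat_lit 415) (nat_lit 174)) (XT.nd (nat_lit 78) (nat_lit 152) (nat_lit 0) (XT.lf (nat_lit 0) (nat_lit 1181184109910) (nat_lit 304) (nat_lit 476105438969) (nat_lit 76) (nat_lit 1060179218224) (nat_lit 40) (nat_lit 5) (nat_lit 44) (nat_lit 5) (nat_lit 41) (nat_lit 5) (nat_lit 432) (nat_lit 415) (nat_lit 173)) (XT.lf (nat_lit 0) (nat_lit 1085103005410) (nat_lit 152) (nat_lit 655400510572) (nat_lit 228) (nat_lit 1109313753717) (nat_lit 38) (nat_lit 5) (nat_lit 40) (nat_lit 5) (nat_lit 41) (nat_lit 5) (nat_lit 433) (nat_lit 415) (nat_lit 172))))) (XT.nd (nat_lit 156) (nat_lit 380) (nat_lit 0) (XT.nd (nat_lit 78) (nat_lit 152) (nat_lit 0) (XT.lf (nat_lit 0) (nat_lit 2368184852137) (nat_lit 228) (nat_lit 204026398063)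 (nat_lit 76) (nat_lit 418653092097) (nat_lit 38) (nat_lit 5) (nat_lit 41) (nat_lit 5) (nat_lit 39) (nat_lit 5) (nat_lit 434) (nat_lit 415) (nat_lit 171)) (XT.lf (nat_lit 0) (nat_lit 1541610717442) (nat_lit 152) (nat_lit 1558569141244) (nat_lit 228) (nat_lit 38687388936) (nat_lit 36) (nat_lit 5) (nat_lit 38) (nat_lit 5) (nat_lit 39) (nat_lit 5) (nat_lit 435) (nat_lit 415) (nat_lit 170))) (XT.nd (nat_lit 78) (nat_lit 152) (nat_lit 0) (XT.lf (nat_lit 0) (nat_lit 132482053381) (nat_lit 152) (nat_lit 438836118086) (nat_lit 228) (nat_lit 2725540395774) (nat_lit 33) (nat_lit 5) (nat_lit 35) (nat_lit 5) (nat_lit 36) (nat_lit 5) (nat_lit 436) (nat_lit 415) (nat_lit 169)) (XT.nd (nat_lit 78) (nat_lit 152) (nat_lit 0) (XT.lf (nat_lit 0) (nat_lit 1291370164316) (nat_lit 228) (nat_lit 1393227486315) (nat_lit 76) (nat_lit 777744263501) (nat_lit 33) (nat_lit 5) (nat_lit 36) (nat_lit 5) (nat_lit 34) (nat_lit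 5) (nat_lit 437) (nat_lit 415) (nat_lit 168)) (XT.lf (nat_lit 0) (nat_lit 534976828645) (nat_lit 152) (nat_lit 1558314033195) (nat_lit 228) (nat_lit 1545831903317) (nat_lit 31) (nat_lit 5) (nat_lit 33) (nat_lit 5) (nat_lit 34) (nat_lit 5) (nat_lit 438) (nat_lit 415) (nat_lit 167)))))) (XT.nd (nat_lit 390) (nat_lit 380) (nat_lit 0) (XT.nd (nat_lit 156) (nat_lit 228) (nat_lit 0) (XT.nd (nat_lit 78) (nat_lit 76) (nat_lit 0) (XT.lf (nat_lit 0) (nat_lit 2696671568801) (nat_lit 152) (nat_lit 300786953814) (nat_lit 228) (nat_lit 829540097051) (nat_lit 31) (nat_lit 5) (nat_lit 33) (nat_lit 5) (nat_lit 34) (nat_lit 5) (nat_lit 439) (nat_lit 415) (nat_lit 166)) (XT.lf (nat_lit 0) (nat_lit 1027360994256) (nat_lit 76) (nat_lit 2996735765193) (nat_lit 152) (nat_lit 1796810034) (nat_lit 30) (nat_lit 5) (nat_lit 31) (nat_lit 5) (nat_lit 32) (nat_lit 4) (nat_lit 440) (nat_lit 415) (nat_lit 165))) (XT.nd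 (nat_lit 78) (nat_lit 152) (nat_lit 0) (XT.lf (nat_lit 0) (nat_lit 887056709235) (nat_lit 152) (nat_lit 846352912881) (nat_lit 76) (nat_lit 2502412322351) (nat_lit 29) (nat_lit 5) (nat_lit 31) (nat_lit 5) (nat_lit 30) (nat_lit 5) (nat_lit 441) (nat_lit 415) (nat_lit 164)) (XT.nd (nat_lit 78) (nat_lit 0) (nat_lit 0) (XT.lf (nat_lit 0) (nat_lit 1555780912781) (nat_lit 152) (nat_lit 328557090328) (nat_lit 228) (nat_lit 2575209527312) (nat_lit 27) (nat_lit 5) (nat_lit 29) (nat_lit 5) (nat_lit 30) (nat_lit 5) (nat_lit 442) (nat_lit 415) (nat_lit 163)) (XT.lf (nat_lit 0) (nat_lit 3013731517792) (nat_lit 228) (nat_lit 530290546759) (nat_lit 76) (nat_lit 1152962721319) (nat_lit 27) (nat_lit 5) (nat_lit 30) (nat_lit 5) (nat_lit 28) (nat_lit 4) (nat_lit 443) (nat_lit 415) (nat_lit 162))))) (XT.nd (nat_lit 156) (nat_lit 228) (nat_lit 0) (XT.nd (nat_lit 78) (nat_lit 76) (nat_lit 0) (XT.lf (nat_lit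 0) (nat_lit 2131137802019) (nat_lit 76) (nat_lit 2162126576609) (nat_lit 152) (nat_lit 655369613927) (nat_lit 26) (nat_lit 5) (nat_lit 27) (nat_lit 5) (nat_lit 28) (nat_lit 4) (nat_lit 444) (nat_lit 415) (nat_lit 161)) (XT.lf (nat_lit 0) (nat_lit 446872241372) (nat_lit 152) (nat_lit 194929919861) (nat_lit 76) (nat_lit 4576547990237) (nat_lit 25) (nat_lit 5) (nat_lit 27) (nat_lit 5) (nat_lit 26) (nat_lit 5) (nat_lit 445) (nat_lit 415) (nat_lit 160))) (XT.nd (nat_lit 78) (nat_lit 76) (nat_lit 0) (XT.lf (nat_lit 0) (nat_lit 1694445028993) (nat_lit 228) (nat_lit 2770787773648) (nat_lit 76) (nat_lit 1035644308217) (nat_lit 23) (nat_lit 5) (nat_lit 26) (nat_lit 5) (nat_lit 24) (nat_lit 4) (nat_lit 446) (nat_lit 415) (nat_lit 159)) (XT.nd (nat_lit 50700) (nat_lit 0) (nat_lit 2964) (XT.lf (nat_lit 0) (nat_lit 81904706775) (nat_lit 76) (nat_lit 2984027092274) (nat_lit 152) (nat_lit 2738145775194)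 (nat_lit 22) (nat_lit 5) (nat_lit 23) (nat_lit 5) (nat_lit 24) (nat_lit 4) (nat_lit 447) (nat_lit 415) (nat_lit 158)) (XT.lf (nat_lit 0) (nat_lit 597829499787) (nat_lit 532) (nat_lit 54007235288) (nat_lit 532) (nat_lit 54007235288) (nat_lit 61) (nat_lit 3) (nat_lit 68) (nat_lit 3) (nat_lit 68) (nat_lit 5) (nat_lit 416) (nat_lit 416) (nat_lit 188))))))))
noncomputable def xc246 : XT := (XT.nd (nat_lit 1482) (nat_lit 988) (nat_lit 0) (XT.nd (nat_lit 702) (nat_lit 1064) (nat_lit 0) (XT.nd (nat_lit 312) (nat_lit 684) (nat_lit 0) (XT.nd (nat_lit 156) (nat_lit 0) (nat_lit 76) (XT.nd (nat_lit 78) (nat_lit 0) (nat_lit 76) (XT.lf (nat_lit 76) (nat_lit 602638011437) (nat_lit 0) (nat_lit 655340837415) (nat_lit 532) (nat_lit 209017130325) (nat_lit 62) (nat_lit 5) (nat_lit 61) (nat_lit 3) (nat_lit 68) (nat_lit 5) (nat_lit 417) (nat_lit 416) (nat_lit 187)) (XT.lf (nat_lit 0) (nat_lit 1329393145057)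 (nat_lit 456) (nat_lit 151362382519) (nat_lit 532) (nat_lit 45644424410) (nat_lit 62) (nat_lit 5) (nat_lit 68) (nat_lit 5) (nat_lit 69) (nat_lit 5) (nat_lit 418) (nat_lit 416) (nat_lit 186))) (XT.nd (nat_lit 78) (nat_lit 0) (nat_lit 0) (XT.lf (nat_lit 76) (nat_lit 633332883557) (nat_lit 0) (nat_lit 805441209569) (nat_lit 532) (nat_lit 149201868843) (nat_lit 63) (nat_lit 5) (nat_lit 62) (nat_lit 5) (nat_lit 69) (nat_lit 5) (nat_lit 419) (nat_lit 416) (nat_lit 185)) (XT.lf (nat_lit 76) (nat_lit 1489411881902) (nat_lit 0) (nat_lit 71632148236) (nat_lit 532) (nat_lit 93102941569) (nat_lit 63) (nat_lit 5) (nat_lit 62) (nat_lit 5) (nat_lit 69) (nat_lit 5) (nat_lit 420) (nat_lit 416) (nat_lit 184)))) (XT.nd (nat_lit 156) (nat_lit 304) (nat_lit 0) (XT.nd (nat_lit 78) (nat_lit 0) (nat_lit 0) (XT.lf (nat_lit 0) (nat_lit 4327329418) (nat_lit 532) (nat_lit 1016611715562) (nat_lit 608) (nat_lit 701917830884)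 (nat_lit 56) (nat_lit 5) (nat_lit 63) (nat_lit 5) (nat_lit 64) (nat_lit 5) (nat_lit 421) (nat_lit 416) (nat_lit 183)) (XT.lf (nat_lit 0) (nat_lit 111003758056) (nat_lit 532) (nat_lit 144826605852) (nat_lit 608) (nat_lit 1540521210745) (nat_lit 56) (nat_lit 5) (nat_lit 63) (nat_lit 5) (nat_lit 64) (nat_lit 5) (nat_lit 422) (nat_lit 416) (nat_lit 182))) (XT.nd (nat_lit 78) (nat_lit 380) (nat_lit 0) (XT.lf (nat_lit 0) (nat_lit 260628065674) (nat_lit 532) (nat_lit 1049702200777) (nat_lit 76) (nat_lit 562642481723) (nat_lit 57) (nat_lit 5) (nat_lit 64) (nat_lit 5) (nat_lit 58) (nat_lit 5) (nat_lit 423) (nat_lit 416) (nat_lit 181)) (XT.nd (nat_lit 78) (nat_lit 380) (nat_lit 0) (XT.lf (nat_lit 0) (nat_lit 432929928760) (nat_lit 532) (nat_lit 85102738839) (nat_lit 76) (nat_lit 1436834339109) (nat_lit 57) (nat_lit 5) (nat_lit 64) (nat_lit 5) (nat_lit 58) (nat_lit 5) (nat_lit 424) (nat_lit 416)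 (nat_lit 180)) (XT.lf (nat_lit 0) (nat_lit 651984832464) (nat_lit 456) (nat_lit 1043083847103) (nat_lit 76) (nat_lit 345606615035) (nat_lit 52) (nat_lit 5) (nat_lit 58) (nat_lit 5) (nat_lit 53) (nat_lit 5) (nat_lit 425) (nat_lit 416) (nat_lit 179)))))) (XT.nd (nat_lit 390) (nat_lit 456) (nat_lit 0) (XT.nd (nat_lit 156) (nat_lit 380) (nat_lit 0) (XT.nd (nat_lit 78) (nat_lit 0) (nat_lit 0) (XT.lf (nat_lit 0) (nat_lit 26382885111) (nat_lit 228) (nat_lit 878658442119) (nat_lit 304) (nat_lit 1226988742398) (nat_lit 49) (nat_lit 5) (nat_lit 52) (nat_lit 5) (nat_lit 53) (nat_lit 5) (nat_lit 426) (nat_lit 416) (nat_lit 178)) (XT.lf (nat_lit 0) (nat_lit 1207676577779) (nat_lit 304) (nat_lit 988498066325) (nat_lit 76) (nat_lit 32171843657) (nat_lit 49) (nat_lit 5) (nat_lit 53) (nat_lit 5) (nat_lit 50) (nat_lit 5) (nat_lit 427) (nat_lit 416) (nat_lit 177))) (XT.nd (nat_lit 78) (nat_lit 152) (nat_lit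 0) (XT.lf (nat_lit 0) (nat_lit 205479604253) (nat_lit 228) (nat_lit 1356807129127) (nat_lit 304) (nat_lit 767860359166) (nat_lit 46) (nat_lit 5) (nat_lit 49) (nat_lit 5) (nat_lit 50) (nat_lit 5) (nat_lit 428) (nat_lit 416) (nat_lit 176)) (XT.nd (nat_lit 78) (nat_lit 152) (nat_lit 0) (XT.lf (nat_lit 0) (nat_lit 1551192247571) (nat_lit 228) (nat_lit 421100741225) (nat_lit 304) (nat_lit 465636573931) (nat_lit 46) (nat_lit 5) (nat_lit 49) (nat_lit 5) (nat_lit 50) (nat_lit 5) (nat_lit 429) (nat_lit 416) (nat_lit 175)) (XT.lf (nat_lit 0) (nat_lit 459012347602) (nat_lit 152) (nat_lit 1981303232683) (nat_lit 228) (nat_lit 112001783387) (nat_lit 44) (nat_lit 5) (nat_lit 46) (nat_lit 5) (nat_lit 47) (nat_lit 5) (nat_lit 430) (nat_lit 416) (nat_lit 174))))) (XT.nd (nat_lit 156) (nat_lit 152) (nat_lit 0) (XT.nd (nat_lit 78) (nat_lit 228) (nat_lit 0) (XT.lf (nat_lit 0) (nat_lit 292233498494) (nat_lit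 228) (nat_lit 729124167450) (nat_lit 76) (nat_lit 1651114197713) (nat_lit 43) (nat_lit 5) (nat_lit 46) (nat_lit 5) (nat_lit 44) (nat_lit 5) (nat_lit 431) (nat_lit 416) (nat_lit 173)) (XT.lf (nat_lit 0) (nat_lit 742456211025) (nat_lit 304) (nat_lit 2021121036661) (nat_lit 76) (nat_lit 36852775897) (nat_lit 40) (nat_lit 5) (nat_lit 44) (nat_lit 5) (nat_lit 41) (nat_lit 5) (nat_lit 432) (nat_lit 416) (nat_lit 172))) (XT.nd (nat_lit 78) (nat_lit 152) (nat_lit 0) (XT.lf (nat_lit 0) (nat_lit 1275678863119) (nat_lit 304) (nat_lit 514193840141) (nat_lit 76) (nat_lit 1144993563237) (nat_lit 40) (nat_lit 5) (nat_lit 44) (nat_lit 5) (nat_lit 41) (nat_lit 5) (nat_lit 433) (nat_lit 416) (nat_lit 171)) (XT.nd (nat_lit 78) (nat_lit 0) (nat_lit 0) (XT.lf (nat_lit 0) (nat_lit 1171911278929) (nat_lit 152) (nat_lit 707832541735) (nat_lit 228) (nat_lit 1198058828720) (nat_lit 38) (nat_lit 5) (nat_lit 40)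 (nat_lit 5) (nat_lit 41) (nat_lit 5) (nat_lit 434) (nat_lit 416) (nat_lit 170)) (XT.lf (nat_lit 0) (nat_lit 2557639662193) (nat_lit 228) (nat_lit 220348477737) (nat_lit 76) (nat_lit 452145347981) (nat_lit 38) (nat_lit 5) (nat_lit 41) (nat_lit 5) (nat_lit 39) (nat_lit 5) (nat_lit 435) (nat_lit 416) (nat_lit 169))))))) (XT.nd (nat_lit 780) (nat_lit 76) (nat_lit 0) (XT.nd (nat_lit 390) (nat_lit 380) (nat_lit 0) (XT.nd (nat_lit 156) (nat_lit 152) (nat_lit 0) (XT.nd (nat_lit 78) (nat_lit 228) (nat_lit 0) (XT.lf (nat_lit 0) (nat_lit 1664939606194) (nat_lit 152) (nat_lit 1683254662206) (nat_lit 228) (nat_lit 41782357335) (nat_lit 36) (nat_lit 5) (nat_lit 38) (nat_lit 5) (nat_lit 39) (nat_lit 5) (nat_lit 436) (nat_lit 416) (nat_lit 168)) (XT.lf (nat_lit 0) (nat_lit 143080649336) (nat_lit 152) (nat_lit 473942996592) (nat_lit 228) (nat_lit 2943583605020) (nat_lit 33) (nat_lit 5) (nat_lit 35) (nat_lit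 5) (nat_lit 36) (nat_lit 5) (nat_lit 437) (nat_lit 416) (nat_lit 167))) (XT.nd (nat_lit 78) (nat_lit 152) (nat_lit 0) (XT.lf (nat_lit 0) (nat_lit 1394679796912) (nat_lit 228) (nat_lit 1504685654578) (nat_lit 76) (nat_lit 839963814205) (nat_lit 33) (nat_lit 5) (nat_lit 36) (nat_lit 5) (nat_lit 34) (nat_lit 5) (nat_lit 438) (nat_lit 416) (nat_lit 166)) (XT.nd (nat_lit 78) (nat_lit 0) (nat_lit 0) (XT.lf (nat_lit 0) (nat_lit 577775004803) (nat_lit 152) (nat_lit 1682979144712) (nat_lit 228) (nat_lit 1669498435345) (nat_lit 31) (nat_lit 5) (nat_lit 33) (nat_lit 5) (nat_lit 34) (nat_lit 5) (nat_lit 439) (nat_lit 416) (nat_lit 165)) (XT.lf (nat_lit 0) (nat_lit 2912405321959) (nat_lit 152) (nat_lit 324849899806) (nat_lit 228) (nat_lit 895903286077) (nat_lit 31) (nat_lit 5) (nat_lit 33) (nat_lit 5) (nat_lit 34) (nat_lit 5) (nat_lit 440) (nat_lit 416) (nat_lit 164))))) (XT.nd (nat_lit 156) (nat_lit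 228) (nat_lit 0) (XT.nd (nat_lit 78) (nat_lit 76) (nat_lit 0) (XT.lf (nat_lit 0) (nat_lit 1109549901872) (nat_lit 76) (nat_lit 3236474615294) (nat_lit 152) (nat_lit 1940536509) (nat_lit 30) (nat_lit 5) (nat_lit 31) (nat_lit 5) (nat_lit 32) (nat_lit 4) (nat_lit 441) (nat_lit 416) (nat_lit 163)) (XT.lf (nat_lit 0) (nat_lit 958021262095) (nat_lit 152) (nat_lit 914061119059) (nat_lit 76) (nat_lit 2702605317573) (nat_lit 29) (nat_lit 5) (nat_lit 31) (nat_lit 5) (nat_lit 30) (nat_lit 5) (nat_lit 442) (nat_lit 416) (nat_lit 162))) (XT.nd (nat_lit 78) (nat_lit 76) (nat_lit 0) (XT.lf (nat_lit 0) (nat_lit 1680243411976) (nat_lit 152) (nat_lit 354841646938) (nat_lit 228) (nat_lit 2781226272689) (nat_lit 27) (nat_lit 5) (nat_lit 29) (nat_lit 5) (nat_lit 30) (nat_lit 5) (nat_lit 443) (nat_lit 416) (nat_lit 161)) (XT.nd (nat_lit 78) (nat_lit 76) (nat_lit 0) (XT.lf (nat_lit 0) (nat_lit 3254830053856)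 (nat_lit 228) (nat_lit 572713765342) (nat_lit 76) (nat_lit 1245199748363) (nat_lit 27) (nat_lit 5) (nat_lit 30) (nat_lit 5) (nat_lit 28) (nat_lit 4) (nat_lit 444) (nat_lit 416) (nat_lit 160)) (XT.lf (nat_lit 0) (nat_lit 2301628850701) (nat_lit 76) (nat_lit 2335096692363) (nat_lit 152) (nat_lit 707799167757) (nat_lit 26) (nat_lit 5) (nat_lit 27) (nat_lit 5) (nat_lit 28) (nat_lit 4) (nat_lit 445) (nat_lit 416) (nat_lit 159)))))) (XT.nd (nat_lit 51168) (nat_lit 0) (nat_lit 2356) (XT.nd (nat_lit 50934) (nat_lit 0) (nat_lit 2736) (XT.nd (nat_lit 50856) (nat_lit 0) (nat_lit 2736) (XT.lf (nat_lit 0) (nat_lit 482622034126) (nat_lit 152) (nat_lit 210524290032) (nat_lit 76) (nat_lit 4942671838349) (nat_lit 25) (nat_lit 5) (nat_lit 27) (nat_lit 5) (nat_lit 26) (nat_lit 5) (nat_lit 446) (nat_lit 416) (nat_lit 158)) (XT.lf (nat_lit 0) (nat_lit 645655889659) (nat_lit 532) (nat_lit 58327797953) (nat_lit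 532) (nat_lit 58327797953) (nat_lit 61) (nat_lit 3) (nat_lit 68) (nat_lit 3) (nat_lit 68) (nat_lit 5) (nat_lit 417) (nat_lit 417) (nat_lit 186))) (XT.nd (nat_lit 78) (nat_lit 0) (nat_lit 76) (XT.lf (nat_lit 76) (nat_lit 650849083850) (nat_lit 0) (nat_lit 707768129016) (nat_lit 532) (nat_lit 225738440088) (nat_lit 62) (nat_lit 5) (nat_lit 61) (nat_lit 3) (nat_lit 68) (nat_lit 5) (nat_lit 418) (nat_lit 417) (nat_lit 185)) (XT.nd (nat_lit 78) (nat_lit 0) (nat_lit 0) (XT.lf (nat_lit 0) (nat_lit 1435744648064) (nat_lit 456) (nat_lit 163471339189) (nat_lit 532) (nat_lit 49295956717) (nat_lit 62) (nat_lit 5) (nat_lit 68) (nat_lit 5) (nat_lit 69) (nat_lit 5) (nat_lit 419) (nat_lit 417) (nat_lit 184)) (XT.lf (nat_lit 76) (nat_lit 683999547314) (nat_lit 0) (nat_lit 869876521652) (nat_lit 532) (nat_lit 161137966031) (nat_lit 63) (nat_lit 5) (nat_lit 62) (nat_lit 5) (nat_lit 69) (nat_lit 5) (nat_lit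 420) (nat_lit 417) (nat_lit 183))))) (XT.nd (nat_lit 156) (nat_lit 0) (nat_lit 0) (XT.nd (nat_lit 78) (nat_lit 456) (nat_lit 0) (XT.lf (nat_lit 76) (nat_lit 1608564863076) (nat_lit 0) (nat_lit 77362734278) (nat_lit 532) (nat_lit 100551128451) (nat_lit 63) (nat_lit 5) (nat_lit 62) (nat_lit 5) (nat_lit 69) (nat_lit 5) (nat_lit 421) (nat_lit 417) (nat_lit 182)) (XT.lf (nat_lit 0) (nat_lit 4673558892) (nat_lit 532) (nat_lit 1097940616764) (nat_lit 608) (nat_lit 758071246782) (nat_lit 56) (nat_lit 5) (nat_lit 63) (nat_lit 5) (nat_lit 64) (nat_lit 5) (nat_lit 422) (nat_lit 417) (nat_lit 181))) (XT.nd (nat_lit 78) (nat_lit 0) (nat_lit 76) (XT.lf (nat_lit 0) (nat_lit 119884098627) (nat_lit 532) (nat_lit 156412700948) (nat_lit 608) (nat_lit 1663762897815) (nat_lit 56) (nat_lit 5) (nat_lit 63) (nat_lit 5) (nat_lit 64) (nat_lit 5) (nat_lit 423) (nat_lit 417) (nat_lit 180)) (XT.nd (nat_lit 78) (nat_lit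 0) (nat_lit 0) (XT.lf (nat_lit 0) (nat_lit 281478348553) (nat_lit 532) (nat_lit 1133678341126) (nat_lit 76) (nat_lit 607653875299) (nat_lit 57) (nat_lit 5) (nat_lit 64) (nat_lit 5) (nat_lit 58) (nat_lit 5) (nat_lit 424) (nat_lit 417) (nat_lit 179)) (XT.lf (nat_lit 0) (nat_lit 467564357899) (nat_lit 532) (nat_lit 91910924879) (nat_lit 76) (nat_lit 1551781081644) (nat_lit 57) (nat_lit 5) (nat_lit 64) (nat_lit 5) (nat_lit 58) (nat_lit 5) (nat_lit 425) (nat_lit 417) (nat_lit 178))))))))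
noncomputable def xc247 : XT := (XT.nd (nat_lit 1482) (nat_lit 76) (nat_lit 0) (XT.nd (nat_lit 702) (nat_lit 988) (nat_lit 0) (XT.nd (nat_lit 312) (nat_lit 456) (nat_lit 0) (XT.nd (nat_lit 156) (nat_lit 228) (nat_lit 0) (XT.nd (nat_lit 78) (nat_lit 228) (nat_lit 0) (XT.lf (nat_lit 0) (nat_lit 704143652074) (nat_lit 456) (nat_lit 1126530519946) (nat_lit 76) (nat_lit 373255143475) (nat_lit 52) (nat_lit 5) (nat_lit 58) (nat_lit 5) (nat_lit 53) (nat_lit 5) (nat_lit 426) (nat_lit 417) (nat_lit 177)) (XT.lf (nat_lit 0) (nat_lit 28493549962) (nat_lit 228) (nat_lit 948951114833) (nat_lit 304) (nat_lit 1325147807861) (nat_lit 49) (nat_lit 5) (nat_lit 52) (nat_lit 5) (nat_lit 53) (nat_lit 5) (nat_lit 427) (nat_lit 417) (nat_lit 176))) (XT.nd (nat_lit 78) (nat_lit 228) (nat_lit 0) (XT.lf (nat_lit 0) (nat_lit 1304290733122) (nat_lit 304) (nat_lit 1067577877816) (nat_lit 76) (nat_lit 34745593486) (nat_lit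 49) (nat_lit 5) (nat_lit 53) (nat_lit 5) (nat_lit 50) (nat_lit 5) (nat_lit 428) (nat_lit 417) (nat_lit 175)) (XT.lf (nat_lit 0) (nat_lit 221918005552) (nat_lit 228) (nat_lit 1465351694255) (nat_lit 304) (nat_lit 829289157896) (nat_lit 46) (nat_lit 5) (nat_lit 49) (nat_lit 5) (nat_lit 50) (nat_lit 5) (nat_lit 429) (nat_lit 417) (nat_lit 174)))) (XT.nd (nat_lit 156) (nat_lit 304) (nat_lit 0) (XT.nd (nat_lit 78) (nat_lit 152) (nat_lit 0) (XT.lf (nat_lit 0) (nat_lit 1675287657894) (nat_lit 228) (nat_lit 454788795706) (nat_lit 304) (nat_lit 502887472064) (nat_lit 46) (nat_lit 5) (nat_lit 49) (nat_lit 5) (nat_lit 50) (nat_lit 5) (nat_lit 430) (nat_lit 417) (nat_lit 173)) (XT.lf (nat_lit 0) (nat_lit 495733367070) (nat_lit 152) (nat_lit 2139807484302) (nat_lit 228) (nat_lit 120961899396) (nat_lit 44) (nat_lit 5) (nat_lit 46) (nat_lit 5) (nat_lit 47) (nat_lit 5) (nat_lit 431) (nat_lit 417) (nat_lit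 172))) (XT.nd (nat_lit 78) (nat_lit 228) (nat_lit 0) (XT.lf (nat_lit 0) (nat_lit 315612201825) (nat_lit 228) (nat_lit 787454070277) (nat_lit 76) (nat_lit 1783203338752) (nat_lit 43) (nat_lit 5) (nat_lit 46) (nat_lit 5) (nat_lit 44) (nat_lit 5) (nat_lit 432) (nat_lit 417) (nat_lit 171)) (XT.nd (nat_lit 78) (nat_lit 0) (nat_lit 0) (XT.lf (nat_lit 0) (nat_lit 801852730515) (nat_lit 304) (nat_lit 2182810688162) (nat_lit 76) (nat_lit 39801004965) (nat_lit 40) (nat_lit 5) (nat_lit 44) (nat_lit 5) (nat_lit 41) (nat_lit 5) (nat_lit 433) (nat_lit 417) (nat_lit 170)) (XT.lf (nat_lit 0) (nat_lit 1377733193102) (nat_lit 304) (nat_lit 555329318249) (nat_lit 76) (nat_lit 1236593054774) (nat_lit 40) (nat_lit 5) (nat_lit 44) (nat_lit 5) (nat_lit 41) (nat_lit 5) (nat_lit 434) (nat_lit 417) (nat_lit 169)))))) (XT.nd (nat_lit 390) (nat_lit 456) (nat_lit 0) (XT.nd (nat_lit 156) (nat_lit 380) (nat_lit 0) (XT.nd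 (nat_lit 78) (nat_lit 0) (nat_lit 0) (XT.lf (nat_lit 0) (nat_lit 1265664209610) (nat_lit 152) (nat_lit 764459136773) (nat_lit 228) (nat_lit 1293903513331) (nat_lit 38) (nat_lit 5) (nat_lit 40) (nat_lit 5) (nat_lit 41) (nat_lit 5) (nat_lit 435) (nat_lit 417) (nat_lit 168)) (XT.lf (nat_lit 0) (nat_lit 2762250853933) (nat_lit 228) (nat_lit 237976328375) (nat_lit 76) (nat_lit 488316983122) (nat_lit 38) (nat_lit 5) (nat_lit 41) (nat_lit 5) (nat_lit 39) (nat_lit 5) (nat_lit 436) (nat_lit 417) (nat_lit 167))) (XT.nd (nat_lit 78) (nat_lit 228) (nat_lit 0) (XT.lf (nat_lit 0) (nat_lit 1798134801572) (nat_lit 152) (nat_lit 1817915026320) (nat_lit 228) (nat_lit 45124926446) (nat_lit 36) (nat_lit 5) (nat_lit 38) (nat_lit 5) (nat_lit 39) (nat_lit 5) (nat_lit 437) (nat_lit 417) (nat_lit 166)) (XT.nd (nat_lit 78) (nat_lit 0) (nat_lit 0) (XT.lf (nat_lit 0) (nat_lit 154527128447) (nat_lit 152) (nat_lit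 511858426940) (nat_lit 228) (nat_lit 3179070274203) (nat_lit 33) (nat_lit 5) (nat_lit 35) (nat_lit 5) (nat_lit 36) (nat_lit 5) (nat_lit 438) (nat_lit 417) (nat_lit 165)) (XT.lf (nat_lit 0) (nat_lit 1506254197340) (nat_lit 228) (nat_lit 1625060480674) (nat_lit 76) (nat_lit 907160927592) (nat_lit 33) (nat_lit 5) (nat_lit 36) (nat_lit 5) (nat_lit 34) (nat_lit 5) (nat_lit 439) (nat_lit 417) (nat_lit 164))))) (XT.nd (nat_lit 156) (nat_lit 304) (nat_lit 0) (XT.nd (nat_lit 78) (nat_lit 0) (nat_lit 0) (XT.lf (nat_lit 0) (nat_lit 623997030793) (nat_lit 152) (nat_lit 1817617466739) (nat_lit 228) (nat_lit 1803058292822) (nat_lit 31) (nat_lit 5) (nat_lit 33) (nat_lit 5) (nat_lit 34) (nat_lit 5) (nat_lit 440) (nat_lit 417) (nat_lit 163)) (XT.lf (nat_lit 0) (nat_lit 3145397771425) (nat_lit 152) (nat_lit 350837882948) (nat_lit 228) (nat_lit 967575532898) (nat_lit 31) (nat_lit 5) (nat_lit 33) (nat_lit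 5) (nat_lit 34) (nat_lit 5) (nat_lit 441) (nat_lit 417) (nat_lit 162))) (XT.nd (nat_lit 78) (nat_lit 228) (nat_lit 0) (XT.lf (nat_lit 0) (nat_lit 1198313918091) (nat_lit 76) (nat_lit 3495392574989) (nat_lit 152) (nat_lit 2095763716) (nat_lit 30) (nat_lit 5) (nat_lit 31) (nat_lit 5) (nat_lit 32) (nat_lit 4) (nat_lit 442) (nat_lit 417) (nat_lit 161)) (XT.nd (nat_lit 78) (nat_lit 152) (nat_lit 0) (XT.lf (nat_lit 0) (nat_lit 1034662976884) (nat_lit 152) (nat_lit 987185985562) (nat_lit 76) (nat_lit 2918813751066) (nat_lit 29) (nat_lit 5) (nat_lit 31) (nat_lit 5) (nat_lit 30) (nat_lit 5) (nat_lit 443) (nat_lit 417) (nat_lit 160)) (XT.lf (nat_lit 0) (nat_lit 1814662907374) (nat_lit 152) (nat_lit 383228969592) (nat_lit 228) (nat_lit 3003724360093) (nat_lit 27) (nat_lit 5) (nat_lit 29) (nat_lit 5) (nat_lit 30) (nat_lit 5) (nat_lit 444) (nat_lit 417) (nat_lit 159))))))) (XT.nd (nat_lit 51636) (nat_lit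 0) (nat_lit 1064) (XT.nd (nat_lit 51246) (nat_lit 0) (nat_lit 2280) (XT.nd (nat_lit 51012) (nat_lit 0) (nat_lit 2660) (XT.nd (nat_lit 78) (nat_lit 76) (nat_lit 0) (XT.lf (nat_lit 0) (nat_lit 3515216470716) (nat_lit 228) (nat_lit 618530845001) (nat_lit 76) (nat_lit 1344815736238) (nat_lit 27) (nat_lit 5) (nat_lit 30) (nat_lit 5) (nat_lit 28) (nat_lit 4) (nat_lit 445) (nat_lit 417) (nat_lit 158)) (XT.lf (nat_lit 0) (nat_lit 2485759179779) (nat_lit 76) (nat_lit 2521904418858) (nat_lit 152) (nat_lit 764423088074) (nat_lit 26) (nat_lit 5) (nat_lit 27) (nat_lit 5) (nat_lit 28) (nat_lit 4) (nat_lit 446) (nat_lit 417) (nat_lit 157))) (XT.nd (nat_lit 78) (nat_lit 0) (nat_lit 0) (XT.lf (nat_lit 0) (nat_lit 697308386456) (nat_lit 532) (nat_lit 62994007936) (nat_lit 532) (nat_lit 62994007936) (nat_lit 61) (nat_lit 3) (nat_lit 68) (nat_lit 3) (nat_lit 68) (nat_lit 5) (nat_lit 418) (nat_lit 418) (nat_lit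 184)) (XT.nd (nat_lit 78) (nat_lit 0) (nat_lit 76) (XT.lf (nat_lit 76) (nat_lit 702917037562) (nat_lit 0) (nat_lit 764389600436) (nat_lit 532) (nat_lit 243797463287) (nat_lit 62) (nat_lit 5) (nat_lit 61) (nat_lit 3) (nat_lit 68) (nat_lit 5) (nat_lit 419) (nat_lit 418) (nat_lit 183)) (XT.lf (nat_lit 0) (nat_lit 1550604263978) (nat_lit 456) (nat_lit 176549017233) (nat_lit 532) (nat_lit 53239614696) (nat_lit 62) (nat_lit 5) (nat_lit 68) (nat_lit 5) (nat_lit 69) (nat_lit 5) (nat_lit 420) (nat_lit 418) (nat_lit 182))))) (XT.nd (nat_lit 156) (nat_lit 456) (nat_lit 0) (XT.nd (nat_lit 78) (nat_lit 0) (nat_lit 0) (XT.lf (nat_lit 76) (nat_lit 738719539454) (nat_lit 0) (nat_lit 939466656517) (nat_lit 532) (nat_lit 174028958458) (nat_lit 63) (nat_lit 5) (nat_lit 62) (nat_lit 5) (nat_lit 69) (nat_lit 5) (nat_lit 421) (nat_lit 418) (nat_lit 181)) (XT.lf (nat_lit 76) (nat_lit 1737250078376) (nat_lit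 0) (nat_lit 83551765181) (nat_lit 532) (nat_lit 108595177194) (nat_lit 63) (nat_lit 5) (nat_lit 62) (nat_lit 5) (nat_lit 69) (nat_lit 5) (nat_lit 422) (nat_lit 418) (nat_lit 180))) (XT.nd (nat_lit 78) (nat_lit 0) (nat_lit 0) (XT.lf (nat_lit 0) (nat_lit 5047480571) (nat_lit 532) (nat_lit 1185775835205) (nat_lit 608) (nat_lit 818716937460) (nat_lit 56) (nat_lit 5) (nat_lit 63) (nat_lit 5) (nat_lit 64) (nat_lit 5) (nat_lit 423) (nat_lit 418) (nat_lit 179)) (XT.nd (nat_lit 78) (nat_lit 0) (nat_lit 76) (XT.lf (nat_lit 0) (nat_lit 129474860747) (nat_lit 532) (nat_lit 168925688412) (nat_lit 608) (nat_lit 1796863921247) (nat_lit 56) (nat_lit 5) (nat_lit 63) (nat_lit 5) (nat_lit 64) (nat_lit 5) (nat_lit 424) (nat_lit 418) (nat_lit 178)) (XT.lf (nat_lit 0) (nat_lit 303996648695) (nat_lit 532) (nat_lit 1224372577798) (nat_lit 76) (nat_lit 656266181069) (nat_lit 57) (nat_lit 5) (nat_lit 64) (nat_lit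 5) (nat_lit 58) (nat_lit 5) (nat_lit 425) (nat_lit 418) (nat_lit 177)))))) (XT.nd (nat_lit 390) (nat_lit 456) (nat_lit 0) (XT.nd (nat_lit 156) (nat_lit 456) (nat_lit 0) (XT.nd (nat_lit 78) (nat_lit 380) (nat_lit 0) (XT.lf (nat_lit 0) (nat_lit 504969536398) (nat_lit 532) (nat_lit 99263770519) (nat_lit 76) (nat_lit 1675923564237) (nat_lit 57) (nat_lit 5) (nat_lit 64) (nat_lit 5) (nat_lit 58) (nat_lit 5) (nat_lit 426) (nat_lit 418) (nat_lit 176)) (XT.lf (nat_lit 0) (nat_lit 760475172544) (nat_lit 456) (nat_lit 1216652931598) (nat_lit 76) (nat_lit 403115554300) (nat_lit 52) (nat_lit 5) (nat_lit 58) (nat_lit 5) (nat_lit 53) (nat_lit 5) (nat_lit 427) (nat_lit 418) (nat_lit 175))) (XT.nd (nat_lit 78) (nat_lit 228) (nat_lit 0) (XT.lf (nat_lit 0) (nat_lit 30773063144) (nat_lit 228) (nat_lit 1024867201743) (nat_lit 304) (nat_lit 1431159603401) (nat_lit 49) (nat_lit 5) (nat_lit 52) (nat_lit 5) (nat_lit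 53) (nat_lit 5) (nat_lit 428) (nat_lit 418) (nat_lit 174)) (XT.nd (nat_lit 78) (nat_lit 228) (nat_lit 0) (XT.lf (nat_lit 0) (nat_lit 1408634016738) (nat_lit 304) (nat_lit 1152984079051) (nat_lit 76) (nat_lit 37525242967) (nat_lit 49) (nat_lit 5) (nat_lit 53) (nat_lit 5) (nat_lit 50) (nat_lit 5) (nat_lit 429) (nat_lit 418) (nat_lit 173)) (XT.lf (nat_lit 0) (nat_lit 239671474254) (nat_lit 228) (nat_lit 1582579825335) (nat_lit 304) (nat_lit 895632264804) (nat_lit 46) (nat_lit 5) (nat_lit 49) (nat_lit 5) (nat_lit 50) (nat_lit 5) (nat_lit 430) (nat_lit 418) (nat_lit 172))))) (XT.nd (nat_lit 156) (nat_lit 304) (nat_lit 0) (XT.nd (nat_lit 78) (nat_lit 152) (nat_lit 0) (XT.lf (nat_lit 0) (nat_lit 1809310696690) (nat_lit 228) (nat_lit 491171895232) (nat_lit 304) (nat_lit 543118446011) (nat_lit 46) (nat_lit 5) (nat_lit 49) (nat_lit 5) (nat_lit 50) (nat_lit 5) (nat_lit 431) (nat_lit 418) (nat_lit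 171)) (XT.lf (nat_lit 0) (nat_lit 535392063579) (nat_lit 152) (nat_lit 2310992077050) (nat_lit 228) (nat_lit 130638828490) (nat_lit 44) (nat_lit 5) (nat_lit 46) (nat_lit 5) (nat_lit 47) (nat_lit 5) (nat_lit 432) (nat_lit 418) (nat_lit 170))) (XT.nd (nat_lit 78) (nat_lit 228) (nat_lit 0) (XT.lf (nat_lit 0) (nat_lit 340861198077) (nat_lit 228) (nat_lit 850450369691) (nat_lit 76) (nat_lit 1925859610330) (nat_lit 43) (nat_lit 5) (nat_lit 46) (nat_lit 5) (nat_lit 44) (nat_lit 5) (nat_lit 433) (nat_lit 418) (nat_lit 169)) (XT.nd (nat_lit 78) (nat_lit 0) (nat_lit 0) (XT.lf (nat_lit 0) (nat_lit 866000968339) (nat_lit 304) (nat_lit 2357435516268) (nat_lit 76) (nat_lit 42985091360) (nat_lit 40) (nat_lit 5) (nat_lit 44) (nat_lit 5) (nat_lit 41) (nat_lit 5) (nat_lit 434) (nat_lit 418) (nat_lit 168)) (XT.lf (nat_lit 0) (nat_lit 1487951866498) (nat_lit 304) (nat_lit 599755638758) (nat_lit 76) (nat_lit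 1335520504710) (nat_lit 40) (nat_lit 5) (nat_lit 44) (nat_lit 5) (nat_lit 41) (nat_lit 5) (nat_lit 435) (nat_lit 418) (nat_lit 167))))))))
noncomputable def xc248 : XT := (XT.nd (nat_lit 52494) (nat_lit 0) (nat_lit 152) (XT.nd (nat_lit 780) (nat_lit 0) (nat_lit 0) (XT.nd (nat_lit 312) (nat_lit 456) (nat_lit 0) (XT.nd (nat_lit 156) (nat_lit 380) (nat_lit 0) (XT.nd (nat_lit 78) (nat_lit 0) (nat_lit 0) (XT.lf (nat_lit 0) (nat_lit 1366917370698) (nat_lit 152) (nat_lit 825615860598) (nat_lit 228) (nat_lit 1397415775806) (nat_lit 38) (nat_lit 5) (nat_lit 40) (nat_lit 5) (nat_lit 41) (nat_lit 5) (nat_lit 436) (nat_lit 418) (nat_lit 166)) (XT.lf (nat_lit 0) (nat_lit 2983230938334) (nat_lit 228) (nat_lit 257014410999) (nat_lit 76) (nat_lit 527382348032) (nat_lit 38) (nat_lit 5) (nat_lit 41) (nat_lit 5) (nat_lit 39) (nat_lit 5) (nat_lit 437) (nat_lit 418) (nat_lit 165))) (XT.nd (nat_lit 78) (nat_lit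 228) (nat_lit 0) (XT.lf (nat_lit 0) (nat_lit 1941985608746) (nat_lit 152) (nat_lit 1963348220828) (nat_lit 228) (nat_lit 48734903865) (nat_lit 36) (nat_lit 5) (nat_lit 38) (nat_lit 5) (nat_lit 39) (nat_lit 5) (nat_lit 438) (nat_lit 418) (nat_lit 164)) (XT.lf (nat_lit 0) (nat_lit 166889322011) (nat_lit 152) (nat_lit 552807093053) (nat_lit 228) (nat_lit 3433395879663) (nat_lit 33) (nat_lit 5) (nat_lit 35) (nat_lit 5) (nat_lit 36) (nat_lit 5) (nat_lit 439) (nat_lit 418) (nat_lit 163)))) (XT.nd (nat_lit 156) (nat_lit 304) (nat_lit 0) (XT.nd (nat_lit 78) (nat_lit 152) (nat_lit 0) (XT.lf (nat_lit 0) (nat_lit 1626754547424) (nat_lit 228) (nat_lit 1755065296604) (nat_lit 76) (nat_lit 979733808873) (nat_lit 33) (nat_lit 5) (nat_lit 36) (nat_lit 5) (nat_lit 34) (nat_lit 5) (nat_lit 440) (nat_lit 418) (nat_lit 162)) (XT.lf (nat_lit 0) (nat_lit 673916815209) (nat_lit 152) (nat_lit 1963026855891) (nat_lit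 228) (nat_lit 1947302941373) (nat_lit 31) (nat_lit 5) (nat_lit 33) (nat_lit 5) (nat_lit 34) (nat_lit 5) (nat_lit 441) (nat_lit 418) (nat_lit 161))) (XT.nd (nat_lit 156) (nat_lit 304) (nat_lit 0) (XT.lf (nat_lit 0) (nat_lit 3397029613466) (nat_lit 152) (nat_lit 378904906003) (nat_lit 228) (nat_lit 1044981561757) (nat_lit 31) (nat_lit 5) (nat_lit 33) (nat_lit 5) (nat_lit 34) (nat_lit 5) (nat_lit 442) (nat_lit 418) (nat_lit 160)) (XT.nd (nat_lit 78) (nat_lit 152) (nat_lit 0) (XT.lf (nat_lit 0) (nat_lit 1117436026884) (nat_lit 152) (nat_lit 1066160844670) (nat_lit 76) (nat_lit 3152318858085) (nat_lit 29) (nat_lit 5) (nat_lit 31) (nat_lit 5) (nat_lit 30) (nat_lit 5) (nat_lit 444) (nat_lit 418) (nat_lit 158)) (XT.lf (nat_lit 0) (nat_lit 1959835959201) (nat_lit 152) (nat_lit 413887279356) (nat_lit 228) (nat_lit 3244022296545) (nat_lit 27) (nat_lit 5) (nat_lit 29) (nat_lit 5) (nat_lit 30) (nat_lit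 5) (nat_lit 445) (nat_lit 418) (nat_lit 157)))))) (XT.nd (nat_lit 51324) (nat_lit 0) (nat_lit 2204) (XT.nd (nat_lit 51090) (nat_lit 0) (nat_lit 2584) (XT.nd (nat_lit 51012) (nat_lit 0) (nat_lit 2584) (XT.lf (nat_lit 0) (nat_lit 3796433799135) (nat_lit 228) (nat_lit 668013294110) (nat_lit 76) (nat_lit 1452401002001) (nat_lit 27) (nat_lit 5) (nat_lit 30) (nat_lit 5) (nat_lit 28) (nat_lit 4) (nat_lit 446) (nat_lit 418) (nat_lit 156)) (XT.lf (nat_lit 0) (nat_lit 753093079342) (nat_lit 532) (nat_lit 68033516695) (nat_lit 532) (nat_lit 68033516695) (nat_lit 61) (nat_lit 3) (nat_lit 68) (nat_lit 3) (nat_lit 68) (nat_lit 5) (nat_lit 419) (nat_lit 419) (nat_lit 182))) (XT.nd (nat_lit 78) (nat_lit 0) (nat_lit 76) (XT.lf (nat_lit 76) (nat_lit 759150423719) (nat_lit 0) (nat_lit 825540786559) (nat_lit 532) (nat_lit 263301215761) (nat_lit 62) (nat_lit 5) (nat_lit 61) (nat_lit 3) (nat_lit 68) (nat_lit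 5) (nat_lit 420) (nat_lit 419) (nat_lit 181)) (XT.nd (nat_lit 78) (nat_lit 0) (nat_lit 0) (XT.lf (nat_lit 0) (nat_lit 1674652642879) (nat_lit 456) (nat_lit 190672913671) (nat_lit 532) (nat_lit 57498767962) (nat_lit 62) (nat_lit 5) (nat_lit 68) (nat_lit 5) (nat_lit 69) (nat_lit 5) (nat_lit 421) (nat_lit 419) (nat_lit 180)) (XT.lf (nat_lit 76) (nat_lit 797817126919) (nat_lit 0) (nat_lit 1014624000298) (nat_lit 532) (nat_lit 187951236678) (nat_lit 63) (nat_lit 5) (nat_lit 62) (nat_lit 5) (nat_lit 69) (nat_lit 5) (nat_lit 422) (nat_lit 419) (nat_lit 179))))) (XT.nd (nat_lit 156) (nat_lit 0) (nat_lit 0) (XT.nd (nat_lit 78) (nat_lit 456) (nat_lit 0) (XT.lf (nat_lit 76) (nat_lit 1876230107155) (nat_lit 0) (nat_lit 90235916820) (nat_lit 532) (nat_lit 117282755761) (nat_lit 63) (nat_lit 5) (nat_lit 62) (nat_lit 5) (nat_lit 69) (nat_lit 5) (nat_lit 423) (nat_lit 419) (nat_lit 178)) (XT.lf (nat_lit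 0) (nat_lit 5451310712) (nat_lit 532) (nat_lit 1280637875529) (nat_lit 608) (nat_lit 884214284685) (nat_lit 56) (nat_lit 5) (nat_lit 63) (nat_lit 5) (nat_lit 64) (nat_lit 5) (nat_lit 424) (nat_lit 419) (nat_lit 177))) (XT.nd (nat_lit 78) (nat_lit 0) (nat_lit 76) (XT.lf (nat_lit 0) (nat_lit 139832878953) (nat_lit 532) (nat_lit 182439718955) (nat_lit 608) (nat_lit 1940613027751) (nat_lit 56) (nat_lit 5) (nat_lit 63) (nat_lit 5) (nat_lit 64) (nat_lit 5) (nat_lit 425) (nat_lit 419) (nat_lit 176)) (XT.nd (nat_lit 78) (nat_lit 0) (nat_lit 0) (XT.lf (nat_lit 0) (nat_lit 328316408246) (nat_lit 532) (nat_lit 1322322357772) (nat_lit 76) (nat_lit 708767471908) (nat_lit 57) (nat_lit 5) (nat_lit 64) (nat_lit 5) (nat_lit 58) (nat_lit 5) (nat_lit 426) (nat_lit 419) (nat_lit 175)) (XT.lf (nat_lit 0) (nat_lit 545367124917) (nat_lit 532) (nat_lit 107204847855) (nat_lit 76) (nat_lit 1809997445999) (nat_lit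 57) (nat_lit 5) (nat_lit 64) (nat_lit 5) (nat_lit 58) (nat_lit 5) (nat_lit 427) (nat_lit 419) (nat_lit 174))))))) (XT.nd (nat_lit 702) (nat_lit 836) (nat_lit 0) (XT.nd (nat_lit 312) (nat_lit 456) (nat_lit 0) (XT.nd (nat_lit 156) (nat_lit 228) (nat_lit 0) (XT.nd (nat_lit 78) (nat_lit 228) (nat_lit 0) (XT.lf (nat_lit 0) (nat_lit 821313210613) (nat_lit 456) (nat_lit 1313985140454) (nat_lit 76) (nat_lit 435364798084) (nat_lit 52) (nat_lit 5) (nat_lit 58) (nat_lit 5) (nat_lit 53) (nat_lit 5) (nat_lit 428) (nat_lit 419) (nat_lit 173)) (XT.lf (nat_lit 0) (nat_lit 33234933217) (nat_lit 228) (nat_lit 1106856575931) (nat_lit 304) (nat_lit 1545652346735) (nat_lit 49) (nat_lit 5) (nat_lit 52) (nat_lit 5) (nat_lit 53) (nat_lit 5) (nat_lit 429) (nat_lit 419) (nat_lit 172))) (XT.nd (nat_lit 78) (nat_lit 228) (nat_lit 0) (XT.lf (nat_lit 0) (nat_lit 1521324759482) (nat_lit 304) (nat_lit 1245222780520)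 (nat_lit 76) (nat_lit 40527264121) (nat_lit 49) (nat_lit 5) (nat_lit 53) (nat_lit 5) (nat_lit 50) (nat_lit 5) (nat_lit 430) (nat_lit 419) (nat_lit 171)) (XT.lf (nat_lit 0) (nat_lit 258845216420) (nat_lit 228) (nat_lit 1709186207537) (nat_lit 304) (nat_lit 967282823935) (nat_lit 46) (nat_lit 5) (nat_lit 49) (nat_lit 5) (nat_lit 50) (nat_lit 5) (nat_lit 431) (nat_lit 419) (nat_lit 170)))) (XT.nd (nat_lit 156) (nat_lit 304) (nat_lit 0) (XT.nd (nat_lit 78) (nat_lit 152) (nat_lit 0) (XT.lf (nat_lit 0) (nat_lit 1954055574856) (nat_lit 228) (nat_lit 530465643310) (nat_lit 304) (nat_lit 586567901272) (nat_lit 46) (nat_lit 5) (nat_lit 49) (nat_lit 5) (nat_lit 50) (nat_lit 5) (nat_lit 432) (nat_lit 419) (nat_lit 169)) (XT.lf (nat_lit 0) (nat_lit 578223451937) (nat_lit 152) (nat_lit 2495871438072) (nat_lit 228) (nat_lit 141089915173) (nat_lit 44) (nat_lit 5) (nat_lit 46) (nat_lit 5) (nat_lit 47)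 (nat_lit 5) (nat_lit 433) (nat_lit 419) (nat_lit 168))) (XT.nd (nat_lit 78) (nat_lit 228) (nat_lit 0) (XT.lf (nat_lit 0) (nat_lit 368130111161) (nat_lit 228) (nat_lit 918486376796) (nat_lit 76) (nat_lit 2079928382995) (nat_lit 43) (nat_lit 5) (nat_lit 46) (nat_lit 5) (nat_lit 44) (nat_lit 5) (nat_lit 434) (nat_lit 419) (nat_lit 167)) (XT.nd (nat_lit 78) (nat_lit 0) (nat_lit 0) (XT.lf (nat_lit 0) (nat_lit 935281062424) (nat_lit 304) (nat_lit 2546030334467) (nat_lit 76) (nat_lit 46423903812) (nat_lit 40) (nat_lit 5) (nat_lit 44) (nat_lit 5) (nat_lit 41) (nat_lit 5) (nat_lit 435) (nat_lit 419) (nat_lit 166)) (XT.lf (nat_lit 0) (nat_lit 1606988031204) (nat_lit 304) (nat_lit 647736068467) (nat_lit 76) (nat_lit 1442362149849) (nat_lit 40) (nat_lit 5) (nat_lit 44) (nat_lit 5) (nat_lit 41) (nat_lit 5) (nat_lit 436) (nat_lit 419) (nat_lit 165)))))) (XT.nd (nat_lit 390) (nat_lit 304) (nat_lit 0)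 (XT.nd (nat_lit 156) (nat_lit 380) (nat_lit 0) (XT.nd (nat_lit 78) (nat_lit 0) (nat_lit 0) (XT.lf (nat_lit 0) (nat_lit 1476270781204) (nat_lit 152) (nat_lit 891665123344) (nat_lit 228) (nat_lit 1509209021930) (nat_lit 38) (nat_lit 5) (nat_lit 40) (nat_lit 5) (nat_lit 41) (nat_lit 5) (nat_lit 437) (nat_lit 419) (nat_lit 164)) (XT.lf (nat_lit 0) (nat_lit 3221889427193) (nat_lit 228) (nat_lit 277575543606) (nat_lit 76) (nat_lit 569572941242) (nat_lit 38) (nat_lit 5) (nat_lit 41) (nat_lit 5) (nat_lit 39) (nat_lit 5) (nat_lit 438) (nat_lit 419) (nat_lit 163))) (XT.nd (nat_lit 78) (nat_lit 228) (nat_lit 0) (XT.lf (nat_lit 0) (nat_lit 2097344477205) (nat_lit 152) (nat_lit 2120416071980) (nat_lit 228) (nat_lit 52633681859) (nat_lit 36) (nat_lit 5) (nat_lit 38) (nat_lit 5) (nat_lit 39) (nat_lit 5) (nat_lit 439) (nat_lit 419) (nat_lit 162)) (XT.nd (nat_lit 78) (nat_lit 0) (nat_lit 0) (XT.lf (nat_lit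 0) (nat_lit 180240487738) (nat_lit 152) (nat_lit 597031653603) (nat_lit 228) (nat_lit 3708067535910) (nat_lit 33) (nat_lit 5) (nat_lit 35) (nat_lit 5) (nat_lit 36) (nat_lit 5) (nat_lit 440) (nat_lit 419) (nat_lit 161)) (XT.lf (nat_lit 0) (nat_lit 1756894923475) (nat_lit 228) (nat_lit 1895470501023) (nat_lit 76) (nat_lit 1058112519648) (nat_lit 33) (nat_lit 5) (nat_lit 36) (nat_lit 5) (nat_lit 34) (nat_lit 5) (nat_lit 441) (nat_lit 419) (nat_lit 160))))) (XT.nd (nat_lit 156) (nat_lit 152) (nat_lit 0) (XT.nd (nat_lit 78) (nat_lit 0) (nat_lit 0) (XT.lf (nat_lit 0) (nat_lit 727830179247) (nat_lit 152) (nat_lit 2120068997343) (nat_lit 228) (nat_lit 2103087163929) (nat_lit 31) (nat_lit 5) (nat_lit 33) (nat_lit 5) (nat_lit 34) (nat_lit 5) (nat_lit 442) (nat_lit 419) (nat_lit 159)) (XT.lf (nat_lit 0) (nat_lit 3668791999970) (nat_lit 152) (nat_lit 409217291983) (nat_lit 228) (nat_lit 1128580074889)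 (nat_lit 31) (nat_lit 5) (nat_lit 33) (nat_lit 5) (nat_lit 34) (nat_lit 5) (nat_lit 443) (nat_lit 419) (nat_lit 158))) (XT.nd (nat_lit 78) (nat_lit 76) (nat_lit 0) (XT.lf (nat_lit 0) (nat_lit 1397713394040) (nat_lit 76) (nat_lit 4077025883641) (nat_lit 152) (nat_lit 2444472700) (nat_lit 30) (nat_lit 5) (nat_lit 31) (nat_lit 5) (nat_lit 32) (nat_lit 4) (nat_lit 444) (nat_lit 419) (nat_lit 157)) (XT.nd (nat_lit 51168) (nat_lit 0) (nat_lit 2432) (XT.lf (nat_lit 0) (nat_lit 1206830919194) (nat_lit 152) (nat_lit 1151453695322) (nat_lit 76) (nat_lit 3404504372677) (nat_lit 29) (nat_lit 5) (nat_lit 31) (nat_lit 5) (nat_lit 30) (nat_lit 5) (nat_lit 445) (nat_lit 419) (nat_lit 156)) (XT.lf (nat_lit 0) (nat_lit 813340544524) (nat_lit 532) (nat_lit 73476187848) (nat_lit 532) (nat_lit 73476187848) (nat_lit 61) (nat_lit 3) (nat_lit 68) (nat_lit 3) (nat_lit 68) (nat_lit 5) (nat_lit 420) (nat_lit 420)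 (nat_lit 180))))))))
noncomputable def xc249 : XT := (XT.nd (nat_lit 1482) (nat_lit 608) (nat_lit 0) (XT.nd (nat_lit 702) (nat_lit 1064) (nat_lit 0) (XT.nd (nat_lit 312) (nat_lit 684) (nat_lit 0) (XT.nd (nat_lit 156) (nat_lit 0) (nat_lit 76) (XT.nd (nat_lit 78) (nat_lit 0) (nat_lit 76) (XT.lf (nat_lit 76) (nat_lit 819882477466) (nat_lit 0) (nat_lit 891584064991) (nat_lit 532) (nat_lit 284365274794) (nat_lit 62) (nat_lit 5) (nat_lit 61) (nat_lit 3) (nat_lit 68) (nat_lit 5) (nat_lit 421) (nat_lit 420) (nat_lit 179)) (XT.lf (nat_lit 0) (nat_lit 1808624886702) (nat_lit 456) (nat_lit 205926725382) (nat_lit 532) (nat_lit 62098655758) (nat_lit 62) (nat_lit 5) (nat_lit 68) (nat_lit 5) (nat_lit 69) (nat_lit 5) (nat_lit 422) (nat_lit 420) (nat_lit 178))) (XT.nd (nat_lit 78) (nat_lit 0) (nat_lit 0) (XT.lf (nat_lit 76) (nat_lit 861642517914) (nat_lit 0) (nat_lit 1095793929975) (nat_lit 532) (nat_lit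 202987302642) (nat_lit 63) (nat_lit 5) (nat_lit 62) (nat_lit 5) (nat_lit 69) (nat_lit 5) (nat_lit 423) (nat_lit 420) (nat_lit 177)) (XT.lf (nat_lit 76) (nat_lit 2026328535025) (nat_lit 0) (nat_lit 97454799104) (nat_lit 532) (nat_lit 126665345694) (nat_lit 63) (nat_lit 5) (nat_lit 62) (nat_lit 5) (nat_lit 69) (nat_lit 5) (nat_lit 424) (nat_lit 420) (nat_lit 176)))) (XT.nd (nat_lit 156) (nat_lit 304) (nat_lit 0) (XT.nd (nat_lit 78) (nat_lit 0) (nat_lit 0) (XT.lf (nat_lit 0) (nat_lit 5887442741) (nat_lit 532) (nat_lit 1383088882859) (nat_lit 608) (nat_lit 954951420798) (nat_lit 56) (nat_lit 5) (nat_lit 63) (nat_lit 5) (nat_lit 64) (nat_lit 5) (nat_lit 425) (nat_lit 420) (nat_lit 175)) (XT.lf (nat_lit 0) (nat_lit 151019534430) (nat_lit 532) (nat_lit 197034875441) (nat_lit 608) (nat_lit 2095862063802) (nat_lit 56) (nat_lit 5) (nat_lit 63) (nat_lit 5) (nat_lit 64) (nat_lit 5) (nat_lit 426) (nat_lit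 420) (nat_lit 174))) (XT.nd (nat_lit 78) (nat_lit 380) (nat_lit 0) (XT.lf (nat_lit 0) (nat_lit 354581744616) (nat_lit 532) (nat_lit 1428108123888) (nat_lit 76) (nat_lit 765468866534) (nat_lit 57) (nat_lit 5) (nat_lit 64) (nat_lit 5) (nat_lit 58) (nat_lit 5) (nat_lit 427) (nat_lit 420) (nat_lit 173)) (XT.nd (nat_lit 78) (nat_lit 380) (nat_lit 0) (XT.lf (nat_lit 0) (nat_lit 588996516864) (nat_lit 532) (nat_lit 115781214846) (nat_lit 76) (nat_lit 1954797238784) (nat_lit 57) (nat_lit 5) (nat_lit 64) (nat_lit 5) (nat_lit 58) (nat_lit 5) (nat_lit 428) (nat_lit 420) (nat_lit 172)) (XT.lf (nat_lit 0) (nat_lit 887018288266) (nat_lit 456) (nat_lit 1419103929681) (nat_lit 76) (nat_lit 470193981451) (nat_lit 52) (nat_lit 5) (nat_lit 58) (nat_lit 5) (nat_lit 53) (nat_lit 5) (nat_lit 429) (nat_lit 420) (nat_lit 171)))))) (XT.nd (nat_lit 390) (nat_lit 456) (nat_lit 0) (XT.nd (nat_lit 156) (nat_lit 380)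 (nat_lit 0) (XT.nd (nat_lit 78) (nat_lit 0) (nat_lit 0) (XT.lf (nat_lit 0) (nat_lit 35893749327) (nat_lit 228) (nat_lit 1195405100333) (nat_lit 304) (nat_lit 1669304513093) (nat_lit 49) (nat_lit 5) (nat_lit 52) (nat_lit 5) (nat_lit 53) (nat_lit 5) (nat_lit 430) (nat_lit 420) (nat_lit 170)) (XT.lf (nat_lit 0) (nat_lit 1643030758591) (nat_lit 304) (nat_lit 1344840581652) (nat_lit 76) (nat_lit 43769446723) (nat_lit 49) (nat_lit 5) (nat_lit 53) (nat_lit 5) (nat_lit 50) (nat_lit 5) (nat_lit 431) (nat_lit 420) (nat_lit 169))) (XT.nd (nat_lit 78) (nat_lit 152) (nat_lit 0) (XT.lf (nat_lit 0) (nat_lit 279552854503) (nat_lit 228) (nat_lit 1845921100862) (nat_lit 304) (nat_lit 1044665430943) (nat_lit 46) (nat_lit 5) (nat_lit 49) (nat_lit 5) (nat_lit 50) (nat_lit 5) (nat_lit 432) (nat_lit 420) (nat_lit 168)) (XT.nd (nat_lit 78) (nat_lit 152) (nat_lit 0) (XT.lf (nat_lit 0) (nat_lit 2110380040076) (nat_lit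 228) (nat_lit 572902891739) (nat_lit 304) (nat_lit 633493315867) (nat_lit 46) (nat_lit 5) (nat_lit 49) (nat_lit 5) (nat_lit 50) (nat_lit 5) (nat_lit 433) (nat_lit 420) (nat_lit 167)) (XT.lf (nat_lit 0) (nat_lit 624481348043) (nat_lit 152) (nat_lit 2695541148710) (nat_lit 228) (nat_lit 152377091585) (nat_lit 44) (nat_lit 5) (nat_lit 46) (nat_lit 5) (nat_lit 47) (nat_lit 5) (nat_lit 434) (nat_lit 420) (nat_lit 166))))) (XT.nd (nat_lit 156) (nat_lit 152) (nat_lit 0) (XT.nd (nat_lit 78) (nat_lit 228) (nat_lit 0) (XT.lf (nat_lit 0) (nat_lit 397580534833) (nat_lit 228) (nat_lit 991965267676) (nat_lit 76) (nat_lit 2246322656925) (nat_lit 43) (nat_lit 5) (nat_lit 46) (nat_lit 5) (nat_lit 44) (nat_lit 5) (nat_lit 435) (nat_lit 420) (nat_lit 165)) (XT.lf (nat_lit 0) (nat_lit 1010103561665) (nat_lit 304) (nat_lit 2749712741417) (nat_lit 76) (nat_lit 50137820526) (nat_lit 40) (nat_lit 5) (nat_lit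 44) (nat_lit 5) (nat_lit 41) (nat_lit 5) (nat_lit 436) (nat_lit 420) (nat_lit 164))) (XT.nd (nat_lit 78) (nat_lit 152) (nat_lit 0) (XT.lf (nat_lit 0) (nat_lit 1735547086892) (nat_lit 304) (nat_lit 699554935605) (nat_lit 76) (nat_lit 1557751125919) (nat_lit 40) (nat_lit 5) (nat_lit 44) (nat_lit 5) (nat_lit 41) (nat_lit 5) (nat_lit 437) (nat_lit 420) (nat_lit 163)) (XT.nd (nat_lit 78) (nat_lit 0) (nat_lit 0) (XT.lf (nat_lit 0) (nat_lit 1594372461576) (nat_lit 152) (nat_lit 962998327981) (nat_lit 228) (nat_lit 1629945730019) (nat_lit 38) (nat_lit 5) (nat_lit 40) (nat_lit 5) (nat_lit 41) (nat_lit 5) (nat_lit 438) (nat_lit 420) (nat_lit 162)) (XT.lf (nat_lit 0) (nat_lit 3479640593192) (nat_lit 228) (nat_lit 299781569714) (nat_lit 76) (nat_lit 615138781142) (nat_lit 38) (nat_lit 5) (nat_lit 41) (nat_lit 5) (nat_lit 39) (nat_lit 5) (nat_lit 439) (nat_lit 420) (nat_lit 161))))))) (XT.nd (nat_lit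 51948) (nat_lit 0) (nat_lit 1216) (XT.nd (nat_lit 390) (nat_lit 76) (nat_lit 0) (XT.nd (nat_lit 156) (nat_lit 152) (nat_lit 0) (XT.nd (nat_lit 78) (nat_lit 228) (nat_lit 0) (XT.lf (nat_lit 0) (nat_lit 2265132052322) (nat_lit 152) (nat_lit 2290049352153) (nat_lit 228) (nat_lit 56844364135) (nat_lit 36) (nat_lit 5) (nat_lit 38) (nat_lit 5) (nat_lit 39) (nat_lit 5) (nat_lit 440) (nat_lit 420) (nat_lit 160)) (XT.lf (nat_lit 0) (nat_lit 194659743875) (nat_lit 152) (nat_lit 644794179980) (nat_lit 228) (nat_lit 4004712926672) (nat_lit 33) (nat_lit 5) (nat_lit 35) (nat_lit 5) (nat_lit 36) (nat_lit 5) (nat_lit 441) (nat_lit 420) (nat_lit 159))) (XT.nd (nat_lit 78) (nat_lit 152) (nat_lit 0) (XT.lf (nat_lit 0) (nat_lit 1897446527861) (nat_lit 228) (nat_lit 2047108124550) (nat_lit 76) (nat_lit 1142761526419) (nat_lit 33) (nat_lit 5) (nat_lit 36) (nat_lit 5) (nat_lit 34) (nat_lit 5) (nat_lit 442) (nat_lit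 420) (nat_lit 158)) (XT.nd (nat_lit 78) (nat_lit 0) (nat_lit 0) (XT.lf (nat_lit 0) (nat_lit 786056609723) (nat_lit 152) (nat_lit 2289674511112) (nat_lit 228) (nat_lit 2271334126110) (nat_lit 31) (nat_lit 5) (nat_lit 33) (nat_lit 5) (nat_lit 34) (nat_lit 5) (nat_lit 443) (nat_lit 420) (nat_lit 157)) (XT.lf (nat_lit 0) (nat_lit 3962295374909) (nat_lit 152) (nat_lit 441954669770) (nat_lit 228) (nat_lit 1218866470756) (nat_lit 31) (nat_lit 5) (nat_lit 33) (nat_lit 5) (nat_lit 34) (nat_lit 5) (nat_lit 444) (nat_lit 420) (nat_lit 156))))) (XT.nd (nat_lit 51324) (nat_lit 0) (nat_lit 2356) (XT.nd (nat_lit 51246) (nat_lit 0) (nat_lit 2356) (XT.lf (nat_lit 0) (nat_lit 1509530480732) (nat_lit 76) (nat_lit 4403187948328) (nat_lit 152) (nat_lit 2640020614) (nat_lit 30) (nat_lit 5) (nat_lit 31) (nat_lit 5) (nat_lit 32) (nat_lit 4) (nat_lit 445) (nat_lit 420) (nat_lit 155)) (XT.lf (nat_lit 0) (nat_lit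 878407804234) (nat_lit 532) (nat_lit 79354274146) (nat_lit 532) (nat_lit 79354274146) (nat_lit 61) (nat_lit 3) (nat_lit 68) (nat_lit 3) (nat_lit 68) (nat_lit 5) (nat_lit 421) (nat_lit 421) (nat_lit 178))) (XT.nd (nat_lit 78) (nat_lit 0) (nat_lit 76) (XT.lf (nat_lit 76) (nat_lit 885473092681) (nat_lit 0) (nat_lit 962910803486) (nat_lit 532) (nat_lit 307114464003) (nat_lit 62) (nat_lit 5) (nat_lit 61) (nat_lit 3) (nat_lit 68) (nat_lit 5) (nat_lit 422) (nat_lit 421) (nat_lit 177)) (XT.nd (nat_lit 78) (nat_lit 0) (nat_lit 0) (XT.lf (nat_lit 0) (nat_lit 1953314905409) (nat_lit 456) (nat_lit 222400845081) (nat_lit 532) (nat_lit 67066536524) (nat_lit 62) (nat_lit 5) (nat_lit 68) (nat_lit 5) (nat_lit 69) (nat_lit 5) (nat_lit 423) (nat_lit 421) (nat_lit 176)) (XT.lf (nat_lit 76) (nat_lit 930573937215) (nat_lit 0) (nat_lit 1183457452648) (nat_lit 532) (nat_lit 219226258587) (nat_lit 63) (nat_lit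 5) (nat_lit 62) (nat_lit 5) (nat_lit 69) (nat_lit 5) (nat_lit 424) (nat_lit 421) (nat_lit 175)))))) (XT.nd (nat_lit 390) (nat_lit 760) (nat_lit 0) (XT.nd (nat_lit 156) (nat_lit 0) (nat_lit 0) (XT.nd (nat_lit 78) (nat_lit 456) (nat_lit 0) (XT.lf (nat_lit 76) (nat_lit 2188434834371) (nat_lit 0) (nat_lit 105251190695) (nat_lit 532) (nat_lit 136798547177) (nat_lit 63) (nat_lit 5) (nat_lit 62) (nat_lit 5) (nat_lit 69) (nat_lit 5) (nat_lit 425) (nat_lit 421) (nat_lit 174)) (XT.lf (nat_lit 0) (nat_lit 6358461457) (nat_lit 532) (nat_lit 1493735974015) (nat_lit 608) (nat_lit 1031347528749) (nat_lit 56) (nat_lit 5) (nat_lit 63) (nat_lit 5) (nat_lit 64) (nat_lit 5) (nat_lit 426) (nat_lit 421) (nat_lit 173))) (XT.nd (nat_lit 78) (nat_lit 0) (nat_lit 76) (XT.lf (nat_lit 0) (nat_lit 163101118755) (nat_lit 532) (nat_lit 212797647447) (nat_lit 608) (nat_lit 2263531023617) (nat_lit 56) (nat_lit 5) (nat_lit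 63) (nat_lit 5) (nat_lit 64) (nat_lit 5) (nat_lit 427) (nat_lit 421) (nat_lit 172)) (XT.nd (nat_lit 78) (nat_lit 0) (nat_lit 0) (XT.lf (nat_lit 0) (nat_lit 382948304513) (nat_lit 532) (nat_lit 1542356754505) (nat_lit 76) (nat_lit 826706373176) (nat_lit 57) (nat_lit 5) (nat_lit 64) (nat_lit 5) (nat_lit 58) (nat_lit 5) (nat_lit 428) (nat_lit 421) (nat_lit 171)) (XT.lf (nat_lit 0) (nat_lit 636116257036) (nat_lit 532) (nat_lit 125043694168) (nat_lit 76) (nat_lit 2111181015404) (nat_lit 57) (nat_lit 5) (nat_lit 64) (nat_lit 5) (nat_lit 58) (nat_lit 5) (nat_lit 429) (nat_lit 421) (nat_lit 170))))) (XT.nd (nat_lit 156) (nat_lit 228) (nat_lit 0) (XT.nd (nat_lit 78) (nat_lit 228) (nat_lit 0) (XT.lf (nat_lit 0) (nat_lit 957979769163) (nat_lit 456) (nat_lit 1532632225186) (nat_lit 76) (nat_lit 507809499555) (nat_lit 52) (nat_lit 5) (nat_lit 58) (nat_lit 5) (nat_lit 53) (nat_lit 5) (nat_lit 430) (nat_lit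 421) (nat_lit 169)) (XT.lf (nat_lit 0) (nat_lit 38765267665) (nat_lit 228) (nat_lit 1291037506925) (nat_lit 304) (nat_lit 1802848855810) (nat_lit 49) (nat_lit 5) (nat_lit 52) (nat_lit 5) (nat_lit 53) (nat_lit 5) (nat_lit 431) (nat_lit 421) (nat_lit 168))) (XT.nd (nat_lit 78) (nat_lit 228) (nat_lit 0) (XT.lf (nat_lit 0) (nat_lit 1774473235011) (nat_lit 304) (nat_lit 1452427809915) (nat_lit 76) (nat_lit 47271003722) (nat_lit 49) (nat_lit 5) (nat_lit 53) (nat_lit 5) (nat_lit 50) (nat_lit 5) (nat_lit 432) (nat_lit 421) (nat_lit 167)) (XT.nd (nat_lit 78) (nat_lit 0) (nat_lit 0) (XT.lf (nat_lit 0) (nat_lit 301917100670) (nat_lit 228) (nat_lit 1993594786120) (nat_lit 304) (nat_lit 1128238649208) (nat_lit 46) (nat_lit 5) (nat_lit 49) (nat_lit 5) (nat_lit 50) (nat_lit 5) (nat_lit 433) (nat_lit 421) (nat_lit 166)) (XT.lf (nat_lit 0) (nat_lit 2279210459770) (nat_lit 228) (nat_lit 618735120476) (nat_lit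 304) (nat_lit 684172766127) (nat_lit 46) (nat_lit 5) (nat_lit 49) (nat_lit 5) (nat_lit 50) (nat_lit 5) (nat_lit 434) (nat_lit 421) (nat_lit 165))))))))
noncomputable def xc250 : XT := (XT.nd (nat_lit 52728) (nat_lit 0) (nat_lit 0) (XT.nd (nat_lit 702) (nat_lit 152) (nat_lit 0) (XT.nd (nat_lit 312) (nat_lit 532) (nat_lit 0) (XT.nd (nat_lit 156) (nat_lit 228) (nat_lit 0) (XT.nd (nat_lit 78) (nat_lit 76) (nat_lit 0) (XT.lf (nat_lit 0) (nat_lit 674439872992) (nat_lit 152) (nat_lit 2911184436827) (nat_lit 228) (nat_lit 164567244508) (nat_lit 44) (nat_lit 5) (nat_lit 46) (nat_lit 5) (nat_lit 47) (nat_lit 5) (nat_lit 435) (nat_lit 421) (nat_lit 164)) (XT.lf (nat_lit 0) (nat_lit 429386990290) (nat_lit 228) (nat_lit 1071322472574) (nat_lit 76) (nat_lit 2426028472301) (nat_lit 43) (nat_lit 5) (nat_lit 46) (nat_lit 5) (nat_lit 44) (nat_lit 5) (nat_lit 436) (nat_lit 421) (nat_lit 163))) (XT.nd (nat_lit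 78) (nat_lit 0) (nat_lit 0) (XT.lf (nat_lit 0) (nat_lit 1090911858813) (nat_lit 304) (nat_lit 2969689743749) (nat_lit 76) (nat_lit 54148849948) (nat_lit 40) (nat_lit 5) (nat_lit 44) (nat_lit 5) (nat_lit 41) (nat_lit 5) (nat_lit 437) (nat_lit 421) (nat_lit 162)) (XT.lf (nat_lit 0) (nat_lit 1874390865153) (nat_lit 304) (nat_lit 755519314729) (nat_lit 76) (nat_lit 1682371219492) (nat_lit 40) (nat_lit 5) (nat_lit 44) (nat_lit 5) (nat_lit 41) (nat_lit 5) (nat_lit 438) (nat_lit 421) (nat_lit 161)))) (XT.nd (nat_lit 156) (nat_lit 380) (nat_lit 0) (XT.nd (nat_lit 78) (nat_lit 0) (nat_lit 0) (XT.lf (nat_lit 0) (nat_lit 1721922273828) (nat_lit 152) (nat_lit 1040038189734) (nat_lit 228) (nat_lit 1760341376704) (nat_lit 38) (nat_lit 5) (nat_lit 40) (nat_lit 5) (nat_lit 41) (nat_lit 5) (nat_lit 439) (nat_lit 421) (nat_lit 160)) (XT.lf (nat_lit 0) (nat_lit 3758011850785) (nat_lit 228) (nat_lit 323764080390)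 (nat_lit 76) (nat_lit 664349887579) (nat_lit 38) (nat_lit 5) (nat_lit 41) (nat_lit 5) (nat_lit 39) (nat_lit 5) (nat_lit 440) (nat_lit 421) (nat_lit 159))) (XT.nd (nat_lit 78) (nat_lit 228) (nat_lit 0) (XT.lf (nat_lit 0) (nat_lit 2446342631032) (nat_lit 152) (nat_lit 2473253295537) (nat_lit 228) (nat_lit 61391902744) (nat_lit 36) (nat_lit 5) (nat_lit 38) (nat_lit 5) (nat_lit 39) (nat_lit 5) (nat_lit 441) (nat_lit 421) (nat_lit 158)) (XT.nd (nat_lit 78) (nat_lit 0) (nat_lit 0) (XT.lf (nat_lit 0) (nat_lit 210232538061) (nat_lit 152) (nat_lit 696377709311) (nat_lit 228) (nat_lit 4325089950423) (nat_lit 33) (nat_lit 5) (nat_lit 35) (nat_lit 5) (nat_lit 36) (nat_lit 5) (nat_lit 442) (nat_lit 421) (nat_lit 157)) (XT.lf (nat_lit 0) (nat_lit 2049242259099) (nat_lit 228) (nat_lit 2210876760320) (nat_lit 76) (nat_lit 1234182452990) (nat_lit 33) (nat_lit 5) (nat_lit 36) (nat_lit 5) (nat_lit 34) (nat_lit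 5) (nat_lit 443) (nat_lit 421) (nat_lit 156)))))) (XT.nd (nat_lit 51636) (nat_lit 0) (nat_lit 1900) (XT.nd (nat_lit 51402) (nat_lit 0) (nat_lit 2280) (XT.nd (nat_lit 78) (nat_lit 0) (nat_lit 0) (XT.lf (nat_lit 0) (nat_lit 848941152335) (nat_lit 152) (nat_lit 2472848466842) (nat_lit 228) (nat_lit 2453040846825) (nat_lit 31) (nat_lit 5) (nat_lit 33) (nat_lit 5) (nat_lit 34) (nat_lit 5) (nat_lit 444) (nat_lit 421) (nat_lit 155)) (XT.lf (nat_lit 0) (nat_lit 4279279017711) (nat_lit 152) (nat_lit 477311038574) (nat_lit 228) (nat_lit 1316375779737) (nat_lit 31) (nat_lit 5) (nat_lit 33) (nat_lit 5) (nat_lit 34) (nat_lit 5) (nat_lit 445) (nat_lit 421) (nat_lit 154))) (XT.nd (nat_lit 78) (nat_lit 0) (nat_lit 0) (XT.lf (nat_lit 0) (nat_lit 948680442417) (nat_lit 532) (nat_lit 85702608593) (nat_lit 532) (nat_lit 85702608593) (nat_lit 61) (nat_lit 3) (nat_lit 68) (nat_lit 3) (nat_lit 68) (nat_lit 5)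 (nat_lit 422) (nat_lit 422) (nat_lit 176)) (XT.nd (nat_lit 78) (nat_lit 0) (nat_lit 76) (XT.lf (nat_lit 76) (nat_lit 956310954685) (nat_lit 0) (nat_lit 1039943679163) (nat_lit 532) (nat_lit 331683593025) (nat_lit 62) (nat_lit 5) (nat_lit 61) (nat_lit 3) (nat_lit 68) (nat_lit 5) (nat_lit 423) (nat_lit 422) (nat_lit 175)) (XT.lf (nat_lit 0) (nat_lit 2109580121651) (nat_lit 456) (nat_lit 240192896971) (nat_lit 532) (nat_lit 72431849420) (nat_lit 62) (nat_lit 5) (nat_lit 68) (nat_lit 5) (nat_lit 69) (nat_lit 5) (nat_lit 424) (nat_lit 422) (nat_lit 174))))) (XT.nd (nat_lit 156) (nat_lit 456) (nat_lit 0) (XT.nd (nat_lit 78) (nat_lit 0) (nat_lit 0) (XT.lf (nat_lit 76) (nat_lit 1005019867511) (nat_lit 0) (nat_lit 1278134055956) (nat_lit 532) (nat_lit 236764335040) (nat_lit 63) (nat_lit 5) (nat_lit 62) (nat_lit 5) (nat_lit 69) (nat_lit 5) (nat_lit 425) (nat_lit 422) (nat_lit 173)) (XT.lf (nat_lit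 76) (nat_lit 2363509635305) (nat_lit 0) (nat_lit 113671292520) (nat_lit 532) (nat_lit 147742408513) (nat_lit 63) (nat_lit 5) (nat_lit 62) (nat_lit 5) (nat_lit 69) (nat_lit 5) (nat_lit 426) (nat_lit 422) (nat_lit 172))) (XT.nd (nat_lit 78) (nat_lit 0) (nat_lit 0) (XT.lf (nat_lit 0) (nat_lit 6867158346) (nat_lit 532) (nat_lit 1613234835241) (nat_lit 608) (nat_lit 1113855326152) (nat_lit 56) (nat_lit 5) (nat_lit 63) (nat_lit 5) (nat_lit 64) (nat_lit 5) (nat_lit 427) (nat_lit 422) (nat_lit 171)) (XT.nd (nat_lit 78) (nat_lit 0) (nat_lit 76) (XT.lf (nat_lit 0) (nat_lit 176149226748) (nat_lit 532) (nat_lit 229821443784) (nat_lit 608) (nat_lit 2444613500971) (nat_lit 56) (nat_lit 5) (nat_lit 63) (nat_lit 5) (nat_lit 64) (nat_lit 5) (nat_lit 428) (nat_lit 422) (nat_lit 170)) (XT.lf (nat_lit 0) (nat_lit 413584186302) (nat_lit 532) (nat_lit 1665745278323) (nat_lit 76) (nat_lit 892842880732) (nat_lit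 57) (nat_lit 5) (nat_lit 64) (nat_lit 5) (nat_lit 58) (nat_lit 5) (nat_lit 429) (nat_lit 422) (nat_lit 169))))))) (XT.nd (nat_lit 780) (nat_lit 684) (nat_lit 0) (XT.nd (nat_lit 390) (nat_lit 456) (nat_lit 0) (XT.nd (nat_lit 156) (nat_lit 456) (nat_lit 0) (XT.nd (nat_lit 78) (nat_lit 380) (nat_lit 0) (XT.lf (nat_lit 0) (nat_lit 687005573735) (nat_lit 532) (nat_lit 135047174385) (nat_lit 76) (nat_lit 2280075494509) (nat_lit 57) (nat_lit 5) (nat_lit 64) (nat_lit 5) (nat_lit 58) (nat_lit 5) (nat_lit 430) (nat_lit 422) (nat_lit 168)) (XT.lf (nat_lit 0) (nat_lit 1034618165988) (nat_lit 456) (nat_lit 1655242787024) (nat_lit 76) (nat_lit 548434259167) (nat_lit 52) (nat_lit 5) (nat_lit 58) (nat_lit 5) (nat_lit 53) (nat_lit 5) (nat_lit 431) (nat_lit 422) (nat_lit 167))) (XT.nd (nat_lit 78) (nat_lit 228) (nat_lit 0) (XT.lf (nat_lit 0) (nat_lit 41866504846) (nat_lit 228) (nat_lit 1394320506249) (nat_lit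 304) (nat_lit 1947076748559) (nat_lit 49) (nat_lit 5) (nat_lit 52) (nat_lit 5) (nat_lit 53) (nat_lit 5) (nat_lit 432) (nat_lit 422) (nat_lit 166)) (XT.nd (nat_lit 78) (nat_lit 228) (nat_lit 0) (XT.lf (nat_lit 0) (nat_lit 1916431107301) (nat_lit 304) (nat_lit 1568622019046) (nat_lit 76) (nat_lit 51052685102) (nat_lit 49) (nat_lit 5) (nat_lit 53) (nat_lit 5) (nat_lit 50) (nat_lit 5) (nat_lit 433) (nat_lit 422) (nat_lit 165)) (XT.lf (nat_lit 0) (nat_lit 326070483990) (nat_lit 228) (nat_lit 2153082366600) (nat_lit 304) (nat_lit 1218497727247) (nat_lit 46) (nat_lit 5) (nat_lit 49) (nat_lit 5) (nat_lit 50) (nat_lit 5) (nat_lit 434) (nat_lit 422) (nat_lit 164))))) (XT.nd (nat_lit 156) (nat_lit 304) (nat_lit 0) (XT.nd (nat_lit 78) (nat_lit 152) (nat_lit 0) (XT.lf (nat_lit 0) (nat_lit 2461547310687) (nat_lit 228) (nat_lit 668233927883) (nat_lit 304) (nat_lit 738906574550) (nat_lit 46) (nat_lit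 5) (nat_lit 49) (nat_lit 5) (nat_lit 50) (nat_lit 5) (nat_lit 435) (nat_lit 422) (nat_lit 163)) (XT.lf (nat_lit 0) (nat_lit 728395077496) (nat_lit 152) (nat_lit 3144079188534) (nat_lit 228) (nat_lit 177732611719) (nat_lit 44) (nat_lit 5) (nat_lit 46) (nat_lit 5) (nat_lit 47) (nat_lit 5) (nat_lit 436) (nat_lit 422) (nat_lit 162))) (XT.nd (nat_lit 78) (nat_lit 228) (nat_lit 0) (XT.lf (nat_lit 0) (nat_lit 463737960376) (nat_lit 228) (nat_lit 1157028256220) (nat_lit 76) (nat_lit 2620110752504) (nat_lit 43) (nat_lit 5) (nat_lit 46) (nat_lit 5) (nat_lit 44) (nat_lit 5) (nat_lit 437) (nat_lit 422) (nat_lit 161)) (XT.nd (nat_lit 78) (nat_lit 0) (nat_lit 0) (XT.lf (nat_lit 0) (nat_lit 1178184817990) (nat_lit 304) (nat_lit 3207264908690) (nat_lit 76) (nat_lit 58480761184) (nat_lit 40) (nat_lit 5) (nat_lit 44) (nat_lit 5) (nat_lit 41) (nat_lit 5) (nat_lit 438) (nat_lit 422) (nat_lit 160)) (XT.lf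 (nat_lit 0) (nat_lit 2024342144062) (nat_lit 304) (nat_lit 815960846427) (nat_lit 76) (nat_lit 1816960920052) (nat_lit 40) (nat_lit 5) (nat_lit 44) (nat_lit 5) (nat_lit 41) (nat_lit 5) (nat_lit 439) (nat_lit 422) (nat_lit 159)))))) (XT.nd (nat_lit 51792) (nat_lit 0) (nat_lit 2280) (XT.nd (nat_lit 234) (nat_lit 532) (nat_lit 0) (XT.nd (nat_lit 78) (nat_lit 0) (nat_lit 0) (XT.lf (nat_lit 0) (nat_lit 1859676068873) (nat_lit 152) (nat_lit 1123241241068) (nat_lit 228) (nat_lit 1901168676796) (nat_lit 38) (nat_lit 5) (nat_lit 40) (nat_lit 5) (nat_lit 41) (nat_lit 5) (nat_lit 440) (nat_lit 422) (nat_lit 158)) (XT.lf (nat_lit 0) (nat_lit 4058652807539) (nat_lit 228) (nat_lit 349665194045) (nat_lit 76) (nat_lit 717497881967) (nat_lit 38) (nat_lit 5) (nat_lit 41) (nat_lit 5) (nat_lit 39) (nat_lit 5) (nat_lit 441) (nat_lit 422) (nat_lit 157))) (XT.nd (nat_lit 78) (nat_lit 152) (nat_lit 0) (XT.lf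 (nat_lit 0) (nat_lit 227051153688) (nat_lit 152) (nat_lit 752087921711) (nat_lit 228) (nat_lit 4671097137555) (nat_lit 33) (nat_lit 5) (nat_lit 35) (nat_lit 5) (nat_lit 36) (nat_lit 5) (nat_lit 443) (nat_lit 422) (nat_lit 155)) (XT.nd (nat_lit 78) (nat_lit 152) (nat_lit 0) (XT.lf (nat_lit 0) (nat_lit 2213181647551) (nat_lit 228) (nat_lit 2387746888978) (nat_lit 76) (nat_lit 1332917053051) (nat_lit 33) (nat_lit 5) (nat_lit 36) (nat_lit 5) (nat_lit 34) (nat_lit 5) (nat_lit 444) (nat_lit 422) (nat_lit 154)) (XT.lf (nat_lit 0) (nat_lit 916856456382) (nat_lit 152) (nat_lit 2670676339766) (nat_lit 228) (nat_lit 2649284106534) (nat_lit 31) (nat_lit 5) (nat_lit 33) (nat_lit 5) (nat_lit 34) (nat_lit 5) (nat_lit 445) (nat_lit 422) (nat_lit 153))))) (XT.nd (nat_lit 156) (nat_lit 0) (nat_lit 76) (XT.nd (nat_lit 78) (nat_lit 0) (nat_lit 0) (XT.lf (nat_lit 0) (nat_lit 1024574889679) (nat_lit 532) (nat_lit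 92558810864) (nat_lit 532) (nat_lit 92558810864) (nat_lit 61) (nat_lit 3) (nat_lit 68) (nat_lit 3) (nat_lit 68) (nat_lit 5) (nat_lit 423) (nat_lit 423) (nat_lit 174)) (XT.lf (nat_lit 76) (nat_lit 1032815843568) (nat_lit 0) (nat_lit 1123139183269) (nat_lit 532) (nat_lit 358218256377) (nat_lit 62) (nat_lit 5) (nat_lit 61) (nat_lit 3) (nat_lit 68) (nat_lit 5) (nat_lit 424) (nat_lit 423) (nat_lit 173))) (XT.nd (nat_lit 78) (nat_lit 0) (nat_lit 0) (XT.lf (nat_lit 0) (nat_lit 2278346551796) (nat_lit 456) (nat_lit 259408315254) (nat_lit 532) (nat_lit 78226388777) (nat_lit 62) (nat_lit 5) (nat_lit 68) (nat_lit 5) (nat_lit 69) (nat_lit 5) (nat_lit 425) (nat_lit 423) (nat_lit 172)) (XT.nd (nat_lit 78) (nat_lit 0) (nat_lit 0) (XT.lf (nat_lit 76) (nat_lit 1085421470046) (nat_lit 0) (nat_lit 1380384786515) (nat_lit 532) (nat_lit 255705461066) (nat_lit 63) (nat_lit 5) (nat_lit 62) (nat_lit 5) (nat_lit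 69) (nat_lit 5) (nat_lit 426) (nat_lit 423) (nat_lit 171)) (XT.lf (nat_lit 76) (nat_lit 2552590418290) (nat_lit 0) (nat_lit 122765001554) (nat_lit 532) (nat_lit 159561781956) (nat_lit 63) (nat_lit 5) (nat_lit 62) (nat_lit 5) (nat_lit 69) (nat_lit 5) (nat_lit 427) (nat_lit 423) (nat_lit 170))))))))
noncomputable def xc251 : XT := (XT.nd (nat_lit 53040) (nat_lit 0) (nat_lit 228) (XT.nd (nat_lit 702) (nat_lit 988) (nat_lit 0) (XT.nd (nat_lit 312) (nat_lit 760) (nat_lit 0) (XT.nd (nat_lit 156) (nat_lit 0) (nat_lit 76) (XT.nd (nat_lit 78) (nat_lit 0) (nat_lit 0) (XT.lf (nat_lit 0) (nat_lit 7416548138) (nat_lit 532) (nat_lit 1742293607748) (nat_lit 608) (nat_lit 1202963748045) (nat_lit 56) (nat_lit 5) (nat_lit 63) (nat_lit 5) (nat_lit 64) (nat_lit 5) (nat_lit 428) (nat_lit 423) (nat_lit 169)) (XT.lf (nat_lit 0) (nat_lit 190241180743) (nat_lit 532) (nat_lit 248207146034) (nat_lit 608) (nat_lit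 2640182577162) (nat_lit 56) (nat_lit 5) (nat_lit 63) (nat_lit 5) (nat_lit 64) (nat_lit 5) (nat_lit 429) (nat_lit 423) (nat_lit 168))) (XT.nd (nat_lit 78) (nat_lit 0) (nat_lit 0) (XT.lf (nat_lit 0) (nat_lit 446670936147) (nat_lit 532) (nat_lit 1799004886407) (nat_lit 76) (nat_lit 964270309220) (nat_lit 57) (nat_lit 5) (nat_lit 64) (nat_lit 5) (nat_lit 58) (nat_lit 5) (nat_lit 430) (nat_lit 423) (nat_lit 167)) (XT.lf (nat_lit 0) (nat_lit 741966033469) (nat_lit 532) (nat_lit 145850935204) (nat_lit 76) (nat_lit 2462481532245) (nat_lit 57) (nat_lit 5) (nat_lit 64) (nat_lit 5) (nat_lit 58) (nat_lit 5) (nat_lit 431) (nat_lit 423) (nat_lit 166)))) (XT.nd (nat_lit 156) (nat_lit 228) (nat_lit 0) (XT.nd (nat_lit 78) (nat_lit 228) (nat_lit 0) (XT.lf (nat_lit 0) (nat_lit 1117387632377) (nat_lit 456) (nat_lit 1787662196116) (nat_lit 76) (nat_lit 592308999597) (nat_lit 52) (nat_lit 5) (nat_lit 58) (nat_lit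 5) (nat_lit 53) (nat_lit 5) (nat_lit 432) (nat_lit 423) (nat_lit 165)) (XT.lf (nat_lit 0) (nat_lit 45215838752) (nat_lit 228) (nat_lit 1505866145694) (nat_lit 304) (nat_lit 2102842874970) (nat_lit 49) (nat_lit 5) (nat_lit 52) (nat_lit 5) (nat_lit 53) (nat_lit 5) (nat_lit 433) (nat_lit 423) (nat_lit 164))) (XT.nd (nat_lit 78) (nat_lit 228) (nat_lit 0) (XT.lf (nat_lit 0) (nat_lit 2069745607449) (nat_lit 304) (nat_lit 1694111767141) (nat_lit 76) (nat_lit 55136900838) (nat_lit 49) (nat_lit 5) (nat_lit 53) (nat_lit 5) (nat_lit 50) (nat_lit 5) (nat_lit 434) (nat_lit 423) (nat_lit 163)) (XT.nd (nat_lit 78) (nat_lit 0) (nat_lit 0) (XT.lf (nat_lit 0) (nat_lit 352156135798) (nat_lit 228) (nat_lit 2325328953862) (nat_lit 304) (nat_lit 1315977533512) (nat_lit 46) (nat_lit 5) (nat_lit 49) (nat_lit 5) (nat_lit 50) (nat_lit 5) (nat_lit 435) (nat_lit 423) (nat_lit 162)) (XT.lf (nat_lit 0) (nat_lit 2658471107661)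 (nat_lit 228) (nat_lit 721692640200) (nat_lit 304) (nat_lit 798019089481) (nat_lit 46) (nat_lit 5) (nat_lit 49) (nat_lit 5) (nat_lit 50) (nat_lit 5) (nat_lit 436) (nat_lit 423) (nat_lit 161)))))) (XT.nd (nat_lit 468) (nat_lit 380) (nat_lit 0) (XT.nd (nat_lit 156) (nat_lit 380) (nat_lit 0) (XT.nd (nat_lit 78) (nat_lit 76) (nat_lit 0) (XT.lf (nat_lit 0) (nat_lit 786666696268) (nat_lit 152) (nat_lit 3395605520839) (nat_lit 228) (nat_lit 191951210069) (nat_lit 44) (nat_lit 5) (nat_lit 46) (nat_lit 5) (nat_lit 47) (nat_lit 5) (nat_lit 437) (nat_lit 423) (nat_lit 160)) (XT.lf (nat_lit 0) (nat_lit 500837006519) (nat_lit 228) (nat_lit 1249590504578) (nat_lit 76) (nat_lit 2829719614778) (nat_lit 43) (nat_lit 5) (nat_lit 46) (nat_lit 5) (nat_lit 44) (nat_lit 5) (nat_lit 438) (nat_lit 423) (nat_lit 159))) (XT.nd (nat_lit 78) (nat_lit 152) (nat_lit 0) (XT.lf (nat_lit 0) (nat_lit 1272439612407) (nat_lit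 304) (nat_lit 3463846088903) (nat_lit 76) (nat_lit 63159224857) (nat_lit 40) (nat_lit 5) (nat_lit 44) (nat_lit 5) (nat_lit 41) (nat_lit 5) (nat_lit 439) (nat_lit 423) (nat_lit 158)) (XT.nd (nat_lit 78) (nat_lit 152) (nat_lit 0) (XT.lf (nat_lit 0) (nat_lit 2186289523900) (nat_lit 304) (nat_lit 881237702584) (nat_lit 76) (nat_lit 1962317796229) (nat_lit 40) (nat_lit 5) (nat_lit 44) (nat_lit 5) (nat_lit 41) (nat_lit 5) (nat_lit 440) (nat_lit 423) (nat_lit 157)) (XT.lf (nat_lit 0) (nat_lit 2008450165648) (nat_lit 152) (nat_lit 1213100537057) (nat_lit 228) (nat_lit 2053262162328) (nat_lit 38) (nat_lit 5) (nat_lit 40) (nat_lit 5) (nat_lit 41) (nat_lit 5) (nat_lit 441) (nat_lit 423) (nat_lit 156))))) (XT.nd (nat_lit 51636) (nat_lit 0) (nat_lit 2128) (XT.nd (nat_lit 78) (nat_lit 228) (nat_lit 0) (XT.lf (nat_lit 0) (nat_lit 2853414068959) (nat_lit 152) (nat_lit 2884802635962) (nat_lit 228) (nat_lit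 71607497884) (nat_lit 36) (nat_lit 5) (nat_lit 38) (nat_lit 5) (nat_lit 39) (nat_lit 5) (nat_lit 443) (nat_lit 423) (nat_lit 154)) (XT.lf (nat_lit 0) (nat_lit 245215256770) (nat_lit 152) (nat_lit 812254951723) (nat_lit 228) (nat_lit 5044784900928) (nat_lit 33) (nat_lit 5) (nat_lit 35) (nat_lit 5) (nat_lit 36) (nat_lit 5) (nat_lit 444) (nat_lit 423) (nat_lit 153))) (XT.nd (nat_lit 78) (nat_lit 0) (nat_lit 0) (XT.lf (nat_lit 0) (nat_lit 1106540891029) (nat_lit 532) (nat_lit 99963510232) (nat_lit 532) (nat_lit 99963510232) (nat_lit 61) (nat_lit 3) (nat_lit 68) (nat_lit 3) (nat_lit 68) (nat_lit 5) (nat_lit 424) (nat_lit 424) (nat_lit 172)) (XT.nd (nat_lit 78) (nat_lit 0) (nat_lit 76) (XT.lf (nat_lit 76) (nat_lit 1115441121777) (nat_lit 0) (nat_lit 1212990326308) (nat_lit 532) (nat_lit 386875696234) (nat_lit 62) (nat_lit 5) (nat_lit 61) (nat_lit 3) (nat_lit 68) (nat_lit 5) (nat_lit 425) (nat_lit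 424) (nat_lit 171)) (XT.lf (nat_lit 0) (nat_lit 2460614293440) (nat_lit 456) (nat_lit 280160968922) (nat_lit 532) (nat_lit 84484492510) (nat_lit 62) (nat_lit 5) (nat_lit 68) (nat_lit 5) (nat_lit 69) (nat_lit 5) (nat_lit 426) (nat_lit 424) (nat_lit 170))))))) (XT.nd (nat_lit 780) (nat_lit 760) (nat_lit 0) (XT.nd (nat_lit 390) (nat_lit 760) (nat_lit 0) (XT.nd (nat_lit 156) (nat_lit 456) (nat_lit 0) (XT.nd (nat_lit 78) (nat_lit 0) (nat_lit 0) (XT.lf (nat_lit 76) (nat_lit 1172255198909) (nat_lit 0) (nat_lit 1490815574651) (nat_lit 532) (nat_lit 276161880139) (nat_lit 63) (nat_lit 5) (nat_lit 62) (nat_lit 5) (nat_lit 69) (nat_lit 5) (nat_lit 427) (nat_lit 424) (nat_lit 169)) (XT.lf (nat_lit 76) (nat_lit 2756797662179) (nat_lit 0) (nat_lit 132586206508) (nat_lit 532) (nat_lit 172326708019) (nat_lit 63) (nat_lit 5) (nat_lit 62) (nat_lit 5) (nat_lit 69) (nat_lit 5) (nat_lit 428) (nat_lit 424)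 (nat_lit 168))) (XT.nd (nat_lit 78) (nat_lit 0) (nat_lit 0) (XT.lf (nat_lit 0) (nat_lit 8009886669) (nat_lit 532) (nat_lit 1881677084097) (nat_lit 608) (nat_lit 1299200844289) (nat_lit 56) (nat_lit 5) (nat_lit 63) (nat_lit 5) (nat_lit 64) (nat_lit 5) (nat_lit 429) (nat_lit 424) (nat_lit 167)) (XT.nd (nat_lit 78) (nat_lit 0) (nat_lit 76) (XT.lf (nat_lit 0) (nat_lit 205460488796) (nat_lit 532) (nat_lit 268063706355) (nat_lit 608) (nat_lit 2851397180002) (nat_lit 56) (nat_lit 5) (nat_lit 63) (nat_lit 5) (nat_lit 64) (nat_lit 5) (nat_lit 430) (nat_lit 424) (nat_lit 166)) (XT.lf (nat_lit 0) (nat_lit 482404623849) (nat_lit 532) (nat_lit 1942925265161) (nat_lit 76) (nat_lit 1041411932268) (nat_lit 57) (nat_lit 5) (nat_lit 64) (nat_lit 5) (nat_lit 58) (nat_lit 5) (nat_lit 431) (nat_lit 424) (nat_lit 165))))) (XT.nd (nat_lit 156) (nat_lit 456) (nat_lit 0) (XT.nd (nat_lit 78) (nat_lit 380) (nat_lit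 0) (XT.lf (nat_lit 0) (nat_lit 801323328007) (nat_lit 532) (nat_lit 157518998762) (nat_lit 76) (nat_lit 2659480053261) (nat_lit 57) (nat_lit 5) (nat_lit 64) (nat_lit 5) (nat_lit 58) (nat_lit 5) (nat_lit 432) (nat_lit 424) (nat_lit 164)) (XT.lf (nat_lit 0) (nat_lit 1206778654207) (nat_lit 456) (nat_lit 1930675159914) (nat_lit 76) (nat_lit 639693719306) (nat_lit 52) (nat_lit 5) (nat_lit 58) (nat_lit 5) (nat_lit 53) (nat_lit 5) (nat_lit 433) (nat_lit 424) (nat_lit 163))) (XT.nd (nat_lit 78) (nat_lit 228) (nat_lit 0) (XT.lf (nat_lit 0) (nat_lit 48833117442) (nat_lit 228) (nat_lit 1626335436446) (nat_lit 304) (nat_lit 2271070293416) (nat_lit 49) (nat_lit 5) (nat_lit 52) (nat_lit 5) (nat_lit 53) (nat_lit 5) (nat_lit 434) (nat_lit 424) (nat_lit 162)) (XT.nd (nat_lit 78) (nat_lit 228) (nat_lit 0) (XT.lf (nat_lit 0) (nat_lit 2235325265960) (nat_lit 304) (nat_lit 1829640697000) (nat_lit 76) (nat_lit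 59547853700) (nat_lit 49) (nat_lit 5) (nat_lit 53) (nat_lit 5) (nat_lit 50) (nat_lit 5) (nat_lit 435) (nat_lit 424) (nat_lit 161)) (XT.lf (nat_lit 0) (nat_lit 380328637883) (nat_lit 228) (nat_lit 2511355268399) (nat_lit 304) (nat_lit 1421255725978) (nat_lit 46) (nat_lit 5) (nat_lit 49) (nat_lit 5) (nat_lit 50) (nat_lit 5) (nat_lit 436) (nat_lit 424) (nat_lit 160)))))) (XT.nd (nat_lit 390) (nat_lit 304) (nat_lit 0) (XT.nd (nat_lit 156) (nat_lit 304) (nat_lit 0) (XT.nd (nat_lit 78) (nat_lit 152) (nat_lit 0) (XT.lf (nat_lit 0) (nat_lit 2871148806664) (nat_lit 228) (nat_lit 779428049776) (nat_lit 304) (nat_lit 861860607181) (nat_lit 46) (nat_lit 5) (nat_lit 49) (nat_lit 5) (nat_lit 50) (nat_lit 5) (nat_lit 437) (nat_lit 424) (nat_lit 159)) (XT.lf (nat_lit 0) (nat_lit 849600042749) (nat_lit 152) (nat_lit 3667253960124) (nat_lit 228) (nat_lit 207307297797) (nat_lit 44) (nat_lit 5) (nat_lit 46)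 (nat_lit 5) (nat_lit 47) (nat_lit 5) (nat_lit 438) (nat_lit 424) (nat_lit 158))) (XT.nd (nat_lit 78) (nat_lit 228) (nat_lit 0) (XT.lf (nat_lit 0) (nat_lit 540903975024) (nat_lit 228) (nat_lit 1349557734537) (nat_lit 76) (nat_lit 3056097185738) (nat_lit 43) (nat_lit 5) (nat_lit 46) (nat_lit 5) (nat_lit 44) (nat_lit 5) (nat_lit 439) (nat_lit 424) (nat_lit 157)) (XT.nd (nat_lit 78) (nat_lit 0) (nat_lit 0) (XT.lf (nat_lit 0) (nat_lit 1374234789097) (nat_lit 304) (nat_lit 3740953765315) (nat_lit 76) (nat_lit 68211965228) (nat_lit 40) (nat_lit 5) (nat_lit 44) (nat_lit 5) (nat_lit 41) (nat_lit 5) (nat_lit 440) (nat_lit 424) (nat_lit 156)) (XT.lf (nat_lit 0) (nat_lit 2361192692939) (nat_lit 304) (nat_lit 951736708883) (nat_lit 76) (nat_lit 2119303222133) (nat_lit 40) (nat_lit 5) (nat_lit 44) (nat_lit 5) (nat_lit 41) (nat_lit 5) (nat_lit 441) (nat_lit 424) (nat_lit 155))))) (XT.nd (nat_lit 156)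 (nat_lit 152) (nat_lit 0) (XT.nd (nat_lit 78) (nat_lit 0) (nat_lit 0) (XT.lf (nat_lit 0) (nat_lit 2169126188557) (nat_lit 152) (nat_lit 1310148577195) (nat_lit 228) (nat_lit 2217523127931) (nat_lit 38) (nat_lit 5) (nat_lit 40) (nat_lit 5) (nat_lit 41) (nat_lit 5) (nat_lit 442) (nat_lit 424) (nat_lit 154)) (XT.lf (nat_lit 0) (nat_lit 4734012649150) (nat_lit 228) (nat_lit 407849461115) (nat_lit 76) (nat_lit 836889535144) (nat_lit 38) (nat_lit 5) (nat_lit 41) (nat_lit 5) (nat_lit 39) (nat_lit 5) (nat_lit 443) (nat_lit 424) (nat_lit 153))) (XT.nd (nat_lit 51636) (nat_lit 0) (nat_lit 1900) (XT.lf (nat_lit 0) (nat_lit 3081687203629) (nat_lit 152) (nat_lit 3115586843821) (nat_lit 228) (nat_lit 77336091085) (nat_lit 36) (nat_lit 5) (nat_lit 38) (nat_lit 5) (nat_lit 39) (nat_lit 5) (nat_lit 444) (nat_lit 424) (nat_lit 152)) (XT.nd (nat_lit 78) (nat_lit 0) (nat_lit 0) (XT.lf (nat_lit 0) (nat_lit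 1195064171036) (nat_lit 532) (nat_lit 107960586335) (nat_lit 532) (nat_lit 107960586335) (nat_lit 61) (nat_lit 3) (nat_lit 68) (nat_lit 3) (nat_lit 68) (nat_lit 5) (nat_lit 425) (nat_lit 425) (nat_lit 170)) (XT.lf (nat_lit 76) (nat_lit 1204676420713) (nat_lit 0) (nat_lit 1310029559596) (nat_lit 532) (nat_lit 417825734226) (nat_lit 62) (nat_lit 5) (nat_lit 61) (nat_lit 3) (nat_lit 68) (nat_lit 5) (nat_lit 426) (nat_lit 425) (nat_lit 169))))))))
noncomputable def xc252 : XT := (XT.nd (nat_lit 53118) (nat_lit 0) (nat_lit 152) (XT.nd (nat_lit 702) (nat_lit 836) (nat_lit 0) (XT.nd (nat_lit 312) (nat_lit 532) (nat_lit 0) (XT.nd (nat_lit 156) (nat_lit 456) (nat_lit 0) (XT.nd (nat_lit 78) (nat_lit 0) (nat_lit 0) (XT.lf (nat_lit 0) (nat_lit 2657463451920) (nat_lit 456) (nat_lit 302573836531) (nat_lit 532) (nat_lit 91243245593) (nat_lit 62) (nat_lit 5) (nat_lit 68) (nat_lit 5) (nat_lit 69) (nat_lit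 5) (nat_lit 427) (nat_lit 425) (nat_lit 168)) (XT.lf (nat_lit 76) (nat_lit 1266035624475) (nat_lit 0) (nat_lit 1610080825095) (nat_lit 532) (nat_lit 298254815278) (nat_lit 63) (nat_lit 5) (nat_lit 62) (nat_lit 5) (nat_lit 69) (nat_lit 5) (nat_lit 428) (nat_lit 425) (nat_lit 167))) (XT.nd (nat_lit 78) (nat_lit 456) (nat_lit 0) (XT.lf (nat_lit 76) (nat_lit 2977341484092) (nat_lit 0) (nat_lit 143193107168) (nat_lit 532) (nat_lit 186112830520) (nat_lit 63) (nat_lit 5) (nat_lit 62) (nat_lit 5) (nat_lit 69) (nat_lit 5) (nat_lit 429) (nat_lit 425) (nat_lit 166)) (XT.lf (nat_lit 0) (nat_lit 8650690189) (nat_lit 532) (nat_lit 2032211240304) (nat_lit 608) (nat_lit 1403136908746) (nat_lit 56) (nat_lit 5) (nat_lit 63) (nat_lit 5) (nat_lit 64) (nat_lit 5) (nat_lit 430) (nat_lit 425) (nat_lit 165)))) (XT.nd (nat_lit 156) (nat_lit 532) (nat_lit 0) (XT.nd (nat_lit 78) (nat_lit 0) (nat_lit 76) (XT.lf (nat_lit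 0) (nat_lit 221897339554) (nat_lit 532) (nat_lit 289508793122) (nat_lit 608) (nat_lit 3079508951544) (nat_lit 56) (nat_lit 5) (nat_lit 63) (nat_lit 5) (nat_lit 64) (nat_lit 5) (nat_lit 431) (nat_lit 425) (nat_lit 164)) (XT.lf (nat_lit 0) (nat_lit 520997004739) (nat_lit 532) (nat_lit 2098359275950) (nat_lit 76) (nat_lit 1124724885402) (nat_lit 57) (nat_lit 5) (nat_lit 64) (nat_lit 5) (nat_lit 58) (nat_lit 5) (nat_lit 432) (nat_lit 425) (nat_lit 163))) (XT.nd (nat_lit 78) (nat_lit 608) (nat_lit 0) (XT.lf (nat_lit 0) (nat_lit 865429204417) (nat_lit 532) (nat_lit 170120509011) (nat_lit 76) (nat_lit 2872238456181) (nat_lit 57) (nat_lit 5) (nat_lit 64) (nat_lit 5) (nat_lit 58) (nat_lit 5) (nat_lit 433) (nat_lit 425) (nat_lit 162)) (XT.nd (nat_lit 78) (nat_lit 228) (nat_lit 0) (XT.lf (nat_lit 0) (nat_lit 1303320956179) (nat_lit 456) (nat_lit 2085129162513) (nat_lit 76) (nat_lit 690869216628)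 (nat_lit 52) (nat_lit 5) (nat_lit 58) (nat_lit 5) (nat_lit 53) (nat_lit 5) (nat_lit 434) (nat_lit 425) (nat_lit 161)) (XT.lf (nat_lit 0) (nat_lit 52739776774) (nat_lit 228) (nat_lit 1756442270586) (nat_lit 304) (nat_lit 2452755906986) (nat_lit 49) (nat_lit 5) (nat_lit 52) (nat_lit 5) (nat_lit 53) (nat_lit 5) (nat_lit 435) (nat_lit 425) (nat_lit 160)))))) (XT.nd (nat_lit 390) (nat_lit 380) (nat_lit 0) (XT.nd (nat_lit 156) (nat_lit 228) (nat_lit 0) (XT.nd (nat_lit 78) (nat_lit 228) (nat_lit 0) (XT.lf (nat_lit 0) (nat_lit 2414151295737) (nat_lit 304) (nat_lit 1976011942889) (nat_lit 76) (nat_lit 64311682678) (nat_lit 49) (nat_lit 5) (nat_lit 53) (nat_lit 5) (nat_lit 50) (nat_lit 5) (nat_lit 436) (nat_lit 425) (nat_lit 159)) (XT.lf (nat_lit 0) (nat_lit 410754938534) (nat_lit 228) (nat_lit 2712263688353) (nat_lit 304) (nat_lit 1534956175299) (nat_lit 46) (nat_lit 5) (nat_lit 49) (nat_lit 5)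 (nat_lit 50) (nat_lit 5) (nat_lit 437) (nat_lit 425) (nat_lit 158))) (XT.nd (nat_lit 78) (nat_lit 228) (nat_lit 0) (XT.lf (nat_lit 0) (nat_lit 3100840720104) (nat_lit 228) (nat_lit 841782292352) (nat_lit 304) (nat_lit 930809447647) (nat_lit 46) (nat_lit 5) (nat_lit 49) (nat_lit 5) (nat_lit 50) (nat_lit 5) (nat_lit 438) (nat_lit 425) (nat_lit 157)) (XT.nd (nat_lit 78) (nat_lit 76) (nat_lit 0) (XT.lf (nat_lit 0) (nat_lit 917568055410) (nat_lit 152) (nat_lit 3960634274892) (nat_lit 228) (nat_lit 223891873839) (nat_lit 44) (nat_lit 5) (nat_lit 46) (nat_lit 5) (nat_lit 47) (nat_lit 5) (nat_lit 439) (nat_lit 425) (nat_lit 156)) (XT.lf (nat_lit 0) (nat_lit 584176299872) (nat_lit 228) (nat_lit 1457522344377) (nat_lit 76) (nat_lit 3300584962121) (nat_lit 43) (nat_lit 5) (nat_lit 46) (nat_lit 5) (nat_lit 44) (nat_lit 5) (nat_lit 440) (nat_lit 425) (nat_lit 155))))) (XT.nd (nat_lit 156) (nat_lit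 152) (nat_lit 0) (XT.nd (nat_lit 78) (nat_lit 0) (nat_lit 0) (XT.lf (nat_lit 0) (nat_lit 1484173578824) (nat_lit 304) (nat_lit 4040230057365) (nat_lit 76) (nat_lit 73668924488) (nat_lit 40) (nat_lit 5) (nat_lit 44) (nat_lit 5) (nat_lit 41) (nat_lit 5) (nat_lit 441) (nat_lit 425) (nat_lit 154)) (XT.lf (nat_lit 0) (nat_lit 2550088114485) (nat_lit 304) (nat_lit 1027875637098) (nat_lit 76) (nat_lit 2288847481795) (nat_lit 40) (nat_lit 5) (nat_lit 44) (nat_lit 5) (nat_lit 41) (nat_lit 5) (nat_lit 442) (nat_lit 425) (nat_lit 153))) (XT.nd (nat_lit 78) (nat_lit 0) (nat_lit 0) (XT.lf (nat_lit 0) (nat_lit 2342656291922) (nat_lit 152) (nat_lit 1414960460948) (nat_lit 228) (nat_lit 2394924971835) (nat_lit 38) (nat_lit 5) (nat_lit 40) (nat_lit 5) (nat_lit 41) (nat_lit 5) (nat_lit 443) (nat_lit 425) (nat_lit 152)) (XT.nd (nat_lit 51714) (nat_lit 0) (nat_lit 1748) (XT.lf (nat_lit 0) (nat_lit 5112733666558)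 (nat_lit 228) (nat_lit 440477409954) (nat_lit 76) (nat_lit 903840700087) (nat_lit 38) (nat_lit 5) (nat_lit 41) (nat_lit 5) (nat_lit 39) (nat_lit 5) (nat_lit 444) (nat_lit 425) (nat_lit 151)) (XT.lf (nat_lit 0) (nat_lit 1290669312198) (nat_lit 532) (nat_lit 116597429198) (nat_lit 532) (nat_lit 116597429198) (nat_lit 61) (nat_lit 3) (nat_lit 68) (nat_lit 3) (nat_lit 68) (nat_lit 5) (nat_lit 426) (nat_lit 426) (nat_lit 168))))))) (XT.nd (nat_lit 780) (nat_lit 684) (nat_lit 0) (XT.nd (nat_lit 390) (nat_lit 532) (nat_lit 0) (XT.nd (nat_lit 156) (nat_lit 380) (nat_lit 0) (XT.nd (nat_lit 78) (nat_lit 0) (nat_lit 76) (XT.lf (nat_lit 76) (nat_lit 1301050542253) (nat_lit 0) (nat_lit 1414831930522) (nat_lit 532) (nat_lit 451251777783) (nat_lit 62) (nat_lit 5) (nat_lit 61) (nat_lit 3) (nat_lit 68) (nat_lit 5) (nat_lit 427) (nat_lit 426) (nat_lit 167)) (XT.lf (nat_lit 0) (nat_lit 2870060540937) (nat_lit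 456) (nat_lit 326779734962) (nat_lit 532) (nat_lit 98542699823) (nat_lit 62) (nat_lit 5) (nat_lit 68) (nat_lit 5) (nat_lit 69) (nat_lit 5) (nat_lit 428) (nat_lit 426) (nat_lit 166))) (XT.nd (nat_lit 78) (nat_lit 456) (nat_lit 0) (XT.lf (nat_lit 76) (nat_lit 1367318482710) (nat_lit 0) (nat_lit 1738887294936) (nat_lit 532) (nat_lit 322115187408) (nat_lit 63) (nat_lit 5) (nat_lit 62) (nat_lit 5) (nat_lit 69) (nat_lit 5) (nat_lit 429) (nat_lit 426) (nat_lit 165)) (XT.nd (nat_lit 78) (nat_lit 456) (nat_lit 0) (XT.lf (nat_lit 76) (nat_lit 3215528810483) (nat_lit 0) (nat_lit 154648559291) (nat_lit 532) (nat_lit 201001844839) (nat_lit 63) (nat_lit 5) (nat_lit 62) (nat_lit 5) (nat_lit 69) (nat_lit 5) (nat_lit 430) (nat_lit 426) (nat_lit 164)) (XT.lf (nat_lit 0) (nat_lit 9342756195) (nat_lit 532) (nat_lit 2194788130509) (nat_lit 608) (nat_lit 1515387858800) (nat_lit 56) (nat_lit 5) (nat_lit 63)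 (nat_lit 5) (nat_lit 64) (nat_lit 5) (nat_lit 431) (nat_lit 426) (nat_lit 163))))) (XT.nd (nat_lit 156) (nat_lit 532) (nat_lit 0) (XT.nd (nat_lit 78) (nat_lit 0) (nat_lit 76) (XT.lf (nat_lit 0) (nat_lit 239649136710) (nat_lit 532) (nat_lit 312669488221) (nat_lit 608) (nat_lit 3325869665218) (nat_lit 56) (nat_lit 5) (nat_lit 63) (nat_lit 5) (nat_lit 64) (nat_lit 5) (nat_lit 432) (nat_lit 426) (nat_lit 162)) (XT.lf (nat_lit 0) (nat_lit 562676774534) (nat_lit 532) (nat_lit 2266228009089) (nat_lit 76) (nat_lit 1214702874992) (nat_lit 57) (nat_lit 5) (nat_lit 64) (nat_lit 5) (nat_lit 58) (nat_lit 5) (nat_lit 433) (nat_lit 426) (nat_lit 161))) (XT.nd (nat_lit 78) (nat_lit 608) (nat_lit 0) (XT.lf (nat_lit 0) (nat_lit 934663549488) (nat_lit 532) (nat_lit 183730141457) (nat_lit 76) (nat_lit 3102017531526) (nat_lit 57) (nat_lit 5) (nat_lit 64) (nat_lit 5) (nat_lit 58) (nat_lit 5) (nat_lit 434) (nat_lit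 426) (nat_lit 160)) (XT.nd (nat_lit 78) (nat_lit 228) (nat_lit 0) (XT.lf (nat_lit 0) (nat_lit 1407586640935) (nat_lit 456) (nat_lit 2251939486774) (nat_lit 76) (nat_lit 746138753767) (nat_lit 52) (nat_lit 5) (nat_lit 58) (nat_lit 5) (nat_lit 53) (nat_lit 5) (nat_lit 435) (nat_lit 426) (nat_lit 159)) (XT.lf (nat_lit 0) (nat_lit 56958967435) (nat_lit 228) (nat_lit 1896957651569) (nat_lit 304) (nat_lit 2648976371054) (nat_lit 49) (nat_lit 5) (nat_lit 52) (nat_lit 5) (nat_lit 53) (nat_lit 5) (nat_lit 436) (nat_lit 426) (nat_lit 158)))))) (XT.nd (nat_lit 390) (nat_lit 228) (nat_lit 0) (XT.nd (nat_lit 156) (nat_lit 228) (nat_lit 0) (XT.nd (nat_lit 78) (nat_lit 228) (nat_lit 0) (XT.lf (nat_lit 0) (nat_lit 2607283406683) (nat_lit 304) (nat_lit 2134092889858) (nat_lit 76) (nat_lit 69456617876) (nat_lit 49) (nat_lit 5) (nat_lit 53) (nat_lit 5) (nat_lit 50) (nat_lit 5) (nat_lit 437) (nat_lit 426)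 (nat_lit 157)) (XT.lf (nat_lit 0) (nat_lit 443615341865) (nat_lit 228) (nat_lit 2929244782119) (nat_lit 304) (nat_lit 1657752661814) (nat_lit 46) (nat_lit 5) (nat_lit 49) (nat_lit 5) (nat_lit 50) (nat_lit 5) (nat_lit 438) (nat_lit 426) (nat_lit 156))) (XT.nd (nat_lit 78) (nat_lit 228) (nat_lit 0) (XT.lf (nat_lit 0) (nat_lit 3348907985350) (nat_lit 228) (nat_lit 909124874535) (nat_lit 304) (nat_lit 1005274196507) (nat_lit 46) (nat_lit 5) (nat_lit 49) (nat_lit 5) (nat_lit 50) (nat_lit 5) (nat_lit 439) (nat_lit 426) (nat_lit 155)) (XT.nd (nat_lit 78) (nat_lit 76) (nat_lit 0) (XT.lf (nat_lit 0) (nat_lit 990973507766) (nat_lit 152) (nat_lit 4277485015133) (nat_lit 228) (nat_lit 241803217074) (nat_lit 44) (nat_lit 5) (nat_lit 46) (nat_lit 5) (nat_lit 47) (nat_lit 5) (nat_lit 440) (nat_lit 426) (nat_lit 154)) (XT.lf (nat_lit 0) (nat_lit 630910409730) (nat_lit 228) (nat_lit 1574124124277) (nat_lit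 76) (nat_lit 3564631760398) (nat_lit 43) (nat_lit 5) (nat_lit 46) (nat_lit 5) (nat_lit 44) (nat_lit 5) (nat_lit 441) (nat_lit 426) (nat_lit 153))))) (XT.nd (nat_lit 51948) (nat_lit 0) (nat_lit 1596) (XT.nd (nat_lit 78) (nat_lit 0) (nat_lit 0) (XT.lf (nat_lit 0) (nat_lit 1602907470787) (nat_lit 304) (nat_lit 4363448454089) (nat_lit 76) (nat_lit 79562440198) (nat_lit 40) (nat_lit 5) (nat_lit 44) (nat_lit 5) (nat_lit 41) (nat_lit 5) (nat_lit 442) (nat_lit 426) (nat_lit 152)) (XT.lf (nat_lit 0) (nat_lit 2754095168882) (nat_lit 304) (nat_lit 1110105680783) (nat_lit 76) (nat_lit 2471955281959) (nat_lit 40) (nat_lit 5) (nat_lit 44) (nat_lit 5) (nat_lit 41) (nat_lit 5) (nat_lit 443) (nat_lit 426) (nat_lit 151))) (XT.nd (nat_lit 78) (nat_lit 0) (nat_lit 0) (XT.lf (nat_lit 0) (nat_lit 1393922863587) (nat_lit 532) (nat_lit 125925220067) (nat_lit 532) (nat_lit 125925220067) (nat_lit 61) (nat_lit 3)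 (nat_lit 68) (nat_lit 3) (nat_lit 68) (nat_lit 5) (nat_lit 427) (nat_lit 427) (nat_lit 166)) (XT.nd (nat_lit 78) (nat_lit 0) (nat_lit 76) (XT.lf (nat_lit 76) (nat_lit 1405134592391) (nat_lit 0) (nat_lit 1528018490244) (nat_lit 532) (nat_lit 487351906991) (nat_lit 62) (nat_lit 5) (nat_lit 61) (nat_lit 3) (nat_lit 68) (nat_lit 5) (nat_lit 428) (nat_lit 427) (nat_lit 165)) (XT.lf (nat_lit 0) (nat_lit 3099665395240) (nat_lit 456) (nat_lit 352922106479) (nat_lit 532) (nat_lit 106426111165) (nat_lit 62) (nat_lit 5) (nat_lit 68) (nat_lit 5) (nat_lit 69) (nat_lit 5) (nat_lit 429) (nat_lit 427) (nat_lit 164))))))))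
noncomputable def xc253 : XT := (XT.nd (nat_lit 53352) (nat_lit 0) (nat_lit 228) (XT.nd (nat_lit 702) (nat_lit 684) (nat_lit 0) (XT.nd (nat_lit 312) (nat_lit 532) (nat_lit 0) (XT.nd (nat_lit 156) (nat_lit 456) (nat_lit 0) (XT.nd (nat_lit 78) (nat_lit 0) (nat_lit 0) (XT.lf (nat_lit 76) (nat_lit 1476703968422) (nat_lit 0) (nat_lit 1877998281817) (nat_lit 532) (nat_lit 347884391175) (nat_lit 63) (nat_lit 5) (nat_lit 62) (nat_lit 5) (nat_lit 69) (nat_lit 5) (nat_lit 430) (nat_lit 427) (nat_lit 163)) (XT.lf (nat_lit 76) (nat_lit 3472771121892) (nat_lit 0) (nat_lit 167020447077) (nat_lit 532) (nat_lit 217081982032) (nat_lit 63) (nat_lit 5) (nat_lit 62) (nat_lit 5) (nat_lit 69) (nat_lit 5) (nat_lit 431) (nat_lit 427) (nat_lit 162))) (XT.nd (nat_lit 78) (nat_lit 0) (nat_lit 0) (XT.lf (nat_lit 0) (nat_lit 10090185942) (nat_lit 532) (nat_lit 2370371173217) (nat_lit 608) (nat_lit 1636618885236) (nat_lit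 56) (nat_lit 5) (nat_lit 63) (nat_lit 5) (nat_lit 64) (nat_lit 5) (nat_lit 432) (nat_lit 427) (nat_lit 161)) (XT.lf (nat_lit 0) (nat_lit 258821076212) (nat_lit 532) (nat_lit 337683040118) (nat_lit 608) (nat_lit 3591939236335) (nat_lit 56) (nat_lit 5) (nat_lit 63) (nat_lit 5) (nat_lit 64) (nat_lit 5) (nat_lit 433) (nat_lit 427) (nat_lit 160)))) (XT.nd (nat_lit 156) (nat_lit 608) (nat_lit 0) (XT.nd (nat_lit 78) (nat_lit 0) (nat_lit 0) (XT.lf (nat_lit 0) (nat_lit 607690924569) (nat_lit 532) (nat_lit 2447526242154) (nat_lit 76) (nat_lit 1311879103927) (nat_lit 57) (nat_lit 5) (nat_lit 64) (nat_lit 5) (nat_lit 58) (nat_lit 5) (nat_lit 434) (nat_lit 427) (nat_lit 159)) (XT.lf (nat_lit 0) (nat_lit 1009436640922) (nat_lit 532) (nat_lit 198428545679) (nat_lit 76) (nat_lit 3350178933062) (nat_lit 57) (nat_lit 5) (nat_lit 64) (nat_lit 5) (nat_lit 58) (nat_lit 5) (nat_lit 435) (nat_lit 427) (nat_lit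 158))) (XT.nd (nat_lit 78) (nat_lit 228) (nat_lit 0) (XT.lf (nat_lit 0) (nat_lit 1520193579293) (nat_lit 456) (nat_lit 2432094638223) (nat_lit 76) (nat_lit 805829853905) (nat_lit 52) (nat_lit 5) (nat_lit 58) (nat_lit 5) (nat_lit 53) (nat_lit 5) (nat_lit 436) (nat_lit 427) (nat_lit 157)) (XT.nd (nat_lit 78) (nat_lit 0) (nat_lit 0) (XT.lf (nat_lit 0) (nat_lit 61515692134) (nat_lit 228) (nat_lit 2048714263125) (nat_lit 304) (nat_lit 2860894473459) (nat_lit 49) (nat_lit 5) (nat_lit 52) (nat_lit 5) (nat_lit 53) (nat_lit 5) (nat_lit 437) (nat_lit 427) (nat_lit 156)) (XT.lf (nat_lit 0) (nat_lit 2815866085465) (nat_lit 304) (nat_lit 2304820313792) (nat_lit 76) (nat_lit 75013147808) (nat_lit 49) (nat_lit 5) (nat_lit 53) (nat_lit 5) (nat_lit 50) (nat_lit 5) (nat_lit 438) (nat_lit 427) (nat_lit 155)))))) (XT.nd (nat_lit 52260) (nat_lit 0) (nat_lit 1596) (XT.nd (nat_lit 156) (nat_lit 456) (nat_lit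 0) (XT.nd (nat_lit 78) (nat_lit 0) (nat_lit 0) (XT.lf (nat_lit 0) (nat_lit 479104576285) (nat_lit 228) (nat_lit 3163584363572) (nat_lit 304) (nat_lit 1790372868322) (nat_lit 46) (nat_lit 5) (nat_lit 49) (nat_lit 5) (nat_lit 50) (nat_lit 5) (nat_lit 439) (nat_lit 427) (nat_lit 154)) (XT.lf (nat_lit 0) (nat_lit 3616820630725) (nat_lit 228) (nat_lit 981854863464) (nat_lit 304) (nat_lit 1085696126267) (nat_lit 46) (nat_lit 5) (nat_lit 49) (nat_lit 5) (nat_lit 50) (nat_lit 5) (nat_lit 440) (nat_lit 427) (nat_lit 153))) (XT.nd (nat_lit 78) (nat_lit 304) (nat_lit 0) (XT.lf (nat_lit 0) (nat_lit 1070251395180) (nat_lit 152) (nat_lit 4619683814843) (nat_lit 228) (nat_lit 261147468720) (nat_lit 44) (nat_lit 5) (nat_lit 46) (nat_lit 5) (nat_lit 47) (nat_lit 5) (nat_lit 441) (nat_lit 427) (nat_lit 152)) (XT.nd (nat_lit 78) (nat_lit 228) (nat_lit 0) (XT.lf (nat_lit 0) (nat_lit 681383247540) (nat_lit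 228) (nat_lit 1700054047661) (nat_lit 76) (nat_lit 3849802302350) (nat_lit 43) (nat_lit 5) (nat_lit 46) (nat_lit 5) (nat_lit 44) (nat_lit 5) (nat_lit 442) (nat_lit 427) (nat_lit 151)) (XT.lf (nat_lit 0) (nat_lit 1731140073301) (nat_lit 304) (nat_lit 4712524323672) (nat_lit 76) (nat_lit 85927436915) (nat_lit 40) (nat_lit 5) (nat_lit 44) (nat_lit 5) (nat_lit 41) (nat_lit 5) (nat_lit 443) (nat_lit 427) (nat_lit 150))))) (XT.nd (nat_lit 156) (nat_lit 0) (nat_lit 76) (XT.nd (nat_lit 78) (nat_lit 0) (nat_lit 0) (XT.lf (nat_lit 0) (nat_lit 1505436698172) (nat_lit 532) (nat_lit 135999234700) (nat_lit 532) (nat_lit 135999234700) (nat_lit 61) (nat_lit 3) (nat_lit 68) (nat_lit 3) (nat_lit 68) (nat_lit 5) (nat_lit 428) (nat_lit 428) (nat_lit 164)) (XT.lf (nat_lit 76) (nat_lit 1517545365576) (nat_lit 0) (nat_lit 1650259973990) (nat_lit 532) (nat_lit 526340048391) (nat_lit 62) (nat_lit 5) (nat_lit 61)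 (nat_lit 3) (nat_lit 68) (nat_lit 5) (nat_lit 429) (nat_lit 428) (nat_lit 163))) (XT.nd (nat_lit 78) (nat_lit 0) (nat_lit 0) (XT.lf (nat_lit 0) (nat_lit 3347638636314) (nat_lit 456) (nat_lit 381155868757) (nat_lit 532) (nat_lit 114940196077) (nat_lit 62) (nat_lit 5) (nat_lit 68) (nat_lit 5) (nat_lit 69) (nat_lit 5) (nat_lit 430) (nat_lit 428) (nat_lit 162)) (XT.nd (nat_lit 78) (nat_lit 0) (nat_lit 0) (XT.lf (nat_lit 76) (nat_lit 1594840291979) (nat_lit 0) (nat_lit 2028238147180) (nat_lit 532) (nat_lit 375715132846) (nat_lit 63) (nat_lit 5) (nat_lit 62) (nat_lit 5) (nat_lit 69) (nat_lit 5) (nat_lit 431) (nat_lit 428) (nat_lit 161)) (XT.lf (nat_lit 76) (nat_lit 3750592817276) (nat_lit 0) (nat_lit 180382085452) (nat_lit 532) (nat_lit 234448531684) (nat_lit 63) (nat_lit 5) (nat_lit 62) (nat_lit 5) (nat_lit 69) (nat_lit 5) (nat_lit 432) (nat_lit 428) (nat_lit 160))))))) (XT.nd (nat_lit 780)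 (nat_lit 76) (nat_lit 0) (XT.nd (nat_lit 390) (nat_lit 608) (nat_lit 0) (XT.nd (nat_lit 156) (nat_lit 304) (nat_lit 0) (XT.nd (nat_lit 78) (nat_lit 0) (nat_lit 0) (XT.lf (nat_lit 0) (nat_lit 10897408749) (nat_lit 532) (nat_lit 2560000860444) (nat_lit 608) (nat_lit 1767548394110) (nat_lit 56) (nat_lit 5) (nat_lit 63) (nat_lit 5) (nat_lit 64) (nat_lit 5) (nat_lit 433) (nat_lit 428) (nat_lit 159)) (XT.lf (nat_lit 0) (nat_lit 279526769653) (nat_lit 532) (nat_lit 364697677189) (nat_lit 608) (nat_lit 3879294373441) (nat_lit 56) (nat_lit 5) (nat_lit 63) (nat_lit 5) (nat_lit 64) (nat_lit 5) (nat_lit 434) (nat_lit 428) (nat_lit 158))) (XT.nd (nat_lit 78) (nat_lit 380) (nat_lit 0) (XT.lf (nat_lit 0) (nat_lit 656306205455) (nat_lit 532) (nat_lit 2643328334957) (nat_lit 76) (nat_lit 1416829431329) (nat_lit 57) (nat_lit 5) (nat_lit 64) (nat_lit 5) (nat_lit 58) (nat_lit 5) (nat_lit 435) (nat_lit 428)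 (nat_lit 157)) (XT.nd (nat_lit 78) (nat_lit 380) (nat_lit 0) (XT.lf (nat_lit 0) (nat_lit 1090191578603) (nat_lit 532) (nat_lit 214302823251) (nat_lit 76) (nat_lit 3618193246862) (nat_lit 57) (nat_lit 5) (nat_lit 64) (nat_lit 5) (nat_lit 58) (nat_lit 5) (nat_lit 436) (nat_lit 428) (nat_lit 156)) (XT.lf (nat_lit 0) (nat_lit 1641809071709) (nat_lit 456) (nat_lit 2626662202856) (nat_lit 76) (nat_lit 870296242077) (nat_lit 52) (nat_lit 5) (nat_lit 58) (nat_lit 5) (nat_lit 53) (nat_lit 5) (nat_lit 437) (nat_lit 428) (nat_lit 155))))) (XT.nd (nat_lit 156) (nat_lit 380) (nat_lit 0) (XT.nd (nat_lit 78) (nat_lit 0) (nat_lit 0) (XT.lf (nat_lit 0) (nat_lit 66436953766) (nat_lit 228) (nat_lit 2212611403686) (nat_lit 304) (nat_lit 3089766025095) (nat_lit 49) (nat_lit 5) (nat_lit 52) (nat_lit 5) (nat_lit 53) (nat_lit 5) (nat_lit 438) (nat_lit 428) (nat_lit 154)) (XT.lf (nat_lit 0) (nat_lit 3041135377659)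 (nat_lit 304) (nat_lit 2489205932676) (nat_lit 76) (nat_lit 81014200062) (nat_lit 49) (nat_lit 5) (nat_lit 53) (nat_lit 5) (nat_lit 50) (nat_lit 5) (nat_lit 439) (nat_lit 428) (nat_lit 153))) (XT.nd (nat_lit 78) (nat_lit 152) (nat_lit 0) (XT.lf (nat_lit 0) (nat_lit 517432948450) (nat_lit 228) (nat_lit 3416671111701) (nat_lit 304) (nat_lit 1933602692269) (nat_lit 46) (nat_lit 5) (nat_lit 49) (nat_lit 5) (nat_lit 50) (nat_lit 5) (nat_lit 440) (nat_lit 428) (nat_lit 152)) (XT.nd (nat_lit 78) (nat_lit 152) (nat_lit 0) (XT.lf (nat_lit 0) (nat_lit 3906166286797) (nat_lit 228) (nat_lit 1060403251655) (nat_lit 304) (nat_lit 1172551811258) (nat_lit 46) (nat_lit 5) (nat_lit 49) (nat_lit 5) (nat_lit 50) (nat_lit 5) (nat_lit 441) (nat_lit 428) (nat_lit 151)) (XT.lf (nat_lit 0) (nat_lit 1155871512618) (nat_lit 152) (nat_lit 4989258518744) (nat_lit 228) (nat_lit 282039261313) (nat_lit 44) (nat_lit 5)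 (nat_lit 46) (nat_lit 5) (nat_lit 47) (nat_lit 5) (nat_lit 442) (nat_lit 428) (nat_lit 150)))))) (XT.nd (nat_lit 52338) (nat_lit 0) (nat_lit 988) (XT.nd (nat_lit 52104) (nat_lit 0) (nat_lit 1368) (XT.nd (nat_lit 52026) (nat_lit 0) (nat_lit 1368) (XT.lf (nat_lit 0) (nat_lit 735893911657) (nat_lit 228) (nat_lit 1836058365851) (nat_lit 76) (nat_lit 4157786487499) (nat_lit 43) (nat_lit 5) (nat_lit 46) (nat_lit 5) (nat_lit 44) (nat_lit 5) (nat_lit 443) (nat_lit 428) (nat_lit 149)) (XT.lf (nat_lit 0) (nat_lit 1625871638739) (nat_lit 532) (nat_lit 146879170928) (nat_lit 532) (nat_lit 146879170928) (nat_lit 61) (nat_lit 3) (nat_lit 68) (nat_lit 3) (nat_lit 68) (nat_lit 5) (nat_lit 429) (nat_lit 429) (nat_lit 162))) (XT.nd (nat_lit 78) (nat_lit 0) (nat_lit 76) (XT.lf (nat_lit 76) (nat_lit 1638948999789) (nat_lit 0) (nat_lit 1782280775790) (nat_lit 532) (nat_lit 568447242696) (nat_lit 62) (nat_lit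 5) (nat_lit 61) (nat_lit 3) (nat_lit 68) (nat_lit 5) (nat_lit 430) (nat_lit 429) (nat_lit 161)) (XT.nd (nat_lit 78) (nat_lit 0) (nat_lit 0) (XT.lf (nat_lit 0) (nat_lit 3615449735326) (nat_lit 456) (nat_lit 411648332906) (nat_lit 532) (nat_lit 124135408349) (nat_lit 62) (nat_lit 5) (nat_lit 68) (nat_lit 5) (nat_lit 69) (nat_lit 5) (nat_lit 431) (nat_lit 429) (nat_lit 160)) (XT.lf (nat_lit 76) (nat_lit 1722427520553) (nat_lit 0) (nat_lit 2190497201370) (nat_lit 532) (nat_lit 405772335223) (nat_lit 63) (nat_lit 5) (nat_lit 62) (nat_lit 5) (nat_lit 69) (nat_lit 5) (nat_lit 432) (nat_lit 429) (nat_lit 159))))) (XT.nd (nat_lit 156) (nat_lit 0) (nat_lit 0) (XT.nd (nat_lit 78) (nat_lit 456) (nat_lit 0) (XT.lf (nat_lit 76) (nat_lit 4050640247487) (nat_lit 0) (nat_lit 194812654525) (nat_lit 532) (nat_lit 253204406579) (nat_lit 63) (nat_lit 5) (nat_lit 62) (nat_lit 5) (nat_lit 69) (nat_lit 5) (nat_lit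 433) (nat_lit 429) (nat_lit 158)) (XT.lf (nat_lit 0) (nat_lit 11769208249) (nat_lit 532) (nat_lit 2764800923596) (nat_lit 608) (nat_lit 1908952263971) (nat_lit 56) (nat_lit 5) (nat_lit 63) (nat_lit 5) (nat_lit 64) (nat_lit 5) (nat_lit 434) (nat_lit 429) (nat_lit 157))) (XT.nd (nat_lit 78) (nat_lit 0) (nat_lit 76) (XT.lf (nat_lit 0) (nat_lit 301888917522) (nat_lit 532) (nat_lit 393873486102) (nat_lit 608) (nat_lit 4189637921772) (nat_lit 56) (nat_lit 5) (nat_lit 63) (nat_lit 5) (nat_lit 64) (nat_lit 5) (nat_lit 435) (nat_lit 429) (nat_lit 156)) (XT.nd (nat_lit 78) (nat_lit 0) (nat_lit 0) (XT.lf (nat_lit 0) (nat_lit 708810707825) (nat_lit 532) (nat_lit 2854794596122) (nat_lit 76) (nat_lit 1530175785053) (nat_lit 57) (nat_lit 5) (nat_lit 64) (nat_lit 5) (nat_lit 58) (nat_lit 5) (nat_lit 436) (nat_lit 429) (nat_lit 155)) (XT.lf (nat_lit 0) (nat_lit 1177406910386) (nat_lit 532) (nat_lit 231447043897)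 (nat_lit 76) (nat_lit 3907648705887) (nat_lit 57) (nat_lit 5) (nat_lit 64) (nat_lit 5) (nat_lit 58) (nat_lit 5) (nat_lit 437) (nat_lit 429) (nat_lit 154))))))))
noncomputable def xc254 : XT := (XT.nd (nat_lit 105690) (nat_lit 0) (nat_lit 380) (XT.nd (nat_lit 52728) (nat_lit 0) (nat_lit 152) (XT.nd (nat_lit 312) (nat_lit 152) (nat_lit 0) (XT.nd (nat_lit 156) (nat_lit 228) (nat_lit 0) (XT.nd (nat_lit 78) (nat_lit 228) (nat_lit 0) (XT.lf (nat_lit 0) (nat_lit 1773153802652) (nat_lit 456) (nat_lit 2836795173577) (nat_lit 76) (nat_lit 939919941324) (nat_lit 52) (nat_lit 5) (nat_lit 58) (nat_lit 5) (nat_lit 53) (nat_lit 5) (nat_lit 438) (nat_lit 429) (nat_lit 153)) (XT.lf (nat_lit 0) (nat_lit 71751915436) (nat_lit 228) (nat_lit 2389620315562) (nat_lit 304) (nat_lit 3336947301752) (nat_lit 49) (nat_lit 5) (nat_lit 52) (nat_lit 5) (nat_lit 53) (nat_lit 5) (nat_lit 439) (nat_lit 429) (nat_lit 152)))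 (XT.nd (nat_lit 78) (nat_lit 228) (nat_lit 0) (XT.lf (nat_lit 0) (nat_lit 3284426212464) (nat_lit 304) (nat_lit 2688342401957) (nat_lit 76) (nat_lit 87495336435) (nat_lit 49) (nat_lit 5) (nat_lit 53) (nat_lit 5) (nat_lit 50) (nat_lit 5) (nat_lit 440) (nat_lit 429) (nat_lit 151)) (XT.lf (nat_lit 0) (nat_lit 558827589524) (nat_lit 228) (nat_lit 3690004799817) (nat_lit 304) (nat_lit 2088290902919) (nat_lit 46) (nat_lit 5) (nat_lit 49) (nat_lit 5) (nat_lit 50) (nat_lit 5) (nat_lit 441) (nat_lit 429) (nat_lit 150)))) (XT.nd (nat_lit 52182) (nat_lit 0) (nat_lit 1292) (XT.nd (nat_lit 78) (nat_lit 152) (nat_lit 0) (XT.lf (nat_lit 0) (nat_lit 4218659594553) (nat_lit 228) (nat_lit 1145235511028) (nat_lit 304) (nat_lit 1266355951778) (nat_lit 46) (nat_lit 5) (nat_lit 49) (nat_lit 5) (nat_lit 50) (nat_lit 5) (nat_lit 442) (nat_lit 429) (nat_lit 149)) (XT.lf (nat_lit 0) (nat_lit 1248341238620) (nat_lit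 152) (nat_lit 5388399199141) (nat_lit 228) (nat_lit 304602398014) (nat_lit 44) (nat_lit 5) (nat_lit 46) (nat_lit 5) (nat_lit 47) (nat_lit 5) (nat_lit 443) (nat_lit 429) (nat_lit 148))) (XT.nd (nat_lit 78) (nat_lit 0) (nat_lit 0) (XT.lf (nat_lit 0) (nat_lit 1755941373879) (nat_lit 532) (nat_lit 158629502418) (nat_lit 532) (nat_lit 158629502418) (nat_lit 61) (nat_lit 3) (nat_lit 68) (nat_lit 3) (nat_lit 68) (nat_lit 5) (nat_lit 430) (nat_lit 430) (nat_lit 160)) (XT.nd (nat_lit 78) (nat_lit 0) (nat_lit 76) (XT.lf (nat_lit 76) (nat_lit 1770064924031) (nat_lit 0) (nat_lit 1924863241180) (nat_lit 532) (nat_lit 613923013910) (nat_lit 62) (nat_lit 5) (nat_lit 61) (nat_lit 3) (nat_lit 68) (nat_lit 5) (nat_lit 431) (nat_lit 430) (nat_lit 159)) (XT.lf (nat_lit 0) (nat_lit 3904685721101) (nat_lit 456) (nat_lit 444580194951) (nat_lit 532) (nat_lit 134066238091) (nat_lit 62) (nat_lit 5) (nat_lit 68)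 (nat_lit 5) (nat_lit 69) (nat_lit 5) (nat_lit 432) (nat_lit 430) (nat_lit 158)))))) (XT.nd (nat_lit 390) (nat_lit 760) (nat_lit 0) (XT.nd (nat_lit 156) (nat_lit 456) (nat_lit 0) (XT.nd (nat_lit 78) (nat_lit 0) (nat_lit 0) (XT.lf (nat_lit 76) (nat_lit 1860221726669) (nat_lit 0) (nat_lit 2365736979551) (nat_lit 532) (nat_lit 438234114967) (nat_lit 63) (nat_lit 5) (nat_lit 62) (nat_lit 5) (nat_lit 69) (nat_lit 5) (nat_lit 433) (nat_lit 430) (nat_lit 157)) (XT.lf (nat_lit 76) (nat_lit 4374691471426) (nat_lit 0) (nat_lit 210397668805) (nat_lit 532) (nat_lit 273460752556) (nat_lit 63) (nat_lit 5) (nat_lit 62) (nat_lit 5) (nat_lit 69) (nat_lit 5) (nat_lit 434) (nat_lit 430) (nat_lit 156))) (XT.nd (nat_lit 78) (nat_lit 0) (nat_lit 0) (XT.lf (nat_lit 0) (nat_lit 12710750739) (nat_lit 532) (nat_lit 2985984992611) (nat_lit 608) (nat_lit 2061668443660) (nat_lit 56) (nat_lit 5) (nat_lit 63) (nat_lit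 5) (nat_lit 64) (nat_lit 5) (nat_lit 435) (nat_lit 430) (nat_lit 155)) (XT.nd (nat_lit 78) (nat_lit 0) (nat_lit 76) (XT.lf (nat_lit 0) (nat_lit 326040036322) (nat_lit 532) (nat_lit 425383360478) (nat_lit 608) (nat_lit 4524808954191) (nat_lit 56) (nat_lit 5) (nat_lit 63) (nat_lit 5) (nat_lit 64) (nat_lit 5) (nat_lit 436) (nat_lit 430) (nat_lit 154)) (XT.lf (nat_lit 0) (nat_lit 765515569538) (nat_lit 532) (nat_lit 3083178158983) (nat_lit 76) (nat_lit 1652589847186) (nat_lit 57) (nat_lit 5) (nat_lit 64) (nat_lit 5) (nat_lit 58) (nat_lit 5) (nat_lit 437) (nat_lit 430) (nat_lit 153))))) (XT.nd (nat_lit 156) (nat_lit 456) (nat_lit 0) (XT.nd (nat_lit 78) (nat_lit 380) (nat_lit 0) (XT.lf (nat_lit 0) (nat_lit 1271599467927) (nat_lit 532) (nat_lit 249962802938) (nat_lit 76) (nat_lit 4220260601737) (nat_lit 57) (nat_lit 5) (nat_lit 64) (nat_lit 5) (nat_lit 58) (nat_lit 5) (nat_lit 438) (nat_lit 430)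 (nat_lit 152)) (XT.lf (nat_lit 0) (nat_lit 1915006111328) (nat_lit 456) (nat_lit 3063738782741) (nat_lit 76) (nat_lit 1015113536526) (nat_lit 52) (nat_lit 5) (nat_lit 58) (nat_lit 5) (nat_lit 53) (nat_lit 5) (nat_lit 439) (nat_lit 430) (nat_lit 151))) (XT.nd (nat_lit 78) (nat_lit 228) (nat_lit 0) (XT.lf (nat_lit 0) (nat_lit 77492073273) (nat_lit 228) (nat_lit 2580789940448) (nat_lit 304) (nat_lit 3603903081305) (nat_lit 49) (nat_lit 5) (nat_lit 52) (nat_lit 5) (nat_lit 53) (nat_lit 5) (nat_lit 440) (nat_lit 430) (nat_lit 150)) (XT.nd (nat_lit 78) (nat_lit 228) (nat_lit 0) (XT.lf (nat_lit 0) (nat_lit 3547180313399) (nat_lit 304) (nat_lit 2903409789542) (nat_lit 76) (nat_lit 94494963666) (nat_lit 49) (nat_lit 5) (nat_lit 53) (nat_lit 5) (nat_lit 50) (nat_lit 5) (nat_lit 441) (nat_lit 430) (nat_lit 149)) (XT.lf (nat_lit 0) (nat_lit 603533801142) (nat_lit 228) (nat_lit 3985205183099) (nat_lit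 304) (nat_lit 2255354171096) (nat_lit 46) (nat_lit 5) (nat_lit 49) (nat_lit 5) (nat_lit 50) (nat_lit 5) (nat_lit 442) (nat_lit 430) (nat_lit 148))))))) (XT.nd (nat_lit 780) (nat_lit 228) (nat_lit 0) (XT.nd (nat_lit 390) (nat_lit 684) (nat_lit 0) (XT.nd (nat_lit 156) (nat_lit 0) (nat_lit 76) (XT.nd (nat_lit 78) (nat_lit 0) (nat_lit 0) (XT.lf (nat_lit 0) (nat_lit 1896416687254) (nat_lit 532) (nat_lit 171319860739) (nat_lit 532) (nat_lit 171319860739) (nat_lit 61) (nat_lit 3) (nat_lit 68) (nat_lit 3) (nat_lit 68) (nat_lit 5) (nat_lit 431) (nat_lit 431) (nat_lit 158)) (XT.lf (nat_lit 76) (nat_lit 1911670121605) (nat_lit 0) (nat_lit 2078852303327) (nat_lit 532) (nat_lit 663036847992) (nat_lit 62) (nat_lit 5) (nat_lit 61) (nat_lit 3) (nat_lit 68) (nat_lit 5) (nat_lit 432) (nat_lit 431) (nat_lit 157))) (XT.nd (nat_lit 78) (nat_lit 0) (nat_lit 0) (XT.lf (nat_lit 0) (nat_lit 4217060584748) (nat_lit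 456) (nat_lit 480146606614) (nat_lit 532) (nat_lit 144791534629) (nat_lit 62) (nat_lit 5) (nat_lit 68) (nat_lit 5) (nat_lit 69) (nat_lit 5) (nat_lit 433) (nat_lit 431) (nat_lit 156)) (XT.nd (nat_lit 78) (nat_lit 0) (nat_lit 0) (XT.lf (nat_lit 76) (nat_lit 2009039468636) (nat_lit 0) (nat_lit 2554995939690) (nat_lit 532) (nat_lit 473292838100) (nat_lit 63) (nat_lit 5) (nat_lit 62) (nat_lit 5) (nat_lit 69) (nat_lit 5) (nat_lit 434) (nat_lit 431) (nat_lit 155)) (XT.lf (nat_lit 76) (nat_lit 4724666792690) (nat_lit 0) (nat_lit 227229483953) (nat_lit 532) (nat_lit 295337607145) (nat_lit 63) (nat_lit 5) (nat_lit 62) (nat_lit 5) (nat_lit 69) (nat_lit 5) (nat_lit 435) (nat_lit 431) (nat_lit 154))))) (XT.nd (nat_lit 156) (nat_lit 304) (nat_lit 0) (XT.nd (nat_lit 78) (nat_lit 0) (nat_lit 0) (XT.lf (nat_lit 0) (nat_lit 13727615796) (nat_lit 532) (nat_lit 3224863787842) (nat_lit 608) (nat_lit 2226601917927)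 (nat_lit 56) (nat_lit 5) (nat_lit 63) (nat_lit 5) (nat_lit 64) (nat_lit 5) (nat_lit 436) (nat_lit 431) (nat_lit 153)) (XT.lf (nat_lit 0) (nat_lit 352123243855) (nat_lit 532) (nat_lit 459414025448) (nat_lit 608) (nat_lit 4886793669391) (nat_lit 56) (nat_lit 5) (nat_lit 63) (nat_lit 5) (nat_lit 64) (nat_lit 5) (nat_lit 437) (nat_lit 431) (nat_lit 152))) (XT.nd (nat_lit 78) (nat_lit 380) (nat_lit 0) (XT.lf (nat_lit 0) (nat_lit 826756819463) (nat_lit 532) (nat_lit 3329832407562) (nat_lit 76) (nat_lit 1784797034386) (nat_lit 57) (nat_lit 5) (nat_lit 64) (nat_lit 5) (nat_lit 58) (nat_lit 5) (nat_lit 438) (nat_lit 431) (nat_lit 151)) (XT.nd (nat_lit 78) (nat_lit 380) (nat_lit 0) (XT.lf (nat_lit 0) (nat_lit 1373327429399) (nat_lit 532) (nat_lit 269959823340) (nat_lit 76) (nat_lit 4557881449343) (nat_lit 57) (nat_lit 5) (nat_lit 64) (nat_lit 5) (nat_lit 58) (nat_lit 5) (nat_lit 439) (nat_lit 431)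 (nat_lit 150)) (XT.lf (nat_lit 0) (nat_lit 2068206604061) (nat_lit 456) (nat_lit 3308837881312) (nat_lit 76) (nat_lit 1096322619360) (nat_lit 52) (nat_lit 5) (nat_lit 58) (nat_lit 5) (nat_lit 53) (nat_lit 5) (nat_lit 440) (nat_lit 431) (nat_lit 149)))))) (XT.nd (nat_lit 52650) (nat_lit 0) (nat_lit 532) (XT.nd (nat_lit 52416) (nat_lit 0) (nat_lit 912) (XT.nd (nat_lit 78) (nat_lit 0) (nat_lit 0) (XT.lf (nat_lit 0) (nat_lit 83691443081) (nat_lit 228) (nat_lit 2787253135376) (nat_lit 304) (nat_lit 3892215323877) (nat_lit 49) (nat_lit 5) (nat_lit 52) (nat_lit 5) (nat_lit 53) (nat_lit 5) (nat_lit 441) (nat_lit 431) (nat_lit 148)) (XT.lf (nat_lit 0) (nat_lit 3830954741846) (nat_lit 304) (nat_lit 3135682568786) (nat_lit 76) (nat_lit 102054561030) (nat_lit 49) (nat_lit 5) (nat_lit 53) (nat_lit 5) (nat_lit 50) (nat_lit 5) (nat_lit 442) (nat_lit 431) (nat_lit 147))) (XT.nd (nat_lit 78) (nat_lit 0)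 (nat_lit 0) (XT.lf (nat_lit 0) (nat_lit 2048130025204) (nat_lit 532) (nat_lit 185025447992) (nat_lit 532) (nat_lit 185025447992) (nat_lit 61) (nat_lit 3) (nat_lit 68) (nat_lit 3) (nat_lit 68) (nat_lit 5) (nat_lit 432) (nat_lit 432) (nat_lit 156)) (XT.nd (nat_lit 78) (nat_lit 0) (nat_lit 76) (XT.lf (nat_lit 76) (nat_lit 2064603734463) (nat_lit 0) (nat_lit 2245160490039) (nat_lit 532) (nat_lit 716079789803) (nat_lit 62) (nat_lit 5) (nat_lit 61) (nat_lit 3) (nat_lit 68) (nat_lit 5) (nat_lit 433) (nat_lit 432) (nat_lit 155)) (XT.lf (nat_lit 0) (nat_lit 4554425436636) (nat_lit 456) (nat_lit 518558331771) (nat_lit 532) (nat_lit 156374855248) (nat_lit 62) (nat_lit 5) (nat_lit 68) (nat_lit 5) (nat_lit 69) (nat_lit 5) (nat_lit 434) (nat_lit 432) (nat_lit 154))))) (XT.nd (nat_lit 156) (nat_lit 456) (nat_lit 0) (XT.nd (nat_lit 78) (nat_lit 0) (nat_lit 0) (XT.lf (nat_lit 76) (nat_lit 2169762629414)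 (nat_lit 0) (nat_lit 2759395616388) (nat_lit 532) (nat_lit 511156259948) (nat_lit 63) (nat_lit 5) (nat_lit 62) (nat_lit 5) (nat_lit 69) (nat_lit 5) (nat_lit 435) (nat_lit 432) (nat_lit 153)) (XT.lf (nat_lit 76) (nat_lit 5102640139148) (nat_lit 0) (nat_lit 245407844079) (nat_lit 532) (nat_lit 318964610903) (nat_lit 63) (nat_lit 5) (nat_lit 62) (nat_lit 5) (nat_lit 69) (nat_lit 5) (nat_lit 436) (nat_lit 432) (nat_lit 152))) (XT.nd (nat_lit 78) (nat_lit 0) (nat_lit 0) (XT.lf (nat_lit 0) (nat_lit 14825829345) (nat_lit 532) (nat_lit 3482852887287) (nat_lit 608) (nat_lit 2404730070310) (nat_lit 56) (nat_lit 5) (nat_lit 63) (nat_lit 5) (nat_lit 64) (nat_lit 5) (nat_lit 437) (nat_lit 432) (nat_lit 151)) (XT.nd (nat_lit 78) (nat_lit 0) (nat_lit 76) (XT.lf (nat_lit 0) (nat_lit 380293107332) (nat_lit 532) (nat_lit 496167144167) (nat_lit 608) (nat_lit 5277737161970) (nat_lit 56) (nat_lit 5) (nat_lit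 63) (nat_lit 5) (nat_lit 64) (nat_lit 5) (nat_lit 438) (nat_lit 432) (nat_lit 150)) (XT.lf (nat_lit 0) (nat_lit 892897368759) (nat_lit 532) (nat_lit 3596218996618) (nat_lit 76) (nat_lit 1927580796644) (nat_lit 57) (nat_lit 5) (nat_lit 64) (nat_lit 5) (nat_lit 58) (nat_lit 5) (nat_lit 439) (nat_lit 432) (nat_lit 149))))))))
noncomputable def xc255 : XT := (XT.nd (nat_lit 106236) (nat_lit 0) (nat_lit 532) (XT.nd (nat_lit 53040) (nat_lit 0) (nat_lit 228) (XT.nd (nat_lit 52650) (nat_lit 0) (nat_lit 532) (XT.nd (nat_lit 156) (nat_lit 228) (nat_lit 0) (XT.nd (nat_lit 78) (nat_lit 380) (nat_lit 0) (XT.lf (nat_lit 0) (nat_lit 1483193627213) (nat_lit 532) (nat_lit 291556605921) (nat_lit 76) (nat_lit 4922511964834) (nat_lit 57) (nat_lit 5) (nat_lit 64) (nat_lit 5) (nat_lit 58) (nat_lit 5) (nat_lit 440) (nat_lit 432) (nat_lit 148)) (XT.lf (nat_lit 0) (nat_lit 2233663135666) (nat_lit 456) (nat_lit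 3573544908346) (nat_lit 76) (nat_lit 1184028428833) (nat_lit 52) (nat_lit 5) (nat_lit 58) (nat_lit 5) (nat_lit 53) (nat_lit 5) (nat_lit 441) (nat_lit 432) (nat_lit 147))) (XT.nd (nat_lit 52416) (nat_lit 0) (nat_lit 912) (XT.lf (nat_lit 0) (nat_lit 90386761911) (nat_lit 228) (nat_lit 3010233385943) (nat_lit 304) (nat_lit 4203592546416) (nat_lit 49) (nat_lit 5) (nat_lit 52) (nat_lit 5) (nat_lit 53) (nat_lit 5) (nat_lit 442) (nat_lit 432) (nat_lit 146)) (XT.lf (nat_lit 0) (nat_lit 2211980429767) (nat_lit 532) (nat_lit 199827482455) (nat_lit 532) (nat_lit 199827482455) (nat_lit 61) (nat_lit 3) (nat_lit 68) (nat_lit 3) (nat_lit 68) (nat_lit 5) (nat_lit 433) (nat_lit 433) (nat_lit 154)))) (XT.nd (nat_lit 156) (nat_lit 380) (nat_lit 0) (XT.nd (nat_lit 78) (nat_lit 0) (nat_lit 76) (XT.lf (nat_lit 76) (nat_lit 2229772035904) (nat_lit 0) (nat_lit 2424773331338) (nat_lit 532) (nat_lit 773366167818)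 (nat_lit 62) (nat_lit 5) (nat_lit 61) (nat_lit 3) (nat_lit 68) (nat_lit 5) (nat_lit 434) (nat_lit 433) (nat_lit 153)) (XT.lf (nat_lit 0) (nat_lit 4918779475946) (nat_lit 456) (nat_lit 560042995422) (nat_lit 532) (nat_lit 168884841824) (nat_lit 62) (nat_lit 5) (nat_lit 68) (nat_lit 5) (nat_lit 69) (nat_lit 5) (nat_lit 435) (nat_lit 433) (nat_lit 152))) (XT.nd (nat_lit 78) (nat_lit 456) (nat_lit 0) (XT.lf (nat_lit 76) (nat_lit 2343343642585) (nat_lit 0) (nat_lit 2980147267004) (nat_lit 532) (nat_lit 552048756287) (nat_lit 63) (nat_lit 5) (nat_lit 62) (nat_lit 5) (nat_lit 69) (nat_lit 5) (nat_lit 436) (nat_lit 433) (nat_lit 151)) (XT.nd (nat_lit 78) (nat_lit 456) (nat_lit 0) (XT.lf (nat_lit 76) (nat_lit 5510851352889) (nat_lit 0) (nat_lit 265040472814) (nat_lit 532) (nat_lit 344481775648) (nat_lit 63) (nat_lit 5) (nat_lit 62) (nat_lit 5) (nat_lit 69) (nat_lit 5) (nat_lit 437) (nat_lit 433)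 (nat_lit 150)) (XT.lf (nat_lit 0) (nat_lit 16011899366) (nat_lit 532) (nat_lit 3761481115199) (nat_lit 608) (nat_lit 2597108475034) (nat_lit 56) (nat_lit 5) (nat_lit 63) (nat_lit 5) (nat_lit 64) (nat_lit 5) (nat_lit 438) (nat_lit 433) (nat_lit 149)))))) (XT.nd (nat_lit 52806) (nat_lit 0) (nat_lit 304) (XT.nd (nat_lit 156) (nat_lit 304) (nat_lit 0) (XT.nd (nat_lit 78) (nat_lit 0) (nat_lit 76) (XT.lf (nat_lit 0) (nat_lit 410716559320) (nat_lit 532) (nat_lit 535860512857) (nat_lit 608) (nat_lit 5699956134093) (nat_lit 56) (nat_lit 5) (nat_lit 63) (nat_lit 5) (nat_lit 64) (nat_lit 5) (nat_lit 439) (nat_lit 433) (nat_lit 148)) (XT.lf (nat_lit 0) (nat_lit 964329161465) (nat_lit 532) (nat_lit 3883916513305) (nat_lit 76) (nat_lit 2081787259953) (nat_lit 57) (nat_lit 5) (nat_lit 64) (nat_lit 5) (nat_lit 58) (nat_lit 5) (nat_lit 440) (nat_lit 433) (nat_lit 147))) (XT.nd (nat_lit 78) (nat_lit 380)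 (nat_lit 0) (XT.lf (nat_lit 0) (nat_lit 1601849120359) (nat_lit 532) (nat_lit 314881131577) (nat_lit 76) (nat_lit 5316312921629) (nat_lit 57) (nat_lit 5) (nat_lit 64) (nat_lit 5) (nat_lit 58) (nat_lit 5) (nat_lit 441) (nat_lit 433) (nat_lit 146)) (XT.nd (nat_lit 52494) (nat_lit 0) (nat_lit 684) (XT.lf (nat_lit 0) (nat_lit 2412356189332) (nat_lit 456) (nat_lit 3859428498038) (nat_lit 76) (nat_lit 1278750703075) (nat_lit 52) (nat_lit 5) (nat_lit 58) (nat_lit 5) (nat_lit 53) (nat_lit 5) (nat_lit 442) (nat_lit 433) (nat_lit 145)) (XT.lf (nat_lit 0) (nat_lit 2388938866332) (nat_lit 532) (nat_lit 215813679871) (nat_lit 532) (nat_lit 215813679871) (nat_lit 61) (nat_lit 3) (nat_lit 68) (nat_lit 3) (nat_lit 68) (nat_lit 5) (nat_lit 434) (nat_lit 434) (nat_lit 152))))) (XT.nd (nat_lit 156) (nat_lit 380) (nat_lit 0) (XT.nd (nat_lit 78) (nat_lit 0) (nat_lit 76) (XT.lf (nat_lit 76) (nat_lit 2408153801077)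 (nat_lit 0) (nat_lit 2618755199643) (nat_lit 532) (nat_lit 835235456813) (nat_lit 62) (nat_lit 5) (nat_lit 61) (nat_lit 3) (nat_lit 68) (nat_lit 5) (nat_lit 435) (nat_lit 434) (nat_lit 151)) (XT.lf (nat_lit 0) (nat_lit 5312281837777) (nat_lit 456) (nat_lit 604846432577) (nat_lit 532) (nat_lit 182395627589) (nat_lit 62) (nat_lit 5) (nat_lit 68) (nat_lit 5) (nat_lit 69) (nat_lit 5) (nat_lit 436) (nat_lit 434) (nat_lit 150))) (XT.nd (nat_lit 78) (nat_lit 456) (nat_lit 0) (XT.lf (nat_lit 76) (nat_lit 2530811136407) (nat_lit 0) (nat_lit 3218559049483) (nat_lit 532) (nat_lit 596212652968) (nat_lit 63) (nat_lit 5) (nat_lit 62) (nat_lit 5) (nat_lit 69) (nat_lit 5) (nat_lit 437) (nat_lit 434) (nat_lit 149)) (XT.nd (nat_lit 78) (nat_lit 456) (nat_lit 0) (XT.lf (nat_lit 76) (nat_lit 5951719463357) (nat_lit 0) (nat_lit 286243711675) (nat_lit 532) (nat_lit 372040314161) (nat_lit 63) (nat_lit 5) (nat_lit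 62) (nat_lit 5) (nat_lit 69) (nat_lit 5) (nat_lit 438) (nat_lit 434) (nat_lit 148)) (XT.lf (nat_lit 0) (nat_lit 17292854465) (nat_lit 532) (nat_lit 4062399601783) (nat_lit 608) (nat_lit 2804877152265) (nat_lit 56) (nat_lit 5) (nat_lit 63) (nat_lit 5) (nat_lit 64) (nat_lit 5) (nat_lit 439) (nat_lit 434) (nat_lit 147))))))) (XT.nd (nat_lit 106002) (nat_lit 0) (nat_lit 380) (XT.nd (nat_lit 52962) (nat_lit 0) (nat_lit 0) (XT.nd (nat_lit 52728) (nat_lit 0) (nat_lit 380) (XT.nd (nat_lit 78) (nat_lit 0) (nat_lit 76) (XT.lf (nat_lit 0) (nat_lit 443573886982) (nat_lit 532) (nat_lit 578729351448) (nat_lit 608) (nat_lit 6155952624106) (nat_lit 56) (nat_lit 5) (nat_lit 63) (nat_lit 5) (nat_lit 64) (nat_lit 5) (nat_lit 440) (nat_lit 434) (nat_lit 146)) (XT.lf (nat_lit 0) (nat_lit 1041475497131) (nat_lit 532) (nat_lit 4194629831761) (nat_lit 76) (nat_lit 2248330240387) (nat_lit 57) (nat_lit 5) (nat_lit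 64) (nat_lit 5) (nat_lit 58) (nat_lit 5) (nat_lit 441) (nat_lit 434) (nat_lit 145))) (XT.nd (nat_lit 78) (nat_lit 0) (nat_lit 0) (XT.lf (nat_lit 0) (nat_lit 2580053977510) (nat_lit 532) (nat_lit 233078773249) (nat_lit 532) (nat_lit 233078773249) (nat_lit 61) (nat_lit 3) (nat_lit 68) (nat_lit 3) (nat_lit 68) (nat_lit 5) (nat_lit 435) (nat_lit 435) (nat_lit 150)) (XT.nd (nat_lit 78) (nat_lit 0) (nat_lit 76) (XT.lf (nat_lit 76) (nat_lit 2600806107136) (nat_lit 0) (nat_lit 2828255617156) (nat_lit 532) (nat_lit 902054289559) (nat_lit 62) (nat_lit 5) (nat_lit 61) (nat_lit 3) (nat_lit 68) (nat_lit 5) (nat_lit 436) (nat_lit 435) (nat_lit 149)) (XT.lf (nat_lit 0) (nat_lit 5737264388018) (nat_lit 456) (nat_lit 653234145059) (nat_lit 532) (nat_lit 196987276440) (nat_lit 62) (nat_lit 5) (nat_lit 68) (nat_lit 5) (nat_lit 69) (nat_lit 5) (nat_lit 437) (nat_lit 435) (nat_lit 148))))) (XT.nd (nat_lit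 156) (nat_lit 456) (nat_lit 0) (XT.nd (nat_lit 78) (nat_lit 0) (nat_lit 0) (XT.lf (nat_lit 76) (nat_lit 2733276029391) (nat_lit 0) (nat_lit 3476043774401) (nat_lit 532) (nat_lit 643909661929) (nat_lit 63) (nat_lit 5) (nat_lit 62) (nat_lit 5) (nat_lit 69) (nat_lit 5) (nat_lit 438) (nat_lit 435) (nat_lit 147)) (XT.lf (nat_lit 76) (nat_lit 6427857022344) (nat_lit 0) (nat_lit 309143209498) (nat_lit 532) (nat_lit 401803536260) (nat_lit 63) (nat_lit 5) (nat_lit 62) (nat_lit 5) (nat_lit 69) (nat_lit 5) (nat_lit 439) (nat_lit 435) (nat_lit 146))) (XT.nd (nat_lit 78) (nat_lit 0) (nat_lit 0) (XT.lf (nat_lit 0) (nat_lit 18676285523) (nat_lit 532) (nat_lit 4387391567668) (nat_lit 608) (nat_lit 3029267323784) (nat_lit 56) (nat_lit 5) (nat_lit 63) (nat_lit 5) (nat_lit 64) (nat_lit 5) (nat_lit 440) (nat_lit 435) (nat_lit 145)) (XT.nd (nat_lit 52728) (nat_lit 0) (nat_lit 380) (XT.lf (nat_lit 0) (nat_lit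 479059800441) (nat_lit 532) (nat_lit 625027697474) (nat_lit 608) (nat_lit 6648428833421) (nat_lit 56) (nat_lit 5) (nat_lit 63) (nat_lit 5) (nat_lit 64) (nat_lit 5) (nat_lit 441) (nat_lit 435) (nat_lit 144)) (XT.lf (nat_lit 0) (nat_lit 2786458297316) (nat_lit 532) (nat_lit 251725074241) (nat_lit 532) (nat_lit 251725074241) (nat_lit 61) (nat_lit 3) (nat_lit 68) (nat_lit 3) (nat_lit 68) (nat_lit 5) (nat_lit 436) (nat_lit 436) (nat_lit 148)))))) (XT.nd (nat_lit 53196) (nat_lit 0) (nat_lit 0) (XT.nd (nat_lit 156) (nat_lit 0) (nat_lit 0) (XT.nd (nat_lit 78) (nat_lit 0) (nat_lit 76) (XT.lf (nat_lit 76) (nat_lit 2808870597398) (nat_lit 0) (nat_lit 3054516067849) (nat_lit 532) (nat_lit 974218629466) (nat_lit 62) (nat_lit 5) (nat_lit 61) (nat_lit 3) (nat_lit 68) (nat_lit 5) (nat_lit 437) (nat_lit 436) (nat_lit 147)) (XT.lf (nat_lit 0) (nat_lit 6196245541819) (nat_lit 456) (nat_lit 705492874842)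 (nat_lit 532) (nat_lit 212746257394) (nat_lit 62) (nat_lit 5) (nat_lit 68) (nat_lit 5) (nat_lit 69) (nat_lit 5) (nat_lit 438) (nat_lit 436) (nat_lit 146))) (XT.nd (nat_lit 78) (nat_lit 76) (nat_lit 0) (XT.lf (nat_lit 76) (nat_lit 2951938113518) (nat_lit 0) (nat_lit 3754127277176) (nat_lit 532) (nat_lit 695422432074) (nat_lit 63) (nat_lit 5) (nat_lit 62) (nat_lit 5) (nat_lit 69) (nat_lit 5) (nat_lit 439) (nat_lit 436) (nat_lit 145)) (XT.nd (nat_lit 52884) (nat_lit 76) (nat_lit 0) (XT.lf (nat_lit 76) (nat_lit 6942085585776) (nat_lit 0) (nat_lit 333874667019) (nat_lit 532) (nat_lit 433947816560) (nat_lit 63) (nat_lit 5) (nat_lit 62) (nat_lit 5) (nat_lit 69) (nat_lit 5) (nat_lit 440) (nat_lit 436) (nat_lit 144)) (XT.lf (nat_lit 0) (nat_lit 3009374962477) (nat_lit 532) (nat_lit 271863079437) (nat_lit 532) (nat_lit 271863079437) (nat_lit 61) (nat_lit 3) (nat_lit 68) (nat_lit 3) (nat_lit 68)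 (nat_lit 5) (nat_lit 437) (nat_lit 437) (nat_lit 146))))) (XT.nd (nat_lit 156) (nat_lit 0) (nat_lit 0) (XT.nd (nat_lit 78) (nat_lit 0) (nat_lit 76) (XT.lf (nat_lit 76) (nat_lit 3033580246640) (nat_lit 0) (nat_lit 3298877354410) (nat_lit 532) (nat_lit 1052156117031) (nat_lit 62) (nat_lit 5) (nat_lit 61) (nat_lit 3) (nat_lit 68) (nat_lit 5) (nat_lit 438) (nat_lit 437) (nat_lit 145)) (XT.lf (nat_lit 0) (nat_lit 6691945187531) (nat_lit 456) (nat_lit 761932303267) (nat_lit 532) (nat_lit 229765956989) (nat_lit 62) (nat_lit 5) (nat_lit 68) (nat_lit 5) (nat_lit 69) (nat_lit 5) (nat_lit 439) (nat_lit 437) (nat_lit 144))) (XT.nd (nat_lit 53040) (nat_lit 76) (nat_lit 0) (XT.lf (nat_lit 76) (nat_lit 3188093164122) (nat_lit 0) (nat_lit 4054457460055) (nat_lit 532) (nat_lit 751056224232) (nat_lit 63) (nat_lit 5) (nat_lit 62) (nat_lit 5) (nat_lit 69) (nat_lit 5) (nat_lit 440) (nat_lit 437) (nat_lit 143))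 (XT.nd (nat_lit 78) (nat_lit 0) (nat_lit 76) (XT.lf (nat_lit 76) (nat_lit 3276266667614) (nat_lit 0) (nat_lit 3562787543734) (nat_lit 532) (nat_lit 1136328604000) (nat_lit 62) (nat_lit 5) (nat_lit 61) (nat_lit 3) (nat_lit 68) (nat_lit 5) (nat_lit 439) (nat_lit 438) (nat_lit 143)) (XT.lf (nat_lit 0) (nat_lit 7227300804562) (nat_lit 456) (nat_lit 822886886189) (nat_lit 532) (nat_lit 248147232693) (nat_lit 62) (nat_lit 5) (nat_lit 68) (nat_lit 5) (nat_lit 69) (nat_lit 5) (nat_lit 440) (nat_lit 438) (nat_lit 142))))))))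

set_option maxRecDepth 10000000 in
noncomputable def Tp : PT := (PT.nd (nat_lit 9202518) (PT.nd (nat_lit 8725080) (PT.nd (nat_lit 8247096) pc0 pc1) (PT.nd (nat_lit 317772) pc2 pc3)) (PT.nd (nat_lit 264732) (PT.nd (nat_lit 107094) pc4 pc5) (PT.nd (nat_lit 214344) pc6 pc7)))

set_option maxRecDepth 10000000 in
noncomputable def Tx : XT := (XT.nd (nat_lit 14908920) (nat_lit 0) (nat_lit 76) XT.nil (XT.nd (nat_lit 8391162) (nat_lit 0) (nat_lit 0) (XT.nd (nat_lit 3768804) (nat_lit 0) (nat_lit 0) (XT.nd (nat_lit 2598726) (nat_lit 0) (nat_lit 0) (XT.nd (nat_lit 1804608) (nat_lit 0) (nat_lit 0) (XT.nd (nat_lit 1272648) (nat_lit 0) (nat_lit 0) (XT.nd (nat_lit 900666) (nat_lit 0) (nat_lit 0) (XT.nd (nat_lit 584376) (nat_lit 0) (nat_lit 0) (XT.nd (nat_lit 424086) (nat_lit 0) (nat_lit 0) (XT.nd (nat_lit 265434) (nat_lit 0) (nat_lit 0) xc0 xc1) (XT.nd (nat_lit 106002) (nat_lit 0) (nat_lit 0) xc2 xc3))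 (XT.nd (nat_lit 158808) (nat_lit 0) (nat_lit 0) (XT.nd (nat_lit 104988) (nat_lit 0) (nat_lit 0) xc4 xc5) (XT.nd (nat_lit 53664) (nat_lit 0) (nat_lit 0) xc6 xc7))) (XT.nd (nat_lit 211770) (nat_lit 0) (nat_lit 0) (XT.nd (nat_lit 106158) (nat_lit 0) (nat_lit 0) (XT.nd (nat_lit 53118) (nat_lit 0) (nat_lit 0) xc8 xc9) (XT.nd (nat_lit 52884) (nat_lit 0) (nat_lit 0) xc10 xc11)) (XT.nd (nat_lit 55536) (nat_lit 0) (nat_lit 0) (XT.nd (nat_lit 2964) (nat_lit 0) (nat_lit 0) xc12 xc13) (XT.nd (nat_lit 52416) (nat_lit 0) (nat_lit 0) xc14 xc15)))) (XT.nd (nat_lit 316212) (nat_lit 0) (nat_lit 0) (XT.nd (nat_lit 158808) (nat_lit 0) (nat_lit 0) (XT.nd (nat_lit 55068) (nat_lit 0) (nat_lit 0) (XT.nd (nat_lit 52026) (nat_lit 0) (nat_lit 0) xc16 xc17) (XT.nd (nat_lit 51948) (nat_lit 0) (nat_lit 0) xc18 xc19)) (XT.nd (nat_lit 54600) (nat_lit 0) (nat_lit 0) (XT.nd (nat_lit 51558) (nat_lit 0) (nat_lit 0) xc20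 xc21) (XT.nd (nat_lit 51480) (nat_lit 0) (nat_lit 0) xc22 xc23))) (XT.nd (nat_lit 108186) (nat_lit 0) (nat_lit 0) (XT.nd (nat_lit 54132) (nat_lit 0) (nat_lit 0) (XT.nd (nat_lit 2964) (nat_lit 0) (nat_lit 0) xc24 xc25) (XT.nd (nat_lit 3042) (nat_lit 0) (nat_lit 0) xc26 xc27)) (XT.nd (nat_lit 53820) (nat_lit 0) (nat_lit 0) (XT.nd (nat_lit 50778) (nat_lit 0) (nat_lit 0) xc28 xc29) (XT.nd (nat_lit 50700) (nat_lit 0) (nat_lit 0) xc30 xc31))))) (XT.nd (nat_lit 424632) (nat_lit 0) (nat_lit 0) (XT.nd (nat_lit 213564) (nat_lit 0) (nat_lit 0) (XT.nd (nat_lit 107094) (nat_lit 0) (nat_lit 0) (XT.nd (nat_lit 53586) (nat_lit 0) (nat_lit 0) (XT.nd (nat_lit 50544) (nat_lit 0) (nat_lit 0) xc32 xc33) (XT.nd (nat_lit 50466) (nat_lit 0) (nat_lit 0) xc34 xc35)) (XT.nd (nat_lit 53274) (nat_lit 0) (nat_lit 0) (XT.nd (nat_lit 50232) (nat_lit 0) (nat_lit 0) xc36 xc37) (XT.nd (nat_lit 50154) (nat_lit 0) (nat_lit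 0) xc38 xc39))) (XT.nd (nat_lit 105846) (nat_lit 0) (nat_lit 0) (XT.nd (nat_lit 52962) (nat_lit 0) (nat_lit 0) (XT.nd (nat_lit 49920) (nat_lit 0) (nat_lit 0) xc40 xc41) (XT.nd (nat_lit 49842) (nat_lit 0) (nat_lit 0) xc42 xc43)) (XT.nd (nat_lit 52650) (nat_lit 0) (nat_lit 0) (XT.nd (nat_lit 49608) (nat_lit 0) (nat_lit 0) xc44 xc45) (XT.nd (nat_lit 49530) (nat_lit 0) (nat_lit 0) xc46 xc47)))) (XT.nd (nat_lit 208572) (nat_lit 0) (nat_lit 0) (XT.nd (nat_lit 104598) (nat_lit 0) (nat_lit 0) (XT.nd (nat_lit 52338) (nat_lit 0) (nat_lit 0) (XT.nd (nat_lit 49296) (nat_lit 0) (nat_lit 0) xc48 xc49) (XT.nd (nat_lit 49218) (nat_lit 0) (nat_lit 0) xc50 xc51)) (XT.nd (nat_lit 52026) (nat_lit 0) (nat_lit 0) (XT.nd (nat_lit 2964) (nat_lit 0) (nat_lit 0) xc52 xc53) (XT.nd (nat_lit 3042) (nat_lit 0) (nat_lit 0) xc54 xc55))) (XT.nd (nat_lit 57798) (nat_lit 0) (nat_lit 0) (XT.nd (nat_lit 51714) (nat_lit 0)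 (nat_lit 0) (XT.nd (nat_lit 2964) (nat_lit 0) (nat_lit 0) xc56 xc57) (XT.nd (nat_lit 3042) (nat_lit 152) (nat_lit 0) xc58 xc59)) (XT.nd (nat_lit 51636) (nat_lit 0) (nat_lit 0) (XT.nd (nat_lit 48594) (nat_lit 0) (nat_lit 0) xc60 xc61) (XT.nd (nat_lit 48438) (nat_lit 0) (nat_lit 152) xc62 xc63)))))) (XT.nd (nat_lit 586326) (nat_lit 0) (nat_lit 0) (XT.nd (nat_lit 317616) (nat_lit 0) (nat_lit 0) (XT.nd (nat_lit 159432) (nat_lit 0) (nat_lit 0) (XT.nd (nat_lit 102414) (nat_lit 0) (nat_lit 0) (XT.nd (nat_lit 51246) (nat_lit 0) (nat_lit 0) (XT.nd (nat_lit 2964) (nat_lit 0) (nat_lit 0) xc64 xc65) (XT.nd (nat_lit 3042) (nat_lit 0) (nat_lit 0) xc66 xc67)) (XT.nd (nat_lit 6006) (nat_lit 0) (nat_lit 0) (XT.nd (nat_lit 2964) (nat_lit 380) (nat_lit 0) xc68 xc69) (XT.nd (nat_lit 47970) (nat_lit 0) (nat_lit 152) xc70 xc71))) (XT.nd (nat_lit 56862) (nat_lit 0) (nat_lit 0) (XT.nd (nat_lit 50778) (nat_lit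 0) (nat_lit 0) (XT.nd (nat_lit 2964) (nat_lit 0) (nat_lit 0) xc72 xc73) (XT.nd (nat_lit 3042) (nat_lit 0) (nat_lit 0) xc74 xc75)) (XT.nd (nat_lit 50700) (nat_lit 0) (nat_lit 0) (XT.nd (nat_lit 47658) (nat_lit 0) (nat_lit 0) xc76 xc77) (XT.nd (nat_lit 47580) (nat_lit 0) (nat_lit 456) xc78 xc79)))) (XT.nd (nat_lit 156858) (nat_lit 0) (nat_lit 0) (XT.nd (nat_lit 56472) (nat_lit 0) (nat_lit 0) (XT.nd (nat_lit 50388) (nat_lit 0) (nat_lit 0) (XT.nd (nat_lit 2964) (nat_lit 0) (nat_lit 0) xc80 xc81) (XT.nd (nat_lit 3042) (nat_lit 380) (nat_lit 0) xc82 xc83)) (XT.nd (nat_lit 50232) (nat_lit 0) (nat_lit 0) (XT.nd (nat_lit 47190) (nat_lit 0) (nat_lit 380) xc84 xc85) (XT.nd (nat_lit 3042) (nat_lit 0) (nat_lit 0) xc86 xc87))) (XT.nd (nat_lit 56004) (nat_lit 0) (nat_lit 0) (XT.nd (nat_lit 6006) (nat_lit 0) (nat_lit 0) (XT.nd (nat_lit 2964) (nat_lit 380) (nat_lit 0) xc88 xc89) (XT.nd (nat_lit 46956)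 (nat_lit 0) (nat_lit 456) xc90 xc91)) (XT.nd (nat_lit 49764) (nat_lit 0) (nat_lit 0) (XT.nd (nat_lit 2964) (nat_lit 0) (nat_lit 0) xc92 xc93) (XT.nd (nat_lit 3042) (nat_lit 608) (nat_lit 0) xc94 xc95))))) (XT.nd (nat_lit 312624) (nat_lit 0) (nat_lit 0) (XT.nd (nat_lit 155922) (nat_lit 0) (nat_lit 0) (XT.nd (nat_lit 99840) (nat_lit 0) (nat_lit 0) (XT.nd (nat_lit 49842) (nat_lit 0) (nat_lit 0) (XT.nd (nat_lit 46800) (nat_lit 0) (nat_lit 684) xc96 xc97) (XT.nd (nat_lit 3042) (nat_lit 0) (nat_lit 0) xc98 xc99)) (XT.nd (nat_lit 6006) (nat_lit 0) (nat_lit 0) (XT.nd (nat_lit 2964) (nat_lit 912) (nat_lit 0) xc100 xc101) (XT.nd (nat_lit 47034) (nat_lit 0) (nat_lit 912) xc102 xc103))) (XT.nd (nat_lit 56160) (nat_lit 0) (nat_lit 0) (XT.nd (nat_lit 50076) (nat_lit 0) (nat_lit 0) (XT.nd (nat_lit 2964) (nat_lit 0) (nat_lit 0) xc104 xc105) (XT.nd (nat_lit 3042) (nat_lit 912) (nat_lit 0) xc106 xc107))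 (XT.nd (nat_lit 50154) (nat_lit 0) (nat_lit 0) (XT.nd (nat_lit 47112) (nat_lit 0) (nat_lit 912) xc108 xc109) (XT.nd (nat_lit 3042) (nat_lit 0) (nat_lit 0) xc110 xc111)))) (XT.nd (nat_lit 113022) (nat_lit 0) (nat_lit 0) (XT.nd (nat_lit 56472) (nat_lit 0) (nat_lit 0) (XT.nd (nat_lit 6006) (nat_lit 0) (nat_lit 0) (XT.nd (nat_lit 2964) (nat_lit 912) (nat_lit 0) xc112 xc113) (XT.nd (nat_lit 47424) (nat_lit 0) (nat_lit 684) xc114 xc115)) (XT.nd (nat_lit 50466) (nat_lit 0) (nat_lit 0) (XT.nd (nat_lit 2964) (nat_lit 0) (nat_lit 0) xc116 xc117) (XT.nd (nat_lit 3042) (nat_lit 608) (nat_lit 0) xc118 xc119))) (XT.nd (nat_lit 101244) (nat_lit 0) (nat_lit 0) (XT.nd (nat_lit 50544) (nat_lit 0) (nat_lit 0) (XT.nd (nat_lit 47502) (nat_lit 0) (nat_lit 456) xc120 xc121) (XT.nd (nat_lit 3042) (nat_lit 0) (nat_lit 0) xc122 xc123)) (XT.nd (nat_lit 6084) (nat_lit 0) (nat_lit 0) (XT.nd (nat_lit 3042) (nat_lit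 228) (nat_lit 0) xc124 xc125) (XT.nd (nat_lit 47736) (nat_lit 0) (nat_lit 152) xc126 xc127))))))) (XT.nd (nat_lit 1432626) (nat_lit 0) (nat_lit 152) (XT.nd (nat_lit 639522) (nat_lit 0) (nat_lit 0) (XT.nd (nat_lit 318162) (nat_lit 0) (nat_lit 0) (XT.nd (nat_lit 158730) (nat_lit 0) (nat_lit 0) (XT.nd (nat_lit 101712) (nat_lit 0) (nat_lit 0) (XT.nd (nat_lit 50778) (nat_lit 0) (nat_lit 0) (XT.nd (nat_lit 47736) (nat_lit 0) (nat_lit 988) xc128 xc129) (XT.nd (nat_lit 3042) (nat_lit 152) (nat_lit 0) xc130 xc131)) (XT.nd (nat_lit 6006) (nat_lit 0) (nat_lit 0) (XT.nd (nat_lit 2964) (nat_lit 608) (nat_lit 0) xc132 xc133) (XT.nd (nat_lit 47970) (nat_lit 0) (nat_lit 380) xc134 xc135))) (XT.nd (nat_lit 102180) (nat_lit 0) (nat_lit 0) (XT.nd (nat_lit 51012) (nat_lit 0) (nat_lit 0) (XT.nd (nat_lit 2964) (nat_lit 0) (nat_lit 0) xc136 xc137) (XT.nd (nat_lit 3042) (nat_lit 152) (nat_lit 0) xc138 xc139))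 (XT.nd (nat_lit 6006) (nat_lit 0) (nat_lit 0) (XT.nd (nat_lit 2964) (nat_lit 836) (nat_lit 0) xc140 xc141) (XT.nd (nat_lit 48204) (nat_lit 0) (nat_lit 380) xc142 xc143)))) (XT.nd (nat_lit 160290) (nat_lit 0) (nat_lit 0) (XT.nd (nat_lit 102726) (nat_lit 0) (nat_lit 0) (XT.nd (nat_lit 51246) (nat_lit 0) (nat_lit 0) (XT.nd (nat_lit 2964) (nat_lit 0) (nat_lit 0) xc144 xc145) (XT.nd (nat_lit 3042) (nat_lit 152) (nat_lit 0) xc146 xc147)) (XT.nd (nat_lit 6006) (nat_lit 0) (nat_lit 0) (XT.nd (nat_lit 2964) (nat_lit 608) (nat_lit 0) xc148 xc149) (XT.nd (nat_lit 48516) (nat_lit 0) (nat_lit 228) xc150 xc151))) (XT.nd (nat_lit 103272) (nat_lit 0) (nat_lit 0) (XT.nd (nat_lit 51558) (nat_lit 0) (nat_lit 0) (XT.nd (nat_lit 48516) (nat_lit 0) (nat_lit 684) xc152 xc153) (XT.nd (nat_lit 3042) (nat_lit 0) (nat_lit 0) xc154 xc155)) (XT.nd (nat_lit 51714) (nat_lit 0) (nat_lit 0) (XT.nd (nat_lit 2964) (nat_lit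 228) (nat_lit 0) xc156 xc157) (XT.nd (nat_lit 3042) (nat_lit 684) (nat_lit 0) xc158 xc159))))) (XT.nd (nat_lit 370812) (nat_lit 0) (nat_lit 0) (XT.nd (nat_lit 207870) (nat_lit 0) (nat_lit 0) (XT.nd (nat_lit 103740) (nat_lit 0) (nat_lit 0) (XT.nd (nat_lit 51792) (nat_lit 0) (nat_lit 0) (XT.nd (nat_lit 48750) (nat_lit 0) (nat_lit 152) xc160 xc161) (XT.nd (nat_lit 48906) (nat_lit 0) (nat_lit 532) xc162 xc163)) (XT.nd (nat_lit 51948) (nat_lit 0) (nat_lit 0) (XT.nd (nat_lit 48906) (nat_lit 0) (nat_lit 1216) xc164 xc165) (XT.nd (nat_lit 3042) (nat_lit 152) (nat_lit 0) xc166 xc167))) (XT.nd (nat_lit 104520) (nat_lit 0) (nat_lit 0) (XT.nd (nat_lit 52182) (nat_lit 0) (nat_lit 0) (XT.nd (nat_lit 2964) (nat_lit 228) (nat_lit 0) xc168 xc169) (XT.nd (nat_lit 3042) (nat_lit 608) (nat_lit 0) xc170 xc171)) (XT.nd (nat_lit 6006) (nat_lit 152) (nat_lit 0) (XT.nd (nat_lit 2964) (nat_lit 988) (nat_lit 0)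 xc172 xc173) (XT.nd (nat_lit 49374) (nat_lit 0) (nat_lit 228) xc174 xc175)))) (XT.nd (nat_lit 210366) (nat_lit 0) (nat_lit 152) (XT.nd (nat_lit 104988) (nat_lit 0) (nat_lit 0) (XT.nd (nat_lit 52416) (nat_lit 0) (nat_lit 0) (XT.nd (nat_lit 49374) (nat_lit 0) (nat_lit 456) xc176 xc177) (XT.nd (nat_lit 49530) (nat_lit 0) (nat_lit 684) xc178 xc179)) (XT.nd (nat_lit 52572) (nat_lit 0) (nat_lit 152) (XT.nd (nat_lit 49530) (nat_lit 0) (nat_lit 988) xc180 xc181) (XT.nd (nat_lit 49764) (nat_lit 0) (nat_lit 1064) xc182 xc183))) (XT.nd (nat_lit 105768) (nat_lit 0) (nat_lit 0) (XT.nd (nat_lit 52806) (nat_lit 0) (nat_lit 0) (XT.nd (nat_lit 2964) (nat_lit 0) (nat_lit 0) xc184 xc185) (XT.nd (nat_lit 3042) (nat_lit 0) (nat_lit 0) xc186 xc187)) (XT.nd (nat_lit 53040) (nat_lit 0) (nat_lit 0) (XT.nd (nat_lit 3042) (nat_lit 76) (nat_lit 0) xc188 xc189) (XT.nd (nat_lit 3042) (nat_lit 76) (nat_lit 0) xc190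 xc191)))))) (XT.nd (nat_lit 959322) (nat_lit 0) (nat_lit 380) (XT.nd (nat_lit 428142) (nat_lit 0) (nat_lit 76) (XT.nd (nat_lit 213330) (nat_lit 0) (nat_lit 0) (XT.nd (nat_lit 106470) (nat_lit 0) (nat_lit 0) (XT.nd (nat_lit 53118) (nat_lit 0) (nat_lit 0) (XT.nd (nat_lit 2964) (nat_lit 76) (nat_lit 0) xc192 xc193) (XT.nd (nat_lit 3042) (nat_lit 76) (nat_lit 0) xc194 xc195)) (XT.nd (nat_lit 53352) (nat_lit 0) (nat_lit 0) (XT.nd (nat_lit 2964) (nat_lit 76) (nat_lit 0) xc196 xc197) (XT.nd (nat_lit 3042) (nat_lit 76) (nat_lit 0) xc198 xc199))) (XT.nd (nat_lit 107172) (nat_lit 0) (nat_lit 76) (XT.nd (nat_lit 53508) (nat_lit 0) (nat_lit 76) (XT.nd (nat_lit 50466) (nat_lit 0) (nat_lit 1064) xc200 xc201) (XT.nd (nat_lit 50622) (nat_lit 0) (nat_lit 684) xc202 xc203)) (XT.nd (nat_lit 53742) (nat_lit 0) (nat_lit 0) (XT.nd (nat_lit 50700) (nat_lit 0) (nat_lit 456) xc204 xc205) (XT.nd (nat_lit 50856)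 (nat_lit 0) (nat_lit 152) xc206 xc207)))) (XT.nd (nat_lit 264420) (nat_lit 0) (nat_lit 152) (XT.nd (nat_lit 156000) (nat_lit 0) (nat_lit 152) (XT.nd (nat_lit 101868) (nat_lit 0) (nat_lit 0) (XT.nd (nat_lit 50856) (nat_lit 0) (nat_lit 0) xc208 xc209) (XT.nd (nat_lit 3042) (nat_lit 912) (nat_lit 0) xc210 xc211)) (XT.nd (nat_lit 54132) (nat_lit 0) (nat_lit 0) (XT.nd (nat_lit 2964) (nat_lit 228) (nat_lit 0) xc212 xc213) (XT.nd (nat_lit 51246) (nat_lit 0) (nat_lit 760) xc214 xc215))) (XT.nd (nat_lit 157404) (nat_lit 0) (nat_lit 76) (XT.nd (nat_lit 54366) (nat_lit 0) (nat_lit 76) (XT.nd (nat_lit 51324) (nat_lit 0) (nat_lit 152) xc216 xc217) (XT.nd (nat_lit 51480) (nat_lit 0) (nat_lit 0) xc218 xc219)) (XT.nd (nat_lit 54600) (nat_lit 0) (nat_lit 0) (XT.nd (nat_lit 2964) (nat_lit 228) (nat_lit 0) xc220 xc221) (XT.nd (nat_lit 51714) (nat_lit 0) (nat_lit 228) xc222 xc223))))) (XT.nd (nat_lit 689520)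 (nat_lit 0) (nat_lit 684) (XT.nd (nat_lit 318084) (nat_lit 0) (nat_lit 228) (XT.nd (nat_lit 158574) (nat_lit 0) (nat_lit 152) (XT.nd (nat_lit 103584) (nat_lit 0) (nat_lit 76) (XT.nd (nat_lit 51714) (nat_lit 0) (nat_lit 76) xc224 xc225) (XT.nd (nat_lit 51948) (nat_lit 0) (nat_lit 684) xc226 xc227)) (XT.nd (nat_lit 104208) (nat_lit 0) (nat_lit 0) (XT.nd (nat_lit 52026) (nat_lit 0) (nat_lit 0) xc228 xc229) (XT.nd (nat_lit 3042) (nat_lit 76) (nat_lit 0) xc230 xc231))) (XT.nd (nat_lit 209898) (nat_lit 0) (nat_lit 228) (XT.nd (nat_lit 104676) (nat_lit 0) (nat_lit 152) (XT.nd (nat_lit 52260) (nat_lit 0) (nat_lit 76) xc232 xc233) (XT.nd (nat_lit 52572) (nat_lit 0) (nat_lit 0) xc234 xc235)) (XT.nd (nat_lit 55692) (nat_lit 0) (nat_lit 152) (XT.nd (nat_lit 2964) (nat_lit 304) (nat_lit 0) xc236 xc237) (XT.nd (nat_lit 52884) (nat_lit 0) (nat_lit 0) xc238 xc239)))) (XT.nd (nat_lit 478140) (nat_lit 0)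 (nat_lit 760) (XT.nd (nat_lit 212784) (nat_lit 0) (nat_lit 304) (XT.nd (nat_lit 106158) (nat_lit 0) (nat_lit 152) (XT.nd (nat_lit 52962) (nat_lit 0) (nat_lit 76) xc240 xc241) (XT.nd (nat_lit 53274) (nat_lit 0) (nat_lit 0) xc242 xc243)) (XT.nd (nat_lit 157638) (nat_lit 0) (nat_lit 304) (XT.nd (nat_lit 53430) (nat_lit 0) (nat_lit 76) xc244 xc245) (XT.nd (nat_lit 53820) (nat_lit 0) (nat_lit 76) xc246 xc247))) (XT.nd (nat_lit 371124) (nat_lit 0) (nat_lit 836) (XT.nd (nat_lit 159276) (nat_lit 0) (nat_lit 304) (XT.nd (nat_lit 105066) (nat_lit 0) (nat_lit 228) xc248 xc249) (XT.nd (nat_lit 105690) (nat_lit 0) (nat_lit 152) xc250 xc251)) (XT.nd (nat_lit 213330) (nat_lit 0) (nat_lit 456) (XT.nd (nat_lit 106470) (nat_lit 0) (nat_lit 152) xc252 xc253) (XT.nd (nat_lit 159510) (nat_lit 0) (nat_lit 380) xc254 xc255)))))))) XT.nil))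

set_option maxRecDepth 10000000 in
noncomputable def Te : XT := XT.nil

set_option maxRecDepth 10000000 in
noncomputable def Tz : ZL := (ZL.cons (nat_lit 76) (nat_lit 6) (nat_lit 286428944479504615158) (ZL.cons (nat_lit 152) (nat_lit 6) (nat_lit 276516968471012785456) (ZL.cons (nat_lit 228) (nat_lit 3) (nat_lit 137854020317728519404) (ZL.cons (nat_lit 304) (nat_lit 6) (nat_lit 265812034381841609378) (ZL.cons (nat_lit 380) (nat_lit 6) (nat_lit 256682282718636902094) (ZL.cons (nat_lit 456) (nat_lit 3) (nat_lit 127966637731746346119) (ZL.cons (nat_lit 532) (nat_lit 6) (nat_lit 246822150922375818230) (ZL.cons (nat_lit 608) (nat_lit 6) (nat_lit 238424668909358442916) (ZL.cons (nat_lit 684) (nat_lit 3) (nat_lit 118865571836556902079) (ZL.cons (nat_lit 760) (nat_lit 6) (nat_lit 229355388335299677578) (ZL.cons (nat_lit 836) (nat_lit 6) (nat_lit 221645250803227873292) (ZL.cons (nat_lit 912) (nat_lit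 3) (nat_lit 110501548903352529814) (ZL.cons (nat_lit 988) (nat_lit 6) (nat_lit 213318302268590324664) (ZL.cons (nat_lit 1064) (nat_lit 6) (nat_lit 206255462191840718698) (ZL.cons (nat_lit 1140) (nat_lit 3) (nat_lit 102830438041974612283) (ZL.cons (nat_lit 1216) (nat_lit 6) (nat_lit 198627594908951144256) (ZL.cons (nat_lit 1292) (nat_lit 6) (nat_lit 192176780040336835856) (ZL.cons (nat_lit 1368) (nat_lit 3) (nat_lit 95813118673922355828) (ZL.cons (nat_lit 1444) (nat_lit 6) (nat_lit 185209899982233382782) (ZL.cons (nat_lit 1520) (nat_lit 6) (nat_lit 179340560072172794198) (ZL.cons (nat_lit 1596) (nat_lit 3) (nat_lit 89415399159932635897) (ZL.cons (nat_lit 1672) (nat_lit 6) (nat_lit 173001672969307358530) (ZL.cons (nat_lit 1748) (nat_lit 6) (nat_lit 167687980965519299798) (ZL.cons (nat_lit 1824) (nat_lit 3) (nat_lit 83607989671506167304) (ZL.cons (nat_lit 1900) (nat_lit 6) (nat_lit 162858233763293462662)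 (ZL.cons (nat_lit 1976) (nat_lit 6) (nat_lit 161949193601428196370) (ZL.cons (nat_lit 2052) (nat_lit 6) (nat_lit 157170105162382593364) (ZL.cons (nat_lit 2128) (nat_lit 3) (nat_lit 78366533311512146131) (ZL.cons (nat_lit 2204) (nat_lit 6) (nat_lit 152850393501792292390) (ZL.cons (nat_lit 2280) (nat_lit 6) (nat_lit 152008689648213342118) (ZL.cons (nat_lit 2356) (nat_lit 6) (nat_lit 147748066368996466234) (ZL.cons (nat_lit 2432) (nat_lit 3) (nat_lit 73671700527387908532) (ZL.cons (nat_lit 2508) (nat_lit 6) (nat_lit 143925948647422749786) (ZL.cons (nat_lit 2584) (nat_lit 6) (nat_lit 143146593227442240276) (ZL.cons (nat_lit 2660) (nat_lit 6) (nat_lit 140519686896993978162) (ZL.cons (nat_lit 2736) (nat_lit 6) (nat_lit 139393396193902486856) (ZL.cons (nat_lit 2812) (nat_lit 3) (nat_lit 69509353044071313258) (ZL.cons (nat_lit 2888) (nat_lit 6) (nat_lit 136061568786550395298) (ZL.cons (nat_lit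 2964) (nat_lit 6) (nat_lit 135339943397679553162) (ZL.cons (nat_lit 3040) (nat_lit 6) (nat_lit 133131366842972027286) (ZL.cons (nat_lit 3116) (nat_lit 6) (nat_lit 132088505080850276076) (ZL.cons (nat_lit 3192) (nat_lit 3) (nat_lit 65870784898869647140) (ZL.cons (nat_lit 3268) (nat_lit 6) (nat_lit 130585426203501733230) (ZL.cons (nat_lit 3344) (nat_lit 6) (nat_lit 129245123355036547696) (ZL.cons (nat_lit 3420) (nat_lit 6) (nat_lit 128576951698674656826) (ZL.cons (nat_lit 3496) (nat_lit 6) (nat_lit 126792948550752064442) (ZL.cons (nat_lit 3572) (nat_lit 6) (nat_lit 125827335808046739248) (ZL.cons (nat_lit 3648) (nat_lit 3) (nat_lit 62753049717397915087) (ZL.cons (nat_lit 3724) (nat_lit 6) (nat_lit 124717449261749214560) (ZL.cons (nat_lit 3800) (nat_lit 6) (nat_lit 123476428105762931658) (ZL.cons (nat_lit 3876) (nat_lit 6) (nat_lit 122857750646168588260) (ZL.cons (nat_lit 3952) (nat_lit 6)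 (nat_lit 123006326232982055240) (ZL.cons (nat_lit 4028) (nat_lit 6) (nat_lit 121510297286920811494) (ZL.cons (nat_lit 4104) (nat_lit 6) (nat_lit 120616211414045510388) (ZL.cons (nat_lit 4180) (nat_lit 3) (nat_lit 60159385163851038032) (ZL.cons (nat_lit 4256) (nat_lit 6) (nat_lit 120638748180787984178) (ZL.cons (nat_lit 4332) (nat_lit 6) (nat_lit 121649439476131966276) (ZL.cons (nat_lit 4408) (nat_lit 6) (nat_lit 119917292205927240270) (ZL.cons (nat_lit 4484) (nat_lit 6) (nat_lit 118768198542976978320) (ZL.cons (nat_lit 4560) (nat_lit 6) (nat_lit 118195349043352586288) (ZL.cons (nat_lit 4636) (nat_lit 3) (nat_lit 58559904887605864442) (ZL.cons (nat_lit 4712) (nat_lit 6) (nat_lit 117293363792249457920) (ZL.cons (nat_lit 4788) (nat_lit 6) (nat_lit 117815054311611757506) (ZL.cons (nat_lit 4864) (nat_lit 6) (nat_lit 118687972832672626450) (ZL.cons (nat_lit 4940) (nat_lit 6) (nat_lit 117302760845578882240)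 (ZL.cons (nat_lit 5016) (nat_lit 6) (nat_lit 116474903555879529364) (ZL.cons (nat_lit 5092) (nat_lit 3) (nat_lit 58099747571299285828) (ZL.cons (nat_lit 5168) (nat_lit 6) (nat_lit 115126097966333798438) (ZL.cons (nat_lit 5244) (nat_lit 6) (nat_lit 115487090321772274838) (ZL.cons (nat_lit 5320) (nat_lit 6) (nat_lit 116211214246607381574) (ZL.cons (nat_lit 5396) (nat_lit 6) (nat_lit 115147238632764546438) (ZL.cons (nat_lit 5472) (nat_lit 6) (nat_lit 114616822429408627886) (ZL.cons (nat_lit 5548) (nat_lit 3) (nat_lit 56726811265353388533) (ZL.cons (nat_lit 5624) (nat_lit 6) (nat_lit 113641060869107524430) (ZL.cons (nat_lit 5700) (nat_lit 6) (nat_lit 114204486630018807980) (ZL.cons (nat_lit 5776) (nat_lit 6) (nat_lit 113437952102519407168) (ZL.cons (nat_lit 5852) (nat_lit 3) (nat_lit 56591472156222223162) (ZL.cons (nat_lit 5928) (nat_lit 6) (nat_lit 112266026519823937382) (ZL.cons (nat_lit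 6004) (nat_lit 6) (nat_lit 112655898263697491896) (ZL.cons (nat_lit 6080) (nat_lit 6) (nat_lit 112164772149479048792) (ZL.cons (nat_lit 6156) (nat_lit 3) (nat_lit 55676919461111027703) (ZL.cons (nat_lit 6232) (nat_lit 6) (nat_lit 111556272327694862556) (ZL.cons (nat_lit 6308) (nat_lit 3) (nat_lit 55660077001775690148) (ZL.cons (nat_lit 6384) (nat_lit 6) (nat_lit 110899092520167941424) (ZL.cons (nat_lit 6460) (nat_lit 1) (nat_lit 18446744073709551617) ZL.nil)))))))))))))))))))))))))))))))))))))))))))))))))))))))))))))))))))))))))))))))))))))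

noncomputable def vl : XL := ⟨(nat_lit 0), (nat_lit 76), (nat_lit 151173105), (nat_lit 228), (nat_lit 116940868), (nat_lit 76), (nat_lit 151173105), (nat_lit 1), (nat_lit 5), (nat_lit 3), (nat_lit 4), (nat_lit 1), (nat_lit 4), (nat_lit 0), (nat_lit 0), (nat_lit 0)⟩

noncomputable def cp0 : Nat := (nat_lit 2141496156297533689595565976300583490877842857839955195342093537115771578454606028807059583030732335545148839206748912399621626157374298788810459471561011008155076469152008023181510459593644260831980456770344634788095641878239997821991823242925258400675917615991411899953945112600691673824366461771332533405593776510577481834536983218327348541922005891775743044437411758098138794109047174344083741954481101243342074255017306973593405478891839473145054902781000887616508913046166139986767008862600744506935174715718430386807898868654568855066390089256429020314644851461932366530061719540774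8751020870531084961529630281965874744563831993040274005884367275767664156522829826091663001911287626025817615073020975350152918958429305409494704255314121184945153416369644685379399718331159638793625918721668596040616619485512896367458400402740090887279616596993832188396964123565329608703122439270146925535770480373576291735332867350872733349480487341337380221810302257426785954868164604770789083573617717922164319977836992016942848510893597747984297847287080056543822105763363780561378144630020903372413847681729590912005509058167404041786468072223167810585389232321936055438003240986327254577850859873532655874690482361295789037088373343255657712572969765114917049432187398449470217684202959856187378759102300699880331250984111287130397728200814813408337836343011373546100508501981194424590895183539914469935843355592664378082644320049195494879770107744844835061875234507681905195738587183203788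871403445296054356155324260411043468086068037522684193274024386193696569924327512659389490213537377739721635741700887523096040862488769492298303322705777683503259194701236160652017227810695064226918406399890374493165055854306651595076981976927850379922927849074812314401573301336528849553766355958131951723554962640498935974039278231924869181573372146694061651221071515950537730898752415969388380672407924450462536512981136937311784801129235758587744651660610124058523024228352)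

noncomputable def cp1 : Nat := (nat_lit 2376352482382067936264002907699529058798854215690693466029485062921252187986119273464115669525835163819891395274689779154524920664220562128045872929280359525519889445424720071290108945865056815919309214258784298379213983974275887209990807277252957334046673955749310792618000341889005843726694029191711646630389888540488881237425845349879682381507225139812723941730620097850055020897525719255656587835920259982577568997756266677920983360941927638046668053025592490105739932263750635550844753129223348367105645936536656920721940583654164694659077902085198110997809740367404837605820489559582229292342065090513872802931327945344763986519342846163336040452204278701840447216782113387134072229553695608819892781453575987173849269450062336500644706359964022832023381208934300590231552400291620095068097431801094026486361816470129844111829685564366698016522834179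0717624918462779820926464239218531482611296786049589754110727336259730027860484411740169681423417904001859898361514401979900943414423129635337519492923829129509452753051330570217121061109536804517071140494934722045026673082561659640247102714559920337800357858144309707417409562603464956367117501109917006463778133783143320133711629840682487720934391025654311209200542164170864284140441575782790078487701297428700725414939563213546758773972848099932613857290517754754606980830822156743368112893424392482872849595368063132889540752015287578304218511246548095833819334683785582006512883766605499876112097916194465539779950300768657812564573545489596888725183506545837466689347060220035401856788592279780134667763479798414708762979918308961155630956204685689889583315955435345286583644644235896685425856787820364875393088668085945020544072615537189528718710247487289444221843792923481566626801708029544410441634271046139036532058670610047574374104052647505847492861269233674568246534492192665064998024065313139491174807270070902757736159320148076649776750499005196734202022117308930473149281150678741029146853376)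

noncomputable def rc0 : Nat := (nat_lit 2233804620220556312193716494189660976852404288188380769906264993010703399417185361503204235013730716576063254099360971540574802913738930254958386330204285438899147937613153302153624716496471590726720235174073142603704679364645678535066065207268080480322226803073028497060788299326916594628471466290198644210155491096136856000828066778181092048625679210431661333068121884101948590377968705487747268105063331045834941979436348442293853944855759729058205641084902593438716726160721995193393567469945417862052792467697620881797978265839466593938355687491431317266599646744284914622167792037664722527745053674237018239405449268305805108737313576757976752076084205068353072867437857377407398134904205900615777423573731259870238312201452677936694708732681973207570323901583065024289006092668882418613853624398385846195029550527480064646258004725917681993571051145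5845165391502968616470894578442619383769201158900673616316884646147513630973240787801771658111152653570545484089501043529690941204505507295482417809336268481941051820359107088041380529506815770310362681910086501125927212290666984220715033570872871801051980427051802277142312630788882436801808404539563127117172225470814398275492827710877052683738410828264715775055158888512830417421330934575754527178772017494769442093384964783289725559967857595930532662399649472774351170155202664084481342700716619318770388542360800174519543875175358287632879531120654057315827812499687115674231167735282966506109038066631411307506498595504339859550412017822019153442970240019875157318086935120059230777093339283430609862529095239885709040568675363666075868717088025617062831428836884666265992128833231564120127376814810318796766870628423308816158338577036080917477557339458138019021119126338808406241634557150939234483342363609181639543524340644528614840056987306011094214838029245412535391166169368285492563272528754741529561457134900164423103812327441177051807549299728552408104687927385760847428530630346145529335906304)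

noncomputable def rc1 : Nat := (nat_lit 2376352482382067936264002907699529058798854215690693466029485062921252187986119273464115669525835163819891395274689779154524920664220562128045872929280359525519889445424720071290108945865056815919309214258784298379213983974275887209990807277252957334046673955749310792618000341889005843726694029191711646630389888540488881237425845349879682381507225139812723941730620097850055020897525719255656587835920259982577568997756266677920983360941927638046668053025592490105739932263750635550844753129223348367105645936536656920721940583654164694659077902085198110997809740367404837605820489559582229292342065090513872802931327945344763986519342846163336040452204278701840447216782113387134072229553695608819892781453575987173849269450062336500644706359964022832023381208934300590231552400291620095068097431801094026486361816470129844111829685564366698016522834179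0717624918462779820926464239218531482611296786049589754110727336259730027860484411740169681423417904001859898361514401979900943414423129635337519492923829129509452753051330570217121061109536804517071140494934722045026673082561659640247102714559920337800357858144309707417409562603464956367117501109917006463778133783143320133711629840682487720934391025654311209200542164170864284140441575782790078487701297428700725414939563213546758773972848099932613857290517754754606980830822156743368112893424392482872849595368063132889540752015287578304218511246548095833819334683785582006512883766605499876112097916194465539779950300768657812564573545489596888725183506545837466689347060220035401856788592279780134667763479798414708762979918308961155630956204685689889583315955435345286583644644235896685425856787820364875393088668085945020544072615537189528718710247487289444221843792923481566626801708029544410441634271046139036532058670610047574374104052647505847492861269233674568246534492192665064998024065313139491174807270070902757736159320148076649776750499005196734202022117308930473149281150678741029146853376)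

end Vale.Agent.Lib.P154.PChain.BG.S2
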