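import Vale.Agent.Lib.P154.PChain.BG.R2_0

set_option linter.all false

namespace Vale.Agent.Lib.P154.PChain.BG.S3

open Vale.Agent.Lib.P154.Chain

noncomputable def pc0 : PT := (PT.nd (nat_lit 7769346) (PT.nd (nat_lit 7450950) (PT.nd (nat_lit 7291752) (PT.nd (nat_lit 7238634) (PT.nd (nat_lit 7185594) (PT.nd (nat_lit 7185516) PT.nil (PT.lf (nat_lit 76) (nat_lit 6) (nat_lit 1) (nat_lit 3) (nat_lit 187) (nat_lit 135) (nat_lit 188))) (PT.nd (nat_lit 52962) (PT.lf (nat_lit 76) (nat_lit 6) (nat_lit 1) (nat_lit 1) (nat_lit 188) (nat_lit 135) (nat_lit 187)) (PT.lf (nat_lit 152) (nat_lit 6) (nat_lit 2) (nat_lit 3) (nat_lit 186) (nat_lit 136) (nat_lit 188)))) (PT.nd (nat_lit 78) (PT.lf (nat_lit 228) (nat_lit 3) (nat_lit 3) (nat_lit 1) (nat_lit 187) (nat_lit 136) (nat_lit 187)) (PT.nd (nat_lit 52962) (PT.lf (nat_lit 152) (nat_lit 6) (nat_lit 2) (nat_lit 1) (nat_lit 188) (nat_lit 136) (nat_lit 186))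 (PT.lf (nat_lit 304) (nat_lit 6) (nat_lit 4) (nat_lit 3) (nat_lit 186) (nat_lit 137) (nat_lit 187))))) (PT.nd (nat_lit 53118) (PT.nd (nat_lit 52962) (PT.lf (nat_lit 304) (nat_lit 6) (nat_lit 4) (nat_lit 1) (nat_lit 187) (nat_lit 137) (nat_lit 186)) (PT.nd (nat_lit 78) (PT.lf (nat_lit 380) (nat_lit 6) (nat_lit 5) (nat_lit 3) (nat_lit 185) (nat_lit 138) (nat_lit 187)) (PT.lf (nat_lit 456) (nat_lit 3) (nat_lit 6) (nat_lit 1) (nat_lit 186) (nat_lit 138) (nat_lit 186)))) (PT.nd (nat_lit 53040) (PT.nd (nat_lit 52962) (PT.lf (nat_lit 380) (nat_lit 6) (nat_lit 5) (nat_lit 1) (nat_lit 187) (nat_lit 138) (nat_lit 185)) (PT.lf (nat_lit 532) (nat_lit 6) (nat_lit 7) (nat_lit 3) (nat_lit 185) (nat_lit 139) (nat_lit 186))) (PT.nd (nat_lit 52962) (PT.lf (nat_lit 532) (nat_lit 6) (nat_lit 7) (nat_lit 1) (nat_lit 186) (nat_lit 139) (nat_lit 185)) (PT.lf (nat_lit 608) (nat_lit 6) (nat_lit 8) (nat_lit 3) (nat_lit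 184) (nat_lit 140) (nat_lit 186)))))) (PT.nd (nat_lit 159198) (PT.nd (nat_lit 53118) (PT.nd (nat_lit 78) (PT.lf (nat_lit 684) (nat_lit 3) (nat_lit 9) (nat_lit 1) (nat_lit 185) (nat_lit 140) (nat_lit 185)) (PT.nd (nat_lit 52962) (PT.lf (nat_lit 608) (nat_lit 6) (nat_lit 8) (nat_lit 1) (nat_lit 186) (nat_lit 140) (nat_lit 184)) (PT.lf (nat_lit 760) (nat_lit 6) (nat_lit 10) (nat_lit 3) (nat_lit 184) (nat_lit 141) (nat_lit 185)))) (PT.nd (nat_lit 53040) (PT.nd (nat_lit 52962) (PT.lf (nat_lit 760) (nat_lit 6) (nat_lit 10) (nat_lit 1) (nat_lit 185) (nat_lit 141) (nat_lit 184)) (PT.lf (nat_lit 836) (nat_lit 6) (nat_lit 11) (nat_lit 3) (nat_lit 183) (nat_lit 142) (nat_lit 185))) (PT.nd (nat_lit 78) (PT.lf (nat_lit 912) (nat_lit 3) (nat_lit 12) (nat_lit 1) (nat_lit 184) (nat_lit 142) (nat_lit 184)) (PT.lf (nat_lit 836) (nat_lit 6) (nat_lit 11) (nat_lit 1) (nat_lit 185) (nat_lit 142) (nat_lit 183)))))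 (PT.nd (nat_lit 53118) (PT.nd (nat_lit 78) (PT.lf (nat_lit 988) (nat_lit 6) (nat_lit 13) (nat_lit 3) (nat_lit 183) (nat_lit 143) (nat_lit 184)) (PT.nd (nat_lit 52962) (PT.lf (nat_lit 988) (nat_lit 6) (nat_lit 13) (nat_lit 1) (nat_lit 184) (nat_lit 143) (nat_lit 183)) (PT.lf (nat_lit 1064) (nat_lit 6) (nat_lit 14) (nat_lit 3) (nat_lit 182) (nat_lit 144) (nat_lit 184)))) (PT.nd (nat_lit 53040) (PT.nd (nat_lit 78) (PT.lf (nat_lit 1140) (nat_lit 3) (nat_lit 15) (nat_lit 1) (nat_lit 183) (nat_lit 144) (nat_lit 183)) (PT.lf (nat_lit 1064) (nat_lit 6) (nat_lit 14) (nat_lit 1) (nat_lit 184) (nat_lit 144) (nat_lit 182))) (PT.nd (nat_lit 78) (PT.lf (nat_lit 1216) (nat_lit 6) (nat_lit 16) (nat_lit 3) (nat_lit 182) (nat_lit 145) (nat_lit 183)) (PT.lf (nat_lit 1216) (nat_lit 6) (nat_lit 16) (nat_lit 1) (nat_lit 183) (nat_lit 145) (nat_lit 182))))))) (PT.nd (nat_lit 265434) (PT.nd (nat_lit 106314) (PT.nd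 (nat_lit 53118) (PT.nd (nat_lit 78) (PT.lf (nat_lit 1292) (nat_lit 6) (nat_lit 17) (nat_lit 3) (nat_lit 181) (nat_lit 146) (nat_lit 183)) (PT.nd (nat_lit 78) (PT.lf (nat_lit 1368) (nat_lit 3) (nat_lit 18) (nat_lit 1) (nat_lit 182) (nat_lit 146) (nat_lit 182)) (PT.lf (nat_lit 1292) (nat_lit 6) (nat_lit 17) (nat_lit 1) (nat_lit 183) (nat_lit 146) (nat_lit 181)))) (PT.nd (nat_lit 53040) (PT.nd (nat_lit 78) (PT.lf (nat_lit 1444) (nat_lit 6) (nat_lit 19) (nat_lit 3) (nat_lit 181) (nat_lit 147) (nat_lit 182)) (PT.lf (nat_lit 1444) (nat_lit 6) (nat_lit 19) (nat_lit 1) (nat_lit 182) (nat_lit 147) (nat_lit 181))) (PT.nd (nat_lit 78) (PT.lf (nat_lit 1520) (nat_lit 6) (nat_lit 20) (nat_lit 3) (nat_lit 180) (nat_lit 148) (nat_lit 182)) (PT.lf (nat_lit 1596) (nat_lit 3) (nat_lit 21) (nat_lit 1) (nat_lit 181) (nat_lit 148) (nat_lit 181))))) (PT.nd (nat_lit 106002) (PT.nd (nat_lit 52962) (PT.lf (nat_lit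 1520) (nat_lit 6) (nat_lit 20) (nat_lit 1) (nat_lit 182) (nat_lit 148) (nat_lit 180)) (PT.nd (nat_lit 78) (PT.lf (nat_lit 1672) (nat_lit 6) (nat_lit 22) (nat_lit 3) (nat_lit 180) (nat_lit 149) (nat_lit 181)) (PT.lf (nat_lit 1672) (nat_lit 6) (nat_lit 22) (nat_lit 1) (nat_lit 181) (nat_lit 149) (nat_lit 180)))) (PT.nd (nat_lit 156) (PT.nd (nat_lit 78) (PT.lf (nat_lit 1748) (nat_lit 6) (nat_lit 23) (nat_lit 3) (nat_lit 179) (nat_lit 150) (nat_lit 181)) (PT.lf (nat_lit 1824) (nat_lit 3) (nat_lit 24) (nat_lit 1) (nat_lit 180) (nat_lit 150) (nat_lit 180))) (PT.nd (nat_lit 52884) (PT.lf (nat_lit 1748) (nat_lit 6) (nat_lit 23) (nat_lit 1) (nat_lit 181) (nat_lit 150) (nat_lit 179)) (PT.lf (nat_lit 1900) (nat_lit 6) (nat_lit 25) (nat_lit 3) (nat_lit 178) (nat_lit 151) (nat_lit 181)))))) (PT.nd (nat_lit 106158) (PT.nd (nat_lit 53040) (PT.nd (nat_lit 78) (PT.lf (nat_lit 1976) (nat_lit 6) (nat_lit 26)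 (nat_lit 3) (nat_lit 179) (nat_lit 151) (nat_lit 180)) (PT.nd (nat_lit 78) (PT.lf (nat_lit 1976) (nat_lit 6) (nat_lit 26) (nat_lit 1) (nat_lit 180) (nat_lit 151) (nat_lit 179)) (PT.lf (nat_lit 1900) (nat_lit 6) (nat_lit 25) (nat_lit 1) (nat_lit 181) (nat_lit 151) (nat_lit 178)))) (PT.nd (nat_lit 156) (PT.nd (nat_lit 78) (PT.lf (nat_lit 2052) (nat_lit 6) (nat_lit 27) (nat_lit 3) (nat_lit 178) (nat_lit 152) (nat_lit 180)) (PT.lf (nat_lit 2128) (nat_lit 3) (nat_lit 28) (nat_lit 1) (nat_lit 179) (nat_lit 152) (nat_lit 179))) (PT.nd (nat_lit 52884) (PT.lf (nat_lit 2052) (nat_lit 6) (nat_lit 27) (nat_lit 1) (nat_lit 180) (nat_lit 152) (nat_lit 178)) (PT.lf (nat_lit 2204) (nat_lit 6) (nat_lit 29) (nat_lit 3) (nat_lit 177) (nat_lit 153) (nat_lit 180))))) (PT.nd (nat_lit 53040) (PT.nd (nat_lit 78) (PT.lf (nat_lit 2280) (nat_lit 6) (nat_lit 30) (nat_lit 3) (nat_lit 178) (nat_lit 153) (nat_lit 179))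 (PT.nd (nat_lit 78) (PT.lf (nat_lit 2280) (nat_lit 6) (nat_lit 30) (nat_lit 1) (nat_lit 179) (nat_lit 153) (nat_lit 178)) (PT.lf (nat_lit 2204) (nat_lit 6) (nat_lit 29) (nat_lit 1) (nat_lit 180) (nat_lit 153) (nat_lit 177)))) (PT.nd (nat_lit 156) (PT.nd (nat_lit 78) (PT.lf (nat_lit 2356) (nat_lit 6) (nat_lit 31) (nat_lit 3) (nat_lit 177) (nat_lit 154) (nat_lit 179)) (PT.lf (nat_lit 2432) (nat_lit 3) (nat_lit 32) (nat_lit 1) (nat_lit 178) (nat_lit 154) (nat_lit 178))) (PT.nd (nat_lit 52884) (PT.lf (nat_lit 2356) (nat_lit 6) (nat_lit 31) (nat_lit 1) (nat_lit 179) (nat_lit 154) (nat_lit 177)) (PT.lf (nat_lit 2508) (nat_lit 6) (nat_lit 33) (nat_lit 3) (nat_lit 176) (nat_lit 155) (nat_lit 179))))))))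
noncomputable def pc1 : PT := (PT.nd (nat_lit 318318) (PT.nd (nat_lit 159276) (PT.nd (nat_lit 53274) (PT.nd (nat_lit 52962) (PT.nd (nat_lit 78) (PT.lf (nat_lit 2584) (nat_lit 6) (nat_lit 34) (nat_lit 3) (nat_lit 177) (nat_lit 155) (nat_lit 178)) (PT.nd (nat_lit 78) (PT.lf (nat_lit 2584) (nat_lit 6) (nat_lit 34) (nat_lit 1) (nat_lit 178) (nat_lit 155) (nat_lit 177)) (PT.lf (nat_lit 2508) (nat_lit 6) (nat_lit 33) (nat_lit 1) (nat_lit 179) (nat_lit 155) (nat_lit 176)))) (PT.nd (nat_lit 156) (PT.nd (nat_lit 78) (PT.lf (nat_lit 2660) (nat_lit 6) (nat_lit 35) (nat_lit 3) (nat_lit 175) (nat_lit 156) (nat_lit 179)) (PT.lf (nat_lit 2736) (nat_lit 6) (nat_lit 36) (nat_lit 3) (nat_lit 176) (nat_lit 156) (nat_lit 178))) (PT.nd (nat_lit 78) (PT.lf (nat_lit 2812) (nat_lit 3) (nat_lit 37) (nat_lit 1) (nat_lit 177) (nat_lit 156) (nat_lit 177)) (PT.lf (nat_lit 2736) (nat_lit 6) (nat_lit 36) (nat_lit 1) (nat_lit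 178) (nat_lit 156) (nat_lit 176))))) (PT.nd (nat_lit 52962) (PT.nd (nat_lit 52806) (PT.lf (nat_lit 2660) (nat_lit 6) (nat_lit 35) (nat_lit 1) (nat_lit 179) (nat_lit 156) (nat_lit 175)) (PT.nd (nat_lit 78) (PT.lf (nat_lit 2888) (nat_lit 6) (nat_lit 38) (nat_lit 3) (nat_lit 175) (nat_lit 157) (nat_lit 178)) (PT.lf (nat_lit 2964) (nat_lit 6) (nat_lit 39) (nat_lit 3) (nat_lit 176) (nat_lit 157) (nat_lit 177)))) (PT.nd (nat_lit 52884) (PT.nd (nat_lit 78) (PT.lf (nat_lit 2964) (nat_lit 6) (nat_lit 39) (nat_lit 1) (nat_lit 177) (nat_lit 157) (nat_lit 176)) (PT.lf (nat_lit 2888) (nat_lit 6) (nat_lit 38) (nat_lit 1) (nat_lit 178) (nat_lit 157) (nat_lit 175))) (PT.nd (nat_lit 78) (PT.lf (nat_lit 3040) (nat_lit 6) (nat_lit 40) (nat_lit 3) (nat_lit 174) (nat_lit 158) (nat_lit 178)) (PT.lf (nat_lit 3116) (nat_lit 6) (nat_lit 41) (nat_lit 3) (nat_lit 175) (nat_lit 158) (nat_lit 177)))))) (PT.nd (nat_lit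 53196) (PT.nd (nat_lit 52884) (PT.nd (nat_lit 78) (PT.lf (nat_lit 3192) (nat_lit 3) (nat_lit 42) (nat_lit 1) (nat_lit 176) (nat_lit 158) (nat_lit 176)) (PT.nd (nat_lit 78) (PT.lf (nat_lit 3116) (nat_lit 6) (nat_lit 41) (nat_lit 1) (nat_lit 177) (nat_lit 158) (nat_lit 175)) (PT.lf (nat_lit 3040) (nat_lit 6) (nat_lit 40) (nat_lit 1) (nat_lit 178) (nat_lit 158) (nat_lit 174)))) (PT.nd (nat_lit 156) (PT.nd (nat_lit 78) (PT.lf (nat_lit 3268) (nat_lit 6) (nat_lit 43) (nat_lit 3) (nat_lit 173) (nat_lit 159) (nat_lit 178)) (PT.lf (nat_lit 3344) (nat_lit 6) (nat_lit 44) (nat_lit 3) (nat_lit 174) (nat_lit 159) (nat_lit 177))) (PT.nd (nat_lit 78) (PT.lf (nat_lit 3420) (nat_lit 6) (nat_lit 45) (nat_lit 3) (nat_lit 175) (nat_lit 159) (nat_lit 176)) (PT.lf (nat_lit 3420) (nat_lit 6) (nat_lit 45) (nat_lit 1) (nat_lit 176) (nat_lit 159) (nat_lit 175))))) (PT.nd (nat_lit 52884) (PT.nd (nat_lit 78) (PT.lf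 (nat_lit 3344) (nat_lit 6) (nat_lit 44) (nat_lit 1) (nat_lit 177) (nat_lit 159) (nat_lit 174)) (PT.nd (nat_lit 52728) (PT.lf (nat_lit 3268) (nat_lit 6) (nat_lit 43) (nat_lit 1) (nat_lit 178) (nat_lit 159) (nat_lit 173)) (PT.lf (nat_lit 3496) (nat_lit 6) (nat_lit 46) (nat_lit 3) (nat_lit 173) (nat_lit 160) (nat_lit 177)))) (PT.nd (nat_lit 156) (PT.nd (nat_lit 78) (PT.lf (nat_lit 3572) (nat_lit 6) (nat_lit 47) (nat_lit 3) (nat_lit 174) (nat_lit 160) (nat_lit 176)) (PT.lf (nat_lit 3648) (nat_lit 3) (nat_lit 48) (nat_lit 1) (nat_lit 175) (nat_lit 160) (nat_lit 175))) (PT.nd (nat_lit 78) (PT.lf (nat_lit 3572) (nat_lit 6) (nat_lit 47) (nat_lit 1) (nat_lit 176) (nat_lit 160) (nat_lit 174)) (PT.lf (nat_lit 3496) (nat_lit 6) (nat_lit 46) (nat_lit 1) (nat_lit 177) (nat_lit 160) (nat_lit 173))))))) (PT.nd (nat_lit 106158) (PT.nd (nat_lit 53118) (PT.nd (nat_lit 234) (PT.nd (nat_lit 78) (PT.lf (nat_lit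 3724) (nat_lit 6) (nat_lit 49) (nat_lit 3) (nat_lit 172) (nat_lit 161) (nat_lit 177)) (PT.nd (nat_lit 78) (PT.lf (nat_lit 3800) (nat_lit 6) (nat_lit 50) (nat_lit 3) (nat_lit 173) (nat_lit 161) (nat_lit 176)) (PT.lf (nat_lit 3876) (nat_lit 6) (nat_lit 51) (nat_lit 3) (nat_lit 174) (nat_lit 161) (nat_lit 175)))) (PT.nd (nat_lit 156) (PT.nd (nat_lit 78) (PT.lf (nat_lit 3876) (nat_lit 6) (nat_lit 51) (nat_lit 1) (nat_lit 175) (nat_lit 161) (nat_lit 174)) (PT.lf (nat_lit 3800) (nat_lit 6) (nat_lit 50) (nat_lit 1) (nat_lit 176) (nat_lit 161) (nat_lit 173))) (PT.nd (nat_lit 52650) (PT.lf (nat_lit 3724) (nat_lit 6) (nat_lit 49) (nat_lit 1) (nat_lit 177) (nat_lit 161) (nat_lit 172)) (PT.lf (nat_lit 3952) (nat_lit 6) (nat_lit 52) (nat_lit 3) (nat_lit 171) (nat_lit 162) (nat_lit 177))))) (PT.nd (nat_lit 234) (PT.nd (nat_lit 78) (PT.lf (nat_lit 4028) (nat_lit 6) (nat_lit 53) (nat_lit 3) (nat_lit 172)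 (nat_lit 162) (nat_lit 176)) (PT.nd (nat_lit 78) (PT.lf (nat_lit 4104) (nat_lit 6) (nat_lit 54) (nat_lit 3) (nat_lit 173) (nat_lit 162) (nat_lit 175)) (PT.lf (nat_lit 4180) (nat_lit 3) (nat_lit 55) (nat_lit 1) (nat_lit 174) (nat_lit 162) (nat_lit 174)))) (PT.nd (nat_lit 156) (PT.nd (nat_lit 78) (PT.lf (nat_lit 4104) (nat_lit 6) (nat_lit 54) (nat_lit 1) (nat_lit 175) (nat_lit 162) (nat_lit 173)) (PT.lf (nat_lit 4028) (nat_lit 6) (nat_lit 53) (nat_lit 1) (nat_lit 176) (nat_lit 162) (nat_lit 172))) (PT.nd (nat_lit 52572) (PT.lf (nat_lit 3952) (nat_lit 6) (nat_lit 52) (nat_lit 1) (nat_lit 177) (nat_lit 162) (nat_lit 171)) (PT.lf (nat_lit 4332) (nat_lit 6) (nat_lit 57) (nat_lit 3) (nat_lit 170) (nat_lit 163) (nat_lit 177)))))) (PT.nd (nat_lit 52962) (PT.nd (nat_lit 234) (PT.nd (nat_lit 78) (PT.lf (nat_lit 4408) (nat_lit 6) (nat_lit 58) (nat_lit 3) (nat_lit 171) (nat_lit 163) (nat_lit 176)) (PT.nd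 (nat_lit 78) (PT.lf (nat_lit 4484) (nat_lit 6) (nat_lit 59) (nat_lit 3) (nat_lit 172) (nat_lit 163) (nat_lit 175)) (PT.lf (nat_lit 4560) (nat_lit 6) (nat_lit 60) (nat_lit 3) (nat_lit 173) (nat_lit 163) (nat_lit 174)))) (PT.nd (nat_lit 156) (PT.nd (nat_lit 78) (PT.lf (nat_lit 4560) (nat_lit 6) (nat_lit 60) (nat_lit 1) (nat_lit 174) (nat_lit 163) (nat_lit 173)) (PT.lf (nat_lit 4484) (nat_lit 6) (nat_lit 59) (nat_lit 1) (nat_lit 175) (nat_lit 163) (nat_lit 172))) (PT.nd (nat_lit 78) (PT.lf (nat_lit 4408) (nat_lit 6) (nat_lit 58) (nat_lit 1) (nat_lit 176) (nat_lit 163) (nat_lit 171)) (PT.lf (nat_lit 4332) (nat_lit 6) (nat_lit 57) (nat_lit 1) (nat_lit 177) (nat_lit 163) (nat_lit 170))))) (PT.nd (nat_lit 234) (PT.nd (nat_lit 78) (PT.lf (nat_lit 4256) (nat_lit 6) (nat_lit 56) (nat_lit 3) (nat_lit 169) (nat_lit 164) (nat_lit 177)) (PT.nd (nat_lit 78) (PT.lf (nat_lit 4864) (nat_lit 6) (nat_lit 64)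 (nat_lit 3) (nat_lit 170) (nat_lit 164) (nat_lit 176)) (PT.lf (nat_lit 4940) (nat_lit 6) (nat_lit 65) (nat_lit 3) (nat_lit 171) (nat_lit 164) (nat_lit 175)))) (PT.nd (nat_lit 156) (PT.nd (nat_lit 78) (PT.lf (nat_lit 5016) (nat_lit 6) (nat_lit 66) (nat_lit 3) (nat_lit 172) (nat_lit 164) (nat_lit 174)) (PT.lf (nat_lit 5092) (nat_lit 3) (nat_lit 67) (nat_lit 1) (nat_lit 173) (nat_lit 164) (nat_lit 173))) (PT.nd (nat_lit 78) (PT.lf (nat_lit 5016) (nat_lit 6) (nat_lit 66) (nat_lit 1) (nat_lit 174) (nat_lit 164) (nat_lit 172)) (PT.lf (nat_lit 4940) (nat_lit 6) (nat_lit 65) (nat_lit 1) (nat_lit 175) (nat_lit 164) (nat_lit 171))))))))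
noncomputable def pc2 : PT := (PT.nd (nat_lit 159276) (PT.nd (nat_lit 105846) (PT.nd (nat_lit 52884) (PT.nd (nat_lit 52650) (PT.nd (nat_lit 78) (PT.lf (nat_lit 4864) (nat_lit 6) (nat_lit 64) (nat_lit 1) (nat_lit 176) (nat_lit 164) (nat_lit 170)) (PT.nd (nat_lit 52494) (PT.lf (nat_lit 4256) (nat_lit 6) (nat_lit 56) (nat_lit 1) (nat_lit 177) (nat_lit 164) (nat_lit 169)) (PT.lf (nat_lit 4788) (nat_lit 6) (nat_lit 63) (nat_lit 3) (nat_lit 169) (nat_lit 165) (nat_lit 176)))) (PT.nd (nat_lit 78) (PT.lf (nat_lit 5320) (nat_lit 6) (nat_lit 70) (nat_lit 3) (nat_lit 170) (nat_lit 165) (nat_lit 175)) (PT.nd (nat_lit 78) (PT.lf (nat_lit 5396) (nat_lit 6) (nat_lit 71) (nat_lit 3) (nat_lit 171) (nat_lit 165) (nat_lit 174)) (PT.lf (nat_lit 5472) (nat_lit 6) (nat_lit 72) (nat_lit 3) (nat_lit 172) (nat_lit 165) (nat_lit 173))))) (PT.nd (nat_lit 234) (PT.nd (nat_lit 78) (PT.lf (nat_lit 5472) (nat_lit 6) (nat_lit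 72) (nat_lit 1) (nat_lit 173) (nat_lit 165) (nat_lit 172)) (PT.nd (nat_lit 78) (PT.lf (nat_lit 5396) (nat_lit 6) (nat_lit 71) (nat_lit 1) (nat_lit 174) (nat_lit 165) (nat_lit 171)) (PT.lf (nat_lit 5320) (nat_lit 6) (nat_lit 70) (nat_lit 1) (nat_lit 175) (nat_lit 165) (nat_lit 170)))) (PT.nd (nat_lit 52572) (PT.nd (nat_lit 52494) (PT.lf (nat_lit 4788) (nat_lit 6) (nat_lit 63) (nat_lit 1) (nat_lit 176) (nat_lit 165) (nat_lit 169)) (PT.lf (nat_lit 4712) (nat_lit 6) (nat_lit 62) (nat_lit 3) (nat_lit 168) (nat_lit 166) (nat_lit 176))) (PT.nd (nat_lit 78) (PT.lf (nat_lit 5244) (nat_lit 6) (nat_lit 69) (nat_lit 3) (nat_lit 169) (nat_lit 166) (nat_lit 175)) (PT.lf (nat_lit 5700) (nat_lit 6) (nat_lit 75) (nat_lit 3) (nat_lit 170) (nat_lit 166) (nat_lit 174)))))) (PT.nd (nat_lit 52884) (PT.nd (nat_lit 234) (PT.nd (nat_lit 78) (PT.lf (nat_lit 5776) (nat_lit 6) (nat_lit 76) (nat_lit 3) (nat_lit 171)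 (nat_lit 166) (nat_lit 173)) (PT.nd (nat_lit 78) (PT.lf (nat_lit 5852) (nat_lit 3) (nat_lit 77) (nat_lit 1) (nat_lit 172) (nat_lit 166) (nat_lit 172)) (PT.lf (nat_lit 5776) (nat_lit 6) (nat_lit 76) (nat_lit 1) (nat_lit 173) (nat_lit 166) (nat_lit 171)))) (PT.nd (nat_lit 156) (PT.nd (nat_lit 78) (PT.lf (nat_lit 5700) (nat_lit 6) (nat_lit 75) (nat_lit 1) (nat_lit 174) (nat_lit 166) (nat_lit 170)) (PT.lf (nat_lit 5244) (nat_lit 6) (nat_lit 69) (nat_lit 1) (nat_lit 175) (nat_lit 166) (nat_lit 169))) (PT.nd (nat_lit 52416) (PT.lf (nat_lit 4712) (nat_lit 6) (nat_lit 62) (nat_lit 1) (nat_lit 176) (nat_lit 166) (nat_lit 168)) (PT.lf (nat_lit 4636) (nat_lit 3) (nat_lit 61) (nat_lit 3) (nat_lit 167) (nat_lit 167) (nat_lit 176))))) (PT.nd (nat_lit 234) (PT.nd (nat_lit 78) (PT.lf (nat_lit 5168) (nat_lit 6) (nat_lit 68) (nat_lit 3) (nat_lit 168) (nat_lit 167) (nat_lit 175)) (PT.nd (nat_lit 78) (PT.lf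 (nat_lit 5624) (nat_lit 6) (nat_lit 74) (nat_lit 3) (nat_lit 169) (nat_lit 167) (nat_lit 174)) (PT.lf (nat_lit 6004) (nat_lit 6) (nat_lit 79) (nat_lit 3) (nat_lit 170) (nat_lit 167) (nat_lit 173)))) (PT.nd (nat_lit 156) (PT.nd (nat_lit 78) (PT.lf (nat_lit 6080) (nat_lit 6) (nat_lit 80) (nat_lit 3) (nat_lit 171) (nat_lit 167) (nat_lit 172)) (PT.lf (nat_lit 6080) (nat_lit 6) (nat_lit 80) (nat_lit 1) (nat_lit 172) (nat_lit 167) (nat_lit 171))) (PT.nd (nat_lit 78) (PT.lf (nat_lit 6004) (nat_lit 6) (nat_lit 79) (nat_lit 1) (nat_lit 173) (nat_lit 167) (nat_lit 170)) (PT.lf (nat_lit 5624) (nat_lit 6) (nat_lit 74) (nat_lit 1) (nat_lit 174) (nat_lit 167) (nat_lit 169))))))) (PT.nd (nat_lit 105456) (PT.nd (nat_lit 52806) (PT.nd (nat_lit 52494) (PT.nd (nat_lit 78) (PT.lf (nat_lit 5168) (nat_lit 6) (nat_lit 68) (nat_lit 1) (nat_lit 175) (nat_lit 167) (nat_lit 168)) (PT.nd (nat_lit 52338) (PT.lf (nat_lit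 4636) (nat_lit 3) (nat_lit 61) (nat_lit 0) (nat_lit 176) (nat_lit 167) (nat_lit 167)) (PT.lf (nat_lit 4712) (nat_lit 6) (nat_lit 62) (nat_lit 5) (nat_lit 166) (nat_lit 168) (nat_lit 176)))) (PT.nd (nat_lit 156) (PT.nd (nat_lit 78) (PT.lf (nat_lit 5168) (nat_lit 6) (nat_lit 68) (nat_lit 5) (nat_lit 167) (nat_lit 168) (nat_lit 175)) (PT.lf (nat_lit 5548) (nat_lit 3) (nat_lit 73) (nat_lit 3) (nat_lit 168) (nat_lit 168) (nat_lit 174))) (PT.nd (nat_lit 78) (PT.lf (nat_lit 5928) (nat_lit 6) (nat_lit 78) (nat_lit 3) (nat_lit 169) (nat_lit 168) (nat_lit 173)) (PT.lf (nat_lit 6232) (nat_lit 6) (nat_lit 82) (nat_lit 3) (nat_lit 170) (nat_lit 168) (nat_lit 172))))) (PT.nd (nat_lit 234) (PT.nd (nat_lit 78) (PT.lf (nat_lit 6308) (nat_lit 3) (nat_lit 83) (nat_lit 1) (nat_lit 171) (nat_lit 168) (nat_lit 171)) (PT.nd (nat_lit 78) (PT.lf (nat_lit 6232) (nat_lit 6) (nat_lit 82) (nat_lit 1) (nat_lit 172) (nat_lit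 168) (nat_lit 170)) (PT.lf (nat_lit 5928) (nat_lit 6) (nat_lit 78) (nat_lit 1) (nat_lit 173) (nat_lit 168) (nat_lit 169)))) (PT.nd (nat_lit 156) (PT.nd (nat_lit 78) (PT.lf (nat_lit 5548) (nat_lit 3) (nat_lit 73) (nat_lit 0) (nat_lit 174) (nat_lit 168) (nat_lit 168)) (PT.lf (nat_lit 5168) (nat_lit 6) (nat_lit 68) (nat_lit 0) (nat_lit 175) (nat_lit 168) (nat_lit 167))) (PT.nd (nat_lit 52182) (PT.lf (nat_lit 4712) (nat_lit 6) (nat_lit 62) (nat_lit 0) (nat_lit 176) (nat_lit 168) (nat_lit 166)) (PT.lf (nat_lit 4256) (nat_lit 6) (nat_lit 56) (nat_lit 5) (nat_lit 164) (nat_lit 169) (nat_lit 177)))))) (PT.nd (nat_lit 546) (PT.nd (nat_lit 234) (PT.nd (nat_lit 78) (PT.lf (nat_lit 4788) (nat_lit 6) (nat_lit 63) (nat_lit 5) (nat_lit 165) (nat_lit 169) (nat_lit 176)) (PT.nd (nat_lit 78) (PT.lf (nat_lit 5244) (nat_lit 6) (nat_lit 69) (nat_lit 5) (nat_lit 166) (nat_lit 169) (nat_lit 175)) (PT.lf (nat_lit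 5624) (nat_lit 6) (nat_lit 74) (nat_lit 5) (nat_lit 167) (nat_lit 169) (nat_lit 174)))) (PT.nd (nat_lit 156) (PT.nd (nat_lit 78) (PT.lf (nat_lit 5928) (nat_lit 6) (nat_lit 78) (nat_lit 5) (nat_lit 168) (nat_lit 169) (nat_lit 173)) (PT.lf (nat_lit 6156) (nat_lit 3) (nat_lit 81) (nat_lit 3) (nat_lit 169) (nat_lit 169) (nat_lit 172))) (PT.nd (nat_lit 78) (PT.lf (nat_lit 6384) (nat_lit 6) (nat_lit 84) (nat_lit 3) (nat_lit 170) (nat_lit 169) (nat_lit 171)) (PT.lf (nat_lit 6384) (nat_lit 6) (nat_lit 84) (nat_lit 1) (nat_lit 171) (nat_lit 169) (nat_lit 170))))) (PT.nd (nat_lit 234) (PT.nd (nat_lit 78) (PT.lf (nat_lit 6156) (nat_lit 3) (nat_lit 81) (nat_lit 0) (nat_lit 172) (nat_lit 169) (nat_lit 169)) (PT.nd (nat_lit 78) (PT.lf (nat_lit 5928) (nat_lit 6) (nat_lit 78) (nat_lit 0) (nat_lit 173) (nat_lit 169) (nat_lit 168)) (PT.lf (nat_lit 5624) (nat_lit 6) (nat_lit 74) (nat_lit 0) (nat_lit 174) (nat_lit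 169) (nat_lit 167)))) (PT.nd (nat_lit 156) (PT.nd (nat_lit 78) (PT.lf (nat_lit 5244) (nat_lit 6) (nat_lit 69) (nat_lit 0) (nat_lit 175) (nat_lit 169) (nat_lit 166)) (PT.lf (nat_lit 4788) (nat_lit 6) (nat_lit 63) (nat_lit 0) (nat_lit 176) (nat_lit 169) (nat_lit 165))) (PT.nd (nat_lit 52026) (PT.lf (nat_lit 4256) (nat_lit 6) (nat_lit 56) (nat_lit 0) (nat_lit 177) (nat_lit 169) (nat_lit 164)) (PT.lf (nat_lit 4332) (nat_lit 6) (nat_lit 57) (nat_lit 5) (nat_lit 163) (nat_lit 170) (nat_lit 177))))))))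
noncomputable def pc3 : PT := (PT.nd (nat_lit 54054) (PT.nd (nat_lit 52962) (PT.nd (nat_lit 546) (PT.nd (nat_lit 234) (PT.nd (nat_lit 78) (PT.lf (nat_lit 4864) (nat_lit 6) (nat_lit 64) (nat_lit 5) (nat_lit 164) (nat_lit 170) (nat_lit 176)) (PT.nd (nat_lit 78) (PT.lf (nat_lit 5320) (nat_lit 6) (nat_lit 70) (nat_lit 5) (nat_lit 165) (nat_lit 170) (nat_lit 175)) (PT.lf (nat_lit 5700) (nat_lit 6) (nat_lit 75) (nat_lit 5) (nat_lit 166) (nat_lit 170) (nat_lit 174)))) (PT.nd (nat_lit 156) (PT.nd (nat_lit 78) (PT.lf (nat_lit 6004) (nat_lit 6) (nat_lit 79) (nat_lit 5) (nat_lit 167) (nat_lit 170) (nat_lit 173)) (PT.lf (nat_lit 6232) (nat_lit 6) (nat_lit 82) (nat_lit 5) (nat_lit 168) (nat_lit 170) (nat_lit 172))) (PT.nd (nat_lit 78) (PT.lf (nat_lit 6384) (nat_lit 6) (nat_lit 84) (nat_lit 5) (nat_lit 169) (nat_lit 170) (nat_lit 171)) (PT.lf (nat_lit 6460) (nat_lit 1) (nat_lit 85) (nat_lit 0) (nat_lit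 170) (nat_lit 170) (nat_lit 170))))) (PT.nd (nat_lit 234) (PT.nd (nat_lit 78) (PT.lf (nat_lit 6384) (nat_lit 6) (nat_lit 84) (nat_lit 0) (nat_lit 171) (nat_lit 170) (nat_lit 169)) (PT.nd (nat_lit 78) (PT.lf (nat_lit 6232) (nat_lit 6) (nat_lit 82) (nat_lit 0) (nat_lit 172) (nat_lit 170) (nat_lit 168)) (PT.lf (nat_lit 6004) (nat_lit 6) (nat_lit 79) (nat_lit 0) (nat_lit 173) (nat_lit 170) (nat_lit 167)))) (PT.nd (nat_lit 156) (PT.nd (nat_lit 78) (PT.lf (nat_lit 5700) (nat_lit 6) (nat_lit 75) (nat_lit 0) (nat_lit 174) (nat_lit 170) (nat_lit 166)) (PT.lf (nat_lit 5320) (nat_lit 6) (nat_lit 70) (nat_lit 0) (nat_lit 175) (nat_lit 170) (nat_lit 165))) (PT.nd (nat_lit 78) (PT.lf (nat_lit 4864) (nat_lit 6) (nat_lit 64) (nat_lit 0) (nat_lit 176) (nat_lit 170) (nat_lit 164)) (PT.lf (nat_lit 4332) (nat_lit 6) (nat_lit 57) (nat_lit 0) (nat_lit 177) (nat_lit 170) (nat_lit 163)))))) (PT.nd (nat_lit 546)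 (PT.nd (nat_lit 234) (PT.nd (nat_lit 78) (PT.lf (nat_lit 3952) (nat_lit 6) (nat_lit 52) (nat_lit 5) (nat_lit 162) (nat_lit 171) (nat_lit 177)) (PT.nd (nat_lit 78) (PT.lf (nat_lit 4408) (nat_lit 6) (nat_lit 58) (nat_lit 5) (nat_lit 163) (nat_lit 171) (nat_lit 176)) (PT.lf (nat_lit 4940) (nat_lit 6) (nat_lit 65) (nat_lit 5) (nat_lit 164) (nat_lit 171) (nat_lit 175)))) (PT.nd (nat_lit 156) (PT.nd (nat_lit 78) (PT.lf (nat_lit 5396) (nat_lit 6) (nat_lit 71) (nat_lit 5) (nat_lit 165) (nat_lit 171) (nat_lit 174)) (PT.lf (nat_lit 5776) (nat_lit 6) (nat_lit 76) (nat_lit 5) (nat_lit 166) (nat_lit 171) (nat_lit 173))) (PT.nd (nat_lit 78) (PT.lf (nat_lit 6080) (nat_lit 6) (nat_lit 80) (nat_lit 5) (nat_lit 167) (nat_lit 171) (nat_lit 172)) (PT.lf (nat_lit 6308) (nat_lit 3) (nat_lit 83) (nat_lit 4) (nat_lit 168) (nat_lit 171) (nat_lit 171))))) (PT.nd (nat_lit 234) (PT.nd (nat_lit 78) (PT.lf (nat_lit 6384)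 (nat_lit 6) (nat_lit 84) (nat_lit 4) (nat_lit 169) (nat_lit 171) (nat_lit 170)) (PT.nd (nat_lit 78) (PT.lf (nat_lit 6384) (nat_lit 6) (nat_lit 84) (nat_lit 2) (nat_lit 170) (nat_lit 171) (nat_lit 169)) (PT.lf (nat_lit 6308) (nat_lit 3) (nat_lit 83) (nat_lit 0) (nat_lit 171) (nat_lit 171) (nat_lit 168)))) (PT.nd (nat_lit 156) (PT.nd (nat_lit 78) (PT.lf (nat_lit 6080) (nat_lit 6) (nat_lit 80) (nat_lit 0) (nat_lit 172) (nat_lit 171) (nat_lit 167)) (PT.lf (nat_lit 5776) (nat_lit 6) (nat_lit 76) (nat_lit 0) (nat_lit 173) (nat_lit 171) (nat_lit 166))) (PT.nd (nat_lit 78) (PT.lf (nat_lit 5396) (nat_lit 6) (nat_lit 71) (nat_lit 0) (nat_lit 174) (nat_lit 171) (nat_lit 165)) (PT.lf (nat_lit 4940) (nat_lit 6) (nat_lit 65) (nat_lit 0) (nat_lit 175) (nat_lit 171) (nat_lit 164))))))) (PT.nd (nat_lit 52884) (PT.nd (nat_lit 52338) (PT.nd (nat_lit 52026) (PT.nd (nat_lit 78) (PT.lf (nat_lit 4408) (nat_lit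 6) (nat_lit 58) (nat_lit 0) (nat_lit 176) (nat_lit 171) (nat_lit 163)) (PT.nd (nat_lit 51870) (PT.lf (nat_lit 3952) (nat_lit 6) (nat_lit 52) (nat_lit 0) (nat_lit 177) (nat_lit 171) (nat_lit 162)) (PT.lf (nat_lit 3724) (nat_lit 6) (nat_lit 49) (nat_lit 5) (nat_lit 161) (nat_lit 172) (nat_lit 177)))) (PT.nd (nat_lit 156) (PT.nd (nat_lit 78) (PT.lf (nat_lit 4028) (nat_lit 6) (nat_lit 53) (nat_lit 5) (nat_lit 162) (nat_lit 172) (nat_lit 176)) (PT.lf (nat_lit 4484) (nat_lit 6) (nat_lit 59) (nat_lit 5) (nat_lit 163) (nat_lit 172) (nat_lit 175))) (PT.nd (nat_lit 78) (PT.lf (nat_lit 5016) (nat_lit 6) (nat_lit 66) (nat_lit 5) (nat_lit 164) (nat_lit 172) (nat_lit 174)) (PT.lf (nat_lit 5472) (nat_lit 6) (nat_lit 72) (nat_lit 5) (nat_lit 165) (nat_lit 172) (nat_lit 173))))) (PT.nd (nat_lit 234) (PT.nd (nat_lit 78) (PT.lf (nat_lit 5852) (nat_lit 3) (nat_lit 77) (nat_lit 4) (nat_lit 166) (nat_lit 172)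 (nat_lit 172)) (PT.nd (nat_lit 78) (PT.lf (nat_lit 6080) (nat_lit 6) (nat_lit 80) (nat_lit 4) (nat_lit 167) (nat_lit 172) (nat_lit 171)) (PT.lf (nat_lit 6232) (nat_lit 6) (nat_lit 82) (nat_lit 4) (nat_lit 168) (nat_lit 172) (nat_lit 170)))) (PT.nd (nat_lit 156) (PT.nd (nat_lit 78) (PT.lf (nat_lit 6156) (nat_lit 3) (nat_lit 81) (nat_lit 2) (nat_lit 169) (nat_lit 172) (nat_lit 169)) (PT.lf (nat_lit 6232) (nat_lit 6) (nat_lit 82) (nat_lit 2) (nat_lit 170) (nat_lit 172) (nat_lit 168))) (PT.nd (nat_lit 78) (PT.lf (nat_lit 6080) (nat_lit 6) (nat_lit 80) (nat_lit 2) (nat_lit 171) (nat_lit 172) (nat_lit 167)) (PT.lf (nat_lit 5852) (nat_lit 3) (nat_lit 77) (nat_lit 0) (nat_lit 172) (nat_lit 172) (nat_lit 166)))))) (PT.nd (nat_lit 52182) (PT.nd (nat_lit 234) (PT.nd (nat_lit 78) (PT.lf (nat_lit 5472) (nat_lit 6) (nat_lit 72) (nat_lit 0) (nat_lit 173) (nat_lit 172) (nat_lit 165)) (PT.nd (nat_lit 78)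 (PT.lf (nat_lit 5016) (nat_lit 6) (nat_lit 66) (nat_lit 0) (nat_lit 174) (nat_lit 172) (nat_lit 164)) (PT.lf (nat_lit 4484) (nat_lit 6) (nat_lit 59) (nat_lit 0) (nat_lit 175) (nat_lit 172) (nat_lit 163)))) (PT.nd (nat_lit 51792) (PT.nd (nat_lit 78) (PT.lf (nat_lit 4028) (nat_lit 6) (nat_lit 53) (nat_lit 0) (nat_lit 176) (nat_lit 172) (nat_lit 162)) (PT.lf (nat_lit 3724) (nat_lit 6) (nat_lit 49) (nat_lit 0) (nat_lit 177) (nat_lit 172) (nat_lit 161))) (PT.nd (nat_lit 78) (PT.lf (nat_lit 3268) (nat_lit 6) (nat_lit 43) (nat_lit 5) (nat_lit 159) (nat_lit 173) (nat_lit 178)) (PT.lf (nat_lit 3496) (nat_lit 6) (nat_lit 46) (nat_lit 5) (nat_lit 160) (nat_lit 173) (nat_lit 177))))) (PT.nd (nat_lit 234) (PT.nd (nat_lit 78) (PT.lf (nat_lit 3800) (nat_lit 6) (nat_lit 50) (nat_lit 5) (nat_lit 161) (nat_lit 173) (nat_lit 176)) (PT.nd (nat_lit 78) (PT.lf (nat_lit 4104) (nat_lit 6) (nat_lit 54) (nat_lit 5)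 (nat_lit 162) (nat_lit 173) (nat_lit 175)) (PT.lf (nat_lit 4560) (nat_lit 6) (nat_lit 60) (nat_lit 5) (nat_lit 163) (nat_lit 173) (nat_lit 174)))) (PT.nd (nat_lit 156) (PT.nd (nat_lit 78) (PT.lf (nat_lit 5092) (nat_lit 3) (nat_lit 67) (nat_lit 4) (nat_lit 164) (nat_lit 173) (nat_lit 173)) (PT.lf (nat_lit 5472) (nat_lit 6) (nat_lit 72) (nat_lit 4) (nat_lit 165) (nat_lit 173) (nat_lit 172))) (PT.nd (nat_lit 78) (PT.lf (nat_lit 5776) (nat_lit 6) (nat_lit 76) (nat_lit 4) (nat_lit 166) (nat_lit 173) (nat_lit 171)) (PT.lf (nat_lit 6004) (nat_lit 6) (nat_lit 79) (nat_lit 4) (nat_lit 167) (nat_lit 173) (nat_lit 170))))))))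
noncomputable def pc4 : PT := (PT.nd (nat_lit 53586) (PT.nd (nat_lit 52494) (PT.nd (nat_lit 468) (PT.nd (nat_lit 234) (PT.nd (nat_lit 78) (PT.lf (nat_lit 5928) (nat_lit 6) (nat_lit 78) (nat_lit 4) (nat_lit 168) (nat_lit 173) (nat_lit 169)) (PT.nd (nat_lit 78) (PT.lf (nat_lit 5928) (nat_lit 6) (nat_lit 78) (nat_lit 2) (nat_lit 169) (nat_lit 173) (nat_lit 168)) (PT.lf (nat_lit 6004) (nat_lit 6) (nat_lit 79) (nat_lit 2) (nat_lit 170) (nat_lit 173) (nat_lit 167)))) (PT.nd (nat_lit 78) (PT.lf (nat_lit 5776) (nat_lit 6) (nat_lit 76) (nat_lit 2) (nat_lit 171) (nat_lit 173) (nat_lit 166)) (PT.nd (nat_lit 78) (PT.lf (nat_lit 5472) (nat_lit 6) (nat_lit 72) (nat_lit 2) (nat_lit 172) (nat_lit 173) (nat_lit 165)) (PT.lf (nat_lit 5092) (nat_lit 3) (nat_lit 67) (nat_lit 0) (nat_lit 173) (nat_lit 173) (nat_lit 164))))) (PT.nd (nat_lit 234) (PT.nd (nat_lit 78) (PT.lf (nat_lit 4560) (nat_lit 6) (nat_lit 60)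 (nat_lit 0) (nat_lit 174) (nat_lit 173) (nat_lit 163)) (PT.nd (nat_lit 78) (PT.lf (nat_lit 4104) (nat_lit 6) (nat_lit 54) (nat_lit 0) (nat_lit 175) (nat_lit 173) (nat_lit 162)) (PT.lf (nat_lit 3800) (nat_lit 6) (nat_lit 50) (nat_lit 0) (nat_lit 176) (nat_lit 173) (nat_lit 161)))) (PT.nd (nat_lit 51636) (PT.nd (nat_lit 78) (PT.lf (nat_lit 3496) (nat_lit 6) (nat_lit 46) (nat_lit 0) (nat_lit 177) (nat_lit 173) (nat_lit 160)) (PT.lf (nat_lit 3268) (nat_lit 6) (nat_lit 43) (nat_lit 0) (nat_lit 178) (nat_lit 173) (nat_lit 159))) (PT.nd (nat_lit 78) (PT.lf (nat_lit 3040) (nat_lit 6) (nat_lit 40) (nat_lit 5) (nat_lit 158) (nat_lit 174) (nat_lit 178)) (PT.lf (nat_lit 3344) (nat_lit 6) (nat_lit 44) (nat_lit 5) (nat_lit 159) (nat_lit 174) (nat_lit 177)))))) (PT.nd (nat_lit 546) (PT.nd (nat_lit 234) (PT.nd (nat_lit 78) (PT.lf (nat_lit 3572) (nat_lit 6) (nat_lit 47) (nat_lit 5) (nat_lit 160) (nat_lit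 174) (nat_lit 176)) (PT.nd (nat_lit 78) (PT.lf (nat_lit 3876) (nat_lit 6) (nat_lit 51) (nat_lit 5) (nat_lit 161) (nat_lit 174) (nat_lit 175)) (PT.lf (nat_lit 4180) (nat_lit 3) (nat_lit 55) (nat_lit 4) (nat_lit 162) (nat_lit 174) (nat_lit 174)))) (PT.nd (nat_lit 156) (PT.nd (nat_lit 78) (PT.lf (nat_lit 4560) (nat_lit 6) (nat_lit 60) (nat_lit 4) (nat_lit 163) (nat_lit 174) (nat_lit 173)) (PT.lf (nat_lit 5016) (nat_lit 6) (nat_lit 66) (nat_lit 4) (nat_lit 164) (nat_lit 174) (nat_lit 172))) (PT.nd (nat_lit 78) (PT.lf (nat_lit 5396) (nat_lit 6) (nat_lit 71) (nat_lit 4) (nat_lit 165) (nat_lit 174) (nat_lit 171)) (PT.lf (nat_lit 5700) (nat_lit 6) (nat_lit 75) (nat_lit 4) (nat_lit 166) (nat_lit 174) (nat_lit 170))))) (PT.nd (nat_lit 234) (PT.nd (nat_lit 78) (PT.lf (nat_lit 5624) (nat_lit 6) (nat_lit 74) (nat_lit 4) (nat_lit 167) (nat_lit 174) (nat_lit 169)) (PT.nd (nat_lit 78) (PT.lf (nat_lit 5548)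 (nat_lit 3) (nat_lit 73) (nat_lit 2) (nat_lit 168) (nat_lit 174) (nat_lit 168)) (PT.lf (nat_lit 5624) (nat_lit 6) (nat_lit 74) (nat_lit 2) (nat_lit 169) (nat_lit 174) (nat_lit 167)))) (PT.nd (nat_lit 156) (PT.nd (nat_lit 78) (PT.lf (nat_lit 5700) (nat_lit 6) (nat_lit 75) (nat_lit 2) (nat_lit 170) (nat_lit 174) (nat_lit 166)) (PT.lf (nat_lit 5396) (nat_lit 6) (nat_lit 71) (nat_lit 2) (nat_lit 171) (nat_lit 174) (nat_lit 165))) (PT.nd (nat_lit 78) (PT.lf (nat_lit 5016) (nat_lit 6) (nat_lit 66) (nat_lit 2) (nat_lit 172) (nat_lit 174) (nat_lit 164)) (PT.lf (nat_lit 4560) (nat_lit 6) (nat_lit 60) (nat_lit 2) (nat_lit 173) (nat_lit 174) (nat_lit 163))))))) (PT.nd (nat_lit 52416) (PT.nd (nat_lit 51870) (PT.nd (nat_lit 234) (PT.nd (nat_lit 78) (PT.lf (nat_lit 4180) (nat_lit 3) (nat_lit 55) (nat_lit 0) (nat_lit 174) (nat_lit 174) (nat_lit 162)) (PT.nd (nat_lit 78) (PT.lf (nat_lit 3876) (nat_lit 6)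 (nat_lit 51) (nat_lit 0) (nat_lit 175) (nat_lit 174) (nat_lit 161)) (PT.lf (nat_lit 3572) (nat_lit 6) (nat_lit 47) (nat_lit 0) (nat_lit 176) (nat_lit 174) (nat_lit 160)))) (PT.nd (nat_lit 51480) (PT.nd (nat_lit 78) (PT.lf (nat_lit 3344) (nat_lit 6) (nat_lit 44) (nat_lit 0) (nat_lit 177) (nat_lit 174) (nat_lit 159)) (PT.lf (nat_lit 3040) (nat_lit 6) (nat_lit 40) (nat_lit 0) (nat_lit 178) (nat_lit 174) (nat_lit 158))) (PT.nd (nat_lit 78) (PT.lf (nat_lit 2660) (nat_lit 6) (nat_lit 35) (nat_lit 5) (nat_lit 156) (nat_lit 175) (nat_lit 179)) (PT.lf (nat_lit 2888) (nat_lit 6) (nat_lit 38) (nat_lit 5) (nat_lit 157) (nat_lit 175) (nat_lit 178))))) (PT.nd (nat_lit 234) (PT.nd (nat_lit 78) (PT.lf (nat_lit 3116) (nat_lit 6) (nat_lit 41) (nat_lit 5) (nat_lit 158) (nat_lit 175) (nat_lit 177)) (PT.nd (nat_lit 78) (PT.lf (nat_lit 3420) (nat_lit 6) (nat_lit 45) (nat_lit 5) (nat_lit 159) (nat_lit 175) (nat_lit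 176)) (PT.lf (nat_lit 3648) (nat_lit 3) (nat_lit 48) (nat_lit 4) (nat_lit 160) (nat_lit 175) (nat_lit 175)))) (PT.nd (nat_lit 156) (PT.nd (nat_lit 78) (PT.lf (nat_lit 3876) (nat_lit 6) (nat_lit 51) (nat_lit 4) (nat_lit 161) (nat_lit 175) (nat_lit 174)) (PT.lf (nat_lit 4104) (nat_lit 6) (nat_lit 54) (nat_lit 4) (nat_lit 162) (nat_lit 175) (nat_lit 173))) (PT.nd (nat_lit 78) (PT.lf (nat_lit 4484) (nat_lit 6) (nat_lit 59) (nat_lit 4) (nat_lit 163) (nat_lit 175) (nat_lit 172)) (PT.lf (nat_lit 4940) (nat_lit 6) (nat_lit 65) (nat_lit 4) (nat_lit 164) (nat_lit 175) (nat_lit 171)))))) (PT.nd (nat_lit 546) (PT.nd (nat_lit 234) (PT.nd (nat_lit 78) (PT.lf (nat_lit 5320) (nat_lit 6) (nat_lit 70) (nat_lit 4) (nat_lit 165) (nat_lit 175) (nat_lit 170)) (PT.nd (nat_lit 78) (PT.lf (nat_lit 5244) (nat_lit 6) (nat_lit 69) (nat_lit 4) (nat_lit 166) (nat_lit 175) (nat_lit 169)) (PT.lf (nat_lit 5168) (nat_lit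 6) (nat_lit 68) (nat_lit 4) (nat_lit 167) (nat_lit 175) (nat_lit 168)))) (PT.nd (nat_lit 156) (PT.nd (nat_lit 78) (PT.lf (nat_lit 5168) (nat_lit 6) (nat_lit 68) (nat_lit 2) (nat_lit 168) (nat_lit 175) (nat_lit 167)) (PT.lf (nat_lit 5244) (nat_lit 6) (nat_lit 69) (nat_lit 2) (nat_lit 169) (nat_lit 175) (nat_lit 166))) (PT.nd (nat_lit 78) (PT.lf (nat_lit 5320) (nat_lit 6) (nat_lit 70) (nat_lit 2) (nat_lit 170) (nat_lit 175) (nat_lit 165)) (PT.lf (nat_lit 4940) (nat_lit 6) (nat_lit 65) (nat_lit 2) (nat_lit 171) (nat_lit 175) (nat_lit 164))))) (PT.nd (nat_lit 234) (PT.nd (nat_lit 78) (PT.lf (nat_lit 4484) (nat_lit 6) (nat_lit 59) (nat_lit 2) (nat_lit 172) (nat_lit 175) (nat_lit 163)) (PT.nd (nat_lit 78) (PT.lf (nat_lit 4104) (nat_lit 6) (nat_lit 54) (nat_lit 2) (nat_lit 173) (nat_lit 175) (nat_lit 162)) (PT.lf (nat_lit 3876) (nat_lit 6) (nat_lit 51) (nat_lit 2) (nat_lit 174) (nat_lit 175) (nat_lit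 161)))) (PT.nd (nat_lit 156) (PT.nd (nat_lit 78) (PT.lf (nat_lit 3648) (nat_lit 3) (nat_lit 48) (nat_lit 0) (nat_lit 175) (nat_lit 175) (nat_lit 160)) (PT.lf (nat_lit 3420) (nat_lit 6) (nat_lit 45) (nat_lit 0) (nat_lit 176) (nat_lit 175) (nat_lit 159))) (PT.nd (nat_lit 78) (PT.lf (nat_lit 3116) (nat_lit 6) (nat_lit 41) (nat_lit 0) (nat_lit 177) (nat_lit 175) (nat_lit 158)) (PT.lf (nat_lit 2888) (nat_lit 6) (nat_lit 38) (nat_lit 0) (nat_lit 178) (nat_lit 175) (nat_lit 157))))))))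
noncomputable def pc5 : PT := (PT.nd (nat_lit 104364) (PT.nd (nat_lit 52260) (PT.nd (nat_lit 51714) (PT.nd (nat_lit 51402) (PT.nd (nat_lit 51246) (PT.lf (nat_lit 2660) (nat_lit 6) (nat_lit 35) (nat_lit 0) (nat_lit 179) (nat_lit 175) (nat_lit 156)) (PT.nd (nat_lit 78) (PT.lf (nat_lit 2508) (nat_lit 6) (nat_lit 33) (nat_lit 5) (nat_lit 155) (nat_lit 176) (nat_lit 179)) (PT.lf (nat_lit 2736) (nat_lit 6) (nat_lit 36) (nat_lit 5) (nat_lit 156) (nat_lit 176) (nat_lit 178)))) (PT.nd (nat_lit 156) (PT.nd (nat_lit 78) (PT.lf (nat_lit 2964) (nat_lit 6) (nat_lit 39) (nat_lit 5) (nat_lit 157) (nat_lit 176) (nat_lit 177)) (PT.lf (nat_lit 3192) (nat_lit 3) (nat_lit 42) (nat_lit 4) (nat_lit 158) (nat_lit 176) (nat_lit 176))) (PT.nd (nat_lit 78) (PT.lf (nat_lit 3420) (nat_lit 6) (nat_lit 45) (nat_lit 4) (nat_lit 159) (nat_lit 176) (nat_lit 175)) (PT.lf (nat_lit 3572) (nat_lit 6) (nat_lit 47) (nat_lit 4)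 (nat_lit 160) (nat_lit 176) (nat_lit 174))))) (PT.nd (nat_lit 234) (PT.nd (nat_lit 78) (PT.lf (nat_lit 3800) (nat_lit 6) (nat_lit 50) (nat_lit 4) (nat_lit 161) (nat_lit 176) (nat_lit 173)) (PT.nd (nat_lit 78) (PT.lf (nat_lit 4028) (nat_lit 6) (nat_lit 53) (nat_lit 4) (nat_lit 162) (nat_lit 176) (nat_lit 172)) (PT.lf (nat_lit 4408) (nat_lit 6) (nat_lit 58) (nat_lit 4) (nat_lit 163) (nat_lit 176) (nat_lit 171)))) (PT.nd (nat_lit 156) (PT.nd (nat_lit 78) (PT.lf (nat_lit 4864) (nat_lit 6) (nat_lit 64) (nat_lit 4) (nat_lit 164) (nat_lit 176) (nat_lit 170)) (PT.lf (nat_lit 4788) (nat_lit 6) (nat_lit 63) (nat_lit 4) (nat_lit 165) (nat_lit 176) (nat_lit 169))) (PT.nd (nat_lit 78) (PT.lf (nat_lit 4712) (nat_lit 6) (nat_lit 62) (nat_lit 4) (nat_lit 166) (nat_lit 176) (nat_lit 168)) (PT.lf (nat_lit 4636) (nat_lit 3) (nat_lit 61) (nat_lit 2) (nat_lit 167) (nat_lit 176) (nat_lit 167)))))) (PT.nd (nat_lit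 546) (PT.nd (nat_lit 234) (PT.nd (nat_lit 78) (PT.lf (nat_lit 4712) (nat_lit 6) (nat_lit 62) (nat_lit 2) (nat_lit 168) (nat_lit 176) (nat_lit 166)) (PT.nd (nat_lit 78) (PT.lf (nat_lit 4788) (nat_lit 6) (nat_lit 63) (nat_lit 2) (nat_lit 169) (nat_lit 176) (nat_lit 165)) (PT.lf (nat_lit 4864) (nat_lit 6) (nat_lit 64) (nat_lit 2) (nat_lit 170) (nat_lit 176) (nat_lit 164)))) (PT.nd (nat_lit 156) (PT.nd (nat_lit 78) (PT.lf (nat_lit 4408) (nat_lit 6) (nat_lit 58) (nat_lit 2) (nat_lit 171) (nat_lit 176) (nat_lit 163)) (PT.lf (nat_lit 4028) (nat_lit 6) (nat_lit 53) (nat_lit 2) (nat_lit 172) (nat_lit 176) (nat_lit 162))) (PT.nd (nat_lit 78) (PT.lf (nat_lit 3800) (nat_lit 6) (nat_lit 50) (nat_lit 2) (nat_lit 173) (nat_lit 176) (nat_lit 161)) (PT.lf (nat_lit 3572) (nat_lit 6) (nat_lit 47) (nat_lit 2) (nat_lit 174) (nat_lit 176) (nat_lit 160))))) (PT.nd (nat_lit 234) (PT.nd (nat_lit 78) (PT.lf (nat_lit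 3420) (nat_lit 6) (nat_lit 45) (nat_lit 2) (nat_lit 175) (nat_lit 176) (nat_lit 159)) (PT.nd (nat_lit 78) (PT.lf (nat_lit 3192) (nat_lit 3) (nat_lit 42) (nat_lit 0) (nat_lit 176) (nat_lit 176) (nat_lit 158)) (PT.lf (nat_lit 2964) (nat_lit 6) (nat_lit 39) (nat_lit 0) (nat_lit 177) (nat_lit 176) (nat_lit 157)))) (PT.nd (nat_lit 51168) (PT.nd (nat_lit 78) (PT.lf (nat_lit 2736) (nat_lit 6) (nat_lit 36) (nat_lit 0) (nat_lit 178) (nat_lit 176) (nat_lit 156)) (PT.lf (nat_lit 2508) (nat_lit 6) (nat_lit 33) (nat_lit 0) (nat_lit 179) (nat_lit 176) (nat_lit 155))) (PT.nd (nat_lit 78) (PT.lf (nat_lit 2204) (nat_lit 6) (nat_lit 29) (nat_lit 5) (nat_lit 153) (nat_lit 177) (nat_lit 180)) (PT.lf (nat_lit 2356) (nat_lit 6) (nat_lit 31) (nat_lit 5) (nat_lit 154) (nat_lit 177) (nat_lit 179))))))) (PT.nd (nat_lit 1404) (PT.nd (nat_lit 546) (PT.nd (nat_lit 234) (PT.nd (nat_lit 78) (PT.lf (nat_lit 2584) (nat_lit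 6) (nat_lit 34) (nat_lit 5) (nat_lit 155) (nat_lit 177) (nat_lit 178)) (PT.nd (nat_lit 78) (PT.lf (nat_lit 2812) (nat_lit 3) (nat_lit 37) (nat_lit 4) (nat_lit 156) (nat_lit 177) (nat_lit 177)) (PT.lf (nat_lit 2964) (nat_lit 6) (nat_lit 39) (nat_lit 4) (nat_lit 157) (nat_lit 177) (nat_lit 176)))) (PT.nd (nat_lit 156) (PT.nd (nat_lit 78) (PT.lf (nat_lit 3116) (nat_lit 6) (nat_lit 41) (nat_lit 4) (nat_lit 158) (nat_lit 177) (nat_lit 175)) (PT.lf (nat_lit 3344) (nat_lit 6) (nat_lit 44) (nat_lit 4) (nat_lit 159) (nat_lit 177) (nat_lit 174))) (PT.nd (nat_lit 78) (PT.lf (nat_lit 3496) (nat_lit 6) (nat_lit 46) (nat_lit 4) (nat_lit 160) (nat_lit 177) (nat_lit 173)) (PT.lf (nat_lit 3724) (nat_lit 6) (nat_lit 49) (nat_lit 4) (nat_lit 161) (nat_lit 177) (nat_lit 172))))) (PT.nd (nat_lit 546) (PT.nd (nat_lit 78) (PT.lf (nat_lit 3952) (nat_lit 6) (nat_lit 52) (nat_lit 4) (nat_lit 162) (nat_lit 177) (nat_lit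 171)) (PT.nd (nat_lit 78) (PT.lf (nat_lit 4332) (nat_lit 6) (nat_lit 57) (nat_lit 4) (nat_lit 163) (nat_lit 177) (nat_lit 170)) (PT.lf (nat_lit 4256) (nat_lit 6) (nat_lit 56) (nat_lit 4) (nat_lit 164) (nat_lit 177) (nat_lit 169)))) (PT.nd (nat_lit 156) (PT.nd (nat_lit 78) (PT.lf (nat_lit 4256) (nat_lit 6) (nat_lit 56) (nat_lit 2) (nat_lit 169) (nat_lit 177) (nat_lit 164)) (PT.lf (nat_lit 4332) (nat_lit 6) (nat_lit 57) (nat_lit 2) (nat_lit 170) (nat_lit 177) (nat_lit 163))) (PT.nd (nat_lit 78) (PT.lf (nat_lit 3952) (nat_lit 6) (nat_lit 52) (nat_lit 2) (nat_lit 171) (nat_lit 177) (nat_lit 162)) (PT.lf (nat_lit 3724) (nat_lit 6) (nat_lit 49) (nat_lit 2) (nat_lit 172) (nat_lit 177) (nat_lit 161)))))) (PT.nd (nat_lit 546) (PT.nd (nat_lit 234) (PT.nd (nat_lit 78) (PT.lf (nat_lit 3496) (nat_lit 6) (nat_lit 46) (nat_lit 2) (nat_lit 173) (nat_lit 177) (nat_lit 160)) (PT.nd (nat_lit 78) (PT.lf (nat_lit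 3344) (nat_lit 6) (nat_lit 44) (nat_lit 2) (nat_lit 174) (nat_lit 177) (nat_lit 159)) (PT.lf (nat_lit 3116) (nat_lit 6) (nat_lit 41) (nat_lit 2) (nat_lit 175) (nat_lit 177) (nat_lit 158)))) (PT.nd (nat_lit 156) (PT.nd (nat_lit 78) (PT.lf (nat_lit 2964) (nat_lit 6) (nat_lit 39) (nat_lit 2) (nat_lit 176) (nat_lit 177) (nat_lit 157)) (PT.lf (nat_lit 2812) (nat_lit 3) (nat_lit 37) (nat_lit 0) (nat_lit 177) (nat_lit 177) (nat_lit 156))) (PT.nd (nat_lit 78) (PT.lf (nat_lit 2584) (nat_lit 6) (nat_lit 34) (nat_lit 0) (nat_lit 178) (nat_lit 177) (nat_lit 155)) (PT.lf (nat_lit 2356) (nat_lit 6) (nat_lit 31) (nat_lit 0) (nat_lit 179) (nat_lit 177) (nat_lit 154))))) (PT.nd (nat_lit 51012) (PT.nd (nat_lit 50856) (PT.lf (nat_lit 2204) (nat_lit 6) (nat_lit 29) (nat_lit 0) (nat_lit 180) (nat_lit 177) (nat_lit 153)) (PT.nd (nat_lit 78) (PT.lf (nat_lit 1900) (nat_lit 6) (nat_lit 25) (nat_lit 5) (nat_lit 151)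 (nat_lit 178) (nat_lit 181)) (PT.lf (nat_lit 2052) (nat_lit 6) (nat_lit 27) (nat_lit 5) (nat_lit 152) (nat_lit 178) (nat_lit 180)))) (PT.nd (nat_lit 156) (PT.nd (nat_lit 78) (PT.lf (nat_lit 2280) (nat_lit 6) (nat_lit 30) (nat_lit 5) (nat_lit 153) (nat_lit 178) (nat_lit 179)) (PT.lf (nat_lit 2432) (nat_lit 3) (nat_lit 32) (nat_lit 4) (nat_lit 154) (nat_lit 178) (nat_lit 178))) (PT.nd (nat_lit 78) (PT.lf (nat_lit 2584) (nat_lit 6) (nat_lit 34) (nat_lit 4) (nat_lit 155) (nat_lit 178) (nat_lit 177)) (PT.lf (nat_lit 2736) (nat_lit 6) (nat_lit 36) (nat_lit 4) (nat_lit 156) (nat_lit 178) (nat_lit 176))))))))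
noncomputable def pc6 : PT := (PT.nd (nat_lit 105690) (PT.nd (nat_lit 52728) (PT.nd (nat_lit 1560) (PT.nd (nat_lit 1248) (PT.nd (nat_lit 78) (PT.lf (nat_lit 2888) (nat_lit 6) (nat_lit 38) (nat_lit 4) (nat_lit 157) (nat_lit 178) (nat_lit 175)) (PT.nd (nat_lit 78) (PT.lf (nat_lit 3040) (nat_lit 6) (nat_lit 40) (nat_lit 4) (nat_lit 158) (nat_lit 178) (nat_lit 174)) (PT.lf (nat_lit 3268) (nat_lit 6) (nat_lit 43) (nat_lit 4) (nat_lit 159) (nat_lit 178) (nat_lit 173)))) (PT.nd (nat_lit 156) (PT.nd (nat_lit 78) (PT.lf (nat_lit 3268) (nat_lit 6) (nat_lit 43) (nat_lit 2) (nat_lit 173) (nat_lit 178) (nat_lit 159)) (PT.lf (nat_lit 3040) (nat_lit 6) (nat_lit 40) (nat_lit 2) (nat_lit 174) (nat_lit 178) (nat_lit 158))) (PT.nd (nat_lit 78) (PT.lf (nat_lit 2888) (nat_lit 6) (nat_lit 38) (nat_lit 2) (nat_lit 175) (nat_lit 178) (nat_lit 157)) (PT.lf (nat_lit 2736) (nat_lit 6) (nat_lit 36) (nat_lit 2) (nat_lit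 176) (nat_lit 178) (nat_lit 156))))) (PT.nd (nat_lit 234) (PT.nd (nat_lit 78) (PT.lf (nat_lit 2584) (nat_lit 6) (nat_lit 34) (nat_lit 2) (nat_lit 177) (nat_lit 178) (nat_lit 155)) (PT.nd (nat_lit 78) (PT.lf (nat_lit 2432) (nat_lit 3) (nat_lit 32) (nat_lit 0) (nat_lit 178) (nat_lit 178) (nat_lit 154)) (PT.lf (nat_lit 2280) (nat_lit 6) (nat_lit 30) (nat_lit 0) (nat_lit 179) (nat_lit 178) (nat_lit 153)))) (PT.nd (nat_lit 50778) (PT.nd (nat_lit 78) (PT.lf (nat_lit 2052) (nat_lit 6) (nat_lit 27) (nat_lit 0) (nat_lit 180) (nat_lit 178) (nat_lit 152)) (PT.lf (nat_lit 1900) (nat_lit 6) (nat_lit 25) (nat_lit 0) (nat_lit 181) (nat_lit 178) (nat_lit 151))) (PT.nd (nat_lit 78) (PT.lf (nat_lit 1748) (nat_lit 6) (nat_lit 23) (nat_lit 5) (nat_lit 150) (nat_lit 179) (nat_lit 181)) (PT.lf (nat_lit 1976) (nat_lit 6) (nat_lit 26) (nat_lit 5) (nat_lit 151) (nat_lit 179) (nat_lit 180)))))) (PT.nd (nat_lit 1950)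 (PT.nd (nat_lit 234) (PT.nd (nat_lit 78) (PT.lf (nat_lit 2128) (nat_lit 3) (nat_lit 28) (nat_lit 4) (nat_lit 152) (nat_lit 179) (nat_lit 179)) (PT.nd (nat_lit 78) (PT.lf (nat_lit 2280) (nat_lit 6) (nat_lit 30) (nat_lit 4) (nat_lit 153) (nat_lit 179) (nat_lit 178)) (PT.lf (nat_lit 2356) (nat_lit 6) (nat_lit 31) (nat_lit 4) (nat_lit 154) (nat_lit 179) (nat_lit 177)))) (PT.nd (nat_lit 1560) (PT.nd (nat_lit 78) (PT.lf (nat_lit 2508) (nat_lit 6) (nat_lit 33) (nat_lit 4) (nat_lit 155) (nat_lit 179) (nat_lit 176)) (PT.lf (nat_lit 2660) (nat_lit 6) (nat_lit 35) (nat_lit 4) (nat_lit 156) (nat_lit 179) (nat_lit 175))) (PT.nd (nat_lit 78) (PT.lf (nat_lit 2660) (nat_lit 6) (nat_lit 35) (nat_lit 2) (nat_lit 175) (nat_lit 179) (nat_lit 156)) (PT.lf (nat_lit 2508) (nat_lit 6) (nat_lit 33) (nat_lit 2) (nat_lit 176) (nat_lit 179) (nat_lit 155))))) (PT.nd (nat_lit 234) (PT.nd (nat_lit 78) (PT.lf (nat_lit 2356)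 (nat_lit 6) (nat_lit 31) (nat_lit 2) (nat_lit 177) (nat_lit 179) (nat_lit 154)) (PT.nd (nat_lit 78) (PT.lf (nat_lit 2280) (nat_lit 6) (nat_lit 30) (nat_lit 2) (nat_lit 178) (nat_lit 179) (nat_lit 153)) (PT.lf (nat_lit 2128) (nat_lit 3) (nat_lit 28) (nat_lit 0) (nat_lit 179) (nat_lit 179) (nat_lit 152)))) (PT.nd (nat_lit 50622) (PT.nd (nat_lit 78) (PT.lf (nat_lit 1976) (nat_lit 6) (nat_lit 26) (nat_lit 0) (nat_lit 180) (nat_lit 179) (nat_lit 151)) (PT.lf (nat_lit 1748) (nat_lit 6) (nat_lit 23) (nat_lit 0) (nat_lit 181) (nat_lit 179) (nat_lit 150))) (PT.nd (nat_lit 78) (PT.lf (nat_lit 1520) (nat_lit 6) (nat_lit 20) (nat_lit 5) (nat_lit 148) (nat_lit 180) (nat_lit 182)) (PT.lf (nat_lit 1672) (nat_lit 6) (nat_lit 22) (nat_lit 5) (nat_lit 149) (nat_lit 180) (nat_lit 181))))))) (PT.nd (nat_lit 53118) (PT.nd (nat_lit 2340) (PT.nd (nat_lit 234) (PT.nd (nat_lit 78) (PT.lf (nat_lit 1824) (nat_lit 3)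 (nat_lit 24) (nat_lit 4) (nat_lit 150) (nat_lit 180) (nat_lit 180)) (PT.nd (nat_lit 78) (PT.lf (nat_lit 1976) (nat_lit 6) (nat_lit 26) (nat_lit 4) (nat_lit 151) (nat_lit 180) (nat_lit 179)) (PT.lf (nat_lit 2052) (nat_lit 6) (nat_lit 27) (nat_lit 4) (nat_lit 152) (nat_lit 180) (nat_lit 178)))) (PT.nd (nat_lit 1950) (PT.nd (nat_lit 1872) (PT.lf (nat_lit 2204) (nat_lit 6) (nat_lit 29) (nat_lit 4) (nat_lit 153) (nat_lit 180) (nat_lit 177)) (PT.lf (nat_lit 2204) (nat_lit 6) (nat_lit 29) (nat_lit 2) (nat_lit 177) (nat_lit 180) (nat_lit 153))) (PT.nd (nat_lit 78) (PT.lf (nat_lit 2052) (nat_lit 6) (nat_lit 27) (nat_lit 2) (nat_lit 178) (nat_lit 180) (nat_lit 152)) (PT.lf (nat_lit 1976) (nat_lit 6) (nat_lit 26) (nat_lit 2) (nat_lit 179) (nat_lit 180) (nat_lit 151))))) (PT.nd (nat_lit 50466) (PT.nd (nat_lit 78) (PT.lf (nat_lit 1824) (nat_lit 3) (nat_lit 24) (nat_lit 0) (nat_lit 180) (nat_lit 180) (nat_lit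 150)) (PT.nd (nat_lit 78) (PT.lf (nat_lit 1672) (nat_lit 6) (nat_lit 22) (nat_lit 0) (nat_lit 181) (nat_lit 180) (nat_lit 149)) (PT.lf (nat_lit 1520) (nat_lit 6) (nat_lit 20) (nat_lit 0) (nat_lit 182) (nat_lit 180) (nat_lit 148)))) (PT.nd (nat_lit 156) (PT.nd (nat_lit 78) (PT.lf (nat_lit 1292) (nat_lit 6) (nat_lit 17) (nat_lit 5) (nat_lit 146) (nat_lit 181) (nat_lit 183)) (PT.lf (nat_lit 1444) (nat_lit 6) (nat_lit 19) (nat_lit 5) (nat_lit 147) (nat_lit 181) (nat_lit 182))) (PT.nd (nat_lit 78) (PT.lf (nat_lit 1596) (nat_lit 3) (nat_lit 21) (nat_lit 4) (nat_lit 148) (nat_lit 181) (nat_lit 181)) (PT.lf (nat_lit 1672) (nat_lit 6) (nat_lit 22) (nat_lit 4) (nat_lit 149) (nat_lit 181) (nat_lit 180)))))) (PT.nd (nat_lit 2574) (PT.nd (nat_lit 2262) (PT.nd (nat_lit 78) (PT.lf (nat_lit 1748) (nat_lit 6) (nat_lit 23) (nat_lit 4) (nat_lit 150) (nat_lit 181) (nat_lit 179)) (PT.nd (nat_lit 2106) (PT.lf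 (nat_lit 1900) (nat_lit 6) (nat_lit 25) (nat_lit 4) (nat_lit 151) (nat_lit 181) (nat_lit 178)) (PT.lf (nat_lit 1900) (nat_lit 6) (nat_lit 25) (nat_lit 2) (nat_lit 178) (nat_lit 181) (nat_lit 151)))) (PT.nd (nat_lit 156) (PT.nd (nat_lit 78) (PT.lf (nat_lit 1748) (nat_lit 6) (nat_lit 23) (nat_lit 2) (nat_lit 179) (nat_lit 181) (nat_lit 150)) (PT.lf (nat_lit 1672) (nat_lit 6) (nat_lit 22) (nat_lit 2) (nat_lit 180) (nat_lit 181) (nat_lit 149))) (PT.nd (nat_lit 78) (PT.lf (nat_lit 1596) (nat_lit 3) (nat_lit 21) (nat_lit 0) (nat_lit 181) (nat_lit 181) (nat_lit 148)) (PT.lf (nat_lit 1444) (nat_lit 6) (nat_lit 19) (nat_lit 0) (nat_lit 182) (nat_lit 181) (nat_lit 147))))) (PT.nd (nat_lit 50232) (PT.nd (nat_lit 50076) (PT.lf (nat_lit 1292) (nat_lit 6) (nat_lit 17) (nat_lit 0) (nat_lit 183) (nat_lit 181) (nat_lit 146)) (PT.nd (nat_lit 78) (PT.lf (nat_lit 1064) (nat_lit 6) (nat_lit 14) (nat_lit 5) (nat_lit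 144) (nat_lit 182) (nat_lit 184)) (PT.lf (nat_lit 1216) (nat_lit 6) (nat_lit 16) (nat_lit 5) (nat_lit 145) (nat_lit 182) (nat_lit 183)))) (PT.nd (nat_lit 156) (PT.nd (nat_lit 78) (PT.lf (nat_lit 1368) (nat_lit 3) (nat_lit 18) (nat_lit 4) (nat_lit 146) (nat_lit 182) (nat_lit 182)) (PT.lf (nat_lit 1444) (nat_lit 6) (nat_lit 19) (nat_lit 4) (nat_lit 147) (nat_lit 182) (nat_lit 181))) (PT.nd (nat_lit 2496) (PT.lf (nat_lit 1520) (nat_lit 6) (nat_lit 20) (nat_lit 4) (nat_lit 148) (nat_lit 182) (nat_lit 180)) (PT.lf (nat_lit 1520) (nat_lit 6) (nat_lit 20) (nat_lit 2) (nat_lit 180) (nat_lit 182) (nat_lit 148))))))))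
noncomputable def pc7 : PT := (PT.nd (nat_lit 156312) (PT.nd (nat_lit 103038) (PT.nd (nat_lit 50310) (PT.nd (nat_lit 234) (PT.nd (nat_lit 78) (PT.lf (nat_lit 1444) (nat_lit 6) (nat_lit 19) (nat_lit 2) (nat_lit 181) (nat_lit 182) (nat_lit 147)) (PT.nd (nat_lit 78) (PT.lf (nat_lit 1368) (nat_lit 3) (nat_lit 18) (nat_lit 0) (nat_lit 182) (nat_lit 182) (nat_lit 146)) (PT.lf (nat_lit 1216) (nat_lit 6) (nat_lit 16) (nat_lit 0) (nat_lit 183) (nat_lit 182) (nat_lit 145)))) (PT.nd (nat_lit 49920) (PT.nd (nat_lit 49842) (PT.lf (nat_lit 1064) (nat_lit 6) (nat_lit 14) (nat_lit 0) (nat_lit 184) (nat_lit 182) (nat_lit 144)) (PT.lf (nat_lit 836) (nat_lit 6) (nat_lit 11) (nat_lit 5) (nat_lit 142) (nat_lit 183) (nat_lit 185))) (PT.nd (nat_lit 78) (PT.lf (nat_lit 988) (nat_lit 6) (nat_lit 13) (nat_lit 5) (nat_lit 143) (nat_lit 183) (nat_lit 184)) (PT.lf (nat_lit 1140) (nat_lit 3) (nat_lit 15) (nat_lit 4) (nat_lit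 144) (nat_lit 183) (nat_lit 183))))) (PT.nd (nat_lit 2886) (PT.nd (nat_lit 78) (PT.lf (nat_lit 1216) (nat_lit 6) (nat_lit 16) (nat_lit 4) (nat_lit 145) (nat_lit 183) (nat_lit 182)) (PT.nd (nat_lit 2730) (PT.lf (nat_lit 1292) (nat_lit 6) (nat_lit 17) (nat_lit 4) (nat_lit 146) (nat_lit 183) (nat_lit 181)) (PT.lf (nat_lit 1292) (nat_lit 6) (nat_lit 17) (nat_lit 2) (nat_lit 181) (nat_lit 183) (nat_lit 146)))) (PT.nd (nat_lit 156) (PT.nd (nat_lit 78) (PT.lf (nat_lit 1216) (nat_lit 6) (nat_lit 16) (nat_lit 2) (nat_lit 182) (nat_lit 183) (nat_lit 145)) (PT.lf (nat_lit 1140) (nat_lit 3) (nat_lit 15) (nat_lit 0) (nat_lit 183) (nat_lit 183) (nat_lit 144))) (PT.nd (nat_lit 78) (PT.lf (nat_lit 988) (nat_lit 6) (nat_lit 13) (nat_lit 0) (nat_lit 184) (nat_lit 183) (nat_lit 143)) (PT.lf (nat_lit 836) (nat_lit 6) (nat_lit 11) (nat_lit 0) (nat_lit 185) (nat_lit 183) (nat_lit 142)))))) (PT.nd (nat_lit 3432)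 (PT.nd (nat_lit 234) (PT.nd (nat_lit 78) (PT.lf (nat_lit 608) (nat_lit 6) (nat_lit 8) (nat_lit 5) (nat_lit 140) (nat_lit 184) (nat_lit 186)) (PT.nd (nat_lit 78) (PT.lf (nat_lit 760) (nat_lit 6) (nat_lit 10) (nat_lit 5) (nat_lit 141) (nat_lit 184) (nat_lit 185)) (PT.lf (nat_lit 912) (nat_lit 3) (nat_lit 12) (nat_lit 4) (nat_lit 142) (nat_lit 184) (nat_lit 184)))) (PT.nd (nat_lit 3042) (PT.nd (nat_lit 78) (PT.lf (nat_lit 988) (nat_lit 6) (nat_lit 13) (nat_lit 4) (nat_lit 143) (nat_lit 184) (nat_lit 183)) (PT.lf (nat_lit 1064) (nat_lit 6) (nat_lit 14) (nat_lit 4) (nat_lit 144) (nat_lit 184) (nat_lit 182))) (PT.nd (nat_lit 78) (PT.lf (nat_lit 1064) (nat_lit 6) (nat_lit 14) (nat_lit 2) (nat_lit 182) (nat_lit 184) (nat_lit 144)) (PT.lf (nat_lit 988) (nat_lit 6) (nat_lit 13) (nat_lit 2) (nat_lit 183) (nat_lit 184) (nat_lit 143))))) (PT.nd (nat_lit 49530) (PT.nd (nat_lit 78) (PT.lf (nat_lit 912)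 (nat_lit 3) (nat_lit 12) (nat_lit 0) (nat_lit 184) (nat_lit 184) (nat_lit 142)) (PT.nd (nat_lit 78) (PT.lf (nat_lit 760) (nat_lit 6) (nat_lit 10) (nat_lit 0) (nat_lit 185) (nat_lit 184) (nat_lit 141)) (PT.lf (nat_lit 608) (nat_lit 6) (nat_lit 8) (nat_lit 0) (nat_lit 186) (nat_lit 184) (nat_lit 140)))) (PT.nd (nat_lit 156) (PT.nd (nat_lit 78) (PT.lf (nat_lit 380) (nat_lit 6) (nat_lit 5) (nat_lit 5) (nat_lit 138) (nat_lit 185) (nat_lit 187)) (PT.lf (nat_lit 532) (nat_lit 6) (nat_lit 7) (nat_lit 5) (nat_lit 139) (nat_lit 185) (nat_lit 186))) (PT.nd (nat_lit 78) (PT.lf (nat_lit 684) (nat_lit 3) (nat_lit 9) (nat_lit 4) (nat_lit 140) (nat_lit 185) (nat_lit 185)) (PT.lf (nat_lit 760) (nat_lit 6) (nat_lit 10) (nat_lit 4) (nat_lit 141) (nat_lit 185) (nat_lit 184))))))) (PT.nd (nat_lit 56628) (PT.nd (nat_lit 52728) (PT.nd (nat_lit 3354) (PT.nd (nat_lit 3198) (PT.lf (nat_lit 836) (nat_lit 6) (nat_lit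 11) (nat_lit 4) (nat_lit 142) (nat_lit 185) (nat_lit 183)) (PT.nd (nat_lit 78) (PT.lf (nat_lit 836) (nat_lit 6) (nat_lit 11) (nat_lit 2) (nat_lit 183) (nat_lit 185) (nat_lit 142)) (PT.lf (nat_lit 760) (nat_lit 6) (nat_lit 10) (nat_lit 2) (nat_lit 184) (nat_lit 185) (nat_lit 141)))) (PT.nd (nat_lit 156) (PT.nd (nat_lit 78) (PT.lf (nat_lit 684) (nat_lit 3) (nat_lit 9) (nat_lit 0) (nat_lit 185) (nat_lit 185) (nat_lit 140)) (PT.lf (nat_lit 532) (nat_lit 6) (nat_lit 7) (nat_lit 0) (nat_lit 186) (nat_lit 185) (nat_lit 139))) (PT.nd (nat_lit 49140) (PT.lf (nat_lit 380) (nat_lit 6) (nat_lit 5) (nat_lit 0) (nat_lit 187) (nat_lit 185) (nat_lit 138)) (PT.lf (nat_lit 152) (nat_lit 6) (nat_lit 2) (nat_lit 5) (nat_lit 136) (nat_lit 186) (nat_lit 188))))) (PT.nd (nat_lit 234) (PT.nd (nat_lit 78) (PT.lf (nat_lit 304) (nat_lit 6) (nat_lit 4) (nat_lit 5) (nat_lit 137) (nat_lit 186) (nat_lit 187)) (PT.nd (nat_lit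 78) (PT.lf (nat_lit 456) (nat_lit 3) (nat_lit 6) (nat_lit 4) (nat_lit 138) (nat_lit 186) (nat_lit 186)) (PT.lf (nat_lit 532) (nat_lit 6) (nat_lit 7) (nat_lit 4) (nat_lit 139) (nat_lit 186) (nat_lit 185)))) (PT.nd (nat_lit 3510) (PT.nd (nat_lit 3432) (PT.lf (nat_lit 608) (nat_lit 6) (nat_lit 8) (nat_lit 4) (nat_lit 140) (nat_lit 186) (nat_lit 184)) (PT.lf (nat_lit 608) (nat_lit 6) (nat_lit 8) (nat_lit 2) (nat_lit 184) (nat_lit 186) (nat_lit 140))) (PT.nd (nat_lit 78) (PT.lf (nat_lit 532) (nat_lit 6) (nat_lit 7) (nat_lit 2) (nat_lit 185) (nat_lit 186) (nat_lit 139)) (PT.lf (nat_lit 456) (nat_lit 3) (nat_lit 6) (nat_lit 0) (nat_lit 186) (nat_lit 186) (nat_lit 138)))))) (PT.nd (nat_lit 53040) (PT.nd (nat_lit 49140) (PT.nd (nat_lit 78) (PT.lf (nat_lit 304) (nat_lit 6) (nat_lit 4) (nat_lit 0) (nat_lit 187) (nat_lit 186) (nat_lit 137)) (PT.nd (nat_lit 48984) (PT.lf (nat_lit 152) (nat_lit 6) (nat_lit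 2) (nat_lit 0) (nat_lit 188) (nat_lit 186) (nat_lit 136)) (PT.lf (nat_lit 76) (nat_lit 6) (nat_lit 1) (nat_lit 5) (nat_lit 135) (nat_lit 187) (nat_lit 188)))) (PT.nd (nat_lit 156) (PT.nd (nat_lit 78) (PT.lf (nat_lit 228) (nat_lit 3) (nat_lit 3) (nat_lit 4) (nat_lit 136) (nat_lit 187) (nat_lit 187)) (PT.lf (nat_lit 304) (nat_lit 6) (nat_lit 4) (nat_lit 4) (nat_lit 137) (nat_lit 187) (nat_lit 186))) (PT.nd (nat_lit 3666) (PT.lf (nat_lit 380) (nat_lit 6) (nat_lit 5) (nat_lit 4) (nat_lit 138) (nat_lit 187) (nat_lit 185)) (PT.lf (nat_lit 380) (nat_lit 6) (nat_lit 5) (nat_lit 2) (nat_lit 185) (nat_lit 187) (nat_lit 138))))) (PT.nd (nat_lit 49140) (PT.nd (nat_lit 78) (PT.lf (nat_lit 304) (nat_lit 6) (nat_lit 4) (nat_lit 2) (nat_lit 186) (nat_lit 187) (nat_lit 137)) (PT.nd (nat_lit 78) (PT.lf (nat_lit 228) (nat_lit 3) (nat_lit 3) (nat_lit 0) (nat_lit 187) (nat_lit 187) (nat_lit 136)) (PT.lf (nat_lit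 76) (nat_lit 6) (nat_lit 1) (nat_lit 0) (nat_lit 188) (nat_lit 187) (nat_lit 135)))) (PT.nd (nat_lit 3978) (PT.nd (nat_lit 78) (PT.lf (nat_lit 76) (nat_lit 6) (nat_lit 1) (nat_lit 4) (nat_lit 135) (nat_lit 188) (nat_lit 187)) (PT.lf (nat_lit 152) (nat_lit 6) (nat_lit 2) (nat_lit 4) (nat_lit 136) (nat_lit 188) (nat_lit 186))) (PT.nd (nat_lit 78) (PT.lf (nat_lit 152) (nat_lit 6) (nat_lit 2) (nat_lit 2) (nat_lit 186) (nat_lit 188) (nat_lit 136)) (PT.lf (nat_lit 76) (nat_lit 6) (nat_lit 1) (nat_lit 2) (nat_lit 187) (nat_lit 188) (nat_lit 135))))))))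
noncomputable def xc0 : XT := (XT.nd (nat_lit 212472) (nat_lit 0) (nat_lit 0) (XT.nd (nat_lit 159120) (nat_lit 0) (nat_lit 0) (XT.nd (nat_lit 106080) (nat_lit 0) (nat_lit 0) (XT.nd (nat_lit 53118) (nat_lit 0) (nat_lit 0) (XT.nd (nat_lit 52962) (nat_lit 0) (nat_lit 0) (XT.lf (nat_lit 0) (nat_lit 253184956089) (nat_lit 152) (nat_lit 172230218276) (nat_lit 0) (nat_lit 253184956089) (nat_lit 1) (nat_lit 5) (nat_lit 3) (nat_lit 4) (nat_lit 1) (nat_lit 4) (nat_lit 436) (nat_lit 292) (nat_lit 292)) (XT.nd (nat_lit 78) (nat_lit 0) (nat_lit 0) (XT.lf (nat_lit 0) (nat_lit 215385438955) (nat_lit 152) (nat_lit 151105760345) (nat_lit 0) (nat_lit 215385438955) (nat_lit 1) (nat_lit 5) (nat_lit 3) (nat_lit 4) (nat_lit 1) (nat_lit 4) (nat_lit 434) (nat_lit 293) (nat_lit 293)) (XT.lf (nat_lit 0) (nat_lit 467156483265) (nat_lit 152) (nat_lit 322475878193) (nat_lit 0) (nat_lit 467123078947) (nat_lit 1) (nat_lit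 5) (nat_lit 3) (nat_lit 4) (nat_lit 1) (nat_lit 4) (nat_lit 435) (nat_lit 293) (nat_lit 292)))) (XT.nd (nat_lit 52806) (nat_lit 0) (nat_lit 0) (XT.lf (nat_lit 0) (nat_lit 506357371541) (nat_lit 152) (nat_lit 344552151606) (nat_lit 0) (nat_lit 506293037299) (nat_lit 1) (nat_lit 5) (nat_lit 3) (nat_lit 4) (nat_lit 1) (nat_lit 4) (nat_lit 436) (nat_lit 293) (nat_lit 291)) (XT.nd (nat_lit 78) (nat_lit 0) (nat_lit 0) (XT.lf (nat_lit 0) (nat_lit 182844057318) (nat_lit 152) (nat_lit 133270631158) (nat_lit 0) (nat_lit 182844057318) (nat_lit 1) (nat_lit 5) (nat_lit 3) (nat_lit 4) (nat_lit 1) (nat_lit 4) (nat_lit 432) (nat_lit 294) (nat_lit 294)) (XT.lf (nat_lit 0) (nat_lit 397021013739) (nat_lit 152) (nat_lit 283638994016) (nat_lit 0) (nat_lit 396984937076) (nat_lit 1) (nat_lit 5) (nat_lit 3) (nat_lit 4) (nat_lit 1) (nat_lit 4) (nat_lit 433) (nat_lit 294) (nat_lit 293))))) (XT.nd (nat_lit 52806) (nat_lit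 0) (nat_lit 0) (XT.nd (nat_lit 78) (nat_lit 0) (nat_lit 0) (XT.lf (nat_lit 0) (nat_lit 430757334023) (nat_lit 152) (nat_lit 302310572947) (nat_lit 0) (nat_lit 430687853041) (nat_lit 1) (nat_lit 5) (nat_lit 3) (nat_lit 4) (nat_lit 1) (nat_lit 4) (nat_lit 434) (nat_lit 294) (nat_lit 292)) (XT.nd (nat_lit 78) (nat_lit 0) (nat_lit 0) (XT.lf (nat_lit 0) (nat_lit 467096994422) (nat_lit 152) (nat_lit 322666645503) (nat_lit 0) (nat_lit 466996583516) (nat_lit 1) (nat_lit 5) (nat_lit 3) (nat_lit 4) (nat_lit 1) (nat_lit 4) (nat_lit 435) (nat_lit 294) (nat_lit 291)) (XT.lf (nat_lit 0) (nat_lit 506255341073) (nat_lit 152) (nat_lit 344827840261) (nat_lit 0) (nat_lit 506126291349) (nat_lit 1) (nat_lit 5) (nat_lit 3) (nat_lit 4) (nat_lit 1) (nat_lit 4) (nat_lit 436) (nat_lit 294) (nat_lit 290)))) (XT.nd (nat_lit 78) (nat_lit 0) (nat_lit 0) (XT.lf (nat_lit 0) (nat_lit 154799928309) (nat_lit 152) (nat_lit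 118277626288) (nat_lit 0) (nat_lit 154799928309) (nat_lit 1) (nat_lit 5) (nat_lit 3) (nat_lit 4) (nat_lit 1) (nat_lit 4) (nat_lit 430) (nat_lit 295) (nat_lit 295)) (XT.nd (nat_lit 78) (nat_lit 0) (nat_lit 0) (XT.lf (nat_lit 0) (nat_lit 336611923073) (nat_lit 152) (nat_lit 250916057954) (nat_lit 0) (nat_lit 336572960277) (nat_lit 1) (nat_lit 5) (nat_lit 3) (nat_lit 4) (nat_lit 1) (nat_lit 4) (nat_lit 431) (nat_lit 295) (nat_lit 294)) (XT.lf (nat_lit 0) (nat_lit 365673487238) (nat_lit 152) (nat_lit 266648238753) (nat_lit 0) (nat_lit 365598447778) (nat_lit 1) (nat_lit 5) (nat_lit 3) (nat_lit 4) (nat_lit 1) (nat_lit 4) (nat_lit 432) (nat_lit 295) (nat_lit 293)))))) (XT.nd (nat_lit 52884) (nat_lit 0) (nat_lit 0) (XT.nd (nat_lit 234) (nat_lit 0) (nat_lit 0) (XT.nd (nat_lit 78) (nat_lit 0) (nat_lit 0) (XT.lf (nat_lit 0) (nat_lit 396956765789) (nat_lit 152) (nat_lit 283845022711) (nat_lit 0) (nat_lit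 396848322011) (nat_lit 1) (nat_lit 5) (nat_lit 3) (nat_lit 4) (nat_lit 1) (nat_lit 4) (nat_lit 433) (nat_lit 295) (nat_lit 292)) (XT.nd (nat_lit 78) (nat_lit 0) (nat_lit 0) (XT.lf (nat_lit 0) (nat_lit 430647141117) (nat_lit 152) (nat_lit 302608316695) (nat_lit 0) (nat_lit 430507767415) (nat_lit 1) (nat_lit 5) (nat_lit 3) (nat_lit 4) (nat_lit 1) (nat_lit 4) (nat_lit 434) (nat_lit 295) (nat_lit 291)) (XT.lf (nat_lit 0) (nat_lit 466944259891) (nat_lit 152) (nat_lit 323049310596) (nat_lit 0) (nat_lit 466776247371) (nat_lit 1) (nat_lit 5) (nat_lit 3) (nat_lit 4) (nat_lit 1) (nat_lit 4) (nat_lit 435) (nat_lit 295) (nat_lit 290)))) (XT.nd (nat_lit 52494) (nat_lit 0) (nat_lit 0) (XT.lf (nat_lit 0) (nat_lit 506063216149) (nat_lit 152) (nat_lit 345289136229) (nat_lit 0) (nat_lit 505868686203) (nat_lit 1) (nat_lit 5) (nat_lit 3) (nat_lit 4) (nat_lit 1) (nat_lit 4) (nat_lit 436) (nat_lit 295) (nat_lit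 289)) (XT.nd (nat_lit 78) (nat_lit 0) (nat_lit 0) (XT.lf (nat_lit 0) (nat_lit 130599857420) (nat_lit 152) (nat_lit 105745104427) (nat_lit 0) (nat_lit 130599857420) (nat_lit 1) (nat_lit 5) (nat_lit 3) (nat_lit 4) (nat_lit 1) (nat_lit 4) (nat_lit 428) (nat_lit 296) (nat_lit 296)) (XT.lf (nat_lit 0) (nat_lit 284519296187) (nat_lit 152) (nat_lit 223480721549) (nat_lit 0) (nat_lit 284477216367) (nat_lit 1) (nat_lit 5) (nat_lit 3) (nat_lit 4) (nat_lit 1) (nat_lit 4) (nat_lit 429) (nat_lit 296) (nat_lit 295))))) (XT.nd (nat_lit 234) (nat_lit 0) (nat_lit 0) (XT.nd (nat_lit 78) (nat_lit 0) (nat_lit 0) (XT.lf (nat_lit 0) (nat_lit 309584059027) (nat_lit 152) (nat_lit 236670787128) (nat_lit 0) (nat_lit 309503016410) (nat_lit 1) (nat_lit 5) (nat_lit 3) (nat_lit 4) (nat_lit 1) (nat_lit 4) (nat_lit 430) (nat_lit 296) (nat_lit 294)) (XT.nd (nat_lit 78) (nat_lit 0) (nat_lit 0) (XT.lf (nat_lit 0) (nat_lit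 336542535286) (nat_lit 152) (nat_lit 251138568944) (nat_lit 0) (nat_lit 336425416006) (nat_lit 1) (nat_lit 5) (nat_lit 3) (nat_lit 4) (nat_lit 1) (nat_lit 4) (nat_lit 431) (nat_lit 296) (nat_lit 293)) (XT.lf (nat_lit 0) (nat_lit 365554478900) (nat_lit 152) (nat_lit 266969802000) (nat_lit 0) (nat_lit 365403955301) (nat_lit 1) (nat_lit 5) (nat_lit 3) (nat_lit 4) (nat_lit 1) (nat_lit 4) (nat_lit 432) (nat_lit 296) (nat_lit 292)))) (XT.nd (nat_lit 78) (nat_lit 0) (nat_lit 0) (XT.lf (nat_lit 0) (nat_lit 396791812495) (nat_lit 152) (nat_lit 284258301011) (nat_lit 0) (nat_lit 396610358973) (nat_lit 1) (nat_lit 5) (nat_lit 3) (nat_lit 4) (nat_lit 1) (nat_lit 4) (nat_lit 433) (nat_lit 296) (nat_lit 291)) (XT.nd (nat_lit 78) (nat_lit 0) (nat_lit 0) (XT.lf (nat_lit 0) (nat_lit 430439646198) (nat_lit 152) (nat_lit 303106516340) (nat_lit 0) (nat_lit 430229553858) (nat_lit 1) (nat_lit 5) (nat_lit 3) (nat_lit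 4) (nat_lit 1) (nat_lit 4) (nat_lit 434) (nat_lit 296) (nat_lit 290)) (XT.lf (nat_lit 0) (nat_lit 466697374579) (nat_lit 152) (nat_lit 323626141116) (nat_lit 0) (nat_lit 466460764814) (nat_lit 1) (nat_lit 5) (nat_lit 3) (nat_lit 4) (nat_lit 1) (nat_lit 4) (nat_lit 435) (nat_lit 296) (nat_lit 289))))))) (XT.nd (nat_lit 105300) (nat_lit 0) (nat_lit 0) (XT.nd (nat_lit 52728) (nat_lit 0) (nat_lit 0) (XT.nd (nat_lit 52494) (nat_lit 0) (nat_lit 0) (XT.nd (nat_lit 52338) (nat_lit 0) (nat_lit 0) (XT.lf (nat_lit 0) (nat_lit 505779858250) (nat_lit 152) (nat_lit 345938773115) (nat_lit 0) (nat_lit 505518695313) (nat_lit 1) (nat_lit 5) (nat_lit 3) (nat_lit 4) (nat_lit 1) (nat_lit 4) (nat_lit 436) (nat_lit 296) (nat_lit 288)) (XT.nd (nat_lit 78) (nat_lit 0) (nat_lit 0) (XT.lf (nat_lit 0) (nat_lit 109682906753) (nat_lit 152) (nat_lit 95347775226) (nat_lit 0) (nat_lit 109682906753) (nat_lit 1) (nat_lit 5)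 (nat_lit 3) (nat_lit 4) (nat_lit 1) (nat_lit 4) (nat_lit 426) (nat_lit 297) (nat_lit 297)) (XT.lf (nat_lit 0) (nat_lit 239532571080) (nat_lit 152) (nat_lit 200628194154) (nat_lit 0) (nat_lit 239487124874) (nat_lit 1) (nat_lit 5) (nat_lit 3) (nat_lit 4) (nat_lit 1) (nat_lit 4) (nat_lit 427) (nat_lit 297) (nat_lit 296)))) (XT.nd (nat_lit 78) (nat_lit 0) (nat_lit 0) (XT.lf (nat_lit 0) (nat_lit 261182653442) (nat_lit 152) (nat_lit 211614986171) (nat_lit 0) (nat_lit 261095127416) (nat_lit 1) (nat_lit 5) (nat_lit 3) (nat_lit 4) (nat_lit 1) (nat_lit 4) (nat_lit 428) (nat_lit 297) (nat_lit 295)) (XT.nd (nat_lit 78) (nat_lit 0) (nat_lit 0) (XT.lf (nat_lit 0) (nat_lit 284444357378) (nat_lit 152) (nat_lit 223721033418) (nat_lit 0) (nat_lit 284317868555) (nat_lit 1) (nat_lit 5) (nat_lit 3) (nat_lit 4) (nat_lit 1) (nat_lit 4) (nat_lit 429) (nat_lit 297) (nat_lit 294)) (XT.lf (nat_lit 0) (nat_lit 309455530021)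 (nat_lit 152) (nat_lit 237018075435) (nat_lit 0) (nat_lit 309292964535) (nat_lit 1) (nat_lit 5) (nat_lit 3) (nat_lit 4) (nat_lit 1) (nat_lit 4) (nat_lit 430) (nat_lit 297) (nat_lit 293))))) (XT.nd (nat_lit 234) (nat_lit 0) (nat_lit 0) (XT.nd (nat_lit 78) (nat_lit 0) (nat_lit 0) (XT.lf (nat_lit 0) (nat_lit 336364385730) (nat_lit 152) (nat_lit 251584909508) (nat_lit 0) (nat_lit 336168415926) (nat_lit 1) (nat_lit 5) (nat_lit 3) (nat_lit 4) (nat_lit 1) (nat_lit 4) (nat_lit 431) (nat_lit 297) (nat_lit 292)) (XT.nd (nat_lit 78) (nat_lit 0) (nat_lit 0) (XT.lf (nat_lit 0) (nat_lit 365330384388) (nat_lit 152) (nat_lit 267507857617) (nat_lit 0) (nat_lit 365103484660) (nat_lit 1) (nat_lit 5) (nat_lit 3) (nat_lit 4) (nat_lit 1) (nat_lit 4) (nat_lit 432) (nat_lit 297) (nat_lit 291)) (XT.lf (nat_lit 0) (nat_lit 396525176358) (nat_lit 152) (nat_lit 284881277973) (nat_lit 0) (nat_lit 396269637812) (nat_lit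 1) (nat_lit 5) (nat_lit 3) (nat_lit 4) (nat_lit 1) (nat_lit 4) (nat_lit 433) (nat_lit 297) (nat_lit 290)))) (XT.nd (nat_lit 78) (nat_lit 0) (nat_lit 0) (XT.lf (nat_lit 0) (nat_lit 430133619668) (nat_lit 152) (nat_lit 303808124177) (nat_lit 0) (nat_lit 429851563697) (nat_lit 1) (nat_lit 5) (nat_lit 3) (nat_lit 4) (nat_lit 1) (nat_lit 4) (nat_lit 434) (nat_lit 297) (nat_lit 289)) (XT.nd (nat_lit 78) (nat_lit 0) (nat_lit 0) (XT.lf (nat_lit 0) (nat_lit 466354875462) (nat_lit 152) (nat_lit 324400555319) (nat_lit 0) (nat_lit 466048266320) (nat_lit 1) (nat_lit 5) (nat_lit 3) (nat_lit 4) (nat_lit 1) (nat_lit 4) (nat_lit 435) (nat_lit 297) (nat_lit 288)) (XT.lf (nat_lit 0) (nat_lit 505403588219) (nat_lit 152) (nat_lit 346780600620) (nat_lit 0) (nat_lit 505074244659) (nat_lit 1) (nat_lit 5) (nat_lit 3) (nat_lit 4) (nat_lit 1) (nat_lit 4) (nat_lit 436) (nat_lit 297) (nat_lit 287)))))) (XT.nd (nat_lit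 468) (nat_lit 0) (nat_lit 0) (XT.nd (nat_lit 234) (nat_lit 0) (nat_lit 0) (XT.nd (nat_lit 78) (nat_lit 0) (nat_lit 0) (XT.lf (nat_lit 0) (nat_lit 91567159269) (nat_lit 152) (nat_lit 86808812647) (nat_lit 0) (nat_lit 91567159269) (nat_lit 1) (nat_lit 5) (nat_lit 3) (nat_lit 4) (nat_lit 1) (nat_lit 4) (nat_lit 424) (nat_lit 298) (nat_lit 298)) (XT.nd (nat_lit 78) (nat_lit 0) (nat_lit 0) (XT.lf (nat_lit 0) (nat_lit 200611955913) (nat_lit 152) (nat_lit 181758194956) (nat_lit 0) (nat_lit 200562874011) (nat_lit 1) (nat_lit 5) (nat_lit 3) (nat_lit 4) (nat_lit 1) (nat_lit 4) (nat_lit 425) (nat_lit 298) (nat_lit 297)) (XT.lf (nat_lit 0) (nat_lit 219347387196) (nat_lit 152) (nat_lit 190830309955) (nat_lit 0) (nat_lit 219252859088) (nat_lit 1) (nat_lit 5) (nat_lit 3) (nat_lit 4) (nat_lit 1) (nat_lit 4) (nat_lit 426) (nat_lit 298) (nat_lit 296)))) (XT.nd (nat_lit 78) (nat_lit 0) (nat_lit 0) (XT.lf (nat_lit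 0) (nat_lit 239451637165) (nat_lit 152) (nat_lit 200887730973) (nat_lit 0) (nat_lit 239315029237) (nat_lit 1) (nat_lit 5) (nat_lit 3) (nat_lit 4) (nat_lit 1) (nat_lit 4) (nat_lit 427) (nat_lit 298) (nat_lit 295)) (XT.nd (nat_lit 78) (nat_lit 0) (nat_lit 0) (XT.lf (nat_lit 0) (nat_lit 261043842116) (nat_lit 152) (nat_lit 211990057542) (nat_lit 0) (nat_lit 260868271391) (nat_lit 1) (nat_lit 5) (nat_lit 3) (nat_lit 4) (nat_lit 1) (nat_lit 4) (nat_lit 428) (nat_lit 298) (nat_lit 294)) (XT.lf (nat_lit 0) (nat_lit 284251955856) (nat_lit 152) (nat_lit 224203081227) (nat_lit 0) (nat_lit 284040308468) (nat_lit 1) (nat_lit 5) (nat_lit 3) (nat_lit 4) (nat_lit 1) (nat_lit 4) (nat_lit 429) (nat_lit 298) (nat_lit 293))))) (XT.nd (nat_lit 234) (nat_lit 0) (nat_lit 0) (XT.nd (nat_lit 78) (nat_lit 0) (nat_lit 0) (XT.lf (nat_lit 0) (nat_lit 309213507949) (nat_lit 152) (nat_lit 237599175501) (nat_lit 0) (nat_lit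 308968456242) (nat_lit 1) (nat_lit 5) (nat_lit 3) (nat_lit 4) (nat_lit 1) (nat_lit 4) (nat_lit 430) (nat_lit 298) (nat_lit 292)) (XT.nd (nat_lit 78) (nat_lit 0) (nat_lit 0) (XT.lf (nat_lit 0) (nat_lit 336076418702) (nat_lit 152) (nat_lit 252257724627) (nat_lit 0) (nat_lit 335800437071) (nat_lit 1) (nat_lit 5) (nat_lit 3) (nat_lit 4) (nat_lit 1) (nat_lit 4) (nat_lit 431) (nat_lit 298) (nat_lit 291)) (XT.lf (nat_lit 0) (nat_lit 364999875735) (nat_lit 152) (nat_lit 268265594081) (nat_lit 0) (nat_lit 364695255286) (nat_lit 1) (nat_lit 5) (nat_lit 3) (nat_lit 4) (nat_lit 1) (nat_lit 4) (nat_lit 432) (nat_lit 298) (nat_lit 290)))) (XT.nd (nat_lit 156) (nat_lit 0) (nat_lit 0) (XT.nd (nat_lit 78) (nat_lit 0) (nat_lit 0) (XT.lf (nat_lit 0) (nat_lit 396155277312) (nat_lit 152) (nat_lit 285717645312) (nat_lit 0) (nat_lit 395824139438) (nat_lit 1) (nat_lit 5) (nat_lit 3) (nat_lit 4) (nat_lit 1) (nat_lit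 4) (nat_lit 433) (nat_lit 298) (nat_lit 289)) (XT.lf (nat_lit 0) (nat_lit 429727248034) (nat_lit 152) (nat_lit 304717297882) (nat_lit 0) (nat_lit 429371556990) (nat_lit 1) (nat_lit 5) (nat_lit 3) (nat_lit 4) (nat_lit 1) (nat_lit 4) (nat_lit 434) (nat_lit 298) (nat_lit 288))) (XT.nd (nat_lit 78) (nat_lit 0) (nat_lit 0) (XT.lf (nat_lit 0) (nat_lit 465914732915) (nat_lit 152) (nat_lit 325377142326) (nat_lit 0) (nat_lit 465536307453) (nat_lit 1) (nat_lit 5) (nat_lit 3) (nat_lit 4) (nat_lit 1) (nat_lit 4) (nat_lit 435) (nat_lit 298) (nat_lit 287)) (XT.lf (nat_lit 0) (nat_lit 504932176308) (nat_lit 152) (nat_lit 347819607351) (nat_lit 0) (nat_lit 504532700459) (nat_lit 1) (nat_lit 5) (nat_lit 3) (nat_lit 4) (nat_lit 1) (nat_lit 4) (nat_lit 436) (nat_lit 298) (nat_lit 286))))))))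
noncomputable def xc1 : XT := (XT.nd (nat_lit 53664) (nat_lit 0) (nat_lit 0) (XT.nd (nat_lit 936) (nat_lit 0) (nat_lit 0) (XT.nd (nat_lit 468) (nat_lit 0) (nat_lit 0) (XT.nd (nat_lit 234) (nat_lit 0) (nat_lit 0) (XT.nd (nat_lit 78) (nat_lit 0) (nat_lit 0) (XT.lf (nat_lit 0) (nat_lit 75838365323) (nat_lit 152) (nat_lit 79893105623) (nat_lit 0) (nat_lit 75838365323) (nat_lit 1) (nat_lit 5) (nat_lit 3) (nat_lit 4) (nat_lit 1) (nat_lit 4) (nat_lit 422) (nat_lit 299) (nat_lit 299)) (XT.nd (nat_lit 78) (nat_lit 0) (nat_lit 0) (XT.lf (nat_lit 0) (nat_lit 166863912341) (nat_lit 152) (nat_lit 166360360556) (nat_lit 0) (nat_lit 166810903886) (nat_lit 1) (nat_lit 5) (nat_lit 3) (nat_lit 4) (nat_lit 1) (nat_lit 4) (nat_lit 423) (nat_lit 299) (nat_lit 298)) (XT.lf (nat_lit 0) (nat_lit 183114418123) (nat_lit 152) (nat_lit 173763165556) (nat_lit 0) (nat_lit 183012327766) (nat_lit 1) (nat_lit 5) (nat_lit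 3) (nat_lit 4) (nat_lit 1) (nat_lit 4) (nat_lit 424) (nat_lit 299) (nat_lit 297)))) (XT.nd (nat_lit 78) (nat_lit 0) (nat_lit 0) (XT.lf (nat_lit 0) (nat_lit 200524547285) (nat_lit 152) (nat_lit 182038494720) (nat_lit 0) (nat_lit 200377010723) (nat_lit 1) (nat_lit 5) (nat_lit 3) (nat_lit 4) (nat_lit 1) (nat_lit 4) (nat_lit 425) (nat_lit 299) (nat_lit 296)) (XT.nd (nat_lit 78) (nat_lit 0) (nat_lit 0) (XT.lf (nat_lit 0) (nat_lit 219197470964) (nat_lit 152) (nat_lit 191235387036) (nat_lit 0) (nat_lit 219007854581) (nat_lit 1) (nat_lit 5) (nat_lit 3) (nat_lit 4) (nat_lit 1) (nat_lit 4) (nat_lit 426) (nat_lit 299) (nat_lit 295)) (XT.lf (nat_lit 0) (nat_lit 239243843522) (nat_lit 152) (nat_lit 201408342607) (nat_lit 0) (nat_lit 239015264343) (nat_lit 1) (nat_lit 5) (nat_lit 3) (nat_lit 4) (nat_lit 1) (nat_lit 4) (nat_lit 427) (nat_lit 299) (nat_lit 294))))) (XT.nd (nat_lit 234) (nat_lit 0) (nat_lit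 0) (XT.nd (nat_lit 78) (nat_lit 0) (nat_lit 0) (XT.lf (nat_lit 0) (nat_lit 260782458277) (nat_lit 152) (nat_lit 212617645614) (nat_lit 0) (nat_lit 260517802435) (nat_lit 1) (nat_lit 5) (nat_lit 3) (nat_lit 4) (nat_lit 1) (nat_lit 4) (nat_lit 428) (nat_lit 299) (nat_lit 293)) (XT.nd (nat_lit 78) (nat_lit 0) (nat_lit 0) (XT.lf (nat_lit 0) (nat_lit 283940951466) (nat_lit 152) (nat_lit 224929721556) (nat_lit 0) (nat_lit 283642891305) (nat_lit 1) (nat_lit 5) (nat_lit 3) (nat_lit 4) (nat_lit 1) (nat_lit 4) (nat_lit 429) (nat_lit 299) (nat_lit 292)) (XT.lf (nat_lit 0) (nat_lit 308856558603) (nat_lit 152) (nat_lit 238417530883) (nat_lit 0) (nat_lit 308527568518) (nat_lit 1) (nat_lit 5) (nat_lit 3) (nat_lit 4) (nat_lit 1) (nat_lit 4) (nat_lit 430) (nat_lit 299) (nat_lit 291)))) (XT.nd (nat_lit 78) (nat_lit 0) (nat_lit 0) (XT.lf (nat_lit 0) (nat_lit 335676927731) (nat_lit 152) (nat_lit 253161001354)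 (nat_lit 0) (nat_lit 335319298828) (nat_lit 1) (nat_lit 5) (nat_lit 3) (nat_lit 4) (nat_lit 1) (nat_lit 4) (nat_lit 431) (nat_lit 299) (nat_lit 290)) (XT.nd (nat_lit 78) (nat_lit 0) (nat_lit 0) (XT.lf (nat_lit 0) (nat_lit 364560994371) (nat_lit 152) (nat_lit 269247501683) (nat_lit 0) (nat_lit 364176848043) (nat_lit 1) (nat_lit 5) (nat_lit 3) (nat_lit 4) (nat_lit 1) (nat_lit 4) (nat_lit 432) (nat_lit 299) (nat_lit 289)) (XT.lf (nat_lit 0) (nat_lit 395679923361) (nat_lit 152) (nat_lit 286772359280) (nat_lit 0) (nat_lit 395271223862) (nat_lit 1) (nat_lit 5) (nat_lit 3) (nat_lit 4) (nat_lit 1) (nat_lit 4) (nat_lit 433) (nat_lit 299) (nat_lit 288)))))) (XT.nd (nat_lit 52260) (nat_lit 0) (nat_lit 0) (XT.nd (nat_lit 52026) (nat_lit 0) (nat_lit 0) (XT.nd (nat_lit 78) (nat_lit 0) (nat_lit 0) (XT.lf (nat_lit 0) (nat_lit 429218123170) (nat_lit 152) (nat_lit 305839425152) (nat_lit 0) (nat_lit 428786689254)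 (nat_lit 1) (nat_lit 5) (nat_lit 3) (nat_lit 4) (nat_lit 1) (nat_lit 4) (nat_lit 434) (nat_lit 299) (nat_lit 287)) (XT.nd (nat_lit 78) (nat_lit 0) (nat_lit 0) (XT.lf (nat_lit 0) (nat_lit 465374338686) (nat_lit 152) (nat_lit 326561689319) (nat_lit 0) (nat_lit 464921854383) (nat_lit 1) (nat_lit 5) (nat_lit 3) (nat_lit 4) (nat_lit 1) (nat_lit 4) (nat_lit 435) (nat_lit 299) (nat_lit 286)) (XT.lf (nat_lit 0) (nat_lit 504362828964) (nat_lit 152) (nat_lit 349061950384) (nat_lit 0) (nat_lit 503890853562) (nat_lit 1) (nat_lit 5) (nat_lit 3) (nat_lit 4) (nat_lit 1) (nat_lit 4) (nat_lit 436) (nat_lit 299) (nat_lit 285)))) (XT.nd (nat_lit 78) (nat_lit 0) (nat_lit 0) (XT.lf (nat_lit 0) (nat_lit 62140202477) (nat_lit 152) (nat_lit 74401484770) (nat_lit 0) (nat_lit 62140202477) (nat_lit 1) (nat_lit 5) (nat_lit 3) (nat_lit 4) (nat_lit 1) (nat_lit 4) (nat_lit 420) (nat_lit 300) (nat_lit 300)) (XT.nd (nat_lit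 78) (nat_lit 0) (nat_lit 0) (XT.lf (nat_lit 0) (nat_lit 137520124055) (nat_lit 152) (nat_lit 154001759706) (nat_lit 0) (nat_lit 137462874924) (nat_lit 1) (nat_lit 5) (nat_lit 3) (nat_lit 4) (nat_lit 1) (nat_lit 4) (nat_lit 421) (nat_lit 300) (nat_lit 299)) (XT.lf (nat_lit 0) (nat_lit 151655238197) (nat_lit 152) (nat_lit 159943394730) (nat_lit 0) (nat_lit 151544980612) (nat_lit 1) (nat_lit 5) (nat_lit 3) (nat_lit 4) (nat_lit 1) (nat_lit 4) (nat_lit 422) (nat_lit 300) (nat_lit 298))))) (XT.nd (nat_lit 234) (nat_lit 0) (nat_lit 0) (XT.nd (nat_lit 78) (nat_lit 0) (nat_lit 0) (XT.lf (nat_lit 0) (nat_lit 166769511023) (nat_lit 152) (nat_lit 166663084302) (nat_lit 0) (nat_lit 166610171535) (nat_lit 1) (nat_lit 5) (nat_lit 3) (nat_lit 4) (nat_lit 1) (nat_lit 4) (nat_lit 423) (nat_lit 300) (nat_lit 297)) (XT.nd (nat_lit 78) (nat_lit 0) (nat_lit 0) (XT.lf (nat_lit 0) (nat_lit 182952508593) (nat_lit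 152) (nat_lit 174200648804) (nat_lit 0) (nat_lit 182747722899) (nat_lit 1) (nat_lit 5) (nat_lit 3) (nat_lit 4) (nat_lit 1) (nat_lit 4) (nat_lit 424) (nat_lit 300) (nat_lit 296)) (XT.lf (nat_lit 0) (nat_lit 200300130151) (nat_lit 152) (nat_lit 182600755285) (nat_lit 0) (nat_lit 200053264637) (nat_lit 1) (nat_lit 5) (nat_lit 3) (nat_lit 4) (nat_lit 1) (nat_lit 4) (nat_lit 425) (nat_lit 300) (nat_lit 295)))) (XT.nd (nat_lit 78) (nat_lit 0) (nat_lit 0) (XT.lf (nat_lit 0) (nat_lit 218915176419) (nat_lit 152) (nat_lit 191913182153) (nat_lit 0) (nat_lit 218629348108) (nat_lit 1) (nat_lit 5) (nat_lit 3) (nat_lit 4) (nat_lit 1) (nat_lit 4) (nat_lit 426) (nat_lit 300) (nat_lit 294)) (XT.nd (nat_lit 78) (nat_lit 0) (nat_lit 0) (XT.lf (nat_lit 0) (nat_lit 238907958781) (nat_lit 152) (nat_lit 202193114162) (nat_lit 0) (nat_lit 238586053807) (nat_lit 1) (nat_lit 5) (nat_lit 3) (nat_lit 4) (nat_lit 1) (nat_lit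 4) (nat_lit 427) (nat_lit 300) (nat_lit 293)) (XT.lf (nat_lit 0) (nat_lit 260396952985) (nat_lit 152) (nat_lit 213501469425) (nat_lit 0) (nat_lit 260041643693) (nat_lit 1) (nat_lit 5) (nat_lit 3) (nat_lit 4) (nat_lit 1) (nat_lit 4) (nat_lit 428) (nat_lit 300) (nat_lit 292))))))) (XT.nd (nat_lit 52572) (nat_lit 0) (nat_lit 0) (XT.nd (nat_lit 468) (nat_lit 0) (nat_lit 0) (XT.nd (nat_lit 234) (nat_lit 0) (nat_lit 0) (XT.nd (nat_lit 78) (nat_lit 0) (nat_lit 0) (XT.lf (nat_lit 0) (nat_lit 283509501218) (nat_lit 152) (nat_lit 225905260420) (nat_lit 0) (nat_lit 283123262002) (nat_lit 1) (nat_lit 5) (nat_lit 3) (nat_lit 4) (nat_lit 1) (nat_lit 4) (nat_lit 429) (nat_lit 300) (nat_lit 291)) (XT.nd (nat_lit 78) (nat_lit 0) (nat_lit 0) (XT.lf (nat_lit 0) (nat_lit 308382566730) (nat_lit 152) (nat_lit 239477991092) (nat_lit 0) (nat_lit 307967688696) (nat_lit 1) (nat_lit 5) (nat_lit 3) (nat_lit 4) (nat_lit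 1) (nat_lit 4) (nat_lit 430) (nat_lit 300) (nat_lit 290)) (XT.lf (nat_lit 0) (nat_lit 335163545464) (nat_lit 152) (nat_lit 254300092439) (nat_lit 0) (nat_lit 334722150005) (nat_lit 1) (nat_lit 5) (nat_lit 3) (nat_lit 4) (nat_lit 1) (nat_lit 4) (nat_lit 431) (nat_lit 300) (nat_lit 289)))) (XT.nd (nat_lit 78) (nat_lit 0) (nat_lit 0) (XT.lf (nat_lit 0) (nat_lit 364011139517) (nat_lit 152) (nat_lit 270459399134) (nat_lit 0) (nat_lit 363545190887) (nat_lit 1) (nat_lit 5) (nat_lit 3) (nat_lit 4) (nat_lit 1) (nat_lit 4) (nat_lit 432) (nat_lit 300) (nat_lit 288)) (XT.nd (nat_lit 78) (nat_lit 0) (nat_lit 0) (XT.lf (nat_lit 0) (nat_lit 395096297594) (nat_lit 152) (nat_lit 288051670032) (nat_lit 0) (nat_lit 394607614546) (nat_lit 1) (nat_lit 5) (nat_lit 3) (nat_lit 4) (nat_lit 1) (nat_lit 4) (nat_lit 433) (nat_lit 300) (nat_lit 287)) (XT.lf (nat_lit 0) (nat_lit 428603228039) (nat_lit 152) (nat_lit 307181155628)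 (nat_lit 0) (nat_lit 428093494605) (nat_lit 1) (nat_lit 5) (nat_lit 3) (nat_lit 4) (nat_lit 1) (nat_lit 4) (nat_lit 434) (nat_lit 300) (nat_lit 286))))) (XT.nd (nat_lit 51870) (nat_lit 0) (nat_lit 0) (XT.nd (nat_lit 78) (nat_lit 0) (nat_lit 0) (XT.lf (nat_lit 0) (nat_lit 464730490439) (nat_lit 152) (nat_lit 327961215836) (nat_lit 0) (nat_lit 464201265907) (nat_lit 1) (nat_lit 5) (nat_lit 3) (nat_lit 4) (nat_lit 1) (nat_lit 4) (nat_lit 435) (nat_lit 300) (nat_lit 285)) (XT.nd (nat_lit 51714) (nat_lit 0) (nat_lit 0) (XT.lf (nat_lit 0) (nat_lit 503692172277) (nat_lit 152) (nat_lit 350514991754) (nat_lit 0) (nat_lit 503144900431) (nat_lit 1) (nat_lit 5) (nat_lit 3) (nat_lit 4) (nat_lit 1) (nat_lit 4) (nat_lit 436) (nat_lit 300) (nat_lit 284)) (XT.lf (nat_lit 0) (nat_lit 50165917929) (nat_lit 152) (nat_lit 70165786934) (nat_lit 0) (nat_lit 50165917929) (nat_lit 1) (nat_lit 5) (nat_lit 3) (nat_lit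 4) (nat_lit 1) (nat_lit 4) (nat_lit 418) (nat_lit 301) (nat_lit 301)))) (XT.nd (nat_lit 78) (nat_lit 0) (nat_lit 0) (XT.lf (nat_lit 0) (nat_lit 111919452366) (nat_lit 152) (nat_lit 144316216588) (nat_lit 0) (nat_lit 111857623305) (nat_lit 1) (nat_lit 5) (nat_lit 3) (nat_lit 4) (nat_lit 1) (nat_lit 4) (nat_lit 419) (nat_lit 301) (nat_lit 300)) (XT.nd (nat_lit 78) (nat_lit 0) (nat_lit 0) (XT.lf (nat_lit 0) (nat_lit 124257193111) (nat_lit 152) (nat_lit 148972727703) (nat_lit 0) (nat_lit 124138114919) (nat_lit 1) (nat_lit 5) (nat_lit 3) (nat_lit 4) (nat_lit 1) (nat_lit 4) (nat_lit 420) (nat_lit 301) (nat_lit 299)) (XT.lf (nat_lit 0) (nat_lit 137418170631) (nat_lit 152) (nat_lit 154328701351) (nat_lit 0) (nat_lit 137246083985) (nat_lit 1) (nat_lit 5) (nat_lit 3) (nat_lit 4) (nat_lit 1) (nat_lit 4) (nat_lit 421) (nat_lit 301) (nat_lit 298)))))) (XT.nd (nat_lit 468) (nat_lit 0) (nat_lit 0) (XT.nd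 (nat_lit 234) (nat_lit 0) (nat_lit 0) (XT.nd (nat_lit 78) (nat_lit 0) (nat_lit 0) (XT.lf (nat_lit 0) (nat_lit 151480375905) (nat_lit 152) (nat_lit 160415876638) (nat_lit 0) (nat_lit 151259207356) (nat_lit 1) (nat_lit 5) (nat_lit 3) (nat_lit 4) (nat_lit 1) (nat_lit 4) (nat_lit 422) (nat_lit 301) (nat_lit 297)) (XT.nd (nat_lit 78) (nat_lit 0) (nat_lit 0) (XT.lf (nat_lit 0) (nat_lit 166527140518) (nat_lit 152) (nat_lit 167270325712) (nat_lit 0) (nat_lit 166260525763) (nat_lit 1) (nat_lit 5) (nat_lit 3) (nat_lit 4) (nat_lit 1) (nat_lit 4) (nat_lit 423) (nat_lit 301) (nat_lit 296)) (XT.lf (nat_lit 0) (nat_lit 182647630483) (nat_lit 152) (nat_lit 174932667530) (nat_lit 0) (nat_lit 182338935908) (nat_lit 1) (nat_lit 5) (nat_lit 3) (nat_lit 4) (nat_lit 1) (nat_lit 4) (nat_lit 424) (nat_lit 301) (nat_lit 295)))) (XT.nd (nat_lit 78) (nat_lit 0) (nat_lit 0) (XT.lf (nat_lit 0) (nat_lit 199937374630)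 (nat_lit 152) (nat_lit 183448308564) (nat_lit 0) (nat_lit 199589717259) (nat_lit 1) (nat_lit 5) (nat_lit 3) (nat_lit 4) (nat_lit 1) (nat_lit 4) (nat_lit 425) (nat_lit 301) (nat_lit 294)) (XT.nd (nat_lit 78) (nat_lit 0) (nat_lit 0) (XT.lf (nat_lit 0) (nat_lit 218498830702) (nat_lit 152) (nat_lit 192867711870) (nat_lit 0) (nat_lit 218115096667) (nat_lit 1) (nat_lit 5) (nat_lit 3) (nat_lit 4) (nat_lit 1) (nat_lit 4) (nat_lit 426) (nat_lit 301) (nat_lit 293)) (XT.lf (nat_lit 0) (nat_lit 238441992513) (nat_lit 152) (nat_lit 203246696135) (nat_lit 0) (nat_lit 238024854160) (nat_lit 1) (nat_lit 5) (nat_lit 3) (nat_lit 4) (nat_lit 1) (nat_lit 4) (nat_lit 427) (nat_lit 301) (nat_lit 292))))) (XT.nd (nat_lit 234) (nat_lit 0) (nat_lit 0) (XT.nd (nat_lit 78) (nat_lit 0) (nat_lit 0) (XT.lf (nat_lit 0) (nat_lit 259885041761) (nat_lit 152) (nat_lit 214646766452) (nat_lit 0) (nat_lit 259436973484) (nat_lit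 1) (nat_lit 5) (nat_lit 3) (nat_lit 4) (nat_lit 1) (nat_lit 4) (nat_lit 428) (nat_lit 301) (nat_lit 291)) (XT.nd (nat_lit 78) (nat_lit 0) (nat_lit 0) (XT.lf (nat_lit 0) (nat_lit 282955048370) (nat_lit 152) (nat_lit 227135478792) (nat_lit 0) (nat_lit 282478341274) (nat_lit 1) (nat_lit 5) (nat_lit 3) (nat_lit 4) (nat_lit 1) (nat_lit 4) (nat_lit 429) (nat_lit 301) (nat_lit 290)) (XT.lf (nat_lit 0) (nat_lit 307788723488) (nat_lit 152) (nat_lit 240786840339) (nat_lit 0) (nat_lit 307285498968) (nat_lit 1) (nat_lit 5) (nat_lit 3) (nat_lit 4) (nat_lit 1) (nat_lit 4) (nat_lit 430) (nat_lit 301) (nat_lit 289)))) (XT.nd (nat_lit 156) (nat_lit 0) (nat_lit 0) (XT.nd (nat_lit 78) (nat_lit 0) (nat_lit 0) (XT.lf (nat_lit 0) (nat_lit 334533229636) (nat_lit 152) (nat_lit 255681748052) (nat_lit 0) (nat_lit 334005451945) (nat_lit 1) (nat_lit 5) (nat_lit 3) (nat_lit 4) (nat_lit 1) (nat_lit 4) (nat_lit 431) (nat_lit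 301) (nat_lit 288)) (XT.lf (nat_lit 0) (nat_lit 363347052775) (nat_lit 152) (nat_lit 271908468048) (nat_lit 0) (nat_lit 362796540666) (nat_lit 1) (nat_lit 5) (nat_lit 3) (nat_lit 4) (nat_lit 1) (nat_lit 4) (nat_lit 432) (nat_lit 301) (nat_lit 287))) (XT.nd (nat_lit 78) (nat_lit 0) (nat_lit 0) (XT.lf (nat_lit 0) (nat_lit 394400941487) (nat_lit 152) (nat_lit 289563158671) (nat_lit 0) (nat_lit 393829378992) (nat_lit 1) (nat_lit 5) (nat_lit 3) (nat_lit 4) (nat_lit 1) (nat_lit 4) (nat_lit 433) (nat_lit 301) (nat_lit 286)) (XT.lf (nat_lit 0) (nat_lit 427878918817) (nat_lit 152) (nat_lit 308750440307) (nat_lit 0) (nat_lit 427287865223) (nat_lit 1) (nat_lit 5) (nat_lit 3) (nat_lit 4) (nat_lit 1) (nat_lit 4) (nat_lit 434) (nat_lit 301) (nat_lit 285))))))))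
noncomputable def xc2 : XT := (XT.nd (nat_lit 104676) (nat_lit 0) (nat_lit 0) (XT.nd (nat_lit 52416) (nat_lit 0) (nat_lit 0) (XT.nd (nat_lit 51948) (nat_lit 0) (nat_lit 0) (XT.nd (nat_lit 51714) (nat_lit 0) (nat_lit 0) (XT.nd (nat_lit 78) (nat_lit 0) (nat_lit 0) (XT.lf (nat_lit 0) (nat_lit 463979372778) (nat_lit 152) (nat_lit 329584015368) (nat_lit 0) (nat_lit 463370271870) (nat_lit 1) (nat_lit 5) (nat_lit 3) (nat_lit 4) (nat_lit 1) (nat_lit 4) (nat_lit 435) (nat_lit 301) (nat_lit 284)) (XT.nd (nat_lit 51558) (nat_lit 0) (nat_lit 0) (XT.lf (nat_lit 0) (nat_lit 502916231986) (nat_lit 152) (nat_lit 352187342075) (nat_lit 0) (nat_lit 502290420602) (nat_lit 1) (nat_lit 5) (nat_lit 3) (nat_lit 4) (nat_lit 1) (nat_lit 4) (nat_lit 436) (nat_lit 301) (nat_lit 283)) (XT.lf (nat_lit 0) (nat_lit 39651155743) (nat_lit 152) (nat_lit 67044639208) (nat_lit 0) (nat_lit 39651155743) (nat_lit 1) (nat_lit 5)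 (nat_lit 3) (nat_lit 4) (nat_lit 1) (nat_lit 4) (nat_lit 416) (nat_lit 302) (nat_lit 302)))) (XT.nd (nat_lit 78) (nat_lit 0) (nat_lit 0) (XT.lf (nat_lit 0) (nat_lit 89492451617) (nat_lit 152) (nat_lit 136995186845) (nat_lit 0) (nat_lit 89425676231) (nat_lit 1) (nat_lit 5) (nat_lit 3) (nat_lit 4) (nat_lit 1) (nat_lit 4) (nat_lit 417) (nat_lit 302) (nat_lit 301)) (XT.nd (nat_lit 78) (nat_lit 0) (nat_lit 0) (XT.lf (nat_lit 0) (nat_lit 100306767066) (nat_lit 152) (nat_lit 140514912683) (nat_lit 0) (nat_lit 100178162619) (nat_lit 1) (nat_lit 5) (nat_lit 3) (nat_lit 4) (nat_lit 1) (nat_lit 4) (nat_lit 418) (nat_lit 302) (nat_lit 300)) (XT.lf (nat_lit 0) (nat_lit 111809342669) (nat_lit 152) (nat_lit 144669313565) (nat_lit 0) (nat_lit 111623489090) (nat_lit 1) (nat_lit 5) (nat_lit 3) (nat_lit 4) (nat_lit 1) (nat_lit 4) (nat_lit 419) (nat_lit 302) (nat_lit 299))))) (XT.nd (nat_lit 234) (nat_lit 0)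 (nat_lit 0) (XT.nd (nat_lit 78) (nat_lit 0) (nat_lit 0) (XT.lf (nat_lit 0) (nat_lit 124068341835) (nat_lit 152) (nat_lit 149483008163) (nat_lit 0) (nat_lit 123829479802) (nat_lit 1) (nat_lit 5) (nat_lit 3) (nat_lit 4) (nat_lit 1) (nat_lit 4) (nat_lit 420) (nat_lit 302) (nat_lit 298)) (XT.nd (nat_lit 78) (nat_lit 0) (nat_lit 0) (XT.lf (nat_lit 0) (nat_lit 137156410486) (nat_lit 152) (nat_lit 154984522074) (nat_lit 0) (nat_lit 136868466550) (nat_lit 1) (nat_lit 5) (nat_lit 3) (nat_lit 4) (nat_lit 1) (nat_lit 4) (nat_lit 421) (nat_lit 302) (nat_lit 297)) (XT.lf (nat_lit 0) (nat_lit 151151107546) (nat_lit 152) (nat_lit 161206456862) (nat_lit 0) (nat_lit 150817717405) (nat_lit 1) (nat_lit 5) (nat_lit 3) (nat_lit 4) (nat_lit 1) (nat_lit 4) (nat_lit 422) (nat_lit 302) (nat_lit 296)))) (XT.nd (nat_lit 78) (nat_lit 0) (nat_lit 0) (XT.lf (nat_lit 0) (nat_lit 166135364555) (nat_lit 152) (nat_lit 168185683253)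 (nat_lit 0) (nat_lit 165759894594) (nat_lit 1) (nat_lit 5) (nat_lit 3) (nat_lit 4) (nat_lit 1) (nat_lit 4) (nat_lit 423) (nat_lit 302) (nat_lit 295)) (XT.nd (nat_lit 78) (nat_lit 0) (nat_lit 0) (XT.lf (nat_lit 0) (nat_lit 182197977109) (nat_lit 152) (nat_lit 175963559624) (nat_lit 0) (nat_lit 181783544352) (nat_lit 1) (nat_lit 5) (nat_lit 3) (nat_lit 4) (nat_lit 1) (nat_lit 4) (nat_lit 424) (nat_lit 302) (nat_lit 294)) (XT.lf (nat_lit 0) (nat_lit 199434131061) (nat_lit 152) (nat_lit 184586177095) (nat_lit 0) (nat_lit 198983621640) (nat_lit 1) (nat_lit 5) (nat_lit 3) (nat_lit 4) (nat_lit 1) (nat_lit 4) (nat_lit 425) (nat_lit 302) (nat_lit 293)))))) (XT.nd (nat_lit 468) (nat_lit 0) (nat_lit 0) (XT.nd (nat_lit 234) (nat_lit 0) (nat_lit 0) (XT.nd (nat_lit 78) (nat_lit 0) (nat_lit 0) (XT.lf (nat_lit 0) (nat_lit 217945966581) (nat_lit 152) (nat_lit 194104632659) (nat_lit 0) (nat_lit 217462052842)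 (nat_lit 1) (nat_lit 5) (nat_lit 3) (nat_lit 4) (nat_lit 1) (nat_lit 4) (nat_lit 426) (nat_lit 302) (nat_lit 292)) (XT.nd (nat_lit 78) (nat_lit 0) (nat_lit 0) (XT.lf (nat_lit 0) (nat_lit 237843183437) (nat_lit 152) (nat_lit 204575331977) (nat_lit 0) (nat_lit 237328339773) (nat_lit 1) (nat_lit 5) (nat_lit 3) (nat_lit 4) (nat_lit 1) (nat_lit 4) (nat_lit 427) (nat_lit 302) (nat_lit 291)) (XT.lf (nat_lit 0) (nat_lit 259243691060) (nat_lit 152) (nat_lit 216060323639) (nat_lit 0) (nat_lit 258700208579) (nat_lit 1) (nat_lit 5) (nat_lit 3) (nat_lit 4) (nat_lit 1) (nat_lit 4) (nat_lit 428) (nat_lit 302) (nat_lit 290)))) (XT.nd (nat_lit 78) (nat_lit 0) (nat_lit 0) (XT.lf (nat_lit 0) (nat_lit 282274307275) (nat_lit 152) (nat_lit 228627666854) (nat_lit 0) (nat_lit 281704307369) (nat_lit 1) (nat_lit 5) (nat_lit 3) (nat_lit 4) (nat_lit 1) (nat_lit 4) (nat_lit 429) (nat_lit 302) (nat_lit 289)) (XT.nd (nat_lit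 78) (nat_lit 0) (nat_lit 0) (XT.lf (nat_lit 0) (nat_lit 307071509807) (nat_lit 152) (nat_lit 242351834767) (nat_lit 0) (nat_lit 306476956730) (nat_lit 1) (nat_lit 5) (nat_lit 3) (nat_lit 4) (nat_lit 1) (nat_lit 4) (nat_lit 430) (nat_lit 302) (nat_lit 288)) (XT.lf (nat_lit 0) (nat_lit 333782245041) (nat_lit 152) (nat_lit 257314155781) (nat_lit 0) (nat_lit 333164957546) (nat_lit 1) (nat_lit 5) (nat_lit 3) (nat_lit 4) (nat_lit 1) (nat_lit 4) (nat_lit 431) (nat_lit 302) (nat_lit 287))))) (XT.nd (nat_lit 234) (nat_lit 0) (nat_lit 0) (XT.nd (nat_lit 78) (nat_lit 0) (nat_lit 0) (XT.lf (nat_lit 0) (nat_lit 362564798816) (nat_lit 152) (nat_lit 273603295502) (nat_lit 0) (nat_lit 361926460934) (nat_lit 1) (nat_lit 5) (nat_lit 3) (nat_lit 4) (nat_lit 1) (nat_lit 4) (nat_lit 432) (nat_lit 302) (nat_lit 286)) (XT.nd (nat_lit 78) (nat_lit 0) (nat_lit 0) (XT.lf (nat_lit 0) (nat_lit 393589734413) (nat_lit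 152) (nat_lit 291315782165) (nat_lit 0) (nat_lit 392931905432) (nat_lit 1) (nat_lit 5) (nat_lit 3) (nat_lit 4) (nat_lit 1) (nat_lit 4) (nat_lit 433) (nat_lit 302) (nat_lit 285)) (XT.lf (nat_lit 0) (nat_lit 427040903302) (nat_lit 152) (nat_lit 310556578654) (nat_lit 0) (nat_lit 426365027008) (nat_lit 1) (nat_lit 5) (nat_lit 3) (nat_lit 4) (nat_lit 1) (nat_lit 4) (nat_lit 434) (nat_lit 302) (nat_lit 284)))) (XT.nd (nat_lit 78) (nat_lit 0) (nat_lit 0) (XT.lf (nat_lit 0) (nat_lit 463116534633) (nat_lit 152) (nat_lit 331439704503) (nat_lit 0) (nat_lit 462423947864) (nat_lit 1) (nat_lit 5) (nat_lit 3) (nat_lit 4) (nat_lit 1) (nat_lit 4) (nat_lit 435) (nat_lit 302) (nat_lit 283)) (XT.nd (nat_lit 51402) (nat_lit 0) (nat_lit 0) (XT.lf (nat_lit 0) (nat_lit 502030409925) (nat_lit 152) (nat_lit 354088911571) (nat_lit 0) (nat_lit 501322350493) (nat_lit 1) (nat_lit 5) (nat_lit 3) (nat_lit 4) (nat_lit 1)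 (nat_lit 4) (nat_lit 436) (nat_lit 302) (nat_lit 282)) (XT.lf (nat_lit 0) (nat_lit 30367799284) (nat_lit 152) (nat_lit 64919860996) (nat_lit 0) (nat_lit 30367799284) (nat_lit 1) (nat_lit 5) (nat_lit 3) (nat_lit 4) (nat_lit 1) (nat_lit 4) (nat_lit 414) (nat_lit 303) (nat_lit 303))))))) (XT.nd (nat_lit 936) (nat_lit 0) (nat_lit 0) (XT.nd (nat_lit 468) (nat_lit 0) (nat_lit 0) (XT.nd (nat_lit 234) (nat_lit 0) (nat_lit 0) (XT.nd (nat_lit 78) (nat_lit 0) (nat_lit 0) (XT.lf (nat_lit 0) (nat_lit 69748078080) (nat_lit 152) (nat_lit 131779967199) (nat_lit 0) (nat_lit 69675960663) (nat_lit 1) (nat_lit 5) (nat_lit 3) (nat_lit 4) (nat_lit 1) (nat_lit 4) (nat_lit 415) (nat_lit 303) (nat_lit 302)) (XT.nd (nat_lit 78) (nat_lit 0) (nat_lit 0) (XT.lf (nat_lit 0) (nat_lit 79275237192) (nat_lit 152) (nat_lit 134287284337) (nat_lit 0) (nat_lit 79136344389) (nat_lit 1) (nat_lit 5) (nat_lit 3) (nat_lit 4) (nat_lit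 1) (nat_lit 4) (nat_lit 416) (nat_lit 303) (nat_lit 301)) (XT.lf (nat_lit 0) (nat_lit 89373533144) (nat_lit 152) (nat_lit 137376531580) (nat_lit 0) (nat_lit 89172811279) (nat_lit 1) (nat_lit 5) (nat_lit 3) (nat_lit 4) (nat_lit 1) (nat_lit 4) (nat_lit 417) (nat_lit 303) (nat_lit 300)))) (XT.nd (nat_lit 78) (nat_lit 0) (nat_lit 0) (XT.lf (nat_lit 0) (nat_lit 100102807688) (nat_lit 152) (nat_lit 141066015580) (nat_lit 0) (nat_lit 99844836693) (nat_lit 1) (nat_lit 5) (nat_lit 3) (nat_lit 4) (nat_lit 1) (nat_lit 4) (nat_lit 418) (nat_lit 303) (nat_lit 299)) (XT.nd (nat_lit 78) (nat_lit 0) (nat_lit 0) (XT.lf (nat_lit 0) (nat_lit 111526641712) (nat_lit 152) (nat_lit 145377599945) (nat_lit 0) (nat_lit 111215662261) (nat_lit 1) (nat_lit 5) (nat_lit 3) (nat_lit 4) (nat_lit 1) (nat_lit 4) (nat_lit 419) (nat_lit 303) (nat_lit 298)) (XT.lf (nat_lit 0) (nat_lit 123712732008) (nat_lit 152) (nat_lit 150336834805)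 (nat_lit 0) (nat_lit 123352670656) (nat_lit 1) (nat_lit 5) (nat_lit 3) (nat_lit 4) (nat_lit 1) (nat_lit 4) (nat_lit 420) (nat_lit 303) (nat_lit 297))))) (XT.nd (nat_lit 234) (nat_lit 0) (nat_lit 0) (XT.nd (nat_lit 78) (nat_lit 0) (nat_lit 0) (XT.lf (nat_lit 0) (nat_lit 136733292446) (nat_lit 152) (nat_lit 155973108219) (nat_lit 0) (nat_lit 136327784888) (nat_lit 1) (nat_lit 5) (nat_lit 3) (nat_lit 4) (nat_lit 1) (nat_lit 4) (nat_lit 421) (nat_lit 303) (nat_lit 296)) (XT.nd (nat_lit 78) (nat_lit 0) (nat_lit 0) (XT.lf (nat_lit 0) (nat_lit 150665481903) (nat_lit 152) (nat_lit 162319820324) (nat_lit 0) (nat_lit 150217894524) (nat_lit 1) (nat_lit 5) (nat_lit 3) (nat_lit 4) (nat_lit 1) (nat_lit 4) (nat_lit 422) (nat_lit 303) (nat_lit 295)) (XT.lf (nat_lit 0) (nat_lit 165591861500) (nat_lit 152) (nat_lit 169414581267) (nat_lit 0) (nat_lit 165105311325) (nat_lit 1) (nat_lit 5) (nat_lit 3) (nat_lit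 4) (nat_lit 1) (nat_lit 4) (nat_lit 423) (nat_lit 303) (nat_lit 294)))) (XT.nd (nat_lit 78) (nat_lit 0) (nat_lit 0) (XT.lf (nat_lit 0) (nat_lit 181600883859) (nat_lit 152) (nat_lit 177299434076) (nat_lit 0) (nat_lit 181078257020) (nat_lit 1) (nat_lit 5) (nat_lit 3) (nat_lit 4) (nat_lit 1) (nat_lit 4) (nat_lit 424) (nat_lit 303) (nat_lit 293)) (XT.nd (nat_lit 78) (nat_lit 0) (nat_lit 0) (XT.lf (nat_lit 0) (nat_lit 198787417259) (nat_lit 152) (nat_lit 186021103804) (nat_lit 0) (nat_lit 198231386102) (nat_lit 1) (nat_lit 5) (nat_lit 3) (nat_lit 4) (nat_lit 1) (nat_lit 4) (nat_lit 425) (nat_lit 303) (nat_lit 292)) (XT.lf (nat_lit 0) (nat_lit 217253307824) (nat_lit 152) (nat_lit 195631274420) (nat_lit 0) (nat_lit 216666346744) (nat_lit 1) (nat_lit 5) (nat_lit 3) (nat_lit 4) (nat_lit 1) (nat_lit 4) (nat_lit 426) (nat_lit 303) (nat_lit 291)))))) (XT.nd (nat_lit 468) (nat_lit 0) (nat_lit 0) (XT.nd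 (nat_lit 234) (nat_lit 0) (nat_lit 0) (XT.nd (nat_lit 78) (nat_lit 0) (nat_lit 0) (XT.lf (nat_lit 0) (nat_lit 237107983054) (nat_lit 152) (nat_lit 206186895084) (nat_lit 0) (nat_lit 236492383155) (nat_lit 1) (nat_lit 5) (nat_lit 3) (nat_lit 4) (nat_lit 1) (nat_lit 4) (nat_lit 427) (nat_lit 303) (nat_lit 290)) (XT.nd (nat_lit 78) (nat_lit 0) (nat_lit 0) (XT.lf (nat_lit 0) (nat_lit 258469100285) (nat_lit 152) (nat_lit 217750517621) (nat_lit 0) (nat_lit 257826982961) (nat_lit 1) (nat_lit 5) (nat_lit 3) (nat_lit 4) (nat_lit 1) (nat_lit 4) (nat_lit 428) (nat_lit 303) (nat_lit 289)) (XT.lf (nat_lit 0) (nat_lit 281463243913) (nat_lit 152) (nat_lit 230390667202) (nat_lit 0) (nat_lit 280796573418) (nat_lit 1) (nat_lit 5) (nat_lit 3) (nat_lit 4) (nat_lit 1) (nat_lit 4) (nat_lit 429) (nat_lit 303) (nat_lit 288)))) (XT.nd (nat_lit 78) (nat_lit 0) (nat_lit 0) (XT.lf (nat_lit 0) (nat_lit 306226675531)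 (nat_lit 152) (nat_lit 244182248417) (nat_lit 0) (nat_lit 305537270619) (nat_lit 1) (nat_lit 5) (nat_lit 3) (nat_lit 4) (nat_lit 1) (nat_lit 4) (nat_lit 430) (nat_lit 303) (nat_lit 287)) (XT.nd (nat_lit 78) (nat_lit 0) (nat_lit 0) (XT.lf (nat_lit 0) (nat_lit 332906141400) (nat_lit 152) (nat_lit 259206989155) (nat_lit 0) (nat_lit 332195686102) (nat_lit 1) (nat_lit 5) (nat_lit 3) (nat_lit 4) (nat_lit 1) (nat_lit 4) (nat_lit 431) (nat_lit 303) (nat_lit 286)) (XT.lf (nat_lit 0) (nat_lit 361659742060) (nat_lit 152) (nat_lit 275553924916) (nat_lit 0) (nat_lit 360929795663) (nat_lit 1) (nat_lit 5) (nat_lit 3) (nat_lit 4) (nat_lit 1) (nat_lit 4) (nat_lit 432) (nat_lit 303) (nat_lit 285))))) (XT.nd (nat_lit 234) (nat_lit 0) (nat_lit 0) (XT.nd (nat_lit 78) (nat_lit 0) (nat_lit 0) (XT.lf (nat_lit 0) (nat_lit 392657869217) (nat_lit 152) (nat_lit 293319926431) (nat_lit 0) (nat_lit 391909875506) (nat_lit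 1) (nat_lit 5) (nat_lit 3) (nat_lit 4) (nat_lit 1) (nat_lit 4) (nat_lit 433) (nat_lit 303) (nat_lit 284)) (XT.nd (nat_lit 78) (nat_lit 0) (nat_lit 0) (XT.lf (nat_lit 0) (nat_lit 426084215477) (nat_lit 152) (nat_lit 312610273709) (nat_lit 0) (nat_lit 425319511290) (nat_lit 1) (nat_lit 5) (nat_lit 3) (nat_lit 4) (nat_lit 1) (nat_lit 4) (nat_lit 434) (nat_lit 303) (nat_lit 283)) (XT.lf (nat_lit 0) (nat_lit 462136862892) (nat_lit 152) (nat_lit 333539279919) (nat_lit 0) (nat_lit 461356686042) (nat_lit 1) (nat_lit 5) (nat_lit 3) (nat_lit 4) (nat_lit 1) (nat_lit 4) (nat_lit 435) (nat_lit 303) (nat_lit 282)))) (XT.nd (nat_lit 51324) (nat_lit 0) (nat_lit 0) (XT.nd (nat_lit 51246) (nat_lit 0) (nat_lit 0) (XT.lf (nat_lit 0) (nat_lit 501029456779) (nat_lit 152) (nat_lit 356230968802) (nat_lit 0) (nat_lit 500234953391) (nat_lit 1) (nat_lit 5) (nat_lit 3) (nat_lit 4) (nat_lit 1) (nat_lit 4) (nat_lit 436)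 (nat_lit 303) (nat_lit 281)) (XT.lf (nat_lit 0) (nat_lit 22118683343) (nat_lit 152) (nat_lit 63693397279) (nat_lit 0) (nat_lit 22118683343) (nat_lit 1) (nat_lit 5) (nat_lit 3) (nat_lit 4) (nat_lit 1) (nat_lit 4) (nat_lit 412) (nat_lit 304) (nat_lit 304))) (XT.nd (nat_lit 78) (nat_lit 0) (nat_lit 0) (XT.lf (nat_lit 0) (nat_lit 52262278179) (nat_lit 152) (nat_lit 128455050966) (nat_lit 0) (nat_lit 52184391369) (nat_lit 1) (nat_lit 5) (nat_lit 3) (nat_lit 4) (nat_lit 1) (nat_lit 4) (nat_lit 413) (nat_lit 304) (nat_lit 303)) (XT.lf (nat_lit 0) (nat_lit 60706358329) (nat_lit 152) (nat_lit 130053568386) (nat_lit 0) (nat_lit 60556354101) (nat_lit 1) (nat_lit 5) (nat_lit 3) (nat_lit 4) (nat_lit 1) (nat_lit 4) (nat_lit 414) (nat_lit 304) (nat_lit 302))))))))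
noncomputable def xc3 : XT := (XT.nd (nat_lit 52884) (nat_lit 0) (nat_lit 0) (XT.nd (nat_lit 936) (nat_lit 0) (nat_lit 0) (XT.nd (nat_lit 468) (nat_lit 0) (nat_lit 0) (XT.nd (nat_lit 234) (nat_lit 0) (nat_lit 0) (XT.nd (nat_lit 78) (nat_lit 0) (nat_lit 0) (XT.lf (nat_lit 0) (nat_lit 69619646129) (nat_lit 152) (nat_lit 132191819513) (nat_lit 0) (nat_lit 69402866516) (nat_lit 1) (nat_lit 5) (nat_lit 3) (nat_lit 4) (nat_lit 1) (nat_lit 4) (nat_lit 415) (nat_lit 304) (nat_lit 301)) (XT.nd (nat_lit 78) (nat_lit 0) (nat_lit 0) (XT.lf (nat_lit 0) (nat_lit 79054961064) (nat_lit 152) (nat_lit 134882475465) (nat_lit 0) (nat_lit 78776352389) (nat_lit 1) (nat_lit 5) (nat_lit 3) (nat_lit 4) (nat_lit 1) (nat_lit 4) (nat_lit 416) (nat_lit 304) (nat_lit 300)) (XT.lf (nat_lit 0) (nat_lit 89068216110) (nat_lit 152) (nat_lit 138141480871) (nat_lit 0) (nat_lit 88732358304) (nat_lit 1) (nat_lit 5) (nat_lit 3)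 (nat_lit 4) (nat_lit 1) (nat_lit 4) (nat_lit 417) (nat_lit 304) (nat_lit 299)))) (XT.nd (nat_lit 78) (nat_lit 0) (nat_lit 0) (XT.lf (nat_lit 0) (nat_lit 99718749075) (nat_lit 152) (nat_lit 141988148354) (nat_lit 0) (nat_lit 99329882815) (nat_lit 1) (nat_lit 5) (nat_lit 3) (nat_lit 4) (nat_lit 1) (nat_lit 4) (nat_lit 418) (nat_lit 304) (nat_lit 298)) (XT.nd (nat_lit 78) (nat_lit 0) (nat_lit 0) (XT.lf (nat_lit 0) (nat_lit 111069674229) (nat_lit 152) (nat_lit 146445272982) (nat_lit 0) (nat_lit 110631726066) (nat_lit 1) (nat_lit 5) (nat_lit 3) (nat_lit 4) (nat_lit 1) (nat_lit 4) (nat_lit 419) (nat_lit 304) (nat_lit 297)) (XT.lf (nat_lit 0) (nat_lit 123188256313) (nat_lit 152) (nat_lit 151539267344) (nat_lit 0) (nat_lit 122704861944) (nat_lit 1) (nat_lit 5) (nat_lit 3) (nat_lit 4) (nat_lit 1) (nat_lit 4) (nat_lit 420) (nat_lit 304) (nat_lit 296))))) (XT.nd (nat_lit 234) (nat_lit 0) (nat_lit 0)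 (XT.nd (nat_lit 78) (nat_lit 0) (nat_lit 0) (XT.lf (nat_lit 0) (nat_lit 136146309147) (nat_lit 152) (nat_lit 157300318074) (nat_lit 0) (nat_lit 135620834958) (nat_lit 1) (nat_lit 5) (nat_lit 3) (nat_lit 4) (nat_lit 1) (nat_lit 4) (nat_lit 421) (nat_lit 304) (nat_lit 295)) (XT.nd (nat_lit 78) (nat_lit 0) (nat_lit 0) (XT.lf (nat_lit 0) (nat_lit 150020621192) (nat_lit 152) (nat_lit 163762564732) (nat_lit 0) (nat_lit 149456184207) (nat_lit 1) (nat_lit 5) (nat_lit 3) (nat_lit 4) (nat_lit 1) (nat_lit 4) (nat_lit 422) (nat_lit 304) (nat_lit 294)) (XT.lf (nat_lit 0) (nat_lit 164893410594) (nat_lit 152) (nat_lit 170964302113) (nat_lit 0) (nat_lit 164292896945) (nat_lit 1) (nat_lit 5) (nat_lit 3) (nat_lit 4) (nat_lit 1) (nat_lit 4) (nat_lit 423) (nat_lit 304) (nat_lit 293)))) (XT.nd (nat_lit 78) (nat_lit 0) (nat_lit 0) (XT.lf (nat_lit 0) (nat_lit 180852812401) (nat_lit 152) (nat_lit 178948207179) (nat_lit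 0) (nat_lit 180218894434) (nat_lit 1) (nat_lit 5) (nat_lit 3) (nat_lit 4) (nat_lit 1) (nat_lit 4) (nat_lit 424) (nat_lit 304) (nat_lit 292)) (XT.nd (nat_lit 78) (nat_lit 0) (nat_lit 0) (XT.lf (nat_lit 0) (nat_lit 197993400846) (nat_lit 152) (nat_lit 187761591959) (nat_lit 0) (nat_lit 197328552955) (nat_lit 1) (nat_lit 5) (nat_lit 3) (nat_lit 4) (nat_lit 1) (nat_lit 4) (nat_lit 425) (nat_lit 304) (nat_lit 291)) (XT.lf (nat_lit 0) (nat_lit 216416749786) (nat_lit 152) (nat_lit 197456683921) (nat_lit 0) (nat_lit 215723263077) (nat_lit 1) (nat_lit 5) (nat_lit 3) (nat_lit 4) (nat_lit 1) (nat_lit 4) (nat_lit 426) (nat_lit 304) (nat_lit 290)))))) (XT.nd (nat_lit 468) (nat_lit 0) (nat_lit 0) (XT.nd (nat_lit 234) (nat_lit 0) (nat_lit 0) (XT.nd (nat_lit 78) (nat_lit 0) (nat_lit 0) (XT.lf (nat_lit 0) (nat_lit 236232034623) (nat_lit 152) (nat_lit 208090935459) (nat_lit 0) (nat_lit 235512030489) (nat_lit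 1) (nat_lit 5) (nat_lit 3) (nat_lit 4) (nat_lit 1) (nat_lit 4) (nat_lit 427) (nat_lit 304) (nat_lit 289)) (XT.nd (nat_lit 78) (nat_lit 0) (nat_lit 0) (XT.lf (nat_lit 0) (nat_lit 257556679266) (nat_lit 152) (nat_lit 219727364362) (nat_lit 0) (nat_lit 256812121961) (nat_lit 1) (nat_lit 5) (nat_lit 3) (nat_lit 4) (nat_lit 1) (nat_lit 4) (nat_lit 428) (nat_lit 304) (nat_lit 288)) (XT.lf (nat_lit 0) (nat_lit 280517051981) (nat_lit 152) (nat_lit 232434927245) (nat_lit 0) (nat_lit 279749760258) (nat_lit 1) (nat_lit 5) (nat_lit 3) (nat_lit 4) (nat_lit 1) (nat_lit 4) (nat_lit 429) (nat_lit 304) (nat_lit 287)))) (XT.nd (nat_lit 78) (nat_lit 0) (nat_lit 0) (XT.lf (nat_lit 0) (nat_lit 305249214235) (nat_lit 152) (nat_lit 246288928184) (nat_lit 0) (nat_lit 304460872125) (nat_lit 1) (nat_lit 5) (nat_lit 3) (nat_lit 4) (nat_lit 1) (nat_lit 4) (nat_lit 430) (nat_lit 304) (nat_lit 286)) (XT.nd (nat_lit 78)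 (nat_lit 0) (nat_lit 0) (XT.lf (nat_lit 0) (nat_lit 331899726989) (nat_lit 152) (nat_lit 261371464962) (nat_lit 0) (nat_lit 331091893781) (nat_lit 1) (nat_lit 5) (nat_lit 3) (nat_lit 4) (nat_lit 1) (nat_lit 4) (nat_lit 431) (nat_lit 304) (nat_lit 285)) (XT.lf (nat_lit 0) (nat_lit 360626519208) (nat_lit 152) (nat_lit 277771915576) (nat_lit 0) (nat_lit 359800638687) (nat_lit 1) (nat_lit 5) (nat_lit 3) (nat_lit 4) (nat_lit 1) (nat_lit 4) (nat_lit 432) (nat_lit 304) (nat_lit 284))))) (XT.nd (nat_lit 234) (nat_lit 0) (nat_lit 0) (XT.nd (nat_lit 78) (nat_lit 0) (nat_lit 0) (XT.lf (nat_lit 0) (nat_lit 391599823736) (nat_lit 152) (nat_lit 295587467881) (nat_lit 0) (nat_lit 390757232739) (nat_lit 1) (nat_lit 5) (nat_lit 3) (nat_lit 4) (nat_lit 1) (nat_lit 4) (nat_lit 433) (nat_lit 304) (nat_lit 283)) (XT.nd (nat_lit 78) (nat_lit 0) (nat_lit 0) (XT.lf (nat_lit 0) (nat_lit 425003186079) (nat_lit 152)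 (nat_lit 314923695519) (nat_lit 0) (nat_lit 424145122420) (nat_lit 1) (nat_lit 5) (nat_lit 3) (nat_lit 4) (nat_lit 1) (nat_lit 4) (nat_lit 434) (nat_lit 304) (nat_lit 282)) (XT.lf (nat_lit 0) (nat_lit 461034552090) (nat_lit 152) (nat_lit 335895183545) (nat_lit 0) (nat_lit 460162161891) (nat_lit 1) (nat_lit 5) (nat_lit 3) (nat_lit 4) (nat_lit 1) (nat_lit 4) (nat_lit 435) (nat_lit 304) (nat_lit 281)))) (XT.nd (nat_lit 51090) (nat_lit 0) (nat_lit 0) (XT.lf (nat_lit 0) (nat_lit 499907440974) (nat_lit 152) (nat_lit 358626207441) (nat_lit 0) (nat_lit 499021785461) (nat_lit 1) (nat_lit 5) (nat_lit 3) (nat_lit 4) (nat_lit 1) (nat_lit 4) (nat_lit 436) (nat_lit 304) (nat_lit 280)) (XT.nd (nat_lit 78) (nat_lit 0) (nat_lit 0) (XT.lf (nat_lit 0) (nat_lit 14733051225) (nat_lit 152) (nat_lit 63284708741) (nat_lit 0) (nat_lit 14733051225) (nat_lit 1) (nat_lit 5) (nat_lit 3) (nat_lit 4) (nat_lit 1) (nat_lit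 4) (nat_lit 410) (nat_lit 305) (nat_lit 305)) (XT.lf (nat_lit 0) (nat_lit 36668186576) (nat_lit 152) (nat_lit 126842468753) (nat_lit 0) (nat_lit 36584068821) (nat_lit 1) (nat_lit 5) (nat_lit 3) (nat_lit 4) (nat_lit 1) (nat_lit 4) (nat_lit 411) (nat_lit 305) (nat_lit 304))))))) (XT.nd (nat_lit 936) (nat_lit 0) (nat_lit 0) (XT.nd (nat_lit 468) (nat_lit 0) (nat_lit 0) (XT.nd (nat_lit 234) (nat_lit 0) (nat_lit 0) (XT.nd (nat_lit 78) (nat_lit 0) (nat_lit 0) (XT.lf (nat_lit 0) (nat_lit 44205787229) (nat_lit 152) (nat_lit 127617748663) (nat_lit 0) (nat_lit 44043782664) (nat_lit 1) (nat_lit 5) (nat_lit 3) (nat_lit 4) (nat_lit 1) (nat_lit 4) (nat_lit 412) (nat_lit 305) (nat_lit 303)) (XT.nd (nat_lit 78) (nat_lit 0) (nat_lit 0) (XT.lf (nat_lit 0) (nat_lit 52123571673) (nat_lit 152) (nat_lit 128899851465) (nat_lit 0) (nat_lit 51889449690) (nat_lit 1) (nat_lit 5) (nat_lit 3) (nat_lit 4) (nat_lit 1) (nat_lit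 4) (nat_lit 413) (nat_lit 305) (nat_lit 302)) (XT.lf (nat_lit 0) (nat_lit 60468460110) (nat_lit 152) (nat_lit 130696374805) (nat_lit 0) (nat_lit 60167562741) (nat_lit 1) (nat_lit 5) (nat_lit 3) (nat_lit 4) (nat_lit 1) (nat_lit 4) (nat_lit 414) (nat_lit 305) (nat_lit 301)))) (XT.nd (nat_lit 78) (nat_lit 0) (nat_lit 0) (XT.lf (nat_lit 0) (nat_lit 69289903733) (nat_lit 152) (nat_lit 133017964747) (nat_lit 0) (nat_lit 68927177302) (nat_lit 1) (nat_lit 5) (nat_lit 3) (nat_lit 4) (nat_lit 1) (nat_lit 4) (nat_lit 415) (nat_lit 305) (nat_lit 300)) (XT.nd (nat_lit 78) (nat_lit 0) (nat_lit 0) (XT.lf (nat_lit 0) (nat_lit 78640177762) (nat_lit 152) (nat_lit 135878378861) (nat_lit 0) (nat_lit 78220202201) (nat_lit 1) (nat_lit 5) (nat_lit 3) (nat_lit 4) (nat_lit 1) (nat_lit 4) (nat_lit 416) (nat_lit 305) (nat_lit 299)) (XT.lf (nat_lit 0) (nat_lit 88574691229) (nat_lit 152) (nat_lit 139294567750) (nat_lit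 0) (nat_lit 88101707213) (nat_lit 1) (nat_lit 5) (nat_lit 3) (nat_lit 4) (nat_lit 1) (nat_lit 4) (nat_lit 417) (nat_lit 305) (nat_lit 298))))) (XT.nd (nat_lit 234) (nat_lit 0) (nat_lit 0) (XT.nd (nat_lit 78) (nat_lit 0) (nat_lit 0) (XT.lf (nat_lit 0) (nat_lit 99152315325) (nat_lit 152) (nat_lit 143286775496) (nat_lit 0) (nat_lit 98630249406) (nat_lit 1) (nat_lit 5) (nat_lit 3) (nat_lit 4) (nat_lit 1) (nat_lit 4) (nat_lit 418) (nat_lit 305) (nat_lit 297)) (XT.nd (nat_lit 78) (nat_lit 0) (nat_lit 0) (XT.lf (nat_lit 0) (nat_lit 110435732266) (nat_lit 152) (nat_lit 147878659625) (nat_lit 0) (nat_lit 109868220142) (nat_lit 1) (nat_lit 5) (nat_lit 3) (nat_lit 4) (nat_lit 1) (nat_lit 4) (nat_lit 419) (nat_lit 305) (nat_lit 296)) (XT.lf (nat_lit 0) (nat_lit 122491806746) (nat_lit 152) (nat_lit 153097431304) (nat_lit 0) (nat_lit 121882214801) (nat_lit 1) (nat_lit 5) (nat_lit 3) (nat_lit 4) (nat_lit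 1) (nat_lit 4) (nat_lit 420) (nat_lit 305) (nat_lit 295)))) (XT.nd (nat_lit 78) (nat_lit 0) (nat_lit 0) (XT.lf (nat_lit 0) (nat_lit 135391982168) (nat_lit 152) (nat_lit 158974016587) (nat_lit 0) (nat_lit 134743427428) (nat_lit 1) (nat_lit 5) (nat_lit 3) (nat_lit 4) (nat_lit 1) (nat_lit 4) (nat_lit 421) (nat_lit 305) (nat_lit 294)) (XT.nd (nat_lit 78) (nat_lit 0) (nat_lit 0) (XT.lf (nat_lit 0) (nat_lit 149212704018) (nat_lit 152) (nat_lit 165543239683) (nat_lit 0) (nat_lit 148528072614) (nat_lit 1) (nat_lit 5) (nat_lit 3) (nat_lit 4) (nat_lit 1) (nat_lit 4) (nat_lit 422) (nat_lit 305) (nat_lit 293)) (XT.lf (nat_lit 0) (nat_lit 164035872868) (nat_lit 152) (nat_lit 172844029320) (nat_lit 0) (nat_lit 163317837146) (nat_lit 1) (nat_lit 5) (nat_lit 3) (nat_lit 4) (nat_lit 1) (nat_lit 4) (nat_lit 423) (nat_lit 305) (nat_lit 292)))))) (XT.nd (nat_lit 468) (nat_lit 0) (nat_lit 0) (XT.nd (nat_lit 234)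 (nat_lit 0) (nat_lit 0) (XT.nd (nat_lit 78) (nat_lit 0) (nat_lit 0) (XT.lf (nat_lit 0) (nat_lit 179949329720) (nat_lit 152) (nat_lit 180919649439) (nat_lit 0) (nat_lit 179200364074) (nat_lit 1) (nat_lit 5) (nat_lit 3) (nat_lit 4) (nat_lit 1) (nat_lit 4) (nat_lit 424) (nat_lit 305) (nat_lit 291)) (XT.nd (nat_lit 78) (nat_lit 0) (nat_lit 0) (XT.lf (nat_lit 0) (nat_lit 197047376540) (nat_lit 152) (nat_lit 189817955565) (nat_lit 0) (nat_lit 196269772075) (nat_lit 1) (nat_lit 5) (nat_lit 3) (nat_lit 4) (nat_lit 1) (nat_lit 4) (nat_lit 425) (nat_lit 305) (nat_lit 290)) (XT.lf (nat_lit 0) (nat_lit 215431335087) (nat_lit 152) (nat_lit 199591678402) (nat_lit 0) (nat_lit 214627213197) (nat_lit 1) (nat_lit 5) (nat_lit 3) (nat_lit 4) (nat_lit 1) (nat_lit 4) (nat_lit 426) (nat_lit 305) (nat_lit 289)))) (XT.nd (nat_lit 78) (nat_lit 0) (nat_lit 0) (XT.lf (nat_lit 0) (nat_lit 235210147337) (nat_lit 152)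 (nat_lit 210298736306) (nat_lit 0) (nat_lit 234381472276) (nat_lit 1) (nat_lit 5) (nat_lit 3) (nat_lit 4) (nat_lit 1) (nat_lit 4) (nat_lit 427) (nat_lit 305) (nat_lit 288)) (XT.nd (nat_lit 78) (nat_lit 0) (nat_lit 0) (XT.lf (nat_lit 0) (nat_lit 256501021066) (nat_lit 152) (nat_lit 222002578511) (nat_lit 0) (nat_lit 255649611588) (nat_lit 1) (nat_lit 5) (nat_lit 3) (nat_lit 4) (nat_lit 1) (nat_lit 4) (nat_lit 428) (nat_lit 305) (nat_lit 287)) (XT.lf (nat_lit 0) (nat_lit 279430124416) (nat_lit 152) (nat_lit 234772561117) (nat_lit 0) (nat_lit 278557664552) (nat_lit 1) (nat_lit 5) (nat_lit 3) (nat_lit 4) (nat_lit 1) (nat_lit 4) (nat_lit 429) (nat_lit 305) (nat_lit 286))))) (XT.nd (nat_lit 234) (nat_lit 0) (nat_lit 0) (XT.nd (nat_lit 78) (nat_lit 0) (nat_lit 0) (XT.lf (nat_lit 0) (nat_lit 304133333555) (nat_lit 152) (nat_lit 248684358097) (nat_lit 0) (nat_lit 303241382592) (nat_lit 1) (nat_lit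 5) (nat_lit 3) (nat_lit 4) (nat_lit 1) (nat_lit 4) (nat_lit 430) (nat_lit 305) (nat_lit 285)) (XT.nd (nat_lit 78) (nat_lit 0) (nat_lit 0) (XT.lf (nat_lit 0) (nat_lit 330757037869) (nat_lit 152) (nat_lit 263820409728) (nat_lit 0) (nat_lit 329847039592) (nat_lit 1) (nat_lit 5) (nat_lit 3) (nat_lit 4) (nat_lit 1) (nat_lit 4) (nat_lit 431) (nat_lit 305) (nat_lit 284)) (XT.lf (nat_lit 0) (nat_lit 359459007459) (nat_lit 152) (nat_lit 280270411131) (nat_lit 0) (nat_lit 358532298707) (nat_lit 1) (nat_lit 5) (nat_lit 3) (nat_lit 4) (nat_lit 1) (nat_lit 4) (nat_lit 432) (nat_lit 305) (nat_lit 283)))) (XT.nd (nat_lit 156) (nat_lit 0) (nat_lit 0) (XT.nd (nat_lit 78) (nat_lit 0) (nat_lit 0) (XT.lf (nat_lit 0) (nat_lit 390409328070) (nat_lit 152) (nat_lit 298131843796) (nat_lit 0) (nat_lit 389467146655) (nat_lit 1) (nat_lit 5) (nat_lit 3) (nat_lit 4) (nat_lit 1) (nat_lit 4) (nat_lit 433) (nat_lit 305)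 (nat_lit 282)) (XT.lf (nat_lit 0) (nat_lit 423791409010) (nat_lit 152) (nat_lit 317510553250) (nat_lit 0) (nat_lit 422834901055) (nat_lit 1) (nat_lit 5) (nat_lit 3) (nat_lit 4) (nat_lit 1) (nat_lit 4) (nat_lit 434) (nat_lit 305) (nat_lit 281))) (XT.nd (nat_lit 78) (nat_lit 0) (nat_lit 0) (XT.lf (nat_lit 0) (nat_lit 459803070017) (nat_lit 152) (nat_lit 338521376289) (nat_lit 0) (nat_lit 458833296748) (nat_lit 1) (nat_lit 5) (nat_lit 3) (nat_lit 4) (nat_lit 1) (nat_lit 4) (nat_lit 435) (nat_lit 305) (nat_lit 280)) (XT.lf (nat_lit 0) (nat_lit 498657713527) (nat_lit 152) (nat_lit 361288821495) (nat_lit 0) (nat_lit 497675657560) (nat_lit 1) (nat_lit 5) (nat_lit 3) (nat_lit 4) (nat_lit 1) (nat_lit 4) (nat_lit 436) (nat_lit 305) (nat_lit 279))))))))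
noncomputable def xc4 : XT := (XT.nd (nat_lit 1872) (nat_lit 0) (nat_lit 0) (XT.nd (nat_lit 936) (nat_lit 0) (nat_lit 0) (XT.nd (nat_lit 468) (nat_lit 0) (nat_lit 0) (XT.nd (nat_lit 234) (nat_lit 0) (nat_lit 0) (XT.nd (nat_lit 78) (nat_lit 0) (nat_lit 0) (XT.lf (nat_lit 0) (nat_lit 8062649725) (nat_lit 152) (nat_lit 63628555126) (nat_lit 0) (nat_lit 8062649725) (nat_lit 1) (nat_lit 5) (nat_lit 3) (nat_lit 4) (nat_lit 1) (nat_lit 4) (nat_lit 408) (nat_lit 306) (nat_lit 306)) (XT.nd (nat_lit 78) (nat_lit 0) (nat_lit 0) (XT.lf (nat_lit 0) (nat_lit 22647703010) (nat_lit 152) (nat_lit 126796976772) (nat_lit 0) (nat_lit 22556855835) (nat_lit 1) (nat_lit 5) (nat_lit 3) (nat_lit 4) (nat_lit 1) (nat_lit 4) (nat_lit 409) (nat_lit 306) (nat_lit 305)) (XT.lf (nat_lit 0) (nat_lit 29431996636) (nat_lit 152) (nat_lit 126818847917) (nat_lit 0) (nat_lit 29257031705) (nat_lit 1) (nat_lit 5) (nat_lit 3) (nat_lit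 4) (nat_lit 1) (nat_lit 4) (nat_lit 410) (nat_lit 306) (nat_lit 304)))) (XT.nd (nat_lit 78) (nat_lit 0) (nat_lit 0) (XT.lf (nat_lit 0) (nat_lit 36518383549) (nat_lit 152) (nat_lit 127322853292) (nat_lit 0) (nat_lit 36265531808) (nat_lit 1) (nat_lit 5) (nat_lit 3) (nat_lit 4) (nat_lit 1) (nat_lit 4) (nat_lit 411) (nat_lit 306) (nat_lit 303)) (XT.nd (nat_lit 78) (nat_lit 0) (nat_lit 0) (XT.lf (nat_lit 0) (nat_lit 43948857153) (nat_lit 152) (nat_lit 128311979596) (nat_lit 0) (nat_lit 43623887994) (nat_lit 1) (nat_lit 5) (nat_lit 3) (nat_lit 4) (nat_lit 1) (nat_lit 4) (nat_lit 412) (nat_lit 306) (nat_lit 302)) (XT.lf (nat_lit 0) (nat_lit 51767449884) (nat_lit 152) (nat_lit 129792088318) (nat_lit 0) (nat_lit 51375705339) (nat_lit 1) (nat_lit 5) (nat_lit 3) (nat_lit 4) (nat_lit 1) (nat_lit 4) (nat_lit 413) (nat_lit 306) (nat_lit 301))))) (XT.nd (nat_lit 234) (nat_lit 0) (nat_lit 0) (XT.nd (nat_lit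 78) (nat_lit 0) (nat_lit 0) (XT.lf (nat_lit 0) (nat_lit 60020494144) (nat_lit 152) (nat_lit 131771950473) (nat_lit 0) (nat_lit 59566920538) (nat_lit 1) (nat_lit 5) (nat_lit 3) (nat_lit 4) (nat_lit 1) (nat_lit 4) (nat_lit 414) (nat_lit 306) (nat_lit 300)) (XT.nd (nat_lit 78) (nat_lit 0) (nat_lit 0) (XT.lf (nat_lit 0) (nat_lit 68756896861) (nat_lit 152) (nat_lit 134263298577) (nat_lit 0) (nat_lit 68246074124) (nat_lit 1) (nat_lit 5) (nat_lit 3) (nat_lit 4) (nat_lit 1) (nat_lit 4) (nat_lit 415) (nat_lit 306) (nat_lit 299)) (XT.lf (nat_lit 0) (nat_lit 78028429311) (nat_lit 152) (nat_lit 137280896174) (nat_lit 0) (nat_lit 77464598120) (nat_lit 1) (nat_lit 5) (nat_lit 3) (nat_lit 4) (nat_lit 1) (nat_lit 4) (nat_lit 416) (nat_lit 306) (nat_lit 298)))) (XT.nd (nat_lit 78) (nat_lit 0) (nat_lit 0) (XT.lf (nat_lit 0) (nat_lit 87890033909) (nat_lit 152) (nat_lit 140842625325) (nat_lit 0) (nat_lit 87277120815)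 (nat_lit 1) (nat_lit 5) (nat_lit 3) (nat_lit 4) (nat_lit 1) (nat_lit 4) (nat_lit 417) (nat_lit 306) (nat_lit 297)) (XT.nd (nat_lit 78) (nat_lit 0) (nat_lit 0) (XT.lf (nat_lit 0) (nat_lit 98400149792) (nat_lit 152) (nat_lit 144969592573) (nat_lit 0) (nat_lit 97741790492) (nat_lit 1) (nat_lit 5) (nat_lit 3) (nat_lit 4) (nat_lit 1) (nat_lit 4) (nat_lit 418) (nat_lit 306) (nat_lit 296)) (XT.lf (nat_lit 0) (nat_lit 109621059129) (nat_lit 152) (nat_lit 149686254020) (nat_lit 0) (nat_lit 108920620009) (nat_lit 1) (nat_lit 5) (nat_lit 3) (nat_lit 4) (nat_lit 1) (nat_lit 4) (nat_lit 419) (nat_lit 306) (nat_lit 295)))))) (XT.nd (nat_lit 468) (nat_lit 0) (nat_lit 0) (XT.nd (nat_lit 234) (nat_lit 0) (nat_lit 0) (XT.nd (nat_lit 78) (nat_lit 0) (nat_lit 0) (XT.lf (nat_lit 0) (nat_lit 121619256197) (nat_lit 152) (nat_lit 155020560251) (nat_lit 0) (nat_lit 120879854281) (nat_lit 1) (nat_lit 5) (nat_lit 3)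 (nat_lit 4) (nat_lit 1) (nat_lit 4) (nat_lit 420) (nat_lit 306) (nat_lit 294)) (XT.nd (nat_lit 78) (nat_lit 0) (nat_lit 0) (XT.lf (nat_lit 0) (nat_lit 134465841424) (nat_lit 152) (nat_lit 161004121972) (nat_lit 0) (nat_lit 133690362844) (nat_lit 1) (nat_lit 5) (nat_lit 3) (nat_lit 4) (nat_lit 1) (nat_lit 4) (nat_lit 421) (nat_lit 306) (nat_lit 293)) (XT.lf (nat_lit 0) (nat_lit 148236942722) (nat_lit 152) (nat_lit 167672397324) (nat_lit 0) (nat_lit 147428059824) (nat_lit 1) (nat_lit 5) (nat_lit 3) (nat_lit 4) (nat_lit 1) (nat_lit 4) (nat_lit 422) (nat_lit 306) (nat_lit 292)))) (XT.nd (nat_lit 78) (nat_lit 0) (nat_lit 0) (XT.lf (nat_lit 0) (nat_lit 163014166618) (nat_lit 152) (nat_lit 175064902015) (nat_lit 0) (nat_lit 162174353796) (nat_lit 1) (nat_lit 5) (nat_lit 3) (nat_lit 4) (nat_lit 1) (nat_lit 4) (nat_lit 423) (nat_lit 306) (nat_lit 291)) (XT.nd (nat_lit 78) (nat_lit 0) (nat_lit 0) (XT.lf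 (nat_lit 0) (nat_lit 178885081844) (nat_lit 152) (nat_lit 183225443478) (nat_lit 0) (nat_lit 178016630204) (nat_lit 1) (nat_lit 5) (nat_lit 3) (nat_lit 4) (nat_lit 1) (nat_lit 4) (nat_lit 424) (nat_lit 306) (nat_lit 290)) (XT.lf (nat_lit 0) (nat_lit 195943738271) (nat_lit 152) (nat_lit 192202380480) (nat_lit 0) (nat_lit 195048769205) (nat_lit 1) (nat_lit 5) (nat_lit 3) (nat_lit 4) (nat_lit 1) (nat_lit 4) (nat_lit 425) (nat_lit 306) (nat_lit 289))))) (XT.nd (nat_lit 234) (nat_lit 0) (nat_lit 0) (XT.nd (nat_lit 78) (nat_lit 0) (nat_lit 0) (XT.lf (nat_lit 0) (nat_lit 214291224231) (nat_lit 152) (nat_lit 202048909682) (nat_lit 0) (nat_lit 213371701994) (nat_lit 1) (nat_lit 5) (nat_lit 3) (nat_lit 4) (nat_lit 1) (nat_lit 4) (nat_lit 426) (nat_lit 306) (nat_lit 288)) (XT.nd (nat_lit 78) (nat_lit 0) (nat_lit 0) (XT.lf (nat_lit 0) (nat_lit 234036265567) (nat_lit 152) (nat_lit 212823380888) (nat_lit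 0) (nat_lit 233094008913) (nat_lit 1) (nat_lit 5) (nat_lit 3) (nat_lit 4) (nat_lit 1) (nat_lit 4) (nat_lit 427) (nat_lit 306) (nat_lit 287)) (XT.lf (nat_lit 0) (nat_lit 255295869932) (nat_lit 152) (nat_lit 224589642817) (nat_lit 0) (nat_lit 254332562892) (nat_lit 1) (nat_lit 5) (nat_lit 3) (nat_lit 4) (nat_lit 1) (nat_lit 4) (nat_lit 428) (nat_lit 306) (nat_lit 286)))) (XT.nd (nat_lit 78) (nat_lit 0) (nat_lit 0) (XT.lf (nat_lit 0) (nat_lit 278196020167) (nat_lit 152) (nat_lit 237417421464) (nat_lit 0) (nat_lit 277213222028) (nat_lit 1) (nat_lit 5) (nat_lit 3) (nat_lit 4) (nat_lit 1) (nat_lit 4) (nat_lit 429) (nat_lit 306) (nat_lit 285)) (XT.nd (nat_lit 78) (nat_lit 0) (nat_lit 0) (XT.lf (nat_lit 0) (nat_lit 302872420866) (nat_lit 152) (nat_lit 251382733296) (nat_lit 0) (nat_lit 301871575413) (nat_lit 1) (nat_lit 5) (nat_lit 3) (nat_lit 4) (nat_lit 1) (nat_lit 4) (nat_lit 430) (nat_lit 306)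 (nat_lit 284)) (XT.lf (nat_lit 0) (nat_lit 329471302550) (nat_lit 152) (nat_lit 266568335716) (nat_lit 0) (nat_lit 328453746622) (nat_lit 1) (nat_lit 5) (nat_lit 3) (nat_lit 4) (nat_lit 1) (nat_lit 4) (nat_lit 431) (nat_lit 306) (nat_lit 283))))))) (XT.nd (nat_lit 51636) (nat_lit 0) (nat_lit 0) (XT.nd (nat_lit 51168) (nat_lit 0) (nat_lit 0) (XT.nd (nat_lit 234) (nat_lit 0) (nat_lit 0) (XT.nd (nat_lit 78) (nat_lit 0) (nat_lit 0) (XT.lf (nat_lit 0) (nat_lit 358150288224) (nat_lit 152) (nat_lit 283064217480) (nat_lit 0) (nat_lit 357117259633) (nat_lit 1) (nat_lit 5) (nat_lit 3) (nat_lit 4) (nat_lit 1) (nat_lit 4) (nat_lit 432) (nat_lit 306) (nat_lit 282)) (XT.nd (nat_lit 78) (nat_lit 0) (nat_lit 0) (XT.lf (nat_lit 0) (nat_lit 389079327431) (nat_lit 152) (nat_lit 300968131960) (nat_lit 0) (nat_lit 388031972301) (nat_lit 1) (nat_lit 5) (nat_lit 3) (nat_lit 4) (nat_lit 1) (nat_lit 4) (nat_lit 433)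 (nat_lit 306) (nat_lit 281)) (XT.lf (nat_lit 0) (nat_lit 422441703367) (nat_lit 152) (nat_lit 320386176428) (nat_lit 0) (nat_lit 421381082922) (nat_lit 1) (nat_lit 5) (nat_lit 3) (nat_lit 4) (nat_lit 1) (nat_lit 4) (nat_lit 434) (nat_lit 306) (nat_lit 280)))) (XT.nd (nat_lit 78) (nat_lit 0) (nat_lit 0) (XT.lf (nat_lit 0) (nat_lit 458435119000) (nat_lit 152) (nat_lit 341433420777) (nat_lit 0) (nat_lit 457362215857) (nat_lit 1) (nat_lit 5) (nat_lit 3) (nat_lit 4) (nat_lit 1) (nat_lit 4) (nat_lit 435) (nat_lit 306) (nat_lit 279)) (XT.nd (nat_lit 50778) (nat_lit 0) (nat_lit 0) (XT.lf (nat_lit 0) (nat_lit 497272868645) (nat_lit 152) (nat_lit 364234589417) (nat_lit 0) (nat_lit 496188592634) (nat_lit 1) (nat_lit 5) (nat_lit 3) (nat_lit 4) (nat_lit 1) (nat_lit 4) (nat_lit 436) (nat_lit 306) (nat_lit 278)) (XT.lf (nat_lit 0) (nat_lit 1978370209) (nat_lit 152) (nat_lit 64673117386) (nat_lit 0) (nat_lit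 1978370209) (nat_lit 1) (nat_lit 5) (nat_lit 3) (nat_lit 4) (nat_lit 1) (nat_lit 4) (nat_lit 406) (nat_lit 307) (nat_lit 307))))) (XT.nd (nat_lit 234) (nat_lit 0) (nat_lit 0) (XT.nd (nat_lit 78) (nat_lit 0) (nat_lit 0) (XT.lf (nat_lit 0) (nat_lit 9924249625) (nat_lit 152) (nat_lit 128201975071) (nat_lit 0) (nat_lit 9826134675) (nat_lit 1) (nat_lit 5) (nat_lit 3) (nat_lit 4) (nat_lit 1) (nat_lit 4) (nat_lit 407) (nat_lit 307) (nat_lit 306)) (XT.nd (nat_lit 78) (nat_lit 0) (nat_lit 0) (XT.lf (nat_lit 0) (nat_lit 16088465171) (nat_lit 152) (nat_lit 127526495120) (nat_lit 0) (nat_lit 15899503045) (nat_lit 1) (nat_lit 5) (nat_lit 3) (nat_lit 4) (nat_lit 1) (nat_lit 4) (nat_lit 408) (nat_lit 307) (nat_lit 305)) (XT.lf (nat_lit 0) (nat_lit 22485915741) (nat_lit 152) (nat_lit 127315792074) (nat_lit 0) (nat_lit 22212835860) (nat_lit 1) (nat_lit 5) (nat_lit 3) (nat_lit 4) (nat_lit 1) (nat_lit 4) (nat_lit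 409) (nat_lit 307) (nat_lit 304)))) (XT.nd (nat_lit 78) (nat_lit 0) (nat_lit 0) (XT.lf (nat_lit 0) (nat_lit 29154512154) (nat_lit 152) (nat_lit 127568617324) (nat_lit 0) (nat_lit 28803545462) (nat_lit 1) (nat_lit 5) (nat_lit 3) (nat_lit 4) (nat_lit 1) (nat_lit 4) (nat_lit 410) (nat_lit 307) (nat_lit 303)) (XT.nd (nat_lit 78) (nat_lit 0) (nat_lit 0) (XT.lf (nat_lit 0) (nat_lit 36133772018) (nat_lit 152) (nat_lit 128286469093) (nat_lit 0) (nat_lit 35710687909) (nat_lit 1) (nat_lit 5) (nat_lit 3) (nat_lit 4) (nat_lit 1) (nat_lit 4) (nat_lit 411) (nat_lit 307) (nat_lit 302)) (XT.lf (nat_lit 0) (nat_lit 43465053910) (nat_lit 152) (nat_lit 129473601317) (nat_lit 0) (nat_lit 42975194415) (nat_lit 1) (nat_lit 5) (nat_lit 3) (nat_lit 4) (nat_lit 1) (nat_lit 4) (nat_lit 412) (nat_lit 307) (nat_lit 301)))))) (XT.nd (nat_lit 468) (nat_lit 0) (nat_lit 0) (XT.nd (nat_lit 234) (nat_lit 0) (nat_lit 0) (XT.nd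 (nat_lit 78) (nat_lit 0) (nat_lit 0) (XT.lf (nat_lit 0) (nat_lit 51191802463) (nat_lit 152) (nat_lit 131137048854) (nat_lit 0) (nat_lit 50640113907) (nat_lit 1) (nat_lit 5) (nat_lit 3) (nat_lit 4) (nat_lit 1) (nat_lit 4) (nat_lit 413) (nat_lit 307) (nat_lit 300)) (XT.nd (nat_lit 78) (nat_lit 0) (nat_lit 0) (XT.lf (nat_lit 0) (nat_lit 59359805817) (nat_lit 152) (nat_lit 133286669170) (nat_lit 0) (nat_lit 58750868130) (nat_lit 1) (nat_lit 5) (nat_lit 3) (nat_lit 4) (nat_lit 1) (nat_lit 4) (nat_lit 414) (nat_lit 307) (nat_lit 299)) (XT.lf (nat_lit 0) (nat_lit 68017466955) (nat_lit 152) (nat_lit 135935200758) (nat_lit 0) (nat_lit 67355520814) (nat_lit 1) (nat_lit 5) (nat_lit 3) (nat_lit 4) (nat_lit 1) (nat_lit 4) (nat_lit 415) (nat_lit 307) (nat_lit 298)))) (XT.nd (nat_lit 78) (nat_lit 0) (nat_lit 0) (XT.lf (nat_lit 0) (nat_lit 77216090536) (nat_lit 152) (nat_lit 139098338618) (nat_lit 0) (nat_lit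 76505062492) (nat_lit 1) (nat_lit 5) (nat_lit 3) (nat_lit 4) (nat_lit 1) (nat_lit 4) (nat_lit 416) (nat_lit 307) (nat_lit 297)) (XT.nd (nat_lit 78) (nat_lit 0) (nat_lit 0) (XT.lf (nat_lit 0) (nat_lit 87010186921) (nat_lit 152) (nat_lit 142794827271) (nat_lit 0) (nat_lit 86253712671) (nat_lit 1) (nat_lit 5) (nat_lit 3) (nat_lit 4) (nat_lit 1) (nat_lit 4) (nat_lit 417) (nat_lit 307) (nat_lit 296)) (XT.lf (nat_lit 0) (nat_lit 97457795200) (nat_lit 152) (nat_lit 147046571836) (nat_lit 0) (nat_lit 96659241130) (nat_lit 1) (nat_lit 5) (nat_lit 3) (nat_lit 4) (nat_lit 1) (nat_lit 4) (nat_lit 418) (nat_lit 307) (nat_lit 295))))) (XT.nd (nat_lit 234) (nat_lit 0) (nat_lit 0) (XT.nd (nat_lit 78) (nat_lit 0) (nat_lit 0) (XT.lf (nat_lit 0) (nat_lit 108620827125) (nat_lit 152) (nat_lit 151878767835) (nat_lit 0) (nat_lit 107783310259) (nat_lit 1) (nat_lit 5) (nat_lit 3) (nat_lit 4) (nat_lit 1) (nat_lit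 4) (nat_lit 419) (nat_lit 307) (nat_lit 294)) (XT.nd (nat_lit 78) (nat_lit 0) (nat_lit 0) (XT.lf (nat_lit 0) (nat_lit 120565433998) (nat_lit 152) (nat_lit 157320050504) (nat_lit 0) (nat_lit 119691840468) (nat_lit 1) (nat_lit 5) (nat_lit 3) (nat_lit 4) (nat_lit 1) (nat_lit 4) (nat_lit 420) (nat_lit 307) (nat_lit 293)) (XT.lf (nat_lit 0) (nat_lit 133362398674) (nat_lit 152) (nat_lit 163402664481) (nat_lit 0) (nat_lit 132455400826) (nat_lit 1) (nat_lit 5) (nat_lit 3) (nat_lit 4) (nat_lit 1) (nat_lit 4) (nat_lit 421) (nat_lit 307) (nat_lit 292)))) (XT.nd (nat_lit 156) (nat_lit 0) (nat_lit 0) (XT.nd (nat_lit 78) (nat_lit 0) (nat_lit 0) (XT.lf (nat_lit 0) (nat_lit 147087555017) (nat_lit 152) (nat_lit 170162654887) (nat_lit 0) (nat_lit 146149627245) (nat_lit 1) (nat_lit 5) (nat_lit 3) (nat_lit 4) (nat_lit 1) (nat_lit 4) (nat_lit 422) (nat_lit 307) (nat_lit 291)) (XT.lf (nat_lit 0) (nat_lit 161822237287)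 (nat_lit 152) (nat_lit 177640080922) (nat_lit 0) (nat_lit 160855670696) (nat_lit 1) (nat_lit 5) (nat_lit 3) (nat_lit 4) (nat_lit 1) (nat_lit 4) (nat_lit 423) (nat_lit 307) (nat_lit 290))) (XT.nd (nat_lit 78) (nat_lit 0) (nat_lit 0) (XT.lf (nat_lit 0) (nat_lit 177653762120) (nat_lit 152) (nat_lit 185879253261) (nat_lit 0) (nat_lit 176660678105) (nat_lit 1) (nat_lit 5) (nat_lit 3) (nat_lit 4) (nat_lit 1) (nat_lit 4) (nat_lit 424) (nat_lit 307) (nat_lit 289)) (XT.lf (nat_lit 0) (nat_lit 194675945959) (nat_lit 152) (nat_lit 194928996629) (nat_lit 0) (nat_lit 193658308774) (nat_lit 1) (nat_lit 5) (nat_lit 3) (nat_lit 4) (nat_lit 1) (nat_lit 4) (nat_lit 425) (nat_lit 307) (nat_lit 288))))))))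
noncomputable def xc5 : XT := (XT.nd (nat_lit 52416) (nat_lit 0) (nat_lit 0) (XT.nd (nat_lit 51480) (nat_lit 0) (nat_lit 0) (XT.nd (nat_lit 468) (nat_lit 0) (nat_lit 0) (XT.nd (nat_lit 234) (nat_lit 0) (nat_lit 0) (XT.nd (nat_lit 78) (nat_lit 0) (nat_lit 0) (XT.lf (nat_lit 0) (nat_lit 212989661006) (nat_lit 152) (nat_lit 204842939133) (nat_lit 0) (nat_lit 211949289402) (nat_lit 1) (nat_lit 5) (nat_lit 3) (nat_lit 4) (nat_lit 1) (nat_lit 4) (nat_lit 426) (nat_lit 307) (nat_lit 287)) (XT.nd (nat_lit 78) (nat_lit 0) (nat_lit 0) (XT.lf (nat_lit 0) (nat_lit 232703432978) (nat_lit 152) (nat_lit 215679830063) (nat_lit 0) (nat_lit 231642010988) (nat_lit 1) (nat_lit 5) (nat_lit 3) (nat_lit 4) (nat_lit 1) (nat_lit 4) (nat_lit 427) (nat_lit 307) (nat_lit 286)) (XT.lf (nat_lit 0) (nat_lit 253934084228) (nat_lit 152) (nat_lit 227503888032) (nat_lit 0) (nat_lit 252853171139) (nat_lit 1) (nat_lit 5) (nat_lit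 3) (nat_lit 4) (nat_lit 1) (nat_lit 4) (nat_lit 428) (nat_lit 307) (nat_lit 285)))) (XT.nd (nat_lit 78) (nat_lit 0) (nat_lit 0) (XT.lf (nat_lit 0) (nat_lit 276807426023) (nat_lit 152) (nat_lit 240385181531) (nat_lit 0) (nat_lit 275708465620) (nat_lit 1) (nat_lit 5) (nat_lit 3) (nat_lit 4) (nat_lit 1) (nat_lit 4) (nat_lit 429) (nat_lit 307) (nat_lit 284)) (XT.nd (nat_lit 78) (nat_lit 0) (nat_lit 0) (XT.lf (nat_lit 0) (nat_lit 301459004092) (nat_lit 152) (nat_lit 254400044153) (nat_lit 0) (nat_lit 300343333214) (nat_lit 1) (nat_lit 5) (nat_lit 3) (nat_lit 4) (nat_lit 1) (nat_lit 4) (nat_lit 430) (nat_lit 307) (nat_lit 283)) (XT.lf (nat_lit 0) (nat_lit 328034901860) (nat_lit 152) (nat_lit 269631526933) (nat_lit 0) (nat_lit 326903758320) (nat_lit 1) (nat_lit 5) (nat_lit 3) (nat_lit 4) (nat_lit 1) (nat_lit 4) (nat_lit 431) (nat_lit 307) (nat_lit 282))))) (XT.nd (nat_lit 234) (nat_lit 0) (nat_lit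 0) (XT.nd (nat_lit 78) (nat_lit 0) (nat_lit 0) (XT.lf (nat_lit 0) (nat_lit 356692606130) (nat_lit 152) (nat_lit 286169890512) (nat_lit 0) (nat_lit 355547136050) (nat_lit 1) (nat_lit 5) (nat_lit 3) (nat_lit 4) (nat_lit 1) (nat_lit 4) (nat_lit 432) (nat_lit 307) (nat_lit 281)) (XT.nd (nat_lit 78) (nat_lit 0) (nat_lit 0) (XT.lf (nat_lit 0) (nat_lit 387601940333) (nat_lit 152) (nat_lit 304113140006) (nat_lit 0) (nat_lit 386443204939) (nat_lit 1) (nat_lit 5) (nat_lit 3) (nat_lit 4) (nat_lit 1) (nat_lit 4) (nat_lit 433) (nat_lit 307) (nat_lit 280)) (XT.lf (nat_lit 0) (nat_lit 420946070895) (nat_lit 152) (nat_lit 323567605783) (nat_lit 0) (nat_lit 419775052802) (nat_lit 1) (nat_lit 5) (nat_lit 3) (nat_lit 4) (nat_lit 1) (nat_lit 4) (nat_lit 434) (nat_lit 307) (nat_lit 279)))) (XT.nd (nat_lit 78) (nat_lit 0) (nat_lit 0) (XT.lf (nat_lit 0) (nat_lit 456922592663) (nat_lit 152) (nat_lit 344648573567)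 (nat_lit 0) (nat_lit 455740201702) (nat_lit 1) (nat_lit 5) (nat_lit 3) (nat_lit 4) (nat_lit 1) (nat_lit 4) (nat_lit 435) (nat_lit 307) (nat_lit 278)) (XT.nd (nat_lit 50622) (nat_lit 0) (nat_lit 152) (XT.lf (nat_lit 0) (nat_lit 495744699841) (nat_lit 152) (nat_lit 367480967610) (nat_lit 0) (nat_lit 494551778446) (nat_lit 1) (nat_lit 5) (nat_lit 3) (nat_lit 4) (nat_lit 1) (nat_lit 4) (nat_lit 436) (nat_lit 307) (nat_lit 277)) (XT.lf (nat_lit 0) (nat_lit 51953582939) (nat_lit 76) (nat_lit 3574051988) (nat_lit 76) (nat_lit 3574051988) (nat_lit 3) (nat_lit 4) (nat_lit 4) (nat_lit 5) (nat_lit 4) (nat_lit 4) (nat_lit 404) (nat_lit 308) (nat_lit 308)))))) (XT.nd (nat_lit 468) (nat_lit 0) (nat_lit 0) (XT.nd (nat_lit 234) (nat_lit 0) (nat_lit 0) (XT.nd (nat_lit 78) (nat_lit 152) (nat_lit 0) (XT.lf (nat_lit 0) (nat_lit 123832574239) (nat_lit 76) (nat_lit 1823099674) (nat_lit 76) (nat_lit 1711837321)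 (nat_lit 3) (nat_lit 4) (nat_lit 4) (nat_lit 5) (nat_lit 4) (nat_lit 4) (nat_lit 405) (nat_lit 308) (nat_lit 307)) (XT.nd (nat_lit 78) (nat_lit 0) (nat_lit 0) (XT.lf (nat_lit 0) (nat_lit 3916959397) (nat_lit 152) (nat_lit 129637170431) (nat_lit 0) (nat_lit 3712880301) (nat_lit 1) (nat_lit 5) (nat_lit 3) (nat_lit 4) (nat_lit 1) (nat_lit 4) (nat_lit 406) (nat_lit 308) (nat_lit 306)) (XT.lf (nat_lit 0) (nat_lit 9749519374) (nat_lit 152) (nat_lit 128762295597) (nat_lit 0) (nat_lit 9454593102) (nat_lit 1) (nat_lit 5) (nat_lit 3) (nat_lit 4) (nat_lit 1) (nat_lit 4) (nat_lit 407) (nat_lit 308) (nat_lit 305)))) (XT.nd (nat_lit 78) (nat_lit 0) (nat_lit 0) (XT.lf (nat_lit 0) (nat_lit 15788781930) (nat_lit 152) (nat_lit 128336246080) (nat_lit 0) (nat_lit 15409737903) (nat_lit 1) (nat_lit 5) (nat_lit 3) (nat_lit 4) (nat_lit 1) (nat_lit 4) (nat_lit 408) (nat_lit 308) (nat_lit 304)) (XT.nd (nat_lit 78)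 (nat_lit 0) (nat_lit 0) (XT.lf (nat_lit 0) (nat_lit 22070535287) (nat_lit 152) (nat_lit 128356497139) (nat_lit 0) (nat_lit 21613604450) (nat_lit 1) (nat_lit 5) (nat_lit 3) (nat_lit 4) (nat_lit 1) (nat_lit 4) (nat_lit 409) (nat_lit 308) (nat_lit 303)) (XT.lf (nat_lit 0) (nat_lit 28632004651) (nat_lit 152) (nat_lit 128823168783) (nat_lit 0) (nat_lit 28102956396) (nat_lit 1) (nat_lit 5) (nat_lit 3) (nat_lit 4) (nat_lit 1) (nat_lit 4) (nat_lit 410) (nat_lit 308) (nat_lit 302))))) (XT.nd (nat_lit 234) (nat_lit 0) (nat_lit 0) (XT.nd (nat_lit 78) (nat_lit 0) (nat_lit 0) (XT.lf (nat_lit 0) (nat_lit 35512072803) (nat_lit 152) (nat_lit 129739026472) (nat_lit 0) (nat_lit 34916249162) (nat_lit 1) (nat_lit 5) (nat_lit 3) (nat_lit 4) (nat_lit 1) (nat_lit 4) (nat_lit 411) (nat_lit 308) (nat_lit 301)) (XT.nd (nat_lit 78) (nat_lit 0) (nat_lit 0) (XT.lf (nat_lit 0) (nat_lit 42751510517) (nat_lit 152) (nat_lit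 131109497511) (nat_lit 0) (nat_lit 42093857815) (nat_lit 1) (nat_lit 5) (nat_lit 3) (nat_lit 4) (nat_lit 1) (nat_lit 4) (nat_lit 412) (nat_lit 308) (nat_lit 300)) (XT.lf (nat_lit 0) (nat_lit 50393218165) (nat_lit 152) (nat_lit 132942703209) (nat_lit 0) (nat_lit 49678316332) (nat_lit 1) (nat_lit 5) (nat_lit 3) (nat_lit 4) (nat_lit 1) (nat_lit 4) (nat_lit 413) (nat_lit 308) (nat_lit 299)))) (XT.nd (nat_lit 78) (nat_lit 0) (nat_lit 0) (XT.lf (nat_lit 0) (nat_lit 58482479940) (nat_lit 152) (nat_lit 135249507010) (nat_lit 0) (nat_lit 57714569652) (nat_lit 1) (nat_lit 5) (nat_lit 3) (nat_lit 4) (nat_lit 1) (nat_lit 4) (nat_lit 414) (nat_lit 308) (nat_lit 298)) (XT.nd (nat_lit 78) (nat_lit 0) (nat_lit 0) (XT.lf (nat_lit 0) (nat_lit 67067232208) (nat_lit 152) (nat_lit 138043578859) (nat_lit 0) (nat_lit 66250240019) (nat_lit 1) (nat_lit 5) (nat_lit 3) (nat_lit 4) (nat_lit 1) (nat_lit 4) (nat_lit 415)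 (nat_lit 308) (nat_lit 297)) (XT.lf (nat_lit 0) (nat_lit 76198347576) (nat_lit 152) (nat_lit 141341476221) (nat_lit 0) (nat_lit 75335909181) (nat_lit 1) (nat_lit 5) (nat_lit 3) (nat_lit 4) (nat_lit 1) (nat_lit 4) (nat_lit 416) (nat_lit 308) (nat_lit 296))))))) (XT.nd (nat_lit 936) (nat_lit 0) (nat_lit 0) (XT.nd (nat_lit 468) (nat_lit 0) (nat_lit 0) (XT.nd (nat_lit 234) (nat_lit 0) (nat_lit 0) (XT.nd (nat_lit 78) (nat_lit 0) (nat_lit 0) (XT.lf (nat_lit 0) (nat_lit 85929936357) (nat_lit 152) (nat_lit 145162742192) (nat_lit 0) (nat_lit 85025418141) (nat_lit 1) (nat_lit 5) (nat_lit 3) (nat_lit 4) (nat_lit 1) (nat_lit 4) (nat_lit 417) (nat_lit 308) (nat_lit 295)) (XT.nd (nat_lit 78) (nat_lit 0) (nat_lit 0) (XT.lf (nat_lit 0) (nat_lit 96319667225) (nat_lit 152) (nat_lit 149530021309) (nat_lit 0) (nat_lit 95376186212) (nat_lit 1) (nat_lit 5) (nat_lit 3) (nat_lit 4) (nat_lit 1) (nat_lit 4) (nat_lit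 418) (nat_lit 308) (nat_lit 294)) (XT.lf (nat_lit 0) (nat_lit 107429108955) (nat_lit 152) (nat_lit 154469193745) (nat_lit 0) (nat_lit 106449551279) (nat_lit 1) (nat_lit 5) (nat_lit 3) (nat_lit 4) (nat_lit 1) (nat_lit 4) (nat_lit 419) (nat_lit 308) (nat_lit 293)))) (XT.nd (nat_lit 78) (nat_lit 0) (nat_lit 0) (XT.lf (nat_lit 0) (nat_lit 119324095276) (nat_lit 152) (nat_lit 160009528672) (nat_lit 0) (nat_lit 118311133282) (nat_lit 1) (nat_lit 5) (nat_lit 3) (nat_lit 4) (nat_lit 1) (nat_lit 4) (nat_lit 420) (nat_lit 308) (nat_lit 292)) (XT.nd (nat_lit 78) (nat_lit 0) (nat_lit 0) (XT.lf (nat_lit 0) (nat_lit 132075114996) (nat_lit 152) (nat_lit 166183857702) (nat_lit 0) (nat_lit 131031223079) (nat_lit 1) (nat_lit 5) (nat_lit 3) (nat_lit 4) (nat_lit 1) (nat_lit 4) (nat_lit 421) (nat_lit 308) (nat_lit 291)) (XT.lf (nat_lit 0) (nat_lit 145757729714) (nat_lit 152) (nat_lit 173028769452) (nat_lit 0)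 (nat_lit 144685198978) (nat_lit 1) (nat_lit 5) (nat_lit 3) (nat_lit 4) (nat_lit 1) (nat_lit 4) (nat_lit 422) (nat_lit 308) (nat_lit 290))))) (XT.nd (nat_lit 234) (nat_lit 0) (nat_lit 0) (XT.nd (nat_lit 78) (nat_lit 0) (nat_lit 0) (XT.lf (nat_lit 0) (nat_lit 160453021591) (nat_lit 152) (nat_lit 180584826363) (nat_lit 0) (nat_lit 159353973430) (nat_lit 1) (nat_lit 5) (nat_lit 3) (nat_lit 4) (nat_lit 1) (nat_lit 4) (nat_lit 423) (nat_lit 308) (nat_lit 289)) (XT.nd (nat_lit 78) (nat_lit 0) (nat_lit 0) (XT.lf (nat_lit 0) (nat_lit 176248073837) (nat_lit 152) (nat_lit 188896805068) (nat_lit 0) (nat_lit 175124472506) (nat_lit 1) (nat_lit 5) (nat_lit 3) (nat_lit 4) (nat_lit 1) (nat_lit 4) (nat_lit 424) (nat_lit 308) (nat_lit 288)) (XT.lf (nat_lit 0) (nat_lit 193236486763) (nat_lit 152) (nat_lit 198013961737) (nat_lit 0) (nat_lit 192090151014) (nat_lit 1) (nat_lit 5) (nat_lit 3) (nat_lit 4) (nat_lit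 1) (nat_lit 4) (nat_lit 425) (nat_lit 308) (nat_lit 287)))) (XT.nd (nat_lit 78) (nat_lit 0) (nat_lit 0) (XT.lf (nat_lit 0) (nat_lit 211518932445) (nat_lit 152) (nat_lit 207990323965) (nat_lit 0) (nat_lit 210351546309) (nat_lit 1) (nat_lit 5) (nat_lit 3) (nat_lit 4) (nat_lit 1) (nat_lit 4) (nat_lit 426) (nat_lit 308) (nat_lit 286)) (XT.nd (nat_lit 78) (nat_lit 0) (nat_lit 0) (XT.lf (nat_lit 0) (nat_lit 231203751302) (nat_lit 152) (nat_lit 218885010936) (nat_lit 0) (nat_lit 230016874067) (nat_lit 1) (nat_lit 5) (nat_lit 3) (nat_lit 4) (nat_lit 1) (nat_lit 4) (nat_lit 427) (nat_lit 308) (nat_lit 285)) (XT.lf (nat_lit 0) (nat_lit 252407594112) (nat_lit 152) (nat_lit 230762583757) (nat_lit 0) (nat_lit 251202669564) (nat_lit 1) (nat_lit 5) (nat_lit 3) (nat_lit 4) (nat_lit 1) (nat_lit 4) (nat_lit 428) (nat_lit 308) (nat_lit 284)))))) (XT.nd (nat_lit 468) (nat_lit 0) (nat_lit 0) (XT.nd (nat_lit 234)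 (nat_lit 0) (nat_lit 0) (XT.nd (nat_lit 78) (nat_lit 0) (nat_lit 0) (XT.lf (nat_lit 0) (nat_lit 275256113277) (nat_lit 152) (nat_lit 243693428046) (nat_lit 0) (nat_lit 274034478253) (nat_lit 1) (nat_lit 5) (nat_lit 3) (nat_lit 4) (nat_lit 1) (nat_lit 4) (nat_lit 429) (nat_lit 308) (nat_lit 283)) (XT.nd (nat_lit 78) (nat_lit 0) (nat_lit 0) (XT.lf (nat_lit 0) (nat_lit 299884707430) (nat_lit 152) (nat_lit 257754171028) (nat_lit 0) (nat_lit 298647599743) (nat_lit 1) (nat_lit 5) (nat_lit 3) (nat_lit 4) (nat_lit 1) (nat_lit 4) (nat_lit 430) (nat_lit 308) (nat_lit 282)) (XT.lf (nat_lit 0) (nat_lit 326439323794) (nat_lit 152) (nat_lit 273028135623) (nat_lit 0) (nat_lit 325187889568) (nat_lit 1) (nat_lit 5) (nat_lit 3) (nat_lit 4) (nat_lit 1) (nat_lit 4) (nat_lit 431) (nat_lit 308) (nat_lit 281)))) (XT.nd (nat_lit 78) (nat_lit 0) (nat_lit 0) (XT.lf (nat_lit 0) (nat_lit 355077323060) (nat_lit 152)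 (nat_lit 289605834216) (nat_lit 0) (nat_lit 353812623520) (nat_lit 1) (nat_lit 5) (nat_lit 3) (nat_lit 4) (nat_lit 1) (nat_lit 4) (nat_lit 432) (nat_lit 308) (nat_lit 280)) (XT.nd (nat_lit 78) (nat_lit 0) (nat_lit 0) (XT.lf (nat_lit 0) (nat_lit 385968411889) (nat_lit 152) (nat_lit 307585505020) (nat_lit 0) (nat_lit 384691429651) (nat_lit 1) (nat_lit 5) (nat_lit 3) (nat_lit 4) (nat_lit 1) (nat_lit 4) (nat_lit 433) (nat_lit 308) (nat_lit 279)) (XT.lf (nat_lit 0) (nat_lit 419295648587) (nat_lit 152) (nat_lit 327073694232) (nat_lit 0) (nat_lit 418007293479) (nat_lit 1) (nat_lit 5) (nat_lit 3) (nat_lit 4) (nat_lit 1) (nat_lit 4) (nat_lit 434) (nat_lit 308) (nat_lit 278))))) (XT.nd (nat_lit 50622) (nat_lit 0) (nat_lit 0) (XT.nd (nat_lit 78) (nat_lit 0) (nat_lit 0) (XT.lf (nat_lit 0) (nat_lit 455256527888) (nat_lit 152) (nat_lit 348185887417) (nat_lit 0) (nat_lit 453957642346) (nat_lit 1) (nat_lit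 5) (nat_lit 3) (nat_lit 4) (nat_lit 1) (nat_lit 4) (nat_lit 435) (nat_lit 308) (nat_lit 277)) (XT.nd (nat_lit 50466) (nat_lit 0) (nat_lit 152) (XT.lf (nat_lit 0) (nat_lit 494064151300) (nat_lit 152) (nat_lit 371047193870) (nat_lit 0) (nat_lit 492755515357) (nat_lit 1) (nat_lit 5) (nat_lit 3) (nat_lit 4) (nat_lit 1) (nat_lit 4) (nat_lit 436) (nat_lit 308) (nat_lit 276)) (XT.lf (nat_lit 0) (nat_lit 33495202599) (nat_lit 76) (nat_lit 8726428377) (nat_lit 76) (nat_lit 8726428377) (nat_lit 3) (nat_lit 4) (nat_lit 4) (nat_lit 5) (nat_lit 4) (nat_lit 4) (nat_lit 402) (nat_lit 309) (nat_lit 309)))) (XT.nd (nat_lit 156) (nat_lit 152) (nat_lit 0) (XT.nd (nat_lit 78) (nat_lit 0) (nat_lit 0) (XT.lf (nat_lit 0) (nat_lit 84891499511) (nat_lit 76) (nat_lit 12480484467) (nat_lit 76) (nat_lit 12360321125) (nat_lit 3) (nat_lit 4) (nat_lit 4) (nat_lit 5) (nat_lit 4) (nat_lit 4) (nat_lit 403) (nat_lit 309) (nat_lit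 308)) (XT.lf (nat_lit 0) (nat_lit 103613170053) (nat_lit 76) (nat_lit 7414512615) (nat_lit 76) (nat_lit 7183086921) (nat_lit 3) (nat_lit 4) (nat_lit 4) (nat_lit 5) (nat_lit 4) (nat_lit 4) (nat_lit 404) (nat_lit 309) (nat_lit 307))) (XT.nd (nat_lit 78) (nat_lit 152) (nat_lit 0) (XT.lf (nat_lit 0) (nat_lit 123266360058) (nat_lit 76) (nat_lit 2224920627) (nat_lit 76) (nat_lit 1890474235) (nat_lit 3) (nat_lit 4) (nat_lit 4) (nat_lit 5) (nat_lit 4) (nat_lit 4) (nat_lit 405) (nat_lit 309) (nat_lit 306)) (XT.lf (nat_lit 0) (nat_lit 3593301497) (nat_lit 152) (nat_lit 130511701467) (nat_lit 0) (nat_lit 3183933948) (nat_lit 1) (nat_lit 5) (nat_lit 3) (nat_lit 4) (nat_lit 1) (nat_lit 4) (nat_lit 406) (nat_lit 309) (nat_lit 305))))))))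
noncomputable def xc6 : XT := (XT.nd (nat_lit 1872) (nat_lit 0) (nat_lit 0) (XT.nd (nat_lit 936) (nat_lit 0) (nat_lit 0) (XT.nd (nat_lit 468) (nat_lit 0) (nat_lit 0) (XT.nd (nat_lit 234) (nat_lit 0) (nat_lit 0) (XT.nd (nat_lit 78) (nat_lit 0) (nat_lit 0) (XT.lf (nat_lit 0) (nat_lit 9300908484) (nat_lit 152) (nat_lit 129886257068) (nat_lit 0) (nat_lit 8807423179) (nat_lit 1) (nat_lit 5) (nat_lit 3) (nat_lit 4) (nat_lit 1) (nat_lit 4) (nat_lit 407) (nat_lit 309) (nat_lit 304)) (XT.nd (nat_lit 78) (nat_lit 0) (nat_lit 0) (XT.lf (nat_lit 0) (nat_lit 15224473826) (nat_lit 152) (nat_lit 129691161655) (nat_lit 0) (nat_lit 14653101712) (nat_lit 1) (nat_lit 5) (nat_lit 3) (nat_lit 4) (nat_lit 1) (nat_lit 4) (nat_lit 408) (nat_lit 309) (nat_lit 303)) (XT.lf (nat_lit 0) (nat_lit 21399100135) (nat_lit 152) (nat_lit 129925259109) (nat_lit 0) (nat_lit 20755610603) (nat_lit 1) (nat_lit 5) (nat_lit 3) (nat_lit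 4) (nat_lit 1) (nat_lit 4) (nat_lit 409) (nat_lit 309) (nat_lit 302)))) (XT.nd (nat_lit 78) (nat_lit 0) (nat_lit 0) (XT.lf (nat_lit 0) (nat_lit 27861377786) (nat_lit 152) (nat_lit 130589936672) (nat_lit 0) (nat_lit 27151112868) (nat_lit 1) (nat_lit 5) (nat_lit 3) (nat_lit 4) (nat_lit 1) (nat_lit 4) (nat_lit 410) (nat_lit 309) (nat_lit 301)) (XT.nd (nat_lit 78) (nat_lit 0) (nat_lit 0) (XT.lf (nat_lit 0) (nat_lit 34649601760) (nat_lit 152) (nat_lit 131689133176) (nat_lit 0) (nat_lit 33877507781) (nat_lit 1) (nat_lit 5) (nat_lit 3) (nat_lit 4) (nat_lit 1) (nat_lit 4) (nat_lit 411) (nat_lit 309) (nat_lit 300)) (XT.lf (nat_lit 0) (nat_lit 41803998569) (nat_lit 152) (nat_lit 133229362377) (nat_lit 0) (nat_lit 40974655459) (nat_lit 1) (nat_lit 5) (nat_lit 3) (nat_lit 4) (nat_lit 1) (nat_lit 4) (nat_lit 412) (nat_lit 309) (nat_lit 299))))) (XT.nd (nat_lit 234) (nat_lit 0) (nat_lit 0) (XT.nd (nat_lit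 78) (nat_lit 0) (nat_lit 0) (XT.lf (nat_lit 0) (nat_lit 49366964638) (nat_lit 152) (nat_lit 135219751559) (nat_lit 0) (nat_lit 48484613073) (nat_lit 1) (nat_lit 5) (nat_lit 3) (nat_lit 4) (nat_lit 1) (nat_lit 4) (nat_lit 413) (nat_lit 309) (nat_lit 298)) (XT.nd (nat_lit 78) (nat_lit 0) (nat_lit 0) (XT.lf (nat_lit 0) (nat_lit 57383317543) (nat_lit 152) (nat_lit 137672095621) (nat_lit 0) (nat_lit 56451884076) (nat_lit 1) (nat_lit 5) (nat_lit 3) (nat_lit 4) (nat_lit 1) (nat_lit 4) (nat_lit 414) (nat_lit 309) (nat_lit 297)) (XT.lf (nat_lit 0) (nat_lit 65900561599) (nat_lit 152) (nat_lit 140600926973) (nat_lit 0) (nat_lit 64923681926) (nat_lit 1) (nat_lit 5) (nat_lit 3) (nat_lit 4) (nat_lit 1) (nat_lit 4) (nat_lit 415) (nat_lit 309) (nat_lit 296)))) (XT.nd (nat_lit 78) (nat_lit 0) (nat_lit 0) (XT.lf (nat_lit 0) (nat_lit 74969169363) (nat_lit 152) (nat_lit 144023601652) (nat_lit 0) (nat_lit 73950209870)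 (nat_lit 1) (nat_lit 5) (nat_lit 3) (nat_lit 4) (nat_lit 1) (nat_lit 4) (nat_lit 416) (nat_lit 309) (nat_lit 295)) (XT.nd (nat_lit 78) (nat_lit 0) (nat_lit 0) (XT.lf (nat_lit 0) (nat_lit 84642880733) (nat_lit 152) (nat_lit 147960402175) (nat_lit 0) (nat_lit 83584958443) (nat_lit 1) (nat_lit 5) (nat_lit 3) (nat_lit 4) (nat_lit 1) (nat_lit 4) (nat_lit 417) (nat_lit 309) (nat_lit 294)) (XT.lf (nat_lit 0) (nat_lit 94979021405) (nat_lit 152) (nat_lit 152434657730) (nat_lit 0) (nat_lit 93885022451) (nat_lit 1) (nat_lit 5) (nat_lit 3) (nat_lit 4) (nat_lit 1) (nat_lit 4) (nat_lit 418) (nat_lit 309) (nat_lit 293)))))) (XT.nd (nat_lit 468) (nat_lit 0) (nat_lit 0) (XT.nd (nat_lit 234) (nat_lit 0) (nat_lit 0) (XT.nd (nat_lit 78) (nat_lit 0) (nat_lit 0) (XT.lf (nat_lit 0) (nat_lit 106038842583) (nat_lit 152) (nat_lit 157472882423) (nat_lit 0) (nat_lit 104911439312) (nat_lit 1) (nat_lit 5) (nat_lit 3)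 (nat_lit 4) (nat_lit 1) (nat_lit 4) (nat_lit 419) (nat_lit 309) (nat_lit 292)) (XT.nd (nat_lit 78) (nat_lit 0) (nat_lit 0) (XT.lf (nat_lit 0) (nat_lit 117887883949) (nat_lit 152) (nat_lit 163104932402) (nat_lit 0) (nat_lit 116729550754) (nat_lit 1) (nat_lit 5) (nat_lit 3) (nat_lit 4) (nat_lit 1) (nat_lit 4) (nat_lit 420) (nat_lit 309) (nat_lit 291)) (XT.lf (nat_lit 0) (nat_lit 130596362045) (nat_lit 152) (nat_lit 169364182778) (nat_lit 0) (nat_lit 129409390031) (nat_lit 1) (nat_lit 5) (nat_lit 3) (nat_lit 4) (nat_lit 1) (nat_lit 4) (nat_lit 421) (nat_lit 309) (nat_lit 290)))) (XT.nd (nat_lit 78) (nat_lit 0) (nat_lit 0) (XT.lf (nat_lit 0) (nat_lit 144239586369) (nat_lit 152) (nat_lit 176287725403) (nat_lit 0) (nat_lit 143026096931) (nat_lit 1) (nat_lit 5) (nat_lit 3) (nat_lit 4) (nat_lit 1) (nat_lit 4) (nat_lit 422) (nat_lit 309) (nat_lit 289)) (XT.nd (nat_lit 78) (nat_lit 0) (nat_lit 0) (XT.lf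 (nat_lit 0) (nat_lit 158898405659) (nat_lit 152) (nat_lit 183916588680) (nat_lit 0) (nat_lit 157660363050) (nat_lit 1) (nat_lit 5) (nat_lit 3) (nat_lit 4) (nat_lit 1) (nat_lit 4) (nat_lit 423) (nat_lit 309) (nat_lit 288)) (XT.lf (nat_lit 0) (nat_lit 174659686992) (nat_lit 152) (nat_lit 192295980687) (nat_lit 0) (nat_lit 173398909965) (nat_lit 1) (nat_lit 5) (nat_lit 3) (nat_lit 4) (nat_lit 1) (nat_lit 4) (nat_lit 424) (nat_lit 309) (nat_lit 287))))) (XT.nd (nat_lit 234) (nat_lit 0) (nat_lit 0) (XT.nd (nat_lit 78) (nat_lit 0) (nat_lit 0) (XT.lf (nat_lit 0) (nat_lit 191616830553) (nat_lit 152) (nat_lit 201475557080) (nat_lit 0) (nat_lit 190335003140) (nat_lit 1) (nat_lit 5) (nat_lit 3) (nat_lit 4) (nat_lit 1) (nat_lit 4) (nat_lit 425) (nat_lit 309) (nat_lit 286)) (XT.nd (nat_lit 78) (nat_lit 0) (nat_lit 0) (XT.lf (nat_lit 0) (nat_lit 209870323120) (nat_lit 152) (nat_lit 211509715348) (nat_lit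 0) (nat_lit 208569004608) (nat_lit 1) (nat_lit 5) (nat_lit 3) (nat_lit 4) (nat_lit 1) (nat_lit 4) (nat_lit 426) (nat_lit 309) (nat_lit 285)) (XT.lf (nat_lit 0) (nat_lit 229528333537) (nat_lit 152) (nat_lit 222457917171) (nat_lit 0) (nat_lit 228208967711) (nat_lit 1) (nat_lit 5) (nat_lit 3) (nat_lit 4) (nat_lit 1) (nat_lit 4) (nat_lit 427) (nat_lit 309) (nat_lit 284)))) (XT.nd (nat_lit 78) (nat_lit 0) (nat_lit 0) (XT.lf (nat_lit 0) (nat_lit 250707353717) (nat_lit 152) (nat_lit 234385040782) (nat_lit 0) (nat_lit 249371277416) (nat_lit 1) (nat_lit 5) (nat_lit 3) (nat_lit 4) (nat_lit 1) (nat_lit 4) (nat_lit 428) (nat_lit 309) (nat_lit 283)) (XT.nd (nat_lit 78) (nat_lit 0) (nat_lit 0) (XT.lf (nat_lit 0) (nat_lit 273532888966) (nat_lit 152) (nat_lit 247361765431) (nat_lit 0) (nat_lit 272181340002) (nat_lit 1) (nat_lit 5) (nat_lit 3) (nat_lit 4) (nat_lit 1) (nat_lit 4) (nat_lit 429) (nat_lit 309)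 (nat_lit 282)) (XT.lf (nat_lit 0) (nat_lit 298140201715) (nat_lit 152) (nat_lit 261464990228) (nat_lit 0) (nat_lit 296774326211) (nat_lit 1) (nat_lit 5) (nat_lit 3) (nat_lit 4) (nat_lit 1) (nat_lit 4) (nat_lit 430) (nat_lit 309) (nat_lit 281))))))) (XT.nd (nat_lit 51168) (nat_lit 0) (nat_lit 0) (XT.nd (nat_lit 50700) (nat_lit 0) (nat_lit 152) (XT.nd (nat_lit 234) (nat_lit 0) (nat_lit 0) (XT.nd (nat_lit 78) (nat_lit 0) (nat_lit 0) (XT.lf (nat_lit 0) (nat_lit 324675113075) (nat_lit 152) (nat_lit 276778289838) (nat_lit 0) (nat_lit 323295972258) (nat_lit 1) (nat_lit 5) (nat_lit 3) (nat_lit 4) (nat_lit 1) (nat_lit 4) (nat_lit 431) (nat_lit 309) (nat_lit 280)) (XT.nd (nat_lit 78) (nat_lit 0) (nat_lit 0) (XT.lf (nat_lit 0) (nat_lit 353294866967) (nat_lit 152) (nat_lit 293392409740) (nat_lit 0) (nat_lit 351903443451) (nat_lit 1) (nat_lit 5) (nat_lit 3) (nat_lit 4) (nat_lit 1) (nat_lit 4) (nat_lit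 432) (nat_lit 309) (nat_lit 279)) (XT.lf (nat_lit 0) (nat_lit 384169061932) (nat_lit 152) (nat_lit 311405803978) (nat_lit 0) (nat_lit 382766265547) (nat_lit 1) (nat_lit 5) (nat_lit 3) (nat_lit 4) (nat_lit 1) (nat_lit 4) (nat_lit 433) (nat_lit 309) (nat_lit 278)))) (XT.nd (nat_lit 78) (nat_lit 0) (nat_lit 0) (XT.lf (nat_lit 0) (nat_lit 417480656162) (nat_lit 152) (nat_lit 330925218593) (nat_lit 0) (nat_lit 416067329343) (nat_lit 1) (nat_lit 5) (nat_lit 3) (nat_lit 4) (nat_lit 1) (nat_lit 4) (nat_lit 434) (nat_lit 309) (nat_lit 277)) (XT.nd (nat_lit 78) (nat_lit 0) (nat_lit 0) (XT.lf (nat_lit 0) (nat_lit 453427051697) (nat_lit 152) (nat_lit 352066324188) (nat_lit 0) (nat_lit 452003974476) (nat_lit 1) (nat_lit 5) (nat_lit 3) (nat_lit 4) (nat_lit 1) (nat_lit 4) (nat_lit 435) (nat_lit 309) (nat_lit 276)) (XT.lf (nat_lit 0) (nat_lit 492221264215) (nat_lit 152) (nat_lit 374954401390) (nat_lit 0)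 (nat_lit 490789158844) (nat_lit 1) (nat_lit 5) (nat_lit 3) (nat_lit 4) (nat_lit 1) (nat_lit 4) (nat_lit 436) (nat_lit 309) (nat_lit 275))))) (XT.nd (nat_lit 234) (nat_lit 0) (nat_lit 0) (XT.nd (nat_lit 78) (nat_lit 0) (nat_lit 0) (XT.lf (nat_lit 0) (nat_lit 16786386900) (nat_lit 76) (nat_lit 13596741062) (nat_lit 76) (nat_lit 13596741062) (nat_lit 3) (nat_lit 4) (nat_lit 4) (nat_lit 5) (nat_lit 4) (nat_lit 4) (nat_lit 400) (nat_lit 310) (nat_lit 310)) (XT.nd (nat_lit 78) (nat_lit 0) (nat_lit 0) (XT.lf (nat_lit 0) (nat_lit 49803806554) (nat_lit 76) (nat_lit 22490871799) (nat_lit 76) (nat_lit 22361095390) (nat_lit 3) (nat_lit 4) (nat_lit 4) (nat_lit 5) (nat_lit 4) (nat_lit 4) (nat_lit 401) (nat_lit 310) (nat_lit 309)) (XT.lf (nat_lit 0) (nat_lit 66672889706) (nat_lit 76) (nat_lit 17740578086) (nat_lit 76) (nat_lit 17490638336) (nat_lit 3) (nat_lit 4) (nat_lit 4) (nat_lit 5) (nat_lit 4) (nat_lit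 4) (nat_lit 402) (nat_lit 310) (nat_lit 308)))) (XT.nd (nat_lit 78) (nat_lit 0) (nat_lit 0) (XT.lf (nat_lit 0) (nat_lit 84279988195) (nat_lit 76) (nat_lit 12914451095) (nat_lit 76) (nat_lit 12553248992) (nat_lit 3) (nat_lit 4) (nat_lit 4) (nat_lit 5) (nat_lit 4) (nat_lit 4) (nat_lit 403) (nat_lit 310) (nat_lit 307)) (XT.nd (nat_lit 78) (nat_lit 0) (nat_lit 0) (XT.lf (nat_lit 0) (nat_lit 102729440381) (nat_lit 76) (nat_lit 7983891557) (nat_lit 76) (nat_lit 7519668757) (nat_lit 3) (nat_lit 4) (nat_lit 4) (nat_lit 5) (nat_lit 4) (nat_lit 4) (nat_lit 404) (nat_lit 310) (nat_lit 306)) (XT.lf (nat_lit 0) (nat_lit 122130576351) (nat_lit 76) (nat_lit 2919681340) (nat_lit 76) (nat_lit 2360069005) (nat_lit 3) (nat_lit 4) (nat_lit 4) (nat_lit 5) (nat_lit 4) (nat_lit 4) (nat_lit 405) (nat_lit 310) (nat_lit 305)))))) (XT.nd (nat_lit 468) (nat_lit 0) (nat_lit 0) (XT.nd (nat_lit 234) (nat_lit 0) (nat_lit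 0) (XT.nd (nat_lit 78) (nat_lit 0) (nat_lit 0) (XT.lf (nat_lit 0) (nat_lit 2983848745) (nat_lit 152) (nat_lit 131975010289) (nat_lit 0) (nat_lit 2366766861) (nat_lit 1) (nat_lit 5) (nat_lit 3) (nat_lit 4) (nat_lit 1) (nat_lit 4) (nat_lit 406) (nat_lit 310) (nat_lit 304)) (XT.nd (nat_lit 78) (nat_lit 0) (nat_lit 0) (XT.lf (nat_lit 0) (nat_lit 8575758519) (nat_lit 152) (nat_lit 131580519994) (nat_lit 0) (nat_lit 7880789825) (nat_lit 1) (nat_lit 5) (nat_lit 3) (nat_lit 4) (nat_lit 1) (nat_lit 4) (nat_lit 407) (nat_lit 310) (nat_lit 303)) (XT.lf (nat_lit 0) (nat_lit 14392196813) (nat_lit 152) (nat_lit 131599270976) (nat_lit 0) (nat_lit 13625110701) (nat_lit 1) (nat_lit 5) (nat_lit 3) (nat_lit 4) (nat_lit 1) (nat_lit 4) (nat_lit 408) (nat_lit 310) (nat_lit 302)))) (XT.nd (nat_lit 78) (nat_lit 0) (nat_lit 0) (XT.lf (nat_lit 0) (nat_lit 20467631409) (nat_lit 152) (nat_lit 132031374349) (nat_lit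 0) (nat_lit 19633769911) (nat_lit 1) (nat_lit 5) (nat_lit 3) (nat_lit 4) (nat_lit 1) (nat_lit 4) (nat_lit 409) (nat_lit 310) (nat_lit 301)) (XT.nd (nat_lit 78) (nat_lit 0) (nat_lit 0) (XT.lf (nat_lit 0) (nat_lit 26838064883) (nat_lit 152) (nat_lit 132879390728) (nat_lit 0) (nat_lit 25942374324) (nat_lit 1) (nat_lit 5) (nat_lit 3) (nat_lit 4) (nat_lit 1) (nat_lit 4) (nat_lit 410) (nat_lit 310) (nat_lit 300)) (XT.lf (nat_lit 0) (nat_lit 33541247952) (nat_lit 152) (nat_lit 134148345393) (nat_lit 0) (nat_lit 32588308262) (nat_lit 1) (nat_lit 5) (nat_lit 3) (nat_lit 4) (nat_lit 1) (nat_lit 4) (nat_lit 411) (nat_lit 310) (nat_lit 299))))) (XT.nd (nat_lit 234) (nat_lit 0) (nat_lit 0) (XT.nd (nat_lit 78) (nat_lit 0) (nat_lit 0) (XT.lf (nat_lit 0) (nat_lit 40616903181) (nat_lit 152) (nat_lit 135845758077) (nat_lit 0) (nat_lit 39610955037) (nat_lit 1) (nat_lit 5) (nat_lit 3) (nat_lit 4) (nat_lit 1)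 (nat_lit 4) (nat_lit 412) (nat_lit 310) (nat_lit 298)) (XT.nd (nat_lit 78) (nat_lit 0) (nat_lit 0) (XT.lf (nat_lit 0) (nat_lit 48106960380) (nat_lit 152) (nat_lit 137981687522) (nat_lit 0) (nat_lit 47051930333) (nat_lit 1) (nat_lit 5) (nat_lit 3) (nat_lit 4) (nat_lit 1) (nat_lit 4) (nat_lit 413) (nat_lit 310) (nat_lit 297)) (XT.lf (nat_lit 0) (nat_lit 56055805073) (nat_lit 152) (nat_lit 140568791087) (nat_lit 0) (nat_lit 54955328821) (nat_lit 1) (nat_lit 5) (nat_lit 3) (nat_lit 4) (nat_lit 1) (nat_lit 4) (nat_lit 414) (nat_lit 310) (nat_lit 296)))) (XT.nd (nat_lit 156) (nat_lit 0) (nat_lit 0) (XT.nd (nat_lit 78) (nat_lit 0) (nat_lit 0) (XT.lf (nat_lit 0) (nat_lit 64510541525) (nat_lit 152) (nat_lit 143622399755) (nat_lit 0) (nat_lit 63367985452) (nat_lit 1) (nat_lit 5) (nat_lit 3) (nat_lit 4) (nat_lit 1) (nat_lit 4) (nat_lit 415) (nat_lit 310) (nat_lit 295)) (XT.lf (nat_lit 0) (nat_lit 73521271878)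 (nat_lit 152) (nat_lit 147160608987) (nat_lit 0) (nat_lit 72339753008) (nat_lit 1) (nat_lit 5) (nat_lit 3) (nat_lit 4) (nat_lit 1) (nat_lit 4) (nat_lit 416) (nat_lit 310) (nat_lit 294))) (XT.nd (nat_lit 78) (nat_lit 0) (nat_lit 0) (XT.lf (nat_lit 0) (nat_lit 83141393051) (nat_lit 152) (nat_lit 151204385947) (nat_lit 0) (nat_lit 81923797519) (nat_lit 1) (nat_lit 5) (nat_lit 3) (nat_lit 4) (nat_lit 1) (nat_lit 4) (nat_lit 417) (nat_lit 310) (nat_lit 293)) (XT.lf (nat_lit 0) (nat_lit 93427913172) (nat_lit 152) (nat_lit 155777693759) (nat_lit 0) (nat_lit 92176913321) (nat_lit 1) (nat_lit 5) (nat_lit 3) (nat_lit 4) (nat_lit 1) (nat_lit 4) (nat_lit 418) (nat_lit 310) (nat_lit 292))))))))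
noncomputable def xc7 : XT := (XT.nd (nat_lit 51948) (nat_lit 0) (nat_lit 0) (XT.nd (nat_lit 936) (nat_lit 0) (nat_lit 0) (XT.nd (nat_lit 468) (nat_lit 0) (nat_lit 0) (XT.nd (nat_lit 234) (nat_lit 0) (nat_lit 0) (XT.nd (nat_lit 78) (nat_lit 0) (nat_lit 0) (XT.lf (nat_lit 0) (nat_lit 104441789395) (nat_lit 152) (nat_lit 160907633505) (nat_lit 0) (nat_lit 103159859621) (nat_lit 1) (nat_lit 5) (nat_lit 3) (nat_lit 4) (nat_lit 1) (nat_lit 4) (nat_lit 419) (nat_lit 310) (nat_lit 291)) (XT.nd (nat_lit 78) (nat_lit 0) (nat_lit 0) (XT.lf (nat_lit 0) (nat_lit 116248289137) (nat_lit 152) (nat_lit 166624604830) (nat_lit 0) (nat_lit 114937720543) (nat_lit 1) (nat_lit 5) (nat_lit 3) (nat_lit 4) (nat_lit 1) (nat_lit 4) (nat_lit 420) (nat_lit 310) (nat_lit 290)) (XT.lf (nat_lit 0) (nat_lit 128917376838) (nat_lit 152) (nat_lit 172962486080) (nat_lit 0) (nat_lit 127580290820) (nat_lit 1) (nat_lit 5) (nat_lit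 3) (nat_lit 4) (nat_lit 1) (nat_lit 4) (nat_lit 421) (nat_lit 310) (nat_lit 289)))) (XT.nd (nat_lit 78) (nat_lit 0) (nat_lit 0) (XT.lf (nat_lit 0) (nat_lit 142524128576) (nat_lit 152) (nat_lit 179958835072) (nat_lit 0) (nat_lit 141162489387) (nat_lit 1) (nat_lit 5) (nat_lit 3) (nat_lit 4) (nat_lit 1) (nat_lit 4) (nat_lit 422) (nat_lit 310) (nat_lit 288)) (XT.nd (nat_lit 78) (nat_lit 0) (nat_lit 0) (XT.lf (nat_lit 0) (nat_lit 157149176952) (nat_lit 152) (nat_lit 187655111650) (nat_lit 0) (nat_lit 155764803346) (nat_lit 1) (nat_lit 5) (nat_lit 3) (nat_lit 4) (nat_lit 1) (nat_lit 4) (nat_lit 423) (nat_lit 310) (nat_lit 287)) (XT.lf (nat_lit 0) (nat_lit 172879188921) (nat_lit 152) (nat_lit 196096923381) (nat_lit 0) (nat_lit 171473764927) (nat_lit 1) (nat_lit 5) (nat_lit 3) (nat_lit 4) (nat_lit 1) (nat_lit 4) (nat_lit 424) (nat_lit 310) (nat_lit 286))))) (XT.nd (nat_lit 234) (nat_lit 0) (nat_lit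 0) (XT.nd (nat_lit 78) (nat_lit 0) (nat_lit 0) (XT.lf (nat_lit 0) (nat_lit 189807379367) (nat_lit 152) (nat_lit 205334295814) (nat_lit 0) (nat_lit 188382464275) (nat_lit 1) (nat_lit 5) (nat_lit 3) (nat_lit 4) (nat_lit 1) (nat_lit 4) (nat_lit 425) (nat_lit 310) (nat_lit 285)) (XT.nd (nat_lit 78) (nat_lit 0) (nat_lit 0) (XT.lf (nat_lit 0) (nat_lit 208034063493) (nat_lit 152) (nat_lit 215421968935) (nat_lit 0) (nat_lit 206591101088) (nat_lit 1) (nat_lit 5) (nat_lit 3) (nat_lit 4) (nat_lit 1) (nat_lit 4) (nat_lit 426) (nat_lit 310) (nat_lit 284)) (XT.lf (nat_lit 0) (nat_lit 227667251281) (nat_lit 152) (nat_lit 226419721548) (nat_lit 0) (nat_lit 226207578400) (nat_lit 1) (nat_lit 5) (nat_lit 3) (nat_lit 4) (nat_lit 1) (nat_lit 4) (nat_lit 427) (nat_lit 310) (nat_lit 283)))) (XT.nd (nat_lit 78) (nat_lit 0) (nat_lit 0) (XT.lf (nat_lit 0) (nat_lit 248823287545) (nat_lit 152) (nat_lit 238392725519)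 (nat_lit 0) (nat_lit 247348142001) (nat_lit 1) (nat_lit 5) (nat_lit 3) (nat_lit 4) (nat_lit 1) (nat_lit 4) (nat_lit 428) (nat_lit 310) (nat_lit 282)) (XT.nd (nat_lit 78) (nat_lit 0) (nat_lit 0) (XT.lf (nat_lit 0) (nat_lit 271627541390) (nat_lit 152) (nat_lit 251411931983) (nat_lit 0) (nat_lit 270138069307) (nat_lit 1) (nat_lit 5) (nat_lit 3) (nat_lit 4) (nat_lit 1) (nat_lit 4) (nat_lit 429) (nat_lit 310) (nat_lit 281)) (XT.lf (nat_lit 0) (nat_lit 296215149134) (nat_lit 152) (nat_lit 265554491794) (nat_lit 0) (nat_lit 294712411737) (nat_lit 1) (nat_lit 5) (nat_lit 3) (nat_lit 4) (nat_lit 1) (nat_lit 4) (nat_lit 430) (nat_lit 310) (nat_lit 280)))))) (XT.nd (nat_lit 50544) (nat_lit 0) (nat_lit 152) (XT.nd (nat_lit 234) (nat_lit 0) (nat_lit 0) (XT.nd (nat_lit 78) (nat_lit 0) (nat_lit 0) (XT.lf (nat_lit 0) (nat_lit 322731815121) (nat_lit 152) (nat_lit 280904212713) (nat_lit 0) (nat_lit 321216795026)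 (nat_lit 1) (nat_lit 5) (nat_lit 3) (nat_lit 4) (nat_lit 1) (nat_lit 4) (nat_lit 431) (nat_lit 310) (nat_lit 279)) (XT.nd (nat_lit 78) (nat_lit 0) (nat_lit 0) (XT.lf (nat_lit 0) (nat_lit 351334675148) (nat_lit 152) (nat_lit 297552056050) (nat_lit 0) (nat_lit 349808282184) (nat_lit 1) (nat_lit 5) (nat_lit 3) (nat_lit 4) (nat_lit 1) (nat_lit 4) (nat_lit 432) (nat_lit 310) (nat_lit 278)) (XT.lf (nat_lit 0) (nat_lit 382193227646) (nat_lit 152) (nat_lit 315596675691) (nat_lit 0) (nat_lit 380656304247) (nat_lit 1) (nat_lit 5) (nat_lit 3) (nat_lit 4) (nat_lit 1) (nat_lit 4) (nat_lit 433) (nat_lit 310) (nat_lit 277)))) (XT.nd (nat_lit 78) (nat_lit 0) (nat_lit 0) (XT.lf (nat_lit 0) (nat_lit 415490338110) (nat_lit 152) (nat_lit 335145002714) (nat_lit 0) (nat_lit 413943664309) (nat_lit 1) (nat_lit 5) (nat_lit 3) (nat_lit 4) (nat_lit 1) (nat_lit 4) (nat_lit 434) (nat_lit 310) (nat_lit 276)) (XT.nd (nat_lit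 78) (nat_lit 0) (nat_lit 0) (XT.lf (nat_lit 0) (nat_lit 451423322751) (nat_lit 152) (nat_lit 356312879059) (nat_lit 0) (nat_lit 449867620800) (nat_lit 1) (nat_lit 5) (nat_lit 3) (nat_lit 4) (nat_lit 1) (nat_lit 4) (nat_lit 435) (nat_lit 310) (nat_lit 275)) (XT.lf (nat_lit 0) (nat_lit 490205117774) (nat_lit 152) (nat_lit 379225743993) (nat_lit 0) (nat_lit 488641056425) (nat_lit 1) (nat_lit 5) (nat_lit 3) (nat_lit 4) (nat_lit 1) (nat_lit 4) (nat_lit 436) (nat_lit 310) (nat_lit 274))))) (XT.nd (nat_lit 234) (nat_lit 0) (nat_lit 0) (XT.nd (nat_lit 78) (nat_lit 0) (nat_lit 0) (XT.lf (nat_lit 0) (nat_lit 1506842514) (nat_lit 76) (nat_lit 18261468014) (nat_lit 76) (nat_lit 18261468014) (nat_lit 3) (nat_lit 4) (nat_lit 4) (nat_lit 5) (nat_lit 4) (nat_lit 4) (nat_lit 398) (nat_lit 311) (nat_lit 311)) (XT.nd (nat_lit 78) (nat_lit 0) (nat_lit 0) (XT.lf (nat_lit 0) (nat_lit 17883607548) (nat_lit 76)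 (nat_lit 32016434903) (nat_lit 76) (nat_lit 31876276382) (nat_lit 3) (nat_lit 4) (nat_lit 4) (nat_lit 5) (nat_lit 4) (nat_lit 4) (nat_lit 399) (nat_lit 311) (nat_lit 310)) (XT.lf (nat_lit 0) (nat_lit 33229857070) (nat_lit 76) (nat_lit 27504221161) (nat_lit 76) (nat_lit 27234286231) (nat_lit 3) (nat_lit 4) (nat_lit 4) (nat_lit 5) (nat_lit 4) (nat_lit 4) (nat_lit 400) (nat_lit 311) (nat_lit 309)))) (XT.nd (nat_lit 78) (nat_lit 0) (nat_lit 0) (XT.lf (nat_lit 0) (nat_lit 49143374333) (nat_lit 76) (nat_lit 22959555758) (nat_lit 76) (nat_lit 22569457487) (nat_lit 3) (nat_lit 4) (nat_lit 4) (nat_lit 5) (nat_lit 4) (nat_lit 4) (nat_lit 401) (nat_lit 311) (nat_lit 308)) (XT.nd (nat_lit 78) (nat_lit 0) (nat_lit 0) (XT.lf (nat_lit 0) (nat_lit 65718461660) (nat_lit 76) (nat_lit 18355507343) (nat_lit 76) (nat_lit 17854146719) (nat_lit 3) (nat_lit 4) (nat_lit 4) (nat_lit 5) (nat_lit 4) (nat_lit 4) (nat_lit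 402) (nat_lit 311) (nat_lit 307)) (XT.lf (nat_lit 0) (nat_lit 83053341792) (nat_lit 76) (nat_lit 13664792666) (nat_lit 76) (nat_lit 13060411344) (nat_lit 3) (nat_lit 4) (nat_lit 4) (nat_lit 5) (nat_lit 4) (nat_lit 4) (nat_lit 403) (nat_lit 311) (nat_lit 306))))))) (XT.nd (nat_lit 936) (nat_lit 0) (nat_lit 0) (XT.nd (nat_lit 468) (nat_lit 0) (nat_lit 0) (XT.nd (nat_lit 234) (nat_lit 0) (nat_lit 0) (XT.nd (nat_lit 78) (nat_lit 152) (nat_lit 0) (XT.lf (nat_lit 0) (nat_lit 101250739944) (nat_lit 76) (nat_lit 8859614899) (nat_lit 76) (nat_lit 8159844043) (nat_lit 3) (nat_lit 4) (nat_lit 4) (nat_lit 5) (nat_lit 4) (nat_lit 4) (nat_lit 404) (nat_lit 311) (nat_lit 305)) (XT.nd (nat_lit 78) (nat_lit 152) (nat_lit 0) (XT.lf (nat_lit 0) (nat_lit 120418492549) (nat_lit 76) (nat_lit 3911498915) (nat_lit 76) (nat_lit 3123404416) (nat_lit 3) (nat_lit 4) (nat_lit 4) (nat_lit 5) (nat_lit 4) (nat_lit 4) (nat_lit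 405) (nat_lit 311) (nat_lit 304)) (XT.lf (nat_lit 0) (nat_lit 2084989571) (nat_lit 152) (nat_lit 134035768355) (nat_lit 0) (nat_lit 1256536570) (nat_lit 1) (nat_lit 5) (nat_lit 3) (nat_lit 4) (nat_lit 1) (nat_lit 4) (nat_lit 406) (nat_lit 311) (nat_lit 303)))) (XT.nd (nat_lit 78) (nat_lit 0) (nat_lit 0) (XT.lf (nat_lit 0) (nat_lit 7569772295) (nat_lit 152) (nat_lit 133855124454) (nat_lit 0) (nat_lit 6669201878) (nat_lit 1) (nat_lit 5) (nat_lit 3) (nat_lit 4) (nat_lit 1) (nat_lit 4) (nat_lit 407) (nat_lit 311) (nat_lit 302)) (XT.nd (nat_lit 78) (nat_lit 0) (nat_lit 0) (XT.lf (nat_lit 0) (nat_lit 13287018877) (nat_lit 152) (nat_lit 134071881356) (nat_lit 0) (nat_lit 12319673073) (nat_lit 1) (nat_lit 5) (nat_lit 3) (nat_lit 4) (nat_lit 1) (nat_lit 4) (nat_lit 408) (nat_lit 311) (nat_lit 301)) (XT.lf (nat_lit 0) (nat_lit 19270609295) (nat_lit 152) (nat_lit 134687323544) (nat_lit 0) (nat_lit 18241434430)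 (nat_lit 1) (nat_lit 5) (nat_lit 3) (nat_lit 4) (nat_lit 1) (nat_lit 4) (nat_lit 409) (nat_lit 311) (nat_lit 300))))) (XT.nd (nat_lit 234) (nat_lit 0) (nat_lit 0) (XT.nd (nat_lit 78) (nat_lit 0) (nat_lit 0) (XT.lf (nat_lit 0) (nat_lit 25556001864) (nat_lit 152) (nat_lit 135705098084) (nat_lit 0) (nat_lit 24469577868) (nat_lit 1) (nat_lit 5) (nat_lit 3) (nat_lit 4) (nat_lit 1) (nat_lit 4) (nat_lit 410) (nat_lit 311) (nat_lit 299)) (XT.nd (nat_lit 78) (nat_lit 0) (nat_lit 0) (XT.lf (nat_lit 0) (nat_lit 32180443353) (nat_lit 152) (nat_lit 137131236233) (nat_lit 0) (nat_lit 31041010903) (nat_lit 1) (nat_lit 5) (nat_lit 3) (nat_lit 4) (nat_lit 1) (nat_lit 4) (nat_lit 411) (nat_lit 311) (nat_lit 298)) (XT.lf (nat_lit 0) (nat_lit 39183189713) (nat_lit 152) (nat_lit 138974189180) (nat_lit 0) (nat_lit 37994675361) (nat_lit 1) (nat_lit 5) (nat_lit 3) (nat_lit 4) (nat_lit 1) (nat_lit 4) (nat_lit 412)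 (nat_lit 311) (nat_lit 297)))) (XT.nd (nat_lit 78) (nat_lit 0) (nat_lit 0) (XT.lf (nat_lit 0) (nat_lit 46605738700) (nat_lit 152) (nat_lit 141244878127) (nat_lit 0) (nat_lit 45371778141) (nat_lit 1) (nat_lit 5) (nat_lit 3) (nat_lit 4) (nat_lit 1) (nat_lit 4) (nat_lit 413) (nat_lit 311) (nat_lit 296)) (XT.nd (nat_lit 78) (nat_lit 0) (nat_lit 0) (XT.lf (nat_lit 0) (nat_lit 54492075789) (nat_lit 152) (nat_lit 143956759008) (nat_lit 0) (nat_lit 53216035410) (nat_lit 1) (nat_lit 5) (nat_lit 3) (nat_lit 4) (nat_lit 1) (nat_lit 4) (nat_lit 414) (nat_lit 311) (nat_lit 295)) (XT.lf (nat_lit 0) (nat_lit 62888934829) (nat_lit 152) (nat_lit 147125902229) (nat_lit 0) (nat_lit 61573931654) (nat_lit 1) (nat_lit 5) (nat_lit 3) (nat_lit 4) (nat_lit 1) (nat_lit 4) (nat_lit 415) (nat_lit 311) (nat_lit 294)))))) (XT.nd (nat_lit 468) (nat_lit 0) (nat_lit 0) (XT.nd (nat_lit 234) (nat_lit 0) (nat_lit 0) (XT.nd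 (nat_lit 78) (nat_lit 0) (nat_lit 0) (XT.lf (nat_lit 0) (nat_lit 71846074986) (nat_lit 152) (nat_lit 150771087898) (nat_lit 0) (nat_lit 70494995147) (nat_lit 1) (nat_lit 5) (nat_lit 3) (nat_lit 4) (nat_lit 1) (nat_lit 4) (nat_lit 416) (nat_lit 311) (nat_lit 293)) (XT.nd (nat_lit 78) (nat_lit 0) (nat_lit 0) (XT.lf (nat_lit 0) (nat_lit 81416575609) (nat_lit 152) (nat_lit 154913917116) (nat_lit 0) (nat_lit 80032091452) (nat_lit 1) (nat_lit 5) (nat_lit 3) (nat_lit 4) (nat_lit 1) (nat_lit 4) (nat_lit 417) (nat_lit 311) (nat_lit 292)) (XT.lf (nat_lit 0) (nat_lit 91657150774) (nat_lit 152) (nat_lit 159578939980) (nat_lit 0) (nat_lit 90241736693) (nat_lit 1) (nat_lit 5) (nat_lit 3) (nat_lit 4) (nat_lit 1) (nat_lit 4) (nat_lit 418) (nat_lit 311) (nat_lit 291)))) (XT.nd (nat_lit 78) (nat_lit 0) (nat_lit 0) (XT.lf (nat_lit 0) (nat_lit 102628485372) (nat_lit 152) (nat_lit 164793801072) (nat_lit 0) (nat_lit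 101184432473) (nat_lit 1) (nat_lit 5) (nat_lit 3) (nat_lit 4) (nat_lit 1) (nat_lit 4) (nat_lit 419) (nat_lit 311) (nat_lit 290)) (XT.nd (nat_lit 78) (nat_lit 0) (nat_lit 0) (XT.lf (nat_lit 0) (nat_lit 114395594720) (nat_lit 152) (nat_lit 170589403271) (nat_lit 0) (nat_lit 112925024396) (nat_lit 1) (nat_lit 5) (nat_lit 3) (nat_lit 4) (nat_lit 1) (nat_lit 4) (nat_lit 420) (nat_lit 311) (nat_lit 289)) (XT.lf (nat_lit 0) (nat_lit 127028209835) (nat_lit 152) (nat_lit 177000090888) (nat_lit 0) (nat_lit 125533086340) (nat_lit 1) (nat_lit 5) (nat_lit 3) (nat_lit 4) (nat_lit 1) (nat_lit 4) (nat_lit 421) (nat_lit 311) (nat_lit 288))))) (XT.nd (nat_lit 234) (nat_lit 0) (nat_lit 0) (XT.nd (nat_lit 78) (nat_lit 0) (nat_lit 0) (XT.lf (nat_lit 0) (nat_lit 140601190659) (nat_lit 152) (nat_lit 184063853181) (nat_lit 0) (nat_lit 139083332746) (nat_lit 1) (nat_lit 5) (nat_lit 3) (nat_lit 4) (nat_lit 1) (nat_lit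 4) (nat_lit 422) (nat_lit 311) (nat_lit 287)) (XT.nd (nat_lit 78) (nat_lit 0) (nat_lit 0) (XT.lf (nat_lit 0) (nat_lit 155194969671) (nat_lit 152) (nat_lit 191822549483) (nat_lit 0) (nat_lit 153656061372) (nat_lit 1) (nat_lit 5) (nat_lit 3) (nat_lit 4) (nat_lit 1) (nat_lit 4) (nat_lit 423) (nat_lit 311) (nat_lit 286)) (XT.lf (nat_lit 0) (nat_lit 170896028524) (nat_lit 152) (nat_lit 200322157255) (nat_lit 0) (nat_lit 169337629126) (nat_lit 1) (nat_lit 5) (nat_lit 3) (nat_lit 4) (nat_lit 1) (nat_lit 4) (nat_lit 424) (nat_lit 311) (nat_lit 285)))) (XT.nd (nat_lit 156) (nat_lit 0) (nat_lit 0) (XT.nd (nat_lit 78) (nat_lit 0) (nat_lit 0) (XT.lf (nat_lit 0) (nat_lit 187797410530) (nat_lit 152) (nat_lit 209613044540) (nat_lit 0) (nat_lit 186220963819) (nat_lit 1) (nat_lit 5) (nat_lit 3) (nat_lit 4) (nat_lit 1) (nat_lit 4) (nat_lit 425) (nat_lit 311) (nat_lit 284)) (XT.lf (nat_lit 0) (nat_lit 205999272027)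 (nat_lit 152) (nat_lit 219750268451) (nat_lit 0) (nat_lit 204406114840) (nat_lit 1) (nat_lit 5) (nat_lit 3) (nat_lit 4) (nat_lit 1) (nat_lit 4) (nat_lit 426) (nat_lit 311) (nat_lit 283))) (XT.nd (nat_lit 78) (nat_lit 0) (nat_lit 0) (XT.lf (nat_lit 0) (nat_lit 225609475898) (nat_lit 152) (nat_lit 230793901424) (nat_lit 0) (nat_lit 224000846048) (nat_lit 1) (nat_lit 5) (nat_lit 3) (nat_lit 4) (nat_lit 1) (nat_lit 4) (nat_lit 427) (nat_lit 311) (nat_lit 282)) (XT.lf (nat_lit 0) (nat_lit 246744230758) (nat_lit 152) (nat_lit 242809387210) (nat_lit 0) (nat_lit 245121274369) (nat_lit 1) (nat_lit 5) (nat_lit 3) (nat_lit 4) (nat_lit 1) (nat_lit 4) (nat_lit 428) (nat_lit 311) (nat_lit 281))))))))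
noncomputable def xc8 : XT := (XT.nd (nat_lit 51792) (nat_lit 0) (nat_lit 0) (XT.nd (nat_lit 50856) (nat_lit 0) (nat_lit 0) (XT.nd (nat_lit 468) (nat_lit 0) (nat_lit 0) (XT.nd (nat_lit 234) (nat_lit 0) (nat_lit 0) (XT.nd (nat_lit 78) (nat_lit 0) (nat_lit 0) (XT.lf (nat_lit 0) (nat_lit 269528779599) (nat_lit 152) (nat_lit 255867928688) (nat_lit 0) (nat_lit 267892557896) (nat_lit 1) (nat_lit 5) (nat_lit 3) (nat_lit 4) (nat_lit 1) (nat_lit 4) (nat_lit 429) (nat_lit 311) (nat_lit 280)) (XT.nd (nat_lit 78) (nat_lit 0) (nat_lit 0) (XT.lf (nat_lit 0) (nat_lit 294098141970) (nat_lit 152) (nat_lit 270046909809) (nat_lit 0) (nat_lit 292449637569) (nat_lit 1) (nat_lit 5) (nat_lit 3) (nat_lit 4) (nat_lit 1) (nat_lit 4) (nat_lit 430) (nat_lit 311) (nat_lit 279)) (XT.lf (nat_lit 0) (nat_lit 320597914092) (nat_lit 152) (nat_lit 285430354163) (nat_lit 0) (nat_lit 318938036822) (nat_lit 1) (nat_lit 5) (nat_lit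 3) (nat_lit 4) (nat_lit 1) (nat_lit 4) (nat_lit 431) (nat_lit 311) (nat_lit 278)))) (XT.nd (nat_lit 78) (nat_lit 0) (nat_lit 0) (XT.lf (nat_lit 0) (nat_lit 349185131652) (nat_lit 152) (nat_lit 302109422902) (nat_lit 0) (nat_lit 347514723948) (nat_lit 1) (nat_lit 5) (nat_lit 3) (nat_lit 4) (nat_lit 1) (nat_lit 4) (nat_lit 432) (nat_lit 311) (nat_lit 277)) (XT.nd (nat_lit 78) (nat_lit 0) (nat_lit 0) (XT.lf (nat_lit 0) (nat_lit 380029200384) (nat_lit 152) (nat_lit 320182954952) (nat_lit 0) (nat_lit 378349042277) (nat_lit 1) (nat_lit 5) (nat_lit 3) (nat_lit 4) (nat_lit 1) (nat_lit 4) (nat_lit 433) (nat_lit 311) (nat_lit 276)) (XT.lf (nat_lit 0) (nat_lit 413312899954) (nat_lit 152) (nat_lit 339758052725) (nat_lit 0) (nat_lit 411623713697) (nat_lit 1) (nat_lit 5) (nat_lit 3) (nat_lit 4) (nat_lit 1) (nat_lit 4) (nat_lit 434) (nat_lit 311) (nat_lit 275))))) (XT.nd (nat_lit 50154) (nat_lit 0) (nat_lit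 152) (XT.nd (nat_lit 78) (nat_lit 0) (nat_lit 0) (XT.lf (nat_lit 0) (nat_lit 449233467100) (nat_lit 152) (nat_lit 360950716802) (nat_lit 0) (nat_lit 447535921445) (nat_lit 1) (nat_lit 5) (nat_lit 3) (nat_lit 4) (nat_lit 1) (nat_lit 4) (nat_lit 435) (nat_lit 311) (nat_lit 274)) (XT.nd (nat_lit 49998) (nat_lit 0) (nat_lit 228) (XT.lf (nat_lit 0) (nat_lit 488003764442) (nat_lit 152) (nat_lit 383886533338) (nat_lit 0) (nat_lit 486298478604) (nat_lit 1) (nat_lit 5) (nat_lit 3) (nat_lit 4) (nat_lit 1) (nat_lit 4) (nat_lit 436) (nat_lit 311) (nat_lit 273)) (XT.lf (nat_lit 0) (nat_lit 10362480628) (nat_lit 152) (nat_lit 12219649535) (nat_lit 0) (nat_lit 10362480628) (nat_lit 4) (nat_lit 5) (nat_lit 6) (nat_lit 4) (nat_lit 4) (nat_lit 4) (nat_lit 396) (nat_lit 312) (nat_lit 312)))) (XT.nd (nat_lit 78) (nat_lit 76) (nat_lit 0) (XT.lf (nat_lit 0) (nat_lit 29912820447) (nat_lit 152) (nat_lit 11100980014)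 (nat_lit 0) (nat_lit 29761449244) (nat_lit 4) (nat_lit 5) (nat_lit 6) (nat_lit 4) (nat_lit 4) (nat_lit 4) (nat_lit 397) (nat_lit 312) (nat_lit 311)) (XT.nd (nat_lit 78) (nat_lit 0) (nat_lit 0) (XT.lf (nat_lit 0) (nat_lit 2643334960) (nat_lit 76) (nat_lit 36858534188) (nat_lit 76) (nat_lit 36567004463) (nat_lit 3) (nat_lit 4) (nat_lit 4) (nat_lit 5) (nat_lit 4) (nat_lit 4) (nat_lit 398) (nat_lit 312) (nat_lit 310)) (XT.lf (nat_lit 0) (nat_lit 17170340749) (nat_lit 76) (nat_lit 32522613579) (nat_lit 76) (nat_lit 32101307446) (nat_lit 3) (nat_lit 4) (nat_lit 4) (nat_lit 5) (nat_lit 4) (nat_lit 4) (nat_lit 399) (nat_lit 312) (nat_lit 309)))))) (XT.nd (nat_lit 468) (nat_lit 152) (nat_lit 0) (XT.nd (nat_lit 234) (nat_lit 0) (nat_lit 0) (XT.nd (nat_lit 78) (nat_lit 0) (nat_lit 0) (XT.lf (nat_lit 0) (nat_lit 32199074780) (nat_lit 76) (nat_lit 28168344759) (nat_lit 76) (nat_lit 27626875285) (nat_lit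 3) (nat_lit 4) (nat_lit 4) (nat_lit 5) (nat_lit 4) (nat_lit 4) (nat_lit 400) (nat_lit 312) (nat_lit 308)) (XT.nd (nat_lit 78) (nat_lit 0) (nat_lit 0) (XT.lf (nat_lit 0) (nat_lit 47818596217) (nat_lit 76) (nat_lit 23769924654) (nat_lit 76) (nat_lit 23117192827) (nat_lit 3) (nat_lit 4) (nat_lit 4) (nat_lit 5) (nat_lit 4) (nat_lit 4) (nat_lit 401) (nat_lit 312) (nat_lit 307)) (XT.lf (nat_lit 0) (nat_lit 64121465188) (nat_lit 76) (nat_lit 19301288552) (nat_lit 76) (nat_lit 18545536027) (nat_lit 3) (nat_lit 4) (nat_lit 4) (nat_lit 5) (nat_lit 4) (nat_lit 4) (nat_lit 402) (nat_lit 312) (nat_lit 306)))) (XT.nd (nat_lit 78) (nat_lit 0) (nat_lit 0) (XT.lf (nat_lit 0) (nat_lit 81204291286) (nat_lit 76) (nat_lit 14735955647) (nat_lit 76) (nat_lit 13884813587) (nat_lit 3) (nat_lit 4) (nat_lit 4) (nat_lit 5) (nat_lit 4) (nat_lit 4) (nat_lit 403) (nat_lit 312) (nat_lit 305)) (XT.nd (nat_lit 78) (nat_lit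 0) (nat_lit 0) (XT.lf (nat_lit 0) (nat_lit 99168306073) (nat_lit 76) (nat_lit 10046872113) (nat_lit 76) (nat_lit 9107406410) (nat_lit 3) (nat_lit 4) (nat_lit 4) (nat_lit 5) (nat_lit 4) (nat_lit 4) (nat_lit 404) (nat_lit 312) (nat_lit 304)) (XT.lf (nat_lit 0) (nat_lit 118119962971) (nat_lit 76) (nat_lit 5206250789) (nat_lit 76) (nat_lit 4185003935) (nat_lit 3) (nat_lit 4) (nat_lit 4) (nat_lit 5) (nat_lit 4) (nat_lit 4) (nat_lit 405) (nat_lit 312) (nat_lit 303))))) (XT.nd (nat_lit 234) (nat_lit 0) (nat_lit 0) (XT.nd (nat_lit 78) (nat_lit 0) (nat_lit 0) (XT.lf (nat_lit 0) (nat_lit 735464512) (nat_lit 76) (nat_lit 158406050) (nat_lit 152) (nat_lit 136550254677) (nat_lit 1) (nat_lit 5) (nat_lit 2) (nat_lit 5) (nat_lit 3) (nat_lit 4) (nat_lit 406) (nat_lit 312) (nat_lit 302)) (XT.nd (nat_lit 78) (nat_lit 0) (nat_lit 0) (XT.lf (nat_lit 0) (nat_lit 6276988413) (nat_lit 152) (nat_lit 136723549585)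 (nat_lit 0) (nat_lit 5165479558) (nat_lit 1) (nat_lit 5) (nat_lit 3) (nat_lit 4) (nat_lit 1) (nat_lit 4) (nat_lit 407) (nat_lit 312) (nat_lit 301)) (XT.lf (nat_lit 0) (nat_lit 11902390817) (nat_lit 152) (nat_lit 137123645301) (nat_lit 0) (nat_lit 10729052901) (nat_lit 1) (nat_lit 5) (nat_lit 3) (nat_lit 4) (nat_lit 1) (nat_lit 4) (nat_lit 408) (nat_lit 312) (nat_lit 300)))) (XT.nd (nat_lit 78) (nat_lit 0) (nat_lit 0) (XT.lf (nat_lit 0) (nat_lit 17800940330) (nat_lit 152) (nat_lit 137908845651) (nat_lit 0) (nat_lit 16570353283) (nat_lit 1) (nat_lit 5) (nat_lit 3) (nat_lit 4) (nat_lit 1) (nat_lit 4) (nat_lit 409) (nat_lit 312) (nat_lit 299)) (XT.nd (nat_lit 78) (nat_lit 0) (nat_lit 0) (XT.lf (nat_lit 0) (nat_lit 24007591319) (nat_lit 152) (nat_lit 139083803675) (nat_lit 0) (nat_lit 22723995818) (nat_lit 1) (nat_lit 5) (nat_lit 3) (nat_lit 4) (nat_lit 1) (nat_lit 4) (nat_lit 410) (nat_lit 312)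 (nat_lit 298)) (XT.lf (nat_lit 0) (nat_lit 30559123939) (nat_lit 152) (nat_lit 140655482086) (nat_lit 0) (nat_lit 29226446535) (nat_lit 1) (nat_lit 5) (nat_lit 3) (nat_lit 4) (nat_lit 1) (nat_lit 4) (nat_lit 411) (nat_lit 312) (nat_lit 297))))))) (XT.nd (nat_lit 936) (nat_lit 0) (nat_lit 0) (XT.nd (nat_lit 468) (nat_lit 0) (nat_lit 0) (XT.nd (nat_lit 234) (nat_lit 0) (nat_lit 0) (XT.nd (nat_lit 78) (nat_lit 0) (nat_lit 0) (XT.lf (nat_lit 0) (nat_lit 37494362086) (nat_lit 152) (nat_lit 142633194535) (nat_lit 0) (nat_lit 36116238477) (nat_lit 1) (nat_lit 5) (nat_lit 3) (nat_lit 4) (nat_lit 1) (nat_lit 4) (nat_lit 412) (nat_lit 312) (nat_lit 296)) (XT.nd (nat_lit 78) (nat_lit 0) (nat_lit 0) (XT.lf (nat_lit 0) (nat_lit 44854403469) (nat_lit 152) (nat_lit 145028660798) (nat_lit 0) (nat_lit 43434200039) (nat_lit 1) (nat_lit 5) (nat_lit 3) (nat_lit 4) (nat_lit 1) (nat_lit 4) (nat_lit 413) (nat_lit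 312) (nat_lit 295)) (XT.lf (nat_lit 0) (nat_lit 52682863146) (nat_lit 152) (nat_lit 147856076232) (nat_lit 0) (nat_lit 51223696920) (nat_lit 1) (nat_lit 5) (nat_lit 3) (nat_lit 4) (nat_lit 1) (nat_lit 4) (nat_lit 414) (nat_lit 312) (nat_lit 294)))) (XT.nd (nat_lit 78) (nat_lit 0) (nat_lit 0) (XT.lf (nat_lit 0) (nat_lit 61026131991) (nat_lit 152) (nat_lit 151132195891) (nat_lit 0) (nat_lit 59530889102) (nat_lit 1) (nat_lit 5) (nat_lit 3) (nat_lit 4) (nat_lit 1) (nat_lit 4) (nat_lit 415) (nat_lit 312) (nat_lit 293)) (XT.nd (nat_lit 78) (nat_lit 0) (nat_lit 0) (XT.lf (nat_lit 0) (nat_lit 69933651597) (nat_lit 152) (nat_lit 154876433818) (nat_lit 0) (nat_lit 68405004389) (nat_lit 1) (nat_lit 5) (nat_lit 3) (nat_lit 4) (nat_lit 1) (nat_lit 4) (nat_lit 416) (nat_lit 312) (nat_lit 292)) (XT.lf (nat_lit 0) (nat_lit 79458207264) (nat_lit 152) (nat_lit 159110978088) (nat_lit 0) (nat_lit 77898630132)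 (nat_lit 1) (nat_lit 5) (nat_lit 3) (nat_lit 4) (nat_lit 1) (nat_lit 4) (nat_lit 417) (nat_lit 312) (nat_lit 291))))) (XT.nd (nat_lit 234) (nat_lit 0) (nat_lit 0) (XT.nd (nat_lit 78) (nat_lit 0) (nat_lit 0) (XT.lf (nat_lit 0) (nat_lit 89656240804) (nat_lit 152) (nat_lit 163860922297) (nat_lit 0) (nat_lit 88068024854) (nat_lit 1) (nat_lit 5) (nat_lit 3) (nat_lit 4) (nat_lit 1) (nat_lit 4) (nat_lit 418) (nat_lit 312) (nat_lit 290)) (XT.nd (nat_lit 78) (nat_lit 0) (nat_lit 0) (XT.lf (nat_lit 0) (nat_lit 100588185009) (nat_lit 152) (nat_lit 169154414264) (nat_lit 0) (nat_lit 98973451634) (nat_lit 1) (nat_lit 5) (nat_lit 3) (nat_lit 4) (nat_lit 1) (nat_lit 4) (nat_lit 419) (nat_lit 312) (nat_lit 289)) (XT.lf (nat_lit 0) (nat_lit 112318821770) (nat_lit 152) (nat_lit 175022822829) (nat_lit 0) (nat_lit 110679535224) (nat_lit 1) (nat_lit 5) (nat_lit 3) (nat_lit 4) (nat_lit 1) (nat_lit 4) (nat_lit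 420) (nat_lit 312) (nat_lit 288)))) (XT.nd (nat_lit 78) (nat_lit 0) (nat_lit 0) (XT.lf (nat_lit 0) (nat_lit 124917665971) (nat_lit 152) (nat_lit 181500923748) (nat_lit 0) (nat_lit 123255645008) (nat_lit 1) (nat_lit 5) (nat_lit 3) (nat_lit 4) (nat_lit 1) (nat_lit 4) (nat_lit 421) (nat_lit 312) (nat_lit 287)) (XT.nd (nat_lit 78) (nat_lit 0) (nat_lit 0) (XT.lf (nat_lit 0) (nat_lit 138459377431) (nat_lit 152) (nat_lit 188627105765) (nat_lit 0) (nat_lit 136776306081) (nat_lit 1) (nat_lit 5) (nat_lit 3) (nat_lit 4) (nat_lit 1) (nat_lit 4) (nat_lit 422) (nat_lit 312) (nat_lit 286)) (XT.lf (nat_lit 0) (nat_lit 153024203327) (nat_lit 152) (nat_lit 196443598108) (nat_lit 0) (nat_lit 151321640879) (nat_lit 1) (nat_lit 5) (nat_lit 3) (nat_lit 4) (nat_lit 1) (nat_lit 4) (nat_lit 423) (nat_lit 312) (nat_lit 285)))))) (XT.nd (nat_lit 468) (nat_lit 0) (nat_lit 0) (XT.nd (nat_lit 234) (nat_lit 0) (nat_lit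 0) (XT.nd (nat_lit 78) (nat_lit 0) (nat_lit 0) (XT.lf (nat_lit 0) (nat_lit 168698453740) (nat_lit 152) (nat_lit 204996720731) (nat_lit 0) (nat_lit 166977843978) (nat_lit 1) (nat_lit 5) (nat_lit 3) (nat_lit 4) (nat_lit 1) (nat_lit 4) (nat_lit 424) (nat_lit 312) (nat_lit 284)) (XT.nd (nat_lit 78) (nat_lit 0) (nat_lit 0) (XT.lf (nat_lit 0) (nat_lit 185575013117) (nat_lit 152) (nat_lit 214337158806) (nat_lit 0) (nat_lit 183837692879) (nat_lit 1) (nat_lit 5) (nat_lit 3) (nat_lit 4) (nat_lit 1) (nat_lit 4) (nat_lit 425) (nat_lit 312) (nat_lit 283)) (XT.lf (nat_lit 0) (nat_lit 203753890698) (nat_lit 152) (nat_lit 224520263077) (nat_lit 0) (nat_lit 202001097797) (nat_lit 1) (nat_lit 5) (nat_lit 3) (nat_lit 4) (nat_lit 1) (nat_lit 4) (nat_lit 426) (nat_lit 312) (nat_lit 282)))) (XT.nd (nat_lit 78) (nat_lit 0) (nat_lit 0) (XT.lf (nat_lit 0) (nat_lit 223342813164) (nat_lit 152) (nat_lit 235606377865)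 (nat_lit 0) (nat_lit 221575693725) (nat_lit 1) (nat_lit 5) (nat_lit 3) (nat_lit 4) (nat_lit 1) (nat_lit 4) (nat_lit 427) (nat_lit 312) (nat_lit 281)) (XT.nd (nat_lit 78) (nat_lit 0) (nat_lit 0) (XT.lf (nat_lit 0) (nat_lit 244457863021) (nat_lit 152) (nat_lit 247661198666) (nat_lit 0) (nat_lit 242677478267) (nat_lit 1) (nat_lit 5) (nat_lit 3) (nat_lit 4) (nat_lit 1) (nat_lit 4) (nat_lit 428) (nat_lit 312) (nat_lit 280)) (XT.lf (nat_lit 0) (nat_lit 267224166488) (nat_lit 152) (nat_lit 260756161454) (nat_lit 0) (nat_lit 265431499036) (nat_lit 1) (nat_lit 5) (nat_lit 3) (nat_lit 4) (nat_lit 1) (nat_lit 4) (nat_lit 429) (nat_lit 312) (nat_lit 279))))) (XT.nd (nat_lit 234) (nat_lit 0) (nat_lit 0) (XT.nd (nat_lit 78) (nat_lit 0) (nat_lit 0) (XT.lf (nat_lit 0) (nat_lit 291776634994) (nat_lit 152) (nat_lit 274968866008) (nat_lit 0) (nat_lit 289972594673) (nat_lit 1) (nat_lit 5) (nat_lit 3) (nat_lit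 4) (nat_lit 1) (nat_lit 4) (nat_lit 430) (nat_lit 312) (nat_lit 278)) (XT.nd (nat_lit 78) (nat_lit 0) (nat_lit 0) (XT.lf (nat_lit 0) (nat_lit 318260764649) (nat_lit 152) (nat_lit 290383535765) (nat_lit 0) (nat_lit 316446193894) (nat_lit 1) (nat_lit 5) (nat_lit 3) (nat_lit 4) (nat_lit 1) (nat_lit 4) (nat_lit 431) (nat_lit 312) (nat_lit 277)) (XT.lf (nat_lit 0) (nat_lit 346833498443) (nat_lit 152) (nat_lit 307091516913) (nat_lit 0) (nat_lit 345009177286) (nat_lit 1) (nat_lit 5) (nat_lit 3) (nat_lit 4) (nat_lit 1) (nat_lit 4) (nat_lit 432) (nat_lit 312) (nat_lit 276)))) (XT.nd (nat_lit 156) (nat_lit 0) (nat_lit 0) (XT.nd (nat_lit 78) (nat_lit 0) (nat_lit 0) (XT.lf (nat_lit 0) (nat_lit 377664156281) (nat_lit 152) (nat_lit 325191819713) (nat_lit 0) (nat_lit 375830806973) (nat_lit 1) (nat_lit 5) (nat_lit 3) (nat_lit 4) (nat_lit 1) (nat_lit 4) (nat_lit 433) (nat_lit 312) (nat_lit 275)) (XT.lf (nat_lit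 0) (nat_lit 410935438355) (nat_lit 152) (nat_lit 344791705218) (nat_lit 0) (nat_lit 409093729650) (nat_lit 1) (nat_lit 5) (nat_lit 3) (nat_lit 4) (nat_lit 1) (nat_lit 4) (nat_lit 434) (nat_lit 312) (nat_lit 274))) (XT.nd (nat_lit 78) (nat_lit 0) (nat_lit 0) (XT.lf (nat_lit 0) (nat_lit 446844507821) (nat_lit 152) (nat_lit 366007320897) (nat_lit 0) (nat_lit 444995058932) (nat_lit 1) (nat_lit 5) (nat_lit 3) (nat_lit 4) (nat_lit 1) (nat_lit 4) (nat_lit 435) (nat_lit 312) (nat_lit 273)) (XT.lf (nat_lit 0) (nat_lit 485604159163) (nat_lit 152) (nat_lit 388964388917) (nat_lit 0) (nat_lit 483747543438) (nat_lit 1) (nat_lit 5) (nat_lit 3) (nat_lit 4) (nat_lit 1) (nat_lit 4) (nat_lit 436) (nat_lit 312) (nat_lit 272))))))))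
noncomputable def xc9 : XT := (XT.nd (nat_lit 1872) (nat_lit 0) (nat_lit 0) (XT.nd (nat_lit 936) (nat_lit 152) (nat_lit 0) (XT.nd (nat_lit 468) (nat_lit 0) (nat_lit 0) (XT.nd (nat_lit 234) (nat_lit 76) (nat_lit 0) (XT.nd (nat_lit 78) (nat_lit 0) (nat_lit 0) (XT.lf (nat_lit 0) (nat_lit 1793428131) (nat_lit 152) (nat_lit 25024170066) (nat_lit 0) (nat_lit 1793428131) (nat_lit 4) (nat_lit 5) (nat_lit 6) (nat_lit 4) (nat_lit 4) (nat_lit 4) (nat_lit 394) (nat_lit 313) (nat_lit 313)) (XT.nd (nat_lit 78) (nat_lit 0) (nat_lit 0) (XT.lf (nat_lit 0) (nat_lit 12006056037) (nat_lit 152) (nat_lit 37535267324) (nat_lit 0) (nat_lit 11842575138) (nat_lit 4) (nat_lit 5) (nat_lit 6) (nat_lit 4) (nat_lit 4) (nat_lit 4) (nat_lit 395) (nat_lit 313) (nat_lit 312)) (XT.lf (nat_lit 0) (nat_lit 20693673974) (nat_lit 152) (nat_lit 24826475348) (nat_lit 0) (nat_lit 20378821872) (nat_lit 4) (nat_lit 5) (nat_lit 6) (nat_lit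 4) (nat_lit 4) (nat_lit 4) (nat_lit 396) (nat_lit 313) (nat_lit 311)))) (XT.nd (nat_lit 78) (nat_lit 76) (nat_lit 0) (XT.lf (nat_lit 0) (nat_lit 29701192255) (nat_lit 152) (nat_lit 11846652846) (nat_lit 0) (nat_lit 29246181632) (nat_lit 4) (nat_lit 5) (nat_lit 6) (nat_lit 4) (nat_lit 4) (nat_lit 4) (nat_lit 397) (nat_lit 313) (nat_lit 310)) (XT.nd (nat_lit 78) (nat_lit 0) (nat_lit 0) (XT.lf (nat_lit 0) (nat_lit 1530090086) (nat_lit 76) (nat_lit 37575787674) (nat_lit 76) (nat_lit 36991000641) (nat_lit 3) (nat_lit 4) (nat_lit 4) (nat_lit 5) (nat_lit 4) (nat_lit 4) (nat_lit 398) (nat_lit 313) (nat_lit 309)) (XT.lf (nat_lit 0) (nat_lit 15739580385) (nat_lit 76) (nat_lit 33397811987) (nat_lit 76) (nat_lit 32692861613) (nat_lit 3) (nat_lit 4) (nat_lit 4) (nat_lit 5) (nat_lit 4) (nat_lit 4) (nat_lit 399) (nat_lit 313) (nat_lit 308))))) (XT.nd (nat_lit 234) (nat_lit 0) (nat_lit 0) (XT.nd (nat_lit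 78) (nat_lit 0) (nat_lit 0) (XT.lf (nat_lit 0) (nat_lit 30474318590) (nat_lit 76) (nat_lit 29189788465) (nat_lit 76) (nat_lit 28373575739) (nat_lit 3) (nat_lit 4) (nat_lit 4) (nat_lit 5) (nat_lit 4) (nat_lit 4) (nat_lit 400) (nat_lit 313) (nat_lit 307)) (XT.nd (nat_lit 78) (nat_lit 0) (nat_lit 0) (XT.lf (nat_lit 0) (nat_lit 45821621671) (nat_lit 76) (nat_lit 24926780674) (nat_lit 76) (nat_lit 24007547249) (nat_lit 3) (nat_lit 4) (nat_lit 4) (nat_lit 5) (nat_lit 4) (nat_lit 4) (nat_lit 401) (nat_lit 313) (nat_lit 306)) (XT.lf (nat_lit 0) (nat_lit 61872436608) (nat_lit 76) (nat_lit 20583526343) (nat_lit 76) (nat_lit 19568903384) (nat_lit 3) (nat_lit 4) (nat_lit 4) (nat_lit 5) (nat_lit 4) (nat_lit 4) (nat_lit 402) (nat_lit 313) (nat_lit 305)))) (XT.nd (nat_lit 78) (nat_lit 0) (nat_lit 0) (XT.lf (nat_lit 0) (nat_lit 78721879341) (nat_lit 76) (nat_lit 16134287670) (nat_lit 76) (nat_lit 15031341068)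 (nat_lit 3) (nat_lit 4) (nat_lit 4) (nat_lit 5) (nat_lit 4) (nat_lit 4) (nat_lit 403) (nat_lit 313) (nat_lit 304)) (XT.nd (nat_lit 78) (nat_lit 0) (nat_lit 0) (XT.lf (nat_lit 0) (nat_lit 96469798421) (nat_lit 76) (nat_lit 11552698796) (nat_lit 76) (nat_lit 10367971043) (nat_lit 3) (nat_lit 4) (nat_lit 4) (nat_lit 5) (nat_lit 4) (nat_lit 4) (nat_lit 404) (nat_lit 313) (nat_lit 303)) (XT.lf (nat_lit 0) (nat_lit 115221366700) (nat_lit 76) (nat_lit 6811609565) (nat_lit 76) (nat_lit 5551158524) (nat_lit 3) (nat_lit 4) (nat_lit 4) (nat_lit 5) (nat_lit 4) (nat_lit 4) (nat_lit 405) (nat_lit 313) (nat_lit 302)))))) (XT.nd (nat_lit 468) (nat_lit 0) (nat_lit 0) (XT.nd (nat_lit 234) (nat_lit 0) (nat_lit 0) (XT.nd (nat_lit 78) (nat_lit 152) (nat_lit 0) (XT.lf (nat_lit 0) (nat_lit 135087704583) (nat_lit 76) (nat_lit 1882924632) (nat_lit 76) (nat_lit 552359436) (nat_lit 3) (nat_lit 4) (nat_lit 4) (nat_lit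 5) (nat_lit 4) (nat_lit 4) (nat_lit 406) (nat_lit 313) (nat_lit 301)) (XT.nd (nat_lit 78) (nat_lit 0) (nat_lit 0) (XT.lf (nat_lit 0) (nat_lit 4689745930) (nat_lit 152) (nat_lit 140202793461) (nat_lit 0) (nat_lit 3360711919) (nat_lit 1) (nat_lit 5) (nat_lit 3) (nat_lit 4) (nat_lit 1) (nat_lit 4) (nat_lit 407) (nat_lit 313) (nat_lit 300)) (XT.lf (nat_lit 0) (nat_lit 10230107428) (nat_lit 152) (nat_lit 140772647339) (nat_lit 0) (nat_lit 8843824287) (nat_lit 1) (nat_lit 5) (nat_lit 3) (nat_lit 4) (nat_lit 1) (nat_lit 4) (nat_lit 408) (nat_lit 313) (nat_lit 299)))) (XT.nd (nat_lit 78) (nat_lit 0) (nat_lit 0) (XT.lf (nat_lit 0) (nat_lit 16049915362) (nat_lit 152) (nat_lit 141715031172) (nat_lit 0) (nat_lit 14610623766) (nat_lit 1) (nat_lit 5) (nat_lit 3) (nat_lit 4) (nat_lit 1) (nat_lit 4) (nat_lit 409) (nat_lit 313) (nat_lit 298)) (XT.nd (nat_lit 78) (nat_lit 0) (nat_lit 0) (XT.lf (nat_lit 0)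 (nat_lit 22183657482) (nat_lit 152) (nat_lit 143035529459) (nat_lit 0) (nat_lit 20695283984) (nat_lit 1) (nat_lit 5) (nat_lit 3) (nat_lit 4) (nat_lit 1) (nat_lit 4) (nat_lit 410) (nat_lit 313) (nat_lit 297)) (XT.lf (nat_lit 0) (nat_lit 28667681889) (nat_lit 152) (nat_lit 144741967372) (nat_lit 0) (nat_lit 27133862185) (nat_lit 1) (nat_lit 5) (nat_lit 3) (nat_lit 4) (nat_lit 1) (nat_lit 4) (nat_lit 411) (nat_lit 313) (nat_lit 296))))) (XT.nd (nat_lit 234) (nat_lit 0) (nat_lit 0) (XT.nd (nat_lit 78) (nat_lit 0) (nat_lit 0) (XT.lf (nat_lit 0) (nat_lit 35540412432) (nat_lit 152) (nat_lit 146844457137) (nat_lit 0) (nat_lit 33964512908) (nat_lit 1) (nat_lit 5) (nat_lit 3) (nat_lit 4) (nat_lit 1) (nat_lit 4) (nat_lit 412) (nat_lit 313) (nat_lit 295)) (XT.nd (nat_lit 78) (nat_lit 0) (nat_lit 0) (XT.lf (nat_lit 0) (nat_lit 42842576403) (nat_lit 152) (nat_lit 149355457954) (nat_lit 0) (nat_lit 41227714083)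 (nat_lit 1) (nat_lit 5) (nat_lit 3) (nat_lit 4) (nat_lit 1) (nat_lit 4) (nat_lit 413) (nat_lit 313) (nat_lit 294)) (XT.lf (nat_lit 0) (nat_lit 50617445885) (nat_lit 152) (nat_lit 152289849825) (nat_lit 0) (nat_lit 48966506901) (nat_lit 1) (nat_lit 5) (nat_lit 3) (nat_lit 4) (nat_lit 1) (nat_lit 4) (nat_lit 414) (nat_lit 313) (nat_lit 293)))) (XT.nd (nat_lit 78) (nat_lit 0) (nat_lit 0) (XT.lf (nat_lit 0) (nat_lit 58911094179) (nat_lit 152) (nat_lit 155665021741) (nat_lit 0) (nat_lit 57226750877) (nat_lit 1) (nat_lit 5) (nat_lit 3) (nat_lit 4) (nat_lit 1) (nat_lit 4) (nat_lit 415) (nat_lit 313) (nat_lit 292)) (XT.nd (nat_lit 78) (nat_lit 0) (nat_lit 0) (XT.lf (nat_lit 0) (nat_lit 67772668829) (nat_lit 152) (nat_lit 159500974720) (nat_lit 0) (nat_lit 66057395603) (nat_lit 1) (nat_lit 5) (nat_lit 3) (nat_lit 4) (nat_lit 1) (nat_lit 4) (nat_lit 416) (nat_lit 313) (nat_lit 291)) (XT.lf (nat_lit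 0) (nat_lit 77254682871) (nat_lit 152) (nat_lit 163820440335) (nat_lit 0) (nat_lit 75510770826) (nat_lit 1) (nat_lit 5) (nat_lit 3) (nat_lit 4) (nat_lit 1) (nat_lit 4) (nat_lit 417) (nat_lit 313) (nat_lit 290))))))) (XT.nd (nat_lit 936) (nat_lit 0) (nat_lit 0) (XT.nd (nat_lit 468) (nat_lit 0) (nat_lit 0) (XT.nd (nat_lit 234) (nat_lit 0) (nat_lit 0) (XT.nd (nat_lit 78) (nat_lit 0) (nat_lit 0) (XT.lf (nat_lit 0) (nat_lit 87413326018) (nat_lit 152) (nat_lit 168649015420) (nat_lit 0) (nat_lit 85642896548) (nat_lit 1) (nat_lit 5) (nat_lit 3) (nat_lit 4) (nat_lit 1) (nat_lit 4) (nat_lit 418) (nat_lit 313) (nat_lit 289)) (XT.nd (nat_lit 78) (nat_lit 0) (nat_lit 0) (XT.lf (nat_lit 0) (nat_lit 98308797636) (nat_lit 152) (nat_lit 174015313753) (nat_lit 0) (nat_lit 96513814996) (nat_lit 1) (nat_lit 5) (nat_lit 3) (nat_lit 4) (nat_lit 1) (nat_lit 4) (nat_lit 419) (nat_lit 313) (nat_lit 288)) (XT.lf (nat_lit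 0) (nat_lit 110005663483) (nat_lit 152) (nat_lit 179951135620) (nat_lit 0) (nat_lit 108187946425) (nat_lit 1) (nat_lit 5) (nat_lit 3) (nat_lit 4) (nat_lit 1) (nat_lit 4) (nat_lit 420) (nat_lit 313) (nat_lit 287)))) (XT.nd (nat_lit 78) (nat_lit 0) (nat_lit 0) (XT.lf (nat_lit 0) (nat_lit 122573238320) (nat_lit 152) (nat_lit 186491656262) (nat_lit 0) (nat_lit 120734470876) (nat_lit 1) (nat_lit 5) (nat_lit 3) (nat_lit 4) (nat_lit 1) (nat_lit 4) (nat_lit 421) (nat_lit 313) (nat_lit 286)) (XT.nd (nat_lit 78) (nat_lit 0) (nat_lit 0) (XT.lf (nat_lit 0) (nat_lit 136085996664) (nat_lit 152) (nat_lit 193675634320) (nat_lit 0) (nat_lit 134227738121) (nat_lit 1) (nat_lit 5) (nat_lit 3) (nat_lit 4) (nat_lit 1) (nat_lit 4) (nat_lit 422) (nat_lit 313) (nat_lit 285)) (XT.lf (nat_lit 0) (nat_lit 150624014121) (nat_lit 152) (nat_lit 201545641515) (nat_lit 0) (nat_lit 148747708264) (nat_lit 1) (nat_lit 5) (nat_lit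 3) (nat_lit 4) (nat_lit 1) (nat_lit 4) (nat_lit 423) (nat_lit 313) (nat_lit 284))))) (XT.nd (nat_lit 234) (nat_lit 0) (nat_lit 0) (XT.nd (nat_lit 78) (nat_lit 0) (nat_lit 0) (XT.lf (nat_lit 0) (nat_lit 166273441904) (nat_lit 152) (nat_lit 210148314928) (nat_lit 0) (nat_lit 164380425572) (nat_lit 1) (nat_lit 5) (nat_lit 3) (nat_lit 4) (nat_lit 1) (nat_lit 4) (nat_lit 424) (nat_lit 313) (nat_lit 283)) (XT.nd (nat_lit 78) (nat_lit 0) (nat_lit 0) (XT.lf (nat_lit 0) (nat_lit 183127017365) (nat_lit 152) (nat_lit 219534633363) (nat_lit 0) (nat_lit 181218528370) (nat_lit 1) (nat_lit 5) (nat_lit 3) (nat_lit 4) (nat_lit 1) (nat_lit 4) (nat_lit 425) (nat_lit 313) (nat_lit 282)) (XT.lf (nat_lit 0) (nat_lit 201284613541) (nat_lit 152) (nat_lit 229760219449) (nat_lit 0) (nat_lit 199361798007) (nat_lit 1) (nat_lit 5) (nat_lit 3) (nat_lit 4) (nat_lit 1) (nat_lit 4) (nat_lit 426) (nat_lit 313) (nat_lit 281))))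 (XT.nd (nat_lit 78) (nat_lit 0) (nat_lit 0) (XT.lf (nat_lit 0) (nat_lit 220853831004) (nat_lit 152) (nat_lit 240885669252) (nat_lit 0) (nat_lit 218917750156) (nat_lit 1) (nat_lit 5) (nat_lit 3) (nat_lit 4) (nat_lit 1) (nat_lit 4) (nat_lit 427) (nat_lit 313) (nat_lit 280)) (XT.nd (nat_lit 78) (nat_lit 0) (nat_lit 0) (XT.lf (nat_lit 0) (nat_lit 241950635487) (nat_lit 152) (nat_lit 252976911361) (nat_lit 0) (nat_lit 240002271940) (nat_lit 1) (nat_lit 5) (nat_lit 3) (nat_lit 4) (nat_lit 1) (nat_lit 4) (nat_lit 428) (nat_lit 313) (nat_lit 279)) (XT.lf (nat_lit 0) (nat_lit 264700045090) (nat_lit 152) (nat_lit 266105597584) (nat_lit 0) (nat_lit 262740308674) (nat_lit 1) (nat_lit 5) (nat_lit 3) (nat_lit 4) (nat_lit 1) (nat_lit 4) (nat_lit 429) (nat_lit 313) (nat_lit 278)))))) (XT.nd (nat_lit 468) (nat_lit 0) (nat_lit 0) (XT.nd (nat_lit 234) (nat_lit 0) (nat_lit 0) (XT.nd (nat_lit 78) (nat_lit 0)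 (nat_lit 0) (XT.lf (nat_lit 0) (nat_lit 289236871129) (nat_lit 152) (nat_lit 280349527541) (nat_lit 0) (nat_lit 287266604279) (nat_lit 1) (nat_lit 5) (nat_lit 3) (nat_lit 4) (nat_lit 1) (nat_lit 4) (nat_lit 430) (nat_lit 313) (nat_lit 277)) (XT.nd (nat_lit 78) (nat_lit 0) (nat_lit 0) (XT.lf (nat_lit 0) (nat_lit 315706517018) (nat_lit 152) (nat_lit 295793109707) (nat_lit 0) (nat_lit 313726499766) (nat_lit 1) (nat_lit 5) (nat_lit 3) (nat_lit 4) (nat_lit 1) (nat_lit 4) (nat_lit 431) (nat_lit 313) (nat_lit 276)) (XT.lf (nat_lit 0) (nat_lit 344265839917) (nat_lit 152) (nat_lit 312527861605) (nat_lit 0) (nat_lit 342276794515) (nat_lit 1) (nat_lit 5) (nat_lit 3) (nat_lit 4) (nat_lit 1) (nat_lit 4) (nat_lit 432) (nat_lit 313) (nat_lit 275)))) (XT.nd (nat_lit 78) (nat_lit 0) (nat_lit 0) (XT.lf (nat_lit 0) (nat_lit 375084080260) (nat_lit 152) (nat_lit 330652952136) (nat_lit 0) (nat_lit 373086675460)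 (nat_lit 1) (nat_lit 5) (nat_lit 3) (nat_lit 4) (nat_lit 1) (nat_lit 4) (nat_lit 433) (nat_lit 313) (nat_lit 274)) (XT.nd (nat_lit 78) (nat_lit 0) (nat_lit 0) (XT.lf (nat_lit 0) (nat_lit 408343864654) (nat_lit 152) (nat_lit 350275789244) (nat_lit 0) (nat_lit 406338719671) (nat_lit 1) (nat_lit 5) (nat_lit 3) (nat_lit 4) (nat_lit 1) (nat_lit 4) (nat_lit 434) (nat_lit 313) (nat_lit 273)) (XT.lf (nat_lit 0) (nat_lit 444242288119) (nat_lit 152) (nat_lit 371512656407) (nat_lit 0) (nat_lit 442229976299) (nat_lit 1) (nat_lit 5) (nat_lit 3) (nat_lit 4) (nat_lit 1) (nat_lit 4) (nat_lit 435) (nat_lit 313) (nat_lit 272))))) (XT.nd (nat_lit 49842) (nat_lit 0) (nat_lit 228) (XT.nd (nat_lit 49686) (nat_lit 0) (nat_lit 380) (XT.lf (nat_lit 0) (nat_lit 482992082054) (nat_lit 152) (nat_lit 394489401728) (nat_lit 0) (nat_lit 480973134274) (nat_lit 1) (nat_lit 5) (nat_lit 3) (nat_lit 4) (nat_lit 1) (nat_lit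 4) (nat_lit 436) (nat_lit 313) (nat_lit 271)) (XT.nd (nat_lit 78) (nat_lit 0) (nat_lit 0) (XT.lf (nat_lit 0) (nat_lit 12862319131) (nat_lit 76) (nat_lit 6021695214) (nat_lit 76) (nat_lit 6021695214) (nat_lit 6) (nat_lit 4) (nat_lit 7) (nat_lit 5) (nat_lit 7) (nat_lit 4) (nat_lit 392) (nat_lit 314) (nat_lit 314)) (XT.lf (nat_lit 0) (nat_lit 44469430605) (nat_lit 76) (nat_lit 4545238349) (nat_lit 76) (nat_lit 4359851009) (nat_lit 6) (nat_lit 4) (nat_lit 7) (nat_lit 5) (nat_lit 7) (nat_lit 4) (nat_lit 393) (nat_lit 314) (nat_lit 313)))) (XT.nd (nat_lit 156) (nat_lit 0) (nat_lit 0) (XT.nd (nat_lit 78) (nat_lit 0) (nat_lit 0) (XT.lf (nat_lit 0) (nat_lit 3553065998) (nat_lit 152) (nat_lit 50466490513) (nat_lit 0) (nat_lit 3213025727) (nat_lit 4) (nat_lit 5) (nat_lit 6) (nat_lit 4) (nat_lit 4) (nat_lit 4) (nat_lit 394) (nat_lit 314) (nat_lit 312)) (XT.lf (nat_lit 0) (nat_lit 11777497590) (nat_lit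 152) (nat_lit 38340593982) (nat_lit 0) (nat_lit 11286086116) (nat_lit 4) (nat_lit 5) (nat_lit 6) (nat_lit 4) (nat_lit 4) (nat_lit 4) (nat_lit 395) (nat_lit 314) (nat_lit 311))) (XT.nd (nat_lit 78) (nat_lit 0) (nat_lit 0) (XT.lf (nat_lit 0) (nat_lit 20284774618) (nat_lit 152) (nat_lit 25990298560) (nat_lit 0) (nat_lit 19653204623) (nat_lit 4) (nat_lit 5) (nat_lit 6) (nat_lit 4) (nat_lit 4) (nat_lit 4) (nat_lit 396) (nat_lit 314) (nat_lit 310)) (XT.lf (nat_lit 0) (nat_lit 29125310575) (nat_lit 152) (nat_lit 13342417311) (nat_lit 0) (nat_lit 28363964172) (nat_lit 4) (nat_lit 5) (nat_lit 6) (nat_lit 4) (nat_lit 4) (nat_lit 4) (nat_lit 397) (nat_lit 314) (nat_lit 309))))))))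
noncomputable def xc10 : XT := (XT.nd (nat_lit 1872) (nat_lit 0) (nat_lit 0) (XT.nd (nat_lit 936) (nat_lit 0) (nat_lit 0) (XT.nd (nat_lit 468) (nat_lit 152) (nat_lit 0) (XT.nd (nat_lit 234) (nat_lit 0) (nat_lit 0) (XT.nd (nat_lit 78) (nat_lit 76) (nat_lit 0) (XT.lf (nat_lit 0) (nat_lit 38351493824) (nat_lit 152) (nat_lit 321999829) (nat_lit 0) (nat_lit 37469984079) (nat_lit 4) (nat_lit 5) (nat_lit 6) (nat_lit 4) (nat_lit 4) (nat_lit 4) (nat_lit 398) (nat_lit 314) (nat_lit 308)) (XT.nd (nat_lit 78) (nat_lit 0) (nat_lit 0) (XT.lf (nat_lit 0) (nat_lit 13582847875) (nat_lit 76) (nat_lit 34647216488) (nat_lit 76) (nat_lit 33654444389) (nat_lit 3) (nat_lit 4) (nat_lit 4) (nat_lit 5) (nat_lit 4) (nat_lit 4) (nat_lit 399) (nat_lit 314) (nat_lit 307)) (XT.lf (nat_lit 0) (nat_lit 28045367724) (nat_lit 76) (nat_lit 30574605279) (nat_lit 76) (nat_lit 29478812484) (nat_lit 3) (nat_lit 4) (nat_lit 4) (nat_lit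 5) (nat_lit 4) (nat_lit 4) (nat_lit 400) (nat_lit 314) (nat_lit 306)))) (XT.nd (nat_lit 78) (nat_lit 0) (nat_lit 0) (XT.lf (nat_lit 0) (nat_lit 43140616771) (nat_lit 76) (nat_lit 26436979259) (nat_lit 76) (nat_lit 25245796929) (nat_lit 3) (nat_lit 4) (nat_lit 4) (nat_lit 5) (nat_lit 4) (nat_lit 4) (nat_lit 401) (nat_lit 314) (nat_lit 305)) (XT.nd (nat_lit 78) (nat_lit 0) (nat_lit 0) (XT.lf (nat_lit 0) (nat_lit 58958048343) (nat_lit 76) (nat_lit 22209819161) (nat_lit 76) (nat_lit 20930313188) (nat_lit 3) (nat_lit 4) (nat_lit 4) (nat_lit 5) (nat_lit 4) (nat_lit 4) (nat_lit 402) (nat_lit 314) (nat_lit 304)) (XT.lf (nat_lit 0) (nat_lit 75591395369) (nat_lit 76) (nat_lit 17868075148) (nat_lit 76) (nat_lit 16506788024) (nat_lit 3) (nat_lit 4) (nat_lit 4) (nat_lit 5) (nat_lit 4) (nat_lit 4) (nat_lit 403) (nat_lit 314) (nat_lit 303))))) (XT.nd (nat_lit 234) (nat_lit 152) (nat_lit 0) (XT.nd (nat_lit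 78) (nat_lit 0) (nat_lit 0) (XT.lf (nat_lit 0) (nat_lit 93139225829) (nat_lit 76) (nat_lit 13386018366) (nat_lit 76) (nat_lit 11949007954) (nat_lit 3) (nat_lit 4) (nat_lit 4) (nat_lit 5) (nat_lit 4) (nat_lit 4) (nat_lit 404) (nat_lit 314) (nat_lit 302)) (XT.nd (nat_lit 78) (nat_lit 0) (nat_lit 0) (XT.lf (nat_lit 0) (nat_lit 111705526869) (nat_lit 76) (nat_lit 8737088480) (nat_lit 76) (nat_lit 7229963912) (nat_lit 3) (nat_lit 4) (nat_lit 4) (nat_lit 5) (nat_lit 4) (nat_lit 4) (nat_lit 405) (nat_lit 314) (nat_lit 301)) (XT.lf (nat_lit 0) (nat_lit 131400321012) (nat_lit 76) (nat_lit 3893736275) (nat_lit 76) (nat_lit 2321691193) (nat_lit 3) (nat_lit 4) (nat_lit 4) (nat_lit 5) (nat_lit 4) (nat_lit 4) (nat_lit 406) (nat_lit 314) (nat_lit 300)))) (XT.nd (nat_lit 78) (nat_lit 0) (nat_lit 0) (XT.lf (nat_lit 0) (nat_lit 2798638964) (nat_lit 152) (nat_lit 144313473823) (nat_lit 0) (nat_lit 1244204041)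 (nat_lit 1) (nat_lit 5) (nat_lit 3) (nat_lit 4) (nat_lit 1) (nat_lit 4) (nat_lit 407) (nat_lit 314) (nat_lit 299)) (XT.nd (nat_lit 78) (nat_lit 0) (nat_lit 0) (XT.lf (nat_lit 0) (nat_lit 8260258884) (nat_lit 152) (nat_lit 145040511185) (nat_lit 0) (nat_lit 6652815506) (nat_lit 1) (nat_lit 5) (nat_lit 3) (nat_lit 4) (nat_lit 1) (nat_lit 4) (nat_lit 408) (nat_lit 314) (nat_lit 298)) (XT.lf (nat_lit 0) (nat_lit 14007157948) (nat_lit 152) (nat_lit 146128435281) (nat_lit 0) (nat_lit 12350632668) (nat_lit 1) (nat_lit 5) (nat_lit 3) (nat_lit 4) (nat_lit 1) (nat_lit 4) (nat_lit 409) (nat_lit 314) (nat_lit 297)))))) (XT.nd (nat_lit 468) (nat_lit 0) (nat_lit 0) (XT.nd (nat_lit 234) (nat_lit 0) (nat_lit 0) (XT.nd (nat_lit 78) (nat_lit 0) (nat_lit 0) (XT.lf (nat_lit 0) (nat_lit 20073391855) (nat_lit 152) (nat_lit 147583693069) (nat_lit 0) (nat_lit 18371420369) (nat_lit 1) (nat_lit 5) (nat_lit 3) (nat_lit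 4) (nat_lit 1) (nat_lit 4) (nat_lit 410) (nat_lit 314) (nat_lit 296)) (XT.nd (nat_lit 78) (nat_lit 0) (nat_lit 0) (XT.lf (nat_lit 0) (nat_lit 26494908658) (nat_lit 152) (nat_lit 149414908299) (nat_lit 0) (nat_lit 24750857352) (nat_lit 1) (nat_lit 5) (nat_lit 3) (nat_lit 4) (nat_lit 1) (nat_lit 4) (nat_lit 411) (nat_lit 314) (nat_lit 295)) (XT.lf (nat_lit 0) (nat_lit 33309761790) (nat_lit 152) (nat_lit 151632932617) (nat_lit 0) (nat_lit 31526747688) (nat_lit 1) (nat_lit 5) (nat_lit 3) (nat_lit 4) (nat_lit 1) (nat_lit 4) (nat_lit 412) (nat_lit 314) (nat_lit 294)))) (XT.nd (nat_lit 78) (nat_lit 0) (nat_lit 0) (XT.lf (nat_lit 0) (nat_lit 40558335566) (nat_lit 152) (nat_lit 154250909871) (nat_lit 0) (nat_lit 38739244800) (nat_lit 1) (nat_lit 5) (nat_lit 3) (nat_lit 4) (nat_lit 1) (nat_lit 4) (nat_lit 413) (nat_lit 314) (nat_lit 293)) (XT.nd (nat_lit 78) (nat_lit 0) (nat_lit 0) (XT.lf (nat_lit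 0) (nat_lit 48283584496) (nat_lit 152) (nat_lit 157284354000) (nat_lit 0) (nat_lit 46431089412) (nat_lit 1) (nat_lit 5) (nat_lit 3) (nat_lit 4) (nat_lit 1) (nat_lit 4) (nat_lit 414) (nat_lit 314) (nat_lit 292)) (XT.lf (nat_lit 0) (nat_lit 56531287835) (nat_lit 152) (nat_lit 160751240968) (nat_lit 0) (nat_lit 54647862826) (nat_lit 1) (nat_lit 5) (nat_lit 3) (nat_lit 4) (nat_lit 1) (nat_lit 4) (nat_lit 415) (nat_lit 314) (nat_lit 291))))) (XT.nd (nat_lit 234) (nat_lit 0) (nat_lit 0) (XT.nd (nat_lit 78) (nat_lit 0) (nat_lit 0) (XT.lf (nat_lit 0) (nat_lit 65350320860) (nat_lit 152) (nat_lit 164672115293) (nat_lit 0) (nat_lit 63438257033) (nat_lit 1) (nat_lit 5) (nat_lit 3) (nat_lit 4) (nat_lit 1) (nat_lit 4) (nat_lit 416) (nat_lit 314) (nat_lit 290)) (XT.nd (nat_lit 78) (nat_lit 0) (nat_lit 0) (XT.lf (nat_lit 0) (nat_lit 74792944508) (nat_lit 152) (nat_lit 169070211783) (nat_lit 0) (nat_lit 72854363257)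 (nat_lit 1) (nat_lit 5) (nat_lit 3) (nat_lit 4) (nat_lit 1) (nat_lit 4) (nat_lit 417) (nat_lit 314) (nat_lit 289)) (XT.lf (nat_lit 0) (nat_lit 84915115068) (nat_lit 152) (nat_lit 173971593234) (nat_lit 0) (nat_lit 82951980646) (nat_lit 1) (nat_lit 5) (nat_lit 3) (nat_lit 4) (nat_lit 1) (nat_lit 4) (nat_lit 418) (nat_lit 314) (nat_lit 288)))) (XT.nd (nat_lit 78) (nat_lit 0) (nat_lit 0) (XT.lf (nat_lit 0) (nat_lit 95776815773) (nat_lit 152) (nat_lit 179405304868) (nat_lit 0) (nat_lit 93790946933) (nat_lit 1) (nat_lit 5) (nat_lit 3) (nat_lit 4) (nat_lit 1) (nat_lit 4) (nat_lit 419) (nat_lit 314) (nat_lit 287)) (XT.nd (nat_lit 78) (nat_lit 0) (nat_lit 0) (XT.lf (nat_lit 0) (nat_lit 107442412255) (nat_lit 152) (nat_lit 185403546459) (nat_lit 0) (nat_lit 105435493029) (nat_lit 1) (nat_lit 5) (nat_lit 3) (nat_lit 4) (nat_lit 1) (nat_lit 4) (nat_lit 420) (nat_lit 314) (nat_lit 286)) (XT.lf (nat_lit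 0) (nat_lit 119981033977) (nat_lit 152) (nat_lit 192001863142) (nat_lit 0) (nat_lit 117954623652) (nat_lit 1) (nat_lit 5) (nat_lit 3) (nat_lit 4) (nat_lit 1) (nat_lit 4) (nat_lit 421) (nat_lit 314) (nat_lit 285))))))) (XT.nd (nat_lit 936) (nat_lit 0) (nat_lit 0) (XT.nd (nat_lit 468) (nat_lit 0) (nat_lit 0) (XT.nd (nat_lit 234) (nat_lit 0) (nat_lit 0) (XT.nd (nat_lit 78) (nat_lit 0) (nat_lit 0) (XT.lf (nat_lit 0) (nat_lit 133466983882) (nat_lit 152) (nat_lit 199239356052) (nat_lit 0) (nat_lit 131422526243) (nat_lit 1) (nat_lit 5) (nat_lit 3) (nat_lit 4) (nat_lit 1) (nat_lit 4) (nat_lit 422) (nat_lit 314) (nat_lit 284)) (XT.nd (nat_lit 78) (nat_lit 0) (nat_lit 0) (XT.lf (nat_lit 0) (nat_lit 147980178709) (nat_lit 152) (nat_lit 207158914037) (nat_lit 0) (nat_lit 145919010594) (nat_lit 1) (nat_lit 5) (nat_lit 3) (nat_lit 4) (nat_lit 1) (nat_lit 4) (nat_lit 423) (nat_lit 314) (nat_lit 283)) (XT.lf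 (nat_lit 0) (nat_lit 163606622576) (nat_lit 152) (nat_lit 215807467810) (nat_lit 0) (nat_lit 161529981799) (nat_lit 1) (nat_lit 5) (nat_lit 3) (nat_lit 4) (nat_lit 1) (nat_lit 4) (nat_lit 424) (nat_lit 314) (nat_lit 282)))) (XT.nd (nat_lit 78) (nat_lit 0) (nat_lit 0) (XT.lf (nat_lit 0) (nat_lit 180438916632) (nat_lit 152) (nat_lit 225236268061) (nat_lit 0) (nat_lit 178347949316) (nat_lit 1) (nat_lit 5) (nat_lit 3) (nat_lit 4) (nat_lit 1) (nat_lit 4) (nat_lit 425) (nat_lit 314) (nat_lit 281)) (XT.nd (nat_lit 78) (nat_lit 0) (nat_lit 0) (XT.lf (nat_lit 0) (nat_lit 198576807805) (nat_lit 152) (nat_lit 235501189161) (nat_lit 0) (nat_lit 196472575174) (nat_lit 1) (nat_lit 5) (nat_lit 3) (nat_lit 4) (nat_lit 1) (nat_lit 4) (nat_lit 426) (nat_lit 314) (nat_lit 280)) (XT.lf (nat_lit 0) (nat_lit 218127779894) (nat_lit 152) (nat_lit 246663060272) (nat_lit 0) (nat_lit 216011264565) (nat_lit 1) (nat_lit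 5) (nat_lit 3) (nat_lit 4) (nat_lit 1) (nat_lit 4) (nat_lit 427) (nat_lit 314) (nat_lit 279))))) (XT.nd (nat_lit 234) (nat_lit 0) (nat_lit 0) (XT.nd (nat_lit 78) (nat_lit 0) (nat_lit 0) (XT.lf (nat_lit 0) (nat_lit 239207690512) (nat_lit 152) (nat_lit 258788025817) (nat_lit 0) (nat_lit 237079802314) (nat_lit 1) (nat_lit 5) (nat_lit 3) (nat_lit 4) (nat_lit 1) (nat_lit 4) (nat_lit 428) (nat_lit 314) (nat_lit 278)) (XT.nd (nat_lit 78) (nat_lit 0) (nat_lit 0) (XT.lf (nat_lit 0) (nat_lit 261941457648) (nat_lit 152) (nat_lit 271947937442) (nat_lit 0) (nat_lit 259803039015) (nat_lit 1) (nat_lit 5) (nat_lit 3) (nat_lit 4) (nat_lit 1) (nat_lit 4) (nat_lit 429) (nat_lit 314) (nat_lit 277)) (XT.lf (nat_lit 0) (nat_lit 286463799921) (nat_lit 152) (nat_lit 286220779808) (nat_lit 0) (nat_lit 284315630887) (nat_lit 1) (nat_lit 5) (nat_lit 3) (nat_lit 4) (nat_lit 1) (nat_lit 4) (nat_lit 430) (nat_lit 314)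 (nat_lit 276)))) (XT.nd (nat_lit 78) (nat_lit 0) (nat_lit 0) (XT.lf (nat_lit 0) (nat_lit 312920034915) (nat_lit 152) (nat_lit 301691132724) (nat_lit 0) (nat_lit 310762837731) (nat_lit 1) (nat_lit 5) (nat_lit 3) (nat_lit 4) (nat_lit 1) (nat_lit 4) (nat_lit 431) (nat_lit 314) (nat_lit 275)) (XT.nd (nat_lit 78) (nat_lit 0) (nat_lit 0) (XT.lf (nat_lit 0) (nat_lit 341466940320) (nat_lit 152) (nat_lit 318450672353) (nat_lit 0) (nat_lit 339301383738) (nat_lit 1) (nat_lit 5) (nat_lit 3) (nat_lit 4) (nat_lit 1) (nat_lit 4) (nat_lit 432) (nat_lit 314) (nat_lit 274)) (XT.lf (nat_lit 0) (nat_lit 372273682982) (nat_lit 152) (nat_lit 336598714487) (nat_lit 0) (nat_lit 370100386216) (nat_lit 1) (nat_lit 5) (nat_lit 3) (nat_lit 4) (nat_lit 1) (nat_lit 4) (nat_lit 433) (nat_lit 314) (nat_lit 273)))))) (XT.nd (nat_lit 49998) (nat_lit 0) (nat_lit 152) (XT.nd (nat_lit 49764) (nat_lit 0) (nat_lit 380) (XT.nd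 (nat_lit 78) (nat_lit 0) (nat_lit 0) (XT.lf (nat_lit 0) (nat_lit 405522821376) (nat_lit 152) (nat_lit 356242803079) (nat_lit 0) (nat_lit 403342357774) (nat_lit 1) (nat_lit 5) (nat_lit 3) (nat_lit 4) (nat_lit 1) (nat_lit 4) (nat_lit 434) (nat_lit 314) (nat_lit 272)) (XT.nd (nat_lit 49608) (nat_lit 0) (nat_lit 456) (XT.lf (nat_lit 0) (nat_lit 441411387433) (nat_lit 152) (nat_lit 377499347542) (nat_lit 0) (nat_lit 439224287871) (nat_lit 1) (nat_lit 5) (nat_lit 3) (nat_lit 4) (nat_lit 1) (nat_lit 4) (nat_lit 435) (nat_lit 314) (nat_lit 271)) (XT.lf (nat_lit 0) (nat_lit 8529673063) (nat_lit 152) (nat_lit 4690748769) (nat_lit 0) (nat_lit 8529673063) (nat_lit 7) (nat_lit 5) (nat_lit 9) (nat_lit 4) (nat_lit 7) (nat_lit 4) (nat_lit 390) (nat_lit 315) (nat_lit 315)))) (XT.nd (nat_lit 78) (nat_lit 0) (nat_lit 0) (XT.lf (nat_lit 0) (nat_lit 7554739392) (nat_lit 76) (nat_lit 19589148595) (nat_lit 76)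 (nat_lit 19388930268) (nat_lit 6) (nat_lit 4) (nat_lit 7) (nat_lit 5) (nat_lit 7) (nat_lit 4) (nat_lit 391) (nat_lit 315) (nat_lit 314)) (XT.nd (nat_lit 78) (nat_lit 0) (nat_lit 0) (XT.lf (nat_lit 0) (nat_lit 25302187090) (nat_lit 76) (nat_lit 12452758249) (nat_lit 76) (nat_lit 12067152583) (nat_lit 6) (nat_lit 4) (nat_lit 7) (nat_lit 5) (nat_lit 7) (nat_lit 4) (nat_lit 392) (nat_lit 315) (nat_lit 313)) (XT.lf (nat_lit 0) (nat_lit 43655820941) (nat_lit 76) (nat_lit 5148263108) (nat_lit 76) (nat_lit 4591002497) (nat_lit 6) (nat_lit 4) (nat_lit 7) (nat_lit 5) (nat_lit 7) (nat_lit 4) (nat_lit 393) (nat_lit 315) (nat_lit 312))))) (XT.nd (nat_lit 234) (nat_lit 76) (nat_lit 0) (XT.nd (nat_lit 78) (nat_lit 0) (nat_lit 0) (XT.lf (nat_lit 0) (nat_lit 3111454693) (nat_lit 152) (nat_lit 51723419582) (nat_lit 0) (nat_lit 2429359098) (nat_lit 4) (nat_lit 5) (nat_lit 6) (nat_lit 4) (nat_lit 4) (nat_lit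 4) (nat_lit 394) (nat_lit 315) (nat_lit 311)) (XT.nd (nat_lit 78) (nat_lit 0) (nat_lit 0) (XT.lf (nat_lit 0) (nat_lit 11155545375) (nat_lit 152) (nat_lit 39956019605) (nat_lit 0) (nat_lit 10333291260) (nat_lit 4) (nat_lit 5) (nat_lit 6) (nat_lit 4) (nat_lit 4) (nat_lit 4) (nat_lit 395) (nat_lit 315) (nat_lit 310)) (XT.lf (nat_lit 0) (nat_lit 19495840080) (nat_lit 152) (nat_lit 27937665436) (nat_lit 0) (nat_lit 18543809555) (nat_lit 4) (nat_lit 5) (nat_lit 6) (nat_lit 4) (nat_lit 4) (nat_lit 4) (nat_lit 396) (nat_lit 315) (nat_lit 309)))) (XT.nd (nat_lit 156) (nat_lit 76) (nat_lit 0) (XT.nd (nat_lit 78) (nat_lit 0) (nat_lit 0) (XT.lf (nat_lit 0) (nat_lit 28181762775) (nat_lit 152) (nat_lit 15597137200) (nat_lit 0) (nat_lit 27109568909) (nat_lit 4) (nat_lit 5) (nat_lit 6) (nat_lit 4) (nat_lit 4) (nat_lit 4) (nat_lit 397) (nat_lit 315) (nat_lit 308)) (XT.lf (nat_lit 0) (nat_lit 37264785595)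 (nat_lit 152) (nat_lit 2861305840) (nat_lit 0) (nat_lit 36081329376) (nat_lit 4) (nat_lit 5) (nat_lit 6) (nat_lit 4) (nat_lit 4) (nat_lit 4) (nat_lit 398) (nat_lit 315) (nat_lit 307))) (XT.nd (nat_lit 78) (nat_lit 0) (nat_lit 0) (XT.lf (nat_lit 0) (nat_lit 10687362582) (nat_lit 76) (nat_lit 36278230960) (nat_lit 76) (nat_lit 34991754043) (nat_lit 3) (nat_lit 4) (nat_lit 4) (nat_lit 5) (nat_lit 4) (nat_lit 4) (nat_lit 399) (nat_lit 315) (nat_lit 306)) (XT.lf (nat_lit 0) (nat_lit 24897828398) (nat_lit 76) (nat_lit 32331001523) (nat_lit 76) (nat_lit 30949135072) (nat_lit 3) (nat_lit 4) (nat_lit 4) (nat_lit 5) (nat_lit 4) (nat_lit 4) (nat_lit 400) (nat_lit 315) (nat_lit 305))))))))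
noncomputable def xc11 : XT := (XT.nd (nat_lit 1872) (nat_lit 0) (nat_lit 0) (XT.nd (nat_lit 936) (nat_lit 0) (nat_lit 0) (XT.nd (nat_lit 468) (nat_lit 152) (nat_lit 0) (XT.nd (nat_lit 234) (nat_lit 0) (nat_lit 0) (XT.nd (nat_lit 78) (nat_lit 0) (nat_lit 0) (XT.lf (nat_lit 0) (nat_lit 39759694080) (nat_lit 76) (nat_lit 28309469735) (nat_lit 76) (nat_lit 26839279641) (nat_lit 3) (nat_lit 4) (nat_lit 4) (nat_lit 5) (nat_lit 4) (nat_lit 4) (nat_lit 401) (nat_lit 315) (nat_lit 304)) (XT.nd (nat_lit 78) (nat_lit 0) (nat_lit 0) (XT.lf (nat_lit 0) (nat_lit 55361029944) (nat_lit 76) (nat_lit 24189804297) (nat_lit 76) (nat_lit 22637833052) (nat_lit 3) (nat_lit 4) (nat_lit 4) (nat_lit 5) (nat_lit 4) (nat_lit 4) (nat_lit 402) (nat_lit 315) (nat_lit 303)) (XT.lf (nat_lit 0) (nat_lit 71794288351) (nat_lit 76) (nat_lit 19947592377) (nat_lit 76) (nat_lit 18319897844) (nat_lit 3) (nat_lit 4) (nat_lit 4)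 (nat_lit 5) (nat_lit 4) (nat_lit 4) (nat_lit 403) (nat_lit 315) (nat_lit 302)))) (XT.nd (nat_lit 78) (nat_lit 0) (nat_lit 0) (XT.lf (nat_lit 0) (nat_lit 89156851573) (nat_lit 76) (nat_lit 15557694940) (nat_lit 76) (nat_lit 13859886252) (nat_lit 3) (nat_lit 4) (nat_lit 4) (nat_lit 5) (nat_lit 4) (nat_lit 4) (nat_lit 404) (nat_lit 315) (nat_lit 301)) (XT.nd (nat_lit 78) (nat_lit 0) (nat_lit 0) (XT.lf (nat_lit 0) (nat_lit 107551608872) (nat_lit 76) (nat_lit 10994097781) (nat_lit 76) (nat_lit 9231368578) (nat_lit 3) (nat_lit 4) (nat_lit 4) (nat_lit 5) (nat_lit 4) (nat_lit 4) (nat_lit 405) (nat_lit 315) (nat_lit 300)) (XT.lf (nat_lit 0) (nat_lit 127087566219) (nat_lit 76) (nat_lit 6229757359) (nat_lit 76) (nat_lit 4406916569) (nat_lit 3) (nat_lit 4) (nat_lit 4) (nat_lit 5) (nat_lit 4) (nat_lit 4) (nat_lit 406) (nat_lit 315) (nat_lit 299))))) (XT.nd (nat_lit 234) (nat_lit 0) (nat_lit 0) (XT.nd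 (nat_lit 78) (nat_lit 76) (nat_lit 0) (XT.lf (nat_lit 0) (nat_lit 621509217) (nat_lit 152) (nat_lit 604405771) (nat_lit 76) (nat_lit 147248457472) (nat_lit 2) (nat_lit 5) (nat_lit 4) (nat_lit 5) (nat_lit 3) (nat_lit 4) (nat_lit 407) (nat_lit 315) (nat_lit 298)) (XT.nd (nat_lit 78) (nat_lit 0) (nat_lit 0) (XT.lf (nat_lit 0) (nat_lit 5981172007) (nat_lit 152) (nat_lit 149952527884) (nat_lit 0) (nat_lit 4143042802) (nat_lit 1) (nat_lit 5) (nat_lit 3) (nat_lit 4) (nat_lit 1) (nat_lit 4) (nat_lit 408) (nat_lit 315) (nat_lit 297)) (XT.lf (nat_lit 0) (nat_lit 11660562859) (nat_lit 152) (nat_lit 151175211483) (nat_lit 0) (nat_lit 9776987448) (nat_lit 1) (nat_lit 5) (nat_lit 3) (nat_lit 4) (nat_lit 1) (nat_lit 4) (nat_lit 409) (nat_lit 315) (nat_lit 296)))) (XT.nd (nat_lit 78) (nat_lit 0) (nat_lit 0) (XT.lf (nat_lit 0) (nat_lit 17664289162) (nat_lit 152) (nat_lit 152755246588) (nat_lit 0) (nat_lit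 15738633931) (nat_lit 1) (nat_lit 5) (nat_lit 3) (nat_lit 4) (nat_lit 1) (nat_lit 4) (nat_lit 410) (nat_lit 315) (nat_lit 295)) (XT.nd (nat_lit 78) (nat_lit 0) (nat_lit 0) (XT.lf (nat_lit 0) (nat_lit 24027928554) (nat_lit 152) (nat_lit 154701996371) (nat_lit 0) (nat_lit 22063310526) (nat_lit 1) (nat_lit 5) (nat_lit 3) (nat_lit 4) (nat_lit 1) (nat_lit 4) (nat_lit 411) (nat_lit 315) (nat_lit 294)) (XT.lf (nat_lit 0) (nat_lit 30789191490) (nat_lit 152) (nat_lit 157026997126) (nat_lit 0) (nat_lit 28788496799) (nat_lit 1) (nat_lit 5) (nat_lit 3) (nat_lit 4) (nat_lit 1) (nat_lit 4) (nat_lit 412) (nat_lit 315) (nat_lit 293)))))) (XT.nd (nat_lit 468) (nat_lit 0) (nat_lit 0) (XT.nd (nat_lit 234) (nat_lit 0) (nat_lit 0) (XT.nd (nat_lit 78) (nat_lit 0) (nat_lit 0) (XT.lf (nat_lit 0) (nat_lit 37988144714) (nat_lit 152) (nat_lit 159744026637) (nat_lit 0) (nat_lit 35954045705) (nat_lit 1) (nat_lit 5) (nat_lit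 3) (nat_lit 4) (nat_lit 1) (nat_lit 4) (nat_lit 413) (nat_lit 315) (nat_lit 292)) (XT.nd (nat_lit 78) (nat_lit 0) (nat_lit 0) (XT.lf (nat_lit 0) (nat_lit 45667448690) (nat_lit 152) (nat_lit 162869185818) (nat_lit 0) (nat_lit 43602419757) (nat_lit 1) (nat_lit 5) (nat_lit 3) (nat_lit 4) (nat_lit 1) (nat_lit 4) (nat_lit 414) (nat_lit 315) (nat_lit 291)) (XT.lf (nat_lit 0) (nat_lit 53872610403) (nat_lit 152) (nat_lit 166420994132) (nat_lit 0) (nat_lit 51778942651) (nat_lit 1) (nat_lit 5) (nat_lit 3) (nat_lit 4) (nat_lit 1) (nat_lit 4) (nat_lit 415) (nat_lit 315) (nat_lit 290)))) (XT.nd (nat_lit 78) (nat_lit 0) (nat_lit 0) (XT.lf (nat_lit 0) (nat_lit 62652253034) (nat_lit 152) (nat_lit 170420499331) (nat_lit 0) (nat_lit 60532067858) (nat_lit 1) (nat_lit 5) (nat_lit 3) (nat_lit 4) (nat_lit 1) (nat_lit 4) (nat_lit 416) (nat_lit 315) (nat_lit 289)) (XT.nd (nat_lit 78) (nat_lit 0) (nat_lit 0) (XT.lf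 (nat_lit 0) (nat_lit 72058404096) (nat_lit 152) (nat_lit 174891402188) (nat_lit 0) (nat_lit 69913665749) (nat_lit 1) (nat_lit 5) (nat_lit 3) (nat_lit 4) (nat_lit 1) (nat_lit 4) (nat_lit 417) (nat_lit 315) (nat_lit 288)) (XT.lf (nat_lit 0) (nat_lit 82146803742) (nat_lit 152) (nat_lit 179860196940) (nat_lit 0) (nat_lit 79979330978) (nat_lit 1) (nat_lit 5) (nat_lit 3) (nat_lit 4) (nat_lit 1) (nat_lit 4) (nat_lit 418) (nat_lit 315) (nat_lit 287))))) (XT.nd (nat_lit 234) (nat_lit 0) (nat_lit 0) (XT.nd (nat_lit 78) (nat_lit 0) (nat_lit 0) (XT.lf (nat_lit 0) (nat_lit 92977235082) (nat_lit 152) (nat_lit 185356328299) (nat_lit 0) (nat_lit 90788711931) (nat_lit 1) (nat_lit 5) (nat_lit 3) (nat_lit 4) (nat_lit 1) (nat_lit 4) (nat_lit 419) (nat_lit 315) (nat_lit 286)) (XT.nd (nat_lit 78) (nat_lit 0) (nat_lit 0) (XT.lf (nat_lit 0) (nat_lit 104613878450) (nat_lit 152) (nat_lit 191412365930) (nat_lit 0)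 (nat_lit 102405864200) (nat_lit 1) (nat_lit 5) (nat_lit 3) (nat_lit 4) (nat_lit 1) (nat_lit 4) (nat_lit 420) (nat_lit 315) (nat_lit 285)) (XT.lf (nat_lit 0) (nat_lit 117125691732) (nat_lit 152) (nat_lit 198064197465) (nat_lit 0) (nat_lit 114899630168) (nat_lit 1) (nat_lit 5) (nat_lit 3) (nat_lit 4) (nat_lit 1) (nat_lit 4) (nat_lit 421) (nat_lit 315) (nat_lit 284)))) (XT.nd (nat_lit 78) (nat_lit 0) (nat_lit 0) (XT.lf (nat_lit 0) (nat_lit 130586819006) (nat_lit 152) (nat_lit 205351241165) (nat_lit 0) (nat_lit 128344046967) (nat_lit 1) (nat_lit 5) (nat_lit 3) (nat_lit 4) (nat_lit 1) (nat_lit 4) (nat_lit 422) (nat_lit 315) (nat_lit 283)) (XT.nd (nat_lit 78) (nat_lit 0) (nat_lit 0) (XT.lf (nat_lit 0) (nat_lit 145077029917) (nat_lit 152) (nat_lit 213316679510) (nat_lit 0) (nat_lit 142818785216) (nat_lit 1) (nat_lit 5) (nat_lit 3) (nat_lit 4) (nat_lit 1) (nat_lit 4) (nat_lit 423) (nat_lit 315) (nat_lit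 282)) (XT.lf (nat_lit 0) (nat_lit 160682192380) (nat_lit 152) (nat_lit 222007715098) (nat_lit 0) (nat_lit 158409621139) (nat_lit 1) (nat_lit 5) (nat_lit 3) (nat_lit 4) (nat_lit 1) (nat_lit 4) (nat_lit 424) (nat_lit 315) (nat_lit 281))))))) (XT.nd (nat_lit 50310) (nat_lit 0) (nat_lit 152) (XT.nd (nat_lit 468) (nat_lit 0) (nat_lit 0) (XT.nd (nat_lit 234) (nat_lit 0) (nat_lit 0) (XT.nd (nat_lit 78) (nat_lit 0) (nat_lit 0) (XT.lf (nat_lit 0) (nat_lit 177494781433) (nat_lit 152) (nat_lit 231475850363) (nat_lit 0) (nat_lit 175208944877) (nat_lit 1) (nat_lit 5) (nat_lit 3) (nat_lit 4) (nat_lit 1) (nat_lit 4) (nat_lit 425) (nat_lit 315) (nat_lit 280)) (XT.nd (nat_lit 78) (nat_lit 0) (nat_lit 0) (XT.lf (nat_lit 0) (nat_lit 195614427232) (nat_lit 152) (nat_lit 241777192773) (nat_lit 0) (nat_lit 193316307978) (nat_lit 1) (nat_lit 5) (nat_lit 3) (nat_lit 4) (nat_lit 1) (nat_lit 4) (nat_lit 426) (nat_lit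 315) (nat_lit 279)) (XT.lf (nat_lit 0) (nat_lit 215148505457) (nat_lit 152) (nat_lit 252972787319) (nat_lit 0) (nat_lit 212839013334) (nat_lit 1) (nat_lit 5) (nat_lit 3) (nat_lit 4) (nat_lit 1) (nat_lit 4) (nat_lit 427) (nat_lit 315) (nat_lit 278)))) (XT.nd (nat_lit 78) (nat_lit 0) (nat_lit 0) (XT.lf (nat_lit 0) (nat_lit 236212773607) (nat_lit 152) (nat_lit 265128978265) (nat_lit 0) (nat_lit 233892751050) (nat_lit 1) (nat_lit 5) (nat_lit 3) (nat_lit 4) (nat_lit 1) (nat_lit 4) (nat_lit 428) (nat_lit 315) (nat_lit 277)) (XT.nd (nat_lit 78) (nat_lit 0) (nat_lit 0) (XT.lf (nat_lit 0) (nat_lit 258932056977) (nat_lit 152) (nat_lit 278317802300) (nat_lit 0) (nat_lit 256602284018) (nat_lit 1) (nat_lit 5) (nat_lit 3) (nat_lit 4) (nat_lit 1) (nat_lit 4) (nat_lit 429) (nat_lit 315) (nat_lit 276)) (XT.lf (nat_lit 0) (nat_lit 283440988355) (nat_lit 152) (nat_lit 292617415416) (nat_lit 0) (nat_lit 281102187247)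 (nat_lit 1) (nat_lit 5) (nat_lit 3) (nat_lit 4) (nat_lit 1) (nat_lit 4) (nat_lit 430) (nat_lit 315) (nat_lit 275))))) (XT.nd (nat_lit 234) (nat_lit 0) (nat_lit 0) (XT.nd (nat_lit 78) (nat_lit 0) (nat_lit 0) (XT.lf (nat_lit 0) (nat_lit 309884805855) (nat_lit 152) (nat_lit 308112556063) (nat_lit 0) (nat_lit 307537645348) (nat_lit 1) (nat_lit 5) (nat_lit 3) (nat_lit 4) (nat_lit 1) (nat_lit 4) (nat_lit 431) (nat_lit 315) (nat_lit 274)) (XT.nd (nat_lit 78) (nat_lit 0) (nat_lit 0) (XT.lf (nat_lit 0) (nat_lit 338420213579) (nat_lit 152) (nat_lit 324895047295) (nat_lit 0) (nat_lit 336065312889) (nat_lit 1) (nat_lit 5) (nat_lit 3) (nat_lit 4) (nat_lit 1) (nat_lit 4) (nat_lit 432) (nat_lit 315) (nat_lit 273)) (XT.lf (nat_lit 0) (nat_lit 369216310241) (nat_lit 152) (nat_lit 343064340913) (nat_lit 0) (nat_lit 366854242714) (nat_lit 1) (nat_lit 5) (nat_lit 3) (nat_lit 4) (nat_lit 1) (nat_lit 4) (nat_lit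 433) (nat_lit 315) (nat_lit 272)))) (XT.nd (nat_lit 78) (nat_lit 0) (nat_lit 0) (XT.lf (nat_lit 0) (nat_lit 402455591227) (nat_lit 152) (nat_lit 362728106805) (nat_lit 0) (nat_lit 400086887740) (nat_lit 1) (nat_lit 5) (nat_lit 3) (nat_lit 4) (nat_lit 1) (nat_lit 4) (nat_lit 434) (nat_lit 315) (nat_lit 271)) (XT.nd (nat_lit 49452) (nat_lit 0) (nat_lit 608) (XT.lf (nat_lit 0) (nat_lit 438335030055) (nat_lit 152) (nat_lit 384002870991) (nat_lit 0) (nat_lit 435960182161) (nat_lit 1) (nat_lit 5) (nat_lit 3) (nat_lit 4) (nat_lit 1) (nat_lit 4) (nat_lit 435) (nat_lit 315) (nat_lit 270)) (XT.lf (nat_lit 0) (nat_lit 17540925315) (nat_lit 76) (nat_lit 761900027) (nat_lit 76) (nat_lit 761900027) (nat_lit 9) (nat_lit 4) (nat_lit 10) (nat_lit 5) (nat_lit 10) (nat_lit 4) (nat_lit 388) (nat_lit 316) (nat_lit 316)))))) (XT.nd (nat_lit 468) (nat_lit 76) (nat_lit 0) (XT.nd (nat_lit 234) (nat_lit 152) (nat_lit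 0) (XT.nd (nat_lit 78) (nat_lit 76) (nat_lit 0) (XT.lf (nat_lit 0) (nat_lit 7617308183) (nat_lit 152) (nat_lit 25689885183) (nat_lit 0) (nat_lit 7401072390) (nat_lit 7) (nat_lit 5) (nat_lit 9) (nat_lit 4) (nat_lit 7) (nat_lit 4) (nat_lit 389) (nat_lit 316) (nat_lit 315)) (XT.nd (nat_lit 78) (nat_lit 76) (nat_lit 0) (XT.lf (nat_lit 0) (nat_lit 17052339406) (nat_lit 152) (nat_lit 9823142041) (nat_lit 0) (nat_lit 16635885286) (nat_lit 7) (nat_lit 5) (nat_lit 9) (nat_lit 4) (nat_lit 7) (nat_lit 4) (nat_lit 390) (nat_lit 316) (nat_lit 314)) (XT.lf (nat_lit 0) (nat_lit 6676040954) (nat_lit 76) (nat_lit 20240415334) (nat_lit 76) (nat_lit 19638573875) (nat_lit 6) (nat_lit 4) (nat_lit 7) (nat_lit 5) (nat_lit 7) (nat_lit 4) (nat_lit 391) (nat_lit 316) (nat_lit 313)))) (XT.nd (nat_lit 78) (nat_lit 152) (nat_lit 0) (XT.lf (nat_lit 0) (nat_lit 24032330161) (nat_lit 76) (nat_lit 13297681927) (nat_lit 76)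 (nat_lit 12524185523) (nat_lit 6) (nat_lit 4) (nat_lit 7) (nat_lit 5) (nat_lit 7) (nat_lit 4) (nat_lit 392) (nat_lit 316) (nat_lit 312)) (XT.nd (nat_lit 78) (nat_lit 152) (nat_lit 0) (XT.lf (nat_lit 0) (nat_lit 42023780222) (nat_lit 76) (nat_lit 6172498765) (nat_lit 76) (nat_lit 5240062598) (nat_lit 6) (nat_lit 4) (nat_lit 7) (nat_lit 5) (nat_lit 7) (nat_lit 4) (nat_lit 393) (nat_lit 316) (nat_lit 311)) (XT.lf (nat_lit 0) (nat_lit 2259405392) (nat_lit 152) (nat_lit 53826575808) (nat_lit 0) (nat_lit 1231212426) (nat_lit 4) (nat_lit 5) (nat_lit 6) (nat_lit 4) (nat_lit 4) (nat_lit 4) (nat_lit 394) (nat_lit 316) (nat_lit 310))))) (XT.nd (nat_lit 234) (nat_lit 76) (nat_lit 0) (XT.nd (nat_lit 78) (nat_lit 0) (nat_lit 0) (XT.lf (nat_lit 0) (nat_lit 10136513751) (nat_lit 152) (nat_lit 42391117084) (nat_lit 0) (nat_lit 8978544376) (nat_lit 4) (nat_lit 5) (nat_lit 6) (nat_lit 4) (nat_lit 4) (nat_lit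 4) (nat_lit 395) (nat_lit 316) (nat_lit 309)) (XT.nd (nat_lit 78) (nat_lit 0) (nat_lit 0) (XT.lf (nat_lit 0) (nat_lit 18322195194) (nat_lit 152) (nat_lit 30680115928) (nat_lit 0) (nat_lit 17044062477) (nat_lit 4) (nat_lit 5) (nat_lit 6) (nat_lit 4) (nat_lit 4) (nat_lit 4) (nat_lit 396) (nat_lit 316) (nat_lit 308)) (XT.lf (nat_lit 0) (nat_lit 26864957461) (nat_lit 152) (nat_lit 18624173815) (nat_lit 0) (nat_lit 25475562391) (nat_lit 4) (nat_lit 5) (nat_lit 6) (nat_lit 4) (nat_lit 4) (nat_lit 4) (nat_lit 397) (nat_lit 316) (nat_lit 307)))) (XT.nd (nat_lit 156) (nat_lit 0) (nat_lit 0) (XT.nd (nat_lit 78) (nat_lit 76) (nat_lit 0) (XT.lf (nat_lit 0) (nat_lit 35815424329) (nat_lit 152) (nat_lit 6151848124) (nat_lit 0) (nat_lit 34323008562) (nat_lit 4) (nat_lit 5) (nat_lit 6) (nat_lit 4) (nat_lit 4) (nat_lit 4) (nat_lit 398) (nat_lit 316) (nat_lit 306)) (XT.lf (nat_lit 0) (nat_lit 7035966076) (nat_lit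 76) (nat_lit 38300520674) (nat_lit 76) (nat_lit 36712715372) (nat_lit 3) (nat_lit 4) (nat_lit 4) (nat_lit 5) (nat_lit 4) (nat_lit 4) (nat_lit 399) (nat_lit 316) (nat_lit 305))) (XT.nd (nat_lit 78) (nat_lit 0) (nat_lit 0) (XT.lf (nat_lit 0) (nat_lit 21013048527) (nat_lit 76) (nat_lit 34469385470) (nat_lit 76) (nat_lit 32793256525) (nat_lit 3) (nat_lit 4) (nat_lit 4) (nat_lit 5) (nat_lit 4) (nat_lit 4) (nat_lit 400) (nat_lit 316) (nat_lit 304)) (XT.lf (nat_lit 0) (nat_lit 35658818502) (nat_lit 76) (nat_lit 30555348342) (nat_lit 76) (nat_lit 28797438246) (nat_lit 3) (nat_lit 4) (nat_lit 4) (nat_lit 5) (nat_lit 4) (nat_lit 4) (nat_lit 401) (nat_lit 316) (nat_lit 303))))))))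
noncomputable def xc12 : XT := (XT.nd (nat_lit 1872) (nat_lit 0) (nat_lit 0) (XT.nd (nat_lit 936) (nat_lit 0) (nat_lit 0) (XT.nd (nat_lit 468) (nat_lit 152) (nat_lit 0) (XT.nd (nat_lit 234) (nat_lit 0) (nat_lit 0) (XT.nd (nat_lit 78) (nat_lit 0) (nat_lit 0) (XT.lf (nat_lit 0) (nat_lit 51060065747) (nat_lit 76) (nat_lit 26535214997) (nat_lit 76) (nat_lit 24701581613) (nat_lit 3) (nat_lit 4) (nat_lit 4) (nat_lit 5) (nat_lit 4) (nat_lit 4) (nat_lit 402) (nat_lit 316) (nat_lit 302)) (XT.nd (nat_lit 78) (nat_lit 0) (nat_lit 0) (XT.lf (nat_lit 0) (nat_lit 67308056915) (nat_lit 76) (nat_lit 22385162421) (nat_lit 76) (nat_lit 20481414882) (nat_lit 3) (nat_lit 4) (nat_lit 4) (nat_lit 5) (nat_lit 4) (nat_lit 4) (nat_lit 403) (nat_lit 316) (nat_lit 301)) (XT.lf (nat_lit 0) (nat_lit 84499076396) (nat_lit 76) (nat_lit 18080597712) (nat_lit 76) (nat_lit 16111929658) (nat_lit 3) (nat_lit 4) (nat_lit 4)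 (nat_lit 5) (nat_lit 4) (nat_lit 4) (nat_lit 404) (nat_lit 316) (nat_lit 300)))) (XT.nd (nat_lit 78) (nat_lit 0) (nat_lit 0) (XT.lf (nat_lit 0) (nat_lit 102734996899) (nat_lit 76) (nat_lit 13596012336) (nat_lit 76) (nat_lit 11567232695) (nat_lit 3) (nat_lit 4) (nat_lit 4) (nat_lit 5) (nat_lit 4) (nat_lit 4) (nat_lit 405) (nat_lit 316) (nat_lit 299)) (XT.nd (nat_lit 78) (nat_lit 0) (nat_lit 0) (XT.lf (nat_lit 0) (nat_lit 122123883138) (nat_lit 76) (nat_lit 8904830974) (nat_lit 76) (nat_lit 6820392456) (nat_lit 3) (nat_lit 4) (nat_lit 4) (nat_lit 5) (nat_lit 4) (nat_lit 4) (nat_lit 406) (nat_lit 316) (nat_lit 298)) (XT.lf (nat_lit 0) (nat_lit 142780632216) (nat_lit 76) (nat_lit 3979254033) (nat_lit 76) (nat_lit 1843279517) (nat_lit 3) (nat_lit 4) (nat_lit 4) (nat_lit 5) (nat_lit 4) (nat_lit 4) (nat_lit 407) (nat_lit 316) (nat_lit 297))))) (XT.nd (nat_lit 234) (nat_lit 0) (nat_lit 0) (XT.nd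 (nat_lit 78) (nat_lit 0) (nat_lit 0) (XT.lf (nat_lit 0) (nat_lit 3379341099) (nat_lit 152) (nat_lit 155537805684) (nat_lit 0) (nat_lit 1299633449) (nat_lit 1) (nat_lit 5) (nat_lit 3) (nat_lit 4) (nat_lit 1) (nat_lit 4) (nat_lit 408) (nat_lit 316) (nat_lit 296)) (XT.nd (nat_lit 78) (nat_lit 0) (nat_lit 0) (XT.lf (nat_lit 0) (nat_lit 8996224346) (nat_lit 152) (nat_lit 156885266599) (nat_lit 0) (nat_lit 6874436876) (nat_lit 1) (nat_lit 5) (nat_lit 3) (nat_lit 4) (nat_lit 1) (nat_lit 4) (nat_lit 409) (nat_lit 316) (nat_lit 295)) (XT.lf (nat_lit 0) (nat_lit 14942073238) (nat_lit 152) (nat_lit 158580836257) (nat_lit 0) (nat_lit 12781322972) (nat_lit 1) (nat_lit 5) (nat_lit 3) (nat_lit 4) (nat_lit 1) (nat_lit 4) (nat_lit 410) (nat_lit 316) (nat_lit 294)))) (XT.nd (nat_lit 78) (nat_lit 0) (nat_lit 0) (XT.lf (nat_lit 0) (nat_lit 21252122434) (nat_lit 152) (nat_lit 160634562477) (nat_lit 0) (nat_lit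 19055295505) (nat_lit 1) (nat_lit 5) (nat_lit 3) (nat_lit 4) (nat_lit 1) (nat_lit 4) (nat_lit 411) (nat_lit 316) (nat_lit 293)) (XT.nd (nat_lit 78) (nat_lit 0) (nat_lit 0) (XT.lf (nat_lit 0) (nat_lit 27963764819) (nat_lit 152) (nat_lit 163058615490) (nat_lit 0) (nat_lit 25733533571) (nat_lit 1) (nat_lit 5) (nat_lit 3) (nat_lit 4) (nat_lit 1) (nat_lit 4) (nat_lit 412) (nat_lit 316) (nat_lit 292)) (XT.lf (nat_lit 0) (nat_lit 35116773088) (nat_lit 152) (nat_lit 165867360054) (nat_lit 0) (nat_lit 32855611916) (nat_lit 1) (nat_lit 5) (nat_lit 3) (nat_lit 4) (nat_lit 1) (nat_lit 4) (nat_lit 413) (nat_lit 316) (nat_lit 291)))))) (XT.nd (nat_lit 468) (nat_lit 0) (nat_lit 0) (XT.nd (nat_lit 234) (nat_lit 0) (nat_lit 0) (XT.nd (nat_lit 78) (nat_lit 0) (nat_lit 0) (XT.lf (nat_lit 0) (nat_lit 42753535438) (nat_lit 152) (nat_lit 169077440580) (nat_lit 0) (nat_lit 40463735448) (nat_lit 1) (nat_lit 5) (nat_lit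 3) (nat_lit 4) (nat_lit 1) (nat_lit 4) (nat_lit 414) (nat_lit 316) (nat_lit 290)) (XT.nd (nat_lit 78) (nat_lit 0) (nat_lit 0) (XT.lf (nat_lit 0) (nat_lit 50919306758) (nat_lit 152) (nat_lit 172707879769) (nat_lit 0) (nat_lit 48602989343) (nat_lit 1) (nat_lit 5) (nat_lit 3) (nat_lit 4) (nat_lit 1) (nat_lit 4) (nat_lit 415) (nat_lit 316) (nat_lit 289)) (XT.lf (nat_lit 0) (nat_lit 59662476802) (nat_lit 152) (nat_lit 176780191334) (nat_lit 0) (nat_lit 57321606217) (nat_lit 1) (nat_lit 5) (nat_lit 3) (nat_lit 4) (nat_lit 1) (nat_lit 4) (nat_lit 416) (nat_lit 316) (nat_lit 288)))) (XT.nd (nat_lit 78) (nat_lit 0) (nat_lit 0) (XT.lf (nat_lit 0) (nat_lit 69034856951) (nat_lit 152) (nat_lit 181318507493) (nat_lit 0) (nat_lit 66671251947) (nat_lit 1) (nat_lit 5) (nat_lit 3) (nat_lit 4) (nat_lit 1) (nat_lit 4) (nat_lit 417) (nat_lit 316) (nat_lit 287)) (XT.nd (nat_lit 78) (nat_lit 0) (nat_lit 0) (XT.lf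 (nat_lit 0) (nat_lit 79091987232) (nat_lit 152) (nat_lit 186349721969) (nat_lit 0) (nat_lit 76707331843) (nat_lit 1) (nat_lit 5) (nat_lit 3) (nat_lit 4) (nat_lit 1) (nat_lit 4) (nat_lit 418) (nat_lit 316) (nat_lit 286)) (XT.lf (nat_lit 0) (nat_lit 89893465457) (nat_lit 152) (nat_lit 191903649368) (nat_lit 0) (nat_lit 87489318969) (nat_lit 1) (nat_lit 5) (nat_lit 3) (nat_lit 4) (nat_lit 1) (nat_lit 4) (nat_lit 419) (nat_lit 316) (nat_lit 285))))) (XT.nd (nat_lit 234) (nat_lit 0) (nat_lit 0) (XT.nd (nat_lit 78) (nat_lit 0) (nat_lit 0) (XT.lf (nat_lit 0) (nat_lit 101503300385) (nat_lit 152) (nat_lit 198013201852) (nat_lit 0) (nat_lit 99081106583) (nat_lit 1) (nat_lit 5) (nat_lit 3) (nat_lit 4) (nat_lit 1) (nat_lit 4) (nat_lit 420) (nat_lit 316) (nat_lit 284)) (XT.nd (nat_lit 78) (nat_lit 0) (nat_lit 0) (XT.lf (nat_lit 0) (nat_lit 113990291037) (nat_lit 152) (nat_lit 204714584176) (nat_lit 0)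 (nat_lit 111551386759) (nat_lit 1) (nat_lit 5) (nat_lit 3) (nat_lit 4) (nat_lit 1) (nat_lit 4) (nat_lit 421) (nat_lit 316) (nat_lit 283)) (XT.lf (nat_lit 0) (nat_lit 127428434395) (nat_lit 152) (nat_lit 212047508236) (nat_lit 0) (nat_lit 124974057455) (nat_lit 1) (nat_lit 5) (nat_lit 3) (nat_lit 4) (nat_lit 1) (nat_lit 4) (nat_lit 422) (nat_lit 316) (nat_lit 282)))) (XT.nd (nat_lit 78) (nat_lit 0) (nat_lit 0) (XT.lf (nat_lit 0) (nat_lit 141897363902) (nat_lit 152) (nat_lit 220055428396) (nat_lit 0) (nat_lit 139428660422) (nat_lit 1) (nat_lit 5) (nat_lit 3) (nat_lit 4) (nat_lit 1) (nat_lit 4) (nat_lit 423) (nat_lit 316) (nat_lit 281)) (XT.nd (nat_lit 78) (nat_lit 0) (nat_lit 0) (XT.lf (nat_lit 0) (nat_lit 157482821362) (nat_lit 152) (nat_lit 228785798999) (nat_lit 0) (nat_lit 155000852568) (nat_lit 1) (nat_lit 5) (nat_lit 3) (nat_lit 4) (nat_lit 1) (nat_lit 4) (nat_lit 424) (nat_lit 316) (nat_lit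 280)) (XT.lf (nat_lit 0) (nat_lit 174277165040) (nat_lit 152) (nat_lit 238290355573) (nat_lit 0) (nat_lit 171782913548) (nat_lit 1) (nat_lit 5) (nat_lit 3) (nat_lit 4) (nat_lit 1) (nat_lit 4) (nat_lit 425) (nat_lit 316) (nat_lit 279))))))) (XT.nd (nat_lit 50154) (nat_lit 0) (nat_lit 152) (XT.nd (nat_lit 468) (nat_lit 0) (nat_lit 0) (XT.nd (nat_lit 234) (nat_lit 0) (nat_lit 0) (XT.nd (nat_lit 78) (nat_lit 0) (nat_lit 0) (XT.lf (nat_lit 0) (nat_lit 192379916975) (nat_lit 152) (nat_lit 248625421417) (nat_lit 0) (nat_lit 189874292613) (nat_lit 1) (nat_lit 5) (nat_lit 3) (nat_lit 4) (nat_lit 1) (nat_lit 4) (nat_lit 426) (nat_lit 316) (nat_lit 278)) (XT.nd (nat_lit 78) (nat_lit 0) (nat_lit 0) (XT.lf (nat_lit 0) (nat_lit 211898352732) (nat_lit 152) (nat_lit 259852241366) (nat_lit 0) (nat_lit 209382197937) (nat_lit 1) (nat_lit 5) (nat_lit 3) (nat_lit 4) (nat_lit 1) (nat_lit 4) (nat_lit 427) (nat_lit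 316) (nat_lit 277)) (XT.lf (nat_lit 0) (nat_lit 232948137117) (nat_lit 152) (nat_lit 272037344722) (nat_lit 0) (nat_lit 230422231919) (nat_lit 1) (nat_lit 5) (nat_lit 3) (nat_lit 4) (nat_lit 1) (nat_lit 4) (nat_lit 428) (nat_lit 316) (nat_lit 276)))) (XT.nd (nat_lit 78) (nat_lit 0) (nat_lit 0) (XT.lf (nat_lit 0) (nat_lit 255654009592) (nat_lit 152) (nat_lit 285252939506) (nat_lit 0) (nat_lit 253119076244) (nat_lit 1) (nat_lit 5) (nat_lit 3) (nat_lit 4) (nat_lit 1) (nat_lit 4) (nat_lit 429) (nat_lit 316) (nat_lit 275)) (XT.nd (nat_lit 78) (nat_lit 0) (nat_lit 0) (XT.lf (nat_lit 0) (nat_lit 280150523476) (nat_lit 152) (nat_lit 299577340354) (nat_lit 0) (nat_lit 277607230730) (nat_lit 1) (nat_lit 5) (nat_lit 3) (nat_lit 4) (nat_lit 1) (nat_lit 4) (nat_lit 430) (nat_lit 316) (nat_lit 274)) (XT.lf (nat_lit 0) (nat_lit 306582843295) (nat_lit 152) (nat_lit 315095432603) (nat_lit 0) (nat_lit 304031810366)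 (nat_lit 1) (nat_lit 5) (nat_lit 3) (nat_lit 4) (nat_lit 1) (nat_lit 4) (nat_lit 431) (nat_lit 316) (nat_lit 273))))) (XT.nd (nat_lit 234) (nat_lit 0) (nat_lit 0) (XT.nd (nat_lit 78) (nat_lit 0) (nat_lit 0) (XT.lf (nat_lit 0) (nat_lit 335107605019) (nat_lit 152) (nat_lit 331899175320) (nat_lit 0) (nat_lit 332549405253) (nat_lit 1) (nat_lit 5) (nat_lit 3) (nat_lit 4) (nat_lit 1) (nat_lit 4) (nat_lit 432) (nat_lit 316) (nat_lit 272)) (XT.nd (nat_lit 78) (nat_lit 0) (nat_lit 0) (XT.lf (nat_lit 0) (nat_lit 365893844273) (nat_lit 152) (nat_lit 350088146238) (nat_lit 0) (nat_lit 363329008547) (nat_lit 1) (nat_lit 5) (nat_lit 3) (nat_lit 4) (nat_lit 1) (nat_lit 4) (nat_lit 433) (nat_lit 316) (nat_lit 271)) (XT.lf (nat_lit 0) (nat_lit 399123998029) (nat_lit 152) (nat_lit 369770131852) (nat_lit 0) (nat_lit 396553017897) (nat_lit 1) (nat_lit 5) (nat_lit 3) (nat_lit 4) (nat_lit 1) (nat_lit 4) (nat_lit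 434) (nat_lit 316) (nat_lit 270)))) (XT.nd (nat_lit 49296) (nat_lit 0) (nat_lit 608) (XT.lf (nat_lit 0) (nat_lit 434994985719) (nat_lit 152) (nat_lit 391061766152) (nat_lit 0) (nat_lit 432418316321) (nat_lit 1) (nat_lit 5) (nat_lit 3) (nat_lit 4) (nat_lit 1) (nat_lit 4) (nat_lit 435) (nat_lit 316) (nat_lit 269)) (XT.nd (nat_lit 78) (nat_lit 76) (nat_lit 0) (XT.lf (nat_lit 0) (nat_lit 7551352225) (nat_lit 152) (nat_lit 1666936720) (nat_lit 0) (nat_lit 7551352225) (nat_lit 10) (nat_lit 5) (nat_lit 12) (nat_lit 4) (nat_lit 10) (nat_lit 4) (nat_lit 386) (nat_lit 317) (nat_lit 317)) (XT.lf (nat_lit 0) (nat_lit 15309600268) (nat_lit 76) (nat_lit 10338606794) (nat_lit 76) (nat_lit 10093395405) (nat_lit 9) (nat_lit 4) (nat_lit 10) (nat_lit 5) (nat_lit 10) (nat_lit 4) (nat_lit 387) (nat_lit 317) (nat_lit 316)))))) (XT.nd (nat_lit 468) (nat_lit 228) (nat_lit 0) (XT.nd (nat_lit 234) (nat_lit 76) (nat_lit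 0) (XT.nd (nat_lit 78) (nat_lit 152) (nat_lit 0) (XT.lf (nat_lit 0) (nat_lit 34635783235) (nat_lit 76) (nat_lit 1988632790) (nat_lit 76) (nat_lit 1516373818) (nat_lit 9) (nat_lit 4) (nat_lit 10) (nat_lit 5) (nat_lit 10) (nat_lit 4) (nat_lit 388) (nat_lit 317) (nat_lit 315)) (XT.nd (nat_lit 78) (nat_lit 0) (nat_lit 0) (XT.lf (nat_lit 0) (nat_lit 7386498410) (nat_lit 152) (nat_lit 26608505751) (nat_lit 0) (nat_lit 6736509633) (nat_lit 7) (nat_lit 5) (nat_lit 9) (nat_lit 4) (nat_lit 7) (nat_lit 4) (nat_lit 389) (nat_lit 317) (nat_lit 314)) (XT.lf (nat_lit 0) (nat_lit 16614823601) (nat_lit 152) (nat_lit 11150692705) (nat_lit 0) (nat_lit 15779447485) (nat_lit 7) (nat_lit 5) (nat_lit 9) (nat_lit 4) (nat_lit 7) (nat_lit 4) (nat_lit 390) (nat_lit 317) (nat_lit 313)))) (XT.nd (nat_lit 78) (nat_lit 0) (nat_lit 0) (XT.lf (nat_lit 0) (nat_lit 4913436978) (nat_lit 76) (nat_lit 21346589845) (nat_lit 76)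 (nat_lit 20339558784) (nat_lit 6) (nat_lit 4) (nat_lit 7) (nat_lit 5) (nat_lit 7) (nat_lit 4) (nat_lit 391) (nat_lit 317) (nat_lit 312)) (XT.nd (nat_lit 78) (nat_lit 0) (nat_lit 0) (XT.lf (nat_lit 0) (nat_lit 21907542395) (nat_lit 76) (nat_lit 14583168417) (nat_lit 76) (nat_lit 13417197593) (nat_lit 6) (nat_lit 4) (nat_lit 7) (nat_lit 5) (nat_lit 7) (nat_lit 4) (nat_lit 392) (nat_lit 317) (nat_lit 311)) (XT.lf (nat_lit 0) (nat_lit 39563637096) (nat_lit 76) (nat_lit 7624014866) (nat_lit 76) (nat_lit 6310877595) (nat_lit 6) (nat_lit 4) (nat_lit 7) (nat_lit 5) (nat_lit 7) (nat_lit 4) (nat_lit 393) (nat_lit 317) (nat_lit 310))))) (XT.nd (nat_lit 234) (nat_lit 76) (nat_lit 0) (XT.nd (nat_lit 78) (nat_lit 0) (nat_lit 0) (XT.lf (nat_lit 0) (nat_lit 596774816) (nat_lit 76) (nat_lit 401360460) (nat_lit 152) (nat_lit 56393328241) (nat_lit 4) (nat_lit 5) (nat_lit 5) (nat_lit 5) (nat_lit 6) (nat_lit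 4) (nat_lit 394) (nat_lit 317) (nat_lit 309)) (XT.nd (nat_lit 78) (nat_lit 0) (nat_lit 0) (XT.lf (nat_lit 0) (nat_lit 8714364012) (nat_lit 152) (nat_lit 45660316628) (nat_lit 0) (nat_lit 7213817336) (nat_lit 4) (nat_lit 5) (nat_lit 6) (nat_lit 4) (nat_lit 4) (nat_lit 4) (nat_lit 395) (nat_lit 317) (nat_lit 308)) (XT.lf (nat_lit 0) (nat_lit 16756885026) (nat_lit 152) (nat_lit 34233901595) (nat_lit 0) (nat_lit 15145075997) (nat_lit 4) (nat_lit 5) (nat_lit 6) (nat_lit 4) (nat_lit 4) (nat_lit 4) (nat_lit 396) (nat_lit 317) (nat_lit 307)))) (XT.nd (nat_lit 156) (nat_lit 76) (nat_lit 0) (XT.nd (nat_lit 78) (nat_lit 0) (nat_lit 0) (XT.lf (nat_lit 0) (nat_lit 25167091341) (nat_lit 152) (nat_lit 22441465150) (nat_lit 0) (nat_lit 23452261615) (nat_lit 4) (nat_lit 5) (nat_lit 6) (nat_lit 4) (nat_lit 4) (nat_lit 4) (nat_lit 397) (nat_lit 317) (nat_lit 306)) (XT.lf (nat_lit 0) (nat_lit 33994821216) (nat_lit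 152) (nat_lit 10213126190) (nat_lit 0) (nat_lit 32184601956) (nat_lit 4) (nat_lit 5) (nat_lit 6) (nat_lit 4) (nat_lit 4) (nat_lit 4) (nat_lit 398) (nat_lit 317) (nat_lit 305))) (XT.nd (nat_lit 78) (nat_lit 0) (nat_lit 0) (XT.lf (nat_lit 0) (nat_lit 2607020451) (nat_lit 76) (nat_lit 40726069570) (nat_lit 76) (nat_lit 38827526666) (nat_lit 3) (nat_lit 4) (nat_lit 4) (nat_lit 5) (nat_lit 4) (nat_lit 4) (nat_lit 399) (nat_lit 317) (nat_lit 304)) (XT.lf (nat_lit 0) (nat_lit 16368007194) (nat_lit 76) (nat_lit 37002429025) (nat_lit 76) (nat_lit 35022104971) (nat_lit 3) (nat_lit 4) (nat_lit 4) (nat_lit 5) (nat_lit 4) (nat_lit 4) (nat_lit 400) (nat_lit 317) (nat_lit 303))))))))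
noncomputable def xc13 : XT := (XT.nd (nat_lit 1872) (nat_lit 0) (nat_lit 0) (XT.nd (nat_lit 936) (nat_lit 0) (nat_lit 0) (XT.nd (nat_lit 468) (nat_lit 152) (nat_lit 0) (XT.nd (nat_lit 234) (nat_lit 0) (nat_lit 0) (XT.nd (nat_lit 78) (nat_lit 0) (nat_lit 0) (XT.lf (nat_lit 0) (nat_lit 30813688550) (nat_lit 76) (nat_lit 33187923990) (nat_lit 76) (nat_lit 31131876648) (nat_lit 3) (nat_lit 4) (nat_lit 4) (nat_lit 5) (nat_lit 4) (nat_lit 4) (nat_lit 401) (nat_lit 317) (nat_lit 302)) (XT.nd (nat_lit 78) (nat_lit 0) (nat_lit 0) (XT.lf (nat_lit 0) (nat_lit 46029668556) (nat_lit 76) (nat_lit 29259949990) (nat_lit 76) (nat_lit 27133788492) (nat_lit 3) (nat_lit 4) (nat_lit 4) (nat_lit 5) (nat_lit 4) (nat_lit 4) (nat_lit 402) (nat_lit 317) (nat_lit 301)) (XT.lf (nat_lit 0) (nat_lit 62106115983) (nat_lit 76) (nat_lit 25195230141) (nat_lit 76) (nat_lit 23004148129) (nat_lit 3) (nat_lit 4) (nat_lit 4)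 (nat_lit 5) (nat_lit 4) (nat_lit 4) (nat_lit 403) (nat_lit 317) (nat_lit 300)))) (XT.nd (nat_lit 78) (nat_lit 0) (nat_lit 0) (XT.lf (nat_lit 0) (nat_lit 79138298668) (nat_lit 76) (nat_lit 20969677216) (nat_lit 76) (nat_lit 18718483616) (nat_lit 3) (nat_lit 4) (nat_lit 4) (nat_lit 5) (nat_lit 4) (nat_lit 4) (nat_lit 404) (nat_lit 317) (nat_lit 299)) (XT.nd (nat_lit 78) (nat_lit 0) (nat_lit 0) (XT.lf (nat_lit 0) (nat_lit 97227148063) (nat_lit 76) (nat_lit 16558250900) (nat_lit 76) (nat_lit 14251398423) (nat_lit 3) (nat_lit 4) (nat_lit 4) (nat_lit 5) (nat_lit 4) (nat_lit 4) (nat_lit 405) (nat_lit 317) (nat_lit 298)) (XT.lf (nat_lit 0) (nat_lit 116479857351) (nat_lit 76) (nat_lit 11934809408) (nat_lit 76) (nat_lit 9576420933) (nat_lit 3) (nat_lit 4) (nat_lit 4) (nat_lit 5) (nat_lit 4) (nat_lit 4) (nat_lit 406) (nat_lit 317) (nat_lit 297))))) (XT.nd (nat_lit 234) (nat_lit 0) (nat_lit 0) (XT.nd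 (nat_lit 78) (nat_lit 152) (nat_lit 0) (XT.lf (nat_lit 0) (nat_lit 137010516659) (nat_lit 76) (nat_lit 7071954567) (nat_lit 76) (nat_lit 4665847577) (nat_lit 3) (nat_lit 4) (nat_lit 4) (nat_lit 5) (nat_lit 4) (nat_lit 4) (nat_lit 407) (nat_lit 317) (nat_lit 296)) (XT.nd (nat_lit 78) (nat_lit 76) (nat_lit 0) (XT.lf (nat_lit 0) (nat_lit 493116675) (nat_lit 152) (nat_lit 1439401617) (nat_lit 76) (nat_lit 158439321310) (nat_lit 2) (nat_lit 5) (nat_lit 4) (nat_lit 5) (nat_lit 3) (nat_lit 4) (nat_lit 408) (nat_lit 317) (nat_lit 295)) (XT.lf (nat_lit 0) (nat_lit 5998353737) (nat_lit 152) (nat_lit 163292437995) (nat_lit 0) (nat_lit 3625780653) (nat_lit 1) (nat_lit 5) (nat_lit 3) (nat_lit 4) (nat_lit 1) (nat_lit 4) (nat_lit 409) (nat_lit 317) (nat_lit 294)))) (XT.nd (nat_lit 78) (nat_lit 0) (nat_lit 0) (XT.lf (nat_lit 0) (nat_lit 11890612433) (nat_lit 152) (nat_lit 165094984090) (nat_lit 0) (nat_lit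 9481962686) (nat_lit 1) (nat_lit 5) (nat_lit 3) (nat_lit 4) (nat_lit 1) (nat_lit 4) (nat_lit 410) (nat_lit 317) (nat_lit 293)) (XT.nd (nat_lit 78) (nat_lit 0) (nat_lit 0) (XT.lf (nat_lit 0) (nat_lit 18151041078) (nat_lit 152) (nat_lit 167247762567) (nat_lit 0) (nat_lit 15708987012) (nat_lit 1) (nat_lit 5) (nat_lit 3) (nat_lit 4) (nat_lit 1) (nat_lit 4) (nat_lit 411) (nat_lit 317) (nat_lit 292)) (XT.lf (nat_lit 0) (nat_lit 24816738507) (nat_lit 152) (nat_lit 169763530633) (nat_lit 0) (nat_lit 22343754518) (nat_lit 1) (nat_lit 5) (nat_lit 3) (nat_lit 4) (nat_lit 1) (nat_lit 4) (nat_lit 412) (nat_lit 317) (nat_lit 291)))))) (XT.nd (nat_lit 468) (nat_lit 0) (nat_lit 0) (XT.nd (nat_lit 234) (nat_lit 0) (nat_lit 0) (XT.nd (nat_lit 78) (nat_lit 0) (nat_lit 0) (XT.lf (nat_lit 0) (nat_lit 31927205151) (nat_lit 152) (nat_lit 172657196542) (nat_lit 0) (nat_lit 29425582343) (nat_lit 1) (nat_lit 5) (nat_lit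 3) (nat_lit 4) (nat_lit 1) (nat_lit 4) (nat_lit 413) (nat_lit 317) (nat_lit 290)) (XT.nd (nat_lit 78) (nat_lit 0) (nat_lit 0) (XT.lf (nat_lit 0) (nat_lit 39524577108) (nat_lit 152) (nat_lit 175945907943) (nat_lit 0) (nat_lit 36996436875) (nat_lit 1) (nat_lit 5) (nat_lit 3) (nat_lit 4) (nat_lit 1) (nat_lit 4) (nat_lit 414) (nat_lit 317) (nat_lit 289)) (XT.lf (nat_lit 0) (nat_lit 47653875841) (nat_lit 152) (nat_lit 179649153498) (nat_lit 0) (nat_lit 45101182437) (nat_lit 1) (nat_lit 5) (nat_lit 3) (nat_lit 4) (nat_lit 1) (nat_lit 4) (nat_lit 415) (nat_lit 317) (nat_lit 288)))) (XT.nd (nat_lit 78) (nat_lit 0) (nat_lit 0) (XT.lf (nat_lit 0) (nat_lit 56363274972) (nat_lit 152) (nat_lit 183788878365) (nat_lit 0) (nat_lit 53787847151) (nat_lit 1) (nat_lit 5) (nat_lit 3) (nat_lit 4) (nat_lit 1) (nat_lit 4) (nat_lit 416) (nat_lit 317) (nat_lit 287)) (XT.nd (nat_lit 78) (nat_lit 0) (nat_lit 0) (XT.lf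 (nat_lit 0) (nat_lit 65704385755) (nat_lit 152) (nat_lit 188389614247) (nat_lit 0) (nat_lit 63107907548) (nat_lit 1) (nat_lit 5) (nat_lit 3) (nat_lit 4) (nat_lit 1) (nat_lit 4) (nat_lit 417) (nat_lit 317) (nat_lit 286)) (XT.lf (nat_lit 0) (nat_lit 75732562922) (nat_lit 152) (nat_lit 193478624764) (nat_lit 0) (nat_lit 73116593616) (nat_lit 1) (nat_lit 5) (nat_lit 3) (nat_lit 4) (nat_lit 1) (nat_lit 4) (nat_lit 418) (nat_lit 317) (nat_lit 285))))) (XT.nd (nat_lit 234) (nat_lit 0) (nat_lit 0) (XT.nd (nat_lit 78) (nat_lit 0) (nat_lit 0) (XT.lf (nat_lit 0) (nat_lit 86507232707) (nat_lit 152) (nat_lit 199086067016) (nat_lit 0) (nat_lit 83873216087) (nat_lit 1) (nat_lit 5) (nat_lit 3) (nat_lit 4) (nat_lit 1) (nat_lit 4) (nat_lit 419) (nat_lit 317) (nat_lit 284)) (XT.nd (nat_lit 78) (nat_lit 0) (nat_lit 0) (XT.lf (nat_lit 0) (nat_lit 98092245005) (nat_lit 152) (nat_lit 205245170289) (nat_lit 0) (nat_lit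 95441517909) (nat_lit 1) (nat_lit 5) (nat_lit 3) (nat_lit 4) (nat_lit 1) (nat_lit 4) (nat_lit 420) (nat_lit 317) (nat_lit 283)) (XT.lf (nat_lit 0) (nat_lit 110556251741) (nat_lit 152) (nat_lit 211992432974) (nat_lit 0) (nat_lit 107890051983) (nat_lit 1) (nat_lit 5) (nat_lit 3) (nat_lit 4) (nat_lit 1) (nat_lit 4) (nat_lit 421) (nat_lit 317) (nat_lit 282)))) (XT.nd (nat_lit 78) (nat_lit 0) (nat_lit 0) (XT.lf (nat_lit 0) (nat_lit 123973113695) (nat_lit 152) (nat_lit 219367838849) (nat_lit 0) (nat_lit 121292587398) (nat_lit 1) (nat_lit 5) (nat_lit 3) (nat_lit 4) (nat_lit 1) (nat_lit 4) (nat_lit 422) (nat_lit 317) (nat_lit 281)) (XT.nd (nat_lit 78) (nat_lit 0) (nat_lit 0) (XT.lf (nat_lit 0) (nat_lit 138422338198) (nat_lit 152) (nat_lit 227415094023) (nat_lit 0) (nat_lit 135728546586) (nat_lit 1) (nat_lit 5) (nat_lit 3) (nat_lit 4) (nat_lit 1) (nat_lit 4) (nat_lit 423) (nat_lit 317) (nat_lit 280))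 (XT.lf (nat_lit 0) (nat_lit 153989550284) (nat_lit 152) (nat_lit 236181885935) (nat_lit 0) (nat_lit 151283475973) (nat_lit 1) (nat_lit 5) (nat_lit 3) (nat_lit 4) (nat_lit 1) (nat_lit 4) (nat_lit 424) (nat_lit 317) (nat_lit 279))))))) (XT.nd (nat_lit 49998) (nat_lit 0) (nat_lit 228) (XT.nd (nat_lit 468) (nat_lit 0) (nat_lit 0) (XT.nd (nat_lit 234) (nat_lit 0) (nat_lit 0) (XT.nd (nat_lit 78) (nat_lit 0) (nat_lit 0) (XT.lf (nat_lit 0) (nat_lit 170767000098) (nat_lit 152) (nat_lit 245720165944) (nat_lit 0) (nat_lit 168049552919) (nat_lit 1) (nat_lit 5) (nat_lit 3) (nat_lit 4) (nat_lit 1) (nat_lit 4) (nat_lit 425) (nat_lit 317) (nat_lit 278)) (XT.nd (nat_lit 78) (nat_lit 0) (nat_lit 0) (XT.lf (nat_lit 0) (nat_lit 188854109565) (nat_lit 152) (nat_lit 256086457190) (nat_lit 0) (nat_lit 186126131952) (nat_lit 1) (nat_lit 5) (nat_lit 3) (nat_lit 4) (nat_lit 1) (nat_lit 4) (nat_lit 426) (nat_lit 317)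 (nat_lit 277)) (XT.lf (nat_lit 0) (nat_lit 208358061556) (nat_lit 152) (nat_lit 267342189548) (nat_lit 0) (nat_lit 205620333541) (nat_lit 1) (nat_lit 5) (nat_lit 3) (nat_lit 4) (nat_lit 1) (nat_lit 4) (nat_lit 427) (nat_lit 317) (nat_lit 276)))) (XT.nd (nat_lit 78) (nat_lit 0) (nat_lit 0) (XT.lf (nat_lit 0) (nat_lit 229394435047) (nat_lit 152) (nat_lit 279554063654) (nat_lit 0) (nat_lit 226647678881) (nat_lit 1) (nat_lit 5) (nat_lit 3) (nat_lit 4) (nat_lit 1) (nat_lit 4) (nat_lit 428) (nat_lit 317) (nat_lit 275)) (XT.nd (nat_lit 78) (nat_lit 0) (nat_lit 0) (XT.lf (nat_lit 0) (nat_lit 252087890027) (nat_lit 152) (nat_lit 292794446170) (nat_lit 0) (nat_lit 249332774463) (nat_lit 1) (nat_lit 5) (nat_lit 3) (nat_lit 4) (nat_lit 1) (nat_lit 4) (nat_lit 429) (nat_lit 317) (nat_lit 274)) (XT.lf (nat_lit 0) (nat_lit 276572906230) (nat_lit 152) (nat_lit 307141798620) (nat_lit 0) (nat_lit 273810050483)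 (nat_lit 1) (nat_lit 5) (nat_lit 3) (nat_lit 4) (nat_lit 1) (nat_lit 4) (nat_lit 430) (nat_lit 317) (nat_lit 273))))) (XT.nd (nat_lit 234) (nat_lit 0) (nat_lit 0) (XT.nd (nat_lit 78) (nat_lit 0) (nat_lit 0) (XT.lf (nat_lit 0) (nat_lit 302994580049) (nat_lit 152) (nat_lit 322681142354) (nat_lit 0) (nat_lit 300224557466) (nat_lit 1) (nat_lit 5) (nat_lit 3) (nat_lit 4) (nat_lit 1) (nat_lit 4) (nat_lit 431) (nat_lit 317) (nat_lit 272)) (XT.nd (nat_lit 78) (nat_lit 0) (nat_lit 0) (XT.lf (nat_lit 0) (nat_lit 331509484365) (nat_lit 152) (nat_lit 339504562371) (nat_lit 0) (nat_lit 328732825822) (nat_lit 1) (nat_lit 5) (nat_lit 3) (nat_lit 4) (nat_lit 1) (nat_lit 4) (nat_lit 432) (nat_lit 317) (nat_lit 271)) (XT.lf (nat_lit 0) (nat_lit 362286596390) (nat_lit 152) (nat_lit 357711753011) (nat_lit 0) (nat_lit 359503793439) (nat_lit 1) (nat_lit 5) (nat_lit 3) (nat_lit 4) (nat_lit 1) (nat_lit 4) (nat_lit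 433) (nat_lit 317) (nat_lit 270)))) (XT.nd (nat_lit 78) (nat_lit 0) (nat_lit 0) (XT.lf (nat_lit 0) (nat_lit 395508299008) (nat_lit 152) (nat_lit 377410608739) (nat_lit 0) (nat_lit 392719806792) (nat_lit 1) (nat_lit 5) (nat_lit 3) (nat_lit 4) (nat_lit 1) (nat_lit 4) (nat_lit 434) (nat_lit 317) (nat_lit 269)) (XT.nd (nat_lit 49140) (nat_lit 0) (nat_lit 836) (XT.lf (nat_lit 0) (nat_lit 431371461570) (nat_lit 152) (nat_lit 398717863513) (nat_lit 0) (nat_lit 428577701515) (nat_lit 1) (nat_lit 5) (nat_lit 3) (nat_lit 4) (nat_lit 1) (nat_lit 4) (nat_lit 435) (nat_lit 317) (nat_lit 268)) (XT.lf (nat_lit 0) (nat_lit 10755442656) (nat_lit 76) (nat_lit 2030666226) (nat_lit 76) (nat_lit 2030666226) (nat_lit 12) (nat_lit 4) (nat_lit 13) (nat_lit 5) (nat_lit 13) (nat_lit 4) (nat_lit 384) (nat_lit 318) (nat_lit 318)))))) (XT.nd (nat_lit 468) (nat_lit 228) (nat_lit 0) (XT.nd (nat_lit 234) (nat_lit 152) (nat_lit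 0) (XT.nd (nat_lit 78) (nat_lit 76) (nat_lit 0) (XT.lf (nat_lit 0) (nat_lit 5367976723) (nat_lit 152) (nat_lit 21040766927) (nat_lit 0) (nat_lit 5103148422) (nat_lit 10) (nat_lit 5) (nat_lit 12) (nat_lit 4) (nat_lit 10) (nat_lit 4) (nat_lit 385) (nat_lit 318) (nat_lit 317)) (XT.nd (nat_lit 78) (nat_lit 76) (nat_lit 0) (XT.lf (nat_lit 0) (nat_lit 15130492528) (nat_lit 152) (nat_lit 3800207130) (nat_lit 0) (nat_lit 14620452838) (nat_lit 10) (nat_lit 5) (nat_lit 12) (nat_lit 4) (nat_lit 10) (nat_lit 4) (nat_lit 386) (nat_lit 318) (nat_lit 316)) (XT.lf (nat_lit 0) (nat_lit 14381780084) (nat_lit 76) (nat_lit 11060247496) (nat_lit 76) (nat_lit 10323160223) (nat_lit 9) (nat_lit 4) (nat_lit 10) (nat_lit 5) (nat_lit 10) (nat_lit 4) (nat_lit 387) (nat_lit 318) (nat_lit 315)))) (XT.nd (nat_lit 78) (nat_lit 152) (nat_lit 0) (XT.lf (nat_lit 0) (nat_lit 33294937683) (nat_lit 76) (nat_lit 2913626590) (nat_lit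 76) (nat_lit 1966310074) (nat_lit 9) (nat_lit 4) (nat_lit 10) (nat_lit 5) (nat_lit 10) (nat_lit 4) (nat_lit 388) (nat_lit 318) (nat_lit 314)) (XT.nd (nat_lit 78) (nat_lit 0) (nat_lit 0) (XT.lf (nat_lit 0) (nat_lit 6707275310) (nat_lit 152) (nat_lit 28451190563) (nat_lit 0) (nat_lit 5619681764) (nat_lit 7) (nat_lit 5) (nat_lit 9) (nat_lit 4) (nat_lit 7) (nat_lit 4) (nat_lit 389) (nat_lit 318) (nat_lit 313)) (XT.lf (nat_lit 0) (nat_lit 15744206027) (nat_lit 152) (nat_lit 13372016495) (nat_lit 0) (nat_lit 14484957537) (nat_lit 7) (nat_lit 5) (nat_lit 9) (nat_lit 4) (nat_lit 7) (nat_lit 4) (nat_lit 390) (nat_lit 318) (nat_lit 312))))) (XT.nd (nat_lit 234) (nat_lit 152) (nat_lit 0) (XT.nd (nat_lit 78) (nat_lit 0) (nat_lit 0) (XT.lf (nat_lit 0) (nat_lit 2256482403) (nat_lit 76) (nat_lit 22914227234) (nat_lit 76) (nat_lit 21496038980) (nat_lit 6) (nat_lit 4) (nat_lit 7) (nat_lit 5) (nat_lit 7) (nat_lit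 4) (nat_lit 391) (nat_lit 318) (nat_lit 311)) (XT.nd (nat_lit 78) (nat_lit 0) (nat_lit 0) (XT.lf (nat_lit 0) (nat_lit 18915232459) (nat_lit 76) (nat_lit 16316835417) (nat_lit 76) (nat_lit 14751480717) (nat_lit 6) (nat_lit 4) (nat_lit 7) (nat_lit 5) (nat_lit 7) (nat_lit 4) (nat_lit 392) (nat_lit 318) (nat_lit 310)) (XT.lf (nat_lit 0) (nat_lit 36260812938) (nat_lit 76) (nat_lit 9511412988) (nat_lit 76) (nat_lit 7809793058) (nat_lit 6) (nat_lit 4) (nat_lit 7) (nat_lit 5) (nat_lit 7) (nat_lit 4) (nat_lit 393) (nat_lit 318) (nat_lit 309)))) (XT.nd (nat_lit 156) (nat_lit 0) (nat_lit 0) (XT.nd (nat_lit 78) (nat_lit 152) (nat_lit 0) (XT.lf (nat_lit 0) (nat_lit 54396012463) (nat_lit 76) (nat_lit 2457631516) (nat_lit 76) (nat_lit 629840078) (nat_lit 6) (nat_lit 4) (nat_lit 7) (nat_lit 5) (nat_lit 7) (nat_lit 4) (nat_lit 394) (nat_lit 318) (nat_lit 308)) (XT.lf (nat_lit 0) (nat_lit 6880668602) (nat_lit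 152) (nat_lit 49782991270) (nat_lit 0) (nat_lit 5028652498) (nat_lit 4) (nat_lit 5) (nat_lit 6) (nat_lit 4) (nat_lit 4) (nat_lit 4) (nat_lit 395) (nat_lit 318) (nat_lit 307))) (XT.nd (nat_lit 78) (nat_lit 0) (nat_lit 0) (XT.lf (nat_lit 0) (nat_lit 14790633664) (nat_lit 152) (nat_lit 38620081906) (nat_lit 0) (nat_lit 12835596863) (nat_lit 4) (nat_lit 5) (nat_lit 6) (nat_lit 4) (nat_lit 4) (nat_lit 4) (nat_lit 396) (nat_lit 318) (nat_lit 306)) (XT.lf (nat_lit 0) (nat_lit 23078102986) (nat_lit 152) (nat_lit 27071632192) (nat_lit 0) (nat_lit 21027676651) (nat_lit 4) (nat_lit 5) (nat_lit 6) (nat_lit 4) (nat_lit 4) (nat_lit 4) (nat_lit 397) (nat_lit 318) (nat_lit 305))))))))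
noncomputable def xc14 : XT := (XT.nd (nat_lit 1872) (nat_lit 0) (nat_lit 0) (XT.nd (nat_lit 936) (nat_lit 0) (nat_lit 0) (XT.nd (nat_lit 468) (nat_lit 152) (nat_lit 0) (XT.nd (nat_lit 234) (nat_lit 0) (nat_lit 0) (XT.nd (nat_lit 78) (nat_lit 76) (nat_lit 0) (XT.lf (nat_lit 0) (nat_lit 31792187499) (nat_lit 152) (nat_lit 15069206872) (nat_lit 0) (nat_lit 29653437520) (nat_lit 4) (nat_lit 5) (nat_lit 6) (nat_lit 4) (nat_lit 4) (nat_lit 4) (nat_lit 398) (nat_lit 318) (nat_lit 304)) (XT.nd (nat_lit 78) (nat_lit 76) (nat_lit 0) (XT.lf (nat_lit 0) (nat_lit 40984526220) (nat_lit 152) (nat_lit 2541680461) (nat_lit 0) (nat_lit 38763995090) (nat_lit 4) (nat_lit 5) (nat_lit 6) (nat_lit 4) (nat_lit 4) (nat_lit 4) (nat_lit 399) (nat_lit 318) (nat_lit 303)) (XT.lf (nat_lit 0) (nat_lit 10935178228) (nat_lit 76) (nat_lit 39945142818) (nat_lit 76) (nat_lit 37648888400) (nat_lit 3) (nat_lit 4) (nat_lit 4)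 (nat_lit 5) (nat_lit 4) (nat_lit 4) (nat_lit 400) (nat_lit 318) (nat_lit 302)))) (XT.nd (nat_lit 78) (nat_lit 0) (nat_lit 0) (XT.lf (nat_lit 0) (nat_lit 25195592344) (nat_lit 76) (nat_lit 36222797128) (nat_lit 76) (nat_lit 33856428555) (nat_lit 3) (nat_lit 4) (nat_lit 4) (nat_lit 5) (nat_lit 4) (nat_lit 4) (nat_lit 401) (nat_lit 318) (nat_lit 301)) (XT.nd (nat_lit 78) (nat_lit 0) (nat_lit 0) (XT.lf (nat_lit 0) (nat_lit 40240028610) (nat_lit 76) (nat_lit 32380155854) (nat_lit 76) (nat_lit 29948866767) (nat_lit 3) (nat_lit 4) (nat_lit 4) (nat_lit 5) (nat_lit 4) (nat_lit 4) (nat_lit 402) (nat_lit 318) (nat_lit 300)) (XT.lf (nat_lit 0) (nat_lit 56157639241) (nat_lit 76) (nat_lit 28394447790) (nat_lit 76) (nat_lit 25903047115) (nat_lit 3) (nat_lit 4) (nat_lit 4) (nat_lit 5) (nat_lit 4) (nat_lit 4) (nat_lit 403) (nat_lit 318) (nat_lit 299))))) (XT.nd (nat_lit 234) (nat_lit 152) (nat_lit 0) (XT.nd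 (nat_lit 78) (nat_lit 0) (nat_lit 0) (XT.lf (nat_lit 0) (nat_lit 73042750818) (nat_lit 76) (nat_lit 24242053924) (nat_lit 76) (nat_lit 21694994372) (nat_lit 3) (nat_lit 4) (nat_lit 4) (nat_lit 5) (nat_lit 4) (nat_lit 4) (nat_lit 404) (nat_lit 318) (nat_lit 298)) (XT.nd (nat_lit 78) (nat_lit 0) (nat_lit 0) (XT.lf (nat_lit 0) (nat_lit 90995423261) (nat_lit 76) (nat_lit 19898367478) (nat_lit 76) (nat_lit 17299771928) (nat_lit 3) (nat_lit 4) (nat_lit 4) (nat_lit 5) (nat_lit 4) (nat_lit 4) (nat_lit 405) (nat_lit 318) (nat_lit 297)) (XT.lf (nat_lit 0) (nat_lit 110122042779) (nat_lit 76) (nat_lit 15337648087) (nat_lit 76) (nat_lit 12691334021) (nat_lit 3) (nat_lit 4) (nat_lit 4) (nat_lit 5) (nat_lit 4) (nat_lit 4) (nat_lit 406) (nat_lit 318) (nat_lit 296)))) (XT.nd (nat_lit 78) (nat_lit 152) (nat_lit 0) (XT.lf (nat_lit 0) (nat_lit 130535952300) (nat_lit 76) (nat_lit 10532869267) (nat_lit 76) (nat_lit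 7842371390) (nat_lit 3) (nat_lit 4) (nat_lit 4) (nat_lit 5) (nat_lit 4) (nat_lit 4) (nat_lit 407) (nat_lit 318) (nat_lit 295)) (XT.nd (nat_lit 78) (nat_lit 152) (nat_lit 0) (XT.lf (nat_lit 0) (nat_lit 152358123141) (nat_lit 76) (nat_lit 5455558254) (nat_lit 76) (nat_lit 2724149440) (nat_lit 3) (nat_lit 4) (nat_lit 4) (nat_lit 5) (nat_lit 4) (nat_lit 4) (nat_lit 408) (nat_lit 318) (nat_lit 294)) (XT.lf (nat_lit 0) (nat_lit 2649185872) (nat_lit 152) (nat_lit 170434694092) (nat_lit 0) (nat_lit 11767481) (nat_lit 1) (nat_lit 5) (nat_lit 3) (nat_lit 4) (nat_lit 1) (nat_lit 4) (nat_lit 409) (nat_lit 318) (nat_lit 293)))))) (XT.nd (nat_lit 468) (nat_lit 0) (nat_lit 0) (XT.nd (nat_lit 234) (nat_lit 0) (nat_lit 0) (XT.nd (nat_lit 78) (nat_lit 0) (nat_lit 0) (XT.lf (nat_lit 0) (nat_lit 8491824016) (nat_lit 152) (nat_lit 172336292444) (nat_lit 0) (nat_lit 5821001308) (nat_lit 1) (nat_lit 5) (nat_lit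 3) (nat_lit 4) (nat_lit 1) (nat_lit 4) (nat_lit 410) (nat_lit 318) (nat_lit 292)) (XT.nd (nat_lit 78) (nat_lit 0) (nat_lit 0) (XT.lf (nat_lit 0) (nat_lit 14706307706) (nat_lit 152) (nat_lit 174580785975) (nat_lit 0) (nat_lit 12004555073) (nat_lit 1) (nat_lit 5) (nat_lit 3) (nat_lit 4) (nat_lit 1) (nat_lit 4) (nat_lit 411) (nat_lit 318) (nat_lit 291)) (XT.lf (nat_lit 0) (nat_lit 21329463510) (nat_lit 152) (nat_lit 177181475385) (nat_lit 0) (nat_lit 18599072059) (nat_lit 1) (nat_lit 5) (nat_lit 3) (nat_lit 4) (nat_lit 1) (nat_lit 4) (nat_lit 412) (nat_lit 318) (nat_lit 290)))) (XT.nd (nat_lit 78) (nat_lit 0) (nat_lit 0) (XT.lf (nat_lit 0) (nat_lit 28400539761) (nat_lit 152) (nat_lit 180153772169) (nat_lit 0) (nat_lit 25643630885) (nat_lit 1) (nat_lit 5) (nat_lit 3) (nat_lit 4) (nat_lit 1) (nat_lit 4) (nat_lit 413) (nat_lit 318) (nat_lit 289)) (XT.nd (nat_lit 78) (nat_lit 0) (nat_lit 0) (XT.lf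 (nat_lit 0) (nat_lit 35961439131) (nat_lit 152) (nat_lit 183515289937) (nat_lit 0) (nat_lit 33179977084) (nat_lit 1) (nat_lit 5) (nat_lit 3) (nat_lit 4) (nat_lit 1) (nat_lit 4) (nat_lit 414) (nat_lit 318) (nat_lit 288)) (XT.lf (nat_lit 0) (nat_lit 44056966950) (nat_lit 152) (nat_lit 187285948793) (nat_lit 0) (nat_lit 41252770486) (nat_lit 1) (nat_lit 5) (nat_lit 3) (nat_lit 4) (nat_lit 1) (nat_lit 4) (nat_lit 415) (nat_lit 318) (nat_lit 287))))) (XT.nd (nat_lit 234) (nat_lit 0) (nat_lit 0) (XT.nd (nat_lit 78) (nat_lit 0) (nat_lit 0) (XT.lf (nat_lit 0) (nat_lit 52735096717) (nat_lit 152) (nat_lit 191488093384) (nat_lit 0) (nat_lit 49909849866) (nat_lit 1) (nat_lit 5) (nat_lit 3) (nat_lit 4) (nat_lit 1) (nat_lit 4) (nat_lit 416) (nat_lit 318) (nat_lit 286)) (XT.nd (nat_lit 78) (nat_lit 0) (nat_lit 0) (XT.lf (nat_lit 0) (nat_lit 62047254385) (nat_lit 152) (nat_lit 196146625307) (nat_lit 0) (nat_lit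 59202516436) (nat_lit 1) (nat_lit 5) (nat_lit 3) (nat_lit 4) (nat_lit 1) (nat_lit 4) (nat_lit 417) (nat_lit 318) (nat_lit 285)) (XT.lf (nat_lit 0) (nat_lit 72048623112) (nat_lit 152) (nat_lit 201289150676) (nat_lit 0) (nat_lit 69185837849) (nat_lit 1) (nat_lit 5) (nat_lit 3) (nat_lit 4) (nat_lit 1) (nat_lit 4) (nat_lit 418) (nat_lit 318) (nat_lit 284)))) (XT.nd (nat_lit 78) (nat_lit 0) (nat_lit 0) (XT.lf (nat_lit 0) (nat_lit 82798470267) (nat_lit 152) (nat_lit 206946143717) (nat_lit 0) (nat_lit 79918974528) (nat_lit 1) (nat_lit 5) (nat_lit 3) (nat_lit 4) (nat_lit 1) (nat_lit 4) (nat_lit 419) (nat_lit 318) (nat_lit 283)) (XT.nd (nat_lit 78) (nat_lit 0) (nat_lit 0) (XT.lf (nat_lit 0) (nat_lit 94360498649) (nat_lit 152) (nat_lit 213151127351) (nat_lit 0) (nat_lit 91465530247) (nat_lit 1) (nat_lit 5) (nat_lit 3) (nat_lit 4) (nat_lit 1) (nat_lit 4) (nat_lit 420) (nat_lit 318) (nat_lit 282)) (XT.lf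 (nat_lit 0) (nat_lit 106803223980) (nat_lit 152) (nat_lit 219940871850) (nat_lit 0) (nat_lit 103893929040) (nat_lit 1) (nat_lit 5) (nat_lit 3) (nat_lit 4) (nat_lit 1) (nat_lit 4) (nat_lit 421) (nat_lit 318) (nat_lit 281))))))) (XT.nd (nat_lit 936) (nat_lit 0) (nat_lit 0) (XT.nd (nat_lit 468) (nat_lit 0) (nat_lit 0) (XT.nd (nat_lit 234) (nat_lit 0) (nat_lit 0) (XT.nd (nat_lit 78) (nat_lit 0) (nat_lit 0) (XT.lf (nat_lit 0) (nat_lit 120200380931) (nat_lit 152) (nat_lit 227355612740) (nat_lit 0) (nat_lit 117277820676) (nat_lit 1) (nat_lit 5) (nat_lit 3) (nat_lit 4) (nat_lit 1) (nat_lit 4) (nat_lit 422) (nat_lit 318) (nat_lit 280)) (XT.nd (nat_lit 78) (nat_lit 0) (nat_lit 0) (XT.lf (nat_lit 0) (nat_lit 134631360060) (nat_lit 152) (nat_lit 235439289224) (nat_lit 0) (nat_lit 131696517107) (nat_lit 1) (nat_lit 5) (nat_lit 3) (nat_lit 4) (nat_lit 1) (nat_lit 4) (nat_lit 423) (nat_lit 318) (nat_lit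 279)) (XT.lf (nat_lit 0) (nat_lit 150181678281) (nat_lit 152) (nat_lit 244239804570) (nat_lit 0) (nat_lit 147235462459) (nat_lit 1) (nat_lit 5) (nat_lit 3) (nat_lit 4) (nat_lit 1) (nat_lit 4) (nat_lit 424) (nat_lit 318) (nat_lit 278)))) (XT.nd (nat_lit 78) (nat_lit 0) (nat_lit 0) (XT.lf (nat_lit 0) (nat_lit 166943485628) (nat_lit 152) (nat_lit 253809309981) (nat_lit 0) (nat_lit 163986739371) (nat_lit 1) (nat_lit 5) (nat_lit 3) (nat_lit 4) (nat_lit 1) (nat_lit 4) (nat_lit 425) (nat_lit 318) (nat_lit 277)) (XT.nd (nat_lit 78) (nat_lit 0) (nat_lit 0) (XT.lf (nat_lit 0) (nat_lit 185016111329) (nat_lit 152) (nat_lit 264204513637) (nat_lit 0) (nat_lit 182049614671) (nat_lit 1) (nat_lit 5) (nat_lit 3) (nat_lit 4) (nat_lit 1) (nat_lit 4) (nat_lit 426) (nat_lit 318) (nat_lit 276)) (XT.lf (nat_lit 0) (nat_lit 204506652426) (nat_lit 152) (nat_lit 275487016745) (nat_lit 0) (nat_lit 201531127618) (nat_lit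 1) (nat_lit 5) (nat_lit 3) (nat_lit 4) (nat_lit 1) (nat_lit 4) (nat_lit 427) (nat_lit 318) (nat_lit 275))))) (XT.nd (nat_lit 234) (nat_lit 0) (nat_lit 0) (XT.nd (nat_lit 78) (nat_lit 0) (nat_lit 0) (XT.lf (nat_lit 0) (nat_lit 225530608422) (nat_lit 152) (nat_lit 287723678582) (nat_lit 0) (nat_lit 222546724215) (nat_lit 1) (nat_lit 5) (nat_lit 3) (nat_lit 4) (nat_lit 1) (nat_lit 4) (nat_lit 428) (nat_lit 318) (nat_lit 274)) (XT.nd (nat_lit 78) (nat_lit 0) (nat_lit 0) (XT.lf (nat_lit 0) (nat_lit 248212565721) (nat_lit 152) (nat_lit 300987012700) (nat_lit 0) (nat_lit 245220941331) (nat_lit 1) (nat_lit 5) (nat_lit 3) (nat_lit 4) (nat_lit 1) (nat_lit 4) (nat_lit 429) (nat_lit 318) (nat_lit 273)) (XT.lf (nat_lit 0) (nat_lit 272686935924) (nat_lit 152) (nat_lit 315355616635) (nat_lit 0) (nat_lit 269688144698) (nat_lit 1) (nat_lit 5) (nat_lit 3) (nat_lit 4) (nat_lit 1) (nat_lit 4) (nat_lit 430) (nat_lit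 318) (nat_lit 272)))) (XT.nd (nat_lit 78) (nat_lit 0) (nat_lit 0) (XT.lf (nat_lit 0) (nat_lit 299098752335) (nat_lit 152) (nat_lit 330914637669) (nat_lit 0) (nat_lit 296093325149) (nat_lit 1) (nat_lit 5) (nat_lit 3) (nat_lit 4) (nat_lit 1) (nat_lit 4) (nat_lit 431) (nat_lit 318) (nat_lit 271)) (XT.nd (nat_lit 78) (nat_lit 0) (nat_lit 0) (XT.lf (nat_lit 0) (nat_lit 327604529422) (nat_lit 152) (nat_lit 347756277408) (nat_lit 0) (nat_lit 324592957829) (nat_lit 1) (nat_lit 5) (nat_lit 3) (nat_lit 4) (nat_lit 1) (nat_lit 4) (nat_lit 432) (nat_lit 318) (nat_lit 270)) (XT.lf (nat_lit 0) (nat_lit 358373190308) (nat_lit 152) (nat_lit 365980338162) (nat_lit 0) (nat_lit 355355929449) (nat_lit 1) (nat_lit 5) (nat_lit 3) (nat_lit 4) (nat_lit 1) (nat_lit 4) (nat_lit 433) (nat_lit 318) (nat_lit 269)))))) (XT.nd (nat_lit 49374) (nat_lit 0) (nat_lit 380) (XT.nd (nat_lit 49140) (nat_lit 0) (nat_lit 684) (XT.nd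 (nat_lit 78) (nat_lit 0) (nat_lit 0) (XT.lf (nat_lit 0) (nat_lit 391587067799) (nat_lit 152) (nat_lit 385694814365) (nat_lit 0) (nat_lit 388564539100) (nat_lit 1) (nat_lit 5) (nat_lit 3) (nat_lit 4) (nat_lit 1) (nat_lit 4) (nat_lit 434) (nat_lit 318) (nat_lit 268)) (XT.nd (nat_lit 48984) (nat_lit 0) (nat_lit 912) (XT.lf (nat_lit 0) (nat_lit 427442984871) (nat_lit 152) (nat_lit 407016532542) (nat_lit 0) (nat_lit 424415578545) (nat_lit 1) (nat_lit 5) (nat_lit 3) (nat_lit 4) (nat_lit 1) (nat_lit 4) (nat_lit 435) (nat_lit 318) (nat_lit 267)) (XT.lf (nat_lit 0) (nat_lit 2474598541) (nat_lit 152) (nat_lit 8199840428) (nat_lit 0) (nat_lit 2474598541) (nat_lit 13) (nat_lit 5) (nat_lit 15) (nat_lit 4) (nat_lit 13) (nat_lit 4) (nat_lit 382) (nat_lit 319) (nat_lit 319)))) (XT.nd (nat_lit 78) (nat_lit 152) (nat_lit 0) (XT.lf (nat_lit 0) (nat_lit 1789484822) (nat_lit 76) (nat_lit 13206555645) (nat_lit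 76) (nat_lit 12906240352) (nat_lit 12) (nat_lit 4) (nat_lit 13) (nat_lit 5) (nat_lit 13) (nat_lit 4) (nat_lit 383) (nat_lit 319) (nat_lit 318)) (XT.nd (nat_lit 78) (nat_lit 152) (nat_lit 0) (XT.lf (nat_lit 0) (nat_lit 21040028128) (nat_lit 76) (nat_lit 4591977034) (nat_lit 76) (nat_lit 4013592026) (nat_lit 12) (nat_lit 4) (nat_lit 13) (nat_lit 5) (nat_lit 13) (nat_lit 4) (nat_lit 384) (nat_lit 319) (nat_lit 317)) (XT.lf (nat_lit 0) (nat_lit 5160947624) (nat_lit 152) (nat_lit 22010741003) (nat_lit 0) (nat_lit 4364893370) (nat_lit 10) (nat_lit 5) (nat_lit 12) (nat_lit 4) (nat_lit 10) (nat_lit 4) (nat_lit 385) (nat_lit 319) (nat_lit 316))))) (XT.nd (nat_lit 234) (nat_lit 228) (nat_lit 0) (XT.nd (nat_lit 78) (nat_lit 76) (nat_lit 0) (XT.lf (nat_lit 0) (nat_lit 14703981742) (nat_lit 152) (nat_lit 5201971660) (nat_lit 0) (nat_lit 13680879905) (nat_lit 10) (nat_lit 5) (nat_lit 12) (nat_lit 4) (nat_lit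 10) (nat_lit 4) (nat_lit 386) (nat_lit 319) (nat_lit 315)) (XT.nd (nat_lit 78) (nat_lit 0) (nat_lit 0) (XT.lf (nat_lit 0) (nat_lit 12520641521) (nat_lit 76) (nat_lit 12262593899) (nat_lit 76) (nat_lit 11029262818) (nat_lit 9) (nat_lit 4) (nat_lit 10) (nat_lit 5) (nat_lit 10) (nat_lit 4) (nat_lit 387) (nat_lit 319) (nat_lit 314)) (XT.lf (nat_lit 0) (nat_lit 31051368225) (nat_lit 76) (nat_lit 4304262900) (nat_lit 76) (nat_lit 2876275112) (nat_lit 9) (nat_lit 4) (nat_lit 10) (nat_lit 5) (nat_lit 10) (nat_lit 4) (nat_lit 388) (nat_lit 319) (nat_lit 313)))) (XT.nd (nat_lit 156) (nat_lit 76) (nat_lit 0) (XT.nd (nat_lit 78) (nat_lit 0) (nat_lit 0) (XT.lf (nat_lit 0) (nat_lit 5575613856) (nat_lit 152) (nat_lit 31228859234) (nat_lit 0) (nat_lit 4043970542) (nat_lit 7) (nat_lit 5) (nat_lit 9) (nat_lit 4) (nat_lit 7) (nat_lit 4) (nat_lit 389) (nat_lit 319) (nat_lit 312)) (XT.lf (nat_lit 0) (nat_lit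 14435327468) (nat_lit 152) (nat_lit 16500276812) (nat_lit 0) (nat_lit 12744744391) (nat_lit 7) (nat_lit 5) (nat_lit 9) (nat_lit 4) (nat_lit 7) (nat_lit 4) (nat_lit 390) (nat_lit 319) (nat_lit 311))) (XT.nd (nat_lit 78) (nat_lit 76) (nat_lit 0) (XT.lf (nat_lit 0) (nat_lit 23662511151) (nat_lit 152) (nat_lit 1268621337) (nat_lit 0) (nat_lit 21824761627) (nat_lit 7) (nat_lit 5) (nat_lit 9) (nat_lit 4) (nat_lit 7) (nat_lit 4) (nat_lit 391) (nat_lit 319) (nat_lit 310)) (XT.lf (nat_lit 0) (nat_lit 15037668146) (nat_lit 76) (nat_lit 18508956510) (nat_lit 76) (nat_lit 16534941756) (nat_lit 6) (nat_lit 4) (nat_lit 7) (nat_lit 5) (nat_lit 7) (nat_lit 4) (nat_lit 392) (nat_lit 319) (nat_lit 309))))))))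
noncomputable def xc15 : XT := (XT.nd (nat_lit 1872) (nat_lit 0) (nat_lit 0) (XT.nd (nat_lit 936) (nat_lit 152) (nat_lit 0) (XT.nd (nat_lit 468) (nat_lit 76) (nat_lit 0) (XT.nd (nat_lit 234) (nat_lit 0) (nat_lit 0) (XT.nd (nat_lit 78) (nat_lit 152) (nat_lit 0) (XT.lf (nat_lit 0) (nat_lit 32095735455) (nat_lit 76) (nat_lit 11845877711) (nat_lit 76) (nat_lit 9745691449) (nat_lit 6) (nat_lit 4) (nat_lit 7) (nat_lit 5) (nat_lit 7) (nat_lit 4) (nat_lit 393) (nat_lit 319) (nat_lit 308)) (XT.nd (nat_lit 78) (nat_lit 152) (nat_lit 0) (XT.lf (nat_lit 0) (nat_lit 49964719083) (nat_lit 76) (nat_lit 4923895897) (nat_lit 76) (nat_lit 2706884165) (nat_lit 6) (nat_lit 4) (nat_lit 7) (nat_lit 5) (nat_lit 7) (nat_lit 4) (nat_lit 394) (nat_lit 319) (nat_lit 307)) (XT.lf (nat_lit 0) (nat_lit 4624561179) (nat_lit 152) (nat_lit 54783571676) (nat_lit 0) (nat_lit 2410100737) (nat_lit 4) (nat_lit 5) (nat_lit 6)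 (nat_lit 4) (nat_lit 4) (nat_lit 4) (nat_lit 395) (nat_lit 319) (nat_lit 306)))) (XT.nd (nat_lit 78) (nat_lit 0) (nat_lit 0) (XT.lf (nat_lit 0) (nat_lit 12411789249) (nat_lit 152) (nat_lit 43864649042) (nat_lit 0) (nat_lit 10101939272) (nat_lit 4) (nat_lit 5) (nat_lit 6) (nat_lit 4) (nat_lit 4) (nat_lit 4) (nat_lit 396) (nat_lit 319) (nat_lit 305)) (XT.nd (nat_lit 78) (nat_lit 0) (nat_lit 0) (XT.lf (nat_lit 0) (nat_lit 20585613208) (nat_lit 152) (nat_lit 32542112968) (nat_lit 0) (nat_lit 18187439588) (nat_lit 4) (nat_lit 5) (nat_lit 6) (nat_lit 4) (nat_lit 4) (nat_lit 4) (nat_lit 397) (nat_lit 319) (nat_lit 304)) (XT.lf (nat_lit 0) (nat_lit 29194470532) (nat_lit 152) (nat_lit 20748866943) (nat_lit 0) (nat_lit 26714515761) (nat_lit 4) (nat_lit 5) (nat_lit 6) (nat_lit 4) (nat_lit 4) (nat_lit 4) (nat_lit 398) (nat_lit 319) (nat_lit 303))))) (XT.nd (nat_lit 234) (nat_lit 0) (nat_lit 0) (XT.nd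 (nat_lit 78) (nat_lit 76) (nat_lit 0) (XT.lf (nat_lit 0) (nat_lit 38289376671) (nat_lit 152) (nat_lit 8415025065) (nat_lit 0) (nat_lit 35733698612) (nat_lit 4) (nat_lit 5) (nat_lit 6) (nat_lit 4) (nat_lit 4) (nat_lit 4) (nat_lit 399) (nat_lit 319) (nat_lit 302)) (XT.nd (nat_lit 78) (nat_lit 0) (nat_lit 0) (XT.lf (nat_lit 0) (nat_lit 4682367086) (nat_lit 76) (nat_lit 43314965152) (nat_lit 76) (nat_lit 40689172937) (nat_lit 3) (nat_lit 4) (nat_lit 4) (nat_lit 5) (nat_lit 4) (nat_lit 4) (nat_lit 400) (nat_lit 319) (nat_lit 301)) (XT.lf (nat_lit 0) (nat_lit 18771237463) (nat_lit 76) (nat_lit 39677952188) (nat_lit 76) (nat_lit 36987239459) (nat_lit 3) (nat_lit 4) (nat_lit 4) (nat_lit 5) (nat_lit 4) (nat_lit 4) (nat_lit 401) (nat_lit 319) (nat_lit 300)))) (XT.nd (nat_lit 78) (nat_lit 0) (nat_lit 0) (XT.lf (nat_lit 0) (nat_lit 33656836932) (nat_lit 76) (nat_lit 35914322699) (nat_lit 76) (nat_lit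 33163498382) (nat_lit 3) (nat_lit 4) (nat_lit 4) (nat_lit 5) (nat_lit 4) (nat_lit 4) (nat_lit 402) (nat_lit 319) (nat_lit 299)) (XT.nd (nat_lit 78) (nat_lit 0) (nat_lit 0) (XT.lf (nat_lit 0) (nat_lit 49427376455) (nat_lit 76) (nat_lit 32001773694) (nat_lit 76) (nat_lit 29195290500) (nat_lit 3) (nat_lit 4) (nat_lit 4) (nat_lit 5) (nat_lit 4) (nat_lit 4) (nat_lit 403) (nat_lit 319) (nat_lit 298)) (XT.lf (nat_lit 0) (nat_lit 66176311080) (nat_lit 76) (nat_lit 27917119698) (nat_lit 76) (nat_lit 25059100506) (nat_lit 3) (nat_lit 4) (nat_lit 4) (nat_lit 5) (nat_lit 4) (nat_lit 4) (nat_lit 404) (nat_lit 319) (nat_lit 297)))))) (XT.nd (nat_lit 468) (nat_lit 0) (nat_lit 0) (XT.nd (nat_lit 234) (nat_lit 152) (nat_lit 0) (XT.nd (nat_lit 78) (nat_lit 0) (nat_lit 0) (XT.lf (nat_lit 0) (nat_lit 84002893754) (nat_lit 76) (nat_lit 23636155353) (nat_lit 76) (nat_lit 20730417646) (nat_lit 3) (nat_lit 4) (nat_lit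 4) (nat_lit 5) (nat_lit 4) (nat_lit 4) (nat_lit 405) (nat_lit 319) (nat_lit 296)) (XT.nd (nat_lit 78) (nat_lit 0) (nat_lit 0) (XT.lf (nat_lit 0) (nat_lit 103012763484) (nat_lit 76) (nat_lit 19133511982) (nat_lit 76) (nat_lit 16183590464) (nat_lit 3) (nat_lit 4) (nat_lit 4) (nat_lit 5) (nat_lit 4) (nat_lit 4) (nat_lit 406) (nat_lit 319) (nat_lit 295)) (XT.lf (nat_lit 0) (nat_lit 123318571350) (nat_lit 76) (nat_lit 14382507255) (nat_lit 76) (nat_lit 11391674800) (nat_lit 3) (nat_lit 4) (nat_lit 4) (nat_lit 5) (nat_lit 4) (nat_lit 4) (nat_lit 407) (nat_lit 319) (nat_lit 294)))) (XT.nd (nat_lit 78) (nat_lit 152) (nat_lit 0) (XT.lf (nat_lit 0) (nat_lit 145040648067) (nat_lit 76) (nat_lit 9354987068) (nat_lit 76) (nat_lit 6326274117) (nat_lit 3) (nat_lit 4) (nat_lit 4) (nat_lit 5) (nat_lit 4) (nat_lit 4) (nat_lit 408) (nat_lit 319) (nat_lit 293)) (XT.nd (nat_lit 78) (nat_lit 152) (nat_lit 0) (XT.lf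 (nat_lit 0) (nat_lit 168307717051) (nat_lit 76) (nat_lit 4021158711) (nat_lit 76) (nat_lit 957371225) (nat_lit 3) (nat_lit 4) (nat_lit 4) (nat_lit 5) (nat_lit 4) (nat_lit 4) (nat_lit 409) (nat_lit 319) (nat_lit 292)) (XT.lf (nat_lit 0) (nat_lit 4725567020) (nat_lit 152) (nat_lit 180347672777) (nat_lit 0) (nat_lit 1776744253) (nat_lit 1) (nat_lit 5) (nat_lit 3) (nat_lit 4) (nat_lit 1) (nat_lit 4) (nat_lit 410) (nat_lit 319) (nat_lit 291))))) (XT.nd (nat_lit 234) (nat_lit 0) (nat_lit 0) (XT.nd (nat_lit 78) (nat_lit 0) (nat_lit 0) (XT.lf (nat_lit 0) (nat_lit 10897509084) (nat_lit 152) (nat_lit 182677087652) (nat_lit 0) (nat_lit 7920047498) (nat_lit 1) (nat_lit 5) (nat_lit 3) (nat_lit 4) (nat_lit 1) (nat_lit 4) (nat_lit 411) (nat_lit 319) (nat_lit 290)) (XT.nd (nat_lit 78) (nat_lit 0) (nat_lit 0) (XT.lf (nat_lit 0) (nat_lit 17481274495) (nat_lit 152) (nat_lit 185356407938) (nat_lit 0) (nat_lit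 14477295485) (nat_lit 1) (nat_lit 5) (nat_lit 3) (nat_lit 4) (nat_lit 1) (nat_lit 4) (nat_lit 412) (nat_lit 319) (nat_lit 289)) (XT.lf (nat_lit 0) (nat_lit 24515878159) (nat_lit 152) (nat_lit 188401511088) (nat_lit 0) (nat_lit 21487345977) (nat_lit 1) (nat_lit 5) (nat_lit 3) (nat_lit 4) (nat_lit 1) (nat_lit 4) (nat_lit 413) (nat_lit 319) (nat_lit 288)))) (XT.nd (nat_lit 78) (nat_lit 0) (nat_lit 0) (XT.lf (nat_lit 0) (nat_lit 32043006615) (nat_lit 152) (nat_lit 191830442157) (nat_lit 0) (nat_lit 28991740016) (nat_lit 1) (nat_lit 5) (nat_lit 3) (nat_lit 4) (nat_lit 1) (nat_lit 4) (nat_lit 414) (nat_lit 319) (nat_lit 287)) (XT.nd (nat_lit 78) (nat_lit 0) (nat_lit 0) (XT.lf (nat_lit 0) (nat_lit 40107265070) (nat_lit 152) (nat_lit 195663520738) (nat_lit 0) (nat_lit 37034948084) (nat_lit 1) (nat_lit 5) (nat_lit 3) (nat_lit 4) (nat_lit 1) (nat_lit 4) (nat_lit 415) (nat_lit 319) (nat_lit 286)) (XT.lf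 (nat_lit 0) (nat_lit 48756441722) (nat_lit 152) (nat_lit 199923461369) (nat_lit 0) (nat_lit 45664633637) (nat_lit 1) (nat_lit 5) (nat_lit 3) (nat_lit 4) (nat_lit 1) (nat_lit 4) (nat_lit 416) (nat_lit 319) (nat_lit 285))))))) (XT.nd (nat_lit 936) (nat_lit 0) (nat_lit 0) (XT.nd (nat_lit 468) (nat_lit 0) (nat_lit 0) (XT.nd (nat_lit 234) (nat_lit 0) (nat_lit 0) (XT.nd (nat_lit 78) (nat_lit 0) (nat_lit 0) (XT.lf (nat_lit 0) (nat_lit 58041790950) (nat_lit 152) (nat_lit 204635508144) (nat_lit 0) (nat_lit 54931935552) (nat_lit 1) (nat_lit 5) (nat_lit 3) (nat_lit 4) (nat_lit 1) (nat_lit 4) (nat_lit 417) (nat_lit 319) (nat_lit 284)) (XT.nd (nat_lit 78) (nat_lit 0) (nat_lit 0) (XT.lf (nat_lit 0) (nat_lit 68018337047) (nat_lit 152) (nat_lit 209827584303) (nat_lit 0) (nat_lit 64891771174) (nat_lit 1) (nat_lit 5) (nat_lit 3) (nat_lit 4) (nat_lit 1) (nat_lit 4) (nat_lit 418) (nat_lit 319) (nat_lit 283))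 (XT.lf (nat_lit 0) (nat_lit 78745200286) (nat_lit 152) (nat_lit 215530457704) (nat_lit 0) (nat_lit 75603161750) (nat_lit 1) (nat_lit 5) (nat_lit 3) (nat_lit 4) (nat_lit 1) (nat_lit 4) (nat_lit 419) (nat_lit 319) (nat_lit 282)))) (XT.nd (nat_lit 78) (nat_lit 0) (nat_lit 0) (XT.lf (nat_lit 0) (nat_lit 90285947264) (nat_lit 152) (nat_lit 221777923153) (nat_lit 0) (nat_lit 87129582188) (nat_lit 1) (nat_lit 5) (nat_lit 3) (nat_lit 4) (nat_lit 1) (nat_lit 4) (nat_lit 420) (nat_lit 319) (nat_lit 281)) (XT.nd (nat_lit 78) (nat_lit 0) (nat_lit 0) (XT.lf (nat_lit 0) (nat_lit 102708967592) (nat_lit 152) (nat_lit 228607002667) (nat_lit 0) (nat_lit 99539337202) (nat_lit 1) (nat_lit 5) (nat_lit 3) (nat_lit 4) (nat_lit 1) (nat_lit 4) (nat_lit 421) (nat_lit 319) (nat_lit 280)) (XT.lf (nat_lit 0) (nat_lit 116087879168) (nat_lit 152) (nat_lit 236058164865) (nat_lit 0) (nat_lit 112905966080) (nat_lit 1) (nat_lit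 5) (nat_lit 3) (nat_lit 4) (nat_lit 1) (nat_lit 4) (nat_lit 422) (nat_lit 319) (nat_lit 279))))) (XT.nd (nat_lit 234) (nat_lit 0) (nat_lit 0) (XT.nd (nat_lit 78) (nat_lit 0) (nat_lit 0) (XT.lf (nat_lit 0) (nat_lit 130501964433) (nat_lit 152) (nat_lit 244175564784) (nat_lit 0) (nat_lit 127308678476) (nat_lit 1) (nat_lit 5) (nat_lit 3) (nat_lit 4) (nat_lit 1) (nat_lit 4) (nat_lit 423) (nat_lit 319) (nat_lit 278)) (XT.nd (nat_lit 78) (nat_lit 0) (nat_lit 0) (XT.lf (nat_lit 0) (nat_lit 146036640187) (nat_lit 152) (nat_lit 253007305533) (nat_lit 0) (nat_lit 142832823795) (nat_lit 1) (nat_lit 5) (nat_lit 3) (nat_lit 4) (nat_lit 1) (nat_lit 4) (nat_lit 424) (nat_lit 319) (nat_lit 277)) (XT.lf (nat_lit 0) (nat_lit 162783963767) (nat_lit 152) (nat_lit 262605723353) (nat_lit 0) (nat_lit 159570396974) (nat_lit 1) (nat_lit 5) (nat_lit 3) (nat_lit 4) (nat_lit 1) (nat_lit 4) (nat_lit 425) (nat_lit 319)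 (nat_lit 276)))) (XT.nd (nat_lit 78) (nat_lit 0) (nat_lit 0) (XT.lf (nat_lit 0) (nat_lit 180843178574) (nat_lit 152) (nat_lit 273027697759) (nat_lit 0) (nat_lit 177620583631) (nat_lit 1) (nat_lit 5) (nat_lit 3) (nat_lit 4) (nat_lit 1) (nat_lit 4) (nat_lit 426) (nat_lit 319) (nat_lit 275)) (XT.nd (nat_lit 78) (nat_lit 0) (nat_lit 0) (XT.lf (nat_lit 0) (nat_lit 200321302176) (nat_lit 152) (nat_lit 284334988598) (nat_lit 0) (nat_lit 197090347835) (nat_lit 1) (nat_lit 5) (nat_lit 3) (nat_lit 4) (nat_lit 1) (nat_lit 4) (nat_lit 427) (nat_lit 319) (nat_lit 274)) (XT.lf (nat_lit 0) (nat_lit 221333760491) (nat_lit 152) (nat_lit 296594602038) (nat_lit 0) (nat_lit 218095065966) (nat_lit 1) (nat_lit 5) (nat_lit 3) (nat_lit 4) (nat_lit 1) (nat_lit 4) (nat_lit 428) (nat_lit 319) (nat_lit 273)))))) (XT.nd (nat_lit 468) (nat_lit 0) (nat_lit 0) (XT.nd (nat_lit 234) (nat_lit 0) (nat_lit 0) (XT.nd (nat_lit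 78) (nat_lit 0) (nat_lit 0) (XT.lf (nat_lit 0) (nat_lit 244005071791) (nat_lit 152) (nat_lit 309879187640) (nat_lit 0) (nat_lit 240759210429) (nat_lit 1) (nat_lit 5) (nat_lit 3) (nat_lit 4) (nat_lit 1) (nat_lit 4) (nat_lit 429) (nat_lit 319) (nat_lit 272)) (XT.nd (nat_lit 78) (nat_lit 0) (nat_lit 0) (XT.lf (nat_lit 0) (nat_lit 268469584586) (nat_lit 152) (nat_lit 324267468875) (nat_lit 0) (nat_lit 265217087265) (nat_lit 1) (nat_lit 5) (nat_lit 3) (nat_lit 4) (nat_lit 1) (nat_lit 4) (nat_lit 430) (nat_lit 319) (nat_lit 271)) (XT.lf (nat_lit 0) (nat_lit 294872273768) (nat_lit 152) (nat_lit 339844709632) (nat_lit 0) (nat_lit 291613632039) (nat_lit 1) (nat_lit 5) (nat_lit 3) (nat_lit 4) (nat_lit 1) (nat_lit 4) (nat_lit 431) (nat_lit 319) (nat_lit 270)))) (XT.nd (nat_lit 78) (nat_lit 0) (nat_lit 0) (XT.lf (nat_lit 0) (nat_lit 323369599716) (nat_lit 152) (nat_lit 356703219484) (nat_lit 0) (nat_lit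 320105268722) (nat_lit 1) (nat_lit 5) (nat_lit 3) (nat_lit 4) (nat_lit 1) (nat_lit 4) (nat_lit 432) (nat_lit 319) (nat_lit 269)) (XT.nd (nat_lit 78) (nat_lit 0) (nat_lit 0) (XT.lf (nat_lit 0) (nat_lit 354130435474) (nat_lit 152) (nat_lit 374942900713) (nat_lit 0) (nat_lit 350860836641) (nat_lit 1) (nat_lit 5) (nat_lit 3) (nat_lit 4) (nat_lit 1) (nat_lit 4) (nat_lit 433) (nat_lit 319) (nat_lit 268)) (XT.lf (nat_lit 0) (nat_lit 387337067475) (nat_lit 152) (nat_lit 394671840319) (nat_lit 0) (nat_lit 384062591014) (nat_lit 1) (nat_lit 5) (nat_lit 3) (nat_lit 4) (nat_lit 1) (nat_lit 4) (nat_lit 434) (nat_lit 319) (nat_lit 267))))) (XT.nd (nat_lit 48984) (nat_lit 0) (nat_lit 684) (XT.nd (nat_lit 48828) (nat_lit 0) (nat_lit 1064) (XT.lf (nat_lit 0) (nat_lit 423186275762) (nat_lit 152) (nat_lit 416006950537) (nat_lit 0) (nat_lit 419907282978) (nat_lit 1) (nat_lit 5) (nat_lit 3) (nat_lit 4) (nat_lit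 1) (nat_lit 4) (nat_lit 435) (nat_lit 319) (nat_lit 266)) (XT.nd (nat_lit 78) (nat_lit 76) (nat_lit 0) (XT.lf (nat_lit 0) (nat_lit 4975772730) (nat_lit 152) (nat_lit 1772460912) (nat_lit 0) (nat_lit 4975772730) (nat_lit 16) (nat_lit 5) (nat_lit 18) (nat_lit 4) (nat_lit 16) (nat_lit 4) (nat_lit 380) (nat_lit 320) (nat_lit 320)) (XT.lf (nat_lit 0) (nat_lit 15670261440) (nat_lit 76) (nat_lit 4745675473) (nat_lit 76) (nat_lit 4405117931) (nat_lit 15) (nat_lit 4) (nat_lit 16) (nat_lit 5) (nat_lit 16) (nat_lit 4) (nat_lit 381) (nat_lit 320) (nat_lit 319)))) (XT.nd (nat_lit 156) (nat_lit 152) (nat_lit 0) (XT.nd (nat_lit 78) (nat_lit 76) (nat_lit 0) (XT.lf (nat_lit 0) (nat_lit 5021706984) (nat_lit 152) (nat_lit 16891930615) (nat_lit 0) (nat_lit 4397051175) (nat_lit 13) (nat_lit 5) (nat_lit 15) (nat_lit 4) (nat_lit 13) (nat_lit 4) (nat_lit 382) (nat_lit 320) (nat_lit 318)) (XT.lf (nat_lit 0) (nat_lit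 810101880) (nat_lit 76) (nat_lit 14009981082) (nat_lit 76) (nat_lit 13107255557) (nat_lit 12) (nat_lit 4) (nat_lit 13) (nat_lit 5) (nat_lit 13) (nat_lit 4) (nat_lit 383) (nat_lit 320) (nat_lit 317))) (XT.nd (nat_lit 78) (nat_lit 152) (nat_lit 0) (XT.lf (nat_lit 0) (nat_lit 19624666312) (nat_lit 76) (nat_lit 5608670332) (nat_lit 76) (nat_lit 4448472848) (nat_lit 12) (nat_lit 4) (nat_lit 13) (nat_lit 5) (nat_lit 13) (nat_lit 4) (nat_lit 384) (nat_lit 320) (nat_lit 316)) (XT.lf (nat_lit 0) (nat_lit 4480834288) (nat_lit 152) (nat_lit 23956437149) (nat_lit 0) (nat_lit 3148836721) (nat_lit 10) (nat_lit 5) (nat_lit 12) (nat_lit 4) (nat_lit 10) (nat_lit 4) (nat_lit 385) (nat_lit 320) (nat_lit 315))))))))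
noncomputable def xc16 : XT := (XT.nd (nat_lit 1872) (nat_lit 152) (nat_lit 0) (XT.nd (nat_lit 936) (nat_lit 76) (nat_lit 0) (XT.nd (nat_lit 468) (nat_lit 228) (nat_lit 0) (XT.nd (nat_lit 234) (nat_lit 152) (nat_lit 0) (XT.nd (nat_lit 78) (nat_lit 76) (nat_lit 0) (XT.lf (nat_lit 0) (nat_lit 13820644621) (nat_lit 152) (nat_lit 7547473782) (nat_lit 0) (nat_lit 12278417810) (nat_lit 10) (nat_lit 5) (nat_lit 12) (nat_lit 4) (nat_lit 10) (nat_lit 4) (nat_lit 386) (nat_lit 320) (nat_lit 314)) (XT.nd (nat_lit 78) (nat_lit 0) (nat_lit 0) (XT.lf (nat_lit 0) (nat_lit 9715155611) (nat_lit 76) (nat_lit 13952771019) (nat_lit 76) (nat_lit 12215887502) (nat_lit 9) (nat_lit 4) (nat_lit 10) (nat_lit 5) (nat_lit 10) (nat_lit 4) (nat_lit 387) (nat_lit 320) (nat_lit 313)) (XT.lf (nat_lit 0) (nat_lit 27891779634) (nat_lit 76) (nat_lit 6168782526) (nat_lit 76) (nat_lit 4251661317) (nat_lit 9) (nat_lit 4) (nat_lit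 10) (nat_lit 5) (nat_lit 10) (nat_lit 4) (nat_lit 388) (nat_lit 320) (nat_lit 312)))) (XT.nd (nat_lit 78) (nat_lit 0) (nat_lit 0) (XT.lf (nat_lit 0) (nat_lit 3984807907) (nat_lit 152) (nat_lit 34957972023) (nat_lit 0) (nat_lit 2000038421) (nat_lit 7) (nat_lit 5) (nat_lit 9) (nat_lit 4) (nat_lit 7) (nat_lit 4) (nat_lit 389) (nat_lit 320) (nat_lit 311)) (XT.nd (nat_lit 78) (nat_lit 0) (nat_lit 0) (XT.lf (nat_lit 0) (nat_lit 12680431606) (nat_lit 152) (nat_lit 20554011495) (nat_lit 0) (nat_lit 10548495673) (nat_lit 7) (nat_lit 5) (nat_lit 9) (nat_lit 4) (nat_lit 7) (nat_lit 4) (nat_lit 390) (nat_lit 320) (nat_lit 310)) (XT.lf (nat_lit 0) (nat_lit 21755680186) (nat_lit 152) (nat_lit 5622931848) (nat_lit 0) (nat_lit 19487479023) (nat_lit 7) (nat_lit 5) (nat_lit 9) (nat_lit 4) (nat_lit 7) (nat_lit 4) (nat_lit 391) (nat_lit 320) (nat_lit 309))))) (XT.nd (nat_lit 234) (nat_lit 152) (nat_lit 0) (XT.nd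 (nat_lit 78) (nat_lit 0) (nat_lit 0) (XT.lf (nat_lit 0) (nat_lit 10251871295) (nat_lit 76) (nat_lit 21172522042) (nat_lit 76) (nat_lit 18778149371) (nat_lit 6) (nat_lit 4) (nat_lit 7) (nat_lit 5) (nat_lit 7) (nat_lit 4) (nat_lit 392) (nat_lit 320) (nat_lit 308)) (XT.nd (nat_lit 78) (nat_lit 0) (nat_lit 0) (XT.lf (nat_lit 0) (nat_lit 27043722707) (nat_lit 76) (nat_lit 14641242901) (nat_lit 76) (nat_lit 12130044759) (nat_lit 6) (nat_lit 4) (nat_lit 7) (nat_lit 5) (nat_lit 7) (nat_lit 4) (nat_lit 393) (nat_lit 320) (nat_lit 307)) (XT.lf (nat_lit 0) (nat_lit 44666210134) (nat_lit 76) (nat_lit 7841297808) (nat_lit 76) (nat_lit 5221927934) (nat_lit 6) (nat_lit 4) (nat_lit 7) (nat_lit 5) (nat_lit 7) (nat_lit 4) (nat_lit 394) (nat_lit 320) (nat_lit 306)))) (XT.nd (nat_lit 78) (nat_lit 0) (nat_lit 0) (XT.lf (nat_lit 0) (nat_lit 1264184298) (nat_lit 76) (nat_lit 679090425) (nat_lit 152) (nat_lit 60023202993)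 (nat_lit 4) (nat_lit 5) (nat_lit 5) (nat_lit 5) (nat_lit 6) (nat_lit 4) (nat_lit 395) (nat_lit 320) (nat_lit 305)) (XT.nd (nat_lit 78) (nat_lit 0) (nat_lit 0) (XT.lf (nat_lit 0) (nat_lit 9606254925) (nat_lit 152) (nat_lit 49998681920) (nat_lit 0) (nat_lit 6927903772) (nat_lit 4) (nat_lit 5) (nat_lit 6) (nat_lit 4) (nat_lit 4) (nat_lit 4) (nat_lit 396) (nat_lit 320) (nat_lit 304)) (XT.lf (nat_lit 0) (nat_lit 17674851695) (nat_lit 152) (nat_lit 38885325141) (nat_lit 0) (nat_lit 14914719391) (nat_lit 4) (nat_lit 5) (nat_lit 6) (nat_lit 4) (nat_lit 4) (nat_lit 4) (nat_lit 397) (nat_lit 320) (nat_lit 303)))))) (XT.nd (nat_lit 468) (nat_lit 0) (nat_lit 0) (XT.nd (nat_lit 234) (nat_lit 76) (nat_lit 0) (XT.nd (nat_lit 78) (nat_lit 0) (nat_lit 0) (XT.lf (nat_lit 0) (nat_lit 26186276437) (nat_lit 152) (nat_lit 27285763650) (nat_lit 0) (nat_lit 23350420845) (nat_lit 4) (nat_lit 5) (nat_lit 6) (nat_lit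 4) (nat_lit 4) (nat_lit 4) (nat_lit 398) (nat_lit 320) (nat_lit 302)) (XT.nd (nat_lit 78) (nat_lit 0) (nat_lit 0) (XT.lf (nat_lit 0) (nat_lit 35190967223) (nat_lit 152) (nat_lit 15131259302) (nat_lit 0) (nat_lit 32284997475) (nat_lit 4) (nat_lit 5) (nat_lit 6) (nat_lit 4) (nat_lit 4) (nat_lit 4) (nat_lit 399) (nat_lit 320) (nat_lit 301)) (XT.lf (nat_lit 0) (nat_lit 44742285183) (nat_lit 152) (nat_lit 2349785407) (nat_lit 0) (nat_lit 41771394921) (nat_lit 4) (nat_lit 5) (nat_lit 6) (nat_lit 4) (nat_lit 4) (nat_lit 4) (nat_lit 400) (nat_lit 320) (nat_lit 300)))) (XT.nd (nat_lit 78) (nat_lit 0) (nat_lit 0) (XT.lf (nat_lit 0) (nat_lit 11502553654) (nat_lit 76) (nat_lit 43573864165) (nat_lit 76) (nat_lit 40542862315) (nat_lit 3) (nat_lit 4) (nat_lit 4) (nat_lit 5) (nat_lit 4) (nat_lit 4) (nat_lit 401) (nat_lit 320) (nat_lit 299)) (XT.nd (nat_lit 78) (nat_lit 0) (nat_lit 0) (XT.lf (nat_lit 0) (nat_lit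 26241082016) (nat_lit 76) (nat_lit 39883393735) (nat_lit 76) (nat_lit 36796733008) (nat_lit 3) (nat_lit 4) (nat_lit 4) (nat_lit 5) (nat_lit 4) (nat_lit 4) (nat_lit 402) (nat_lit 320) (nat_lit 298)) (XT.lf (nat_lit 0) (nat_lit 41875444587) (nat_lit 76) (nat_lit 36038584599) (nat_lit 76) (nat_lit 32900387875) (nat_lit 3) (nat_lit 4) (nat_lit 4) (nat_lit 5) (nat_lit 4) (nat_lit 4) (nat_lit 403) (nat_lit 320) (nat_lit 297))))) (XT.nd (nat_lit 234) (nat_lit 0) (nat_lit 0) (XT.nd (nat_lit 78) (nat_lit 0) (nat_lit 0) (XT.lf (nat_lit 0) (nat_lit 58498289442) (nat_lit 76) (nat_lit 32016652705) (nat_lit 76) (nat_lit 28830737465) (nat_lit 3) (nat_lit 4) (nat_lit 4) (nat_lit 5) (nat_lit 4) (nat_lit 4) (nat_lit 404) (nat_lit 320) (nat_lit 296)) (XT.nd (nat_lit 78) (nat_lit 0) (nat_lit 0) (XT.lf (nat_lit 0) (nat_lit 76208122328) (nat_lit 76) (nat_lit 27793764380) (nat_lit 76) (nat_lit 24563665329) (nat_lit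 3) (nat_lit 4) (nat_lit 4) (nat_lit 5) (nat_lit 4) (nat_lit 4) (nat_lit 405) (nat_lit 320) (nat_lit 295)) (XT.lf (nat_lit 0) (nat_lit 95109890403) (nat_lit 76) (nat_lit 23344895102) (nat_lit 76) (nat_lit 20073885115) (nat_lit 3) (nat_lit 4) (nat_lit 4) (nat_lit 5) (nat_lit 4) (nat_lit 4) (nat_lit 406) (nat_lit 320) (nat_lit 294)))) (XT.nd (nat_lit 78) (nat_lit 0) (nat_lit 0) (XT.lf (nat_lit 0) (nat_lit 115315604145) (nat_lit 76) (nat_lit 18643681201) (nat_lit 76) (nat_lit 15334790717) (nat_lit 3) (nat_lit 4) (nat_lit 4) (nat_lit 5) (nat_lit 4) (nat_lit 4) (nat_lit 407) (nat_lit 320) (nat_lit 293)) (XT.nd (nat_lit 78) (nat_lit 0) (nat_lit 0) (XT.lf (nat_lit 0) (nat_lit 136945001117) (nat_lit 76) (nat_lit 13662263632) (nat_lit 76) (nat_lit 10318298614) (nat_lit 3) (nat_lit 4) (nat_lit 4) (nat_lit 5) (nat_lit 4) (nat_lit 4) (nat_lit 408) (nat_lit 320) (nat_lit 292)) (XT.lf (nat_lit 0) (nat_lit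 160126255522) (nat_lit 76) (nat_lit 8371122882) (nat_lit 76) (nat_lit 4994681444) (nat_lit 3) (nat_lit 4) (nat_lit 4) (nat_lit 5) (nat_lit 4) (nat_lit 4) (nat_lit 409) (nat_lit 320) (nat_lit 291))))))) (XT.nd (nat_lit 936) (nat_lit 0) (nat_lit 0) (XT.nd (nat_lit 468) (nat_lit 0) (nat_lit 0) (XT.nd (nat_lit 234) (nat_lit 0) (nat_lit 0) (XT.nd (nat_lit 78) (nat_lit 76) (nat_lit 0) (XT.lf (nat_lit 0) (nat_lit 646240522) (nat_lit 152) (nat_lit 2081719127) (nat_lit 76) (nat_lit 184339552839) (nat_lit 2) (nat_lit 5) (nat_lit 4) (nat_lit 5) (nat_lit 3) (nat_lit 4) (nat_lit 410) (nat_lit 320) (nat_lit 290)) (XT.nd (nat_lit 78) (nat_lit 0) (nat_lit 0) (XT.lf (nat_lit 0) (nat_lit 6702074554) (nat_lit 152) (nat_lit 191584645685) (nat_lit 0) (nat_lit 3431259798) (nat_lit 1) (nat_lit 5) (nat_lit 3) (nat_lit 4) (nat_lit 1) (nat_lit 4) (nat_lit 411) (nat_lit 320) (nat_lit 289)) (XT.lf (nat_lit 0) (nat_lit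 13249367378) (nat_lit 152) (nat_lit 194336772336) (nat_lit 0) (nat_lit 9953999452) (nat_lit 1) (nat_lit 5) (nat_lit 3) (nat_lit 4) (nat_lit 1) (nat_lit 4) (nat_lit 412) (nat_lit 320) (nat_lit 288)))) (XT.nd (nat_lit 78) (nat_lit 0) (nat_lit 0) (XT.lf (nat_lit 0) (nat_lit 20250200128) (nat_lit 152) (nat_lit 197449288788) (nat_lit 0) (nat_lit 16932097784) (nat_lit 1) (nat_lit 5) (nat_lit 3) (nat_lit 4) (nat_lit 1) (nat_lit 4) (nat_lit 413) (nat_lit 320) (nat_lit 287)) (XT.nd (nat_lit 78) (nat_lit 0) (nat_lit 0) (XT.lf (nat_lit 0) (nat_lit 27746059220) (nat_lit 152) (nat_lit 200940639581) (nat_lit 0) (nat_lit 24406906489) (nat_lit 1) (nat_lit 5) (nat_lit 3) (nat_lit 4) (nat_lit 1) (nat_lit 4) (nat_lit 414) (nat_lit 320) (nat_lit 286)) (XT.lf (nat_lit 0) (nat_lit 35781364560) (nat_lit 152) (nat_lit 204831514202) (nat_lit 0) (nat_lit 32422720730) (nat_lit 1) (nat_lit 5) (nat_lit 3) (nat_lit 4)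 (nat_lit 1) (nat_lit 4) (nat_lit 415) (nat_lit 320) (nat_lit 285))))) (XT.nd (nat_lit 234) (nat_lit 0) (nat_lit 0) (XT.nd (nat_lit 78) (nat_lit 0) (nat_lit 0) (XT.lf (nat_lit 0) (nat_lit 44403732772) (nat_lit 152) (nat_lit 209144969686) (nat_lit 0) (nat_lit 41027041628) (nat_lit 1) (nat_lit 5) (nat_lit 3) (nat_lit 4) (nat_lit 1) (nat_lit 4) (nat_lit 416) (nat_lit 320) (nat_lit 284)) (XT.nd (nat_lit 78) (nat_lit 0) (nat_lit 0) (XT.lf (nat_lit 0) (nat_lit 53664259370) (nat_lit 152) (nat_lit 213906567250) (nat_lit 0) (nat_lit 50270857751) (nat_lit 1) (nat_lit 5) (nat_lit 3) (nat_lit 4) (nat_lit 1) (nat_lit 4) (nat_lit 417) (nat_lit 320) (nat_lit 283)) (XT.lf (nat_lit 0) (nat_lit 63617821551) (nat_lit 152) (nat_lit 219144523769) (nat_lit 0) (nat_lit 60208947270) (nat_lit 1) (nat_lit 5) (nat_lit 3) (nat_lit 4) (nat_lit 1) (nat_lit 4) (nat_lit 418) (nat_lit 320) (nat_lit 282)))) (XT.nd (nat_lit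 78) (nat_lit 0) (nat_lit 0) (XT.lf (nat_lit 0) (nat_lit 74323403386) (nat_lit 152) (nat_lit 224889878986) (nat_lit 0) (nat_lit 70900202565) (nat_lit 1) (nat_lit 5) (nat_lit 3) (nat_lit 4) (nat_lit 1) (nat_lit 4) (nat_lit 419) (nat_lit 320) (nat_lit 281)) (XT.nd (nat_lit 78) (nat_lit 0) (nat_lit 0) (XT.lf (nat_lit 0) (nat_lit 85844445360) (nat_lit 152) (nat_lit 231176679449) (nat_lit 0) (nat_lit 82407979225) (nat_lit 1) (nat_lit 5) (nat_lit 3) (nat_lit 4) (nat_lit 1) (nat_lit 4) (nat_lit 420) (nat_lit 320) (nat_lit 280)) (XT.lf (nat_lit 0) (nat_lit 98249220314) (nat_lit 152) (nat_lit 238042180272) (nat_lit 0) (nat_lit 94800471480) (nat_lit 1) (nat_lit 5) (nat_lit 3) (nat_lit 4) (nat_lit 1) (nat_lit 4) (nat_lit 421) (nat_lit 320) (nat_lit 279)))))) (XT.nd (nat_lit 468) (nat_lit 0) (nat_lit 0) (XT.nd (nat_lit 234) (nat_lit 0) (nat_lit 0) (XT.nd (nat_lit 78) (nat_lit 0) (nat_lit 0) (XT.lf (nat_lit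 0) (nat_lit 111611238026) (nat_lit 152) (nat_lit 245527065905) (nat_lit 0) (nat_lit 108151116324) (nat_lit 1) (nat_lit 5) (nat_lit 3) (nat_lit 4) (nat_lit 1) (nat_lit 4) (nat_lit 422) (nat_lit 320) (nat_lit 278)) (XT.nd (nat_lit 78) (nat_lit 0) (nat_lit 0) (XT.lf (nat_lit 0) (nat_lit 126009680823) (nat_lit 152) (nat_lit 253675691226) (nat_lit 0) (nat_lit 122539028687) (nat_lit 1) (nat_lit 5) (nat_lit 3) (nat_lit 4) (nat_lit 1) (nat_lit 4) (nat_lit 423) (nat_lit 320) (nat_lit 277)) (XT.lf (nat_lit 0) (nat_lit 141529872811) (nat_lit 152) (nat_lit 262536344384) (nat_lit 0) (nat_lit 138049470273) (nat_lit 1) (nat_lit 5) (nat_lit 3) (nat_lit 4) (nat_lit 1) (nat_lit 4) (nat_lit 424) (nat_lit 320) (nat_lit 276)))) (XT.nd (nat_lit 78) (nat_lit 0) (nat_lit 0) (XT.lf (nat_lit 0) (nat_lit 158263785497) (nat_lit 152) (nat_lit 272161532955) (nat_lit 0) (nat_lit 154774354809) (nat_lit 1) (nat_lit 5) (nat_lit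 3) (nat_lit 4) (nat_lit 1) (nat_lit 4) (nat_lit 425) (nat_lit 320) (nat_lit 275)) (XT.nd (nat_lit 78) (nat_lit 0) (nat_lit 0) (XT.lf (nat_lit 0) (nat_lit 176310582809) (nat_lit 152) (nat_lit 282608295092) (nat_lit 0) (nat_lit 172812792723) (nat_lit 1) (nat_lit 5) (nat_lit 3) (nat_lit 4) (nat_lit 1) (nat_lit 4) (nat_lit 426) (nat_lit 320) (nat_lit 274)) (XT.lf (nat_lit 0) (nat_lit 195777208731) (nat_lit 152) (nat_lit 293938537533) (nat_lit 0) (nat_lit 192271678461) (nat_lit 1) (nat_lit 5) (nat_lit 3) (nat_lit 4) (nat_lit 1) (nat_lit 4) (nat_lit 427) (nat_lit 320) (nat_lit 273))))) (XT.nd (nat_lit 234) (nat_lit 0) (nat_lit 0) (XT.nd (nat_lit 78) (nat_lit 0) (nat_lit 0) (XT.lf (nat_lit 0) (nat_lit 216779021046) (nat_lit 152) (nat_lit 306219402458) (nat_lit 0) (nat_lit 213266323939) (nat_lit 1) (nat_lit 5) (nat_lit 3) (nat_lit 4) (nat_lit 1) (nat_lit 4) (nat_lit 428) (nat_lit 320) (nat_lit 272))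 (XT.nd (nat_lit 78) (nat_lit 0) (nat_lit 0) (XT.lf (nat_lit 0) (nat_lit 239440474937) (nat_lit 152) (nat_lit 319523665360) (nat_lit 0) (nat_lit 235921141871) (nat_lit 1) (nat_lit 5) (nat_lit 3) (nat_lit 4) (nat_lit 1) (nat_lit 4) (nat_lit 429) (nat_lit 320) (nat_lit 271)) (XT.lf (nat_lit 0) (nat_lit 263895860503) (nat_lit 152) (nat_lit 333930166317) (nat_lit 0) (nat_lit 260370383030) (nat_lit 1) (nat_lit 5) (nat_lit 3) (nat_lit 4) (nat_lit 1) (nat_lit 4) (nat_lit 430) (nat_lit 320) (nat_lit 270)))) (XT.nd (nat_lit 156) (nat_lit 0) (nat_lit 0) (XT.nd (nat_lit 78) (nat_lit 0) (nat_lit 0) (XT.lf (nat_lit 0) (nat_lit 290290098547) (nat_lit 152) (nat_lit 349524277187) (nat_lit 0) (nat_lit 286758931807) (nat_lit 1) (nat_lit 5) (nat_lit 3) (nat_lit 4) (nat_lit 1) (nat_lit 4) (nat_lit 431) (nat_lit 320) (nat_lit 269)) (XT.lf (nat_lit 0) (nat_lit 318779599367) (nat_lit 152) (nat_lit 366398407515)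 (nat_lit 0) (nat_lit 315243164789) (nat_lit 1) (nat_lit 5) (nat_lit 3) (nat_lit 4) (nat_lit 1) (nat_lit 4) (nat_lit 432) (nat_lit 320) (nat_lit 268))) (XT.nd (nat_lit 78) (nat_lit 0) (nat_lit 0) (XT.lf (nat_lit 0) (nat_lit 349533189636) (nat_lit 152) (nat_lit 384652552147) (nat_lit 0) (nat_lit 345991877429) (nat_lit 1) (nat_lit 5) (nat_lit 3) (nat_lit 4) (nat_lit 1) (nat_lit 4) (nat_lit 433) (nat_lit 320) (nat_lit 267)) (XT.lf (nat_lit 0) (nat_lit 382733112851) (nat_lit 152) (nat_lit 404394883793) (nat_lit 0) (nat_lit 379187284322) (nat_lit 1) (nat_lit 5) (nat_lit 3) (nat_lit 4) (nat_lit 1) (nat_lit 4) (nat_lit 434) (nat_lit 320) (nat_lit 266))))))))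
noncomputable def xc17 : XT := (XT.nd (nat_lit 50466) (nat_lit 0) (nat_lit 0) (XT.nd (nat_lit 49530) (nat_lit 0) (nat_lit 228) (XT.nd (nat_lit 49062) (nat_lit 0) (nat_lit 608) (XT.nd (nat_lit 48828) (nat_lit 0) (nat_lit 912) (XT.nd (nat_lit 48672) (nat_lit 0) (nat_lit 1140) (XT.lf (nat_lit 0) (nat_lit 418576109299) (nat_lit 152) (nat_lit 425742394047) (nat_lit 0) (nat_lit 415026098989) (nat_lit 1) (nat_lit 5) (nat_lit 3) (nat_lit 4) (nat_lit 1) (nat_lit 4) (nat_lit 435) (nat_lit 320) (nat_lit 265)) (XT.nd (nat_lit 78) (nat_lit 152) (nat_lit 0) (XT.lf (nat_lit 0) (nat_lit 1577661147) (nat_lit 76) (nat_lit 4463073636) (nat_lit 76) (nat_lit 4463073636) (nat_lit 18) (nat_lit 4) (nat_lit 19) (nat_lit 5) (nat_lit 19) (nat_lit 4) (nat_lit 378) (nat_lit 321) (nat_lit 321)) (XT.lf (nat_lit 0) (nat_lit 379224247) (nat_lit 152) (nat_lit 21798623253) (nat_lit 0) (nat_lit 11422102) (nat_lit 16) (nat_lit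 5) (nat_lit 18) (nat_lit 4) (nat_lit 16) (nat_lit 4) (nat_lit 379) (nat_lit 321) (nat_lit 320)))) (XT.nd (nat_lit 78) (nat_lit 228) (nat_lit 0) (XT.lf (nat_lit 0) (nat_lit 10071463726) (nat_lit 152) (nat_lit 4025864375) (nat_lit 0) (nat_lit 9363104038) (nat_lit 16) (nat_lit 5) (nat_lit 18) (nat_lit 4) (nat_lit 16) (nat_lit 4) (nat_lit 380) (nat_lit 321) (nat_lit 319)) (XT.nd (nat_lit 78) (nat_lit 152) (nat_lit 0) (XT.lf (nat_lit 0) (nat_lit 14713375382) (nat_lit 76) (nat_lit 5578018012) (nat_lit 76) (nat_lit 4554327267) (nat_lit 15) (nat_lit 4) (nat_lit 16) (nat_lit 5) (nat_lit 16) (nat_lit 4) (nat_lit 381) (nat_lit 321) (nat_lit 318)) (XT.lf (nat_lit 0) (nat_lit 4615010570) (nat_lit 152) (nat_lit 18371596926) (nat_lit 0) (nat_lit 3361997287) (nat_lit 13) (nat_lit 5) (nat_lit 15) (nat_lit 4) (nat_lit 13) (nat_lit 4) (nat_lit 382) (nat_lit 321) (nat_lit 317))))) (XT.nd (nat_lit 234) (nat_lit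 76) (nat_lit 0) (XT.nd (nat_lit 78) (nat_lit 228) (nat_lit 0) (XT.lf (nat_lit 0) (nat_lit 14184834426) (nat_lit 152) (nat_lit 1117517577) (nat_lit 0) (nat_lit 12674349184) (nat_lit 13) (nat_lit 5) (nat_lit 15) (nat_lit 4) (nat_lit 13) (nat_lit 4) (nat_lit 383) (nat_lit 321) (nat_lit 316)) (XT.nd (nat_lit 78) (nat_lit 152) (nat_lit 0) (XT.lf (nat_lit 0) (nat_lit 17256412534) (nat_lit 76) (nat_lit 7117437194) (nat_lit 76) (nat_lit 5368551991) (nat_lit 12) (nat_lit 4) (nat_lit 13) (nat_lit 5) (nat_lit 13) (nat_lit 4) (nat_lit 384) (nat_lit 321) (nat_lit 315)) (XT.lf (nat_lit 0) (nat_lit 3323606412) (nat_lit 152) (nat_lit 26889385417) (nat_lit 0) (nat_lit 1447772214) (nat_lit 10) (nat_lit 5) (nat_lit 12) (nat_lit 4) (nat_lit 10) (nat_lit 4) (nat_lit 385) (nat_lit 321) (nat_lit 314)))) (XT.nd (nat_lit 78) (nat_lit 76) (nat_lit 0) (XT.lf (nat_lit 0) (nat_lit 12475246574) (nat_lit 152) (nat_lit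 10850612768) (nat_lit 0) (nat_lit 10404755669) (nat_lit 10) (nat_lit 5) (nat_lit 12) (nat_lit 4) (nat_lit 10) (nat_lit 4) (nat_lit 386) (nat_lit 321) (nat_lit 313)) (XT.nd (nat_lit 78) (nat_lit 0) (nat_lit 0) (XT.lf (nat_lit 0) (nat_lit 5948697252) (nat_lit 76) (nat_lit 16140794721) (nat_lit 76) (nat_lit 13890066124) (nat_lit 9) (nat_lit 4) (nat_lit 10) (nat_lit 5) (nat_lit 10) (nat_lit 4) (nat_lit 387) (nat_lit 321) (nat_lit 312)) (XT.lf (nat_lit 0) (nat_lit 23797448422) (nat_lit 76) (nat_lit 8518234474) (nat_lit 76) (nat_lit 6100619126) (nat_lit 9) (nat_lit 4) (nat_lit 10) (nat_lit 5) (nat_lit 10) (nat_lit 4) (nat_lit 388) (nat_lit 321) (nat_lit 311)))))) (XT.nd (nat_lit 468) (nat_lit 152) (nat_lit 0) (XT.nd (nat_lit 234) (nat_lit 76) (nat_lit 0) (XT.nd (nat_lit 78) (nat_lit 0) (nat_lit 0) (XT.lf (nat_lit 0) (nat_lit 1392325639) (nat_lit 76) (nat_lit 541560096) (nat_lit 152) (nat_lit 39127522550)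 (nat_lit 7) (nat_lit 5) (nat_lit 8) (nat_lit 5) (nat_lit 9) (nat_lit 4) (nat_lit 389) (nat_lit 321) (nat_lit 310)) (XT.nd (nat_lit 78) (nat_lit 0) (nat_lit 0) (XT.lf (nat_lit 0) (nat_lit 10469119060) (nat_lit 152) (nat_lit 25557242676) (nat_lit 0) (nat_lit 7883196575) (nat_lit 7) (nat_lit 5) (nat_lit 9) (nat_lit 4) (nat_lit 7) (nat_lit 4) (nat_lit 390) (nat_lit 321) (nat_lit 309)) (XT.lf (nat_lit 0) (nat_lit 19403686987) (nat_lit 152) (nat_lit 10904473981) (nat_lit 0) (nat_lit 16691592994) (nat_lit 7) (nat_lit 5) (nat_lit 9) (nat_lit 4) (nat_lit 7) (nat_lit 4) (nat_lit 391) (nat_lit 321) (nat_lit 308)))) (XT.nd (nat_lit 78) (nat_lit 0) (nat_lit 0) (XT.lf (nat_lit 0) (nat_lit 4529481631) (nat_lit 76) (nat_lit 24323316105) (nat_lit 76) (nat_lit 21494396641) (nat_lit 6) (nat_lit 4) (nat_lit 7) (nat_lit 5) (nat_lit 7) (nat_lit 4) (nat_lit 392) (nat_lit 321) (nat_lit 307)) (XT.nd (nat_lit 78)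 (nat_lit 0) (nat_lit 0) (XT.lf (nat_lit 0) (nat_lit 21074836842) (nat_lit 76) (nat_lit 17914073685) (nat_lit 76) (nat_lit 14976982489) (nat_lit 6) (nat_lit 4) (nat_lit 7) (nat_lit 5) (nat_lit 7) (nat_lit 4) (nat_lit 393) (nat_lit 321) (nat_lit 306)) (XT.lf (nat_lit 0) (nat_lit 38469087045) (nat_lit 76) (nat_lit 11227125556) (nat_lit 76) (nat_lit 8189875348) (nat_lit 6) (nat_lit 4) (nat_lit 7) (nat_lit 5) (nat_lit 7) (nat_lit 4) (nat_lit 394) (nat_lit 321) (nat_lit 305))))) (XT.nd (nat_lit 234) (nat_lit 0) (nat_lit 0) (XT.nd (nat_lit 78) (nat_lit 152) (nat_lit 0) (XT.lf (nat_lit 0) (nat_lit 56815309279) (nat_lit 76) (nat_lit 4222845357) (nat_lit 76) (nat_lit 1092855325) (nat_lit 6) (nat_lit 4) (nat_lit 7) (nat_lit 5) (nat_lit 7) (nat_lit 4) (nat_lit 395) (nat_lit 321) (nat_lit 304)) (XT.nd (nat_lit 78) (nat_lit 0) (nat_lit 0) (XT.lf (nat_lit 0) (nat_lit 6357405302) (nat_lit 152) (nat_lit 57058530362)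 (nat_lit 0) (nat_lit 3294681263) (nat_lit 4) (nat_lit 5) (nat_lit 6) (nat_lit 4) (nat_lit 4) (nat_lit 4) (nat_lit 396) (nat_lit 321) (nat_lit 303)) (XT.lf (nat_lit 0) (nat_lit 14328569491) (nat_lit 152) (nat_lit 46138858117) (nat_lit 0) (nat_lit 11190122164) (nat_lit 4) (nat_lit 5) (nat_lit 6) (nat_lit 4) (nat_lit 4) (nat_lit 4) (nat_lit 397) (nat_lit 321) (nat_lit 302)))) (XT.nd (nat_lit 78) (nat_lit 0) (nat_lit 0) (XT.lf (nat_lit 0) (nat_lit 22749778879) (nat_lit 152) (nat_lit 34718634156) (nat_lit 0) (nat_lit 19541217397) (nat_lit 4) (nat_lit 5) (nat_lit 6) (nat_lit 4) (nat_lit 4) (nat_lit 4) (nat_lit 398) (nat_lit 321) (nat_lit 301)) (XT.nd (nat_lit 78) (nat_lit 0) (nat_lit 0) (XT.lf (nat_lit 0) (nat_lit 31670936930) (nat_lit 152) (nat_lit 22730183078) (nat_lit 0) (nat_lit 28397454933) (nat_lit 4) (nat_lit 5) (nat_lit 6) (nat_lit 4) (nat_lit 4) (nat_lit 4) (nat_lit 399) (nat_lit 321)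 (nat_lit 300)) (XT.lf (nat_lit 0) (nat_lit 41144909766) (nat_lit 152) (nat_lit 10102462210) (nat_lit 0) (nat_lit 37811316181) (nat_lit 4) (nat_lit 5) (nat_lit 6) (nat_lit 4) (nat_lit 4) (nat_lit 4) (nat_lit 400) (nat_lit 321) (nat_lit 299))))))) (XT.nd (nat_lit 936) (nat_lit 0) (nat_lit 0) (XT.nd (nat_lit 468) (nat_lit 152) (nat_lit 0) (XT.nd (nat_lit 234) (nat_lit 0) (nat_lit 0) (XT.nd (nat_lit 78) (nat_lit 0) (nat_lit 0) (XT.lf (nat_lit 0) (nat_lit 3346467236) (nat_lit 76) (nat_lit 47933619943) (nat_lit 76) (nat_lit 44544367481) (nat_lit 3) (nat_lit 4) (nat_lit 4) (nat_lit 5) (nat_lit 4) (nat_lit 4) (nat_lit 401) (nat_lit 321) (nat_lit 298)) (XT.nd (nat_lit 78) (nat_lit 0) (nat_lit 0) (XT.lf (nat_lit 0) (nat_lit 17948818646) (nat_lit 76) (nat_lit 44310889382) (nat_lit 76) (nat_lit 40870100923) (nat_lit 3) (nat_lit 4) (nat_lit 4) (nat_lit 5) (nat_lit 4) (nat_lit 4) (nat_lit 402) (nat_lit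 321) (nat_lit 297)) (XT.lf (nat_lit 0) (nat_lit 33457091447) (nat_lit 76) (nat_lit 40528802349) (nat_lit 76) (nat_lit 37040295373) (nat_lit 3) (nat_lit 4) (nat_lit 4) (nat_lit 5) (nat_lit 4) (nat_lit 4) (nat_lit 403) (nat_lit 321) (nat_lit 296)))) (XT.nd (nat_lit 78) (nat_lit 0) (nat_lit 0) (XT.lf (nat_lit 0) (nat_lit 49963186515) (nat_lit 76) (nat_lit 36564946474) (nat_lit 76) (nat_lit 33032255687) (nat_lit 3) (nat_lit 4) (nat_lit 4) (nat_lit 5) (nat_lit 4) (nat_lit 4) (nat_lit 404) (nat_lit 321) (nat_lit 295)) (XT.nd (nat_lit 78) (nat_lit 0) (nat_lit 0) (XT.lf (nat_lit 0) (nat_lit 67564917747) (nat_lit 76) (nat_lit 32395832242) (nat_lit 76) (nat_lit 28822230519) (nat_lit 3) (nat_lit 4) (nat_lit 4) (nat_lit 5) (nat_lit 4) (nat_lit 4) (nat_lit 405) (nat_lit 321) (nat_lit 294)) (XT.lf (nat_lit 0) (nat_lit 86366591697) (nat_lit 76) (nat_lit 27996753791) (nat_lit 76) (nat_lit 24385271571) (nat_lit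 3) (nat_lit 4) (nat_lit 4) (nat_lit 5) (nat_lit 4) (nat_lit 4) (nat_lit 406) (nat_lit 321) (nat_lit 293))))) (XT.nd (nat_lit 234) (nat_lit 152) (nat_lit 0) (XT.nd (nat_lit 78) (nat_lit 0) (nat_lit 0) (XT.lf (nat_lit 0) (nat_lit 106479625694) (nat_lit 76) (nat_lit 23341642507) (nat_lit 76) (nat_lit 19695085753) (nat_lit 3) (nat_lit 4) (nat_lit 4) (nat_lit 5) (nat_lit 4) (nat_lit 4) (nat_lit 407) (nat_lit 321) (nat_lit 292)) (XT.nd (nat_lit 78) (nat_lit 0) (nat_lit 0) (XT.lf (nat_lit 0) (nat_lit 128023208086) (nat_lit 76) (nat_lit 18402912546) (nat_lit 76) (nat_lit 14723879372) (nat_lit 3) (nat_lit 4) (nat_lit 4) (nat_lit 5) (nat_lit 4) (nat_lit 4) (nat_lit 408) (nat_lit 321) (nat_lit 291)) (XT.lf (nat_lit 0) (nat_lit 151125004548) (nat_lit 76) (nat_lit 13151297360) (nat_lit 76) (nat_lit 9442193427) (nat_lit 3) (nat_lit 4) (nat_lit 4) (nat_lit 5) (nat_lit 4) (nat_lit 4) (nat_lit 409) (nat_lit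 321) (nat_lit 290)))) (XT.nd (nat_lit 78) (nat_lit 152) (nat_lit 0) (XT.lf (nat_lit 0) (nat_lit 175921914613) (nat_lit 76) (nat_lit 7555676266) (nat_lit 76) (nat_lit 3818729037) (nat_lit 3) (nat_lit 4) (nat_lit 4) (nat_lit 5) (nat_lit 4) (nat_lit 4) (nat_lit 410) (nat_lit 321) (nat_lit 289)) (XT.nd (nat_lit 78) (nat_lit 0) (nat_lit 0) (XT.lf (nat_lit 0) (nat_lit 581527118) (nat_lit 76) (nat_lit 1537621748) (nat_lit 152) (nat_lit 199842630437) (nat_lit 1) (nat_lit 5) (nat_lit 2) (nat_lit 5) (nat_lit 3) (nat_lit 4) (nat_lit 411) (nat_lit 321) (nat_lit 288)) (XT.lf (nat_lit 0) (nat_lit 8608664192) (nat_lit 152) (nat_lit 204175785554) (nat_lit 0) (nat_lit 5002379243) (nat_lit 1) (nat_lit 5) (nat_lit 3) (nat_lit 4) (nat_lit 1) (nat_lit 4) (nat_lit 412) (nat_lit 321) (nat_lit 287)))))) (XT.nd (nat_lit 468) (nat_lit 0) (nat_lit 0) (XT.nd (nat_lit 234) (nat_lit 0) (nat_lit 0) (XT.nd (nat_lit 78)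 (nat_lit 0) (nat_lit 0) (XT.lf (nat_lit 0) (nat_lit 15578227578) (nat_lit 152) (nat_lit 207350721729) (nat_lit 0) (nat_lit 11950892242) (nat_lit 1) (nat_lit 5) (nat_lit 3) (nat_lit 4) (nat_lit 1) (nat_lit 4) (nat_lit 413) (nat_lit 321) (nat_lit 286)) (XT.nd (nat_lit 78) (nat_lit 0) (nat_lit 0) (XT.lf (nat_lit 0) (nat_lit 23045133554) (nat_lit 152) (nat_lit 210899868563) (nat_lit 0) (nat_lit 19398307120) (nat_lit 1) (nat_lit 5) (nat_lit 3) (nat_lit 4) (nat_lit 1) (nat_lit 4) (nat_lit 414) (nat_lit 321) (nat_lit 285)) (XT.lf (nat_lit 0) (nat_lit 31053630454) (nat_lit 152) (nat_lit 214844258037) (nat_lit 0) (nat_lit 27388756706) (nat_lit 1) (nat_lit 5) (nat_lit 3) (nat_lit 4) (nat_lit 1) (nat_lit 4) (nat_lit 415) (nat_lit 321) (nat_lit 284)))) (XT.nd (nat_lit 78) (nat_lit 0) (nat_lit 0) (XT.lf (nat_lit 0) (nat_lit 39651176036) (nat_lit 152) (nat_lit 219207264310) (nat_lit 0) (nat_lit 35969591812)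 (nat_lit 1) (nat_lit 5) (nat_lit 3) (nat_lit 4) (nat_lit 1) (nat_lit 4) (nat_lit 416) (nat_lit 321) (nat_lit 283)) (XT.nd (nat_lit 78) (nat_lit 0) (nat_lit 0) (XT.lf (nat_lit 0) (nat_lit 48888718718) (nat_lit 152) (nat_lit 224014742235) (nat_lit 0) (nat_lit 45191661832) (nat_lit 1) (nat_lit 5) (nat_lit 3) (nat_lit 4) (nat_lit 1) (nat_lit 4) (nat_lit 417) (nat_lit 321) (nat_lit 282)) (XT.lf (nat_lit 0) (nat_lit 58820999495) (nat_lit 152) (nat_lit 229295180569) (nat_lit 0) (nat_lit 55109616069) (nat_lit 1) (nat_lit 5) (nat_lit 3) (nat_lit 4) (nat_lit 1) (nat_lit 4) (nat_lit 418) (nat_lit 321) (nat_lit 281))))) (XT.nd (nat_lit 234) (nat_lit 0) (nat_lit 0) (XT.nd (nat_lit 78) (nat_lit 0) (nat_lit 0) (XT.lf (nat_lit 0) (nat_lit 69506876326) (nat_lit 152) (nat_lit 235079870799) (nat_lit 0) (nat_lit 65782227586) (nat_lit 1) (nat_lit 5) (nat_lit 3) (nat_lit 4) (nat_lit 1) (nat_lit 4) (nat_lit 419)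 (nat_lit 321) (nat_lit 280)) (XT.nd (nat_lit 78) (nat_lit 0) (nat_lit 0) (XT.lf (nat_lit 0) (nat_lit 81009672926) (nat_lit 152) (nat_lit 241403092572) (nat_lit 0) (nat_lit 77272741488) (nat_lit 1) (nat_lit 5) (nat_lit 3) (nat_lit 4) (nat_lit 1) (nat_lit 4) (nat_lit 420) (nat_lit 321) (nat_lit 279)) (XT.lf (nat_lit 0) (nat_lit 93397554016) (nat_lit 152) (nat_lit 248302316829) (nat_lit 0) (nat_lit 89649249708) (nat_lit 1) (nat_lit 5) (nat_lit 3) (nat_lit 4) (nat_lit 1) (nat_lit 4) (nat_lit 421) (nat_lit 321) (nat_lit 278)))) (XT.nd (nat_lit 156) (nat_lit 0) (nat_lit 0) (XT.nd (nat_lit 78) (nat_lit 0) (nat_lit 0) (XT.lf (nat_lit 0) (nat_lit 106743929261) (nat_lit 152) (nat_lit 255818427865) (nat_lit 0) (nat_lit 102985094519) (nat_lit 1) (nat_lit 5) (nat_lit 3) (nat_lit 4) (nat_lit 1) (nat_lit 4) (nat_lit 422) (nat_lit 321) (nat_lit 277)) (XT.lf (nat_lit 0) (nat_lit 121127888292) (nat_lit 152)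 (nat_lit 263995965595) (nat_lit 0) (nat_lit 117359303148) (nat_lit 1) (nat_lit 5) (nat_lit 3) (nat_lit 4) (nat_lit 1) (nat_lit 4) (nat_lit 423) (nat_lit 321) (nat_lit 276))) (XT.nd (nat_lit 78) (nat_lit 0) (nat_lit 0) (XT.lf (nat_lit 0) (nat_lit 136634669385) (nat_lit 152) (nat_lit 272883389503) (nat_lit 0) (nat_lit 132857056092) (nat_lit 1) (nat_lit 5) (nat_lit 3) (nat_lit 4) (nat_lit 1) (nat_lit 4) (nat_lit 424) (nat_lit 321) (nat_lit 275)) (XT.lf (nat_lit 0) (nat_lit 153356164577) (nat_lit 152) (nat_lit 282533365805) (nat_lit 0) (nat_lit 149570191885) (nat_lit 1) (nat_lit 5) (nat_lit 3) (nat_lit 4) (nat_lit 1) (nat_lit 4) (nat_lit 425) (nat_lit 321) (nat_lit 274))))))))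
noncomputable def xc18 : XT := (XT.nd (nat_lit 50310) (nat_lit 0) (nat_lit 0) (XT.nd (nat_lit 49374) (nat_lit 0) (nat_lit 608) (XT.nd (nat_lit 468) (nat_lit 0) (nat_lit 0) (XT.nd (nat_lit 234) (nat_lit 0) (nat_lit 0) (XT.nd (nat_lit 78) (nat_lit 0) (nat_lit 0) (XT.lf (nat_lit 0) (nat_lit 171391464208) (nat_lit 152) (nat_lit 293003079545) (nat_lit 0) (nat_lit 167597751333) (nat_lit 1) (nat_lit 5) (nat_lit 3) (nat_lit 4) (nat_lit 1) (nat_lit 4) (nat_lit 426) (nat_lit 321) (nat_lit 273)) (XT.nd (nat_lit 78) (nat_lit 0) (nat_lit 0) (XT.lf (nat_lit 0) (nat_lit 190847444130) (nat_lit 152) (nat_lit 304354573471) (nat_lit 0) (nat_lit 187046564418) (nat_lit 1) (nat_lit 5) (nat_lit 3) (nat_lit 4) (nat_lit 1) (nat_lit 4) (nat_lit 427) (nat_lit 321) (nat_lit 272)) (XT.lf (nat_lit 0) (nat_lit 211839399036) (nat_lit 152) (nat_lit 316655115695) (nat_lit 0) (nat_lit 208031883365) (nat_lit 1) (nat_lit 5)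 (nat_lit 3) (nat_lit 4) (nat_lit 1) (nat_lit 4) (nat_lit 428) (nat_lit 321) (nat_lit 271)))) (XT.nd (nat_lit 78) (nat_lit 0) (nat_lit 0) (XT.lf (nat_lit 0) (nat_lit 234491725699) (nat_lit 152) (nat_lit 329977598320) (nat_lit 0) (nat_lit 230678065620) (nat_lit 1) (nat_lit 5) (nat_lit 3) (nat_lit 4) (nat_lit 1) (nat_lit 4) (nat_lit 429) (nat_lit 321) (nat_lit 270)) (XT.nd (nat_lit 78) (nat_lit 0) (nat_lit 0) (XT.lf (nat_lit 0) (nat_lit 258938660126) (nat_lit 152) (nat_lit 344400969391) (nat_lit 0) (nat_lit 255119310782) (nat_lit 1) (nat_lit 5) (nat_lit 3) (nat_lit 4) (nat_lit 1) (nat_lit 4) (nat_lit 430) (nat_lit 321) (nat_lit 269)) (XT.lf (nat_lit 0) (nat_lit 285325073041) (nat_lit 152) (nat_lit 360010700736) (nat_lit 0) (nat_lit 281500455858) (nat_lit 1) (nat_lit 5) (nat_lit 3) (nat_lit 4) (nat_lit 1) (nat_lit 4) (nat_lit 431) (nat_lit 321) (nat_lit 268))))) (XT.nd (nat_lit 234) (nat_lit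 0) (nat_lit 0) (XT.nd (nat_lit 78) (nat_lit 0) (nat_lit 0) (XT.lf (nat_lit 0) (nat_lit 313807328373) (nat_lit 152) (nat_lit 376899294466) (nat_lit 0) (nat_lit 309977833561) (nat_lit 1) (nat_lit 5) (nat_lit 3) (nat_lit 4) (nat_lit 1) (nat_lit 4) (nat_lit 432) (nat_lit 321) (nat_lit 267)) (XT.nd (nat_lit 78) (nat_lit 0) (nat_lit 0) (XT.lf (nat_lit 0) (nat_lit 344554209856) (nat_lit 152) (nat_lit 395166831139) (nat_lit 0) (nat_lit 340720198721) (nat_lit 1) (nat_lit 5) (nat_lit 3) (nat_lit 4) (nat_lit 1) (nat_lit 4) (nat_lit 433) (nat_lit 321) (nat_lit 266)) (XT.lf (nat_lit 0) (nat_lit 377747921232) (nat_lit 152) (nat_lit 414921562821) (nat_lit 0) (nat_lit 373909728317) (nat_lit 1) (nat_lit 5) (nat_lit 3) (nat_lit 4) (nat_lit 1) (nat_lit 4) (nat_lit 434) (nat_lit 321) (nat_lit 265)))) (XT.nd (nat_lit 48516) (nat_lit 0) (nat_lit 1368) (XT.lf (nat_lit 0) (nat_lit 413585165977) (nat_lit 152) (nat_lit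 436280554591) (nat_lit 0) (nat_lit 409743101043) (nat_lit 1) (nat_lit 5) (nat_lit 3) (nat_lit 4) (nat_lit 1) (nat_lit 4) (nat_lit 435) (nat_lit 321) (nat_lit 264)) (XT.nd (nat_lit 78) (nat_lit 152) (nat_lit 0) (XT.lf (nat_lit 0) (nat_lit 2693277174) (nat_lit 76) (nat_lit 3381045467) (nat_lit 76) (nat_lit 3381045467) (nat_lit 21) (nat_lit 4) (nat_lit 22) (nat_lit 5) (nat_lit 22) (nat_lit 4) (nat_lit 376) (nat_lit 322) (nat_lit 322)) (XT.lf (nat_lit 0) (nat_lit 2543377409) (nat_lit 152) (nat_lit 15255252541) (nat_lit 0) (nat_lit 2126289776) (nat_lit 19) (nat_lit 5) (nat_lit 21) (nat_lit 4) (nat_lit 19) (nat_lit 4) (nat_lit 377) (nat_lit 322) (nat_lit 321)))))) (XT.nd (nat_lit 468) (nat_lit 304) (nat_lit 0) (XT.nd (nat_lit 234) (nat_lit 228) (nat_lit 0) (XT.nd (nat_lit 78) (nat_lit 152) (nat_lit 0) (XT.lf (nat_lit 0) (nat_lit 2670094897) (nat_lit 76) (nat_lit 9576709035) (nat_lit 76) (nat_lit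 8773429150) (nat_lit 18) (nat_lit 4) (nat_lit 19) (nat_lit 5) (nat_lit 19) (nat_lit 4) (nat_lit 378) (nat_lit 322) (nat_lit 320)) (XT.nd (nat_lit 78) (nat_lit 76) (nat_lit 0) (XT.lf (nat_lit 0) (nat_lit 283816222) (nat_lit 152) (nat_lit 579042048) (nat_lit 76) (nat_lit 21351095466) (nat_lit 17) (nat_lit 5) (nat_lit 19) (nat_lit 5) (nat_lit 18) (nat_lit 4) (nat_lit 379) (nat_lit 322) (nat_lit 319)) (XT.lf (nat_lit 0) (nat_lit 9723569461) (nat_lit 152) (nat_lit 5471542060) (nat_lit 0) (nat_lit 8302652399) (nat_lit 16) (nat_lit 5) (nat_lit 18) (nat_lit 4) (nat_lit 16) (nat_lit 4) (nat_lit 380) (nat_lit 322) (nat_lit 318)))) (XT.nd (nat_lit 78) (nat_lit 152) (nat_lit 0) (XT.lf (nat_lit 0) (nat_lit 12793932829) (nat_lit 76) (nat_lit 6907077950) (nat_lit 76) (nat_lit 5194187686) (nat_lit 15) (nat_lit 4) (nat_lit 16) (nat_lit 5) (nat_lit 16) (nat_lit 4) (nat_lit 381) (nat_lit 322) (nat_lit 317))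 (XT.nd (nat_lit 78) (nat_lit 0) (nat_lit 0) (XT.lf (nat_lit 0) (nat_lit 3726697785) (nat_lit 152) (nat_lit 20847448183) (nat_lit 0) (nat_lit 1837901766) (nat_lit 13) (nat_lit 5) (nat_lit 15) (nat_lit 4) (nat_lit 13) (nat_lit 4) (nat_lit 382) (nat_lit 322) (nat_lit 316)) (XT.lf (nat_lit 0) (nat_lit 13096610380) (nat_lit 152) (nat_lit 3984132562) (nat_lit 0) (nat_lit 10969414399) (nat_lit 13) (nat_lit 5) (nat_lit 15) (nat_lit 4) (nat_lit 13) (nat_lit 4) (nat_lit 383) (nat_lit 322) (nat_lit 315))))) (XT.nd (nat_lit 234) (nat_lit 76) (nat_lit 0) (XT.nd (nat_lit 78) (nat_lit 152) (nat_lit 0) (XT.lf (nat_lit 0) (nat_lit 13921232697) (nat_lit 76) (nat_lit 9127218462) (nat_lit 76) (nat_lit 6779281775) (nat_lit 12) (nat_lit 4) (nat_lit 13) (nat_lit 5) (nat_lit 13) (nat_lit 4) (nat_lit 384) (nat_lit 322) (nat_lit 314)) (XT.nd (nat_lit 78) (nat_lit 0) (nat_lit 0) (XT.lf (nat_lit 0) (nat_lit 921351631)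 (nat_lit 76) (nat_lit 773125373) (nat_lit 152) (nat_lit 30065911520) (nat_lit 10) (nat_lit 5) (nat_lit 11) (nat_lit 5) (nat_lit 12) (nat_lit 4) (nat_lit 385) (nat_lit 322) (nat_lit 313)) (XT.lf (nat_lit 0) (nat_lit 10659814873) (nat_lit 152) (nat_lit 15130962775) (nat_lit 0) (nat_lit 8048790296) (nat_lit 10) (nat_lit 5) (nat_lit 12) (nat_lit 4) (nat_lit 10) (nat_lit 4) (nat_lit 386) (nat_lit 322) (nat_lit 312)))) (XT.nd (nat_lit 78) (nat_lit 0) (nat_lit 0) (XT.lf (nat_lit 0) (nat_lit 1198946690) (nat_lit 76) (nat_lit 18839631071) (nat_lit 76) (nat_lit 16061719744) (nat_lit 9) (nat_lit 4) (nat_lit 10) (nat_lit 5) (nat_lit 10) (nat_lit 4) (nat_lit 387) (nat_lit 322) (nat_lit 311)) (XT.nd (nat_lit 78) (nat_lit 0) (nat_lit 0) (XT.lf (nat_lit 0) (nat_lit 18744111886) (nat_lit 76) (nat_lit 11366541422) (nat_lit 76) (nat_lit 8434105325) (nat_lit 9) (nat_lit 4) (nat_lit 10) (nat_lit 5) (nat_lit 10)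 (nat_lit 4) (nat_lit 388) (nat_lit 322) (nat_lit 310)) (XT.lf (nat_lit 0) (nat_lit 37108206198) (nat_lit 76) (nat_lit 3583473902) (nat_lit 76) (nat_lit 507959314) (nat_lit 9) (nat_lit 4) (nat_lit 10) (nat_lit 5) (nat_lit 10) (nat_lit 4) (nat_lit 389) (nat_lit 322) (nat_lit 309))))))) (XT.nd (nat_lit 936) (nat_lit 228) (nat_lit 0) (XT.nd (nat_lit 468) (nat_lit 152) (nat_lit 0) (XT.nd (nat_lit 234) (nat_lit 76) (nat_lit 0) (XT.nd (nat_lit 78) (nat_lit 0) (nat_lit 0) (XT.lf (nat_lit 0) (nat_lit 7788285753) (nat_lit 152) (nat_lit 31539619131) (nat_lit 0) (nat_lit 4733052732) (nat_lit 7) (nat_lit 5) (nat_lit 9) (nat_lit 4) (nat_lit 7) (nat_lit 4) (nat_lit 390) (nat_lit 322) (nat_lit 308)) (XT.nd (nat_lit 78) (nat_lit 0) (nat_lit 0) (XT.lf (nat_lit 0) (nat_lit 16592593818) (nat_lit 152) (nat_lit 17144545762) (nat_lit 0) (nat_lit 13420535326) (nat_lit 7) (nat_lit 5) (nat_lit 9) (nat_lit 4) (nat_lit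 7) (nat_lit 4) (nat_lit 391) (nat_lit 322) (nat_lit 307)) (XT.lf (nat_lit 0) (nat_lit 25850375681) (nat_lit 152) (nat_lit 2094168632) (nat_lit 0) (nat_lit 22570145457) (nat_lit 7) (nat_lit 5) (nat_lit 9) (nat_lit 4) (nat_lit 7) (nat_lit 4) (nat_lit 392) (nat_lit 322) (nat_lit 306)))) (XT.nd (nat_lit 78) (nat_lit 0) (nat_lit 0) (XT.lf (nat_lit 0) (nat_lit 14153706682) (nat_lit 76) (nat_lit 21683764616) (nat_lit 76) (nat_lit 18303375381) (nat_lit 6) (nat_lit 4) (nat_lit 7) (nat_lit 5) (nat_lit 7) (nat_lit 4) (nat_lit 393) (nat_lit 322) (nat_lit 305)) (XT.nd (nat_lit 78) (nat_lit 0) (nat_lit 0) (XT.lf (nat_lit 0) (nat_lit 31336626123) (nat_lit 76) (nat_lit 15101443305) (nat_lit 76) (nat_lit 11628314244) (nat_lit 6) (nat_lit 4) (nat_lit 7) (nat_lit 5) (nat_lit 7) (nat_lit 4) (nat_lit 394) (nat_lit 322) (nat_lit 304)) (XT.lf (nat_lit 0) (nat_lit 49487171725) (nat_lit 76) (nat_lit 8194039790) (nat_lit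 76) (nat_lit 4635040521) (nat_lit 6) (nat_lit 4) (nat_lit 7) (nat_lit 5) (nat_lit 7) (nat_lit 4) (nat_lit 395) (nat_lit 322) (nat_lit 303))))) (XT.nd (nat_lit 234) (nat_lit 0) (nat_lit 0) (XT.nd (nat_lit 78) (nat_lit 0) (nat_lit 0) (XT.lf (nat_lit 0) (nat_lit 1812854941) (nat_lit 76) (nat_lit 846346845) (nat_lit 152) (nat_lit 64252897510) (nat_lit 4) (nat_lit 5) (nat_lit 5) (nat_lit 5) (nat_lit 6) (nat_lit 4) (nat_lit 396) (nat_lit 322) (nat_lit 302)) (XT.nd (nat_lit 78) (nat_lit 0) (nat_lit 0) (XT.lf (nat_lit 0) (nat_lit 10526936775) (nat_lit 152) (nat_lit 54345695795) (nat_lit 0) (nat_lit 6991576218) (nat_lit 4) (nat_lit 5) (nat_lit 6) (nat_lit 4) (nat_lit 4) (nat_lit 4) (nat_lit 397) (nat_lit 322) (nat_lit 301)) (XT.lf (nat_lit 0) (nat_lit 18864613429) (nat_lit 152) (nat_lit 43091525103) (nat_lit 0) (nat_lit 15264332357) (nat_lit 4) (nat_lit 5) (nat_lit 6) (nat_lit 4) (nat_lit 4) (nat_lit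 4) (nat_lit 398) (nat_lit 322) (nat_lit 300)))) (XT.nd (nat_lit 78) (nat_lit 0) (nat_lit 0) (XT.lf (nat_lit 0) (nat_lit 27708426355) (nat_lit 152) (nat_lit 31256827052) (nat_lit 0) (nat_lit 24048033696) (nat_lit 4) (nat_lit 5) (nat_lit 6) (nat_lit 4) (nat_lit 4) (nat_lit 4) (nat_lit 399) (nat_lit 322) (nat_lit 299)) (XT.nd (nat_lit 78) (nat_lit 0) (nat_lit 0) (XT.lf (nat_lit 0) (nat_lit 37110783334) (nat_lit 152) (nat_lit 18771470098) (nat_lit 0) (nat_lit 33394731798) (nat_lit 4) (nat_lit 5) (nat_lit 6) (nat_lit 4) (nat_lit 4) (nat_lit 4) (nat_lit 400) (nat_lit 322) (nat_lit 298)) (XT.lf (nat_lit 0) (nat_lit 47127402037) (nat_lit 152) (nat_lit 5561466940) (nat_lit 0) (nat_lit 43359814504) (nat_lit 4) (nat_lit 5) (nat_lit 6) (nat_lit 4) (nat_lit 4) (nat_lit 4) (nat_lit 401) (nat_lit 322) (nat_lit 297)))))) (XT.nd (nat_lit 468) (nat_lit 152) (nat_lit 0) (XT.nd (nat_lit 234) (nat_lit 0) (nat_lit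 0) (XT.nd (nat_lit 78) (nat_lit 0) (nat_lit 0) (XT.lf (nat_lit 0) (nat_lit 8730907485) (nat_lit 76) (nat_lit 49223046653) (nat_lit 76) (nat_lit 45407740604) (nat_lit 3) (nat_lit 4) (nat_lit 4) (nat_lit 5) (nat_lit 4) (nat_lit 4) (nat_lit 402) (nat_lit 322) (nat_lit 296)) (XT.nd (nat_lit 78) (nat_lit 0) (nat_lit 0) (XT.lf (nat_lit 0) (nat_lit 24122430499) (nat_lit 76) (nat_lit 45499035640) (nat_lit 76) (nat_lit 41639545779) (nat_lit 3) (nat_lit 4) (nat_lit 4) (nat_lit 5) (nat_lit 4) (nat_lit 4) (nat_lit 403) (nat_lit 322) (nat_lit 295)) (XT.lf (nat_lit 0) (nat_lit 40520423912) (nat_lit 76) (nat_lit 41588953858) (nat_lit 76) (nat_lit 37688553060) (nat_lit 3) (nat_lit 4) (nat_lit 4) (nat_lit 5) (nat_lit 4) (nat_lit 4) (nat_lit 404) (nat_lit 322) (nat_lit 294)))) (XT.nd (nat_lit 78) (nat_lit 0) (nat_lit 0) (XT.lf (nat_lit 0) (nat_lit 58022061019) (nat_lit 76) (nat_lit 37469630452) (nat_lit 76)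 (nat_lit 33531349158) (nat_lit 3) (nat_lit 4) (nat_lit 4) (nat_lit 5) (nat_lit 4) (nat_lit 4) (nat_lit 405) (nat_lit 322) (nat_lit 293)) (XT.nd (nat_lit 78) (nat_lit 0) (nat_lit 0) (XT.lf (nat_lit 0) (nat_lit 76731055225) (nat_lit 76) (nat_lit 33116654618) (nat_lit 76) (nat_lit 29143298790) (nat_lit 3) (nat_lit 4) (nat_lit 4) (nat_lit 5) (nat_lit 4) (nat_lit 4) (nat_lit 406) (nat_lit 322) (nat_lit 292)) (XT.lf (nat_lit 0) (nat_lit 96758274642) (nat_lit 76) (nat_lit 28504230942) (nat_lit 76) (nat_lit 24498398695) (nat_lit 3) (nat_lit 4) (nat_lit 4) (nat_lit 5) (nat_lit 4) (nat_lit 4) (nat_lit 407) (nat_lit 322) (nat_lit 291))))) (XT.nd (nat_lit 234) (nat_lit 152) (nat_lit 0) (XT.nd (nat_lit 78) (nat_lit 0) (nat_lit 0) (XT.lf (nat_lit 0) (nat_lit 118222399091) (nat_lit 76) (nat_lit 23605026545) (nat_lit 76) (nat_lit 19569123538) (nat_lit 3) (nat_lit 4) (nat_lit 4) (nat_lit 5) (nat_lit 4) (nat_lit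 4) (nat_lit 408) (nat_lit 322) (nat_lit 290)) (XT.nd (nat_lit 78) (nat_lit 0) (nat_lit 0) (XT.lf (nat_lit 0) (nat_lit 141250623383) (nat_lit 76) (nat_lit 18390009103) (nat_lit 76) (nat_lit 14326262800) (nat_lit 3) (nat_lit 4) (nat_lit 4) (nat_lit 5) (nat_lit 4) (nat_lit 4) (nat_lit 409) (nat_lit 322) (nat_lit 289)) (XT.lf (nat_lit 0) (nat_lit 165979411069) (nat_lit 76) (nat_lit 12828274809) (nat_lit 76) (nat_lit 8738747677) (nat_lit 3) (nat_lit 4) (nat_lit 4) (nat_lit 5) (nat_lit 4) (nat_lit 4) (nat_lit 410) (nat_lit 322) (nat_lit 288)))) (XT.nd (nat_lit 156) (nat_lit 0) (nat_lit 0) (XT.nd (nat_lit 78) (nat_lit 152) (nat_lit 0) (XT.lf (nat_lit 0) (nat_lit 192555303113) (nat_lit 76) (nat_lit 6886865239) (nat_lit 76) (nat_lit 2773466967) (nat_lit 3) (nat_lit 4) (nat_lit 4) (nat_lit 5) (nat_lit 4) (nat_lit 4) (nat_lit 411) (nat_lit 322) (nat_lit 287)) (XT.lf (nat_lit 0) (nat_lit 3117865211)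 (nat_lit 76) (nat_lit 420362294) (nat_lit 152) (nat_lit 214517953593) (nat_lit 1) (nat_lit 5) (nat_lit 2) (nat_lit 5) (nat_lit 3) (nat_lit 4) (nat_lit 412) (nat_lit 322) (nat_lit 286))) (XT.nd (nat_lit 78) (nat_lit 0) (nat_lit 0) (XT.lf (nat_lit 0) (nat_lit 10472274743) (nat_lit 152) (nat_lit 218164485071) (nat_lit 0) (nat_lit 6514211095) (nat_lit 1) (nat_lit 5) (nat_lit 3) (nat_lit 4) (nat_lit 1) (nat_lit 4) (nat_lit 413) (nat_lit 322) (nat_lit 285)) (XT.lf (nat_lit 0) (nat_lit 17912372280) (nat_lit 152) (nat_lit 221767146757) (nat_lit 0) (nat_lit 13936261318) (nat_lit 1) (nat_lit 5) (nat_lit 3) (nat_lit 4) (nat_lit 1) (nat_lit 4) (nat_lit 414) (nat_lit 322) (nat_lit 284))))))))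
noncomputable def xc19 : XT := (XT.nd (nat_lit 50154) (nat_lit 0) (nat_lit 228) (XT.nd (nat_lit 936) (nat_lit 0) (nat_lit 0) (XT.nd (nat_lit 468) (nat_lit 0) (nat_lit 0) (XT.nd (nat_lit 234) (nat_lit 0) (nat_lit 0) (XT.nd (nat_lit 78) (nat_lit 0) (nat_lit 0) (XT.lf (nat_lit 0) (nat_lit 25896046550) (nat_lit 152) (nat_lit 225761087020) (nat_lit 0) (nat_lit 21903225112) (nat_lit 1) (nat_lit 5) (nat_lit 3) (nat_lit 4) (nat_lit 1) (nat_lit 4) (nat_lit 415) (nat_lit 322) (nat_lit 283)) (XT.nd (nat_lit 78) (nat_lit 0) (nat_lit 0) (XT.lf (nat_lit 0) (nat_lit 34470608215) (nat_lit 152) (nat_lit 230169973653) (nat_lit 0) (nat_lit 30462314115) (nat_lit 1) (nat_lit 5) (nat_lit 3) (nat_lit 4) (nat_lit 1) (nat_lit 4) (nat_lit 416) (nat_lit 322) (nat_lit 282)) (XT.lf (nat_lit 0) (nat_lit 43686869494) (nat_lit 152) (nat_lit 235019933393) (nat_lit 0) (nat_lit 39664248854) (nat_lit 1) (nat_lit 5) (nat_lit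 3) (nat_lit 4) (nat_lit 1) (nat_lit 4) (nat_lit 417) (nat_lit 322) (nat_lit 281)))) (XT.nd (nat_lit 78) (nat_lit 0) (nat_lit 0) (XT.lf (nat_lit 0) (nat_lit 53599445267) (nat_lit 152) (nat_lit 240339706742) (nat_lit 0) (nat_lit 49563559313) (nat_lit 1) (nat_lit 5) (nat_lit 3) (nat_lit 4) (nat_lit 1) (nat_lit 4) (nat_lit 418) (nat_lit 322) (nat_lit 280)) (XT.nd (nat_lit 78) (nat_lit 0) (nat_lit 0) (XT.lf (nat_lit 0) (nat_lit 64267076724) (nat_lit 152) (nat_lit 246160818281) (nat_lit 0) (nat_lit 60218908072) (nat_lit 1) (nat_lit 5) (nat_lit 3) (nat_lit 4) (nat_lit 1) (nat_lit 4) (nat_lit 419) (nat_lit 322) (nat_lit 279)) (XT.lf (nat_lit 0) (nat_lit 75752979459) (nat_lit 152) (nat_lit 252517763488) (nat_lit 0) (nat_lit 71693437938) (nat_lit 1) (nat_lit 5) (nat_lit 3) (nat_lit 4) (nat_lit 1) (nat_lit 4) (nat_lit 420) (nat_lit 322) (nat_lit 278))))) (XT.nd (nat_lit 234) (nat_lit 0) (nat_lit 0)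 (XT.nd (nat_lit 78) (nat_lit 0) (nat_lit 0) (XT.lf (nat_lit 0) (nat_lit 88125218082) (nat_lit 152) (nat_lit 259448213148) (nat_lit 0) (nat_lit 84055146127) (nat_lit 1) (nat_lit 5) (nat_lit 3) (nat_lit 4) (nat_lit 1) (nat_lit 4) (nat_lit 421) (nat_lit 322) (nat_lit 277)) (XT.nd (nat_lit 78) (nat_lit 0) (nat_lit 0) (XT.lf (nat_lit 0) (nat_lit 101457109561) (nat_lit 152) (nat_lit 266993236594) (nat_lit 0) (nat_lit 97377287204) (nat_lit 1) (nat_lit 5) (nat_lit 3) (nat_lit 4) (nat_lit 1) (nat_lit 4) (nat_lit 422) (nat_lit 322) (nat_lit 276)) (XT.lf (nat_lit 0) (nat_lit 115827657698) (nat_lit 152) (nat_lit 275197545074) (nat_lit 0) (nat_lit 111738807190) (nat_lit 1) (nat_lit 5) (nat_lit 3) (nat_lit 4) (nat_lit 1) (nat_lit 4) (nat_lit 423) (nat_lit 322) (nat_lit 275)))) (XT.nd (nat_lit 78) (nat_lit 0) (nat_lit 0) (XT.lf (nat_lit 0) (nat_lit 131322021296) (nat_lit 152) (nat_lit 284109756713) (nat_lit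 0) (nat_lit 127224811391) (nat_lit 1) (nat_lit 5) (nat_lit 3) (nat_lit 4) (nat_lit 1) (nat_lit 4) (nat_lit 424) (nat_lit 322) (nat_lit 274)) (XT.nd (nat_lit 78) (nat_lit 0) (nat_lit 0) (XT.lf (nat_lit 0) (nat_lit 148032018807) (nat_lit 152) (nat_lit 293782684617) (nat_lit 0) (nat_lit 143927068718) (nat_lit 1) (nat_lit 5) (nat_lit 3) (nat_lit 4) (nat_lit 1) (nat_lit 4) (nat_lit 425) (nat_lit 322) (nat_lit 273)) (XT.lf (nat_lit 0) (nat_lit 166056672438) (nat_lit 152) (nat_lit 304273649841) (nat_lit 0) (nat_lit 161944555513) (nat_lit 1) (nat_lit 5) (nat_lit 3) (nat_lit 4) (nat_lit 1) (nat_lit 4) (nat_lit 426) (nat_lit 322) (nat_lit 272)))))) (XT.nd (nat_lit 468) (nat_lit 0) (nat_lit 0) (XT.nd (nat_lit 234) (nat_lit 0) (nat_lit 0) (XT.nd (nat_lit 78) (nat_lit 0) (nat_lit 0) (XT.lf (nat_lit 0) (nat_lit 185502794952) (nat_lit 152) (nat_lit 315644821067) (nat_lit 0) (nat_lit 181384042067) (nat_lit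 1) (nat_lit 5) (nat_lit 3) (nat_lit 4) (nat_lit 1) (nat_lit 4) (nat_lit 427) (nat_lit 322) (nat_lit 271)) (XT.nd (nat_lit 78) (nat_lit 0) (nat_lit 0) (XT.lf (nat_lit 0) (nat_lit 206485622629) (nat_lit 152) (nat_lit 327963583014) (nat_lit 0) (nat_lit 202360725337) (nat_lit 1) (nat_lit 5) (nat_lit 3) (nat_lit 4) (nat_lit 1) (nat_lit 4) (nat_lit 428) (nat_lit 322) (nat_lit 270)) (XT.lf (nat_lit 0) (nat_lit 229129498153) (nat_lit 152) (nat_lit 341302935752) (nat_lit 0) (nat_lit 224998911595) (nat_lit 1) (nat_lit 5) (nat_lit 3) (nat_lit 4) (nat_lit 1) (nat_lit 4) (nat_lit 429) (nat_lit 322) (nat_lit 269)))) (XT.nd (nat_lit 78) (nat_lit 0) (nat_lit 0) (XT.lf (nat_lit 0) (nat_lit 253568607453) (nat_lit 152) (nat_lit 355741927298) (nat_lit 0) (nat_lit 249432753056) (nat_lit 1) (nat_lit 5) (nat_lit 3) (nat_lit 4) (nat_lit 1) (nat_lit 4) (nat_lit 430) (nat_lit 322) (nat_lit 268)) (XT.nd (nat_lit 78)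 (nat_lit 0) (nat_lit 0) (XT.lf (nat_lit 0) (nat_lit 279947774879) (nat_lit 152) (nat_lit 371366122046) (nat_lit 0) (nat_lit 275807042853) (nat_lit 1) (nat_lit 5) (nat_lit 3) (nat_lit 4) (nat_lit 1) (nat_lit 4) (nat_lit 431) (nat_lit 322) (nat_lit 267)) (XT.lf (nat_lit 0) (nat_lit 308423321424) (nat_lit 152) (nat_lit 388268107817) (nat_lit 0) (nat_lit 304278073076) (nat_lit 1) (nat_lit 5) (nat_lit 3) (nat_lit 4) (nat_lit 1) (nat_lit 4) (nat_lit 432) (nat_lit 322) (nat_lit 266))))) (XT.nd (nat_lit 48516) (nat_lit 0) (nat_lit 1520) (XT.nd (nat_lit 78) (nat_lit 0) (nat_lit 0) (XT.lf (nat_lit 0) (nat_lit 339163991068) (nat_lit 152) (nat_lit 406548044526) (nat_lit 0) (nat_lit 335014560940) (nat_lit 1) (nat_lit 5) (nat_lit 3) (nat_lit 4) (nat_lit 1) (nat_lit 4) (nat_lit 433) (nat_lit 322) (nat_lit 265)) (XT.nd (nat_lit 78) (nat_lit 0) (nat_lit 0) (XT.lf (nat_lit 0) (nat_lit 372351950742) (nat_lit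 152) (nat_lit 426314257724) (nat_lit 0) (nat_lit 368198648595) (nat_lit 1) (nat_lit 5) (nat_lit 3) (nat_lit 4) (nat_lit 1) (nat_lit 4) (nat_lit 434) (nat_lit 322) (nat_lit 264)) (XT.lf (nat_lit 0) (nat_lit 408183869836) (nat_lit 152) (nat_lit 447683880527) (nat_lit 0) (nat_lit 404026982486) (nat_lit 1) (nat_lit 5) (nat_lit 3) (nat_lit 4) (nat_lit 1) (nat_lit 4) (nat_lit 435) (nat_lit 322) (nat_lit 263)))) (XT.nd (nat_lit 78) (nat_lit 228) (nat_lit 0) (XT.lf (nat_lit 0) (nat_lit 2224883718) (nat_lit 76) (nat_lit 3163361245) (nat_lit 76) (nat_lit 3163361245) (nat_lit 24) (nat_lit 4) (nat_lit 25) (nat_lit 5) (nat_lit 25) (nat_lit 4) (nat_lit 374) (nat_lit 323) (nat_lit 323)) (XT.nd (nat_lit 78) (nat_lit 76) (nat_lit 0) (XT.lf (nat_lit 0) (nat_lit 2813766976) (nat_lit 152) (nat_lit 12823926933) (nat_lit 0) (nat_lit 2340789600) (nat_lit 22) (nat_lit 5) (nat_lit 24) (nat_lit 4) (nat_lit 22) (nat_lit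 4) (nat_lit 375) (nat_lit 323) (nat_lit 322)) (XT.lf (nat_lit 0) (nat_lit 4912905149) (nat_lit 76) (nat_lit 7460594509) (nat_lit 76) (nat_lit 6549675119) (nat_lit 21) (nat_lit 4) (nat_lit 22) (nat_lit 5) (nat_lit 22) (nat_lit 4) (nat_lit 376) (nat_lit 323) (nat_lit 321))))))) (XT.nd (nat_lit 936) (nat_lit 380) (nat_lit 0) (XT.nd (nat_lit 468) (nat_lit 304) (nat_lit 0) (XT.nd (nat_lit 234) (nat_lit 380) (nat_lit 0) (XT.nd (nat_lit 78) (nat_lit 76) (nat_lit 0) (XT.lf (nat_lit 0) (nat_lit 2485942834) (nat_lit 152) (nat_lit 16232222489) (nat_lit 0) (nat_lit 1232208304) (nat_lit 19) (nat_lit 5) (nat_lit 21) (nat_lit 4) (nat_lit 19) (nat_lit 4) (nat_lit 377) (nat_lit 323) (nat_lit 320)) (XT.nd (nat_lit 78) (nat_lit 0) (nat_lit 0) (XT.lf (nat_lit 0) (nat_lit 1211537283) (nat_lit 76) (nat_lit 10728969617) (nat_lit 76) (nat_lit 9117649668) (nat_lit 18) (nat_lit 4) (nat_lit 19) (nat_lit 5) (nat_lit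 19) (nat_lit 4) (nat_lit 378) (nat_lit 323) (nat_lit 319)) (XT.lf (nat_lit 0) (nat_lit 19765156355) (nat_lit 76) (nat_lit 2220091851) (nat_lit 76) (nat_lit 277674292) (nat_lit 18) (nat_lit 4) (nat_lit 19) (nat_lit 5) (nat_lit 19) (nat_lit 4) (nat_lit 379) (nat_lit 323) (nat_lit 318)))) (XT.nd (nat_lit 78) (nat_lit 228) (nat_lit 0) (XT.lf (nat_lit 0) (nat_lit 8905801070) (nat_lit 152) (nat_lit 7890521856) (nat_lit 0) (nat_lit 6763906384) (nat_lit 16) (nat_lit 5) (nat_lit 18) (nat_lit 4) (nat_lit 16) (nat_lit 4) (nat_lit 380) (nat_lit 323) (nat_lit 317)) (XT.nd (nat_lit 78) (nat_lit 152) (nat_lit 0) (XT.lf (nat_lit 0) (nat_lit 9900559307) (nat_lit 76) (nat_lit 8740731195) (nat_lit 76) (nat_lit 6328490952) (nat_lit 15) (nat_lit 4) (nat_lit 16) (nat_lit 5) (nat_lit 16) (nat_lit 4) (nat_lit 381) (nat_lit 323) (nat_lit 316)) (XT.lf (nat_lit 0) (nat_lit 2164116838) (nat_lit 76) (nat_lit 190359767)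 (nat_lit 152) (nat_lit 24146768378) (nat_lit 13) (nat_lit 5) (nat_lit 14) (nat_lit 5) (nat_lit 15) (nat_lit 4) (nat_lit 382) (nat_lit 323) (nat_lit 315))))) (XT.nd (nat_lit 234) (nat_lit 228) (nat_lit 0) (XT.nd (nat_lit 78) (nat_lit 76) (nat_lit 0) (XT.lf (nat_lit 0) (nat_lit 11536314132) (nat_lit 152) (nat_lit 7832658742) (nat_lit 0) (nat_lit 8779801804) (nat_lit 13) (nat_lit 5) (nat_lit 15) (nat_lit 4) (nat_lit 13) (nat_lit 4) (nat_lit 383) (nat_lit 323) (nat_lit 314)) (XT.nd (nat_lit 78) (nat_lit 0) (nat_lit 0) (XT.lf (nat_lit 0) (nat_lit 9599362774) (nat_lit 76) (nat_lit 11649923950) (nat_lit 76) (nat_lit 8689022080) (nat_lit 12) (nat_lit 4) (nat_lit 13) (nat_lit 5) (nat_lit 13) (nat_lit 4) (nat_lit 384) (nat_lit 323) (nat_lit 313)) (XT.lf (nat_lit 0) (nat_lit 28039096157) (nat_lit 76) (nat_lit 3496146404) (nat_lit 76) (nat_lit 345994958) (nat_lit 12) (nat_lit 4) (nat_lit 13) (nat_lit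 5) (nat_lit 13) (nat_lit 4) (nat_lit 385) (nat_lit 323) (nat_lit 312)))) (XT.nd (nat_lit 78) (nat_lit 76) (nat_lit 0) (XT.lf (nat_lit 0) (nat_lit 8363591403) (nat_lit 152) (nat_lit 20413888840) (nat_lit 0) (nat_lit 5196560417) (nat_lit 10) (nat_lit 5) (nat_lit 12) (nat_lit 4) (nat_lit 10) (nat_lit 4) (nat_lit 386) (nat_lit 323) (nat_lit 311)) (XT.nd (nat_lit 78) (nat_lit 76) (nat_lit 0) (XT.lf (nat_lit 0) (nat_lit 17574259826) (nat_lit 152) (nat_lit 4416222483) (nat_lit 0) (nat_lit 14252704070) (nat_lit 10) (nat_lit 5) (nat_lit 12) (nat_lit 4) (nat_lit 10) (nat_lit 4) (nat_lit 387) (nat_lit 323) (nat_lit 310)) (XT.lf (nat_lit 0) (nat_lit 12701824328) (nat_lit 76) (nat_lit 14730582227) (nat_lit 76) (nat_lit 11265947981) (nat_lit 9) (nat_lit 4) (nat_lit 10) (nat_lit 5) (nat_lit 10) (nat_lit 4) (nat_lit 388) (nat_lit 323) (nat_lit 309)))))) (XT.nd (nat_lit 468) (nat_lit 152) (nat_lit 0) (XT.nd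 (nat_lit 234) (nat_lit 76) (nat_lit 0) (XT.nd (nat_lit 78) (nat_lit 152) (nat_lit 0) (XT.lf (nat_lit 0) (nat_lit 30805642598) (nat_lit 76) (nat_lit 7075661653) (nat_lit 76) (nat_lit 3478547323) (nat_lit 9) (nat_lit 4) (nat_lit 10) (nat_lit 5) (nat_lit 10) (nat_lit 4) (nat_lit 389) (nat_lit 323) (nat_lit 308)) (XT.nd (nat_lit 78) (nat_lit 0) (nat_lit 0) (XT.lf (nat_lit 0) (nat_lit 4622045268) (nat_lit 152) (nat_lit 38536591980) (nat_lit 0) (nat_lit 1079396626) (nat_lit 7) (nat_lit 5) (nat_lit 9) (nat_lit 4) (nat_lit 7) (nat_lit 4) (nat_lit 390) (nat_lit 323) (nat_lit 307)) (XT.lf (nat_lit 0) (nat_lit 13305742348) (nat_lit 152) (nat_lit 24380125394) (nat_lit 0) (nat_lit 9654921974) (nat_lit 7) (nat_lit 5) (nat_lit 9) (nat_lit 4) (nat_lit 7) (nat_lit 4) (nat_lit 391) (nat_lit 323) (nat_lit 306)))) (XT.nd (nat_lit 78) (nat_lit 76) (nat_lit 0) (XT.lf (nat_lit 0) (nat_lit 22451847374) (nat_lit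 152) (nat_lit 9550680472) (nat_lit 0) (nat_lit 18700867989) (nat_lit 7) (nat_lit 5) (nat_lit 9) (nat_lit 4) (nat_lit 7) (nat_lit 4) (nat_lit 392) (nat_lit 323) (nat_lit 305)) (XT.nd (nat_lit 78) (nat_lit 0) (nat_lit 0) (XT.lf (nat_lit 0) (nat_lit 6239318124) (nat_lit 76) (nat_lit 25972654603) (nat_lit 76) (nat_lit 22128935393) (nat_lit 6) (nat_lit 4) (nat_lit 7) (nat_lit 5) (nat_lit 7) (nat_lit 4) (nat_lit 393) (nat_lit 323) (nat_lit 304)) (XT.lf (nat_lit 0) (nat_lit 23226560933) (nat_lit 76) (nat_lit 19487209975) (nat_lit 76) (nat_lit 15557620556) (nat_lit 6) (nat_lit 4) (nat_lit 7) (nat_lit 5) (nat_lit 7) (nat_lit 4) (nat_lit 394) (nat_lit 323) (nat_lit 303))))) (XT.nd (nat_lit 234) (nat_lit 0) (nat_lit 0) (XT.nd (nat_lit 78) (nat_lit 152) (nat_lit 0) (XT.lf (nat_lit 0) (nat_lit 41195924469) (nat_lit 76) (nat_lit 12669507093) (nat_lit 76) (nat_lit 8660408221) (nat_lit 6) (nat_lit 4) (nat_lit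 7) (nat_lit 5) (nat_lit 7) (nat_lit 4) (nat_lit 395) (nat_lit 323) (nat_lit 302)) (XT.nd (nat_lit 78) (nat_lit 152) (nat_lit 0) (XT.lf (nat_lit 0) (nat_lit 60253893849) (nat_lit 76) (nat_lit 5479144754) (nat_lit 76) (nat_lit 1396426019) (nat_lit 6) (nat_lit 4) (nat_lit 7) (nat_lit 5) (nat_lit 7) (nat_lit 4) (nat_lit 396) (nat_lit 323) (nat_lit 301)) (XT.lf (nat_lit 0) (nat_lit 6247425354) (nat_lit 152) (nat_lit 63554471287) (nat_lit 0) (nat_lit 2294201282) (nat_lit 4) (nat_lit 5) (nat_lit 6) (nat_lit 4) (nat_lit 4) (nat_lit 4) (nat_lit 397) (nat_lit 323) (nat_lit 300)))) (XT.nd (nat_lit 156) (nat_lit 0) (nat_lit 0) (XT.nd (nat_lit 78) (nat_lit 0) (nat_lit 0) (XT.lf (nat_lit 0) (nat_lit 14507756882) (nat_lit 152) (nat_lit 52454053622) (nat_lit 0) (nat_lit 10494421224) (nat_lit 4) (nat_lit 5) (nat_lit 6) (nat_lit 4) (nat_lit 4) (nat_lit 4) (nat_lit 398) (nat_lit 323) (nat_lit 299)) (XT.lf (nat_lit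 0) (nat_lit 23279953952) (nat_lit 152) (nat_lit 40761719485) (nat_lit 0) (nat_lit 19210959416) (nat_lit 4) (nat_lit 5) (nat_lit 6) (nat_lit 4) (nat_lit 4) (nat_lit 4) (nat_lit 399) (nat_lit 323) (nat_lit 298))) (XT.nd (nat_lit 78) (nat_lit 0) (nat_lit 0) (XT.lf (nat_lit 0) (nat_lit 32615999953) (nat_lit 152) (nat_lit 28408180970) (nat_lit 0) (nat_lit 28495469420) (nat_lit 4) (nat_lit 5) (nat_lit 6) (nat_lit 4) (nat_lit 4) (nat_lit 4) (nat_lit 400) (nat_lit 323) (nat_lit 297)) (XT.lf (nat_lit 0) (nat_lit 42571219603) (nat_lit 152) (nat_lit 15320231922) (nat_lit 0) (nat_lit 38402970553) (nat_lit 4) (nat_lit 5) (nat_lit 6) (nat_lit 4) (nat_lit 4) (nat_lit 4) (nat_lit 401) (nat_lit 323) (nat_lit 296))))))))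
noncomputable def xc20 : XT := (XT.nd (nat_lit 1872) (nat_lit 0) (nat_lit 0) (XT.nd (nat_lit 936) (nat_lit 0) (nat_lit 0) (XT.nd (nat_lit 468) (nat_lit 152) (nat_lit 0) (XT.nd (nat_lit 234) (nat_lit 0) (nat_lit 0) (XT.nd (nat_lit 78) (nat_lit 76) (nat_lit 0) (XT.lf (nat_lit 0) (nat_lit 53204606794) (nat_lit 152) (nat_lit 1420314126) (nat_lit 0) (nat_lit 48992173934) (nat_lit 4) (nat_lit 5) (nat_lit 6) (nat_lit 4) (nat_lit 4) (nat_lit 4) (nat_lit 402) (nat_lit 323) (nat_lit 295)) (XT.nd (nat_lit 78) (nat_lit 0) (nat_lit 0) (XT.lf (nat_lit 0) (nat_lit 13816145233) (nat_lit 76) (nat_lit 50978737706) (nat_lit 76) (nat_lit 46725393909) (nat_lit 3) (nat_lit 4) (nat_lit 4) (nat_lit 5) (nat_lit 4) (nat_lit 4) (nat_lit 403) (nat_lit 323) (nat_lit 294)) (XT.lf (nat_lit 0) (nat_lit 30114044522) (nat_lit 76) (nat_lit 47118446751) (nat_lit 76) (nat_lit 42827222457) (nat_lit 3) (nat_lit 4) (nat_lit 4)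 (nat_lit 5) (nat_lit 4) (nat_lit 4) (nat_lit 404) (nat_lit 323) (nat_lit 293)))) (XT.nd (nat_lit 78) (nat_lit 0) (nat_lit 0) (XT.lf (nat_lit 0) (nat_lit 47523001883) (nat_lit 76) (nat_lit 43045225963) (nat_lit 76) (nat_lit 38718927135) (nat_lit 3) (nat_lit 4) (nat_lit 4) (nat_lit 5) (nat_lit 4) (nat_lit 4) (nat_lit 405) (nat_lit 323) (nat_lit 292)) (XT.nd (nat_lit 78) (nat_lit 0) (nat_lit 0) (XT.lf (nat_lit 0) (nat_lit 66146181510) (nat_lit 76) (nat_lit 38734937737) (nat_lit 76) (nat_lit 34376162489) (nat_lit 3) (nat_lit 4) (nat_lit 4) (nat_lit 5) (nat_lit 4) (nat_lit 4) (nat_lit 406) (nat_lit 323) (nat_lit 291)) (XT.lf (nat_lit 0) (nat_lit 86093942985) (nat_lit 76) (nat_lit 34162039625) (nat_lit 76) (nat_lit 29773193617) (nat_lit 3) (nat_lit 4) (nat_lit 4) (nat_lit 5) (nat_lit 4) (nat_lit 4) (nat_lit 407) (nat_lit 323) (nat_lit 290))))) (XT.nd (nat_lit 234) (nat_lit 152) (nat_lit 0) (XT.nd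 (nat_lit 78) (nat_lit 0) (nat_lit 0) (XT.lf (nat_lit 0) (nat_lit 107484495264) (nat_lit 76) (nat_lit 29299432971) (nat_lit 76) (nat_lit 24882743668) (nat_lit 3) (nat_lit 4) (nat_lit 4) (nat_lit 5) (nat_lit 4) (nat_lit 4) (nat_lit 408) (nat_lit 323) (nat_lit 289)) (XT.nd (nat_lit 78) (nat_lit 0) (nat_lit 0) (XT.lf (nat_lit 0) (nat_lit 130444597176) (nat_lit 76) (nat_lit 24118302329) (nat_lit 76) (nat_lit 19675832196) (nat_lit 3) (nat_lit 4) (nat_lit 4) (nat_lit 5) (nat_lit 4) (nat_lit 4) (nat_lit 409) (nat_lit 323) (nat_lit 288)) (XT.lf (nat_lit 0) (nat_lit 155110308585) (nat_lit 76) (nat_lit 18587944702) (nat_lit 76) (nat_lit 14121603431) (nat_lit 3) (nat_lit 4) (nat_lit 4) (nat_lit 5) (nat_lit 4) (nat_lit 4) (nat_lit 410) (nat_lit 323) (nat_lit 287)))) (XT.nd (nat_lit 78) (nat_lit 152) (nat_lit 0) (XT.lf (nat_lit 0) (nat_lit 181627796669) (nat_lit 76) (nat_lit 12675587600) (nat_lit 76) (nat_lit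 8187143423) (nat_lit 3) (nat_lit 4) (nat_lit 4) (nat_lit 5) (nat_lit 4) (nat_lit 4) (nat_lit 411) (nat_lit 323) (nat_lit 286)) (XT.nd (nat_lit 78) (nat_lit 152) (nat_lit 0) (XT.lf (nat_lit 0) (nat_lit 210154202098) (nat_lit 76) (nat_lit 6346194834) (nat_lit 76) (nat_lit 1837285003) (nat_lit 3) (nat_lit 4) (nat_lit 4) (nat_lit 5) (nat_lit 4) (nat_lit 4) (nat_lit 412) (nat_lit 323) (nat_lit 285)) (XT.lf (nat_lit 0) (nat_lit 4902084127) (nat_lit 152) (nat_lit 229954660372) (nat_lit 0) (nat_lit 589836974) (nat_lit 1) (nat_lit 5) (nat_lit 3) (nat_lit 4) (nat_lit 1) (nat_lit 4) (nat_lit 413) (nat_lit 323) (nat_lit 284)))))) (XT.nd (nat_lit 468) (nat_lit 0) (nat_lit 0) (XT.nd (nat_lit 234) (nat_lit 0) (nat_lit 0) (XT.nd (nat_lit 78) (nat_lit 0) (nat_lit 0) (XT.lf (nat_lit 0) (nat_lit 12317359034) (nat_lit 152) (nat_lit 233606872848) (nat_lit 0) (nat_lit 7988401406) (nat_lit 1) (nat_lit 5) (nat_lit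 3) (nat_lit 4) (nat_lit 1) (nat_lit 4) (nat_lit 414) (nat_lit 323) (nat_lit 283)) (XT.nd (nat_lit 78) (nat_lit 0) (nat_lit 0) (XT.lf (nat_lit 0) (nat_lit 20278049387) (nat_lit 152) (nat_lit 237646693471) (nat_lit 0) (nat_lit 15933619097) (nat_lit 1) (nat_lit 5) (nat_lit 3) (nat_lit 4) (nat_lit 1) (nat_lit 4) (nat_lit 415) (nat_lit 323) (nat_lit 282)) (XT.lf (nat_lit 0) (nat_lit 28831329649) (nat_lit 152) (nat_lit 242098061920) (nat_lit 0) (nat_lit 24472572819) (nat_lit 1) (nat_lit 5) (nat_lit 3) (nat_lit 4) (nat_lit 1) (nat_lit 4) (nat_lit 416) (nat_lit 323) (nat_lit 281)))) (XT.nd (nat_lit 78) (nat_lit 0) (nat_lit 0) (XT.lf (nat_lit 0) (nat_lit 38027885924) (nat_lit 152) (nat_lit 246987356674) (nat_lit 0) (nat_lit 33655863779) (nat_lit 1) (nat_lit 5) (nat_lit 3) (nat_lit 4) (nat_lit 1) (nat_lit 4) (nat_lit 417) (nat_lit 323) (nat_lit 280)) (XT.nd (nat_lit 78) (nat_lit 0) (nat_lit 0) (XT.lf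 (nat_lit 0) (nat_lit 47922216323) (nat_lit 152) (nat_lit 252343551332) (nat_lit 0) (nat_lit 43537911480) (nat_lit 1) (nat_lit 5) (nat_lit 3) (nat_lit 4) (nat_lit 1) (nat_lit 4) (nat_lit 418) (nat_lit 323) (nat_lit 279)) (XT.lf (nat_lit 0) (nat_lit 58572953915) (nat_lit 152) (nat_lit 258198386306) (nat_lit 0) (nat_lit 54177276204) (nat_lit 1) (nat_lit 5) (nat_lit 3) (nat_lit 4) (nat_lit 1) (nat_lit 4) (nat_lit 419) (nat_lit 323) (nat_lit 278))))) (XT.nd (nat_lit 234) (nat_lit 0) (nat_lit 0) (XT.nd (nat_lit 78) (nat_lit 0) (nat_lit 0) (XT.lf (nat_lit 0) (nat_lit 70043214184) (nat_lit 152) (nat_lit 264586556915) (nat_lit 0) (nat_lit 65637006038) (nat_lit 1) (nat_lit 5) (nat_lit 3) (nat_lit 4) (nat_lit 1) (nat_lit 4) (nat_lit 420) (nat_lit 323) (nat_lit 277)) (XT.nd (nat_lit 78) (nat_lit 0) (nat_lit 0) (XT.lf (nat_lit 0) (nat_lit 82400969040) (nat_lit 152) (nat_lit 271545918985) (nat_lit 0) (nat_lit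 77985010492) (nat_lit 1) (nat_lit 5) (nat_lit 3) (nat_lit 4) (nat_lit 1) (nat_lit 4) (nat_lit 421) (nat_lit 323) (nat_lit 276)) (XT.lf (nat_lit 0) (nat_lit 95719449624) (nat_lit 152) (nat_lit 279117713180) (nat_lit 0) (nat_lit 91294462927) (nat_lit 1) (nat_lit 5) (nat_lit 3) (nat_lit 4) (nat_lit 1) (nat_lit 4) (nat_lit 422) (nat_lit 323) (nat_lit 275)))) (XT.nd (nat_lit 78) (nat_lit 0) (nat_lit 0) (XT.lf (nat_lit 0) (nat_lit 110077580266) (nat_lit 152) (nat_lit 287346809391) (nat_lit 0) (nat_lit 105644234170) (nat_lit 1) (nat_lit 5) (nat_lit 3) (nat_lit 4) (nat_lit 1) (nat_lit 4) (nat_lit 423) (nat_lit 323) (nat_lit 274)) (XT.nd (nat_lit 78) (nat_lit 0) (nat_lit 0) (XT.lf (nat_lit 0) (nat_lit 125560446184) (nat_lit 152) (nat_lit 296281972633) (nat_lit 0) (nat_lit 121119359905) (nat_lit 1) (nat_lit 5) (nat_lit 3) (nat_lit 4) (nat_lit 1) (nat_lit 4) (nat_lit 424) (nat_lit 323) (nat_lit 273))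 (XT.lf (nat_lit 0) (nat_lit 142259797695) (nat_lit 152) (nat_lit 305976152022) (nat_lit 0) (nat_lit 137811544579) (nat_lit 1) (nat_lit 5) (nat_lit 3) (nat_lit 4) (nat_lit 1) (nat_lit 4) (nat_lit 425) (nat_lit 323) (nat_lit 272))))))) (XT.nd (nat_lit 49062) (nat_lit 0) (nat_lit 684) (XT.nd (nat_lit 468) (nat_lit 0) (nat_lit 0) (XT.nd (nat_lit 234) (nat_lit 0) (nat_lit 0) (XT.nd (nat_lit 78) (nat_lit 0) (nat_lit 0) (XT.lf (nat_lit 0) (nat_lit 160274593919) (nat_lit 152) (nat_lit 316486794546) (nat_lit 0) (nat_lit 155819704843) (nat_lit 1) (nat_lit 5) (nat_lit 3) (nat_lit 4) (nat_lit 1) (nat_lit 4) (nat_lit 426) (nat_lit 323) (nat_lit 271)) (XT.nd (nat_lit 78) (nat_lit 0) (nat_lit 0) (XT.lf (nat_lit 0) (nat_lit 179711589203) (nat_lit 152) (nat_lit 327876185494) (nat_lit 0) (nat_lit 175250555720) (nat_lit 1) (nat_lit 5) (nat_lit 3) (nat_lit 4) (nat_lit 1) (nat_lit 4) (nat_lit 427) (nat_lit 323)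 (nat_lit 270)) (XT.lf (nat_lit 0) (nat_lit 200685965742) (nat_lit 152) (nat_lit 340211817555) (nat_lit 0) (nat_lit 196219242993) (nat_lit 1) (nat_lit 5) (nat_lit 3) (nat_lit 4) (nat_lit 1) (nat_lit 4) (nat_lit 428) (nat_lit 323) (nat_lit 269)))) (XT.nd (nat_lit 78) (nat_lit 0) (nat_lit 0) (XT.lf (nat_lit 0) (nat_lit 223322016138) (nat_lit 152) (nat_lit 353566790768) (nat_lit 0) (nat_lit 218850025550) (nat_lit 1) (nat_lit 5) (nat_lit 3) (nat_lit 4) (nat_lit 1) (nat_lit 4) (nat_lit 429) (nat_lit 323) (nat_lit 268)) (XT.nd (nat_lit 78) (nat_lit 0) (nat_lit 0) (XT.lf (nat_lit 0) (nat_lit 247753879948) (nat_lit 152) (nat_lit 368020245717) (nat_lit 0) (nat_lit 243277011732) (nat_lit 1) (nat_lit 5) (nat_lit 3) (nat_lit 4) (nat_lit 1) (nat_lit 4) (nat_lit 430) (nat_lit 323) (nat_lit 267)) (XT.lf (nat_lit 0) (nat_lit 274126338588) (nat_lit 152) (nat_lit 383657832505) (nat_lit 0) (nat_lit 269644954049)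 (nat_lit 1) (nat_lit 5) (nat_lit 3) (nat_lit 4) (nat_lit 1) (nat_lit 4) (nat_lit 431) (nat_lit 323) (nat_lit 266))))) (XT.nd (nat_lit 234) (nat_lit 0) (nat_lit 0) (XT.nd (nat_lit 78) (nat_lit 0) (nat_lit 0) (XT.lf (nat_lit 0) (nat_lit 302595673295) (nat_lit 152) (nat_lit 400572218312) (nat_lit 0) (nat_lit 298110106976) (nat_lit 1) (nat_lit 5) (nat_lit 3) (nat_lit 4) (nat_lit 1) (nat_lit 4) (nat_lit 432) (nat_lit 323) (nat_lit 265)) (XT.nd (nat_lit 78) (nat_lit 0) (nat_lit 0) (XT.lf (nat_lit 0) (nat_lit 333330591236) (nat_lit 152) (nat_lit 418863636537) (nat_lit 0) (nat_lit 328841152898) (nat_lit 1) (nat_lit 5) (nat_lit 3) (nat_lit 4) (nat_lit 1) (nat_lit 4) (nat_lit 433) (nat_lit 323) (nat_lit 264)) (XT.lf (nat_lit 0) (nat_lit 366513225259) (nat_lit 152) (nat_lit 438640480768) (nat_lit 0) (nat_lit 362020201718) (nat_lit 1) (nat_lit 5) (nat_lit 3) (nat_lit 4) (nat_lit 1) (nat_lit 4) (nat_lit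 434) (nat_lit 323) (nat_lit 263)))) (XT.nd (nat_lit 48204) (nat_lit 0) (nat_lit 1824) (XT.lf (nat_lit 0) (nat_lit 402340213195) (nat_lit 152) (nat_lit 460019947120) (nat_lit 0) (nat_lit 397843870022) (nat_lit 1) (nat_lit 5) (nat_lit 3) (nat_lit 4) (nat_lit 1) (nat_lit 4) (nat_lit 435) (nat_lit 323) (nat_lit 262)) (XT.nd (nat_lit 78) (nat_lit 152) (nat_lit 0) (XT.lf (nat_lit 0) (nat_lit 705868527) (nat_lit 76) (nat_lit 3531807860) (nat_lit 76) (nat_lit 3531807860) (nat_lit 27) (nat_lit 4) (nat_lit 28) (nat_lit 5) (nat_lit 28) (nat_lit 4) (nat_lit 372) (nat_lit 324) (nat_lit 324)) (XT.lf (nat_lit 0) (nat_lit 1801041344) (nat_lit 152) (nat_lit 13232504931) (nat_lit 0) (nat_lit 1264685000) (nat_lit 25) (nat_lit 5) (nat_lit 27) (nat_lit 4) (nat_lit 25) (nat_lit 4) (nat_lit 373) (nat_lit 324) (nat_lit 323)))))) (XT.nd (nat_lit 468) (nat_lit 608) (nat_lit 0) (XT.nd (nat_lit 234) (nat_lit 228) (nat_lit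 0) (XT.nd (nat_lit 78) (nat_lit 228) (nat_lit 0) (XT.lf (nat_lit 0) (nat_lit 3987684674) (nat_lit 76) (nat_lit 7080392761) (nat_lit 76) (nat_lit 6047410173) (nat_lit 24) (nat_lit 4) (nat_lit 25) (nat_lit 5) (nat_lit 25) (nat_lit 4) (nat_lit 374) (nat_lit 324) (nat_lit 322)) (XT.nd (nat_lit 78) (nat_lit 76) (nat_lit 0) (XT.lf (nat_lit 0) (nat_lit 2823868279) (nat_lit 152) (nat_lit 13777585026) (nat_lit 0) (nat_lit 1402133323) (nat_lit 22) (nat_lit 5) (nat_lit 24) (nat_lit 4) (nat_lit 22) (nat_lit 4) (nat_lit 375) (nat_lit 324) (nat_lit 321)) (XT.lf (nat_lit 0) (nat_lit 3489150739) (nat_lit 76) (nat_lit 8649325120) (nat_lit 76) (nat_lit 6822088298) (nat_lit 21) (nat_lit 4) (nat_lit 22) (nat_lit 5) (nat_lit 22) (nat_lit 4) (nat_lit 376) (nat_lit 324) (nat_lit 320)))) (XT.nd (nat_lit 78) (nat_lit 76) (nat_lit 0) (XT.lf (nat_lit 0) (nat_lit 1807038924) (nat_lit 76) (nat_lit 148932019) (nat_lit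 152) (nat_lit 18045345063) (nat_lit 19) (nat_lit 5) (nat_lit 20) (nat_lit 5) (nat_lit 21) (nat_lit 4) (nat_lit 377) (nat_lit 324) (nat_lit 319)) (XT.nd (nat_lit 78) (nat_lit 76) (nat_lit 0) (XT.lf (nat_lit 0) (nat_lit 11179951415) (nat_lit 152) (nat_lit 1189658372) (nat_lit 0) (nat_lit 8751042841) (nat_lit 19) (nat_lit 5) (nat_lit 21) (nat_lit 4) (nat_lit 19) (nat_lit 4) (nat_lit 378) (nat_lit 324) (nat_lit 318)) (XT.lf (nat_lit 0) (nat_lit 16939436068) (nat_lit 76) (nat_lit 4066218754) (nat_lit 76) (nat_lit 1330738318) (nat_lit 18) (nat_lit 4) (nat_lit 19) (nat_lit 5) (nat_lit 19) (nat_lit 4) (nat_lit 379) (nat_lit 324) (nat_lit 317))))) (XT.nd (nat_lit 234) (nat_lit 304) (nat_lit 0) (XT.nd (nat_lit 78) (nat_lit 152) (nat_lit 0) (XT.lf (nat_lit 0) (nat_lit 7613312519) (nat_lit 152) (nat_lit 11297138459) (nat_lit 0) (nat_lit 4737747500) (nat_lit 16) (nat_lit 5) (nat_lit 18) (nat_lit 4) (nat_lit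 16) (nat_lit 4) (nat_lit 380) (nat_lit 324) (nat_lit 316)) (XT.nd (nat_lit 78) (nat_lit 76) (nat_lit 0) (XT.lf (nat_lit 0) (nat_lit 6016108900) (nat_lit 76) (nat_lit 11089843843) (nat_lit 76) (nat_lit 7963958863) (nat_lit 15) (nat_lit 4) (nat_lit 16) (nat_lit 5) (nat_lit 16) (nat_lit 4) (nat_lit 381) (nat_lit 324) (nat_lit 315)) (XT.lf (nat_lit 0) (nat_lit 560712156) (nat_lit 152) (nat_lit 2208202799) (nat_lit 76) (nat_lit 23844285311) (nat_lit 14) (nat_lit 5) (nat_lit 16) (nat_lit 5) (nat_lit 15) (nat_lit 4) (nat_lit 382) (nat_lit 324) (nat_lit 314)))) (XT.nd (nat_lit 156) (nat_lit 152) (nat_lit 0) (XT.nd (nat_lit 78) (nat_lit 76) (nat_lit 0) (XT.lf (nat_lit 0) (nat_lit 9494699479) (nat_lit 152) (nat_lit 12685902199) (nat_lit 0) (nat_lit 6092535918) (nat_lit 13) (nat_lit 5) (nat_lit 15) (nat_lit 4) (nat_lit 13) (nat_lit 4) (nat_lit 383) (nat_lit 324) (nat_lit 313)) (XT.lf (nat_lit 0) (nat_lit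 4265191683) (nat_lit 76) (nat_lit 14700503024) (nat_lit 76) (nat_lit 11109089887) (nat_lit 12) (nat_lit 4) (nat_lit 13) (nat_lit 5) (nat_lit 13) (nat_lit 4) (nat_lit 384) (nat_lit 324) (nat_lit 312))) (XT.nd (nat_lit 78) (nat_lit 152) (nat_lit 0) (XT.lf (nat_lit 0) (nat_lit 22408205170) (nat_lit 76) (nat_lit 6691872000) (nat_lit 76) (nat_lit 2925227774) (nat_lit 12) (nat_lit 4) (nat_lit 13) (nat_lit 5) (nat_lit 13) (nat_lit 4) (nat_lit 385) (nat_lit 324) (nat_lit 311)) (XT.lf (nat_lit 0) (nat_lit 5572968914) (nat_lit 152) (nat_lit 26730697192) (nat_lit 0) (nat_lit 1831163929) (nat_lit 10) (nat_lit 5) (nat_lit 12) (nat_lit 4) (nat_lit 10) (nat_lit 4) (nat_lit 386) (nat_lit 324) (nat_lit 310))))))))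
noncomputable def xc21 : XT := (XT.nd (nat_lit 1872) (nat_lit 152) (nat_lit 0) (XT.nd (nat_lit 936) (nat_lit 76) (nat_lit 0) (XT.nd (nat_lit 468) (nat_lit 228) (nat_lit 0) (XT.nd (nat_lit 234) (nat_lit 152) (nat_lit 0) (XT.nd (nat_lit 78) (nat_lit 76) (nat_lit 0) (XT.lf (nat_lit 0) (nat_lit 14645326644) (nat_lit 152) (nat_lit 11005132064) (nat_lit 0) (nat_lit 10760443168) (nat_lit 10) (nat_lit 5) (nat_lit 12) (nat_lit 4) (nat_lit 10) (nat_lit 4) (nat_lit 387) (nat_lit 324) (nat_lit 309)) (XT.nd (nat_lit 78) (nat_lit 0) (nat_lit 0) (XT.lf (nat_lit 0) (nat_lit 5634779598) (nat_lit 76) (nat_lit 18630291944) (nat_lit 76) (nat_lit 14612928384) (nat_lit 9) (nat_lit 4) (nat_lit 10) (nat_lit 5) (nat_lit 10) (nat_lit 4) (nat_lit 388) (nat_lit 324) (nat_lit 308)) (XT.lf (nat_lit 0) (nat_lit 23497601534) (nat_lit 76) (nat_lit 11094025950) (nat_lit 76) (nat_lit 6953995646) (nat_lit 9) (nat_lit 4) (nat_lit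 10) (nat_lit 5) (nat_lit 10) (nat_lit 4) (nat_lit 389) (nat_lit 324) (nat_lit 307)))) (XT.nd (nat_lit 78) (nat_lit 76) (nat_lit 0) (XT.lf (nat_lit 0) (nat_lit 1035977905) (nat_lit 152) (nat_lit 2129855915) (nat_lit 76) (nat_lit 41271785443) (nat_lit 8) (nat_lit 5) (nat_lit 10) (nat_lit 5) (nat_lit 9) (nat_lit 4) (nat_lit 390) (nat_lit 324) (nat_lit 306)) (XT.nd (nat_lit 78) (nat_lit 0) (nat_lit 0) (XT.lf (nat_lit 0) (nat_lit 9523654940) (nat_lit 152) (nat_lit 32654090388) (nat_lit 0) (nat_lit 5372438193) (nat_lit 7) (nat_lit 5) (nat_lit 9) (nat_lit 4) (nat_lit 7) (nat_lit 4) (nat_lit 391) (nat_lit 324) (nat_lit 305)) (XT.lf (nat_lit 0) (nat_lit 18566355487) (nat_lit 152) (nat_lit 18029212323) (nat_lit 0) (nat_lit 14322398914) (nat_lit 7) (nat_lit 5) (nat_lit 9) (nat_lit 4) (nat_lit 7) (nat_lit 4) (nat_lit 392) (nat_lit 324) (nat_lit 304))))) (XT.nd (nat_lit 234) (nat_lit 152) (nat_lit 0)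 (XT.nd (nat_lit 78) (nat_lit 76) (nat_lit 0) (XT.lf (nat_lit 0) (nat_lit 28133322711) (nat_lit 152) (nat_lit 2628324629) (nat_lit 0) (nat_lit 23803495930) (nat_lit 7) (nat_lit 5) (nat_lit 9) (nat_lit 4) (nat_lit 7) (nat_lit 4) (nat_lit 393) (nat_lit 324) (nat_lit 303)) (XT.nd (nat_lit 78) (nat_lit 0) (nat_lit 0) (XT.lf (nat_lit 0) (nat_lit 14090831830) (nat_lit 76) (nat_lit 24410415295) (nat_lit 76) (nat_lit 20001079061) (nat_lit 6) (nat_lit 4) (nat_lit 7) (nat_lit 5) (nat_lit 7) (nat_lit 4) (nat_lit 394) (nat_lit 324) (nat_lit 302)) (XT.lf (nat_lit 0) (nat_lit 31892434194) (nat_lit 76) (nat_lit 17675768554) (nat_lit 76) (nat_lit 13192812457) (nat_lit 6) (nat_lit 4) (nat_lit 7) (nat_lit 5) (nat_lit 7) (nat_lit 4) (nat_lit 395) (nat_lit 324) (nat_lit 301)))) (XT.nd (nat_lit 78) (nat_lit 152) (nat_lit 0) (XT.lf (nat_lit 0) (nat_lit 50795069154) (nat_lit 76) (nat_lit 10562310050) (nat_lit 76)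 (nat_lit 6011187413) (nat_lit 6) (nat_lit 4) (nat_lit 7) (nat_lit 5) (nat_lit 7) (nat_lit 4) (nat_lit 396) (nat_lit 324) (nat_lit 300)) (XT.nd (nat_lit 78) (nat_lit 76) (nat_lit 0) (XT.lf (nat_lit 0) (nat_lit 1535580618) (nat_lit 152) (nat_lit 1466299535) (nat_lit 76) (nat_lit 69349165907) (nat_lit 5) (nat_lit 5) (nat_lit 7) (nat_lit 5) (nat_lit 6) (nat_lit 4) (nat_lit 397) (nat_lit 324) (nat_lit 299)) (XT.lf (nat_lit 0) (nat_lit 9653390831) (nat_lit 152) (nat_lit 62861701364) (nat_lit 0) (nat_lit 5203217855) (nat_lit 4) (nat_lit 5) (nat_lit 6) (nat_lit 4) (nat_lit 4) (nat_lit 4) (nat_lit 398) (nat_lit 324) (nat_lit 298)))))) (XT.nd (nat_lit 468) (nat_lit 0) (nat_lit 0) (XT.nd (nat_lit 234) (nat_lit 76) (nat_lit 0) (XT.nd (nat_lit 78) (nat_lit 0) (nat_lit 0) (XT.lf (nat_lit 0) (nat_lit 18359276923) (nat_lit 152) (nat_lit 51301185665) (nat_lit 0) (nat_lit 13857567949) (nat_lit 4) (nat_lit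 5) (nat_lit 6) (nat_lit 4) (nat_lit 4) (nat_lit 4) (nat_lit 399) (nat_lit 324) (nat_lit 297)) (XT.nd (nat_lit 78) (nat_lit 0) (nat_lit 0) (XT.lf (nat_lit 0) (nat_lit 27633923870) (nat_lit 152) (nat_lit 39069701260) (nat_lit 0) (nat_lit 23084496381) (nat_lit 4) (nat_lit 5) (nat_lit 6) (nat_lit 4) (nat_lit 4) (nat_lit 4) (nat_lit 400) (nat_lit 324) (nat_lit 296)) (XT.lf (nat_lit 0) (nat_lit 37532292544) (nat_lit 152) (nat_lit 26094765277) (nat_lit 0) (nat_lit 32938681243) (nat_lit 4) (nat_lit 5) (nat_lit 6) (nat_lit 4) (nat_lit 4) (nat_lit 4) (nat_lit 401) (nat_lit 324) (nat_lit 295)))) (XT.nd (nat_lit 78) (nat_lit 76) (nat_lit 0) (XT.lf (nat_lit 0) (nat_lit 48113039943) (nat_lit 152) (nat_lit 12299489207) (nat_lit 0) (nat_lit 43478517706) (nat_lit 4) (nat_lit 5) (nat_lit 6) (nat_lit 4) (nat_lit 4) (nat_lit 4) (nat_lit 402) (nat_lit 324) (nat_lit 294)) (XT.nd (nat_lit 78) (nat_lit 0) (nat_lit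 0) (XT.lf (nat_lit 0) (nat_lit 2477161367) (nat_lit 76) (nat_lit 57000380858) (nat_lit 76) (nat_lit 52327978124) (nat_lit 3) (nat_lit 4) (nat_lit 4) (nat_lit 5) (nat_lit 4) (nat_lit 4) (nat_lit 403) (nat_lit 324) (nat_lit 293)) (XT.lf (nat_lit 0) (nat_lit 18682380910) (nat_lit 76) (nat_lit 53186192519) (nat_lit 76) (nat_lit 48478715252) (nat_lit 3) (nat_lit 4) (nat_lit 4) (nat_lit 5) (nat_lit 4) (nat_lit 4) (nat_lit 404) (nat_lit 324) (nat_lit 292))))) (XT.nd (nat_lit 234) (nat_lit 0) (nat_lit 0) (XT.nd (nat_lit 78) (nat_lit 0) (nat_lit 0) (XT.lf (nat_lit 0) (nat_lit 36005523693) (nat_lit 76) (nat_lit 49155659340) (nat_lit 76) (nat_lit 44415705652) (nat_lit 3) (nat_lit 4) (nat_lit 4) (nat_lit 5) (nat_lit 4) (nat_lit 4) (nat_lit 405) (nat_lit 324) (nat_lit 291)) (XT.nd (nat_lit 78) (nat_lit 0) (nat_lit 0) (XT.lf (nat_lit 0) (nat_lit 54549245376) (nat_lit 76) (nat_lit 44884896677) (nat_lit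 76) (nat_lit 40114872230) (nat_lit 3) (nat_lit 4) (nat_lit 4) (nat_lit 5) (nat_lit 4) (nat_lit 4) (nat_lit 406) (nat_lit 324) (nat_lit 290)) (XT.lf (nat_lit 0) (nat_lit 74423434681) (nat_lit 76) (nat_lit 40348596309) (nat_lit 76) (nat_lit 35550728566) (nat_lit 3) (nat_lit 4) (nat_lit 4) (nat_lit 5) (nat_lit 4) (nat_lit 4) (nat_lit 407) (nat_lit 324) (nat_lit 289)))) (XT.nd (nat_lit 78) (nat_lit 0) (nat_lit 0) (XT.lf (nat_lit 0) (nat_lit 95745864581) (nat_lit 76) (nat_lit 35519876455) (nat_lit 76) (nat_lit 30696227882) (nat_lit 3) (nat_lit 4) (nat_lit 4) (nat_lit 5) (nat_lit 4) (nat_lit 4) (nat_lit 408) (nat_lit 324) (nat_lit 288)) (XT.nd (nat_lit 78) (nat_lit 0) (nat_lit 0) (XT.lf (nat_lit 0) (nat_lit 118642890216) (nat_lit 76) (nat_lit 30370122480) (nat_lit 76) (nat_lit 25522602768) (nat_lit 3) (nat_lit 4) (nat_lit 4) (nat_lit 5) (nat_lit 4) (nat_lit 4) (nat_lit 409) (nat_lit 324) (nat_lit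 287)) (XT.lf (nat_lit 0) (nat_lit 143250197664) (nat_lit 76) (nat_lit 24868817322) (nat_lit 76) (nat_lit 19999194704) (nat_lit 3) (nat_lit 4) (nat_lit 4) (nat_lit 5) (nat_lit 4) (nat_lit 4) (nat_lit 410) (nat_lit 324) (nat_lit 286))))))) (XT.nd (nat_lit 936) (nat_lit 0) (nat_lit 0) (XT.nd (nat_lit 468) (nat_lit 0) (nat_lit 0) (XT.nd (nat_lit 234) (nat_lit 152) (nat_lit 0) (XT.nd (nat_lit 78) (nat_lit 0) (nat_lit 0) (XT.lf (nat_lit 0) (nat_lit 169713608007) (nat_lit 76) (nat_lit 18983360654) (nat_lit 76) (nat_lit 14093272383) (nat_lit 3) (nat_lit 4) (nat_lit 4) (nat_lit 5) (nat_lit 4) (nat_lit 4) (nat_lit 411) (nat_lit 324) (nat_lit 285)) (XT.nd (nat_lit 78) (nat_lit 0) (nat_lit 0) (XT.lf (nat_lit 0) (nat_lit 198189941453) (nat_lit 76) (nat_lit 12678875697) (nat_lit 76) (nat_lit 7769837747) (nat_lit 3) (nat_lit 4) (nat_lit 4) (nat_lit 5) (nat_lit 4) (nat_lit 4) (nat_lit 412) (nat_lit 324)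 (nat_lit 284)) (XT.lf (nat_lit 0) (nat_lit 228847946646) (nat_lit 76) (nat_lit 5918002540) (nat_lit 76) (nat_lit 991418591) (nat_lit 3) (nat_lit 4) (nat_lit 4) (nat_lit 5) (nat_lit 4) (nat_lit 4) (nat_lit 413) (nat_lit 324) (nat_lit 283)))) (XT.nd (nat_lit 78) (nat_lit 0) (nat_lit 0) (XT.lf (nat_lit 0) (nat_lit 6226938182) (nat_lit 152) (nat_lit 246489208176) (nat_lit 0) (nat_lit 1519480805) (nat_lit 1) (nat_lit 5) (nat_lit 3) (nat_lit 4) (nat_lit 1) (nat_lit 4) (nat_lit 414) (nat_lit 324) (nat_lit 282)) (XT.nd (nat_lit 78) (nat_lit 0) (nat_lit 0) (XT.lf (nat_lit 0) (nat_lit 14166347131) (nat_lit 152) (nat_lit 250571510614) (nat_lit 0) (nat_lit 9444563216) (nat_lit 1) (nat_lit 5) (nat_lit 3) (nat_lit 4) (nat_lit 1) (nat_lit 4) (nat_lit 415) (nat_lit 324) (nat_lit 281)) (XT.lf (nat_lit 0) (nat_lit 22699922389) (nat_lit 152) (nat_lit 255062214077) (nat_lit 0) (nat_lit 17964873159) (nat_lit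 1) (nat_lit 5) (nat_lit 3) (nat_lit 4) (nat_lit 1) (nat_lit 4) (nat_lit 416) (nat_lit 324) (nat_lit 280))))) (XT.nd (nat_lit 234) (nat_lit 0) (nat_lit 0) (XT.nd (nat_lit 78) (nat_lit 0) (nat_lit 0) (XT.lf (nat_lit 0) (nat_lit 31878233290) (nat_lit 152) (nat_lit 259987930140) (nat_lit 0) (nat_lit 27130901362) (nat_lit 1) (nat_lit 5) (nat_lit 3) (nat_lit 4) (nat_lit 1) (nat_lit 4) (nat_lit 417) (nat_lit 324) (nat_lit 279)) (XT.nd (nat_lit 78) (nat_lit 0) (nat_lit 0) (XT.lf (nat_lit 0) (nat_lit 41755669825) (nat_lit 152) (nat_lit 265377848233) (nat_lit 0) (nat_lit 36996965027) (nat_lit 1) (nat_lit 5) (nat_lit 3) (nat_lit 4) (nat_lit 1) (nat_lit 4) (nat_lit 418) (nat_lit 324) (nat_lit 278)) (XT.lf (nat_lit 0) (nat_lit 52390764950) (nat_lit 152) (nat_lit 271263908609) (nat_lit 0) (nat_lit 47621529719) (nat_lit 1) (nat_lit 5) (nat_lit 3) (nat_lit 4) (nat_lit 1) (nat_lit 4) (nat_lit 419) (nat_lit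 324) (nat_lit 277)))) (XT.nd (nat_lit 78) (nat_lit 0) (nat_lit 0) (XT.lf (nat_lit 0) (nat_lit 63846541452) (nat_lit 152) (nat_lit 277680991628) (nat_lit 0) (nat_lit 59067555819) (nat_lit 1) (nat_lit 5) (nat_lit 3) (nat_lit 4) (nat_lit 1) (nat_lit 4) (nat_lit 420) (nat_lit 324) (nat_lit 276)) (XT.nd (nat_lit 78) (nat_lit 0) (nat_lit 0) (XT.lf (nat_lit 0) (nat_lit 76190885414) (nat_lit 152) (nat_lit 284667124448) (nat_lit 0) (nat_lit 71402871631) (nat_lit 1) (nat_lit 5) (nat_lit 3) (nat_lit 4) (nat_lit 1) (nat_lit 4) (nat_lit 421) (nat_lit 324) (nat_lit 275)) (XT.lf (nat_lit 0) (nat_lit 89496948504) (nat_lit 152) (nat_lit 292263706374) (nat_lit 0) (nat_lit 84700575322) (nat_lit 1) (nat_lit 5) (nat_lit 3) (nat_lit 4) (nat_lit 1) (nat_lit 4) (nat_lit 422) (nat_lit 324) (nat_lit 274)))))) (XT.nd (nat_lit 468) (nat_lit 0) (nat_lit 0) (XT.nd (nat_lit 234) (nat_lit 0) (nat_lit 0) (XT.nd (nat_lit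 78) (nat_lit 0) (nat_lit 0) (XT.lf (nat_lit 0) (nat_lit 103843581465) (nat_lit 152) (nat_lit 300515754188) (nat_lit 0) (nat_lit 99039468100) (nat_lit 1) (nat_lit 5) (nat_lit 3) (nat_lit 4) (nat_lit 1) (nat_lit 4) (nat_lit 423) (nat_lit 324) (nat_lit 273)) (XT.nd (nat_lit 78) (nat_lit 0) (nat_lit 0) (XT.lf (nat_lit 0) (nat_lit 119315801383) (nat_lit 152) (nat_lit 309472168914) (nat_lit 0) (nat_lit 114504521181) (nat_lit 1) (nat_lit 5) (nat_lit 3) (nat_lit 4) (nat_lit 1) (nat_lit 4) (nat_lit 424) (nat_lit 324) (nat_lit 272)) (XT.lf (nat_lit 0) (nat_lit 136005295486) (nat_lit 152) (nat_lit 319186025603) (nat_lit 0) (nat_lit 131187379325) (nat_lit 1) (nat_lit 5) (nat_lit 3) (nat_lit 4) (nat_lit 1) (nat_lit 4) (nat_lit 425) (nat_lit 324) (nat_lit 271)))) (XT.nd (nat_lit 78) (nat_lit 0) (nat_lit 0) (XT.lf (nat_lit 0) (nat_lit 154010964480) (nat_lit 152) (nat_lit 329714887849) (nat_lit 0) (nat_lit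 149186903911) (nat_lit 1) (nat_lit 5) (nat_lit 3) (nat_lit 4) (nat_lit 1) (nat_lit 4) (nat_lit 426) (nat_lit 324) (nat_lit 270)) (XT.nd (nat_lit 78) (nat_lit 0) (nat_lit 0) (XT.lf (nat_lit 0) (nat_lit 173439508626) (nat_lit 152) (nat_lit 341121148911) (nat_lit 0) (nat_lit 168609758791) (nat_lit 1) (nat_lit 5) (nat_lit 3) (nat_lit 4) (nat_lit 1) (nat_lit 4) (nat_lit 427) (nat_lit 324) (nat_lit 269)) (XT.lf (nat_lit 0) (nat_lit 194406060037) (nat_lit 152) (nat_lit 353472401447) (nat_lit 0) (nat_lit 189571042363) (nat_lit 1) (nat_lit 5) (nat_lit 3) (nat_lit 4) (nat_lit 1) (nat_lit 4) (nat_lit 428) (nat_lit 324) (nat_lit 268))))) (XT.nd (nat_lit 234) (nat_lit 0) (nat_lit 0) (XT.nd (nat_lit 78) (nat_lit 0) (nat_lit 0) (XT.lf (nat_lit 0) (nat_lit 217034864944) (nat_lit 152) (nat_lit 366841838063) (nat_lit 0) (nat_lit 212194969642) (nat_lit 1) (nat_lit 5) (nat_lit 3) (nat_lit 4) (nat_lit 1) (nat_lit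 4) (nat_lit 429) (nat_lit 324) (nat_lit 267)) (XT.nd (nat_lit 78) (nat_lit 0) (nat_lit 0) (XT.lf (nat_lit 0) (nat_lit 241460019968) (nat_lit 152) (nat_lit 381308685052) (nat_lit 0) (nat_lit 236615608343) (nat_lit 1) (nat_lit 5) (nat_lit 3) (nat_lit 4) (nat_lit 1) (nat_lit 4) (nat_lit 430) (nat_lit 324) (nat_lit 266)) (XT.lf (nat_lit 0) (nat_lit 267826266769) (nat_lit 152) (nat_lit 396958671877) (nat_lit 0) (nat_lit 262977673364) (nat_lit 1) (nat_lit 5) (nat_lit 3) (nat_lit 4) (nat_lit 1) (nat_lit 4) (nat_lit 431) (nat_lit 324) (nat_lit 265)))) (XT.nd (nat_lit 156) (nat_lit 0) (nat_lit 0) (XT.nd (nat_lit 78) (nat_lit 0) (nat_lit 0) (XT.lf (nat_lit 0) (nat_lit 296289849773) (nat_lit 152) (nat_lit 413884539200) (nat_lit 0) (nat_lit 291437384349) (nat_lit 1) (nat_lit 5) (nat_lit 3) (nat_lit 4) (nat_lit 1) (nat_lit 4) (nat_lit 432) (nat_lit 324) (nat_lit 264)) (XT.lf (nat_lit 0) (nat_lit 327019442063)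 (nat_lit 152) (nat_lit 432186588458) (nat_lit 0) (nat_lit 322163391437) (nat_lit 1) (nat_lit 5) (nat_lit 3) (nat_lit 4) (nat_lit 1) (nat_lit 4) (nat_lit 433) (nat_lit 324) (nat_lit 263))) (XT.nd (nat_lit 78) (nat_lit 0) (nat_lit 0) (XT.lf (nat_lit 0) (nat_lit 360197144928) (nat_lit 152) (nat_lit 451973276238) (nat_lit 0) (nat_lit 355337774670) (nat_lit 1) (nat_lit 5) (nat_lit 3) (nat_lit 4) (nat_lit 1) (nat_lit 4) (nat_lit 434) (nat_lit 324) (nat_lit 262)) (XT.lf (nat_lit 0) (nat_lit 396019566977) (nat_lit 152) (nat_lit 473361856987) (nat_lit 0) (nat_lit 391157122986) (nat_lit 1) (nat_lit 5) (nat_lit 3) (nat_lit 4) (nat_lit 1) (nat_lit 4) (nat_lit 435) (nat_lit 324) (nat_lit 261))))))))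
noncomputable def xc22 : XT := (XT.nd (nat_lit 1872) (nat_lit 456) (nat_lit 0) (XT.nd (nat_lit 936) (nat_lit 608) (nat_lit 0) (XT.nd (nat_lit 468) (nat_lit 532) (nat_lit 0) (XT.nd (nat_lit 234) (nat_lit 380) (nat_lit 0) (XT.nd (nat_lit 78) (nat_lit 380) (nat_lit 0) (XT.lf (nat_lit 0) (nat_lit 2835587306) (nat_lit 152) (nat_lit 1418001255) (nat_lit 0) (nat_lit 2835587306) (nat_lit 32) (nat_lit 5) (nat_lit 34) (nat_lit 4) (nat_lit 32) (nat_lit 4) (nat_lit 370) (nat_lit 325) (nat_lit 325)) (XT.nd (nat_lit 78) (nat_lit 228) (nat_lit 0) (XT.lf (nat_lit 0) (nat_lit 14170832107) (nat_lit 152) (nat_lit 654524812) (nat_lit 152) (nat_lit 15885313) (nat_lit 30) (nat_lit 4) (nat_lit 32) (nat_lit 5) (nat_lit 32) (nat_lit 4) (nat_lit 371) (nat_lit 325) (nat_lit 324)) (XT.lf (nat_lit 0) (nat_lit 961239297) (nat_lit 76) (nat_lit 7880629370) (nat_lit 76) (nat_lit 6709227114) (nat_lit 27) (nat_lit 4) (nat_lit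 28) (nat_lit 5) (nat_lit 28) (nat_lit 4) (nat_lit 372) (nat_lit 325) (nat_lit 323)))) (XT.nd (nat_lit 78) (nat_lit 228) (nat_lit 0) (XT.lf (nat_lit 0) (nat_lit 1886192985) (nat_lit 152) (nat_lit 14162874845) (nat_lit 0) (nat_lit 273945544) (nat_lit 25) (nat_lit 5) (nat_lit 27) (nat_lit 4) (nat_lit 25) (nat_lit 4) (nat_lit 373) (nat_lit 325) (nat_lit 322)) (XT.nd (nat_lit 78) (nat_lit 152) (nat_lit 0) (XT.lf (nat_lit 0) (nat_lit 2598698120) (nat_lit 76) (nat_lit 8312887180) (nat_lit 76) (nat_lit 6240800624) (nat_lit 24) (nat_lit 4) (nat_lit 25) (nat_lit 5) (nat_lit 25) (nat_lit 4) (nat_lit 374) (nat_lit 325) (nat_lit 321)) (XT.lf (nat_lit 0) (nat_lit 2363257617) (nat_lit 76) (nat_lit 8020983) (nat_lit 152) (nat_lit 15682656764) (nat_lit 22) (nat_lit 5) (nat_lit 23) (nat_lit 5) (nat_lit 24) (nat_lit 4) (nat_lit 375) (nat_lit 325) (nat_lit 320))))) (XT.nd (nat_lit 234) (nat_lit 304) (nat_lit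 0) (XT.nd (nat_lit 78) (nat_lit 152) (nat_lit 0) (XT.lf (nat_lit 0) (nat_lit 1106854056) (nat_lit 76) (nat_lit 10335327098) (nat_lit 76) (nat_lit 7580944775) (nat_lit 21) (nat_lit 4) (nat_lit 22) (nat_lit 5) (nat_lit 22) (nat_lit 4) (nat_lit 376) (nat_lit 325) (nat_lit 319)) (XT.nd (nat_lit 78) (nat_lit 76) (nat_lit 0) (XT.lf (nat_lit 0) (nat_lit 992967747) (nat_lit 152) (nat_lit 1066450931) (nat_lit 76) (nat_lit 18016497738) (nat_lit 20) (nat_lit 5) (nat_lit 22) (nat_lit 5) (nat_lit 21) (nat_lit 4) (nat_lit 377) (nat_lit 325) (nat_lit 318)) (XT.lf (nat_lit 0) (nat_lit 9975801386) (nat_lit 152) (nat_lit 4516621025) (nat_lit 0) (nat_lit 6714910654) (nat_lit 19) (nat_lit 5) (nat_lit 21) (nat_lit 4) (nat_lit 19) (nat_lit 4) (nat_lit 378) (nat_lit 325) (nat_lit 317)))) (XT.nd (nat_lit 78) (nat_lit 228) (nat_lit 0) (XT.lf (nat_lit 0) (nat_lit 13145812383) (nat_lit 76) (nat_lit 6416985554) (nat_lit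 76) (nat_lit 2872231987) (nat_lit 18) (nat_lit 4) (nat_lit 19) (nat_lit 5) (nat_lit 19) (nat_lit 4) (nat_lit 379) (nat_lit 325) (nat_lit 316)) (XT.nd (nat_lit 78) (nat_lit 76) (nat_lit 0) (XT.lf (nat_lit 0) (nat_lit 5838444616) (nat_lit 152) (nat_lit 15711579226) (nat_lit 0) (nat_lit 2212168878) (nat_lit 16) (nat_lit 5) (nat_lit 18) (nat_lit 4) (nat_lit 16) (nat_lit 4) (nat_lit 380) (nat_lit 325) (nat_lit 315)) (XT.lf (nat_lit 0) (nat_lit 1117562641) (nat_lit 76) (nat_lit 13968336559) (nat_lit 76) (nat_lit 10110283081) (nat_lit 15) (nat_lit 4) (nat_lit 16) (nat_lit 5) (nat_lit 16) (nat_lit 4) (nat_lit 381) (nat_lit 325) (nat_lit 314)))))) (XT.nd (nat_lit 468) (nat_lit 228) (nat_lit 0) (XT.nd (nat_lit 234) (nat_lit 228) (nat_lit 0) (XT.nd (nat_lit 78) (nat_lit 152) (nat_lit 0) (XT.lf (nat_lit 0) (nat_lit 19202850712) (nat_lit 76) (nat_lit 5808902828) (nat_lit 76) (nat_lit 1736240330) (nat_lit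 15) (nat_lit 4) (nat_lit 16) (nat_lit 5) (nat_lit 16) (nat_lit 4) (nat_lit 382) (nat_lit 325) (nat_lit 313)) (XT.nd (nat_lit 78) (nat_lit 0) (nat_lit 0) (XT.lf (nat_lit 0) (nat_lit 6959667966) (nat_lit 152) (nat_lit 18572622894) (nat_lit 0) (nat_lit 2891692201) (nat_lit 13) (nat_lit 5) (nat_lit 15) (nat_lit 4) (nat_lit 13) (nat_lit 4) (nat_lit 383) (nat_lit 325) (nat_lit 312)) (XT.lf (nat_lit 0) (nat_lit 16217130855) (nat_lit 152) (nat_lit 2045264787) (nat_lit 0) (nat_lit 11973924001) (nat_lit 13) (nat_lit 5) (nat_lit 15) (nat_lit 4) (nat_lit 13) (nat_lit 4) (nat_lit 384) (nat_lit 325) (nat_lit 311)))) (XT.nd (nat_lit 78) (nat_lit 152) (nat_lit 0) (XT.lf (nat_lit 0) (nat_lit 15755382364) (nat_lit 76) (nat_lit 10422797094) (nat_lit 76) (nat_lit 6017339232) (nat_lit 12) (nat_lit 4) (nat_lit 13) (nat_lit 5) (nat_lit 13) (nat_lit 4) (nat_lit 385) (nat_lit 325) (nat_lit 310)) (XT.nd (nat_lit 78)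 (nat_lit 0) (nat_lit 0) (XT.lf (nat_lit 0) (nat_lit 169056684) (nat_lit 76) (nat_lit 2135697930) (nat_lit 152) (nat_lit 32016467067) (nat_lit 10) (nat_lit 5) (nat_lit 11) (nat_lit 5) (nat_lit 12) (nat_lit 4) (nat_lit 386) (nat_lit 325) (nat_lit 309)) (XT.lf (nat_lit 0) (nat_lit 11215702658) (nat_lit 152) (nat_lit 18645201223) (nat_lit 0) (nat_lit 6744469929) (nat_lit 10) (nat_lit 5) (nat_lit 12) (nat_lit 4) (nat_lit 10) (nat_lit 4) (nat_lit 387) (nat_lit 325) (nat_lit 308))))) (XT.nd (nat_lit 234) (nat_lit 152) (nat_lit 0) (XT.nd (nat_lit 78) (nat_lit 76) (nat_lit 0) (XT.lf (nat_lit 0) (nat_lit 20628893729) (nat_lit 152) (nat_lit 2418920644) (nat_lit 0) (nat_lit 16034994256) (nat_lit 10) (nat_lit 5) (nat_lit 12) (nat_lit 4) (nat_lit 10) (nat_lit 4) (nat_lit 388) (nat_lit 325) (nat_lit 307)) (XT.nd (nat_lit 78) (nat_lit 0) (nat_lit 0) (XT.lf (nat_lit 0) (nat_lit 15140776096) (nat_lit 76) (nat_lit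 15662379323) (nat_lit 76) (nat_lit 10954899531) (nat_lit 9) (nat_lit 4) (nat_lit 10) (nat_lit 5) (nat_lit 10) (nat_lit 4) (nat_lit 389) (nat_lit 325) (nat_lit 306)) (XT.lf (nat_lit 0) (nat_lit 33761867185) (nat_lit 76) (nat_lit 7853459159) (nat_lit 76) (nat_lit 3040812405) (nat_lit 9) (nat_lit 4) (nat_lit 10) (nat_lit 5) (nat_lit 10) (nat_lit 4) (nat_lit 390) (nat_lit 325) (nat_lit 305)))) (XT.nd (nat_lit 78) (nat_lit 0) (nat_lit 0) (XT.lf (nat_lit 0) (nat_lit 5223919223) (nat_lit 152) (nat_lit 42015471646) (nat_lit 0) (nat_lit 547706299) (nat_lit 7) (nat_lit 5) (nat_lit 9) (nat_lit 4) (nat_lit 7) (nat_lit 4) (nat_lit 391) (nat_lit 325) (nat_lit 304)) (XT.nd (nat_lit 78) (nat_lit 0) (nat_lit 0) (XT.lf (nat_lit 0) (nat_lit 14170874882) (nat_lit 152) (nat_lit 27580007339) (nat_lit 0) (nat_lit 9408791750) (nat_lit 7) (nat_lit 5) (nat_lit 9) (nat_lit 4) (nat_lit 7) (nat_lit 4) (nat_lit 392) (nat_lit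 325) (nat_lit 303)) (XT.lf (nat_lit 0) (nat_lit 23649189432) (nat_lit 152) (nat_lit 12354502754) (nat_lit 0) (nat_lit 18807596848) (nat_lit 7) (nat_lit 5) (nat_lit 9) (nat_lit 4) (nat_lit 7) (nat_lit 4) (nat_lit 393) (nat_lit 325) (nat_lit 302))))))) (XT.nd (nat_lit 936) (nat_lit 152) (nat_lit 0) (XT.nd (nat_lit 468) (nat_lit 76) (nat_lit 0) (XT.nd (nat_lit 234) (nat_lit 152) (nat_lit 0) (XT.nd (nat_lit 78) (nat_lit 0) (nat_lit 0) (XT.lf (nat_lit 0) (nat_lit 3875301160) (nat_lit 76) (nat_lit 29900233815) (nat_lit 76) (nat_lit 24985021367) (nat_lit 6) (nat_lit 4) (nat_lit 7) (nat_lit 5) (nat_lit 7) (nat_lit 4) (nat_lit 394) (nat_lit 325) (nat_lit 301)) (XT.nd (nat_lit 78) (nat_lit 0) (nat_lit 0) (XT.lf (nat_lit 0) (nat_lit 21521569104) (nat_lit 76) (nat_lit 23242490908) (nat_lit 76) (nat_lit 18259111920) (nat_lit 6) (nat_lit 4) (nat_lit 7) (nat_lit 5) (nat_lit 7) (nat_lit 4) (nat_lit 395)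 (nat_lit 325) (nat_lit 300)) (XT.lf (nat_lit 0) (nat_lit 40280375899) (nat_lit 76) (nat_lit 16200239659) (nat_lit 76) (nat_lit 11153743504) (nat_lit 6) (nat_lit 4) (nat_lit 7) (nat_lit 5) (nat_lit 7) (nat_lit 4) (nat_lit 396) (nat_lit 325) (nat_lit 299)))) (XT.nd (nat_lit 78) (nat_lit 152) (nat_lit 0) (XT.lf (nat_lit 0) (nat_lit 60262884844) (nat_lit 76) (nat_lit 8731748206) (nat_lit 76) (nat_lit 3626810230) (nat_lit 6) (nat_lit 4) (nat_lit 7) (nat_lit 5) (nat_lit 7) (nat_lit 4) (nat_lit 397) (nat_lit 325) (nat_lit 298)) (XT.nd (nat_lit 78) (nat_lit 0) (nat_lit 0) (XT.lf (nat_lit 0) (nat_lit 3621266205) (nat_lit 76) (nat_lit 661815247) (nat_lit 152) (nat_lit 73724660820) (nat_lit 4) (nat_lit 5) (nat_lit 5) (nat_lit 5) (nat_lit 6) (nat_lit 4) (nat_lit 398) (nat_lit 325) (nat_lit 297)) (XT.lf (nat_lit 0) (nat_lit 12917235700) (nat_lit 152) (nat_lit 62937681689) (nat_lit 0) (nat_lit 7956135495)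 (nat_lit 4) (nat_lit 5) (nat_lit 6) (nat_lit 4) (nat_lit 4) (nat_lit 4) (nat_lit 399) (nat_lit 325) (nat_lit 296))))) (XT.nd (nat_lit 234) (nat_lit 76) (nat_lit 0) (XT.nd (nat_lit 78) (nat_lit 0) (nat_lit 0) (XT.lf (nat_lit 0) (nat_lit 22135031671) (nat_lit 152) (nat_lit 50819210348) (nat_lit 0) (nat_lit 17129747655) (nat_lit 4) (nat_lit 5) (nat_lit 6) (nat_lit 4) (nat_lit 4) (nat_lit 4) (nat_lit 400) (nat_lit 325) (nat_lit 295)) (XT.nd (nat_lit 78) (nat_lit 0) (nat_lit 0) (XT.lf (nat_lit 0) (nat_lit 31980760552) (nat_lit 152) (nat_lit 37948916092) (nat_lit 0) (nat_lit 26934565600) (nat_lit 4) (nat_lit 5) (nat_lit 6) (nat_lit 4) (nat_lit 4) (nat_lit 4) (nat_lit 401) (nat_lit 325) (nat_lit 294)) (XT.lf (nat_lit 0) (nat_lit 42512767403) (nat_lit 152) (nat_lit 24250530510) (nat_lit 0) (nat_lit 37428691954) (nat_lit 4) (nat_lit 5) (nat_lit 6) (nat_lit 4) (nat_lit 4) (nat_lit 4) (nat_lit 402)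 (nat_lit 325) (nat_lit 293)))) (XT.nd (nat_lit 78) (nat_lit 76) (nat_lit 0) (XT.lf (nat_lit 0) (nat_lit 53793464117) (nat_lit 152) (nat_lit 9642877983) (nat_lit 0) (nat_lit 48674314134) (nat_lit 4) (nat_lit 5) (nat_lit 6) (nat_lit 4) (nat_lit 4) (nat_lit 4) (nat_lit 403) (nat_lit 325) (nat_lit 292)) (XT.nd (nat_lit 78) (nat_lit 0) (nat_lit 0) (XT.lf (nat_lit 0) (nat_lit 6157689886) (nat_lit 76) (nat_lit 59828148175) (nat_lit 76) (nat_lit 54676521772) (nat_lit 3) (nat_lit 4) (nat_lit 4) (nat_lit 5) (nat_lit 4) (nat_lit 4) (nat_lit 404) (nat_lit 325) (nat_lit 291)) (XT.lf (nat_lit 0) (nat_lit 23401374725) (nat_lit 76) (nat_lit 55837140559) (nat_lit 76) (nat_lit 50655443396) (nat_lit 3) (nat_lit 4) (nat_lit 4) (nat_lit 5) (nat_lit 4) (nat_lit 4) (nat_lit 405) (nat_lit 325) (nat_lit 290)))))) (XT.nd (nat_lit 468) (nat_lit 152) (nat_lit 0) (XT.nd (nat_lit 234) (nat_lit 0) (nat_lit 0) (XT.nd (nat_lit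 78) (nat_lit 0) (nat_lit 0) (XT.lf (nat_lit 0) (nat_lit 41871524239) (nat_lit 76) (nat_lit 51602975640) (nat_lit 76) (nat_lit 46393435181) (nat_lit 3) (nat_lit 4) (nat_lit 4) (nat_lit 5) (nat_lit 4) (nat_lit 4) (nat_lit 406) (nat_lit 325) (nat_lit 289)) (XT.nd (nat_lit 78) (nat_lit 0) (nat_lit 0) (XT.lf (nat_lit 0) (nat_lit 61677591164) (nat_lit 76) (nat_lit 47100562072) (nat_lit 76) (nat_lit 41865240784) (nat_lit 3) (nat_lit 4) (nat_lit 4) (nat_lit 5) (nat_lit 4) (nat_lit 4) (nat_lit 407) (nat_lit 325) (nat_lit 288)) (XT.lf (nat_lit 0) (nat_lit 82936944786) (nat_lit 76) (nat_lit 42303218885) (nat_lit 76) (nat_lit 37044026458) (nat_lit 3) (nat_lit 4) (nat_lit 4) (nat_lit 5) (nat_lit 4) (nat_lit 4) (nat_lit 408) (nat_lit 325) (nat_lit 287)))) (XT.nd (nat_lit 78) (nat_lit 0) (nat_lit 0) (XT.lf (nat_lit 0) (nat_lit 105775566461) (nat_lit 76) (nat_lit 37182517378) (nat_lit 76) (nat_lit 31901222046)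 (nat_lit 3) (nat_lit 4) (nat_lit 4) (nat_lit 5) (nat_lit 4) (nat_lit 4) (nat_lit 409) (nat_lit 325) (nat_lit 286)) (XT.nd (nat_lit 78) (nat_lit 0) (nat_lit 0) (XT.lf (nat_lit 0) (nat_lit 130328796168) (nat_lit 76) (nat_lit 31708112654) (nat_lit 76) (nat_lit 26406351668) (nat_lit 3) (nat_lit 4) (nat_lit 4) (nat_lit 5) (nat_lit 4) (nat_lit 4) (nat_lit 410) (nat_lit 325) (nat_lit 285)) (XT.lf (nat_lit 0) (nat_lit 156742134528) (nat_lit 76) (nat_lit 25847563797) (nat_lit 76) (nat_lit 20526853131) (nat_lit 3) (nat_lit 4) (nat_lit 4) (nat_lit 5) (nat_lit 4) (nat_lit 4) (nat_lit 411) (nat_lit 325) (nat_lit 284))))) (XT.nd (nat_lit 234) (nat_lit 152) (nat_lit 0) (XT.nd (nat_lit 78) (nat_lit 0) (nat_lit 0) (XT.lf (nat_lit 0) (nat_lit 185172105028) (nat_lit 76) (nat_lit 19566141626) (nat_lit 76) (nat_lit 14227884961) (nat_lit 3) (nat_lit 4) (nat_lit 4) (nat_lit 5) (nat_lit 4) (nat_lit 4) (nat_lit 412)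 (nat_lit 325) (nat_lit 283)) (XT.nd (nat_lit 78) (nat_lit 0) (nat_lit 0) (XT.lf (nat_lit 0) (nat_lit 215787181566) (nat_lit 76) (nat_lit 12826622901) (nat_lit 76) (nat_lit 7472119940) (nat_lit 3) (nat_lit 4) (nat_lit 4) (nat_lit 5) (nat_lit 4) (nat_lit 4) (nat_lit 413) (nat_lit 325) (nat_lit 282)) (XT.lf (nat_lit 0) (nat_lit 248768786819) (nat_lit 76) (nat_lit 5589069732) (nat_lit 76) (nat_lit 219523905) (nat_lit 3) (nat_lit 4) (nat_lit 4) (nat_lit 5) (nat_lit 4) (nat_lit 4) (nat_lit 414) (nat_lit 325) (nat_lit 281)))) (XT.nd (nat_lit 156) (nat_lit 0) (nat_lit 0) (XT.nd (nat_lit 78) (nat_lit 0) (nat_lit 0) (XT.lf (nat_lit 0) (nat_lit 7524722287) (nat_lit 152) (nat_lit 264612129958) (nat_lit 0) (nat_lit 2397603805) (nat_lit 1) (nat_lit 5) (nat_lit 3) (nat_lit 4) (nat_lit 1) (nat_lit 4) (nat_lit 415) (nat_lit 325) (nat_lit 280)) (XT.lf (nat_lit 0) (nat_lit 16040052171) (nat_lit 152) (nat_lit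 269139254730) (nat_lit 0) (nat_lit 10900650990) (nat_lit 1) (nat_lit 5) (nat_lit 3) (nat_lit 4) (nat_lit 1) (nat_lit 4) (nat_lit 416) (nat_lit 325) (nat_lit 279))) (XT.nd (nat_lit 78) (nat_lit 0) (nat_lit 0) (XT.lf (nat_lit 0) (nat_lit 25201469208) (nat_lit 152) (nat_lit 274098694228) (nat_lit 0) (nat_lit 20050695158) (nat_lit 1) (nat_lit 5) (nat_lit 3) (nat_lit 4) (nat_lit 1) (nat_lit 4) (nat_lit 417) (nat_lit 325) (nat_lit 278)) (XT.lf (nat_lit 0) (nat_lit 35063263275) (nat_lit 152) (nat_lit 279519837723) (nat_lit 0) (nat_lit 29901958791) (nat_lit 1) (nat_lit 5) (nat_lit 3) (nat_lit 4) (nat_lit 1) (nat_lit 4) (nat_lit 418) (nat_lit 325) (nat_lit 277))))))))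
noncomputable def xc23 : XT := (XT.nd (nat_lit 49686) (nat_lit 0) (nat_lit 228) (XT.nd (nat_lit 936) (nat_lit 0) (nat_lit 0) (XT.nd (nat_lit 468) (nat_lit 0) (nat_lit 0) (XT.nd (nat_lit 234) (nat_lit 0) (nat_lit 0) (XT.nd (nat_lit 78) (nat_lit 0) (nat_lit 0) (XT.lf (nat_lit 0) (nat_lit 45683874634) (nat_lit 152) (nat_lit 285434810509) (nat_lit 0) (nat_lit 40512819748) (nat_lit 1) (nat_lit 5) (nat_lit 3) (nat_lit 4) (nat_lit 1) (nat_lit 4) (nat_lit 419) (nat_lit 325) (nat_lit 276)) (XT.nd (nat_lit 78) (nat_lit 0) (nat_lit 0) (XT.lf (nat_lit 0) (nat_lit 57126240242) (nat_lit 152) (nat_lit 291878664278) (nat_lit 0) (nat_lit 51946157206) (nat_lit 1) (nat_lit 5) (nat_lit 3) (nat_lit 4) (nat_lit 1) (nat_lit 4) (nat_lit 420) (nat_lit 325) (nat_lit 275)) (XT.lf (nat_lit 0) (nat_lit 69458166709) (nat_lit 152) (nat_lit 298889584828) (nat_lit 0) (nat_lit 64269724275) (nat_lit 1) (nat_lit 5) (nat_lit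 3) (nat_lit 4) (nat_lit 1) (nat_lit 4) (nat_lit 421) (nat_lit 325) (nat_lit 274)))) (XT.nd (nat_lit 78) (nat_lit 0) (nat_lit 0) (XT.lf (nat_lit 0) (nat_lit 82752732118) (nat_lit 152) (nat_lit 306509118357) (nat_lit 0) (nat_lit 77556549501) (nat_lit 1) (nat_lit 5) (nat_lit 3) (nat_lit 4) (nat_lit 1) (nat_lit 4) (nat_lit 422) (nat_lit 325) (nat_lit 273)) (XT.nd (nat_lit 78) (nat_lit 0) (nat_lit 0) (XT.lf (nat_lit 0) (nat_lit 97088719080) (nat_lit 152) (nat_lit 314782417655) (nat_lit 0) (nat_lit 91885369625) (nat_lit 1) (nat_lit 5) (nat_lit 3) (nat_lit 4) (nat_lit 1) (nat_lit 4) (nat_lit 423) (nat_lit 325) (nat_lit 272)) (XT.lf (nat_lit 0) (nat_lit 112551081589) (nat_lit 152) (nat_lit 323758509682) (nat_lit 0) (nat_lit 107341096175) (nat_lit 1) (nat_lit 5) (nat_lit 3) (nat_lit 4) (nat_lit 1) (nat_lit 4) (nat_lit 424) (nat_lit 325) (nat_lit 271))))) (XT.nd (nat_lit 234) (nat_lit 0) (nat_lit 0)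 (XT.nd (nat_lit 78) (nat_lit 0) (nat_lit 0) (XT.lf (nat_lit 0) (nat_lit 129231448463) (nat_lit 152) (nat_lit 333490586093) (nat_lit 0) (nat_lit 124015318642) (nat_lit 1) (nat_lit 5) (nat_lit 3) (nat_lit 4) (nat_lit 1) (nat_lit 4) (nat_lit 425) (nat_lit 325) (nat_lit 270)) (XT.nd (nat_lit 78) (nat_lit 0) (nat_lit 0) (XT.lf (nat_lit 0) (nat_lit 147228666319) (nat_lit 152) (nat_lit 344036318453) (nat_lit 0) (nat_lit 142006847231) (nat_lit 1) (nat_lit 5) (nat_lit 3) (nat_lit 4) (nat_lit 1) (nat_lit 4) (nat_lit 426) (nat_lit 325) (nat_lit 269)) (XT.lf (nat_lit 0) (nat_lit 166649385336) (nat_lit 152) (nat_lit 355458199990) (nat_lit 0) (nat_lit 161422298410) (nat_lit 1) (nat_lit 5) (nat_lit 3) (nat_lit 4) (nat_lit 1) (nat_lit 4) (nat_lit 427) (nat_lit 325) (nat_lit 268)))) (XT.nd (nat_lit 78) (nat_lit 0) (nat_lit 0) (XT.lf (nat_lit 0) (nat_lit 187608691258) (nat_lit 152) (nat_lit 367823915928) (nat_lit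 0) (nat_lit 182376726704) (nat_lit 1) (nat_lit 5) (nat_lit 3) (nat_lit 4) (nat_lit 1) (nat_lit 4) (nat_lit 428) (nat_lit 325) (nat_lit 267)) (XT.nd (nat_lit 78) (nat_lit 0) (nat_lit 0) (XT.lf (nat_lit 0) (nat_lit 210230787379) (nat_lit 152) (nat_lit 381206744585) (nat_lit 0) (nat_lit 204994306502) (nat_lit 1) (nat_lit 5) (nat_lit 3) (nat_lit 4) (nat_lit 1) (nat_lit 4) (nat_lit 429) (nat_lit 325) (nat_lit 266)) (XT.lf (nat_lit 0) (nat_lit 234649730565) (nat_lit 152) (nat_lit 395685991611) (nat_lit 0) (nat_lit 229409067907) (nat_lit 1) (nat_lit 5) (nat_lit 3) (nat_lit 4) (nat_lit 1) (nat_lit 4) (nat_lit 430) (nat_lit 325) (nat_lit 265)))))) (XT.nd (nat_lit 48282) (nat_lit 0) (nat_lit 1748) (XT.nd (nat_lit 234) (nat_lit 0) (nat_lit 0) (XT.nd (nat_lit 78) (nat_lit 0) (nat_lit 0) (XT.lf (nat_lit 0) (nat_lit 261010225663) (nat_lit 152) (nat_lit 411347459951) (nat_lit 0) (nat_lit 255765690987) (nat_lit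 1) (nat_lit 5) (nat_lit 3) (nat_lit 4) (nat_lit 1) (nat_lit 4) (nat_lit 431) (nat_lit 325) (nat_lit 264)) (XT.nd (nat_lit 78) (nat_lit 0) (nat_lit 0) (XT.lf (nat_lit 0) (nat_lit 289468483016) (nat_lit 152) (nat_lit 428283958307) (nat_lit 0) (nat_lit 284220363137) (nat_lit 1) (nat_lit 5) (nat_lit 3) (nat_lit 4) (nat_lit 1) (nat_lit 4) (nat_lit 432) (nat_lit 325) (nat_lit 263)) (XT.lf (nat_lit 0) (nat_lit 320193144148) (nat_lit 152) (nat_lit 446595851114) (nat_lit 0) (nat_lit 314941704637) (nat_lit 1) (nat_lit 5) (nat_lit 3) (nat_lit 4) (nat_lit 1) (nat_lit 4) (nat_lit 433) (nat_lit 325) (nat_lit 262)))) (XT.nd (nat_lit 78) (nat_lit 0) (nat_lit 0) (XT.lf (nat_lit 0) (nat_lit 353366281126) (nat_lit 152) (nat_lit 466391653292) (nat_lit 0) (nat_lit 348111767882) (nat_lit 1) (nat_lit 5) (nat_lit 3) (nat_lit 4) (nat_lit 1) (nat_lit 4) (nat_lit 434) (nat_lit 325) (nat_lit 261)) (XT.nd (nat_lit 47892)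 (nat_lit 0) (nat_lit 2660) (XT.lf (nat_lit 0) (nat_lit 389184475502) (nat_lit 152) (nat_lit 487788673298) (nat_lit 0) (nat_lit 383927116208) (nat_lit 1) (nat_lit 5) (nat_lit 3) (nat_lit 4) (nat_lit 1) (nat_lit 4) (nat_lit 435) (nat_lit 325) (nat_lit 260)) (XT.lf (nat_lit 0) (nat_lit 1316201737) (nat_lit 152) (nat_lit 3863390662) (nat_lit 0) (nat_lit 1316201737) (nat_lit 36) (nat_lit 5) (nat_lit 38) (nat_lit 4) (nat_lit 36) (nat_lit 4) (nat_lit 368) (nat_lit 326) (nat_lit 326))))) (XT.nd (nat_lit 234) (nat_lit 380) (nat_lit 0) (XT.nd (nat_lit 78) (nat_lit 380) (nat_lit 0) (XT.lf (nat_lit 0) (nat_lit 8250916770) (nat_lit 152) (nat_lit 3020778122) (nat_lit 152) (nat_lit 2296560930) (nat_lit 34) (nat_lit 4) (nat_lit 36) (nat_lit 5) (nat_lit 36) (nat_lit 4) (nat_lit 369) (nat_lit 326) (nat_lit 325)) (XT.nd (nat_lit 78) (nat_lit 228) (nat_lit 0) (XT.lf (nat_lit 0) (nat_lit 6128779382) (nat_lit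 152) (nat_lit 3260816679) (nat_lit 0) (nat_lit 4800409224) (nat_lit 32) (nat_lit 5) (nat_lit 34) (nat_lit 4) (nat_lit 32) (nat_lit 4) (nat_lit 370) (nat_lit 326) (nat_lit 324)) (XT.lf (nat_lit 0) (nat_lit 184391440) (nat_lit 228) (nat_lit 1541700574) (nat_lit 76) (nat_lit 13138105200) (nat_lit 29) (nat_lit 5) (nat_lit 32) (nat_lit 5) (nat_lit 30) (nat_lit 4) (nat_lit 371) (nat_lit 326) (nat_lit 323)))) (XT.nd (nat_lit 78) (nat_lit 304) (nat_lit 0) (XT.lf (nat_lit 0) (nat_lit 8778320670) (nat_lit 152) (nat_lit 380347580) (nat_lit 0) (nat_lit 6428574516) (nat_lit 28) (nat_lit 5) (nat_lit 30) (nat_lit 4) (nat_lit 28) (nat_lit 4) (nat_lit 372) (nat_lit 326) (nat_lit 322)) (XT.nd (nat_lit 78) (nat_lit 76) (nat_lit 0) (XT.lf (nat_lit 0) (nat_lit 323662575) (nat_lit 76) (nat_lit 1215966595) (nat_lit 152) (nat_lit 14832146027) (nat_lit 25) (nat_lit 5) (nat_lit 26) (nat_lit 5) (nat_lit 27) (nat_lit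 4) (nat_lit 373) (nat_lit 326) (nat_lit 321)) (XT.lf (nat_lit 0) (nat_lit 274576742) (nat_lit 76) (nat_lit 10031509416) (nat_lit 76) (nat_lit 6908039861) (nat_lit 24) (nat_lit 4) (nat_lit 25) (nat_lit 5) (nat_lit 25) (nat_lit 4) (nat_lit 374) (nat_lit 326) (nat_lit 320))))))) (XT.nd (nat_lit 936) (nat_lit 608) (nat_lit 0) (XT.nd (nat_lit 468) (nat_lit 304) (nat_lit 0) (XT.nd (nat_lit 234) (nat_lit 380) (nat_lit 0) (XT.nd (nat_lit 78) (nat_lit 152) (nat_lit 0) (XT.lf (nat_lit 0) (nat_lit 1490979145) (nat_lit 152) (nat_lit 461200231) (nat_lit 76) (nat_lit 16175765544) (nat_lit 23) (nat_lit 5) (nat_lit 25) (nat_lit 5) (nat_lit 24) (nat_lit 4) (nat_lit 375) (nat_lit 326) (nat_lit 319)) (XT.nd (nat_lit 78) (nat_lit 76) (nat_lit 0) (XT.lf (nat_lit 0) (nat_lit 10315588528) (nat_lit 152) (nat_lit 2176148902) (nat_lit 0) (nat_lit 6617738438) (nat_lit 22) (nat_lit 5) (nat_lit 24) (nat_lit 4) (nat_lit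 22) (nat_lit 4) (nat_lit 376) (nat_lit 326) (nat_lit 318)) (XT.lf (nat_lit 0) (nat_lit 15323179303) (nat_lit 76) (nat_lit 4435268023) (nat_lit 76) (nat_lit 415517478) (nat_lit 21) (nat_lit 4) (nat_lit 22) (nat_lit 5) (nat_lit 22) (nat_lit 4) (nat_lit 377) (nat_lit 326) (nat_lit 317)))) (XT.nd (nat_lit 78) (nat_lit 228) (nat_lit 0) (XT.lf (nat_lit 0) (nat_lit 8302005617) (nat_lit 152) (nat_lit 8827842766) (nat_lit 0) (nat_lit 4189808930) (nat_lit 19) (nat_lit 5) (nat_lit 21) (nat_lit 4) (nat_lit 19) (nat_lit 4) (nat_lit 378) (nat_lit 326) (nat_lit 316)) (XT.nd (nat_lit 78) (nat_lit 152) (nat_lit 0) (XT.lf (nat_lit 0) (nat_lit 8361804567) (nat_lit 76) (nat_lit 9286322722) (nat_lit 76) (nat_lit 4911290077) (nat_lit 18) (nat_lit 4) (nat_lit 19) (nat_lit 5) (nat_lit 19) (nat_lit 4) (nat_lit 379) (nat_lit 326) (nat_lit 315)) (XT.lf (nat_lit 0) (nat_lit 2728864628) (nat_lit 76) (nat_lit 855166542)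 (nat_lit 152) (nat_lit 20318188810) (nat_lit 16) (nat_lit 5) (nat_lit 17) (nat_lit 5) (nat_lit 18) (nat_lit 4) (nat_lit 380) (nat_lit 326) (nat_lit 314))))) (XT.nd (nat_lit 234) (nat_lit 76) (nat_lit 0) (XT.nd (nat_lit 78) (nat_lit 228) (nat_lit 0) (XT.lf (nat_lit 0) (nat_lit 12644477033) (nat_lit 152) (nat_lit 4669706311) (nat_lit 0) (nat_lit 8031392516) (nat_lit 16) (nat_lit 5) (nat_lit 18) (nat_lit 4) (nat_lit 16) (nat_lit 4) (nat_lit 381) (nat_lit 326) (nat_lit 313)) (XT.nd (nat_lit 78) (nat_lit 152) (nat_lit 0) (XT.lf (nat_lit 0) (nat_lit 12971276078) (nat_lit 76) (nat_lit 9374573371) (nat_lit 76) (nat_lit 4562776799) (nat_lit 15) (nat_lit 4) (nat_lit 16) (nat_lit 5) (nat_lit 16) (nat_lit 4) (nat_lit 382) (nat_lit 326) (nat_lit 312)) (XT.lf (nat_lit 0) (nat_lit 3060245323) (nat_lit 76) (nat_lit 869527622) (nat_lit 152) (nat_lit 24671753237) (nat_lit 13) (nat_lit 5) (nat_lit 14) (nat_lit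 5) (nat_lit 15) (nat_lit 4) (nat_lit 383) (nat_lit 326) (nat_lit 311)))) (XT.nd (nat_lit 78) (nat_lit 76) (nat_lit 0) (XT.lf (nat_lit 0) (nat_lit 13037603826) (nat_lit 152) (nat_lit 9266294217) (nat_lit 0) (nat_lit 8117458327) (nat_lit 13) (nat_lit 5) (nat_lit 15) (nat_lit 4) (nat_lit 13) (nat_lit 4) (nat_lit 384) (nat_lit 326) (nat_lit 310)) (XT.nd (nat_lit 78) (nat_lit 0) (nat_lit 0) (XT.lf (nat_lit 0) (nat_lit 8041203604) (nat_lit 76) (nat_lit 14711030872) (nat_lit 76) (nat_lit 9640652958) (nat_lit 12) (nat_lit 4) (nat_lit 13) (nat_lit 5) (nat_lit 13) (nat_lit 4) (nat_lit 385) (nat_lit 326) (nat_lit 309)) (XT.lf (nat_lit 0) (nat_lit 26574262324) (nat_lit 76) (nat_lit 6580912552) (nat_lit 76) (nat_lit 1371430550) (nat_lit 12) (nat_lit 4) (nat_lit 13) (nat_lit 5) (nat_lit 13) (nat_lit 4) (nat_lit 386) (nat_lit 326) (nat_lit 308)))))) (XT.nd (nat_lit 468) (nat_lit 228) (nat_lit 0) (XT.nd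 (nat_lit 234) (nat_lit 152) (nat_lit 0) (XT.nd (nat_lit 78) (nat_lit 76) (nat_lit 0) (XT.lf (nat_lit 0) (nat_lit 7265064169) (nat_lit 152) (nat_lit 27381704445) (nat_lit 0) (nat_lit 2180985994) (nat_lit 10) (nat_lit 5) (nat_lit 12) (nat_lit 4) (nat_lit 10) (nat_lit 4) (nat_lit 387) (nat_lit 326) (nat_lit 307)) (XT.nd (nat_lit 78) (nat_lit 76) (nat_lit 0) (XT.lf (nat_lit 0) (nat_lit 16568459754) (nat_lit 152) (nat_lit 11371426594) (nat_lit 0) (nat_lit 11370801260) (nat_lit 10) (nat_lit 5) (nat_lit 12) (nat_lit 4) (nat_lit 10) (nat_lit 4) (nat_lit 388) (nat_lit 326) (nat_lit 306)) (XT.lf (nat_lit 0) (nat_lit 5685644355) (nat_lit 76) (nat_lit 20807793495) (nat_lit 76) (nat_lit 15504968040) (nat_lit 9) (nat_lit 4) (nat_lit 10) (nat_lit 5) (nat_lit 10) (nat_lit 4) (nat_lit 389) (nat_lit 326) (nat_lit 305)))) (XT.nd (nat_lit 78) (nat_lit 152) (nat_lit 0) (XT.lf (nat_lit 0) (nat_lit 24115424783)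 (nat_lit 76) (nat_lit 13093065162) (nat_lit 76) (nat_lit 7692862890) (nat_lit 9) (nat_lit 4) (nat_lit 10) (nat_lit 5) (nat_lit 10) (nat_lit 4) (nat_lit 390) (nat_lit 326) (nat_lit 304)) (XT.nd (nat_lit 78) (nat_lit 76) (nat_lit 0) (XT.lf (nat_lit 0) (nat_lit 530267887) (nat_lit 152) (nat_lit 4403316821) (nat_lit 76) (nat_lit 43111889254) (nat_lit 8) (nat_lit 5) (nat_lit 10) (nat_lit 5) (nat_lit 9) (nat_lit 4) (nat_lit 391) (nat_lit 326) (nat_lit 303)) (XT.lf (nat_lit 0) (nat_lit 9239358267) (nat_lit 152) (nat_lit 38259662822) (nat_lit 0) (nat_lit 3930928823) (nat_lit 7) (nat_lit 5) (nat_lit 9) (nat_lit 4) (nat_lit 7) (nat_lit 4) (nat_lit 392) (nat_lit 326) (nat_lit 302))))) (XT.nd (nat_lit 234) (nat_lit 152) (nat_lit 0) (XT.nd (nat_lit 78) (nat_lit 76) (nat_lit 0) (XT.lf (nat_lit 0) (nat_lit 18635587008) (nat_lit 152) (nat_lit 23196550004) (nat_lit 0) (nat_lit 13253537701) (nat_lit 7) (nat_lit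 5) (nat_lit 9) (nat_lit 4) (nat_lit 7) (nat_lit 4) (nat_lit 393) (nat_lit 326) (nat_lit 301)) (XT.nd (nat_lit 78) (nat_lit 76) (nat_lit 0) (XT.lf (nat_lit 0) (nat_lit 28625422861) (nat_lit 152) (nat_lit 7241142676) (nat_lit 0) (nat_lit 23175207013) (nat_lit 7) (nat_lit 5) (nat_lit 9) (nat_lit 4) (nat_lit 7) (nat_lit 4) (nat_lit 394) (nat_lit 326) (nat_lit 300)) (XT.lf (nat_lit 0) (nat_lit 10021872223) (nat_lit 76) (nat_lit 29402662140) (nat_lit 76) (nat_lit 23889329126) (nat_lit 6) (nat_lit 4) (nat_lit 7) (nat_lit 5) (nat_lit 7) (nat_lit 4) (nat_lit 395) (nat_lit 326) (nat_lit 299)))) (XT.nd (nat_lit 156) (nat_lit 152) (nat_lit 0) (XT.nd (nat_lit 78) (nat_lit 0) (nat_lit 0) (XT.lf (nat_lit 0) (nat_lit 28647504790) (nat_lit 76) (nat_lit 22426343533) (nat_lit 76) (nat_lit 16854568698) (nat_lit 6) (nat_lit 4) (nat_lit 7) (nat_lit 5) (nat_lit 7) (nat_lit 4) (nat_lit 396) (nat_lit 326) (nat_lit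 298)) (XT.lf (nat_lit 0) (nat_lit 48506704264) (nat_lit 76) (nat_lit 15018900824) (nat_lit 76) (nat_lit 9393013192) (nat_lit 6) (nat_lit 4) (nat_lit 7) (nat_lit 5) (nat_lit 7) (nat_lit 4) (nat_lit 397) (nat_lit 326) (nat_lit 297))) (XT.nd (nat_lit 78) (nat_lit 152) (nat_lit 0) (XT.lf (nat_lit 0) (nat_lit 69717154792) (nat_lit 76) (nat_lit 7136438056) (nat_lit 76) (nat_lit 1460445981) (nat_lit 6) (nat_lit 4) (nat_lit 7) (nat_lit 5) (nat_lit 7) (nat_lit 4) (nat_lit 398) (nat_lit 326) (nat_lit 296)) (XT.lf (nat_lit 0) (nat_lit 6921581149) (nat_lit 152) (nat_lit 75740164569) (nat_lit 0) (nat_lit 1471690600) (nat_lit 4) (nat_lit 5) (nat_lit 6) (nat_lit 4) (nat_lit 4) (nat_lit 4) (nat_lit 399) (nat_lit 326) (nat_lit 295))))))))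
noncomputable def xc24 : XT := (XT.nd (nat_lit 1872) (nat_lit 0) (nat_lit 0) (XT.nd (nat_lit 936) (nat_lit 152) (nat_lit 0) (XT.nd (nat_lit 468) (nat_lit 0) (nat_lit 0) (XT.nd (nat_lit 234) (nat_lit 76) (nat_lit 0) (XT.nd (nat_lit 78) (nat_lit 0) (nat_lit 0) (XT.lf (nat_lit 0) (nat_lit 16086737328) (nat_lit 152) (nat_lit 63726334955) (nat_lit 0) (nat_lit 10595935843) (nat_lit 4) (nat_lit 5) (nat_lit 6) (nat_lit 4) (nat_lit 4) (nat_lit 4) (nat_lit 400) (nat_lit 326) (nat_lit 294)) (XT.nd (nat_lit 78) (nat_lit 0) (nat_lit 0) (XT.lf (nat_lit 0) (nat_lit 25883725661) (nat_lit 152) (nat_lit 50952931187) (nat_lit 0) (nat_lit 20355043679) (nat_lit 4) (nat_lit 5) (nat_lit 6) (nat_lit 4) (nat_lit 4) (nat_lit 4) (nat_lit 401) (nat_lit 326) (nat_lit 293)) (XT.lf (nat_lit 0) (nat_lit 36370602375) (nat_lit 152) (nat_lit 37344259019) (nat_lit 0) (nat_lit 30806845859) (nat_lit 4) (nat_lit 5) (nat_lit 6)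 (nat_lit 4) (nat_lit 4) (nat_lit 4) (nat_lit 402) (nat_lit 326) (nat_lit 292)))) (XT.nd (nat_lit 78) (nat_lit 76) (nat_lit 0) (XT.lf (nat_lit 0) (nat_lit 47609511923) (nat_lit 152) (nat_lit 22819674469) (nat_lit 0) (nat_lit 42013278987) (nat_lit 4) (nat_lit 5) (nat_lit 6) (nat_lit 4) (nat_lit 4) (nat_lit 4) (nat_lit 403) (nat_lit 326) (nat_lit 291)) (XT.nd (nat_lit 78) (nat_lit 76) (nat_lit 0) (XT.lf (nat_lit 0) (nat_lit 59667055253) (nat_lit 152) (nat_lit 7293105924) (nat_lit 0) (nat_lit 54040751558) (nat_lit 4) (nat_lit 5) (nat_lit 6) (nat_lit 4) (nat_lit 4) (nat_lit 4) (nat_lit 404) (nat_lit 326) (nat_lit 290)) (XT.lf (nat_lit 0) (nat_lit 9635863727) (nat_lit 76) (nat_lit 63129263582) (nat_lit 76) (nat_lit 57475116591) (nat_lit 3) (nat_lit 4) (nat_lit 4) (nat_lit 5) (nat_lit 4) (nat_lit 4) (nat_lit 405) (nat_lit 326) (nat_lit 289))))) (XT.nd (nat_lit 234) (nat_lit 0) (nat_lit 0) (XT.nd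 (nat_lit 78) (nat_lit 0) (nat_lit 0) (XT.lf (nat_lit 0) (nat_lit 28037890861) (nat_lit 76) (nat_lit 58928985464) (nat_lit 76) (nat_lit 53249057643) (nat_lit 3) (nat_lit 4) (nat_lit 4) (nat_lit 5) (nat_lit 4) (nat_lit 4) (nat_lit 406) (nat_lit 326) (nat_lit 288)) (XT.nd (nat_lit 78) (nat_lit 0) (nat_lit 0) (XT.lf (nat_lit 0) (nat_lit 47780881509) (nat_lit 76) (nat_lit 54457948562) (nat_lit 76) (nat_lit 48754149603) (nat_lit 3) (nat_lit 4) (nat_lit 4) (nat_lit 5) (nat_lit 4) (nat_lit 4) (nat_lit 407) (nat_lit 326) (nat_lit 287)) (XT.lf (nat_lit 0) (nat_lit 68981831171) (nat_lit 76) (nat_lit 49689657844) (nat_lit 76) (nat_lit 43963755979) (nat_lit 3) (nat_lit 4) (nat_lit 4) (nat_lit 5) (nat_lit 4) (nat_lit 4) (nat_lit 408) (nat_lit 326) (nat_lit 286)))) (XT.nd (nat_lit 78) (nat_lit 0) (nat_lit 0) (XT.lf (nat_lit 0) (nat_lit 91766375104) (nat_lit 76) (nat_lit 44595856772) (nat_lit 76) (nat_lit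 38849489253) (nat_lit 3) (nat_lit 4) (nat_lit 4) (nat_lit 5) (nat_lit 4) (nat_lit 4) (nat_lit 409) (nat_lit 326) (nat_lit 285)) (XT.nd (nat_lit 78) (nat_lit 0) (nat_lit 0) (XT.lf (nat_lit 0) (nat_lit 116269532829) (nat_lit 76) (nat_lit 39146359857) (nat_lit 76) (nat_lit 33381042659) (nat_lit 3) (nat_lit 4) (nat_lit 4) (nat_lit 5) (nat_lit 4) (nat_lit 4) (nat_lit 410) (nat_lit 326) (nat_lit 284)) (XT.lf (nat_lit 0) (nat_lit 142636508242) (nat_lit 76) (nat_lit 33308873786) (nat_lit 76) (nat_lit 27526010589) (nat_lit 3) (nat_lit 4) (nat_lit 4) (nat_lit 5) (nat_lit 4) (nat_lit 4) (nat_lit 411) (nat_lit 326) (nat_lit 283)))))) (XT.nd (nat_lit 468) (nat_lit 0) (nat_lit 0) (XT.nd (nat_lit 234) (nat_lit 152) (nat_lit 0) (XT.nd (nat_lit 78) (nat_lit 0) (nat_lit 0) (XT.lf (nat_lit 0) (nat_lit 171023550087) (nat_lit 76) (nat_lit 27048806048) (nat_lit 76) (nat_lit 21249696555) (nat_lit 3) (nat_lit 4)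 (nat_lit 4) (nat_lit 5) (nat_lit 4) (nat_lit 4) (nat_lit 412) (nat_lit 326) (nat_lit 282)) (XT.nd (nat_lit 78) (nat_lit 0) (nat_lit 0) (XT.lf (nat_lit 0) (nat_lit 201598877872) (nat_lit 76) (nat_lit 20329059945) (nat_lit 76) (nat_lit 14514907586) (nat_lit 3) (nat_lit 4) (nat_lit 4) (nat_lit 5) (nat_lit 4) (nat_lit 4) (nat_lit 413) (nat_lit 326) (nat_lit 281)) (XT.lf (nat_lit 0) (nat_lit 234543678723) (nat_lit 76) (nat_lit 13109814760) (nat_lit 76) (nat_lit 7281733820) (nat_lit 3) (nat_lit 4) (nat_lit 4) (nat_lit 5) (nat_lit 4) (nat_lit 4) (nat_lit 414) (nat_lit 326) (nat_lit 280)))) (XT.nd (nat_lit 78) (nat_lit 76) (nat_lit 0) (XT.lf (nat_lit 0) (nat_lit 476918900) (nat_lit 152) (nat_lit 4863294027) (nat_lit 76) (nat_lit 269568185337) (nat_lit 2) (nat_lit 5) (nat_lit 4) (nat_lit 5) (nat_lit 3) (nat_lit 4) (nat_lit 415) (nat_lit 326) (nat_lit 279)) (XT.nd (nat_lit 78) (nat_lit 0) (nat_lit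 0) (XT.lf (nat_lit 0) (nat_lit 8812253098) (nat_lit 152) (nat_lit 284412603379) (nat_lit 0) (nat_lit 3238044255) (nat_lit 1) (nat_lit 5) (nat_lit 3) (nat_lit 4) (nat_lit 1) (nat_lit 4) (nat_lit 416) (nat_lit 326) (nat_lit 278)) (XT.lf (nat_lit 0) (nat_lit 17958027667) (nat_lit 152) (nat_lit 289403268280) (nat_lit 0) (nat_lit 12373288389) (nat_lit 1) (nat_lit 5) (nat_lit 3) (nat_lit 4) (nat_lit 1) (nat_lit 4) (nat_lit 417) (nat_lit 326) (nat_lit 277))))) (XT.nd (nat_lit 234) (nat_lit 0) (nat_lit 0) (XT.nd (nat_lit 78) (nat_lit 0) (nat_lit 0) (XT.lf (nat_lit 0) (nat_lit 27805337968) (nat_lit 152) (nat_lit 294853324184) (nat_lit 0) (nat_lit 22210848289) (nat_lit 1) (nat_lit 5) (nat_lit 3) (nat_lit 4) (nat_lit 1) (nat_lit 4) (nat_lit 418) (nat_lit 326) (nat_lit 276)) (XT.nd (nat_lit 78) (nat_lit 0) (nat_lit 0) (XT.lf (nat_lit 0) (nat_lit 38412538433) (nat_lit 152) (nat_lit 300795067720) (nat_lit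 0) (nat_lit 32809020604) (nat_lit 1) (nat_lit 5) (nat_lit 3) (nat_lit 4) (nat_lit 1) (nat_lit 4) (nat_lit 419) (nat_lit 326) (nat_lit 275)) (XT.lf (nat_lit 0) (nat_lit 49842486546) (nat_lit 152) (nat_lit 307263709220) (nat_lit 0) (nat_lit 44230609319) (nat_lit 1) (nat_lit 5) (nat_lit 3) (nat_lit 4) (nat_lit 1) (nat_lit 4) (nat_lit 420) (nat_lit 326) (nat_lit 274)))) (XT.nd (nat_lit 78) (nat_lit 0) (nat_lit 0) (XT.lf (nat_lit 0) (nat_lit 62162915332) (nat_lit 152) (nat_lit 314297581373) (nat_lit 0) (nat_lit 56543297922) (nat_lit 1) (nat_lit 5) (nat_lit 3) (nat_lit 4) (nat_lit 1) (nat_lit 4) (nat_lit 421) (nat_lit 326) (nat_lit 273)) (XT.nd (nat_lit 78) (nat_lit 0) (nat_lit 0) (XT.lf (nat_lit 0) (nat_lit 75446834741) (nat_lit 152) (nat_lit 321938366386) (nat_lit 0) (nat_lit 69820050494) (nat_lit 1) (nat_lit 5) (nat_lit 3) (nat_lit 4) (nat_lit 1) (nat_lit 4) (nat_lit 422) (nat_lit 326) (nat_lit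 272)) (XT.lf (nat_lit 0) (nat_lit 89772964295) (nat_lit 152) (nat_lit 330231342985) (nat_lit 0) (nat_lit 84139544088) (nat_lit 1) (nat_lit 5) (nat_lit 3) (nat_lit 4) (nat_lit 1) (nat_lit 4) (nat_lit 423) (nat_lit 326) (nat_lit 271))))))) (XT.nd (nat_lit 48594) (nat_lit 0) (nat_lit 1368) (XT.nd (nat_lit 468) (nat_lit 0) (nat_lit 0) (XT.nd (nat_lit 234) (nat_lit 0) (nat_lit 0) (XT.nd (nat_lit 78) (nat_lit 0) (nat_lit 0) (XT.lf (nat_lit 0) (nat_lit 105226199575) (nat_lit 152) (nat_lit 339225654734) (nat_lit 0) (nat_lit 99586634961) (nat_lit 1) (nat_lit 5) (nat_lit 3) (nat_lit 4) (nat_lit 1) (nat_lit 4) (nat_lit 424) (nat_lit 326) (nat_lit 270)) (XT.nd (nat_lit 78) (nat_lit 0) (nat_lit 0) (XT.lf (nat_lit 0) (nat_lit 121898115310) (nat_lit 152) (nat_lit 348974601258) (nat_lit 0) (nat_lit 116252861430) (nat_lit 1) (nat_lit 5) (nat_lit 3) (nat_lit 4) (nat_lit 1) (nat_lit 4) (nat_lit 425) (nat_lit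 326) (nat_lit 269)) (XT.lf (nat_lit 0) (nat_lit 139887508038) (nat_lit 152) (nat_lit 359535954093) (nat_lit 0) (nat_lit 134236986319) (nat_lit 1) (nat_lit 5) (nat_lit 3) (nat_lit 4) (nat_lit 1) (nat_lit 4) (nat_lit 426) (nat_lit 326) (nat_lit 268)))) (XT.nd (nat_lit 78) (nat_lit 0) (nat_lit 0) (XT.lf (nat_lit 0) (nat_lit 159300981567) (nat_lit 152) (nat_lit 370972299033) (nat_lit 0) (nat_lit 153645582219) (nat_lit 1) (nat_lit 5) (nat_lit 3) (nat_lit 4) (nat_lit 1) (nat_lit 4) (nat_lit 427) (nat_lit 326) (nat_lit 267)) (XT.nd (nat_lit 78) (nat_lit 0) (nat_lit 0) (XT.lf (nat_lit 0) (nat_lit 180253578703) (nat_lit 152) (nat_lit 383351407012) (nat_lit 0) (nat_lit 174593663033) (nat_lit 1) (nat_lit 5) (nat_lit 3) (nat_lit 4) (nat_lit 1) (nat_lit 4) (nat_lit 428) (nat_lit 326) (nat_lit 266)) (XT.lf (nat_lit 0) (nat_lit 202869462985) (nat_lit 152) (nat_lit 396746635705) (nat_lit 0) (nat_lit 197205365534)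 (nat_lit 1) (nat_lit 5) (nat_lit 3) (nat_lit 4) (nat_lit 1) (nat_lit 4) (nat_lit 429) (nat_lit 326) (nat_lit 265))))) (XT.nd (nat_lit 234) (nat_lit 0) (nat_lit 0) (XT.nd (nat_lit 78) (nat_lit 0) (nat_lit 0) (XT.lf (nat_lit 0) (nat_lit 227282654467) (nat_lit 152) (nat_lit 411237364247) (nat_lit 0) (nat_lit 221614684998) (nat_lit 1) (nat_lit 5) (nat_lit 3) (nat_lit 4) (nat_lit 1) (nat_lit 4) (nat_lit 430) (nat_lit 326) (nat_lit 264)) (XT.nd (nat_lit 78) (nat_lit 0) (nat_lit 0) (XT.lf (nat_lit 0) (nat_lit 253637823915) (nat_lit 152) (nat_lit 426909463620) (nat_lit 0) (nat_lit 247966269243) (nat_lit 1) (nat_lit 5) (nat_lit 3) (nat_lit 4) (nat_lit 1) (nat_lit 4) (nat_lit 431) (nat_lit 326) (nat_lit 263)) (XT.lf (nat_lit 0) (nat_lit 282091150110) (nat_lit 152) (nat_lit 443855805525) (nat_lit 0) (nat_lit 276416275806) (nat_lit 1) (nat_lit 5) (nat_lit 3) (nat_lit 4) (nat_lit 1) (nat_lit 4) (nat_lit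 432) (nat_lit 326) (nat_lit 262)))) (XT.nd (nat_lit 78) (nat_lit 0) (nat_lit 0) (XT.lf (nat_lit 0) (nat_lit 312811245355) (nat_lit 152) (nat_lit 462176812729) (nat_lit 0) (nat_lit 307133297318) (nat_lit 1) (nat_lit 5) (nat_lit 3) (nat_lit 4) (nat_lit 1) (nat_lit 4) (nat_lit 433) (nat_lit 326) (nat_lit 261)) (XT.nd (nat_lit 78) (nat_lit 0) (nat_lit 0) (XT.lf (nat_lit 0) (nat_lit 345980154660) (nat_lit 152) (nat_lit 481981054164) (nat_lit 0) (nat_lit 340299360573) (nat_lit 1) (nat_lit 5) (nat_lit 3) (nat_lit 4) (nat_lit 1) (nat_lit 4) (nat_lit 434) (nat_lit 326) (nat_lit 260)) (XT.lf (nat_lit 0) (nat_lit 381794434523) (nat_lit 152) (nat_lit 503385888297) (nat_lit 0) (nat_lit 376111005206) (nat_lit 1) (nat_lit 5) (nat_lit 3) (nat_lit 4) (nat_lit 1) (nat_lit 4) (nat_lit 435) (nat_lit 326) (nat_lit 259)))))) (XT.nd (nat_lit 468) (nat_lit 836) (nat_lit 0) (XT.nd (nat_lit 234) (nat_lit 456) (nat_lit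 0) (XT.nd (nat_lit 78) (nat_lit 456) (nat_lit 0) (XT.lf (nat_lit 0) (nat_lit 5520438537) (nat_lit 152) (nat_lit 228241545) (nat_lit 152) (nat_lit 228241545) (nat_lit 42) (nat_lit 4) (nat_lit 44) (nat_lit 5) (nat_lit 44) (nat_lit 4) (nat_lit 366) (nat_lit 327) (nat_lit 327)) (XT.nd (nat_lit 78) (nat_lit 152) (nat_lit 0) (XT.lf (nat_lit 0) (nat_lit 2029370228) (nat_lit 152) (nat_lit 5624560660) (nat_lit 152) (nat_lit 4803298364) (nat_lit 38) (nat_lit 4) (nat_lit 40) (nat_lit 5) (nat_lit 40) (nat_lit 4) (nat_lit 367) (nat_lit 327) (nat_lit 326)) (XT.lf (nat_lit 0) (nat_lit 3184633136) (nat_lit 152) (nat_lit 8140243597) (nat_lit 0) (nat_lit 1678261377) (nat_lit 36) (nat_lit 5) (nat_lit 38) (nat_lit 4) (nat_lit 36) (nat_lit 4) (nat_lit 368) (nat_lit 327) (nat_lit 325)))) (XT.nd (nat_lit 78) (nat_lit 304) (nat_lit 0) (XT.lf (nat_lit 0) (nat_lit 7428289863) (nat_lit 152) (nat_lit 4169897748) (nat_lit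 152) (nat_lit 1992954515) (nat_lit 34) (nat_lit 4) (nat_lit 36) (nat_lit 5) (nat_lit 36) (nat_lit 4) (nat_lit 369) (nat_lit 327) (nat_lit 324)) (XT.nd (nat_lit 78) (nat_lit 152) (nat_lit 0) (XT.lf (nat_lit 0) (nat_lit 6175935268) (nat_lit 152) (nat_lit 4537776605) (nat_lit 0) (nat_lit 3511323129) (nat_lit 32) (nat_lit 5) (nat_lit 34) (nat_lit 4) (nat_lit 32) (nat_lit 4) (nat_lit 370) (nat_lit 327) (nat_lit 323)) (XT.lf (nat_lit 0) (nat_lit 11630185316) (nat_lit 152) (nat_lit 3246323728) (nat_lit 152) (nat_lit 34181155) (nat_lit 30) (nat_lit 4) (nat_lit 32) (nat_lit 5) (nat_lit 32) (nat_lit 4) (nat_lit 371) (nat_lit 327) (nat_lit 322))))) (XT.nd (nat_lit 234) (nat_lit 456) (nat_lit 0) (XT.nd (nat_lit 78) (nat_lit 228) (nat_lit 0) (XT.lf (nat_lit 0) (nat_lit 8307402884) (nat_lit 152) (nat_lit 2573678829) (nat_lit 0) (nat_lit 4765388409) (nat_lit 28) (nat_lit 5) (nat_lit 30) (nat_lit 4) (nat_lit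 28) (nat_lit 4) (nat_lit 372) (nat_lit 327) (nat_lit 321)) (XT.nd (nat_lit 78) (nat_lit 76) (nat_lit 0) (XT.lf (nat_lit 0) (nat_lit 790385934) (nat_lit 152) (nat_lit 2368789114) (nat_lit 76) (nat_lit 13284076166) (nat_lit 26) (nat_lit 5) (nat_lit 28) (nat_lit 5) (nat_lit 27) (nat_lit 4) (nat_lit 373) (nat_lit 327) (nat_lit 320)) (XT.lf (nat_lit 0) (nat_lit 9294806107) (nat_lit 152) (nat_lit 2902482839) (nat_lit 0) (nat_lit 5101444104) (nat_lit 25) (nat_lit 5) (nat_lit 27) (nat_lit 4) (nat_lit 25) (nat_lit 4) (nat_lit 374) (nat_lit 327) (nat_lit 319)))) (XT.nd (nat_lit 156) (nat_lit 228) (nat_lit 0) (XT.nd (nat_lit 78) (nat_lit 76) (nat_lit 0) (XT.lf (nat_lit 0) (nat_lit 199697674) (nat_lit 152) (nat_lit 4149016884) (nat_lit 76) (nat_lit 13876242093) (nat_lit 23) (nat_lit 5) (nat_lit 25) (nat_lit 5) (nat_lit 24) (nat_lit 4) (nat_lit 375) (nat_lit 327) (nat_lit 318)) (XT.lf (nat_lit 0) (nat_lit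 8749492143) (nat_lit 152) (nat_lit 6384498923) (nat_lit 0) (nat_lit 4086261100) (nat_lit 22) (nat_lit 5) (nat_lit 24) (nat_lit 4) (nat_lit 22) (nat_lit 4) (nat_lit 376) (nat_lit 327) (nat_lit 317))) (XT.nd (nat_lit 78) (nat_lit 152) (nat_lit 0) (XT.lf (nat_lit 0) (nat_lit 10653324538) (nat_lit 76) (nat_lit 7302281443) (nat_lit 76) (nat_lit 2340994424) (nat_lit 21) (nat_lit 4) (nat_lit 22) (nat_lit 5) (nat_lit 22) (nat_lit 4) (nat_lit 377) (nat_lit 327) (nat_lit 316)) (XT.lf (nat_lit 0) (nat_lit 6148645318) (nat_lit 152) (nat_lit 14148871578) (nat_lit 0) (nat_lit 1160774104) (nat_lit 19) (nat_lit 5) (nat_lit 21) (nat_lit 4) (nat_lit 19) (nat_lit 4) (nat_lit 378) (nat_lit 327) (nat_lit 315))))))))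
noncomputable def xc25 : XT := (XT.nd (nat_lit 1872) (nat_lit 228) (nat_lit 0) (XT.nd (nat_lit 936) (nat_lit 380) (nat_lit 0) (XT.nd (nat_lit 468) (nat_lit 304) (nat_lit 0) (XT.nd (nat_lit 234) (nat_lit 228) (nat_lit 0) (XT.nd (nat_lit 78) (nat_lit 152) (nat_lit 0) (XT.lf (nat_lit 0) (nat_lit 2559062944) (nat_lit 76) (nat_lit 12691233738) (nat_lit 76) (nat_lit 7459995895) (nat_lit 18) (nat_lit 4) (nat_lit 19) (nat_lit 5) (nat_lit 19) (nat_lit 4) (nat_lit 379) (nat_lit 327) (nat_lit 314)) (XT.nd (nat_lit 78) (nat_lit 76) (nat_lit 0) (XT.lf (nat_lit 0) (nat_lit 924974752) (nat_lit 152) (nat_lit 3560379070) (nat_lit 76) (nat_lit 19579343128) (nat_lit 17) (nat_lit 5) (nat_lit 19) (nat_lit 5) (nat_lit 18) (nat_lit 4) (nat_lit 380) (nat_lit 327) (nat_lit 313)) (XT.lf (nat_lit 0) (nat_lit 9725738483) (nat_lit 152) (nat_lit 11465027025) (nat_lit 0) (nat_lit 4330286131) (nat_lit 16) (nat_lit 5) (nat_lit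 18) (nat_lit 4) (nat_lit 16) (nat_lit 4) (nat_lit 381) (nat_lit 327) (nat_lit 312)))) (XT.nd (nat_lit 78) (nat_lit 152) (nat_lit 0) (XT.lf (nat_lit 0) (nat_lit 5682841649) (nat_lit 76) (nat_lit 13496552416) (nat_lit 76) (nat_lit 7917107420) (nat_lit 15) (nat_lit 4) (nat_lit 16) (nat_lit 5) (nat_lit 16) (nat_lit 4) (nat_lit 382) (nat_lit 327) (nat_lit 311)) (XT.nd (nat_lit 78) (nat_lit 76) (nat_lit 0) (XT.lf (nat_lit 0) (nat_lit 505030027) (nat_lit 152) (nat_lit 4714496998) (nat_lit 76) (nat_lit 23581393516) (nat_lit 14) (nat_lit 5) (nat_lit 16) (nat_lit 5) (nat_lit 15) (nat_lit 4) (nat_lit 383) (nat_lit 327) (nat_lit 310)) (XT.lf (nat_lit 0) (nat_lit 9341680386) (nat_lit 152) (nat_lit 17577200663) (nat_lit 0) (nat_lit 3715439824) (nat_lit 13) (nat_lit 5) (nat_lit 15) (nat_lit 4) (nat_lit 13) (nat_lit 4) (nat_lit 384) (nat_lit 327) (nat_lit 309))))) (XT.nd (nat_lit 234) (nat_lit 152) (nat_lit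 0) (XT.nd (nat_lit 78) (nat_lit 152) (nat_lit 0) (XT.lf (nat_lit 0) (nat_lit 18814119011) (nat_lit 152) (nat_lit 755078458) (nat_lit 0) (nat_lit 13048774361) (nat_lit 13) (nat_lit 5) (nat_lit 15) (nat_lit 4) (nat_lit 13) (nat_lit 4) (nat_lit 385) (nat_lit 327) (nat_lit 308)) (XT.nd (nat_lit 78) (nat_lit 76) (nat_lit 0) (XT.lf (nat_lit 0) (nat_lit 17534915976) (nat_lit 76) (nat_lit 11558553796) (nat_lit 76) (nat_lit 5664409064) (nat_lit 12) (nat_lit 4) (nat_lit 13) (nat_lit 5) (nat_lit 13) (nat_lit 4) (nat_lit 386) (nat_lit 327) (nat_lit 307)) (XT.lf (nat_lit 0) (nat_lit 2821396641) (nat_lit 152) (nat_lit 229540952) (nat_lit 76) (nat_lit 34025854659) (nat_lit 11) (nat_lit 5) (nat_lit 13) (nat_lit 5) (nat_lit 12) (nat_lit 4) (nat_lit 387) (nat_lit 327) (nat_lit 306)))) (XT.nd (nat_lit 78) (nat_lit 76) (nat_lit 0) (XT.lf (nat_lit 0) (nat_lit 11971733084) (nat_lit 152) (nat_lit 21456138275) (nat_lit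 0) (nat_lit 6139514630) (nat_lit 10) (nat_lit 5) (nat_lit 12) (nat_lit 4) (nat_lit 10) (nat_lit 4) (nat_lit 388) (nat_lit 327) (nat_lit 305)) (XT.nd (nat_lit 78) (nat_lit 76) (nat_lit 0) (XT.lf (nat_lit 0) (nat_lit 21713810405) (nat_lit 152) (nat_lit 4766230977) (nat_lit 0) (nat_lit 15784215135) (nat_lit 10) (nat_lit 5) (nat_lit 12) (nat_lit 4) (nat_lit 10) (nat_lit 4) (nat_lit 389) (nat_lit 327) (nat_lit 304)) (XT.lf (nat_lit 0) (nat_lit 13328816829) (nat_lit 76) (nat_lit 18933246135) (nat_lit 76) (nat_lit 12913487146) (nat_lit 9) (nat_lit 4) (nat_lit 10) (nat_lit 5) (nat_lit 10) (nat_lit 4) (nat_lit 390) (nat_lit 327) (nat_lit 303)))))) (XT.nd (nat_lit 468) (nat_lit 152) (nat_lit 0) (XT.nd (nat_lit 234) (nat_lit 76) (nat_lit 0) (XT.nd (nat_lit 78) (nat_lit 152) (nat_lit 0) (XT.lf (nat_lit 0) (nat_lit 32700511475) (nat_lit 76) (nat_lit 10863500338) (nat_lit 76) (nat_lit 4760256424) (nat_lit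 9) (nat_lit 4) (nat_lit 10) (nat_lit 5) (nat_lit 10) (nat_lit 4) (nat_lit 391) (nat_lit 327) (nat_lit 302)) (XT.nd (nat_lit 78) (nat_lit 0) (nat_lit 0) (XT.lf (nat_lit 0) (nat_lit 1562626794) (nat_lit 76) (nat_lit 2214530066) (nat_lit 152) (nat_lit 47951510574) (nat_lit 7) (nat_lit 5) (nat_lit 8) (nat_lit 5) (nat_lit 9) (nat_lit 4) (nat_lit 392) (nat_lit 327) (nat_lit 301)) (XT.lf (nat_lit 0) (nat_lit 13062805202) (nat_lit 152) (nat_lit 35218715550) (nat_lit 0) (nat_lit 7108405547) (nat_lit 7) (nat_lit 5) (nat_lit 9) (nat_lit 4) (nat_lit 7) (nat_lit 4) (nat_lit 393) (nat_lit 327) (nat_lit 300)))) (XT.nd (nat_lit 78) (nat_lit 76) (nat_lit 0) (XT.lf (nat_lit 0) (nat_lit 22982265704) (nat_lit 152) (nat_lit 19402532988) (nat_lit 0) (nat_lit 16964748882) (nat_lit 7) (nat_lit 5) (nat_lit 9) (nat_lit 4) (nat_lit 7) (nat_lit 4) (nat_lit 394) (nat_lit 327) (nat_lit 299)) (XT.nd (nat_lit 78) (nat_lit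 76) (nat_lit 0) (XT.lf (nat_lit 0) (nat_lit 33559745333) (nat_lit 152) (nat_lit 2589192408) (nat_lit 0) (nat_lit 27483786690) (nat_lit 7) (nat_lit 5) (nat_lit 9) (nat_lit 4) (nat_lit 7) (nat_lit 4) (nat_lit 395) (nat_lit 327) (nat_lit 298)) (XT.lf (nat_lit 0) (nat_lit 15827520294) (nat_lit 76) (nat_lit 29277517104) (nat_lit 76) (nat_lit 23147445664) (nat_lit 6) (nat_lit 4) (nat_lit 7) (nat_lit 5) (nat_lit 7) (nat_lit 4) (nat_lit 396) (nat_lit 327) (nat_lit 297))))) (XT.nd (nat_lit 234) (nat_lit 76) (nat_lit 0) (XT.nd (nat_lit 78) (nat_lit 76) (nat_lit 0) (XT.lf (nat_lit 0) (nat_lit 35572544334) (nat_lit 76) (nat_lit 21926601009) (nat_lit 76) (nat_lit 15746425127) (nat_lit 6) (nat_lit 4) (nat_lit 7) (nat_lit 5) (nat_lit 7) (nat_lit 4) (nat_lit 397) (nat_lit 327) (nat_lit 296)) (XT.nd (nat_lit 78) (nat_lit 76) (nat_lit 0) (XT.lf (nat_lit 0) (nat_lit 56677276866) (nat_lit 76) (nat_lit 14096477698)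 (nat_lit 76) (nat_lit 7869908814) (nat_lit 6) (nat_lit 4) (nat_lit 7) (nat_lit 5) (nat_lit 7) (nat_lit 4) (nat_lit 398) (nat_lit 327) (nat_lit 295)) (XT.lf (nat_lit 0) (nat_lit 511854697) (nat_lit 152) (nat_lit 5220223237) (nat_lit 76) (nat_lit 78746259767) (nat_lit 5) (nat_lit 5) (nat_lit 7) (nat_lit 5) (nat_lit 6) (nat_lit 4) (nat_lit 399) (nat_lit 327) (nat_lit 294)))) (XT.nd (nat_lit 78) (nat_lit 0) (nat_lit 0) (XT.lf (nat_lit 0) (nat_lit 9453199097) (nat_lit 152) (nat_lit 77867561745) (nat_lit 0) (nat_lit 3444342060) (nat_lit 4) (nat_lit 5) (nat_lit 6) (nat_lit 4) (nat_lit 4) (nat_lit 4) (nat_lit 400) (nat_lit 327) (nat_lit 293)) (XT.nd (nat_lit 78) (nat_lit 0) (nat_lit 0) (XT.lf (nat_lit 0) (nat_lit 19205057292) (nat_lit 152) (nat_lit 65183871391) (nat_lit 0) (nat_lit 13161125721) (nat_lit 4) (nat_lit 5) (nat_lit 6) (nat_lit 4) (nat_lit 4) (nat_lit 4) (nat_lit 401) (nat_lit 327) (nat_lit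 292)) (XT.lf (nat_lit 0) (nat_lit 29650146841) (nat_lit 152) (nat_lit 51658267200) (nat_lit 0) (nat_lit 23573738850) (nat_lit 4) (nat_lit 5) (nat_lit 6) (nat_lit 4) (nat_lit 4) (nat_lit 4) (nat_lit 402) (nat_lit 327) (nat_lit 291))))))) (XT.nd (nat_lit 936) (nat_lit 152) (nat_lit 0) (XT.nd (nat_lit 468) (nat_lit 0) (nat_lit 0) (XT.nd (nat_lit 234) (nat_lit 76) (nat_lit 0) (XT.nd (nat_lit 78) (nat_lit 0) (nat_lit 0) (XT.lf (nat_lit 0) (nat_lit 40850364572) (nat_lit 152) (nat_lit 37210597442) (nat_lit 0) (nat_lit 34743885821) (nat_lit 4) (nat_lit 5) (nat_lit 6) (nat_lit 4) (nat_lit 4) (nat_lit 4) (nat_lit 403) (nat_lit 327) (nat_lit 290)) (XT.nd (nat_lit 78) (nat_lit 0) (nat_lit 0) (XT.lf (nat_lit 0) (nat_lit 52872082143) (nat_lit 152) (nat_lit 21755246298) (nat_lit 0) (nat_lit 46737760097) (nat_lit 4) (nat_lit 5) (nat_lit 6) (nat_lit 4) (nat_lit 4) (nat_lit 4) (nat_lit 404) (nat_lit 327) (nat_lit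 289)) (XT.lf (nat_lit 0) (nat_lit 65786539364) (nat_lit 152) (nat_lit 5200626501) (nat_lit 0) (nat_lit 59626436488) (nat_lit 4) (nat_lit 5) (nat_lit 6) (nat_lit 4) (nat_lit 4) (nat_lit 4) (nat_lit 405) (nat_lit 327) (nat_lit 288)))) (XT.nd (nat_lit 78) (nat_lit 0) (nat_lit 0) (XT.lf (nat_lit 0) (nat_lit 12966368156) (nat_lit 76) (nat_lit 66906339540) (nat_lit 76) (nat_lit 60722365525) (nat_lit 3) (nat_lit 4) (nat_lit 4) (nat_lit 5) (nat_lit 4) (nat_lit 4) (nat_lit 406) (nat_lit 327) (nat_lit 287)) (XT.nd (nat_lit 78) (nat_lit 0) (nat_lit 0) (XT.lf (nat_lit 0) (nat_lit 32650954843) (nat_lit 76) (nat_lit 62464355107) (nat_lit 76) (nat_lit 56258278187) (nat_lit 3) (nat_lit 4) (nat_lit 4) (nat_lit 5) (nat_lit 4) (nat_lit 4) (nat_lit 407) (nat_lit 327) (nat_lit 286)) (XT.lf (nat_lit 0) (nat_lit 53797826764) (nat_lit 76) (nat_lit 57722964823) (nat_lit 76) (nat_lit 51496422249) (nat_lit 3) (nat_lit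 4) (nat_lit 4) (nat_lit 5) (nat_lit 4) (nat_lit 4) (nat_lit 408) (nat_lit 327) (nat_lit 285))))) (XT.nd (nat_lit 234) (nat_lit 0) (nat_lit 0) (XT.nd (nat_lit 78) (nat_lit 0) (nat_lit 0) (XT.lf (nat_lit 0) (nat_lit 76532298715) (nat_lit 76) (nat_lit 52654071561) (nat_lit 76) (nat_lit 46408579307) (nat_lit 3) (nat_lit 4) (nat_lit 4) (nat_lit 5) (nat_lit 4) (nat_lit 4) (nat_lit 409) (nat_lit 327) (nat_lit 284)) (XT.nd (nat_lit 78) (nat_lit 0) (nat_lit 0) (XT.lf (nat_lit 0) (nat_lit 100989093493) (nat_lit 76) (nat_lit 47227637433) (nat_lit 76) (nat_lit 40964599180) (nat_lit 3) (nat_lit 4) (nat_lit 4) (nat_lit 5) (nat_lit 4) (nat_lit 4) (nat_lit 410) (nat_lit 327) (nat_lit 283)) (XT.lf (nat_lit 0) (nat_lit 127313140252) (nat_lit 76) (nat_lit 41411505794) (nat_lit 76) (nat_lit 35132221246) (nat_lit 3) (nat_lit 4) (nat_lit 4) (nat_lit 5) (nat_lit 4) (nat_lit 4) (nat_lit 411) (nat_lit 327) (nat_lit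 282)))) (XT.nd (nat_lit 78) (nat_lit 0) (nat_lit 0) (XT.lf (nat_lit 0) (nat_lit 155660433343) (nat_lit 76) (nat_lit 35171210678) (nat_lit 76) (nat_lit 28876883263) (nat_lit 3) (nat_lit 4) (nat_lit 4) (nat_lit 5) (nat_lit 4) (nat_lit 4) (nat_lit 412) (nat_lit 327) (nat_lit 281)) (XT.nd (nat_lit 78) (nat_lit 0) (nat_lit 0) (XT.lf (nat_lit 0) (nat_lit 186198956725) (nat_lit 76) (nat_lit 28469772558) (nat_lit 76) (nat_lit 22161516564) (nat_lit 3) (nat_lit 4) (nat_lit 4) (nat_lit 5) (nat_lit 4) (nat_lit 4) (nat_lit 413) (nat_lit 327) (nat_lit 280)) (XT.lf (nat_lit 0) (nat_lit 219109679426) (nat_lit 76) (nat_lit 21267479210) (nat_lit 76) (nat_lit 14946326382) (nat_lit 3) (nat_lit 4) (nat_lit 4) (nat_lit 5) (nat_lit 4) (nat_lit 4) (nat_lit 414) (nat_lit 327) (nat_lit 279)))))) (XT.nd (nat_lit 468) (nat_lit 0) (nat_lit 0) (XT.nd (nat_lit 234) (nat_lit 0) (nat_lit 0) (XT.nd (nat_lit 78) (nat_lit 152)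 (nat_lit 0) (XT.lf (nat_lit 0) (nat_lit 254587627951) (nat_lit 76) (nat_lit 13521650375) (nat_lit 76) (nat_lit 7188556034) (nat_lit 3) (nat_lit 4) (nat_lit 4) (nat_lit 5) (nat_lit 4) (nat_lit 4) (nat_lit 415) (nat_lit 327) (nat_lit 278)) (XT.nd (nat_lit 78) (nat_lit 76) (nat_lit 0) (XT.lf (nat_lit 0) (nat_lit 1120710693) (nat_lit 152) (nat_lit 4046694374) (nat_lit 76) (nat_lit 291703351523) (nat_lit 2) (nat_lit 5) (nat_lit 4) (nat_lit 5) (nat_lit 3) (nat_lit 4) (nat_lit 416) (nat_lit 327) (nat_lit 277)) (XT.lf (nat_lit 0) (nat_lit 10104984569) (nat_lit 152) (nat_lit 305992346068) (nat_lit 0) (nat_lit 4053185314) (nat_lit 1) (nat_lit 5) (nat_lit 3) (nat_lit 4) (nat_lit 1) (nat_lit 4) (nat_lit 417) (nat_lit 327) (nat_lit 276)))) (XT.nd (nat_lit 78) (nat_lit 0) (nat_lit 0) (XT.lf (nat_lit 0) (nat_lit 19938883976) (nat_lit 152) (nat_lit 311469172722) (nat_lit 0) (nat_lit 13878056570) (nat_lit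 1) (nat_lit 5) (nat_lit 3) (nat_lit 4) (nat_lit 1) (nat_lit 4) (nat_lit 418) (nat_lit 327) (nat_lit 275)) (XT.nd (nat_lit 78) (nat_lit 0) (nat_lit 0) (XT.lf (nat_lit 0) (nat_lit 30533666946) (nat_lit 152) (nat_lit 317435703989) (nat_lit 0) (nat_lit 24464480142) (nat_lit 1) (nat_lit 5) (nat_lit 3) (nat_lit 4) (nat_lit 1) (nat_lit 4) (nat_lit 419) (nat_lit 327) (nat_lit 274)) (XT.lf (nat_lit 0) (nat_lit 41952117379) (nat_lit 152) (nat_lit 323927297091) (nat_lit 0) (nat_lit 35875190392) (nat_lit 1) (nat_lit 5) (nat_lit 3) (nat_lit 4) (nat_lit 1) (nat_lit 4) (nat_lit 420) (nat_lit 327) (nat_lit 273))))) (XT.nd (nat_lit 234) (nat_lit 0) (nat_lit 0) (XT.nd (nat_lit 78) (nat_lit 0) (nat_lit 0) (XT.lf (nat_lit 0) (nat_lit 54261900165) (nat_lit 152) (nat_lit 330982420729) (nat_lit 0) (nat_lit 48177806341) (nat_lit 1) (nat_lit 5) (nat_lit 3) (nat_lit 4) (nat_lit 1) (nat_lit 4) (nat_lit 421) (nat_lit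 327) (nat_lit 272)) (XT.nd (nat_lit 78) (nat_lit 0) (nat_lit 0) (XT.lf (nat_lit 0) (nat_lit 67535962166) (nat_lit 152) (nat_lit 338642883042) (nat_lit 0) (nat_lit 61445232383) (nat_lit 1) (nat_lit 5) (nat_lit 3) (nat_lit 4) (nat_lit 1) (nat_lit 4) (nat_lit 422) (nat_lit 327) (nat_lit 271)) (XT.lf (nat_lit 0) (nat_lit 81852964490) (nat_lit 152) (nat_lit 346954079363) (nat_lit 0) (nat_lit 75756090299) (nat_lit 1) (nat_lit 5) (nat_lit 3) (nat_lit 4) (nat_lit 1) (nat_lit 4) (nat_lit 423) (nat_lit 327) (nat_lit 270)))) (XT.nd (nat_lit 156) (nat_lit 0) (nat_lit 0) (XT.nd (nat_lit 78) (nat_lit 0) (nat_lit 0) (XT.lf (nat_lit 0) (nat_lit 97297748632) (nat_lit 152) (nat_lit 355965261225) (nat_lit 0) (nat_lit 91195185176) (nat_lit 1) (nat_lit 5) (nat_lit 3) (nat_lit 4) (nat_lit 1) (nat_lit 4) (nat_lit 424) (nat_lit 327) (nat_lit 269)) (XT.lf (nat_lit 0) (nat_lit 113961839239) (nat_lit 152) (nat_lit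 365729828225) (nat_lit 0) (nat_lit 107854007944) (nat_lit 1) (nat_lit 5) (nat_lit 3) (nat_lit 4) (nat_lit 1) (nat_lit 4) (nat_lit 425) (nat_lit 327) (nat_lit 268))) (XT.nd (nat_lit 78) (nat_lit 0) (nat_lit 0) (XT.lf (nat_lit 0) (nat_lit 131943986478) (nat_lit 152) (nat_lit 376305644463) (nat_lit 0) (nat_lit 125831277554) (nat_lit 1) (nat_lit 5) (nat_lit 3) (nat_lit 4) (nat_lit 1) (nat_lit 4) (nat_lit 426) (nat_lit 327) (nat_lit 267)) (XT.lf (nat_lit 0) (nat_lit 151350751220) (nat_lit 152) (nat_lit 387755381443) (nat_lit 0) (nat_lit 145233525974) (nat_lit 1) (nat_lit 5) (nat_lit 3) (nat_lit 4) (nat_lit 1) (nat_lit 4) (nat_lit 427) (nat_lit 327) (nat_lit 266))))))))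
noncomputable def xc26 : XT := (XT.nd (nat_lit 49374) (nat_lit 0) (nat_lit 228) (XT.nd (nat_lit 48438) (nat_lit 0) (nat_lit 1368) (XT.nd (nat_lit 468) (nat_lit 0) (nat_lit 0) (XT.nd (nat_lit 234) (nat_lit 0) (nat_lit 0) (XT.nd (nat_lit 78) (nat_lit 0) (nat_lit 0) (XT.lf (nat_lit 0) (nat_lit 172297136518) (nat_lit 152) (nat_lit 400146889459) (nat_lit 0) (nat_lit 166175729491) (nat_lit 1) (nat_lit 5) (nat_lit 3) (nat_lit 4) (nat_lit 1) (nat_lit 4) (nat_lit 428) (nat_lit 327) (nat_lit 265)) (XT.nd (nat_lit 78) (nat_lit 0) (nat_lit 0) (XT.lf (nat_lit 0) (nat_lit 194907269097) (nat_lit 152) (nat_lit 413553599668) (nat_lit 0) (nat_lit 188781990051) (nat_lit 1) (nat_lit 5) (nat_lit 3) (nat_lit 4) (nat_lit 1) (nat_lit 4) (nat_lit 429) (nat_lit 327) (nat_lit 264)) (XT.lf (nat_lit 0) (nat_lit 219315134928) (nat_lit 152) (nat_lit 428054959242) (nat_lit 0) (nat_lit 213186270680) (nat_lit 1) (nat_lit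 5) (nat_lit 3) (nat_lit 4) (nat_lit 1) (nat_lit 4) (nat_lit 430) (nat_lit 327) (nat_lit 263)))) (XT.nd (nat_lit 78) (nat_lit 0) (nat_lit 0) (XT.lf (nat_lit 0) (nat_lit 245665373218) (nat_lit 152) (nat_lit 443736902164) (nat_lit 0) (nat_lit 239533189338) (nat_lit 1) (nat_lit 5) (nat_lit 3) (nat_lit 4) (nat_lit 1) (nat_lit 4) (nat_lit 431) (nat_lit 327) (nat_lit 262)) (XT.nd (nat_lit 78) (nat_lit 0) (nat_lit 0) (XT.lf (nat_lit 0) (nat_lit 274114133526) (nat_lit 152) (nat_lit 460692358467) (nat_lit 0) (nat_lit 267978875912) (nat_lit 1) (nat_lit 5) (nat_lit 3) (nat_lit 4) (nat_lit 1) (nat_lit 4) (nat_lit 432) (nat_lit 327) (nat_lit 261)) (XT.lf (nat_lit 0) (nat_lit 304830001098) (nat_lit 152) (nat_lit 479021804928) (nat_lit 0) (nat_lit 298691897435) (nat_lit 1) (nat_lit 5) (nat_lit 3) (nat_lit 4) (nat_lit 1) (nat_lit 4) (nat_lit 433) (nat_lit 327) (nat_lit 260))))) (XT.nd (nat_lit 47736) (nat_lit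 0) (nat_lit 2812) (XT.nd (nat_lit 78) (nat_lit 0) (nat_lit 0) (XT.lf (nat_lit 0) (nat_lit 337994995891) (nat_lit 152) (nat_lit 498833860489) (nat_lit 0) (nat_lit 331854256997) (nat_lit 1) (nat_lit 5) (nat_lit 3) (nat_lit 4) (nat_lit 1) (nat_lit 4) (nat_lit 434) (nat_lit 327) (nat_lit 259)) (XT.nd (nat_lit 47580) (nat_lit 0) (nat_lit 3496) (XT.lf (nat_lit 0) (nat_lit 373805651206) (nat_lit 152) (nat_lit 520245929924) (nat_lit 0) (nat_lit 367662472283) (nat_lit 1) (nat_lit 5) (nat_lit 3) (nat_lit 4) (nat_lit 1) (nat_lit 4) (nat_lit 435) (nat_lit 327) (nat_lit 258)) (XT.lf (nat_lit 0) (nat_lit 2101515929) (nat_lit 152) (nat_lit 1708866860) (nat_lit 152) (nat_lit 1708866860) (nat_lit 47) (nat_lit 4) (nat_lit 49) (nat_lit 5) (nat_lit 49) (nat_lit 4) (nat_lit 364) (nat_lit 328) (nat_lit 328)))) (XT.nd (nat_lit 78) (nat_lit 456) (nat_lit 0) (XT.lf (nat_lit 0) (nat_lit 4197761744) (nat_lit 228) (nat_lit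 4018696985) (nat_lit 0) (nat_lit 3266450301) (nat_lit 44) (nat_lit 5) (nat_lit 47) (nat_lit 4) (nat_lit 44) (nat_lit 4) (nat_lit 365) (nat_lit 328) (nat_lit 327)) (XT.nd (nat_lit 78) (nat_lit 228) (nat_lit 0) (XT.lf (nat_lit 0) (nat_lit 240281654) (nat_lit 228) (nat_lit 1301059462) (nat_lit 76) (nat_lit 10423159704) (nat_lit 41) (nat_lit 5) (nat_lit 44) (nat_lit 5) (nat_lit 42) (nat_lit 4) (nat_lit 366) (nat_lit 328) (nat_lit 326)) (XT.lf (nat_lit 0) (nat_lit 1229583286) (nat_lit 152) (nat_lit 6859503502) (nat_lit 152) (nat_lit 4390849876) (nat_lit 38) (nat_lit 4) (nat_lit 40) (nat_lit 5) (nat_lit 40) (nat_lit 4) (nat_lit 367) (nat_lit 328) (nat_lit 325)))))) (XT.nd (nat_lit 468) (nat_lit 608) (nat_lit 0) (XT.nd (nat_lit 234) (nat_lit 380) (nat_lit 0) (XT.nd (nat_lit 78) (nat_lit 304) (nat_lit 0) (XT.lf (nat_lit 0) (nat_lit 3338222834) (nat_lit 152) (nat_lit 9383080559) (nat_lit 0) (nat_lit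 316552668) (nat_lit 36) (nat_lit 5) (nat_lit 38) (nat_lit 4) (nat_lit 36) (nat_lit 4) (nat_lit 368) (nat_lit 328) (nat_lit 324)) (XT.nd (nat_lit 78) (nat_lit 152) (nat_lit 0) (XT.lf (nat_lit 0) (nat_lit 5778161223) (nat_lit 152) (nat_lit 5750729407) (nat_lit 152) (nat_lit 2108159728) (nat_lit 34) (nat_lit 4) (nat_lit 36) (nat_lit 5) (nat_lit 36) (nat_lit 4) (nat_lit 369) (nat_lit 328) (nat_lit 323)) (XT.lf (nat_lit 0) (nat_lit 5812921711) (nat_lit 152) (nat_lit 6674449456) (nat_lit 0) (nat_lit 1796277296) (nat_lit 32) (nat_lit 5) (nat_lit 34) (nat_lit 4) (nat_lit 32) (nat_lit 4) (nat_lit 370) (nat_lit 328) (nat_lit 322)))) (XT.nd (nat_lit 78) (nat_lit 228) (nat_lit 0) (XT.lf (nat_lit 0) (nat_lit 9074482840) (nat_lit 152) (nat_lit 5214841955) (nat_lit 152) (nat_lit 691224916) (nat_lit 30) (nat_lit 4) (nat_lit 32) (nat_lit 5) (nat_lit 32) (nat_lit 4) (nat_lit 371) (nat_lit 328) (nat_lit 321))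 (XT.nd (nat_lit 78) (nat_lit 76) (nat_lit 0) (XT.lf (nat_lit 0) (nat_lit 7411317046) (nat_lit 152) (nat_lit 5662517628) (nat_lit 0) (nat_lit 2656044535) (nat_lit 28) (nat_lit 5) (nat_lit 30) (nat_lit 4) (nat_lit 28) (nat_lit 4) (nat_lit 372) (nat_lit 328) (nat_lit 320)) (XT.lf (nat_lit 0) (nat_lit 10565748610) (nat_lit 76) (nat_lit 5571088173) (nat_lit 76) (nat_lit 401865842) (nat_lit 27) (nat_lit 4) (nat_lit 28) (nat_lit 5) (nat_lit 28) (nat_lit 4) (nat_lit 373) (nat_lit 328) (nat_lit 319))))) (XT.nd (nat_lit 234) (nat_lit 228) (nat_lit 0) (XT.nd (nat_lit 78) (nat_lit 228) (nat_lit 0) (XT.lf (nat_lit 0) (nat_lit 7844065556) (nat_lit 152) (nat_lit 7008065625) (nat_lit 0) (nat_lit 2555961553) (nat_lit 25) (nat_lit 5) (nat_lit 27) (nat_lit 4) (nat_lit 25) (nat_lit 4) (nat_lit 374) (nat_lit 328) (nat_lit 318)) (XT.nd (nat_lit 78) (nat_lit 152) (nat_lit 0) (XT.lf (nat_lit 0) (nat_lit 9523504088)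 (nat_lit 76) (nat_lit 7224369008) (nat_lit 76) (nat_lit 1598269528) (nat_lit 24) (nat_lit 4) (nat_lit 25) (nat_lit 5) (nat_lit 25) (nat_lit 4) (nat_lit 375) (nat_lit 328) (nat_lit 317)) (XT.lf (nat_lit 0) (nat_lit 6717330333) (nat_lit 152) (nat_lit 11578560620) (nat_lit 0) (nat_lit 1061084375) (nat_lit 22) (nat_lit 5) (nat_lit 24) (nat_lit 4) (nat_lit 22) (nat_lit 4) (nat_lit 376) (nat_lit 328) (nat_lit 316)))) (XT.nd (nat_lit 78) (nat_lit 152) (nat_lit 0) (XT.lf (nat_lit 0) (nat_lit 4989044365) (nat_lit 76) (nat_lit 10694265038) (nat_lit 76) (nat_lit 4762041325) (nat_lit 21) (nat_lit 4) (nat_lit 22) (nat_lit 5) (nat_lit 22) (nat_lit 4) (nat_lit 377) (nat_lit 328) (nat_lit 315)) (XT.nd (nat_lit 78) (nat_lit 0) (nat_lit 0) (XT.lf (nat_lit 0) (nat_lit 1072337936) (nat_lit 76) (nat_lit 2469172604) (nat_lit 152) (nat_lit 18080617582) (nat_lit 19) (nat_lit 5) (nat_lit 20) (nat_lit 5) (nat_lit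 21) (nat_lit 4) (nat_lit 378) (nat_lit 328) (nat_lit 314)) (XT.lf (nat_lit 0) (nat_lit 12422181825) (nat_lit 152) (nat_lit 4159274696) (nat_lit 0) (nat_lit 6303738857) (nat_lit 19) (nat_lit 5) (nat_lit 21) (nat_lit 4) (nat_lit 19) (nat_lit 4) (nat_lit 379) (nat_lit 328) (nat_lit 313))))))) (XT.nd (nat_lit 936) (nat_lit 380) (nat_lit 0) (XT.nd (nat_lit 468) (nat_lit 304) (nat_lit 0) (XT.nd (nat_lit 234) (nat_lit 228) (nat_lit 0) (XT.nd (nat_lit 78) (nat_lit 152) (nat_lit 0) (XT.lf (nat_lit 0) (nat_lit 13401967463) (nat_lit 76) (nat_lit 8587819638) (nat_lit 76) (nat_lit 2260729013) (nat_lit 18) (nat_lit 4) (nat_lit 19) (nat_lit 5) (nat_lit 19) (nat_lit 4) (nat_lit 380) (nat_lit 328) (nat_lit 312)) (XT.nd (nat_lit 78) (nat_lit 0) (nat_lit 0) (XT.lf (nat_lit 0) (nat_lit 6294939039) (nat_lit 152) (nat_lit 19344437051) (nat_lit 0) (nat_lit 85145800) (nat_lit 16) (nat_lit 5) (nat_lit 18) (nat_lit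 4) (nat_lit 16) (nat_lit 4) (nat_lit 381) (nat_lit 328) (nat_lit 311)) (XT.lf (nat_lit 0) (nat_lit 15535865882) (nat_lit 152) (nat_lit 2619045814) (nat_lit 0) (nat_lit 9155709084) (nat_lit 16) (nat_lit 5) (nat_lit 18) (nat_lit 4) (nat_lit 16) (nat_lit 4) (nat_lit 382) (nat_lit 328) (nat_lit 310)))) (XT.nd (nat_lit 78) (nat_lit 152) (nat_lit 0) (XT.lf (nat_lit 0) (nat_lit 15476356303) (nat_lit 76) (nat_lit 10042518009) (nat_lit 76) (nat_lit 3504617176) (nat_lit 15) (nat_lit 4) (nat_lit 16) (nat_lit 5) (nat_lit 16) (nat_lit 4) (nat_lit 383) (nat_lit 328) (nat_lit 309)) (XT.nd (nat_lit 78) (nat_lit 0) (nat_lit 0) (XT.lf (nat_lit 0) (nat_lit 3827932697) (nat_lit 76) (nat_lit 1299819899) (nat_lit 152) (nat_lit 25747707873) (nat_lit 13) (nat_lit 5) (nat_lit 14) (nat_lit 5) (nat_lit 15) (nat_lit 4) (nat_lit 384) (nat_lit 328) (nat_lit 308)) (XT.lf (nat_lit 0) (nat_lit 14471891557) (nat_lit 152)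 (nat_lit 10416229219) (nat_lit 0) (nat_lit 7977415165) (nat_lit 13) (nat_lit 5) (nat_lit 15) (nat_lit 4) (nat_lit 13) (nat_lit 4) (nat_lit 385) (nat_lit 328) (nat_lit 307))))) (XT.nd (nat_lit 234) (nat_lit 76) (nat_lit 0) (XT.nd (nat_lit 78) (nat_lit 152) (nat_lit 0) (XT.lf (nat_lit 0) (nat_lit 7352381364) (nat_lit 76) (nat_lit 17139877649) (nat_lit 76) (nat_lit 10526141923) (nat_lit 12) (nat_lit 4) (nat_lit 13) (nat_lit 5) (nat_lit 13) (nat_lit 4) (nat_lit 386) (nat_lit 328) (nat_lit 306)) (XT.nd (nat_lit 78) (nat_lit 152) (nat_lit 0) (XT.lf (nat_lit 0) (nat_lit 26525514539) (nat_lit 76) (nat_lit 8771510094) (nat_lit 76) (nat_lit 2047349057) (nat_lit 12) (nat_lit 4) (nat_lit 13) (nat_lit 5) (nat_lit 13) (nat_lit 4) (nat_lit 387) (nat_lit 328) (nat_lit 305)) (XT.lf (nat_lit 0) (nat_lit 6811473858) (nat_lit 152) (nat_lit 32732816942) (nat_lit 0) (nat_lit 310134150) (nat_lit 10) (nat_lit 5)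 (nat_lit 12) (nat_lit 4) (nat_lit 10) (nat_lit 4) (nat_lit 388) (nat_lit 328) (nat_lit 304)))) (XT.nd (nat_lit 78) (nat_lit 76) (nat_lit 0) (XT.lf (nat_lit 0) (nat_lit 16466391982) (nat_lit 152) (nat_lit 16214379573) (nat_lit 0) (nat_lit 9874888554) (nat_lit 10) (nat_lit 5) (nat_lit 12) (nat_lit 4) (nat_lit 10) (nat_lit 4) (nat_lit 389) (nat_lit 328) (nat_lit 303)) (XT.nd (nat_lit 78) (nat_lit 0) (nat_lit 0) (XT.lf (nat_lit 0) (nat_lit 1338122683) (nat_lit 76) (nat_lit 25408610558) (nat_lit 76) (nat_lit 18733622205) (nat_lit 9) (nat_lit 4) (nat_lit 10) (nat_lit 5) (nat_lit 10) (nat_lit 4) (nat_lit 390) (nat_lit 328) (nat_lit 302)) (XT.lf (nat_lit 0) (nat_lit 20557948758) (nat_lit 76) (nat_lit 17413637273) (nat_lit 76) (nat_lit 10661348064) (nat_lit 9) (nat_lit 4) (nat_lit 10) (nat_lit 5) (nat_lit 10) (nat_lit 4) (nat_lit 391) (nat_lit 328) (nat_lit 301)))))) (XT.nd (nat_lit 468) (nat_lit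 152) (nat_lit 0) (XT.nd (nat_lit 234) (nat_lit 76) (nat_lit 0) (XT.nd (nat_lit 78) (nat_lit 152) (nat_lit 0) (XT.lf (nat_lit 0) (nat_lit 41022873303) (nat_lit 76) (nat_lit 8923072446) (nat_lit 76) (nat_lit 2099208370) (nat_lit 9) (nat_lit 4) (nat_lit 10) (nat_lit 5) (nat_lit 10) (nat_lit 4) (nat_lit 392) (nat_lit 328) (nat_lit 300)) (XT.nd (nat_lit 78) (nat_lit 0) (nat_lit 0) (XT.lf (nat_lit 0) (nat_lit 6897820122) (nat_lit 152) (nat_lit 48492241853) (nat_lit 0) (nat_lit 335784787) (nat_lit 7) (nat_lit 5) (nat_lit 9) (nat_lit 4) (nat_lit 7) (nat_lit 4) (nat_lit 393) (nat_lit 328) (nat_lit 299)) (XT.lf (nat_lit 0) (nat_lit 16752118262) (nat_lit 152) (nat_lit 32804971112) (nat_lit 0) (nat_lit 10131641106) (nat_lit 7) (nat_lit 5) (nat_lit 9) (nat_lit 4) (nat_lit 7) (nat_lit 4) (nat_lit 394) (nat_lit 328) (nat_lit 298)))) (XT.nd (nat_lit 78) (nat_lit 76) (nat_lit 0) (XT.lf (nat_lit 0) (nat_lit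 27269262371) (nat_lit 152) (nat_lit 16110993329) (nat_lit 0) (nat_lit 20594672418) (nat_lit 7) (nat_lit 5) (nat_lit 9) (nat_lit 4) (nat_lit 7) (nat_lit 4) (nat_lit 395) (nat_lit 328) (nat_lit 297)) (XT.nd (nat_lit 78) (nat_lit 0) (nat_lit 0) (XT.lf (nat_lit 0) (nat_lit 1744452134) (nat_lit 76) (nat_lit 36794359918) (nat_lit 76) (nat_lit 30069665523) (nat_lit 6) (nat_lit 4) (nat_lit 7) (nat_lit 5) (nat_lit 7) (nat_lit 4) (nat_lit 396) (nat_lit 328) (nat_lit 296)) (XT.lf (nat_lit 0) (nat_lit 21383758178) (nat_lit 76) (nat_lit 29495783281) (nat_lit 76) (nat_lit 22724695884) (nat_lit 6) (nat_lit 4) (nat_lit 7) (nat_lit 5) (nat_lit 7) (nat_lit 4) (nat_lit 397) (nat_lit 328) (nat_lit 295))))) (XT.nd (nat_lit 234) (nat_lit 76) (nat_lit 0) (XT.nd (nat_lit 78) (nat_lit 76) (nat_lit 0) (XT.lf (nat_lit 0) (nat_lit 42390603677) (nat_lit 76) (nat_lit 21714122431) (nat_lit 76) (nat_lit 14900078551) (nat_lit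 6) (nat_lit 4) (nat_lit 7) (nat_lit 5) (nat_lit 7) (nat_lit 4) (nat_lit 398) (nat_lit 328) (nat_lit 294)) (XT.nd (nat_lit 78) (nat_lit 76) (nat_lit 0) (XT.lf (nat_lit 0) (nat_lit 64889473641) (nat_lit 76) (nat_lit 13403263823) (nat_lit 76) (nat_lit 6549445422) (nat_lit 6) (nat_lit 4) (nat_lit 7) (nat_lit 5) (nat_lit 7) (nat_lit 4) (nat_lit 399) (nat_lit 328) (nat_lit 293)) (XT.lf (nat_lit 0) (nat_lit 2300619855) (nat_lit 152) (nat_lit 2174375959) (nat_lit 76) (nat_lit 86674112742) (nat_lit 5) (nat_lit 5) (nat_lit 7) (nat_lit 5) (nat_lit 6) (nat_lit 4) (nat_lit 400) (nat_lit 328) (nat_lit 292)))) (XT.nd (nat_lit 156) (nat_lit 0) (nat_lit 0) (XT.nd (nat_lit 78) (nat_lit 0) (nat_lit 0) (XT.lf (nat_lit 0) (nat_lit 11905178152) (nat_lit 152) (nat_lit 80726068203) (nat_lit 0) (nat_lit 5310181102) (nat_lit 4) (nat_lit 5) (nat_lit 6) (nat_lit 4) (nat_lit 4) (nat_lit 4) (nat_lit 401) (nat_lit 328)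 (nat_lit 291)) (XT.lf (nat_lit 0) (nat_lit 22311575883) (nat_lit 152) (nat_lit 67277378804) (nat_lit 0) (nat_lit 15686508073) (nat_lit 4) (nat_lit 5) (nat_lit 6) (nat_lit 4) (nat_lit 4) (nat_lit 4) (nat_lit 402) (nat_lit 328) (nat_lit 290))) (XT.nd (nat_lit 78) (nat_lit 0) (nat_lit 0) (XT.lf (nat_lit 0) (nat_lit 33475967855) (nat_lit 152) (nat_lit 52900926448) (nat_lit 0) (nat_lit 26823056749) (nat_lit 4) (nat_lit 5) (nat_lit 6) (nat_lit 4) (nat_lit 4) (nat_lit 4) (nat_lit 403) (nat_lit 328) (nat_lit 289)) (XT.lf (nat_lit 0) (nat_lit 45464513428) (nat_lit 152) (nat_lit 37511517341) (nat_lit 0) (nat_lit 38785821492) (nat_lit 4) (nat_lit 5) (nat_lit 6) (nat_lit 4) (nat_lit 4) (nat_lit 4) (nat_lit 404) (nat_lit 328) (nat_lit 288))))))))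
noncomputable def xc27 : XT := (XT.nd (nat_lit 1872) (nat_lit 0) (nat_lit 0) (XT.nd (nat_lit 936) (nat_lit 152) (nat_lit 0) (XT.nd (nat_lit 468) (nat_lit 0) (nat_lit 0) (XT.nd (nat_lit 234) (nat_lit 0) (nat_lit 0) (XT.nd (nat_lit 78) (nat_lit 76) (nat_lit 0) (XT.lf (nat_lit 0) (nat_lit 58348255835) (nat_lit 152) (nat_lit 21017954987) (nat_lit 0) (nat_lit 51645692762) (nat_lit 4) (nat_lit 5) (nat_lit 6) (nat_lit 4) (nat_lit 4) (nat_lit 4) (nat_lit 405) (nat_lit 328) (nat_lit 287)) (XT.nd (nat_lit 78) (nat_lit 76) (nat_lit 0) (XT.lf (nat_lit 0) (nat_lit 72203543180) (nat_lit 152) (nat_lit 3322499755) (nat_lit 0) (nat_lit 65478877201) (nat_lit 4) (nat_lit 5) (nat_lit 6) (nat_lit 4) (nat_lit 4) (nat_lit 4) (nat_lit 406) (nat_lit 328) (nat_lit 286)) (XT.lf (nat_lit 0) (nat_lit 16198152343) (nat_lit 76) (nat_lit 71167227079) (nat_lit 76) (nat_lit 64422095446) (nat_lit 3) (nat_lit 4) (nat_lit 4)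 (nat_lit 5) (nat_lit 4) (nat_lit 4) (nat_lit 407) (nat_lit 328) (nat_lit 285)))) (XT.nd (nat_lit 78) (nat_lit 0) (nat_lit 0) (XT.lf (nat_lit 0) (nat_lit 37294952282) (nat_lit 76) (nat_lit 66450744605) (nat_lit 76) (nat_lit 59686663292) (nat_lit 3) (nat_lit 4) (nat_lit 4) (nat_lit 5) (nat_lit 4) (nat_lit 4) (nat_lit 408) (nat_lit 328) (nat_lit 284)) (XT.nd (nat_lit 78) (nat_lit 0) (nat_lit 0) (XT.lf (nat_lit 0) (nat_lit 59983061286) (nat_lit 76) (nat_lit 61404914129) (nat_lit 76) (nat_lit 54623286817) (nat_lit 3) (nat_lit 4) (nat_lit 4) (nat_lit 5) (nat_lit 4) (nat_lit 4) (nat_lit 409) (nat_lit 328) (nat_lit 283)) (XT.lf (nat_lit 0) (nat_lit 84396927410) (nat_lit 76) (nat_lit 55999834433) (nat_lit 76) (nat_lit 49201960825) (nat_lit 3) (nat_lit 4) (nat_lit 4) (nat_lit 5) (nat_lit 4) (nat_lit 4) (nat_lit 410) (nat_lit 328) (nat_lit 282))))) (XT.nd (nat_lit 234) (nat_lit 0) (nat_lit 0) (XT.nd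 (nat_lit 78) (nat_lit 0) (nat_lit 0) (XT.lf (nat_lit 0) (nat_lit 110681225414) (nat_lit 76) (nat_lit 50203475416) (nat_lit 76) (nat_lit 43390558942) (nat_lit 3) (nat_lit 4) (nat_lit 4) (nat_lit 5) (nat_lit 4) (nat_lit 4) (nat_lit 411) (nat_lit 328) (nat_lit 281)) (XT.nd (nat_lit 78) (nat_lit 0) (nat_lit 0) (XT.lf (nat_lit 0) (nat_lit 138991714103) (nat_lit 76) (nat_lit 43981488284) (nat_lit 76) (nat_lit 37154643230) (nat_lit 3) (nat_lit 4) (nat_lit 4) (nat_lit 5) (nat_lit 4) (nat_lit 4) (nat_lit 412) (nat_lit 328) (nat_lit 280)) (XT.lf (nat_lit 0) (nat_lit 169496159336) (nat_lit 76) (nat_lit 37297002001) (nat_lit 76) (nat_lit 30457260114) (nat_lit 3) (nat_lit 4) (nat_lit 4) (nat_lit 5) (nat_lit 4) (nat_lit 4) (nat_lit 413) (nat_lit 328) (nat_lit 279)))) (XT.nd (nat_lit 78) (nat_lit 0) (nat_lit 0) (XT.lf (nat_lit 0) (nat_lit 202375328194) (nat_lit 76) (nat_lit 30110404797) (nat_lit 76) (nat_lit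 23258721397) (nat_lit 3) (nat_lit 4) (nat_lit 4) (nat_lit 5) (nat_lit 4) (nat_lit 4) (nat_lit 414) (nat_lit 328) (nat_lit 278)) (XT.nd (nat_lit 78) (nat_lit 0) (nat_lit 0) (XT.lf (nat_lit 0) (nat_lit 237824060198) (nat_lit 76) (nat_lit 22379109430) (nat_lit 76) (nat_lit 15516369074) (nat_lit 3) (nat_lit 4) (nat_lit 4) (nat_lit 5) (nat_lit 4) (nat_lit 4) (nat_lit 415) (nat_lit 328) (nat_lit 277)) (XT.lf (nat_lit 0) (nat_lit 276052421907) (nat_lit 76) (nat_lit 14057300815) (nat_lit 76) (nat_lit 7184322538) (nat_lit 3) (nat_lit 4) (nat_lit 4) (nat_lit 5) (nat_lit 4) (nat_lit 4) (nat_lit 416) (nat_lit 328) (nat_lit 276)))))) (XT.nd (nat_lit 468) (nat_lit 0) (nat_lit 0) (XT.nd (nat_lit 234) (nat_lit 0) (nat_lit 0) (XT.nd (nat_lit 78) (nat_lit 76) (nat_lit 0) (XT.lf (nat_lit 0) (nat_lit 1729604758) (nat_lit 152) (nat_lit 3336768080) (nat_lit 76) (nat_lit 315528055309) (nat_lit 2) (nat_lit 5) (nat_lit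 4) (nat_lit 5) (nat_lit 3) (nat_lit 4) (nat_lit 417) (nat_lit 328) (nat_lit 275)) (XT.nd (nat_lit 78) (nat_lit 0) (nat_lit 0) (XT.lf (nat_lit 0) (nat_lit 11417285275) (nat_lit 152) (nat_lit 329465847623) (nat_lit 0) (nat_lit 4854204129) (nat_lit 1) (nat_lit 5) (nat_lit 3) (nat_lit 4) (nat_lit 1) (nat_lit 4) (nat_lit 418) (nat_lit 328) (nat_lit 274)) (XT.lf (nat_lit 0) (nat_lit 22000570565) (nat_lit 152) (nat_lit 335455330493) (nat_lit 0) (nat_lit 15429749236) (nat_lit 1) (nat_lit 5) (nat_lit 3) (nat_lit 4) (nat_lit 1) (nat_lit 4) (nat_lit 419) (nat_lit 328) (nat_lit 273)))) (XT.nd (nat_lit 78) (nat_lit 0) (nat_lit 0) (XT.lf (nat_lit 0) (nat_lit 33408374997) (nat_lit 152) (nat_lit 341968175080) (nat_lit 0) (nat_lit 26830386831) (nat_lit 1) (nat_lit 5) (nat_lit 3) (nat_lit 4) (nat_lit 1) (nat_lit 4) (nat_lit 420) (nat_lit 328) (nat_lit 272)) (XT.nd (nat_lit 78) (nat_lit 0) (nat_lit 0) (XT.lf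 (nat_lit 0) (nat_lit 45708300376) (nat_lit 152) (nat_lit 349042976018) (nat_lit 0) (nat_lit 39123676250) (nat_lit 1) (nat_lit 5) (nat_lit 3) (nat_lit 4) (nat_lit 1) (nat_lit 4) (nat_lit 421) (nat_lit 328) (nat_lit 271)) (XT.lf (nat_lit 0) (nat_lit 58973235147) (nat_lit 152) (nat_lit 356721658053) (nat_lit 0) (nat_lit 52382466614) (nat_lit 1) (nat_lit 5) (nat_lit 3) (nat_lit 4) (nat_lit 1) (nat_lit 4) (nat_lit 422) (nat_lit 328) (nat_lit 270))))) (XT.nd (nat_lit 234) (nat_lit 0) (nat_lit 0) (XT.nd (nat_lit 78) (nat_lit 0) (nat_lit 0) (XT.lf (nat_lit 0) (nat_lit 73281786333) (nat_lit 152) (nat_lit 365049724487) (nat_lit 0) (nat_lit 66685328534) (nat_lit 1) (nat_lit 5) (nat_lit 3) (nat_lit 4) (nat_lit 1) (nat_lit 4) (nat_lit 423) (nat_lit 328) (nat_lit 269)) (XT.nd (nat_lit 78) (nat_lit 0) (nat_lit 0) (XT.lf (nat_lit 0) (nat_lit 88718745347) (nat_lit 152) (nat_lit 374076526825) (nat_lit 0) (nat_lit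 82117019709) (nat_lit 1) (nat_lit 5) (nat_lit 3) (nat_lit 4) (nat_lit 1) (nat_lit 4) (nat_lit 424) (nat_lit 328) (nat_lit 268)) (XT.lf (nat_lit 0) (nat_lit 105375590465) (nat_lit 152) (nat_lit 383855557228) (nat_lit 0) (nat_lit 98768987199) (nat_lit 1) (nat_lit 5) (nat_lit 3) (nat_lit 4) (nat_lit 1) (nat_lit 4) (nat_lit 425) (nat_lit 328) (nat_lit 267)))) (XT.nd (nat_lit 78) (nat_lit 0) (nat_lit 0) (XT.lf (nat_lit 0) (nat_lit 123351028918) (nat_lit 152) (nat_lit 394444765506) (nat_lit 0) (nat_lit 116739909329) (nat_lit 1) (nat_lit 5) (nat_lit 3) (nat_lit 4) (nat_lit 1) (nat_lit 4) (nat_lit 426) (nat_lit 328) (nat_lit 266)) (XT.nd (nat_lit 78) (nat_lit 0) (nat_lit 0) (XT.lf (nat_lit 0) (nat_lit 142751581821) (nat_lit 152) (nat_lit 405906902523) (nat_lit 0) (nat_lit 136136280452) (nat_lit 1) (nat_lit 5) (nat_lit 3) (nat_lit 4) (nat_lit 1) (nat_lit 4) (nat_lit 427) (nat_lit 328) (nat_lit 265))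 (XT.lf (nat_lit 0) (nat_lit 163692215416) (nat_lit 152) (nat_lit 418309892054) (nat_lit 0) (nat_lit 157073042028) (nat_lit 1) (nat_lit 5) (nat_lit 3) (nat_lit 4) (nat_lit 1) (nat_lit 4) (nat_lit 428) (nat_lit 328) (nat_lit 264))))))) (XT.nd (nat_lit 48282) (nat_lit 0) (nat_lit 1368) (XT.nd (nat_lit 468) (nat_lit 0) (nat_lit 0) (XT.nd (nat_lit 234) (nat_lit 0) (nat_lit 0) (XT.nd (nat_lit 78) (nat_lit 0) (nat_lit 0) (XT.lf (nat_lit 0) (nat_lit 186297022344) (nat_lit 152) (nat_lit 431727233296) (nat_lit 0) (nat_lit 179674263753) (nat_lit 1) (nat_lit 5) (nat_lit 3) (nat_lit 4) (nat_lit 1) (nat_lit 4) (nat_lit 429) (nat_lit 328) (nat_lit 263)) (XT.nd (nat_lit 78) (nat_lit 0) (nat_lit 0) (XT.lf (nat_lit 0) (nat_lit 210699957018) (nat_lit 152) (nat_lit 446238436419) (nat_lit 0) (nat_lit 204073878795) (nat_lit 1) (nat_lit 5) (nat_lit 3) (nat_lit 4) (nat_lit 1) (nat_lit 4) (nat_lit 430) (nat_lit 328)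 (nat_lit 262)) (XT.lf (nat_lit 0) (nat_lit 237045629421) (nat_lit 152) (nat_lit 461929493739) (nat_lit 0) (nat_lit 230416477465) (nat_lit 1) (nat_lit 5) (nat_lit 3) (nat_lit 4) (nat_lit 1) (nat_lit 4) (nat_lit 431) (nat_lit 328) (nat_lit 261)))) (XT.nd (nat_lit 78) (nat_lit 0) (nat_lit 0) (XT.lf (nat_lit 0) (nat_lit 265490162055) (nat_lit 152) (nat_lit 478893389298) (nat_lit 0) (nat_lit 258858164050) (nat_lit 1) (nat_lit 5) (nat_lit 3) (nat_lit 4) (nat_lit 1) (nat_lit 4) (nat_lit 432) (nat_lit 328) (nat_lit 260)) (XT.nd (nat_lit 78) (nat_lit 0) (nat_lit 0) (XT.lf (nat_lit 0) (nat_lit 296202115115) (nat_lit 152) (nat_lit 497230649886) (nat_lit 0) (nat_lit 289567481879) (nat_lit 1) (nat_lit 5) (nat_lit 3) (nat_lit 4) (nat_lit 1) (nat_lit 4) (nat_lit 433) (nat_lit 328) (nat_lit 259)) (XT.lf (nat_lit 0) (nat_lit 329363485359) (nat_lit 152) (nat_lit 517049940749) (nat_lit 0) (nat_lit 322726412094)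 (nat_lit 1) (nat_lit 5) (nat_lit 3) (nat_lit 4) (nat_lit 1) (nat_lit 4) (nat_lit 434) (nat_lit 328) (nat_lit 258))))) (XT.nd (nat_lit 47580) (nat_lit 0) (nat_lit 3040) (XT.nd (nat_lit 47424) (nat_lit 0) (nat_lit 3648) (XT.lf (nat_lit 0) (nat_lit 365170784611) (nat_lit 152) (nat_lit 538468709539) (nat_lit 0) (nat_lit 358531452060) (nat_lit 1) (nat_lit 5) (nat_lit 3) (nat_lit 4) (nat_lit 1) (nat_lit 4) (nat_lit 435) (nat_lit 328) (nat_lit 257)) (XT.nd (nat_lit 78) (nat_lit 380) (nat_lit 0) (XT.lf (nat_lit 0) (nat_lit 2039434523) (nat_lit 228) (nat_lit 1039140755) (nat_lit 0) (nat_lit 2039434523) (nat_lit 54) (nat_lit 5) (nat_lit 57) (nat_lit 4) (nat_lit 54) (nat_lit 4) (nat_lit 362) (nat_lit 329) (nat_lit 329)) (XT.lf (nat_lit 0) (nat_lit 903833789) (nat_lit 152) (nat_lit 77993686) (nat_lit 228) (nat_lit 9647212164) (nat_lit 49) (nat_lit 5) (nat_lit 51) (nat_lit 5) (nat_lit 52) (nat_lit 4)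 (nat_lit 363) (nat_lit 329) (nat_lit 328)))) (XT.nd (nat_lit 78) (nat_lit 456) (nat_lit 0) (XT.lf (nat_lit 0) (nat_lit 3841026579) (nat_lit 152) (nat_lit 4621132480) (nat_lit 152) (nat_lit 2587148288) (nat_lit 47) (nat_lit 4) (nat_lit 49) (nat_lit 5) (nat_lit 49) (nat_lit 4) (nat_lit 364) (nat_lit 329) (nat_lit 327)) (XT.nd (nat_lit 78) (nat_lit 228) (nat_lit 0) (XT.lf (nat_lit 0) (nat_lit 4766941869) (nat_lit 228) (nat_lit 4770443041) (nat_lit 0) (nat_lit 1967488657) (nat_lit 44) (nat_lit 5) (nat_lit 47) (nat_lit 4) (nat_lit 44) (nat_lit 4) (nat_lit 365) (nat_lit 329) (nat_lit 326)) (XT.lf (nat_lit 0) (nat_lit 554558085) (nat_lit 228) (nat_lit 2461058590) (nat_lit 76) (nat_lit 8981249015) (nat_lit 41) (nat_lit 5) (nat_lit 44) (nat_lit 5) (nat_lit 42) (nat_lit 4) (nat_lit 366) (nat_lit 329) (nat_lit 325)))))) (XT.nd (nat_lit 468) (nat_lit 684) (nat_lit 0) (XT.nd (nat_lit 234) (nat_lit 456)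 (nat_lit 0) (XT.nd (nat_lit 78) (nat_lit 456) (nat_lit 0) (XT.lf (nat_lit 0) (nat_lit 8146565580) (nat_lit 152) (nat_lit 362736373) (nat_lit 0) (nat_lit 4015891565) (nat_lit 40) (nat_lit 5) (nat_lit 42) (nat_lit 4) (nat_lit 40) (nat_lit 4) (nat_lit 367) (nat_lit 329) (nat_lit 324)) (XT.nd (nat_lit 78) (nat_lit 152) (nat_lit 0) (XT.lf (nat_lit 0) (nat_lit 1608551473) (nat_lit 76) (nat_lit 1509092418) (nat_lit 152) (nat_lit 9977125915) (nat_lit 36) (nat_lit 5) (nat_lit 37) (nat_lit 5) (nat_lit 38) (nat_lit 4) (nat_lit 368) (nat_lit 329) (nat_lit 323)) (XT.lf (nat_lit 0) (nat_lit 3290752309) (nat_lit 152) (nat_lit 7772640988) (nat_lit 152) (nat_lit 2642859266) (nat_lit 34) (nat_lit 4) (nat_lit 36) (nat_lit 5) (nat_lit 36) (nat_lit 4) (nat_lit 369) (nat_lit 329) (nat_lit 322)))) (XT.nd (nat_lit 78) (nat_lit 304) (nat_lit 0) (XT.lf (nat_lit 0) (nat_lit 4676685752) (nat_lit 76) (nat_lit 366625823)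 (nat_lit 152) (nat_lit 9322595233) (nat_lit 32) (nat_lit 5) (nat_lit 33) (nat_lit 5) (nat_lit 34) (nat_lit 4) (nat_lit 370) (nat_lit 329) (nat_lit 321)) (XT.nd (nat_lit 78) (nat_lit 152) (nat_lit 0) (XT.lf (nat_lit 0) (nat_lit 5643367069) (nat_lit 152) (nat_lit 7646434744) (nat_lit 152) (nat_lit 1784536620) (nat_lit 30) (nat_lit 4) (nat_lit 32) (nat_lit 5) (nat_lit 32) (nat_lit 4) (nat_lit 371) (nat_lit 329) (nat_lit 320)) (XT.lf (nat_lit 0) (nat_lit 6084753017) (nat_lit 152) (nat_lit 9665168208) (nat_lit 0) (nat_lit 88043078) (nat_lit 28) (nat_lit 5) (nat_lit 30) (nat_lit 4) (nat_lit 28) (nat_lit 4) (nat_lit 372) (nat_lit 329) (nat_lit 319))))) (XT.nd (nat_lit 234) (nat_lit 380) (nat_lit 0) (XT.nd (nat_lit 78) (nat_lit 228) (nat_lit 0) (XT.lf (nat_lit 0) (nat_lit 6124151123) (nat_lit 76) (nat_lit 8457057488) (nat_lit 76) (nat_lit 2077060678) (nat_lit 27) (nat_lit 4) (nat_lit 28) (nat_lit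 5) (nat_lit 28) (nat_lit 4) (nat_lit 373) (nat_lit 329) (nat_lit 318)) (XT.nd (nat_lit 78) (nat_lit 76) (nat_lit 0) (XT.lf (nat_lit 0) (nat_lit 5459764400) (nat_lit 76) (nat_lit 488848507) (nat_lit 152) (nat_lit 11594072951) (nat_lit 25) (nat_lit 5) (nat_lit 26) (nat_lit 5) (nat_lit 27) (nat_lit 4) (nat_lit 374) (nat_lit 329) (nat_lit 317)) (XT.lf (nat_lit 0) (nat_lit 3997544733) (nat_lit 76) (nat_lit 10611268122) (nat_lit 76) (nat_lit 3884126431) (nat_lit 24) (nat_lit 4) (nat_lit 25) (nat_lit 5) (nat_lit 25) (nat_lit 4) (nat_lit 375) (nat_lit 329) (nat_lit 316)))) (XT.nd (nat_lit 156) (nat_lit 228) (nat_lit 0) (XT.nd (nat_lit 78) (nat_lit 0) (nat_lit 0) (XT.lf (nat_lit 0) (nat_lit 1689414457) (nat_lit 76) (nat_lit 2557577148) (nat_lit 152) (nat_lit 15271467415) (nat_lit 22) (nat_lit 5) (nat_lit 23) (nat_lit 5) (nat_lit 24) (nat_lit 4) (nat_lit 376) (nat_lit 329) (nat_lit 315)) (XT.lf (nat_lit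 0) (nat_lit 12954684283) (nat_lit 152) (nat_lit 1648713408) (nat_lit 0) (nat_lit 6016369957) (nat_lit 22) (nat_lit 5) (nat_lit 24) (nat_lit 4) (nat_lit 22) (nat_lit 4) (nat_lit 377) (nat_lit 329) (nat_lit 314))) (XT.nd (nat_lit 78) (nat_lit 76) (nat_lit 0) (XT.lf (nat_lit 0) (nat_lit 551346008) (nat_lit 152) (nat_lit 6044661452) (nat_lit 76) (nat_lit 15211822387) (nat_lit 20) (nat_lit 5) (nat_lit 22) (nat_lit 5) (nat_lit 21) (nat_lit 4) (nat_lit 378) (nat_lit 329) (nat_lit 313)) (XT.lf (nat_lit 0) (nat_lit 9136571513) (nat_lit 152) (nat_lit 11854447337) (nat_lit 0) (nat_lit 2094665980) (nat_lit 19) (nat_lit 5) (nat_lit 21) (nat_lit 4) (nat_lit 19) (nat_lit 4) (nat_lit 379) (nat_lit 329) (nat_lit 312))))))))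
noncomputable def xc28 : XT := (XT.nd (nat_lit 1872) (nat_lit 228) (nat_lit 0) (XT.nd (nat_lit 936) (nat_lit 380) (nat_lit 0) (XT.nd (nat_lit 468) (nat_lit 304) (nat_lit 0) (XT.nd (nat_lit 234) (nat_lit 228) (nat_lit 0) (XT.nd (nat_lit 78) (nat_lit 152) (nat_lit 0) (XT.lf (nat_lit 0) (nat_lit 5209623158) (nat_lit 76) (nat_lit 13244498631) (nat_lit 76) (nat_lit 6009400823) (nat_lit 18) (nat_lit 4) (nat_lit 19) (nat_lit 5) (nat_lit 19) (nat_lit 4) (nat_lit 380) (nat_lit 329) (nat_lit 311)) (XT.nd (nat_lit 78) (nat_lit 76) (nat_lit 0) (XT.lf (nat_lit 0) (nat_lit 2446706365) (nat_lit 152) (nat_lit 2398231495) (nat_lit 76) (nat_lit 21106506588) (nat_lit 17) (nat_lit 5) (nat_lit 19) (nat_lit 5) (nat_lit 18) (nat_lit 4) (nat_lit 381) (nat_lit 329) (nat_lit 310)) (XT.lf (nat_lit 0) (nat_lit 11457856681) (nat_lit 152) (nat_lit 11852007411) (nat_lit 0) (nat_lit 4239179745) (nat_lit 16) (nat_lit 5)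 (nat_lit 18) (nat_lit 4) (nat_lit 16) (nat_lit 4) (nat_lit 382) (nat_lit 329) (nat_lit 309)))) (XT.nd (nat_lit 78) (nat_lit 152) (nat_lit 0) (XT.lf (nat_lit 0) (nat_lit 5725023129) (nat_lit 76) (nat_lit 15457283195) (nat_lit 76) (nat_lit 8092546967) (nat_lit 15) (nat_lit 4) (nat_lit 16) (nat_lit 5) (nat_lit 16) (nat_lit 4) (nat_lit 383) (nat_lit 329) (nat_lit 308)) (XT.nd (nat_lit 78) (nat_lit 76) (nat_lit 0) (XT.lf (nat_lit 0) (nat_lit 523707962) (nat_lit 152) (nat_lit 6426374990) (nat_lit 76) (nat_lit 24188478236) (nat_lit 14) (nat_lit 5) (nat_lit 16) (nat_lit 5) (nat_lit 15) (nat_lit 4) (nat_lit 384) (nat_lit 329) (nat_lit 307)) (XT.lf (nat_lit 0) (nat_lit 9574274670) (nat_lit 152) (nat_lit 21256868677) (nat_lit 0) (nat_lit 2312180750) (nat_lit 13) (nat_lit 5) (nat_lit 15) (nat_lit 4) (nat_lit 13) (nat_lit 4) (nat_lit 385) (nat_lit 329) (nat_lit 306))))) (XT.nd (nat_lit 234) (nat_lit 152)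 (nat_lit 0) (XT.nd (nat_lit 78) (nat_lit 152) (nat_lit 0) (XT.lf (nat_lit 0) (nat_lit 19387253255) (nat_lit 152) (nat_lit 3904579428) (nat_lit 0) (nat_lit 12014734025) (nat_lit 13) (nat_lit 5) (nat_lit 15) (nat_lit 4) (nat_lit 13) (nat_lit 4) (nat_lit 386) (nat_lit 329) (nat_lit 305)) (XT.nd (nat_lit 78) (nat_lit 76) (nat_lit 0) (XT.lf (nat_lit 0) (nat_lit 14966317507) (nat_lit 76) (nat_lit 15074282671) (nat_lit 76) (nat_lit 7599517784) (nat_lit 12) (nat_lit 4) (nat_lit 13) (nat_lit 5) (nat_lit 13) (nat_lit 4) (nat_lit 387) (nat_lit 329) (nat_lit 304)) (XT.lf (nat_lit 0) (nat_lit 1237497155) (nat_lit 152) (nat_lit 5032567623) (nat_lit 76) (nat_lit 33894420965) (nat_lit 11) (nat_lit 5) (nat_lit 13) (nat_lit 5) (nat_lit 12) (nat_lit 4) (nat_lit 388) (nat_lit 329) (nat_lit 303)))) (XT.nd (nat_lit 78) (nat_lit 76) (nat_lit 0) (XT.lf (nat_lit 0) (nat_lit 10631317925) (nat_lit 152) (nat_lit 28908618442)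 (nat_lit 0) (nat_lit 3338845580) (nat_lit 10) (nat_lit 5) (nat_lit 12) (nat_lit 4) (nat_lit 10) (nat_lit 4) (nat_lit 389) (nat_lit 329) (nat_lit 302)) (XT.nd (nat_lit 78) (nat_lit 76) (nat_lit 0) (XT.lf (nat_lit 0) (nat_lit 20816042376) (nat_lit 152) (nat_lit 11545952295) (nat_lit 0) (nat_lit 13446269173) (nat_lit 10) (nat_lit 5) (nat_lit 12) (nat_lit 4) (nat_lit 10) (nat_lit 4) (nat_lit 390) (nat_lit 329) (nat_lit 301)) (XT.lf (nat_lit 0) (nat_lit 7151493407) (nat_lit 76) (nat_lit 24631791483) (nat_lit 76) (nat_lit 17190443414) (nat_lit 9) (nat_lit 4) (nat_lit 10) (nat_lit 5) (nat_lit 10) (nat_lit 4) (nat_lit 391) (nat_lit 329) (nat_lit 300)))))) (XT.nd (nat_lit 468) (nat_lit 152) (nat_lit 0) (XT.nd (nat_lit 234) (nat_lit 76) (nat_lit 0) (XT.nd (nat_lit 78) (nat_lit 152) (nat_lit 0) (XT.lf (nat_lit 0) (nat_lit 27486215131) (nat_lit 76) (nat_lit 16205332034) (nat_lit 76) (nat_lit 8697710939)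 (nat_lit 9) (nat_lit 4) (nat_lit 10) (nat_lit 5) (nat_lit 10) (nat_lit 4) (nat_lit 392) (nat_lit 329) (nat_lit 299)) (XT.nd (nat_lit 78) (nat_lit 76) (nat_lit 0) (XT.lf (nat_lit 0) (nat_lit 329860297) (nat_lit 152) (nat_lit 6892771395) (nat_lit 76) (nat_lit 48861506962) (nat_lit 8) (nat_lit 5) (nat_lit 10) (nat_lit 5) (nat_lit 9) (nat_lit 4) (nat_lit 393) (nat_lit 329) (nat_lit 298)) (XT.lf (nat_lit 0) (nat_lit 9898061142) (nat_lit 152) (nat_lit 47527878903) (nat_lit 0) (nat_lit 2635391196) (nat_lit 7) (nat_lit 5) (nat_lit 9) (nat_lit 4) (nat_lit 7) (nat_lit 4) (nat_lit 394) (nat_lit 329) (nat_lit 297)))) (XT.nd (nat_lit 78) (nat_lit 76) (nat_lit 0) (XT.lf (nat_lit 0) (nat_lit 20359339029) (nat_lit 152) (nat_lit 30944422228) (nat_lit 0) (nat_lit 13046564640) (nat_lit 7) (nat_lit 5) (nat_lit 9) (nat_lit 4) (nat_lit 7) (nat_lit 4) (nat_lit 395) (nat_lit 329) (nat_lit 296)) (XT.nd (nat_lit 78)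 (nat_lit 76) (nat_lit 0) (XT.lf (nat_lit 0) (nat_lit 31549924940) (nat_lit 152) (nat_lit 13247144487) (nat_lit 0) (nat_lit 24190757550) (nat_lit 7) (nat_lit 5) (nat_lit 9) (nat_lit 4) (nat_lit 7) (nat_lit 4) (nat_lit 396) (nat_lit 329) (nat_lit 295)) (XT.lf (nat_lit 0) (nat_lit 5856264101) (nat_lit 76) (nat_lit 37771302053) (nat_lit 76) (nat_lit 30369178179) (nat_lit 6) (nat_lit 4) (nat_lit 7) (nat_lit 5) (nat_lit 7) (nat_lit 4) (nat_lit 397) (nat_lit 329) (nat_lit 294))))) (XT.nd (nat_lit 234) (nat_lit 152) (nat_lit 0) (XT.nd (nat_lit 78) (nat_lit 0) (nat_lit 0) (XT.lf (nat_lit 0) (nat_lit 26772473458) (nat_lit 76) (nat_lit 30034513852) (nat_lit 76) (nat_lit 22592615457) (nat_lit 6) (nat_lit 4) (nat_lit 7) (nat_lit 5) (nat_lit 7) (nat_lit 4) (nat_lit 398) (nat_lit 329) (nat_lit 293)) (XT.nd (nat_lit 78) (nat_lit 0) (nat_lit 0) (XT.lf (nat_lit 0) (nat_lit 49187421069) (nat_lit 76) (nat_lit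 21765203993) (nat_lit 76) (nat_lit 14286477337) (nat_lit 6) (nat_lit 4) (nat_lit 7) (nat_lit 5) (nat_lit 7) (nat_lit 4) (nat_lit 399) (nat_lit 329) (nat_lit 292)) (XT.lf (nat_lit 0) (nat_lit 73233936253) (nat_lit 76) (nat_lit 12914369158) (nat_lit 76) (nat_lit 5401542261) (nat_lit 6) (nat_lit 4) (nat_lit 7) (nat_lit 5) (nat_lit 7) (nat_lit 4) (nat_lit 400) (nat_lit 329) (nat_lit 291)))) (XT.nd (nat_lit 78) (nat_lit 0) (nat_lit 0) (XT.lf (nat_lit 0) (nat_lit 641571369) (nat_lit 76) (nat_lit 3351585978) (nat_lit 152) (nat_lit 94372365200) (nat_lit 4) (nat_lit 5) (nat_lit 5) (nat_lit 5) (nat_lit 6) (nat_lit 4) (nat_lit 401) (nat_lit 329) (nat_lit 290)) (XT.nd (nat_lit 78) (nat_lit 0) (nat_lit 0) (XT.lf (nat_lit 0) (nat_lit 14311401670) (nat_lit 152) (nat_lit 84294151531) (nat_lit 0) (nat_lit 7098414380) (nat_lit 4) (nat_lit 5) (nat_lit 6) (nat_lit 4) (nat_lit 4) (nat_lit 4) (nat_lit 402) (nat_lit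 329) (nat_lit 289)) (XT.lf (nat_lit 0) (nat_lit 25442621644) (nat_lit 152) (nat_lit 69983641212) (nat_lit 0) (nat_lit 18203853524) (nat_lit 4) (nat_lit 5) (nat_lit 6) (nat_lit 4) (nat_lit 4) (nat_lit 4) (nat_lit 403) (nat_lit 329) (nat_lit 288))))))) (XT.nd (nat_lit 936) (nat_lit 152) (nat_lit 0) (XT.nd (nat_lit 468) (nat_lit 0) (nat_lit 0) (XT.nd (nat_lit 234) (nat_lit 76) (nat_lit 0) (XT.nd (nat_lit 78) (nat_lit 0) (nat_lit 0) (XT.lf (nat_lit 0) (nat_lit 37400452404) (nat_lit 152) (nat_lit 54655289548) (nat_lit 0) (nat_lit 30137813146) (nat_lit 4) (nat_lit 5) (nat_lit 6) (nat_lit 4) (nat_lit 4) (nat_lit 4) (nat_lit 404) (nat_lit 329) (nat_lit 287)) (XT.nd (nat_lit 78) (nat_lit 0) (nat_lit 0) (XT.lf (nat_lit 0) (nat_lit 50255755170) (nat_lit 152) (nat_lit 38218261863) (nat_lit 0) (nat_lit 42971013005) (nat_lit 4) (nat_lit 5) (nat_lit 6) (nat_lit 4) (nat_lit 4) (nat_lit 4) (nat_lit 405) (nat_lit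 329) (nat_lit 286)) (XT.lf (nat_lit 0) (nat_lit 64084709513) (nat_lit 152) (nat_lit 20575153547) (nat_lit 0) (nat_lit 56779501695) (nat_lit 4) (nat_lit 5) (nat_lit 6) (nat_lit 4) (nat_lit 4) (nat_lit 4) (nat_lit 406) (nat_lit 329) (nat_lit 285)))) (XT.nd (nat_lit 78) (nat_lit 76) (nat_lit 0) (XT.lf (nat_lit 0) (nat_lit 78969264793) (nat_lit 152) (nat_lit 1621412848) (nat_lit 0) (nat_lit 71645107296) (nat_lit 4) (nat_lit 5) (nat_lit 6) (nat_lit 4) (nat_lit 4) (nat_lit 4) (nat_lit 407) (nat_lit 329) (nat_lit 284)) (XT.nd (nat_lit 78) (nat_lit 0) (nat_lit 0) (XT.lf (nat_lit 0) (nat_lit 19375412911) (nat_lit 76) (nat_lit 75924717365) (nat_lit 76) (nat_lit 68583013869) (nat_lit 3) (nat_lit 4) (nat_lit 4) (nat_lit 5) (nat_lit 4) (nat_lit 4) (nat_lit 408) (nat_lit 329) (nat_lit 283)) (XT.lf (nat_lit 0) (nat_lit 42020593261) (nat_lit 76) (nat_lit 70900241321) (nat_lit 76) (nat_lit 63542291529) (nat_lit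 3) (nat_lit 4) (nat_lit 4) (nat_lit 5) (nat_lit 4) (nat_lit 4) (nat_lit 409) (nat_lit 329) (nat_lit 282))))) (XT.nd (nat_lit 234) (nat_lit 0) (nat_lit 0) (XT.nd (nat_lit 78) (nat_lit 0) (nat_lit 0) (XT.lf (nat_lit 0) (nat_lit 66394710630) (nat_lit 76) (nat_lit 65514934248) (nat_lit 76) (nat_lit 58141941589) (nat_lit 3) (nat_lit 4) (nat_lit 4) (nat_lit 5) (nat_lit 4) (nat_lit 4) (nat_lit 410) (nat_lit 329) (nat_lit 281)) (XT.nd (nat_lit 78) (nat_lit 0) (nat_lit 0) (XT.lf (nat_lit 0) (nat_lit 92642204233) (nat_lit 76) (nat_lit 59736883214) (nat_lit 76) (nat_lit 52349961976) (nat_lit 3) (nat_lit 4) (nat_lit 4) (nat_lit 5) (nat_lit 4) (nat_lit 4) (nat_lit 411) (nat_lit 329) (nat_lit 280)) (XT.lf (nat_lit 0) (nat_lit 120918614772) (nat_lit 76) (nat_lit 53531847919) (nat_lit 76) (nat_lit 46132029847) (nat_lit 3) (nat_lit 4) (nat_lit 4) (nat_lit 5) (nat_lit 4) (nat_lit 4) (nat_lit 412) (nat_lit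 329) (nat_lit 279)))) (XT.nd (nat_lit 78) (nat_lit 0) (nat_lit 0) (XT.lf (nat_lit 0) (nat_lit 151391506162) (nat_lit 76) (nat_lit 46863057781) (nat_lit 76) (nat_lit 39451298197) (nat_lit 3) (nat_lit 4) (nat_lit 4) (nat_lit 5) (nat_lit 4) (nat_lit 4) (nat_lit 413) (nat_lit 329) (nat_lit 278)) (XT.nd (nat_lit 78) (nat_lit 0) (nat_lit 0) (XT.lf (nat_lit 0) (nat_lit 184241458500) (nat_lit 76) (nat_lit 39690994045) (nat_lit 76) (nat_lit 32268177505) (nat_lit 3) (nat_lit 4) (nat_lit 4) (nat_lit 5) (nat_lit 4) (nat_lit 4) (nat_lit 414) (nat_lit 329) (nat_lit 277)) (XT.lf (nat_lit 0) (nat_lit 219663138169) (nat_lit 76) (nat_lit 31973155592) (nat_lit 76) (nat_lit 24540101130) (nat_lit 3) (nat_lit 4) (nat_lit 4) (nat_lit 5) (nat_lit 4) (nat_lit 4) (nat_lit 415) (nat_lit 329) (nat_lit 276)))))) (XT.nd (nat_lit 468) (nat_lit 0) (nat_lit 0) (XT.nd (nat_lit 234) (nat_lit 76) (nat_lit 0) (XT.nd (nat_lit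 78) (nat_lit 76) (nat_lit 0) (XT.lf (nat_lit 0) (nat_lit 257866451421) (nat_lit 76) (nat_lit 23663807083) (nat_lit 76) (nat_lit 16221273064) (nat_lit 3) (nat_lit 4) (nat_lit 4) (nat_lit 5) (nat_lit 4) (nat_lit 4) (nat_lit 416) (nat_lit 329) (nat_lit 275)) (XT.nd (nat_lit 78) (nat_lit 76) (nat_lit 0) (XT.lf (nat_lit 0) (nat_lit 299077788258) (nat_lit 76) (nat_lit 14713707935) (nat_lit 76) (nat_lit 7262396547) (nat_lit 3) (nat_lit 4) (nat_lit 4) (nat_lit 5) (nat_lit 4) (nat_lit 4) (nat_lit 417) (nat_lit 329) (nat_lit 274)) (XT.lf (nat_lit 0) (nat_lit 2313135355) (nat_lit 152) (nat_lit 2717511100) (nat_lit 76) (nat_lit 341189054590) (nat_lit 2) (nat_lit 5) (nat_lit 4) (nat_lit 5) (nat_lit 3) (nat_lit 4) (nat_lit 418) (nat_lit 329) (nat_lit 273)))) (XT.nd (nat_lit 78) (nat_lit 0) (nat_lit 0) (XT.lf (nat_lit 0) (nat_lit 12762682793) (nat_lit 152) (nat_lit 354960730205) (nat_lit 0) (nat_lit 5651288737)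 (nat_lit 1) (nat_lit 5) (nat_lit 3) (nat_lit 4) (nat_lit 1) (nat_lit 4) (nat_lit 419) (nat_lit 329) (nat_lit 272)) (XT.nd (nat_lit 78) (nat_lit 0) (nat_lit 0) (XT.lf (nat_lit 0) (nat_lit 24160629817) (nat_lit 152) (nat_lit 361493252091) (nat_lit 0) (nat_lit 17042599801) (nat_lit 1) (nat_lit 5) (nat_lit 3) (nat_lit 4) (nat_lit 1) (nat_lit 4) (nat_lit 420) (nat_lit 329) (nat_lit 271)) (XT.lf (nat_lit 0) (nat_lit 36451427966) (nat_lit 152) (nat_lit 368586272752) (nat_lit 0) (nat_lit 29327253543) (nat_lit 1) (nat_lit 5) (nat_lit 3) (nat_lit 4) (nat_lit 1) (nat_lit 4) (nat_lit 421) (nat_lit 329) (nat_lit 270))))) (XT.nd (nat_lit 234) (nat_lit 0) (nat_lit 0) (XT.nd (nat_lit 78) (nat_lit 0) (nat_lit 0) (XT.lf (nat_lit 0) (nat_lit 49707911600) (nat_lit 152) (nat_lit 376281824901) (nat_lit 0) (nat_lit 42578047911) (nat_lit 1) (nat_lit 5) (nat_lit 3) (nat_lit 4) (nat_lit 1) (nat_lit 4) (nat_lit 422)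 (nat_lit 329) (nat_lit 269)) (XT.nd (nat_lit 78) (nat_lit 0) (nat_lit 0) (XT.lf (nat_lit 0) (nat_lit 64008637657) (nat_lit 152) (nat_lit 384625511810) (nat_lit 0) (nat_lit 56873506130) (nat_lit 1) (nat_lit 5) (nat_lit 3) (nat_lit 4) (nat_lit 1) (nat_lit 4) (nat_lit 423) (nat_lit 329) (nat_lit 268)) (XT.lf (nat_lit 0) (nat_lit 79438351182) (nat_lit 152) (nat_lit 393666777551) (nat_lit 0) (nat_lit 72298342026) (nat_lit 1) (nat_lit 5) (nat_lit 3) (nat_lit 4) (nat_lit 1) (nat_lit 4) (nat_lit 424) (nat_lit 329) (nat_lit 267)))) (XT.nd (nat_lit 156) (nat_lit 0) (nat_lit 0) (XT.nd (nat_lit 78) (nat_lit 0) (nat_lit 0) (XT.lf (nat_lit 0) (nat_lit 96088487514) (nat_lit 152) (nat_lit 403459199993) (nat_lit 0) (nat_lit 88943962036) (nat_lit 1) (nat_lit 5) (nat_lit 3) (nat_lit 4) (nat_lit 1) (nat_lit 4) (nat_lit 425) (nat_lit 329) (nat_lit 266)) (XT.lf (nat_lit 0) (nat_lit 114057714128) (nat_lit 152)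 (nat_lit 414060808308) (nat_lit 0) (nat_lit 106909006869) (nat_lit 1) (nat_lit 5) (nat_lit 3) (nat_lit 4) (nat_lit 1) (nat_lit 4) (nat_lit 426) (nat_lit 329) (nat_lit 265))) (XT.nd (nat_lit 78) (nat_lit 0) (nat_lit 0) (XT.lf (nat_lit 0) (nat_lit 133452515329) (nat_lit 152) (nat_lit 425534426841) (nat_lit 0) (nat_lit 126299936051) (nat_lit 1) (nat_lit 5) (nat_lit 3) (nat_lit 4) (nat_lit 1) (nat_lit 4) (nat_lit 427) (nat_lit 329) (nat_lit 264)) (XT.lf (nat_lit 0) (nat_lit 154387823272) (nat_lit 152) (nat_lit 437948047405) (nat_lit 0) (nat_lit 147231658792) (nat_lit 1) (nat_lit 5) (nat_lit 3) (nat_lit 4) (nat_lit 1) (nat_lit 4) (nat_lit 428) (nat_lit 329) (nat_lit 263))))))))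
noncomputable def xc29 : XT := (XT.nd (nat_lit 49062) (nat_lit 0) (nat_lit 380) (XT.nd (nat_lit 48126) (nat_lit 0) (nat_lit 1672) (XT.nd (nat_lit 468) (nat_lit 0) (nat_lit 0) (XT.nd (nat_lit 234) (nat_lit 0) (nat_lit 0) (XT.nd (nat_lit 78) (nat_lit 0) (nat_lit 0) (XT.lf (nat_lit 0) (nat_lit 176987699043) (nat_lit 152) (nat_lit 451375232196) (nat_lit 0) (nat_lit 169828214930) (nat_lit 1) (nat_lit 5) (nat_lit 3) (nat_lit 4) (nat_lit 1) (nat_lit 4) (nat_lit 429) (nat_lit 329) (nat_lit 262)) (XT.nd (nat_lit 78) (nat_lit 0) (nat_lit 0) (XT.lf (nat_lit 0) (nat_lit 201386067829) (nat_lit 152) (nat_lit 465895549717) (nat_lit 0) (nat_lit 194223509984) (nat_lit 1) (nat_lit 5) (nat_lit 3) (nat_lit 4) (nat_lit 1) (nat_lit 4) (nat_lit 430) (nat_lit 329) (nat_lit 261)) (XT.lf (nat_lit 0) (nat_lit 227727512559) (nat_lit 152) (nat_lit 481595046293) (nat_lit 0) (nat_lit 220562108664) (nat_lit 1) (nat_lit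 5) (nat_lit 3) (nat_lit 4) (nat_lit 1) (nat_lit 4) (nat_lit 431) (nat_lit 329) (nat_lit 260)))) (XT.nd (nat_lit 78) (nat_lit 0) (nat_lit 0) (XT.lf (nat_lit 0) (nat_lit 256168130681) (nat_lit 152) (nat_lit 498566755979) (nat_lit 0) (nat_lit 249000091555) (nat_lit 1) (nat_lit 5) (nat_lit 3) (nat_lit 4) (nat_lit 1) (nat_lit 4) (nat_lit 432) (nat_lit 329) (nat_lit 259)) (XT.nd (nat_lit 78) (nat_lit 0) (nat_lit 0) (XT.lf (nat_lit 0) (nat_lit 286876459193) (nat_lit 152) (nat_lit 516911251869) (nat_lit 0) (nat_lit 279705980038) (nat_lit 1) (nat_lit 5) (nat_lit 3) (nat_lit 4) (nat_lit 1) (nat_lit 4) (nat_lit 433) (nat_lit 329) (nat_lit 258)) (XT.lf (nat_lit 0) (nat_lit 320034473373) (nat_lit 152) (nat_lit 536737242087) (nat_lit 0) (nat_lit 312861734933) (nat_lit 1) (nat_lit 5) (nat_lit 3) (nat_lit 4) (nat_lit 1) (nat_lit 4) (nat_lit 434) (nat_lit 329) (nat_lit 257))))) (XT.nd (nat_lit 47424) (nat_lit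 0) (nat_lit 3496) (XT.nd (nat_lit 47268) (nat_lit 0) (nat_lit 4256) (XT.lf (nat_lit 0) (nat_lit 355838665159) (nat_lit 152) (nat_lit 558162213982) (nat_lit 0) (nat_lit 348663834787) (nat_lit 1) (nat_lit 5) (nat_lit 3) (nat_lit 4) (nat_lit 1) (nat_lit 4) (nat_lit 435) (nat_lit 329) (nat_lit 256)) (XT.nd (nat_lit 78) (nat_lit 228) (nat_lit 0) (XT.lf (nat_lit 0) (nat_lit 476184390) (nat_lit 228) (nat_lit 3813616192) (nat_lit 0) (nat_lit 476184390) (nat_lit 60) (nat_lit 5) (nat_lit 63) (nat_lit 4) (nat_lit 60) (nat_lit 4) (nat_lit 360) (nat_lit 330) (nat_lit 330)) (XT.lf (nat_lit 0) (nat_lit 4857529560) (nat_lit 228) (nat_lit 3137305011) (nat_lit 228) (nat_lit 1879798196) (nat_lit 57) (nat_lit 4) (nat_lit 60) (nat_lit 5) (nat_lit 60) (nat_lit 4) (nat_lit 361) (nat_lit 330) (nat_lit 329)))) (XT.nd (nat_lit 78) (nat_lit 532) (nat_lit 0) (XT.lf (nat_lit 0) (nat_lit 5067815850) (nat_lit 228) (nat_lit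 2417441971) (nat_lit 0) (nat_lit 2761277776) (nat_lit 54) (nat_lit 5) (nat_lit 57) (nat_lit 4) (nat_lit 54) (nat_lit 4) (nat_lit 362) (nat_lit 330) (nat_lit 328)) (XT.nd (nat_lit 78) (nat_lit 152) (nat_lit 0) (XT.lf (nat_lit 0) (nat_lit 172930326) (nat_lit 152) (nat_lit 1537430291) (nat_lit 228) (nat_lit 8939432663) (nat_lit 49) (nat_lit 5) (nat_lit 51) (nat_lit 5) (nat_lit 52) (nat_lit 4) (nat_lit 363) (nat_lit 330) (nat_lit 327)) (XT.lf (nat_lit 0) (nat_lit 2752865523) (nat_lit 152) (nat_lit 6204475817) (nat_lit 152) (nat_lit 2124454193) (nat_lit 47) (nat_lit 4) (nat_lit 49) (nat_lit 5) (nat_lit 49) (nat_lit 4) (nat_lit 364) (nat_lit 330) (nat_lit 326)))))) (XT.nd (nat_lit 468) (nat_lit 684) (nat_lit 0) (XT.nd (nat_lit 234) (nat_lit 608) (nat_lit 0) (XT.nd (nat_lit 78) (nat_lit 304) (nat_lit 0) (XT.lf (nat_lit 0) (nat_lit 4977363595) (nat_lit 228) (nat_lit 6278389946) (nat_lit 0) (nat_lit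 293179261) (nat_lit 44) (nat_lit 5) (nat_lit 47) (nat_lit 4) (nat_lit 44) (nat_lit 4) (nat_lit 365) (nat_lit 330) (nat_lit 325)) (XT.nd (nat_lit 78) (nat_lit 76) (nat_lit 0) (XT.lf (nat_lit 0) (nat_lit 502818891) (nat_lit 228) (nat_lit 4392710656) (nat_lit 76) (nat_lit 7155956463) (nat_lit 41) (nat_lit 5) (nat_lit 44) (nat_lit 5) (nat_lit 42) (nat_lit 4) (nat_lit 366) (nat_lit 330) (nat_lit 324)) (XT.lf (nat_lit 0) (nat_lit 7852729208) (nat_lit 152) (nat_lit 2703680996) (nat_lit 0) (nat_lit 2035556735) (nat_lit 40) (nat_lit 5) (nat_lit 42) (nat_lit 4) (nat_lit 40) (nat_lit 4) (nat_lit 367) (nat_lit 330) (nat_lit 323)))) (XT.nd (nat_lit 78) (nat_lit 380) (nat_lit 0) (XT.lf (nat_lit 0) (nat_lit 2529783387) (nat_lit 228) (nat_lit 1234768832) (nat_lit 76) (nat_lit 9409254679) (nat_lit 37) (nat_lit 5) (nat_lit 40) (nat_lit 5) (nat_lit 38) (nat_lit 4) (nat_lit 368) (nat_lit 330) (nat_lit 322))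 (XT.nd (nat_lit 78) (nat_lit 304) (nat_lit 0) (XT.lf (nat_lit 0) (nat_lit 10199697098) (nat_lit 152) (nat_lit 47119108) (nat_lit 0) (nat_lit 3552304626) (nat_lit 36) (nat_lit 5) (nat_lit 38) (nat_lit 4) (nat_lit 36) (nat_lit 4) (nat_lit 369) (nat_lit 330) (nat_lit 321)) (XT.lf (nat_lit 0) (nat_lit 840363985) (nat_lit 76) (nat_lit 3052634311) (nat_lit 152) (nat_lit 10577776491) (nat_lit 32) (nat_lit 5) (nat_lit 33) (nat_lit 5) (nat_lit 34) (nat_lit 4) (nat_lit 370) (nat_lit 330) (nat_lit 320))))) (XT.nd (nat_lit 234) (nat_lit 304) (nat_lit 0) (XT.nd (nat_lit 78) (nat_lit 228) (nat_lit 0) (XT.lf (nat_lit 0) (nat_lit 1316505463) (nat_lit 152) (nat_lit 10555511536) (nat_lit 152) (nat_lit 3320595154) (nat_lit 30) (nat_lit 4) (nat_lit 32) (nat_lit 5) (nat_lit 32) (nat_lit 4) (nat_lit 371) (nat_lit 330) (nat_lit 319)) (XT.nd (nat_lit 78) (nat_lit 76) (nat_lit 0) (XT.lf (nat_lit 0) (nat_lit 1315991326)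 (nat_lit 76) (nat_lit 3051500831) (nat_lit 152) (nat_lit 11601491626) (nat_lit 28) (nat_lit 5) (nat_lit 29) (nat_lit 5) (nat_lit 30) (nat_lit 4) (nat_lit 372) (nat_lit 330) (nat_lit 318)) (XT.lf (nat_lit 0) (nat_lit 736734630) (nat_lit 76) (nat_lit 11847570602) (nat_lit 76) (nat_lit 4218991925) (nat_lit 27) (nat_lit 4) (nat_lit 28) (nat_lit 5) (nat_lit 28) (nat_lit 4) (nat_lit 373) (nat_lit 330) (nat_lit 317)))) (XT.nd (nat_lit 78) (nat_lit 228) (nat_lit 0) (XT.lf (nat_lit 0) (nat_lit 3646622249) (nat_lit 152) (nat_lit 481609779) (nat_lit 76) (nat_lit 13572607663) (nat_lit 26) (nat_lit 5) (nat_lit 28) (nat_lit 5) (nat_lit 27) (nat_lit 4) (nat_lit 374) (nat_lit 330) (nat_lit 316)) (XT.nd (nat_lit 78) (nat_lit 152) (nat_lit 0) (XT.lf (nat_lit 0) (nat_lit 12041082375) (nat_lit 152) (nat_lit 2450285248) (nat_lit 0) (nat_lit 4173033930) (nat_lit 25) (nat_lit 5) (nat_lit 27) (nat_lit 4) (nat_lit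 25) (nat_lit 4) (nat_lit 375) (nat_lit 330) (nat_lit 315)) (XT.lf (nat_lit 0) (nat_lit 1394496938) (nat_lit 152) (nat_lit 5277641429) (nat_lit 76) (nat_lit 13029988813) (nat_lit 23) (nat_lit 5) (nat_lit 25) (nat_lit 5) (nat_lit 24) (nat_lit 4) (nat_lit 376) (nat_lit 330) (nat_lit 314))))))) (XT.nd (nat_lit 936) (nat_lit 456) (nat_lit 0) (XT.nd (nat_lit 468) (nat_lit 304) (nat_lit 0) (XT.nd (nat_lit 234) (nat_lit 228) (nat_lit 0) (XT.nd (nat_lit 78) (nat_lit 228) (nat_lit 0) (XT.lf (nat_lit 0) (nat_lit 9821373218) (nat_lit 152) (nat_lit 9160268575) (nat_lit 0) (nat_lit 1835852343) (nat_lit 22) (nat_lit 5) (nat_lit 24) (nat_lit 4) (nat_lit 22) (nat_lit 4) (nat_lit 377) (nat_lit 330) (nat_lit 313)) (XT.nd (nat_lit 78) (nat_lit 152) (nat_lit 0) (XT.lf (nat_lit 0) (nat_lit 7775642079) (nat_lit 76) (nat_lit 11223619942) (nat_lit 76) (nat_lit 3019019028) (nat_lit 21) (nat_lit 4) (nat_lit 22) (nat_lit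 5) (nat_lit 22) (nat_lit 4) (nat_lit 378) (nat_lit 330) (nat_lit 312)) (XT.lf (nat_lit 0) (nat_lit 2615715225) (nat_lit 76) (nat_lit 2761439911) (nat_lit 152) (nat_lit 17935635902) (nat_lit 19) (nat_lit 5) (nat_lit 20) (nat_lit 5) (nat_lit 21) (nat_lit 4) (nat_lit 379) (nat_lit 330) (nat_lit 311)))) (XT.nd (nat_lit 78) (nat_lit 228) (nat_lit 0) (XT.lf (nat_lit 0) (nat_lit 14457153347) (nat_lit 152) (nat_lit 3974192610) (nat_lit 0) (nat_lit 6271173702) (nat_lit 19) (nat_lit 5) (nat_lit 21) (nat_lit 4) (nat_lit 19) (nat_lit 4) (nat_lit 380) (nat_lit 330) (nat_lit 310)) (XT.nd (nat_lit 78) (nat_lit 152) (nat_lit 0) (XT.lf (nat_lit 0) (nat_lit 14071322871) (nat_lit 76) (nat_lit 10240659270) (nat_lit 76) (nat_lit 1889048387) (nat_lit 18) (nat_lit 4) (nat_lit 19) (nat_lit 5) (nat_lit 19) (nat_lit 4) (nat_lit 381) (nat_lit 330) (nat_lit 309)) (XT.lf (nat_lit 0) (nat_lit 5543510667) (nat_lit 76)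 (nat_lit 1309408263) (nat_lit 152) (nat_lit 20963678679) (nat_lit 16) (nat_lit 5) (nat_lit 17) (nat_lit 5) (nat_lit 18) (nat_lit 4) (nat_lit 382) (nat_lit 330) (nat_lit 308))))) (XT.nd (nat_lit 234) (nat_lit 76) (nat_lit 0) (XT.nd (nat_lit 78) (nat_lit 228) (nat_lit 0) (XT.lf (nat_lit 0) (nat_lit 16369103287) (nat_lit 152) (nat_lit 5049838267) (nat_lit 0) (nat_lit 8133888782) (nat_lit 16) (nat_lit 5) (nat_lit 18) (nat_lit 4) (nat_lit 16) (nat_lit 4) (nat_lit 383) (nat_lit 330) (nat_lit 307)) (XT.nd (nat_lit 78) (nat_lit 152) (nat_lit 0) (XT.lf (nat_lit 0) (nat_lit 13596534831) (nat_lit 76) (nat_lit 13094822102) (nat_lit 76) (nat_lit 4734385295) (nat_lit 15) (nat_lit 4) (nat_lit 16) (nat_lit 5) (nat_lit 16) (nat_lit 4) (nat_lit 384) (nat_lit 330) (nat_lit 306)) (XT.lf (nat_lit 0) (nat_lit 44333090) (nat_lit 76) (nat_lit 4112113969) (nat_lit 152) (nat_lit 29293325313) (nat_lit 13) (nat_lit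 5) (nat_lit 14) (nat_lit 5) (nat_lit 15) (nat_lit 4) (nat_lit 385) (nat_lit 330) (nat_lit 305)))) (XT.nd (nat_lit 78) (nat_lit 76) (nat_lit 0) (XT.lf (nat_lit 0) (nat_lit 13819485508) (nat_lit 152) (nat_lit 16156540275) (nat_lit 0) (nat_lit 5644493772) (nat_lit 13) (nat_lit 5) (nat_lit 15) (nat_lit 4) (nat_lit 13) (nat_lit 4) (nat_lit 386) (nat_lit 330) (nat_lit 304)) (XT.nd (nat_lit 78) (nat_lit 0) (nat_lit 0) (XT.lf (nat_lit 0) (nat_lit 2148942976) (nat_lit 76) (nat_lit 22044386805) (nat_lit 76) (nat_lit 13774723165) (nat_lit 12) (nat_lit 4) (nat_lit 13) (nat_lit 5) (nat_lit 13) (nat_lit 4) (nat_lit 387) (nat_lit 330) (nat_lit 303)) (XT.lf (nat_lit 0) (nat_lit 22187067381) (nat_lit 76) (nat_lit 13333735924) (nat_lit 76) (nat_lit 4976413112) (nat_lit 12) (nat_lit 4) (nat_lit 13) (nat_lit 5) (nat_lit 13) (nat_lit 4) (nat_lit 388) (nat_lit 330) (nat_lit 302)))))) (XT.nd (nat_lit 468) (nat_lit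 152) (nat_lit 0) (XT.nd (nat_lit 234) (nat_lit 152) (nat_lit 0) (XT.nd (nat_lit 78) (nat_lit 0) (nat_lit 0) (XT.lf (nat_lit 0) (nat_lit 245948348) (nat_lit 76) (nat_lit 3990362412) (nat_lit 152) (nat_lit 38996111029) (nat_lit 10) (nat_lit 5) (nat_lit 11) (nat_lit 5) (nat_lit 12) (nat_lit 4) (nat_lit 389) (nat_lit 330) (nat_lit 301)) (XT.nd (nat_lit 78) (nat_lit 0) (nat_lit 0) (XT.lf (nat_lit 0) (nat_lit 14289544689) (nat_lit 152) (nat_lit 25697624914) (nat_lit 0) (nat_lit 6181313906) (nat_lit 10) (nat_lit 5) (nat_lit 12) (nat_lit 4) (nat_lit 10) (nat_lit 4) (nat_lit 390) (nat_lit 330) (nat_lit 300)) (XT.lf (nat_lit 0) (nat_lit 25081067737) (nat_lit 152) (nat_lit 7355107179) (nat_lit 0) (nat_lit 16906563930) (nat_lit 10) (nat_lit 5) (nat_lit 12) (nat_lit 4) (nat_lit 10) (nat_lit 4) (nat_lit 391) (nat_lit 330) (nat_lit 299)))) (XT.nd (nat_lit 78) (nat_lit 76) (nat_lit 0) (XT.lf (nat_lit 0)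 (nat_lit 12615863316) (nat_lit 76) (nat_lit 24193634597) (nat_lit 76) (nat_lit 15957766878) (nat_lit 9) (nat_lit 4) (nat_lit 10) (nat_lit 5) (nat_lit 10) (nat_lit 4) (nat_lit 392) (nat_lit 330) (nat_lit 298)) (XT.nd (nat_lit 78) (nat_lit 76) (nat_lit 0) (XT.lf (nat_lit 0) (nat_lit 34214973857) (nat_lit 76) (nat_lit 15271480629) (nat_lit 76) (nat_lit 6978794473) (nat_lit 9) (nat_lit 4) (nat_lit 10) (nat_lit 5) (nat_lit 10) (nat_lit 4) (nat_lit 393) (nat_lit 330) (nat_lit 297)) (XT.lf (nat_lit 0) (nat_lit 2520551709) (nat_lit 152) (nat_lit 3178164816) (nat_lit 76) (nat_lit 54763787638) (nat_lit 8) (nat_lit 5) (nat_lit 10) (nat_lit 5) (nat_lit 9) (nat_lit 4) (nat_lit 394) (nat_lit 330) (nat_lit 296))))) (XT.nd (nat_lit 234) (nat_lit 76) (nat_lit 0) (XT.nd (nat_lit 78) (nat_lit 0) (nat_lit 0) (XT.lf (nat_lit 0) (nat_lit 12789027613) (nat_lit 152) (nat_lit 47177380907) (nat_lit 0) (nat_lit 4794733830)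 (nat_lit 7) (nat_lit 5) (nat_lit 9) (nat_lit 4) (nat_lit 7) (nat_lit 4) (nat_lit 395) (nat_lit 330) (nat_lit 295)) (XT.nd (nat_lit 78) (nat_lit 0) (nat_lit 0) (XT.lf (nat_lit 0) (nat_lit 23931717243) (nat_lit 152) (nat_lit 29574857203) (nat_lit 0) (nat_lit 15894466977) (nat_lit 7) (nat_lit 5) (nat_lit 9) (nat_lit 4) (nat_lit 7) (nat_lit 4) (nat_lit 396) (nat_lit 330) (nat_lit 294)) (XT.lf (nat_lit 0) (nat_lit 35873577354) (nat_lit 152) (nat_lit 10746620857) (nat_lit 0) (nat_lit 27796552566) (nat_lit 7) (nat_lit 5) (nat_lit 9) (nat_lit 4) (nat_lit 7) (nat_lit 4) (nat_lit 397) (nat_lit 330) (nat_lit 293)))) (XT.nd (nat_lit 156) (nat_lit 0) (nat_lit 0) (XT.nd (nat_lit 78) (nat_lit 0) (nat_lit 0) (XT.lf (nat_lit 0) (nat_lit 9730334327) (nat_lit 76) (nat_lit 39106957984) (nat_lit 76) (nat_lit 30993104936) (nat_lit 6) (nat_lit 4) (nat_lit 7) (nat_lit 5) (nat_lit 7) (nat_lit 4) (nat_lit 398) (nat_lit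 330) (nat_lit 292)) (XT.lf (nat_lit 0) (nat_lit 32067576055) (nat_lit 76) (nat_lit 30876119189) (nat_lit 76) (nat_lit 22728165899) (nat_lit 6) (nat_lit 4) (nat_lit 7) (nat_lit 5) (nat_lit 7) (nat_lit 4) (nat_lit 399) (nat_lit 330) (nat_lit 291))) (XT.nd (nat_lit 78) (nat_lit 0) (nat_lit 0) (XT.lf (nat_lit 0) (nat_lit 56042141348) (nat_lit 76) (nat_lit 22060905709) (nat_lit 76) (nat_lit 13881378122) (nat_lit 6) (nat_lit 4) (nat_lit 7) (nat_lit 5) (nat_lit 7) (nat_lit 4) (nat_lit 400) (nat_lit 330) (nat_lit 290)) (XT.lf (nat_lit 0) (nat_lit 81796101703) (nat_lit 76) (nat_lit 12609079243) (nat_lit 76) (nat_lit 4400316195) (nat_lit 6) (nat_lit 4) (nat_lit 7) (nat_lit 5) (nat_lit 7) (nat_lit 4) (nat_lit 401) (nat_lit 330) (nat_lit 289))))))))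
noncomputable def xc30 : XT := (XT.nd (nat_lit 1872) (nat_lit 0) (nat_lit 0) (XT.nd (nat_lit 936) (nat_lit 152) (nat_lit 0) (XT.nd (nat_lit 468) (nat_lit 76) (nat_lit 0) (XT.nd (nat_lit 234) (nat_lit 0) (nat_lit 0) (XT.nd (nat_lit 78) (nat_lit 0) (nat_lit 0) (XT.lf (nat_lit 0) (nat_lit 3322821350) (nat_lit 76) (nat_lit 2315546585) (nat_lit 152) (nat_lit 100530031100) (nat_lit 4) (nat_lit 5) (nat_lit 5) (nat_lit 5) (nat_lit 6) (nat_lit 4) (nat_lit 402) (nat_lit 330) (nat_lit 288)) (XT.nd (nat_lit 78) (nat_lit 0) (nat_lit 0) (XT.lf (nat_lit 0) (nat_lit 16702720925) (nat_lit 152) (nat_lit 88559972638) (nat_lit 0) (nat_lit 8835199387) (nat_lit 4) (nat_lit 5) (nat_lit 6) (nat_lit 4) (nat_lit 4) (nat_lit 4) (nat_lit 403) (nat_lit 330) (nat_lit 287)) (XT.lf (nat_lit 0) (nat_lit 28632112043) (nat_lit 152) (nat_lit 73288155643) (nat_lit 0) (nat_lit 20742487600) (nat_lit 4) (nat_lit 5) (nat_lit 6)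 (nat_lit 4) (nat_lit 4) (nat_lit 4) (nat_lit 404) (nat_lit 330) (nat_lit 286)))) (XT.nd (nat_lit 78) (nat_lit 0) (nat_lit 0) (XT.lf (nat_lit 0) (nat_lit 41461081807) (nat_lit 152) (nat_lit 56903474873) (nat_lit 0) (nat_lit 33550991710) (nat_lit 4) (nat_lit 5) (nat_lit 6) (nat_lit 4) (nat_lit 4) (nat_lit 4) (nat_lit 405) (nat_lit 330) (nat_lit 285)) (XT.nd (nat_lit 78) (nat_lit 0) (nat_lit 0) (XT.lf (nat_lit 0) (nat_lit 55265653741) (nat_lit 152) (nat_lit 39308835924) (nat_lit 0) (nat_lit 47336613965) (nat_lit 4) (nat_lit 5) (nat_lit 6) (nat_lit 4) (nat_lit 4) (nat_lit 4) (nat_lit 406) (nat_lit 330) (nat_lit 284)) (XT.lf (nat_lit 0) (nat_lit 70127632716) (nat_lit 152) (nat_lit 20399974268) (nat_lit 0) (nat_lit 62181046941) (nat_lit 4) (nat_lit 5) (nat_lit 6) (nat_lit 4) (nat_lit 4) (nat_lit 4) (nat_lit 407) (nat_lit 330) (nat_lit 283))))) (XT.nd (nat_lit 234) (nat_lit 0) (nat_lit 0) (XT.nd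 (nat_lit 78) (nat_lit 76) (nat_lit 0) (XT.lf (nat_lit 0) (nat_lit 86135089719) (nat_lit 152) (nat_lit 64837392) (nat_lit 0) (nat_lit 78172257648) (nat_lit 4) (nat_lit 5) (nat_lit 6) (nat_lit 4) (nat_lit 4) (nat_lit 4) (nat_lit 408) (nat_lit 330) (nat_lit 282)) (XT.nd (nat_lit 78) (nat_lit 0) (nat_lit 0) (XT.lf (nat_lit 0) (nat_lit 22538450386) (nat_lit 76) (nat_lit 81196321743) (nat_lit 76) (nat_lit 73218446805) (nat_lit 3) (nat_lit 4) (nat_lit 4) (nat_lit 5) (nat_lit 4) (nat_lit 4) (nat_lit 409) (nat_lit 330) (nat_lit 281)) (XT.lf (nat_lit 0) (nat_lit 46875763353) (nat_lit 76) (nat_lit 75829322653) (nat_lit 76) (nat_lit 67837519136) (nat_lit 3) (nat_lit 4) (nat_lit 4) (nat_lit 5) (nat_lit 4) (nat_lit 4) (nat_lit 410) (nat_lit 330) (nat_lit 280)))) (XT.nd (nat_lit 78) (nat_lit 0) (nat_lit 0) (XT.lf (nat_lit 0) (nat_lit 73089178806) (nat_lit 76) (nat_lit 70068223456) (nat_lit 76) (nat_lit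 62063523106) (nat_lit 3) (nat_lit 4) (nat_lit 4) (nat_lit 5) (nat_lit 4) (nat_lit 4) (nat_lit 411) (nat_lit 330) (nat_lit 279)) (XT.nd (nat_lit 78) (nat_lit 0) (nat_lit 0) (XT.lf (nat_lit 0) (nat_lit 101334035503) (nat_lit 76) (nat_lit 63878884306) (nat_lit 76) (nat_lit 55862242443) (nat_lit 3) (nat_lit 4) (nat_lit 4) (nat_lit 5) (nat_lit 4) (nat_lit 4) (nat_lit 412) (nat_lit 330) (nat_lit 278)) (XT.lf (nat_lit 0) (nat_lit 131777710371) (nat_lit 76) (nat_lit 57224627636) (nat_lit 76) (nat_lit 49196928817) (nat_lit 3) (nat_lit 4) (nat_lit 4) (nat_lit 5) (nat_lit 4) (nat_lit 4) (nat_lit 413) (nat_lit 330) (nat_lit 277)))))) (XT.nd (nat_lit 468) (nat_lit 76) (nat_lit 0) (XT.nd (nat_lit 234) (nat_lit 76) (nat_lit 0) (XT.nd (nat_lit 78) (nat_lit 0) (nat_lit 0) (XT.lf (nat_lit 0) (nat_lit 164600610375) (nat_lit 76) (nat_lit 50066020814) (nat_lit 76) (nat_lit 42028084073) (nat_lit 3) (nat_lit 4)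 (nat_lit 4) (nat_lit 5) (nat_lit 4) (nat_lit 4) (nat_lit 414) (nat_lit 330) (nat_lit 276)) (XT.nd (nat_lit 78) (nat_lit 0) (nat_lit 0) (XT.lf (nat_lit 0) (nat_lit 199997241587) (nat_lit 76) (nat_lit 42360642467) (nat_lit 76) (nat_lit 34313226168) (nat_lit 3) (nat_lit 4) (nat_lit 4) (nat_lit 5) (nat_lit 4) (nat_lit 4) (nat_lit 415) (nat_lit 330) (nat_lit 275)) (XT.lf (nat_lit 0) (nat_lit 238177361822) (nat_lit 76) (nat_lit 34062831094) (nat_lit 76) (nat_lit 26006637427) (nat_lit 3) (nat_lit 4) (nat_lit 4) (nat_lit 5) (nat_lit 4) (nat_lit 4) (nat_lit 416) (nat_lit 330) (nat_lit 274)))) (XT.nd (nat_lit 78) (nat_lit 76) (nat_lit 0) (XT.lf (nat_lit 0) (nat_lit 279367223645) (nat_lit 76) (nat_lit 25123414478) (nat_lit 76) (nat_lit 17059093619) (nat_lit 3) (nat_lit 4) (nat_lit 4) (nat_lit 5) (nat_lit 4) (nat_lit 4) (nat_lit 417) (nat_lit 330) (nat_lit 273)) (XT.nd (nat_lit 78) (nat_lit 76) (nat_lit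 0) (XT.lf (nat_lit 0) (nat_lit 323810915125) (nat_lit 76) (nat_lit 15489418300) (nat_lit 76) (nat_lit 7417572262) (nat_lit 3) (nat_lit 4) (nat_lit 4) (nat_lit 5) (nat_lit 4) (nat_lit 4) (nat_lit 418) (nat_lit 330) (nat_lit 272)) (XT.lf (nat_lit 0) (nat_lit 2879841033) (nat_lit 152) (nat_lit 2175139675) (nat_lit 76) (nat_lit 368843193751) (nat_lit 2) (nat_lit 5) (nat_lit 4) (nat_lit 5) (nat_lit 3) (nat_lit 4) (nat_lit 419) (nat_lit 330) (nat_lit 271))))) (XT.nd (nat_lit 234) (nat_lit 0) (nat_lit 0) (XT.nd (nat_lit 78) (nat_lit 0) (nat_lit 0) (XT.lf (nat_lit 0) (nat_lit 14154080386) (nat_lit 152) (nat_lit 382618232287) (nat_lit 0) (nat_lit 6453827602) (nat_lit 1) (nat_lit 5) (nat_lit 3) (nat_lit 4) (nat_lit 1) (nat_lit 4) (nat_lit 420) (nat_lit 330) (nat_lit 270)) (XT.nd (nat_lit 78) (nat_lit 0) (nat_lit 0) (XT.lf (nat_lit 0) (nat_lit 26436427396) (nat_lit 152) (nat_lit 389728123060) (nat_lit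 0) (nat_lit 18730485347) (nat_lit 1) (nat_lit 5) (nat_lit 3) (nat_lit 4) (nat_lit 1) (nat_lit 4) (nat_lit 421) (nat_lit 330) (nat_lit 269)) (XT.lf (nat_lit 0) (nat_lit 39685085902) (nat_lit 152) (nat_lit 397439295685) (nat_lit 0) (nat_lit 31973876013) (nat_lit 1) (nat_lit 5) (nat_lit 3) (nat_lit 4) (nat_lit 1) (nat_lit 4) (nat_lit 422) (nat_lit 330) (nat_lit 268)))) (XT.nd (nat_lit 78) (nat_lit 0) (nat_lit 0) (XT.lf (nat_lit 0) (nat_lit 53978566470) (nat_lit 152) (nat_lit 405797445997) (nat_lit 0) (nat_lit 46262478953) (nat_lit 1) (nat_lit 5) (nat_lit 3) (nat_lit 4) (nat_lit 1) (nat_lit 4) (nat_lit 423) (nat_lit 330) (nat_lit 267)) (XT.nd (nat_lit 78) (nat_lit 0) (nat_lit 0) (XT.lf (nat_lit 0) (nat_lit 69401571209) (nat_lit 152) (nat_lit 414852103778) (nat_lit 0) (nat_lit 61680967369) (nat_lit 1) (nat_lit 5) (nat_lit 3) (nat_lit 4) (nat_lit 1) (nat_lit 4) (nat_lit 424) (nat_lit 330) (nat_lit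 266)) (XT.lf (nat_lit 0) (nat_lit 86045495702) (nat_lit 152) (nat_lit 424656926257) (nat_lit 0) (nat_lit 78320710082) (nat_lit 1) (nat_lit 5) (nat_lit 3) (nat_lit 4) (nat_lit 1) (nat_lit 4) (nat_lit 425) (nat_lit 330) (nat_lit 265))))))) (XT.nd (nat_lit 47970) (nat_lit 0) (nat_lit 2128) (XT.nd (nat_lit 468) (nat_lit 0) (nat_lit 0) (XT.nd (nat_lit 234) (nat_lit 0) (nat_lit 0) (XT.nd (nat_lit 78) (nat_lit 0) (nat_lit 0) (XT.lf (nat_lit 0) (nat_lit 104008970613) (nat_lit 152) (nat_lit 435270016088) (nat_lit 0) (nat_lit 96280312974) (nat_lit 1) (nat_lit 5) (nat_lit 3) (nat_lit 4) (nat_lit 1) (nat_lit 4) (nat_lit 426) (nat_lit 330) (nat_lit 264)) (XT.nd (nat_lit 78) (nat_lit 0) (nat_lit 0) (XT.lf (nat_lit 0) (nat_lit 123398446163) (nat_lit 152) (nat_lit 446754265653) (nat_lit 0) (nat_lit 115666203322) (nat_lit 1) (nat_lit 5) (nat_lit 3) (nat_lit 4) (nat_lit 1) (nat_lit 4) (nat_lit 427) (nat_lit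 330) (nat_lit 263)) (XT.lf (nat_lit 0) (nat_lit 144328822949) (nat_lit 152) (nat_lit 459177729766) (nat_lit 0) (nat_lit 136593260475) (nat_lit 1) (nat_lit 5) (nat_lit 3) (nat_lit 4) (nat_lit 1) (nat_lit 4) (nat_lit 428) (nat_lit 330) (nat_lit 262)))) (XT.nd (nat_lit 78) (nat_lit 0) (nat_lit 0) (XT.lf (nat_lit 0) (nat_lit 166924132832) (nat_lit 152) (nat_lit 472614028955) (nat_lit 0) (nat_lit 159185496625) (nat_lit 1) (nat_lit 5) (nat_lit 3) (nat_lit 4) (nat_lit 1) (nat_lit 4) (nat_lit 429) (nat_lit 330) (nat_lit 261)) (XT.nd (nat_lit 78) (nat_lit 0) (nat_lit 0) (XT.lf (nat_lit 0) (nat_lit 191318273946) (nat_lit 152) (nat_lit 487142785732) (nat_lit 0) (nat_lit 183576791689) (nat_lit 1) (nat_lit 5) (nat_lit 3) (nat_lit 4) (nat_lit 1) (nat_lit 4) (nat_lit 430) (nat_lit 330) (nat_lit 260)) (XT.lf (nat_lit 0) (nat_lit 217655804163) (nat_lit 152) (nat_lit 502850096435) (nat_lit 0) (nat_lit 209911686676)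 (nat_lit 1) (nat_lit 5) (nat_lit 3) (nat_lit 4) (nat_lit 1) (nat_lit 4) (nat_lit 431) (nat_lit 330) (nat_lit 259))))) (XT.nd (nat_lit 234) (nat_lit 0) (nat_lit 0) (XT.nd (nat_lit 78) (nat_lit 0) (nat_lit 0) (XT.lf (nat_lit 0) (nat_lit 246092797737) (nat_lit 152) (nat_lit 519829041424) (nat_lit 0) (nat_lit 238346240221) (nat_lit 1) (nat_lit 5) (nat_lit 3) (nat_lit 4) (nat_lit 1) (nat_lit 4) (nat_lit 432) (nat_lit 330) (nat_lit 258)) (XT.nd (nat_lit 78) (nat_lit 0) (nat_lit 0) (XT.lf (nat_lit 0) (nat_lit 276797770185) (nat_lit 152) (nat_lit 538180236668) (nat_lit 0) (nat_lit 269048953383) (nat_lit 1) (nat_lit 5) (nat_lit 3) (nat_lit 4) (nat_lit 1) (nat_lit 4) (nat_lit 433) (nat_lit 330) (nat_lit 257)) (XT.lf (nat_lit 0) (nat_lit 309952676900) (nat_lit 152) (nat_lit 558012429991) (nat_lit 0) (nat_lit 302201768167) (nat_lit 1) (nat_lit 5) (nat_lit 3) (nat_lit 4) (nat_lit 1) (nat_lit 4) (nat_lit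 434) (nat_lit 330) (nat_lit 256)))) (XT.nd (nat_lit 47112) (nat_lit 0) (nat_lit 4940) (XT.lf (nat_lit 0) (nat_lit 345753991402) (nat_lit 152) (nat_lit 579443145503) (nat_lit 0) (nat_lit 338001145696) (nat_lit 1) (nat_lit 5) (nat_lit 3) (nat_lit 4) (nat_lit 1) (nat_lit 4) (nat_lit 435) (nat_lit 330) (nat_lit 255)) (XT.nd (nat_lit 78) (nat_lit 304) (nat_lit 0) (XT.lf (nat_lit 0) (nat_lit 2698406172) (nat_lit 228) (nat_lit 879075173) (nat_lit 228) (nat_lit 879075173) (nat_lit 70) (nat_lit 4) (nat_lit 73) (nat_lit 5) (nat_lit 73) (nat_lit 4) (nat_lit 358) (nat_lit 331) (nat_lit 331)) (XT.lf (nat_lit 0) (nat_lit 4807446822) (nat_lit 304) (nat_lit 1025316857) (nat_lit 0) (nat_lit 3381434094) (nat_lit 66) (nat_lit 5) (nat_lit 70) (nat_lit 4) (nat_lit 66) (nat_lit 4) (nat_lit 359) (nat_lit 331) (nat_lit 330)))))) (XT.nd (nat_lit 468) (nat_lit 1140) (nat_lit 0) (XT.nd (nat_lit 234) (nat_lit 760) (nat_lit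 0) (XT.nd (nat_lit 78) (nat_lit 456) (nat_lit 0) (XT.lf (nat_lit 0) (nat_lit 1578986114) (nat_lit 152) (nat_lit 530955836) (nat_lit 228) (nat_lit 7432147757) (nat_lit 60) (nat_lit 5) (nat_lit 62) (nat_lit 5) (nat_lit 63) (nat_lit 4) (nat_lit 360) (nat_lit 331) (nat_lit 329)) (XT.nd (nat_lit 78) (nat_lit 228) (nat_lit 0) (XT.lf (nat_lit 0) (nat_lit 4205771528) (nat_lit 228) (nat_lit 4734815273) (nat_lit 228) (nat_lit 954842935) (nat_lit 57) (nat_lit 4) (nat_lit 60) (nat_lit 5) (nat_lit 60) (nat_lit 4) (nat_lit 361) (nat_lit 331) (nat_lit 328)) (XT.lf (nat_lit 0) (nat_lit 5733978611) (nat_lit 228) (nat_lit 3436933196) (nat_lit 0) (nat_lit 1107234090) (nat_lit 54) (nat_lit 5) (nat_lit 57) (nat_lit 4) (nat_lit 54) (nat_lit 4) (nat_lit 362) (nat_lit 331) (nat_lit 327)))) (XT.nd (nat_lit 78) (nat_lit 532) (nat_lit 0) (XT.lf (nat_lit 0) (nat_lit 2118514325) (nat_lit 228) (nat_lit 1234503918) (nat_lit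 76) (nat_lit 7338261434) (nat_lit 51) (nat_lit 5) (nat_lit 54) (nat_lit 5) (nat_lit 52) (nat_lit 4) (nat_lit 363) (nat_lit 331) (nat_lit 326)) (XT.nd (nat_lit 78) (nat_lit 228) (nat_lit 0) (XT.lf (nat_lit 0) (nat_lit 932100328) (nat_lit 152) (nat_lit 8177146506) (nat_lit 152) (nat_lit 2026909545) (nat_lit 47) (nat_lit 4) (nat_lit 49) (nat_lit 5) (nat_lit 49) (nat_lit 4) (nat_lit 364) (nat_lit 331) (nat_lit 325)) (XT.lf (nat_lit 0) (nat_lit 3033959312) (nat_lit 152) (nat_lit 1824804870) (nat_lit 228) (nat_lit 6755159127) (nat_lit 44) (nat_lit 5) (nat_lit 46) (nat_lit 5) (nat_lit 47) (nat_lit 4) (nat_lit 365) (nat_lit 331) (nat_lit 324))))) (XT.nd (nat_lit 234) (nat_lit 608) (nat_lit 0) (XT.nd (nat_lit 78) (nat_lit 304) (nat_lit 0) (XT.lf (nat_lit 0) (nat_lit 84757468) (nat_lit 228) (nat_lit 7107462486) (nat_lit 76) (nat_lit 4936465500) (nat_lit 41) (nat_lit 5) (nat_lit 44) (nat_lit 5) (nat_lit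 42) (nat_lit 4) (nat_lit 366) (nat_lit 331) (nat_lit 323)) (XT.nd (nat_lit 78) (nat_lit 228) (nat_lit 0) (XT.lf (nat_lit 0) (nat_lit 6829182403) (nat_lit 76) (nat_lit 363126191) (nat_lit 152) (nat_lit 5489020417) (nat_lit 40) (nat_lit 5) (nat_lit 41) (nat_lit 5) (nat_lit 42) (nat_lit 4) (nat_lit 367) (nat_lit 331) (nat_lit 322)) (XT.lf (nat_lit 0) (nat_lit 1584397843) (nat_lit 228) (nat_lit 4849064804) (nat_lit 76) (nat_lit 6841311056) (nat_lit 37) (nat_lit 5) (nat_lit 40) (nat_lit 5) (nat_lit 38) (nat_lit 4) (nat_lit 368) (nat_lit 331) (nat_lit 321)))) (XT.nd (nat_lit 156) (nat_lit 304) (nat_lit 0) (XT.nd (nat_lit 78) (nat_lit 228) (nat_lit 0) (XT.lf (nat_lit 0) (nat_lit 8996908601) (nat_lit 152) (nat_lit 4123572231) (nat_lit 0) (nat_lit 792513423) (nat_lit 36) (nat_lit 5) (nat_lit 38) (nat_lit 4) (nat_lit 36) (nat_lit 4) (nat_lit 369) (nat_lit 331) (nat_lit 320)) (XT.lf (nat_lit 0) (nat_lit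 2386959253) (nat_lit 228) (nat_lit 3767508385) (nat_lit 76) (nat_lit 8442816502) (nat_lit 33) (nat_lit 5) (nat_lit 36) (nat_lit 5) (nat_lit 34) (nat_lit 4) (nat_lit 370) (nat_lit 331) (nat_lit 319))) (XT.nd (nat_lit 78) (nat_lit 228) (nat_lit 0) (XT.lf (nat_lit 0) (nat_lit 10088954188) (nat_lit 152) (nat_lit 3805902318) (nat_lit 0) (nat_lit 1438145968) (nat_lit 32) (nat_lit 5) (nat_lit 34) (nat_lit 4) (nat_lit 32) (nat_lit 4) (nat_lit 371) (nat_lit 331) (nat_lit 318)) (XT.lf (nat_lit 0) (nat_lit 2280909560) (nat_lit 228) (nat_lit 4347583635) (nat_lit 76) (nat_lit 9493643295) (nat_lit 29) (nat_lit 5) (nat_lit 32) (nat_lit 5) (nat_lit 30) (nat_lit 4) (nat_lit 372) (nat_lit 331) (nat_lit 317))))))))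
noncomputable def xc31 : XT := (XT.nd (nat_lit 1872) (nat_lit 456) (nat_lit 0) (XT.nd (nat_lit 936) (nat_lit 608) (nat_lit 0) (XT.nd (nat_lit 468) (nat_lit 532) (nat_lit 0) (XT.nd (nat_lit 234) (nat_lit 228) (nat_lit 0) (XT.nd (nat_lit 78) (nat_lit 228) (nat_lit 0) (XT.lf (nat_lit 0) (nat_lit 10222168653) (nat_lit 152) (nat_lit 5448281508) (nat_lit 0) (nat_lit 1299801717) (nat_lit 28) (nat_lit 5) (nat_lit 30) (nat_lit 4) (nat_lit 28) (nat_lit 4) (nat_lit 373) (nat_lit 331) (nat_lit 316)) (XT.nd (nat_lit 78) (nat_lit 76) (nat_lit 0) (XT.lf (nat_lit 0) (nat_lit 976409385) (nat_lit 152) (nat_lit 7224993171) (nat_lit 76) (nat_lit 9679491023) (nat_lit 26) (nat_lit 5) (nat_lit 28) (nat_lit 5) (nat_lit 27) (nat_lit 4) (nat_lit 374) (nat_lit 331) (nat_lit 315)) (XT.lf (nat_lit 0) (nat_lit 9068385369) (nat_lit 152) (nat_lit 9778409436) (nat_lit 0) (nat_lit 12804698) (nat_lit 25) (nat_lit 5) (nat_lit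 27) (nat_lit 4) (nat_lit 25) (nat_lit 4) (nat_lit 375) (nat_lit 331) (nat_lit 314)))) (XT.nd (nat_lit 78) (nat_lit 152) (nat_lit 0) (XT.lf (nat_lit 0) (nat_lit 6646520738) (nat_lit 76) (nat_lit 11283998426) (nat_lit 76) (nat_lit 1979980988) (nat_lit 24) (nat_lit 4) (nat_lit 25) (nat_lit 5) (nat_lit 25) (nat_lit 4) (nat_lit 376) (nat_lit 331) (nat_lit 313)) (XT.nd (nat_lit 78) (nat_lit 0) (nat_lit 0) (XT.lf (nat_lit 0) (nat_lit 3244785306) (nat_lit 76) (nat_lit 2988793613) (nat_lit 152) (nat_lit 14807684461) (nat_lit 22) (nat_lit 5) (nat_lit 23) (nat_lit 5) (nat_lit 24) (nat_lit 4) (nat_lit 377) (nat_lit 331) (nat_lit 312)) (XT.lf (nat_lit 0) (nat_lit 15131901068) (nat_lit 152) (nat_lit 1275142418) (nat_lit 0) (nat_lit 5849000150) (nat_lit 22) (nat_lit 5) (nat_lit 24) (nat_lit 4) (nat_lit 22) (nat_lit 4) (nat_lit 378) (nat_lit 331) (nat_lit 311))))) (XT.nd (nat_lit 234) (nat_lit 228) (nat_lit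 0) (XT.nd (nat_lit 78) (nat_lit 152) (nat_lit 0) (XT.lf (nat_lit 0) (nat_lit 1233504889) (nat_lit 152) (nat_lit 6942041717) (nat_lit 76) (nat_lit 15386720694) (nat_lit 20) (nat_lit 5) (nat_lit 22) (nat_lit 5) (nat_lit 21) (nat_lit 4) (nat_lit 379) (nat_lit 331) (nat_lit 310)) (XT.nd (nat_lit 78) (nat_lit 76) (nat_lit 0) (XT.lf (nat_lit 0) (nat_lit 10010446211) (nat_lit 152) (nat_lit 14131639592) (nat_lit 0) (nat_lit 825075220) (nat_lit 19) (nat_lit 5) (nat_lit 21) (nat_lit 4) (nat_lit 19) (nat_lit 4) (nat_lit 380) (nat_lit 331) (nat_lit 309)) (XT.lf (nat_lit 0) (nat_lit 3385334344) (nat_lit 76) (nat_lit 16216136184) (nat_lit 76) (nat_lit 6877402936) (nat_lit 18) (nat_lit 4) (nat_lit 19) (nat_lit 5) (nat_lit 19) (nat_lit 4) (nat_lit 381) (nat_lit 331) (nat_lit 308)))) (XT.nd (nat_lit 78) (nat_lit 152) (nat_lit 0) (XT.lf (nat_lit 0) (nat_lit 1843576289) (nat_lit 152) (nat_lit 5701403944) (nat_lit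 76) (nat_lit 20562396759) (nat_lit 17) (nat_lit 5) (nat_lit 19) (nat_lit 5) (nat_lit 18) (nat_lit 4) (nat_lit 382) (nat_lit 331) (nat_lit 307)) (XT.nd (nat_lit 78) (nat_lit 76) (nat_lit 0) (XT.lf (nat_lit 0) (nat_lit 11077793866) (nat_lit 152) (nat_lit 16856623645) (nat_lit 0) (nat_lit 1923299813) (nat_lit 16) (nat_lit 5) (nat_lit 18) (nat_lit 4) (nat_lit 16) (nat_lit 4) (nat_lit 383) (nat_lit 331) (nat_lit 306)) (XT.lf (nat_lit 0) (nat_lit 1230207548) (nat_lit 76) (nat_lit 19892372133) (nat_lit 76) (nat_lit 10621931506) (nat_lit 15) (nat_lit 4) (nat_lit 16) (nat_lit 5) (nat_lit 16) (nat_lit 4) (nat_lit 384) (nat_lit 331) (nat_lit 305)))))) (XT.nd (nat_lit 468) (nat_lit 228) (nat_lit 0) (XT.nd (nat_lit 234) (nat_lit 228) (nat_lit 0) (XT.nd (nat_lit 78) (nat_lit 152) (nat_lit 0) (XT.lf (nat_lit 0) (nat_lit 21040147407) (nat_lit 76) (nat_lit 11056807947) (nat_lit 76) (nat_lit 1679009380) (nat_lit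 15) (nat_lit 4) (nat_lit 16) (nat_lit 5) (nat_lit 16) (nat_lit 4) (nat_lit 385) (nat_lit 331) (nat_lit 304)) (XT.nd (nat_lit 78) (nat_lit 0) (nat_lit 0) (XT.lf (nat_lit 0) (nat_lit 6232980782) (nat_lit 76) (nat_lit 1430524022) (nat_lit 152) (nat_lit 28303237974) (nat_lit 13) (nat_lit 5) (nat_lit 14) (nat_lit 5) (nat_lit 15) (nat_lit 4) (nat_lit 386) (nat_lit 331) (nat_lit 303)) (XT.lf (nat_lit 0) (nat_lit 17907956612) (nat_lit 152) (nat_lit 11618406864) (nat_lit 0) (nat_lit 8794388804) (nat_lit 13) (nat_lit 5) (nat_lit 15) (nat_lit 4) (nat_lit 13) (nat_lit 4) (nat_lit 387) (nat_lit 331) (nat_lit 302)))) (XT.nd (nat_lit 78) (nat_lit 152) (nat_lit 0) (XT.lf (nat_lit 0) (nat_lit 7898121816) (nat_lit 76) (nat_lit 21079706860) (nat_lit 76) (nat_lit 11884973153) (nat_lit 12) (nat_lit 4) (nat_lit 13) (nat_lit 5) (nat_lit 13) (nat_lit 4) (nat_lit 388) (nat_lit 331) (nat_lit 301)) (XT.nd (nat_lit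 78) (nat_lit 152) (nat_lit 0) (XT.lf (nat_lit 0) (nat_lit 29126165551) (nat_lit 76) (nat_lit 11874295085) (nat_lit 76) (nat_lit 2604407768) (nat_lit 12) (nat_lit 4) (nat_lit 13) (nat_lit 5) (nat_lit 13) (nat_lit 4) (nat_lit 389) (nat_lit 331) (nat_lit 300)) (XT.lf (nat_lit 0) (nat_lit 5290343650) (nat_lit 76) (nat_lit 1846152761) (nat_lit 152) (nat_lit 39426256075) (nat_lit 10) (nat_lit 5) (nat_lit 11) (nat_lit 5) (nat_lit 12) (nat_lit 4) (nat_lit 390) (nat_lit 331) (nat_lit 299))))) (XT.nd (nat_lit 234) (nat_lit 152) (nat_lit 0) (XT.nd (nat_lit 78) (nat_lit 76) (nat_lit 0) (XT.lf (nat_lit 0) (nat_lit 17839876756) (nat_lit 152) (nat_lit 23017767036) (nat_lit 0) (nat_lit 8883775707) (nat_lit 10) (nat_lit 5) (nat_lit 12) (nat_lit 4) (nat_lit 10) (nat_lit 4) (nat_lit 391) (nat_lit 331) (nat_lit 298)) (XT.nd (nat_lit 78) (nat_lit 76) (nat_lit 0) (XT.lf (nat_lit 0) (nat_lit 29316412871) (nat_lit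 152) (nat_lit 3558638096) (nat_lit 0) (nat_lit 20303493385) (nat_lit 10) (nat_lit 5) (nat_lit 12) (nat_lit 4) (nat_lit 10) (nat_lit 4) (nat_lit 392) (nat_lit 331) (nat_lit 297)) (XT.lf (nat_lit 0) (nat_lit 17819448600) (nat_lit 76) (nat_lit 24064053173) (nat_lit 76) (nat_lit 14998524023) (nat_lit 9) (nat_lit 4) (nat_lit 10) (nat_lit 5) (nat_lit 10) (nat_lit 4) (nat_lit 393) (nat_lit 331) (nat_lit 296)))) (XT.nd (nat_lit 78) (nat_lit 152) (nat_lit 0) (XT.lf (nat_lit 0) (nat_lit 40835797893) (nat_lit 76) (nat_lit 14581095198) (nat_lit 76) (nat_lit 5466853396) (nat_lit 9) (nat_lit 4) (nat_lit 10) (nat_lit 5) (nat_lit 10) (nat_lit 4) (nat_lit 394) (nat_lit 331) (nat_lit 295)) (XT.nd (nat_lit 78) (nat_lit 0) (nat_lit 0) (XT.lf (nat_lit 0) (nat_lit 232453629) (nat_lit 76) (nat_lit 4348912096) (nat_lit 152) (nat_lit 60625051285) (nat_lit 7) (nat_lit 5) (nat_lit 8) (nat_lit 5) (nat_lit 9) (nat_lit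 4) (nat_lit 395) (nat_lit 331) (nat_lit 294)) (XT.lf (nat_lit 0) (nat_lit 15611808241) (nat_lit 152) (nat_lit 47391276191) (nat_lit 0) (nat_lit 6848846949) (nat_lit 7) (nat_lit 5) (nat_lit 9) (nat_lit 4) (nat_lit 7) (nat_lit 4) (nat_lit 396) (nat_lit 331) (nat_lit 293))))))) (XT.nd (nat_lit 936) (nat_lit 228) (nat_lit 0) (XT.nd (nat_lit 468) (nat_lit 152) (nat_lit 0) (XT.nd (nat_lit 234) (nat_lit 0) (nat_lit 0) (XT.nd (nat_lit 78) (nat_lit 76) (nat_lit 0) (XT.lf (nat_lit 0) (nat_lit 27512605011) (nat_lit 152) (nat_lit 28644276160) (nat_lit 0) (nat_lit 18712815458) (nat_lit 7) (nat_lit 5) (nat_lit 9) (nat_lit 4) (nat_lit 7) (nat_lit 4) (nat_lit 397) (nat_lit 331) (nat_lit 292)) (XT.nd (nat_lit 78) (nat_lit 76) (nat_lit 0) (XT.lf (nat_lit 0) (nat_lit 40286380568) (nat_lit 152) (nat_lit 8553971249) (nat_lit 0) (nat_lit 31452490774) (nat_lit 7) (nat_lit 5) (nat_lit 9) (nat_lit 4) (nat_lit 7)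 (nat_lit 4) (nat_lit 398) (nat_lit 331) (nat_lit 291)) (XT.lf (nat_lit 0) (nat_lit 13428487666) (nat_lit 76) (nat_lit 40790000020) (nat_lit 76) (nat_lit 31924535928) (nat_lit 6) (nat_lit 4) (nat_lit 7) (nat_lit 5) (nat_lit 7) (nat_lit 4) (nat_lit 399) (nat_lit 331) (nat_lit 290)))) (XT.nd (nat_lit 78) (nat_lit 0) (nat_lit 0) (XT.lf (nat_lit 0) (nat_lit 37336432689) (nat_lit 76) (nat_lit 32007769277) (nat_lit 76) (nat_lit 23113069725) (nat_lit 6) (nat_lit 4) (nat_lit 7) (nat_lit 5) (nat_lit 7) (nat_lit 4) (nat_lit 400) (nat_lit 331) (nat_lit 289)) (XT.nd (nat_lit 78) (nat_lit 0) (nat_lit 0) (XT.lf (nat_lit 0) (nat_lit 63028707609) (nat_lit 76) (nat_lit 22586482382) (nat_lit 76) (nat_lit 13664712958) (nat_lit 6) (nat_lit 4) (nat_lit 7) (nat_lit 5) (nat_lit 7) (nat_lit 4) (nat_lit 401) (nat_lit 331) (nat_lit 288)) (XT.lf (nat_lit 0) (nat_lit 90657562944) (nat_lit 76) (nat_lit 12470309486) (nat_lit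 76) (nat_lit 3523475367) (nat_lit 6) (nat_lit 4) (nat_lit 7) (nat_lit 5) (nat_lit 7) (nat_lit 4) (nat_lit 402) (nat_lit 331) (nat_lit 287))))) (XT.nd (nat_lit 234) (nat_lit 0) (nat_lit 0) (XT.nd (nat_lit 78) (nat_lit 0) (nat_lit 0) (XT.lf (nat_lit 0) (nat_lit 5843383230) (nat_lit 76) (nat_lit 1382677940) (nat_lit 152) (nat_lit 107378912227) (nat_lit 4) (nat_lit 5) (nat_lit 5) (nat_lit 5) (nat_lit 6) (nat_lit 4) (nat_lit 403) (nat_lit 331) (nat_lit 286)) (XT.nd (nat_lit 78) (nat_lit 0) (nat_lit 0) (XT.lf (nat_lit 0) (nat_lit 19107531809) (nat_lit 152) (nat_lit 93520532610) (nat_lit 0) (nat_lit 10544168851) (nat_lit 4) (nat_lit 5) (nat_lit 6) (nat_lit 4) (nat_lit 4) (nat_lit 4) (nat_lit 404) (nat_lit 331) (nat_lit 285)) (XT.lf (nat_lit 0) (nat_lit 31912119164) (nat_lit 152) (nat_lit 77184321207) (nat_lit 0) (nat_lit 23329806527) (nat_lit 4) (nat_lit 5) (nat_lit 6) (nat_lit 4) (nat_lit 4) (nat_lit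 4) (nat_lit 405) (nat_lit 331) (nat_lit 284)))) (XT.nd (nat_lit 78) (nat_lit 0) (nat_lit 0) (XT.lf (nat_lit 0) (nat_lit 45694114794) (nat_lit 152) (nat_lit 59634561301) (nat_lit 0) (nat_lit 37094256157) (nat_lit 4) (nat_lit 5) (nat_lit 6) (nat_lit 4) (nat_lit 4) (nat_lit 4) (nat_lit 406) (nat_lit 331) (nat_lit 283)) (XT.nd (nat_lit 78) (nat_lit 0) (nat_lit 0) (XT.lf (nat_lit 0) (nat_lit 60535189784) (nat_lit 152) (nat_lit 40767254314) (nat_lit 0) (nat_lit 51919084851) (nat_lit 4) (nat_lit 5) (nat_lit 6) (nat_lit 4) (nat_lit 4) (nat_lit 4) (nat_lit 407) (nat_lit 331) (nat_lit 282)) (XT.lf (nat_lit 0) (nat_lit 76523291244) (nat_lit 152) (nat_lit 20470593984) (nat_lit 0) (nat_lit 67892143445) (nat_lit 4) (nat_lit 5) (nat_lit 6) (nat_lit 4) (nat_lit 4) (nat_lit 4) (nat_lit 408) (nat_lit 331) (nat_lit 281)))))) (XT.nd (nat_lit 468) (nat_lit 152) (nat_lit 0) (XT.nd (nat_lit 234) (nat_lit 0) (nat_lit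 0) (XT.nd (nat_lit 78) (nat_lit 0) (nat_lit 0) (XT.lf (nat_lit 0) (nat_lit 1421182924) (nat_lit 76) (nat_lit 92354169204) (nat_lit 76) (nat_lit 83709092825) (nat_lit 3) (nat_lit 4) (nat_lit 4) (nat_lit 5) (nat_lit 4) (nat_lit 4) (nat_lit 409) (nat_lit 331) (nat_lit 280)) (XT.nd (nat_lit 78) (nat_lit 0) (nat_lit 0) (XT.lf (nat_lit 0) (nat_lit 25724417742) (nat_lit 76) (nat_lit 87004121951) (nat_lit 76) (nat_lit 78346148739) (nat_lit 3) (nat_lit 4) (nat_lit 4) (nat_lit 5) (nat_lit 4) (nat_lit 4) (nat_lit 410) (nat_lit 331) (nat_lit 279)) (XT.lf (nat_lit 0) (nat_lit 51906279352) (nat_lit 76) (nat_lit 81258718900) (nat_lit 76) (nat_lit 72588804175) (nat_lit 3) (nat_lit 4) (nat_lit 4) (nat_lit 5) (nat_lit 4) (nat_lit 4) (nat_lit 411) (nat_lit 331) (nat_lit 278)))) (XT.nd (nat_lit 78) (nat_lit 0) (nat_lit 0) (XT.lf (nat_lit 0) (nat_lit 80121919528) (nat_lit 76) (nat_lit 75083913217) (nat_lit 76)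 (nat_lit 66402941536) (nat_lit 3) (nat_lit 4) (nat_lit 4) (nat_lit 5) (nat_lit 4) (nat_lit 4) (nat_lit 412) (nat_lit 331) (nat_lit 277)) (XT.nd (nat_lit 78) (nat_lit 0) (nat_lit 0) (XT.lf (nat_lit 0) (nat_lit 110538542062) (nat_lit 76) (nat_lit 68443113461) (nat_lit 76) (nat_lit 59751903858) (nat_lit 3) (nat_lit 4) (nat_lit 4) (nat_lit 5) (nat_lit 4) (nat_lit 4) (nat_lit 413) (nat_lit 331) (nat_lit 276)) (XT.lf (nat_lit 0) (nat_lit 143336393608) (nat_lit 76) (nat_lit 61296966745) (nat_lit 76) (nat_lit 52596277585) (nat_lit 3) (nat_lit 4) (nat_lit 4) (nat_lit 5) (nat_lit 4) (nat_lit 4) (nat_lit 414) (nat_lit 331) (nat_lit 275))))) (XT.nd (nat_lit 234) (nat_lit 152) (nat_lit 0) (XT.nd (nat_lit 78) (nat_lit 0) (nat_lit 0) (XT.lf (nat_lit 0) (nat_lit 178709831804) (nat_lit 76) (nat_lit 53603125534) (nat_lit 76) (nat_lit 44893659005) (nat_lit 3) (nat_lit 4) (nat_lit 4) (nat_lit 5) (nat_lit 4)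 (nat_lit 4) (nat_lit 415) (nat_lit 331) (nat_lit 274)) (XT.nd (nat_lit 78) (nat_lit 0) (nat_lit 0) (XT.lf (nat_lit 0) (nat_lit 216868477024) (nat_lit 76) (nat_lit 45315996693) (nat_lit 76) (nat_lit 36598402972) (nat_lit 3) (nat_lit 4) (nat_lit 4) (nat_lit 5) (nat_lit 4) (nat_lit 4) (nat_lit 416) (nat_lit 331) (nat_lit 273)) (XT.lf (nat_lit 0) (nat_lit 258038454574) (nat_lit 76) (nat_lit 36386471311) (nat_lit 76) (nat_lit 27661352412) (nat_lit 3) (nat_lit 4) (nat_lit 4) (nat_lit 5) (nat_lit 4) (nat_lit 4) (nat_lit 417) (nat_lit 331) (nat_lit 272)))) (XT.nd (nat_lit 156) (nat_lit 152) (nat_lit 0) (XT.nd (nat_lit 78) (nat_lit 0) (nat_lit 0) (XT.lf (nat_lit 0) (nat_lit 302463734690) (nat_lit 76) (nat_lit 26761633682) (nat_lit 76) (nat_lit 18029547026) (nat_lit 3) (nat_lit 4) (nat_lit 4) (nat_lit 5) (nat_lit 4) (nat_lit 4) (nat_lit 418) (nat_lit 331) (nat_lit 271)) (XT.lf (nat_lit 0) (nat_lit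 350407578292) (nat_lit 76) (nat_lit 16384447732) (nat_lit 76) (nat_lit 7645909448) (nat_lit 3) (nat_lit 4) (nat_lit 4) (nat_lit 5) (nat_lit 4) (nat_lit 4) (nat_lit 419) (nat_lit 331) (nat_lit 270))) (XT.nd (nat_lit 78) (nat_lit 76) (nat_lit 0) (XT.lf (nat_lit 0) (nat_lit 3437435835) (nat_lit 152) (nat_lit 1697768551) (nat_lit 76) (nat_lit 398658446571) (nat_lit 2) (nat_lit 5) (nat_lit 4) (nat_lit 5) (nat_lit 3) (nat_lit 4) (nat_lit 420) (nat_lit 331) (nat_lit 269)) (XT.lf (nat_lit 0) (nat_lit 15603950514) (nat_lit 152) (nat_lit 412593811982) (nat_lit 0) (nat_lit 7270575996) (nat_lit 1) (nat_lit 5) (nat_lit 3) (nat_lit 4) (nat_lit 1) (nat_lit 4) (nat_lit 421) (nat_lit 331) (nat_lit 268))))))))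
noncomputable def xc32 : XT := (XT.nd (nat_lit 48750) (nat_lit 0) (nat_lit 836) (XT.nd (nat_lit 936) (nat_lit 0) (nat_lit 0) (XT.nd (nat_lit 468) (nat_lit 0) (nat_lit 0) (XT.nd (nat_lit 234) (nat_lit 0) (nat_lit 0) (XT.nd (nat_lit 78) (nat_lit 0) (nat_lit 0) (XT.lf (nat_lit 0) (nat_lit 28845363531) (nat_lit 152) (nat_lit 420319448010) (nat_lit 0) (nat_lit 20507111384) (nat_lit 1) (nat_lit 5) (nat_lit 3) (nat_lit 4) (nat_lit 1) (nat_lit 4) (nat_lit 422) (nat_lit 331) (nat_lit 267)) (XT.nd (nat_lit 78) (nat_lit 0) (nat_lit 0) (XT.lf (nat_lit 0) (nat_lit 43132135313) (nat_lit 152) (nat_lit 428690990362) (nat_lit 0) (nat_lit 34789366843) (nat_lit 1) (nat_lit 5) (nat_lit 3) (nat_lit 4) (nat_lit 1) (nat_lit 4) (nat_lit 423) (nat_lit 331) (nat_lit 266)) (XT.lf (nat_lit 0) (nat_lit 58548928213) (nat_lit 152) (nat_lit 437758048179) (nat_lit 0) (nat_lit 50201977963) (nat_lit 1) (nat_lit 5) (nat_lit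 3) (nat_lit 4) (nat_lit 1) (nat_lit 4) (nat_lit 424) (nat_lit 331) (nat_lit 265)))) (XT.nd (nat_lit 78) (nat_lit 0) (nat_lit 0) (XT.lf (nat_lit 0) (nat_lit 75187101003) (nat_lit 152) (nat_lit 447574352175) (nat_lit 0) (nat_lit 66836278735) (nat_lit 1) (nat_lit 5) (nat_lit 3) (nat_lit 4) (nat_lit 1) (nat_lit 4) (nat_lit 425) (nat_lit 331) (nat_lit 264)) (XT.nd (nat_lit 78) (nat_lit 0) (nat_lit 0) (XT.lf (nat_lit 0) (nat_lit 93145250264) (nat_lit 152) (nat_lit 458198073038) (nat_lit 0) (nat_lit 84790842792) (nat_lit 1) (nat_lit 5) (nat_lit 3) (nat_lit 4) (nat_lit 1) (nat_lit 4) (nat_lit 426) (nat_lit 331) (nat_lit 263)) (XT.lf (nat_lit 0) (nat_lit 112529794656) (nat_lit 152) (nat_lit 469692166153) (nat_lit 0) (nat_lit 104172067552) (nat_lit 1) (nat_lit 5) (nat_lit 3) (nat_lit 4) (nat_lit 1) (nat_lit 4) (nat_lit 427) (nat_lit 331) (nat_lit 262))))) (XT.nd (nat_lit 234) (nat_lit 0) (nat_lit 0)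 (XT.nd (nat_lit 78) (nat_lit 0) (nat_lit 0) (XT.lf (nat_lit 0) (nat_lit 133455605554) (nat_lit 152) (nat_lit 482124744663) (nat_lit 0) (nat_lit 125094804718) (nat_lit 1) (nat_lit 5) (nat_lit 3) (nat_lit 4) (nat_lit 1) (nat_lit 4) (nat_lit 428) (nat_lit 331) (nat_lit 261)) (XT.nd (nat_lit 78) (nat_lit 0) (nat_lit 0) (XT.lf (nat_lit 0) (nat_lit 156046687764) (nat_lit 152) (nat_lit 495569483108) (nat_lit 0) (nat_lit 147683040878) (nat_lit 1) (nat_lit 5) (nat_lit 3) (nat_lit 4) (nat_lit 1) (nat_lit 4) (nat_lit 429) (nat_lit 331) (nat_lit 260)) (XT.lf (nat_lit 0) (nat_lit 180436914366) (nat_lit 152) (nat_lit 510106054012) (nat_lit 0) (nat_lit 172070632249) (nat_lit 1) (nat_lit 5) (nat_lit 3) (nat_lit 4) (nat_lit 1) (nat_lit 4) (nat_lit 430) (nat_lit 331) (nat_lit 259)))) (XT.nd (nat_lit 78) (nat_lit 0) (nat_lit 0) (XT.lf (nat_lit 0) (nat_lit 206770820034) (nat_lit 152) (nat_lit 525820600018) (nat_lit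 0) (nat_lit 198402097889) (nat_lit 1) (nat_lit 5) (nat_lit 3) (nat_lit 4) (nat_lit 1) (nat_lit 4) (nat_lit 431) (nat_lit 331) (nat_lit 258)) (XT.nd (nat_lit 78) (nat_lit 0) (nat_lit 0) (XT.lf (nat_lit 0) (nat_lit 235204457545) (nat_lit 152) (nat_lit 542806244361) (nat_lit 0) (nat_lit 226833476114) (nat_lit 1) (nat_lit 5) (nat_lit 3) (nat_lit 4) (nat_lit 1) (nat_lit 4) (nat_lit 432) (nat_lit 331) (nat_lit 257)) (XT.lf (nat_lit 0) (nat_lit 265906322527) (nat_lit 152) (nat_lit 561163642710) (nat_lit 0) (nat_lit 257533249164) (nat_lit 1) (nat_lit 5) (nat_lit 3) (nat_lit 4) (nat_lit 1) (nat_lit 4) (nat_lit 433) (nat_lit 331) (nat_lit 256)))))) (XT.nd (nat_lit 47346) (nat_lit 0) (nat_lit 3268) (XT.nd (nat_lit 47112) (nat_lit 0) (nat_lit 4940) (XT.nd (nat_lit 78) (nat_lit 0) (nat_lit 0) (XT.lf (nat_lit 0) (nat_lit 299058351958) (nat_lit 152) (nat_lit 581001579650) (nat_lit 0) (nat_lit 290683341622)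 (nat_lit 1) (nat_lit 5) (nat_lit 3) (nat_lit 4) (nat_lit 1) (nat_lit 4) (nat_lit 434) (nat_lit 331) (nat_lit 255)) (XT.nd (nat_lit 46956) (nat_lit 0) (nat_lit 5776) (XT.lf (nat_lit 0) (nat_lit 334857002310) (nat_lit 152) (nat_lit 602437613325) (nat_lit 0) (nat_lit 326480198480) (nat_lit 1) (nat_lit 5) (nat_lit 3) (nat_lit 4) (nat_lit 1) (nat_lit 4) (nat_lit 435) (nat_lit 331) (nat_lit 254)) (XT.lf (nat_lit 0) (nat_lit 138642279) (nat_lit 304) (nat_lit 2024285152) (nat_lit 304) (nat_lit 2024285152) (nat_lit 77) (nat_lit 4) (nat_lit 81) (nat_lit 5) (nat_lit 81) (nat_lit 4) (nat_lit 356) (nat_lit 332) (nat_lit 332)))) (XT.nd (nat_lit 78) (nat_lit 532) (nat_lit 0) (XT.lf (nat_lit 0) (nat_lit 2141638957) (nat_lit 304) (nat_lit 5970855606) (nat_lit 0) (nat_lit 524540523) (nat_lit 73) (nat_lit 5) (nat_lit 77) (nat_lit 4) (nat_lit 73) (nat_lit 4) (nat_lit 357) (nat_lit 332) (nat_lit 331)) (XT.nd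 (nat_lit 78) (nat_lit 304) (nat_lit 0) (XT.lf (nat_lit 0) (nat_lit 5106803838) (nat_lit 228) (nat_lit 3465412030) (nat_lit 228) (nat_lit 351000231) (nat_lit 70) (nat_lit 4) (nat_lit 73) (nat_lit 5) (nat_lit 73) (nat_lit 4) (nat_lit 358) (nat_lit 332) (nat_lit 330)) (XT.lf (nat_lit 0) (nat_lit 5943950804) (nat_lit 304) (nat_lit 1633167512) (nat_lit 0) (nat_lit 1657462173) (nat_lit 66) (nat_lit 5) (nat_lit 70) (nat_lit 4) (nat_lit 66) (nat_lit 4) (nat_lit 359) (nat_lit 332) (nat_lit 329))))) (XT.nd (nat_lit 234) (nat_lit 760) (nat_lit 0) (XT.nd (nat_lit 78) (nat_lit 456) (nat_lit 0) (XT.lf (nat_lit 0) (nat_lit 595616032) (nat_lit 152) (nat_lit 2382277008) (nat_lit 228) (nat_lit 6594416620) (nat_lit 60) (nat_lit 5) (nat_lit 62) (nat_lit 5) (nat_lit 63) (nat_lit 4) (nat_lit 360) (nat_lit 332) (nat_lit 328)) (XT.nd (nat_lit 78) (nat_lit 228) (nat_lit 0) (XT.lf (nat_lit 0) (nat_lit 2898393196)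 (nat_lit 228) (nat_lit 6681795709) (nat_lit 228) (nat_lit 356958012) (nat_lit 57) (nat_lit 4) (nat_lit 60) (nat_lit 5) (nat_lit 60) (nat_lit 4) (nat_lit 361) (nat_lit 332) (nat_lit 327)) (XT.lf (nat_lit 0) (nat_lit 5173116742) (nat_lit 152) (nat_lit 922592473) (nat_lit 228) (nat_lit 4234608394) (nat_lit 54) (nat_lit 5) (nat_lit 56) (nat_lit 5) (nat_lit 57) (nat_lit 4) (nat_lit 362) (nat_lit 332) (nat_lit 326)))) (XT.nd (nat_lit 78) (nat_lit 532) (nat_lit 0) (XT.lf (nat_lit 0) (nat_lit 2202711690) (nat_lit 228) (nat_lit 3339100272) (nat_lit 76) (nat_lit 5212232497) (nat_lit 51) (nat_lit 5) (nat_lit 54) (nat_lit 5) (nat_lit 52) (nat_lit 4) (nat_lit 363) (nat_lit 332) (nat_lit 325)) (XT.nd (nat_lit 78) (nat_lit 380) (nat_lit 0) (XT.lf (nat_lit 0) (nat_lit 8944256736) (nat_lit 228) (nat_lit 1579822652) (nat_lit 0) (nat_lit 687358588) (nat_lit 49) (nat_lit 5) (nat_lit 52) (nat_lit 4) (nat_lit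 49) (nat_lit 4) (nat_lit 364) (nat_lit 332) (nat_lit 324)) (XT.lf (nat_lit 0) (nat_lit 29821617) (nat_lit 152) (nat_lit 4363099633) (nat_lit 228) (nat_lit 7308184949) (nat_lit 44) (nat_lit 5) (nat_lit 46) (nat_lit 5) (nat_lit 47) (nat_lit 4) (nat_lit 365) (nat_lit 332) (nat_lit 323))))))) (XT.nd (nat_lit 936) (nat_lit 836) (nat_lit 0) (XT.nd (nat_lit 468) (nat_lit 684) (nat_lit 0) (XT.nd (nat_lit 234) (nat_lit 380) (nat_lit 0) (XT.nd (nat_lit 78) (nat_lit 380) (nat_lit 0) (XT.lf (nat_lit 0) (nat_lit 1595629539) (nat_lit 152) (nat_lit 9907407451) (nat_lit 152) (nat_lit 725318298) (nat_lit 42) (nat_lit 4) (nat_lit 44) (nat_lit 5) (nat_lit 44) (nat_lit 4) (nat_lit 366) (nat_lit 332) (nat_lit 322)) (XT.nd (nat_lit 78) (nat_lit 228) (nat_lit 0) (XT.lf (nat_lit 0) (nat_lit 2931405870) (nat_lit 76) (nat_lit 3263901060) (nat_lit 152) (nat_lit 6596806519) (nat_lit 40) (nat_lit 5) (nat_lit 41) (nat_lit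 5) (nat_lit 42) (nat_lit 4) (nat_lit 367) (nat_lit 332) (nat_lit 321)) (XT.lf (nat_lit 0) (nat_lit 250770976) (nat_lit 228) (nat_lit 9307238185) (nat_lit 76) (nat_lit 3841515076) (nat_lit 37) (nat_lit 5) (nat_lit 40) (nat_lit 5) (nat_lit 38) (nat_lit 4) (nat_lit 368) (nat_lit 332) (nat_lit 320)))) (XT.nd (nat_lit 78) (nat_lit 304) (nat_lit 0) (XT.lf (nat_lit 0) (nat_lit 4942154396) (nat_lit 76) (nat_lit 2493295234) (nat_lit 152) (nat_lit 6613720536) (nat_lit 36) (nat_lit 5) (nat_lit 37) (nat_lit 5) (nat_lit 38) (nat_lit 4) (nat_lit 369) (nat_lit 332) (nat_lit 319)) (XT.nd (nat_lit 78) (nat_lit 76) (nat_lit 0) (XT.lf (nat_lit 0) (nat_lit 482692659) (nat_lit 228) (nat_lit 9243070345) (nat_lit 76) (nat_lit 5022100401) (nat_lit 33) (nat_lit 5) (nat_lit 36) (nat_lit 5) (nat_lit 34) (nat_lit 4) (nat_lit 370) (nat_lit 332) (nat_lit 318)) (XT.lf (nat_lit 0) (nat_lit 5651982907) (nat_lit 76) (nat_lit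 2287453784) (nat_lit 152) (nat_lit 7556435168) (nat_lit 32) (nat_lit 5) (nat_lit 33) (nat_lit 5) (nat_lit 34) (nat_lit 4) (nat_lit 371) (nat_lit 332) (nat_lit 317))))) (XT.nd (nat_lit 234) (nat_lit 304) (nat_lit 0) (XT.nd (nat_lit 78) (nat_lit 228) (nat_lit 0) (XT.lf (nat_lit 0) (nat_lit 5375343194) (nat_lit 152) (nat_lit 10693805322) (nat_lit 152) (nat_lit 230804166) (nat_lit 30) (nat_lit 4) (nat_lit 32) (nat_lit 5) (nat_lit 32) (nat_lit 4) (nat_lit 372) (nat_lit 332) (nat_lit 316)) (XT.nd (nat_lit 78) (nat_lit 76) (nat_lit 0) (XT.lf (nat_lit 0) (nat_lit 4522240817) (nat_lit 76) (nat_lit 2943476608) (nat_lit 152) (nat_lit 9695159570) (nat_lit 28) (nat_lit 5) (nat_lit 29) (nat_lit 5) (nat_lit 30) (nat_lit 4) (nat_lit 373) (nat_lit 332) (nat_lit 315)) (XT.lf (nat_lit 0) (nat_lit 3066450498) (nat_lit 76) (nat_lit 12785368734) (nat_lit 76) (nat_lit 2234612960) (nat_lit 27) (nat_lit 4) (nat_lit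 28) (nat_lit 5) (nat_lit 28) (nat_lit 4) (nat_lit 374) (nat_lit 332) (nat_lit 314)))) (XT.nd (nat_lit 78) (nat_lit 152) (nat_lit 0) (XT.lf (nat_lit 0) (nat_lit 845249285) (nat_lit 76) (nat_lit 4841025672) (nat_lit 152) (nat_lit 13392756453) (nat_lit 25) (nat_lit 5) (nat_lit 26) (nat_lit 5) (nat_lit 27) (nat_lit 4) (nat_lit 375) (nat_lit 332) (nat_lit 313)) (XT.nd (nat_lit 78) (nat_lit 152) (nat_lit 0) (XT.lf (nat_lit 0) (nat_lit 14259022295) (nat_lit 152) (nat_lit 2153183455) (nat_lit 0) (nat_lit 3732212654) (nat_lit 25) (nat_lit 5) (nat_lit 27) (nat_lit 4) (nat_lit 25) (nat_lit 4) (nat_lit 376) (nat_lit 332) (nat_lit 312)) (XT.lf (nat_lit 0) (nat_lit 2260489839) (nat_lit 152) (nat_lit 6105799954) (nat_lit 76) (nat_lit 12921589156) (nat_lit 23) (nat_lit 5) (nat_lit 25) (nat_lit 5) (nat_lit 24) (nat_lit 4) (nat_lit 377) (nat_lit 332) (nat_lit 311)))))) (XT.nd (nat_lit 468) (nat_lit 304) (nat_lit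 0) (XT.nd (nat_lit 234) (nat_lit 304) (nat_lit 0) (XT.nd (nat_lit 78) (nat_lit 152) (nat_lit 0) (XT.lf (nat_lit 0) (nat_lit 10871515003) (nat_lit 152) (nat_lit 11190218651) (nat_lit 0) (nat_lit 455304299) (nat_lit 22) (nat_lit 5) (nat_lit 24) (nat_lit 4) (nat_lit 22) (nat_lit 4) (nat_lit 378) (nat_lit 332) (nat_lit 310)) (XT.nd (nat_lit 78) (nat_lit 76) (nat_lit 0) (XT.lf (nat_lit 0) (nat_lit 6210109542) (nat_lit 76) (nat_lit 14108602946) (nat_lit 76) (nat_lit 3518479442) (nat_lit 21) (nat_lit 4) (nat_lit 22) (nat_lit 5) (nat_lit 22) (nat_lit 4) (nat_lit 379) (nat_lit 332) (nat_lit 309)) (XT.lf (nat_lit 0) (nat_lit 5095635023) (nat_lit 152) (nat_lit 305102074) (nat_lit 76) (nat_lit 19857878578) (nat_lit 20) (nat_lit 5) (nat_lit 22) (nat_lit 5) (nat_lit 21) (nat_lit 4) (nat_lit 380) (nat_lit 332) (nat_lit 308)))) (XT.nd (nat_lit 78) (nat_lit 228) (nat_lit 0) (XT.lf (nat_lit 0) (nat_lit 14454698906)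 (nat_lit 152) (nat_lit 8253735090) (nat_lit 0) (nat_lit 4073502651) (nat_lit 19) (nat_lit 5) (nat_lit 21) (nat_lit 4) (nat_lit 19) (nat_lit 4) (nat_lit 381) (nat_lit 332) (nat_lit 307)) (XT.nd (nat_lit 78) (nat_lit 152) (nat_lit 0) (XT.lf (nat_lit 0) (nat_lit 10360018688) (nat_lit 76) (nat_lit 14287769745) (nat_lit 76) (nat_lit 3775090073) (nat_lit 18) (nat_lit 4) (nat_lit 19) (nat_lit 5) (nat_lit 19) (nat_lit 4) (nat_lit 382) (nat_lit 332) (nat_lit 306)) (XT.lf (nat_lit 0) (nat_lit 163586751) (nat_lit 76) (nat_lit 5103735359) (nat_lit 152) (nat_lit 24924483887) (nat_lit 16) (nat_lit 5) (nat_lit 17) (nat_lit 5) (nat_lit 18) (nat_lit 4) (nat_lit 383) (nat_lit 332) (nat_lit 305))))) (XT.nd (nat_lit 234) (nat_lit 152) (nat_lit 0) (XT.nd (nat_lit 78) (nat_lit 152) (nat_lit 0) (XT.lf (nat_lit 0) (nat_lit 15135073991) (nat_lit 152) (nat_lit 12052691913) (nat_lit 0) (nat_lit 4899693597) (nat_lit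 16) (nat_lit 5) (nat_lit 18) (nat_lit 4) (nat_lit 16) (nat_lit 4) (nat_lit 384) (nat_lit 332) (nat_lit 304)) (XT.nd (nat_lit 78) (nat_lit 76) (nat_lit 0) (XT.lf (nat_lit 0) (nat_lit 7213707291) (nat_lit 76) (nat_lit 18626724939) (nat_lit 76) (nat_lit 8291939045) (nat_lit 15) (nat_lit 4) (nat_lit 16) (nat_lit 5) (nat_lit 16) (nat_lit 4) (nat_lit 385) (nat_lit 332) (nat_lit 303)) (XT.lf (nat_lit 0) (nat_lit 1094684813) (nat_lit 152) (nat_lit 8182724156) (nat_lit 76) (nat_lit 27059286424) (nat_lit 14) (nat_lit 5) (nat_lit 16) (nat_lit 5) (nat_lit 15) (nat_lit 4) (nat_lit 386) (nat_lit 332) (nat_lit 302)))) (XT.nd (nat_lit 156) (nat_lit 76) (nat_lit 0) (XT.nd (nat_lit 78) (nat_lit 0) (nat_lit 0) (XT.lf (nat_lit 0) (nat_lit 11014419740) (nat_lit 152) (nat_lit 26689585566) (nat_lit 0) (nat_lit 1002941438) (nat_lit 13) (nat_lit 5) (nat_lit 15) (nat_lit 4) (nat_lit 13) (nat_lit 4) (nat_lit 387) (nat_lit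 332) (nat_lit 301)) (XT.lf (nat_lit 0) (nat_lit 21897959622) (nat_lit 152) (nat_lit 7549031133) (nat_lit 0) (nat_lit 11811327709) (nat_lit 13) (nat_lit 5) (nat_lit 15) (nat_lit 4) (nat_lit 13) (nat_lit 4) (nat_lit 388) (nat_lit 332) (nat_lit 300))) (XT.nd (nat_lit 78) (nat_lit 0) (nat_lit 0) (XT.lf (nat_lit 0) (nat_lit 13311575986) (nat_lit 76) (nat_lit 20427065157) (nat_lit 76) (nat_lit 10270846567) (nat_lit 12) (nat_lit 4) (nat_lit 13) (nat_lit 5) (nat_lit 13) (nat_lit 4) (nat_lit 389) (nat_lit 332) (nat_lit 299)) (XT.lf (nat_lit 0) (nat_lit 35883670299) (nat_lit 76) (nat_lit 10658481051) (nat_lit 76) (nat_lit 437830353) (nat_lit 12) (nat_lit 4) (nat_lit 13) (nat_lit 5) (nat_lit 13) (nat_lit 4) (nat_lit 390) (nat_lit 332) (nat_lit 298))))))))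
noncomputable def xc33 : XT := (XT.nd (nat_lit 1872) (nat_lit 152) (nat_lit 0) (XT.nd (nat_lit 936) (nat_lit 228) (nat_lit 0) (XT.nd (nat_lit 468) (nat_lit 76) (nat_lit 0) (XT.nd (nat_lit 234) (nat_lit 228) (nat_lit 0) (XT.nd (nat_lit 78) (nat_lit 0) (nat_lit 0) (XT.lf (nat_lit 0) (nat_lit 9905146331) (nat_lit 152) (nat_lit 40158194378) (nat_lit 0) (nat_lit 114374849) (nat_lit 10) (nat_lit 5) (nat_lit 12) (nat_lit 4) (nat_lit 10) (nat_lit 4) (nat_lit 391) (nat_lit 332) (nat_lit 297)) (XT.nd (nat_lit 78) (nat_lit 0) (nat_lit 0) (XT.lf (nat_lit 0) (nat_lit 21330825892) (nat_lit 152) (nat_lit 20799116494) (nat_lit 0) (nat_lit 11487444745) (nat_lit 10) (nat_lit 5) (nat_lit 12) (nat_lit 4) (nat_lit 10) (nat_lit 4) (nat_lit 392) (nat_lit 332) (nat_lit 296)) (XT.lf (nat_lit 0) (nat_lit 33572613859) (nat_lit 152) (nat_lit 84003305) (nat_lit 0) (nat_lit 23680520061) (nat_lit 10) (nat_lit 5) (nat_lit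 12) (nat_lit 4) (nat_lit 10) (nat_lit 4) (nat_lit 393) (nat_lit 332) (nat_lit 295)))) (XT.nd (nat_lit 78) (nat_lit 152) (nat_lit 0) (XT.lf (nat_lit 0) (nat_lit 22840954606) (nat_lit 76) (nat_lit 24218710870) (nat_lit 76) (nat_lit 14281512764) (nat_lit 9) (nat_lit 4) (nat_lit 10) (nat_lit 5) (nat_lit 10) (nat_lit 4) (nat_lit 394) (nat_lit 332) (nat_lit 294)) (XT.nd (nat_lit 78) (nat_lit 152) (nat_lit 0) (XT.lf (nat_lit 0) (nat_lit 47432245168) (nat_lit 76) (nat_lit 14108261928) (nat_lit 76) (nat_lit 4129300575) (nat_lit 9) (nat_lit 4) (nat_lit 10) (nat_lit 5) (nat_lit 10) (nat_lit 4) (nat_lit 395) (nat_lit 332) (nat_lit 293)) (XT.lf (nat_lit 0) (nat_lit 3490387085) (nat_lit 76) (nat_lit 3098890042) (nat_lit 152) (nat_lit 63751472548) (nat_lit 7) (nat_lit 5) (nat_lit 8) (nat_lit 5) (nat_lit 9) (nat_lit 4) (nat_lit 396) (nat_lit 332) (nat_lit 292))))) (XT.nd (nat_lit 234) (nat_lit 76) (nat_lit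 0) (XT.nd (nat_lit 78) (nat_lit 0) (nat_lit 0) (XT.lf (nat_lit 0) (nat_lit 18403669926) (nat_lit 152) (nat_lit 48130199010) (nat_lit 0) (nat_lit 8828968707) (nat_lit 7) (nat_lit 5) (nat_lit 9) (nat_lit 4) (nat_lit 7) (nat_lit 4) (nat_lit 397) (nat_lit 332) (nat_lit 291)) (XT.nd (nat_lit 78) (nat_lit 0) (nat_lit 0) (XT.lf (nat_lit 0) (nat_lit 31142240287) (nat_lit 152) (nat_lit 28109541145) (nat_lit 0) (nat_lit 21535964771) (nat_lit 7) (nat_lit 5) (nat_lit 9) (nat_lit 4) (nat_lit 7) (nat_lit 4) (nat_lit 398) (nat_lit 332) (nat_lit 290)) (XT.lf (nat_lit 0) (nat_lit 44832093676) (nat_lit 152) (nat_lit 6621365701) (nat_lit 0) (nat_lit 35196582699) (nat_lit 7) (nat_lit 5) (nat_lit 9) (nat_lit 4) (nat_lit 7) (nat_lit 4) (nat_lit 399) (nat_lit 332) (nat_lit 289)))) (XT.nd (nat_lit 78) (nat_lit 0) (nat_lit 0) (XT.lf (nat_lit 0) (nat_lit 17005961633) (nat_lit 76) (nat_lit 42813904237) (nat_lit 76)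 (nat_lit 33151323389) (nat_lit 6) (nat_lit 4) (nat_lit 7) (nat_lit 5) (nat_lit 7) (nat_lit 4) (nat_lit 400) (nat_lit 332) (nat_lit 288)) (XT.nd (nat_lit 78) (nat_lit 0) (nat_lit 0) (XT.lf (nat_lit 0) (nat_lit 42641120409) (nat_lit 76) (nat_lit 33420894722) (nat_lit 76) (nat_lit 23733249179) (nat_lit 6) (nat_lit 4) (nat_lit 7) (nat_lit 5) (nat_lit 7) (nat_lit 4) (nat_lit 401) (nat_lit 332) (nat_lit 287)) (XT.lf (nat_lit 0) (nat_lit 70217090426) (nat_lit 76) (nat_lit 23330904586) (nat_lit 76) (nat_lit 13620050992) (nat_lit 6) (nat_lit 4) (nat_lit 7) (nat_lit 5) (nat_lit 7) (nat_lit 4) (nat_lit 402) (nat_lit 332) (nat_lit 286)))))) (XT.nd (nat_lit 468) (nat_lit 76) (nat_lit 0) (XT.nd (nat_lit 234) (nat_lit 0) (nat_lit 0) (XT.nd (nat_lit 78) (nat_lit 152) (nat_lit 0) (XT.lf (nat_lit 0) (nat_lit 99897284839) (nat_lit 76) (nat_lit 12484141295) (nat_lit 76) (nat_lit 2751798764) (nat_lit 6) (nat_lit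 4) (nat_lit 7) (nat_lit 5) (nat_lit 7) (nat_lit 4) (nat_lit 403) (nat_lit 332) (nat_lit 285)) (XT.nd (nat_lit 78) (nat_lit 0) (nat_lit 0) (XT.lf (nat_lit 0) (nat_lit 8243926739) (nat_lit 76) (nat_lit 534691033) (nat_lit 152) (nat_lit 114945973009) (nat_lit 4) (nat_lit 5) (nat_lit 5) (nat_lit 5) (nat_lit 6) (nat_lit 4) (nat_lit 404) (nat_lit 332) (nat_lit 284)) (XT.lf (nat_lit 0) (nat_lit 21552280797) (nat_lit 152) (nat_lit 99180983657) (nat_lit 0) (nat_lit 12246887470) (nat_lit 4) (nat_lit 5) (nat_lit 6) (nat_lit 4) (nat_lit 4) (nat_lit 4) (nat_lit 405) (nat_lit 332) (nat_lit 283)))) (XT.nd (nat_lit 78) (nat_lit 0) (nat_lit 0) (XT.lf (nat_lit 0) (nat_lit 35313372441) (nat_lit 152) (nat_lit 81672778420) (nat_lit 0) (nat_lit 25991732818) (nat_lit 4) (nat_lit 5) (nat_lit 6) (nat_lit 4) (nat_lit 4) (nat_lit 4) (nat_lit 406) (nat_lit 332) (nat_lit 282)) (XT.nd (nat_lit 78) (nat_lit 0) (nat_lit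 0) (XT.lf (nat_lit 0) (nat_lit 50135091888) (nat_lit 152) (nat_lit 62843947979) (nat_lit 0) (nat_lit 40798409399) (nat_lit 4) (nat_lit 5) (nat_lit 6) (nat_lit 4) (nat_lit 4) (nat_lit 4) (nat_lit 407) (nat_lit 332) (nat_lit 281)) (XT.lf (nat_lit 0) (nat_lit 66105271550) (nat_lit 152) (nat_lit 42582914080) (nat_lit 0) (nat_lit 56754660481) (nat_lit 4) (nat_lit 5) (nat_lit 6) (nat_lit 4) (nat_lit 4) (nat_lit 4) (nat_lit 408) (nat_lit 332) (nat_lit 280))))) (XT.nd (nat_lit 234) (nat_lit 0) (nat_lit 0) (XT.nd (nat_lit 78) (nat_lit 76) (nat_lit 0) (XT.lf (nat_lit 0) (nat_lit 83318549529) (nat_lit 152) (nat_lit 20769611336) (nat_lit 0) (nat_lit 73955041626) (nat_lit 4) (nat_lit 5) (nat_lit 6) (nat_lit 4) (nat_lit 4) (nat_lit 4) (nat_lit 409) (nat_lit 332) (nat_lit 279)) (XT.nd (nat_lit 78) (nat_lit 0) (nat_lit 0) (XT.lf (nat_lit 0) (nat_lit 2815332489) (nat_lit 76) (nat_lit 99105553175) (nat_lit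 76) (nat_lit 89730103760) (nat_lit 3) (nat_lit 4) (nat_lit 4) (nat_lit 5) (nat_lit 4) (nat_lit 4) (nat_lit 410) (nat_lit 332) (nat_lit 278)) (XT.lf (nat_lit 0) (nat_lit 28967977578) (nat_lit 76) (nat_lit 93374683591) (nat_lit 76) (nat_lit 83988177220) (nat_lit 3) (nat_lit 4) (nat_lit 4) (nat_lit 5) (nat_lit 4) (nat_lit 4) (nat_lit 411) (nat_lit 332) (nat_lit 277)))) (XT.nd (nat_lit 78) (nat_lit 0) (nat_lit 0) (XT.lf (nat_lit 0) (nat_lit 57156565420) (nat_lit 76) (nat_lit 87213334822) (nat_lit 76) (nat_lit 77816590529) (nat_lit 3) (nat_lit 4) (nat_lit 4) (nat_lit 5) (nat_lit 4) (nat_lit 4) (nat_lit 412) (nat_lit 332) (nat_lit 276)) (XT.nd (nat_lit 78) (nat_lit 0) (nat_lit 0) (XT.lf (nat_lit 0) (nat_lit 87548139497) (nat_lit 76) (nat_lit 80584995173) (nat_lit 76) (nat_lit 71178771322) (nat_lit 3) (nat_lit 4) (nat_lit 4) (nat_lit 5) (nat_lit 4) (nat_lit 4) (nat_lit 413) (nat_lit 332) (nat_lit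 275)) (XT.lf (nat_lit 0) (nat_lit 120322798027) (nat_lit 76) (nat_lit 73450385592) (nat_lit 76) (nat_lit 64035384374) (nat_lit 3) (nat_lit 4) (nat_lit 4) (nat_lit 5) (nat_lit 4) (nat_lit 4) (nat_lit 414) (nat_lit 332) (nat_lit 274))))))) (XT.nd (nat_lit 936) (nat_lit 0) (nat_lit 0) (XT.nd (nat_lit 468) (nat_lit 152) (nat_lit 0) (XT.nd (nat_lit 234) (nat_lit 0) (nat_lit 0) (XT.nd (nat_lit 78) (nat_lit 0) (nat_lit 0) (XT.lf (nat_lit 0) (nat_lit 155674761207) (nat_lit 76) (nat_lit 65767226913) (nat_lit 76) (nat_lit 56344098502) (nat_lit 3) (nat_lit 4) (nat_lit 4) (nat_lit 5) (nat_lit 4) (nat_lit 4) (nat_lit 415) (nat_lit 332) (nat_lit 273)) (XT.nd (nat_lit 78) (nat_lit 0) (nat_lit 0) (XT.lf (nat_lit 0) (nat_lit 193813522154) (nat_lit 76) (nat_lit 57489989306) (nat_lit 76) (nat_lit 48059335717) (nat_lit 3) (nat_lit 4) (nat_lit 4) (nat_lit 5) (nat_lit 4) (nat_lit 4) (nat_lit 416) (nat_lit 332)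 (nat_lit 272)) (XT.lf (nat_lit 0) (nat_lit 234965088340) (nat_lit 76) (nat_lit 48569622474) (nat_lit 76) (nat_lit 39132001127) (nat_lit 3) (nat_lit 4) (nat_lit 4) (nat_lit 5) (nat_lit 4) (nat_lit 4) (nat_lit 417) (nat_lit 332) (nat_lit 271)))) (XT.nd (nat_lit 78) (nat_lit 0) (nat_lit 0) (XT.lf (nat_lit 0) (nat_lit 279373320896) (nat_lit 76) (nat_lit 38953264984) (nat_lit 76) (nat_lit 29509192010) (nat_lit 3) (nat_lit 4) (nat_lit 4) (nat_lit 5) (nat_lit 4) (nat_lit 4) (nat_lit 418) (nat_lit 332) (nat_lit 270)) (XT.nd (nat_lit 78) (nat_lit 0) (nat_lit 0) (XT.lf (nat_lit 0) (nat_lit 327301379721) (nat_lit 76) (nat_lit 28583931015) (nat_lit 76) (nat_lit 19133884311) (nat_lit 3) (nat_lit 4) (nat_lit 4) (nat_lit 5) (nat_lit 4) (nat_lit 4) (nat_lit 419) (nat_lit 332) (nat_lit 269)) (XT.lf (nat_lit 0) (nat_lit 379033282941) (nat_lit 76) (nat_lit 17400172660) (nat_lit 76) (nat_lit 7944594725) (nat_lit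 3) (nat_lit 4) (nat_lit 4) (nat_lit 5) (nat_lit 4) (nat_lit 4) (nat_lit 420) (nat_lit 332) (nat_lit 268))))) (XT.nd (nat_lit 234) (nat_lit 0) (nat_lit 0) (XT.nd (nat_lit 78) (nat_lit 76) (nat_lit 0) (XT.lf (nat_lit 0) (nat_lit 3992958410) (nat_lit 152) (nat_lit 1275134703) (nat_lit 76) (nat_lit 430815008888) (nat_lit 2) (nat_lit 5) (nat_lit 4) (nat_lit 5) (nat_lit 3) (nat_lit 4) (nat_lit 421) (nat_lit 332) (nat_lit 267)) (XT.nd (nat_lit 78) (nat_lit 0) (nat_lit 0) (XT.lf (nat_lit 0) (nat_lit 17124509095) (nat_lit 152) (nat_lit 445057867964) (nat_lit 0) (nat_lit 8109802825) (nat_lit 1) (nat_lit 5) (nat_lit 3) (nat_lit 4) (nat_lit 1) (nat_lit 4) (nat_lit 422) (nat_lit 332) (nat_lit 266)) (XT.lf (nat_lit 0) (nat_lit 31405069038) (nat_lit 152) (nat_lit 453441810353) (nat_lit 0) (nat_lit 22386180988) (nat_lit 1) (nat_lit 5) (nat_lit 3) (nat_lit 4) (nat_lit 1) (nat_lit 4) (nat_lit 423) (nat_lit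 332) (nat_lit 265)))) (XT.nd (nat_lit 78) (nat_lit 0) (nat_lit 0) (XT.lf (nat_lit 0) (nat_lit 46816110236) (nat_lit 152) (nat_lit 462520349686) (nat_lit 0) (nat_lit 37793350167) (nat_lit 1) (nat_lit 5) (nat_lit 3) (nat_lit 4) (nat_lit 1) (nat_lit 4) (nat_lit 424) (nat_lit 332) (nat_lit 264)) (XT.nd (nat_lit 78) (nat_lit 0) (nat_lit 0) (XT.lf (nat_lit 0) (nat_lit 63448957375) (nat_lit 152) (nat_lit 472347284714) (nat_lit 0) (nat_lit 54422612104) (nat_lit 1) (nat_lit 5) (nat_lit 3) (nat_lit 4) (nat_lit 1) (nat_lit 4) (nat_lit 425) (nat_lit 332) (nat_lit 263)) (XT.lf (nat_lit 0) (nat_lit 81402175477) (nat_lit 152) (nat_lit 482980849127) (nat_lit 0) (nat_lit 72372510574) (nat_lit 1) (nat_lit 5) (nat_lit 3) (nat_lit 4) (nat_lit 1) (nat_lit 4) (nat_lit 426) (nat_lit 332) (nat_lit 262)))))) (XT.nd (nat_lit 468) (nat_lit 0) (nat_lit 0) (XT.nd (nat_lit 234) (nat_lit 0) (nat_lit 0) (XT.nd (nat_lit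 78) (nat_lit 0) (nat_lit 0) (XT.lf (nat_lit 0) (nat_lit 100782153983) (nat_lit 152) (nat_lit 494484056639) (nat_lit 0) (nat_lit 91749415346) (nat_lit 1) (nat_lit 5) (nat_lit 3) (nat_lit 4) (nat_lit 1) (nat_lit 4) (nat_lit 427) (nat_lit 332) (nat_lit 261)) (XT.nd (nat_lit 78) (nat_lit 0) (nat_lit 0) (XT.lf (nat_lit 0) (nat_lit 121703737208) (nat_lit 152) (nat_lit 506925074406) (nat_lit 0) (nat_lit 112668152521) (nat_lit 1) (nat_lit 5) (nat_lit 3) (nat_lit 4) (nat_lit 1) (nat_lit 4) (nat_lit 428) (nat_lit 332) (nat_lit 260)) (XT.lf (nat_lit 0) (nat_lit 144290904906) (nat_lit 152) (nat_lit 520377626978) (nat_lit 0) (nat_lit 135252684988) (nat_lit 1) (nat_lit 5) (nat_lit 3) (nat_lit 4) (nat_lit 1) (nat_lit 4) (nat_lit 429) (nat_lit 332) (nat_lit 259)))) (XT.nd (nat_lit 78) (nat_lit 0) (nat_lit 0) (XT.lf (nat_lit 0) (nat_lit 168677506958) (nat_lit 152) (nat_lit 534921433184) (nat_lit 0) (nat_lit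 159636847013) (nat_lit 1) (nat_lit 5) (nat_lit 3) (nat_lit 4) (nat_lit 1) (nat_lit 4) (nat_lit 430) (nat_lit 332) (nat_lit 258)) (XT.nd (nat_lit 78) (nat_lit 0) (nat_lit 0) (XT.lf (nat_lit 0) (nat_lit 195008056564) (nat_lit 152) (nat_lit 550642678544) (nat_lit 0) (nat_lit 185965137332) (nat_lit 1) (nat_lit 5) (nat_lit 3) (nat_lit 4) (nat_lit 1) (nat_lit 4) (nat_lit 431) (nat_lit 332) (nat_lit 257)) (XT.lf (nat_lit 0) (nat_lit 223438586609) (nat_lit 152) (nat_lit 567634525992) (nat_lit 0) (nat_lit 214393575446) (nat_lit 1) (nat_lit 5) (nat_lit 3) (nat_lit 4) (nat_lit 1) (nat_lit 4) (nat_lit 432) (nat_lit 332) (nat_lit 256))))) (XT.nd (nat_lit 46956) (nat_lit 0) (nat_lit 5472) (XT.nd (nat_lit 78) (nat_lit 0) (nat_lit 0) (XT.lf (nat_lit 0) (nat_lit 254137574307) (nat_lit 152) (nat_lit 585997667958) (nat_lit 0) (nat_lit 245090626171) (nat_lit 1) (nat_lit 5) (nat_lit 3) (nat_lit 4) (nat_lit 1)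 (nat_lit 4) (nat_lit 433) (nat_lit 332) (nat_lit 255)) (XT.nd (nat_lit 78) (nat_lit 0) (nat_lit 0) (XT.lf (nat_lit 0) (nat_lit 287286939587) (nat_lit 152) (nat_lit 605840923061) (nat_lit 0) (nat_lit 278238197957) (nat_lit 1) (nat_lit 5) (nat_lit 3) (nat_lit 4) (nat_lit 1) (nat_lit 4) (nat_lit 434) (nat_lit 332) (nat_lit 254)) (XT.lf (nat_lit 0) (nat_lit 323083123132) (nat_lit 152) (nat_lit 627281880961) (nat_lit 0) (nat_lit 314032720859) (nat_lit 1) (nat_lit 5) (nat_lit 3) (nat_lit 4) (nat_lit 1) (nat_lit 4) (nat_lit 435) (nat_lit 332) (nat_lit 253)))) (XT.nd (nat_lit 156) (nat_lit 912) (nat_lit 0) (XT.nd (nat_lit 78) (nat_lit 304) (nat_lit 0) (XT.lf (nat_lit 0) (nat_lit 1026935193) (nat_lit 380) (nat_lit 1900424732) (nat_lit 0) (nat_lit 1026935193) (nat_lit 89) (nat_lit 5) (nat_lit 94) (nat_lit 4) (nat_lit 89) (nat_lit 4) (nat_lit 354) (nat_lit 333) (nat_lit 333)) (XT.lf (nat_lit 0) (nat_lit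 6209526043) (nat_lit 304) (nat_lit 1925882599) (nat_lit 304) (nat_lit 403494) (nat_lit 85) (nat_lit 4) (nat_lit 89) (nat_lit 5) (nat_lit 89) (nat_lit 4) (nat_lit 355) (nat_lit 333) (nat_lit 332))) (XT.nd (nat_lit 78) (nat_lit 608) (nat_lit 0) (XT.lf (nat_lit 0) (nat_lit 5958037557) (nat_lit 304) (nat_lit 299027) (nat_lit 0) (nat_lit 2426294577) (nat_lit 81) (nat_lit 5) (nat_lit 85) (nat_lit 4) (nat_lit 81) (nat_lit 4) (nat_lit 356) (nat_lit 333) (nat_lit 331)) (XT.lf (nat_lit 0) (nat_lit 2079457397) (nat_lit 228) (nat_lit 1424630119) (nat_lit 304) (nat_lit 5152378916) (nat_lit 73) (nat_lit 5) (nat_lit 76) (nat_lit 5) (nat_lit 77) (nat_lit 4) (nat_lit 357) (nat_lit 333) (nat_lit 330))))))))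
noncomputable def xc34 : XT := (XT.nd (nat_lit 1872) (nat_lit 1140) (nat_lit 0) (XT.nd (nat_lit 936) (nat_lit 1368) (nat_lit 0) (XT.nd (nat_lit 468) (nat_lit 1064) (nat_lit 0) (XT.nd (nat_lit 234) (nat_lit 836) (nat_lit 0) (XT.nd (nat_lit 78) (nat_lit 532) (nat_lit 0) (XT.lf (nat_lit 0) (nat_lit 739912145) (nat_lit 304) (nat_lit 4730459472) (nat_lit 76) (nat_lit 3482616832) (nat_lit 69) (nat_lit 5) (nat_lit 73) (nat_lit 5) (nat_lit 70) (nat_lit 4) (nat_lit 358) (nat_lit 333) (nat_lit 329)) (XT.nd (nat_lit 78) (nat_lit 304) (nat_lit 0) (XT.lf (nat_lit 0) (nat_lit 6416650335) (nat_lit 228) (nat_lit 387073850) (nat_lit 304) (nat_lit 2471440357) (nat_lit 66) (nat_lit 5) (nat_lit 69) (nat_lit 5) (nat_lit 70) (nat_lit 4) (nat_lit 359) (nat_lit 333) (nat_lit 328)) (XT.lf (nat_lit 0) (nat_lit 3562165040) (nat_lit 304) (nat_lit 1001942495) (nat_lit 76) (nat_lit 5058661372) (nat_lit 62) (nat_lit 5)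 (nat_lit 66) (nat_lit 5) (nat_lit 63) (nat_lit 4) (nat_lit 360) (nat_lit 333) (nat_lit 327)))) (XT.nd (nat_lit 78) (nat_lit 456) (nat_lit 0) (XT.lf (nat_lit 0) (nat_lit 927647136) (nat_lit 228) (nat_lit 8989783980) (nat_lit 228) (nat_lit 82600405) (nat_lit 57) (nat_lit 4) (nat_lit 60) (nat_lit 5) (nat_lit 60) (nat_lit 4) (nat_lit 361) (nat_lit 333) (nat_lit 326)) (XT.nd (nat_lit 78) (nat_lit 228) (nat_lit 0) (XT.lf (nat_lit 0) (nat_lit 2805318556) (nat_lit 152) (nat_lit 3358977629) (nat_lit 228) (nat_lit 4238606467) (nat_lit 54) (nat_lit 5) (nat_lit 56) (nat_lit 5) (nat_lit 57) (nat_lit 4) (nat_lit 362) (nat_lit 333) (nat_lit 325)) (XT.lf (nat_lit 0) (nat_lit 1960751731) (nat_lit 228) (nat_lit 6158865266) (nat_lit 76) (nat_lit 2718977560) (nat_lit 51) (nat_lit 5) (nat_lit 54) (nat_lit 5) (nat_lit 52) (nat_lit 4) (nat_lit 363) (nat_lit 333) (nat_lit 324))))) (XT.nd (nat_lit 234) (nat_lit 532)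 (nat_lit 0) (XT.nd (nat_lit 78) (nat_lit 380) (nat_lit 0) (XT.lf (nat_lit 0) (nat_lit 6478796516) (nat_lit 152) (nat_lit 2014818152) (nat_lit 228) (nat_lit 2812860700) (nat_lit 49) (nat_lit 5) (nat_lit 51) (nat_lit 5) (nat_lit 52) (nat_lit 4) (nat_lit 364) (nat_lit 333) (nat_lit 323)) (XT.nd (nat_lit 78) (nat_lit 152) (nat_lit 0) (XT.lf (nat_lit 0) (nat_lit 3630967051) (nat_lit 228) (nat_lit 3634533309) (nat_lit 76) (nat_lit 4542803106) (nat_lit 46) (nat_lit 5) (nat_lit 49) (nat_lit 5) (nat_lit 47) (nat_lit 4) (nat_lit 365) (nat_lit 333) (nat_lit 322)) (XT.lf (nat_lit 0) (nat_lit 9788104335) (nat_lit 152) (nat_lit 691090052) (nat_lit 228) (nat_lit 1869496018) (nat_lit 44) (nat_lit 5) (nat_lit 46) (nat_lit 5) (nat_lit 47) (nat_lit 4) (nat_lit 366) (nat_lit 333) (nat_lit 321)))) (XT.nd (nat_lit 78) (nat_lit 304) (nat_lit 0) (XT.lf (nat_lit 0) (nat_lit 4850988689) (nat_lit 228) (nat_lit 1736259858)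 (nat_lit 76) (nat_lit 6337969574) (nat_lit 41) (nat_lit 5) (nat_lit 44) (nat_lit 5) (nat_lit 42) (nat_lit 4) (nat_lit 367) (nat_lit 333) (nat_lit 320)) (XT.nd (nat_lit 78) (nat_lit 228) (nat_lit 0) (XT.lf (nat_lit 0) (nat_lit 12037063186) (nat_lit 152) (nat_lit 1076368010) (nat_lit 0) (nat_lit 433305789) (nat_lit 40) (nat_lit 5) (nat_lit 42) (nat_lit 4) (nat_lit 40) (nat_lit 4) (nat_lit 368) (nat_lit 333) (nat_lit 319)) (XT.lf (nat_lit 0) (nat_lit 5499665135) (nat_lit 228) (nat_lit 773146333) (nat_lit 76) (nat_lit 7935964164) (nat_lit 37) (nat_lit 5) (nat_lit 40) (nat_lit 5) (nat_lit 38) (nat_lit 4) (nat_lit 369) (nat_lit 333) (nat_lit 318)))))) (XT.nd (nat_lit 468) (nat_lit 532) (nat_lit 0) (XT.nd (nat_lit 234) (nat_lit 456) (nat_lit 0) (XT.nd (nat_lit 78) (nat_lit 304) (nat_lit 0) (XT.lf (nat_lit 0) (nat_lit 13029143319) (nat_lit 152) (nat_lit 728742641) (nat_lit 0) (nat_lit 1164100008)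 (nat_lit 36) (nat_lit 5) (nat_lit 38) (nat_lit 4) (nat_lit 36) (nat_lit 4) (nat_lit 370) (nat_lit 333) (nat_lit 317)) (XT.nd (nat_lit 78) (nat_lit 76) (nat_lit 0) (XT.lf (nat_lit 0) (nat_lit 5403972336) (nat_lit 228) (nat_lit 1149188923) (nat_lit 76) (nat_lit 9129361916) (nat_lit 33) (nat_lit 5) (nat_lit 36) (nat_lit 5) (nat_lit 34) (nat_lit 4) (nat_lit 371) (nat_lit 333) (nat_lit 316)) (XT.lf (nat_lit 0) (nat_lit 13248200442) (nat_lit 152) (nat_lit 1969057988) (nat_lit 0) (nat_lit 1283643394) (nat_lit 32) (nat_lit 5) (nat_lit 34) (nat_lit 4) (nat_lit 32) (nat_lit 4) (nat_lit 372) (nat_lit 333) (nat_lit 315)))) (XT.nd (nat_lit 78) (nat_lit 228) (nat_lit 0) (XT.lf (nat_lit 0) (nat_lit 4325126544) (nat_lit 228) (nat_lit 3393861288) (nat_lit 76) (nat_lit 9655988828) (nat_lit 29) (nat_lit 5) (nat_lit 32) (nat_lit 5) (nat_lit 30) (nat_lit 4) (nat_lit 373) (nat_lit 333) (nat_lit 314)) (XT.nd (nat_lit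 78) (nat_lit 152) (nat_lit 0) (XT.lf (nat_lit 0) (nat_lit 12424454650) (nat_lit 152) (nat_lit 5403382679) (nat_lit 0) (nat_lit 487052517) (nat_lit 28) (nat_lit 5) (nat_lit 30) (nat_lit 4) (nat_lit 28) (nat_lit 4) (nat_lit 374) (nat_lit 333) (nat_lit 313)) (XT.lf (nat_lit 0) (nat_lit 1940302141) (nat_lit 152) (nat_lit 8201318486) (nat_lit 76) (nat_lit 9179097326) (nat_lit 26) (nat_lit 5) (nat_lit 28) (nat_lit 5) (nat_lit 27) (nat_lit 4) (nat_lit 375) (nat_lit 333) (nat_lit 312))))) (XT.nd (nat_lit 234) (nat_lit 228) (nat_lit 0) (XT.nd (nat_lit 78) (nat_lit 228) (nat_lit 0) (XT.lf (nat_lit 0) (nat_lit 8548538026) (nat_lit 76) (nat_lit 1671520564) (nat_lit 152) (nat_lit 10180711664) (nat_lit 25) (nat_lit 5) (nat_lit 26) (nat_lit 5) (nat_lit 27) (nat_lit 4) (nat_lit 376) (nat_lit 333) (nat_lit 311)) (XT.nd (nat_lit 78) (nat_lit 152) (nat_lit 0) (XT.lf (nat_lit 0) (nat_lit 5044078943) (nat_lit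 76) (nat_lit 14262577577) (nat_lit 76) (nat_lit 2253377524) (nat_lit 24) (nat_lit 4) (nat_lit 25) (nat_lit 5) (nat_lit 25) (nat_lit 4) (nat_lit 377) (nat_lit 333) (nat_lit 310)) (XT.lf (nat_lit 0) (nat_lit 437849875) (nat_lit 76) (nat_lit 5722959084) (nat_lit 152) (nat_lit 16643604077) (nat_lit 22) (nat_lit 5) (nat_lit 23) (nat_lit 5) (nat_lit 24) (nat_lit 4) (nat_lit 378) (nat_lit 333) (nat_lit 309)))) (XT.nd (nat_lit 78) (nat_lit 228) (nat_lit 0) (XT.lf (nat_lit 0) (nat_lit 15333182611) (nat_lit 152) (nat_lit 5244231452) (nat_lit 0) (nat_lit 3560906057) (nat_lit 22) (nat_lit 5) (nat_lit 24) (nat_lit 4) (nat_lit 22) (nat_lit 4) (nat_lit 379) (nat_lit 333) (nat_lit 308)) (XT.nd (nat_lit 78) (nat_lit 152) (nat_lit 0) (XT.lf (nat_lit 0) (nat_lit 13250812576) (nat_lit 76) (nat_lit 12121441742) (nat_lit 76) (nat_lit 200062994) (nat_lit 21) (nat_lit 4) (nat_lit 22) (nat_lit 5) (nat_lit 22) (nat_lit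 4) (nat_lit 380) (nat_lit 333) (nat_lit 307)) (XT.lf (nat_lit 0) (nat_lit 6029718974) (nat_lit 76) (nat_lit 2794259225) (nat_lit 152) (nat_lit 18288897289) (nat_lit 19) (nat_lit 5) (nat_lit 20) (nat_lit 5) (nat_lit 21) (nat_lit 4) (nat_lit 381) (nat_lit 333) (nat_lit 306))))))) (XT.nd (nat_lit 936) (nat_lit 456) (nat_lit 0) (XT.nd (nat_lit 468) (nat_lit 304) (nat_lit 0) (XT.nd (nat_lit 234) (nat_lit 152) (nat_lit 0) (XT.nd (nat_lit 78) (nat_lit 228) (nat_lit 0) (XT.lf (nat_lit 0) (nat_lit 18734717649) (nat_lit 152) (nat_lit 2905429928) (nat_lit 0) (nat_lit 7127796283) (nat_lit 19) (nat_lit 5) (nat_lit 21) (nat_lit 4) (nat_lit 19) (nat_lit 4) (nat_lit 382) (nat_lit 333) (nat_lit 305)) (XT.nd (nat_lit 78) (nat_lit 152) (nat_lit 0) (XT.lf (nat_lit 0) (nat_lit 16936297546) (nat_lit 76) (nat_lit 12665310070) (nat_lit 76) (nat_lit 945662867) (nat_lit 18) (nat_lit 4) (nat_lit 19) (nat_lit 5) (nat_lit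 19) (nat_lit 4) (nat_lit 383) (nat_lit 333) (nat_lit 304)) (XT.lf (nat_lit 0) (nat_lit 5770550842) (nat_lit 76) (nat_lit 2812168094) (nat_lit 152) (nat_lit 23879432489) (nat_lit 16) (nat_lit 5) (nat_lit 17) (nat_lit 5) (nat_lit 18) (nat_lit 4) (nat_lit 384) (nat_lit 333) (nat_lit 303)))) (XT.nd (nat_lit 78) (nat_lit 152) (nat_lit 0) (XT.lf (nat_lit 0) (nat_lit 19064549848) (nat_lit 152) (nat_lit 7742163076) (nat_lit 0) (nat_lit 7711533453) (nat_lit 16) (nat_lit 5) (nat_lit 18) (nat_lit 4) (nat_lit 16) (nat_lit 4) (nat_lit 385) (nat_lit 333) (nat_lit 302)) (XT.nd (nat_lit 78) (nat_lit 76) (nat_lit 0) (XT.lf (nat_lit 0) (nat_lit 12836314110) (nat_lit 76) (nat_lit 17667414233) (nat_lit 76) (nat_lit 6229173643) (nat_lit 15) (nat_lit 4) (nat_lit 16) (nat_lit 5) (nat_lit 16) (nat_lit 4) (nat_lit 386) (nat_lit 333) (nat_lit 301)) (XT.lf (nat_lit 0) (nat_lit 3625655564) (nat_lit 152) (nat_lit 4084557972)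 (nat_lit 76) (nat_lit 31411022015) (nat_lit 14) (nat_lit 5) (nat_lit 16) (nat_lit 5) (nat_lit 15) (nat_lit 4) (nat_lit 387) (nat_lit 333) (nat_lit 300))))) (XT.nd (nat_lit 234) (nat_lit 152) (nat_lit 0) (XT.nd (nat_lit 78) (nat_lit 76) (nat_lit 0) (XT.lf (nat_lit 0) (nat_lit 14263505247) (nat_lit 152) (nat_lit 24196189190) (nat_lit 0) (nat_lit 3225202494) (nat_lit 13) (nat_lit 5) (nat_lit 15) (nat_lit 4) (nat_lit 13) (nat_lit 4) (nat_lit 388) (nat_lit 333) (nat_lit 299)) (XT.nd (nat_lit 78) (nat_lit 76) (nat_lit 0) (XT.lf (nat_lit 0) (nat_lit 25842325954) (nat_lit 152) (nat_lit 3867246937) (nat_lit 0) (nat_lit 14739591093) (nat_lit 13) (nat_lit 5) (nat_lit 15) (nat_lit 4) (nat_lit 13) (nat_lit 4) (nat_lit 389) (nat_lit 333) (nat_lit 298)) (XT.lf (nat_lit 0) (nat_lit 18475957162) (nat_lit 76) (nat_lit 20055899220) (nat_lit 76) (nat_lit 8893505000) (nat_lit 12) (nat_lit 4) (nat_lit 13) (nat_lit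 5) (nat_lit 13) (nat_lit 4) (nat_lit 390) (nat_lit 333) (nat_lit 297)))) (XT.nd (nat_lit 78) (nat_lit 76) (nat_lit 0) (XT.lf (nat_lit 0) (nat_lit 1513228756) (nat_lit 152) (nat_lit 8115515416) (nat_lit 76) (nat_lit 41011299662) (nat_lit 11) (nat_lit 5) (nat_lit 13) (nat_lit 5) (nat_lit 12) (nat_lit 4) (nat_lit 391) (nat_lit 333) (nat_lit 296)) (XT.nd (nat_lit 78) (nat_lit 0) (nat_lit 0) (XT.lf (nat_lit 0) (nat_lit 12608445996) (nat_lit 152) (nat_lit 39611524090) (nat_lit 0) (nat_lit 1876272042) (nat_lit 10) (nat_lit 5) (nat_lit 12) (nat_lit 4) (nat_lit 10) (nat_lit 4) (nat_lit 392) (nat_lit 333) (nat_lit 295)) (XT.lf (nat_lit 0) (nat_lit 24806632665) (nat_lit 152) (nat_lit 18982188556) (nat_lit 0) (nat_lit 14029354404) (nat_lit 10) (nat_lit 5) (nat_lit 12) (nat_lit 4) (nat_lit 10) (nat_lit 4) (nat_lit 393) (nat_lit 333) (nat_lit 294)))))) (XT.nd (nat_lit 468) (nat_lit 228) (nat_lit 0) (XT.nd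 (nat_lit 234) (nat_lit 152) (nat_lit 0) (XT.nd (nat_lit 78) (nat_lit 0) (nat_lit 0) (XT.lf (nat_lit 0) (nat_lit 3235860141) (nat_lit 76) (nat_lit 34711362100) (nat_lit 76) (nat_lit 23892320591) (nat_lit 9) (nat_lit 4) (nat_lit 10) (nat_lit 5) (nat_lit 10) (nat_lit 4) (nat_lit 394) (nat_lit 333) (nat_lit 293)) (XT.nd (nat_lit 78) (nat_lit 0) (nat_lit 0) (XT.lf (nat_lit 0) (nat_lit 27751178607) (nat_lit 76) (nat_lit 24638318030) (nat_lit 76) (nat_lit 13780606848) (nat_lit 9) (nat_lit 4) (nat_lit 10) (nat_lit 5) (nat_lit 10) (nat_lit 4) (nat_lit 395) (nat_lit 333) (nat_lit 292)) (XT.lf (nat_lit 0) (nat_lit 54081405922) (nat_lit 76) (nat_lit 13831469447) (nat_lit 76) (nat_lit 2937953011) (nat_lit 9) (nat_lit 4) (nat_lit 10) (nat_lit 5) (nat_lit 10) (nat_lit 4) (nat_lit 396) (nat_lit 333) (nat_lit 291)))) (XT.nd (nat_lit 78) (nat_lit 0) (nat_lit 0) (XT.lf (nat_lit 0) (nat_lit 6546827557) (nat_lit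 76) (nat_lit 1976829518) (nat_lit 152) (nat_lit 67373895873) (nat_lit 7) (nat_lit 5) (nat_lit 8) (nat_lit 5) (nat_lit 9) (nat_lit 4) (nat_lit 397) (nat_lit 333) (nat_lit 290)) (XT.nd (nat_lit 78) (nat_lit 0) (nat_lit 0) (XT.lf (nat_lit 0) (nat_lit 21198766183) (nat_lit 152) (nat_lit 49363691682) (nat_lit 0) (nat_lit 10763178867) (nat_lit 7) (nat_lit 5) (nat_lit 9) (nat_lit 4) (nat_lit 7) (nat_lit 4) (nat_lit 398) (nat_lit 333) (nat_lit 289)) (XT.lf (nat_lit 0) (nat_lit 34858436791) (nat_lit 152) (nat_lit 27935227354) (nat_lit 0) (nat_lit 24395779604) (nat_lit 7) (nat_lit 5) (nat_lit 9) (nat_lit 4) (nat_lit 7) (nat_lit 4) (nat_lit 399) (nat_lit 333) (nat_lit 288))))) (XT.nd (nat_lit 234) (nat_lit 152) (nat_lit 0) (XT.nd (nat_lit 78) (nat_lit 76) (nat_lit 0) (XT.lf (nat_lit 0) (nat_lit 49552751245) (nat_lit 152) (nat_lit 4907485066) (nat_lit 0) (nat_lit 39065029362) (nat_lit 7) (nat_lit 5)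 (nat_lit 9) (nat_lit 4) (nat_lit 7) (nat_lit 4) (nat_lit 400) (nat_lit 333) (nat_lit 287)) (XT.nd (nat_lit 78) (nat_lit 0) (nat_lit 0) (XT.lf (nat_lit 0) (nat_lit 20512524772) (nat_lit 76) (nat_lit 45176520191) (nat_lit 76) (nat_lit 34665590257) (nat_lit 6) (nat_lit 4) (nat_lit 7) (nat_lit 5) (nat_lit 7) (nat_lit 4) (nat_lit 401) (nat_lit 333) (nat_lit 286)) (XT.lf (nat_lit 0) (nat_lit 48039526901) (nat_lit 76) (nat_lit 35110773350) (nat_lit 76) (nat_lit 24578354481) (nat_lit 6) (nat_lit 4) (nat_lit 7) (nat_lit 5) (nat_lit 7) (nat_lit 4) (nat_lit 402) (nat_lit 333) (nat_lit 285)))) (XT.nd (nat_lit 156) (nat_lit 152) (nat_lit 0) (XT.nd (nat_lit 78) (nat_lit 0) (nat_lit 0) (XT.lf (nat_lit 0) (nat_lit 77674380678) (nat_lit 76) (nat_lit 24286457555) (nat_lit 76) (nat_lit 13734141522) (nat_lit 6) (nat_lit 4) (nat_lit 7) (nat_lit 5) (nat_lit 7) (nat_lit 4) (nat_lit 403) (nat_lit 333) (nat_lit 284))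 (XT.lf (nat_lit 0) (nat_lit 109592700050) (nat_lit 76) (nat_lit 12639428712) (nat_lit 76) (nat_lit 2068689379) (nat_lit 6) (nat_lit 4) (nat_lit 7) (nat_lit 5) (nat_lit 7) (nat_lit 4) (nat_lit 404) (nat_lit 333) (nat_lit 283))) (XT.nd (nat_lit 78) (nat_lit 0) (nat_lit 0) (XT.lf (nat_lit 0) (nat_lit 10320175069) (nat_lit 152) (nat_lit 123023812814) (nat_lit 0) (nat_lit 236557981) (nat_lit 4) (nat_lit 5) (nat_lit 6) (nat_lit 4) (nat_lit 4) (nat_lit 4) (nat_lit 405) (nat_lit 333) (nat_lit 282)) (XT.lf (nat_lit 0) (nat_lit 24061911171) (nat_lit 152) (nat_lit 105554084123) (nat_lit 0) (nat_lit 13963251216) (nat_lit 4) (nat_lit 5) (nat_lit 6) (nat_lit 4) (nat_lit 4) (nat_lit 4) (nat_lit 406) (nat_lit 333) (nat_lit 281))))))))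
noncomputable def xc35 : XT := (XT.nd (nat_lit 1872) (nat_lit 0) (nat_lit 0) (XT.nd (nat_lit 936) (nat_lit 152) (nat_lit 0) (XT.nd (nat_lit 468) (nat_lit 0) (nat_lit 0) (XT.nd (nat_lit 234) (nat_lit 76) (nat_lit 0) (XT.nd (nat_lit 78) (nat_lit 0) (nat_lit 0) (XT.lf (nat_lit 0) (nat_lit 38865708819) (nat_lit 152) (nat_lit 86760880114) (nat_lit 0) (nat_lit 28753120285) (nat_lit 4) (nat_lit 5) (nat_lit 6) (nat_lit 4) (nat_lit 4) (nat_lit 4) (nat_lit 407) (nat_lit 333) (nat_lit 280)) (XT.nd (nat_lit 78) (nat_lit 0) (nat_lit 0) (XT.lf (nat_lit 0) (nat_lit 54819294224) (nat_lit 152) (nat_lit 66532833651) (nat_lit 0) (nat_lit 44693808856) (nat_lit 4) (nat_lit 5) (nat_lit 6) (nat_lit 4) (nat_lit 4) (nat_lit 4) (nat_lit 408) (nat_lit 333) (nat_lit 279)) (XT.lf (nat_lit 0) (nat_lit 72017207149) (nat_lit 152) (nat_lit 44750074830) (nat_lit 0) (nat_lit 61879780268) (nat_lit 4) (nat_lit 5) (nat_lit 6)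 (nat_lit 4) (nat_lit 4) (nat_lit 4) (nat_lit 409) (nat_lit 333) (nat_lit 278)))) (XT.nd (nat_lit 78) (nat_lit 76) (nat_lit 0) (XT.lf (nat_lit 0) (nat_lit 90561361153) (nat_lit 152) (nat_lit 21283520636) (nat_lit 0) (nat_lit 80412877316) (nat_lit 4) (nat_lit 5) (nat_lit 6) (nat_lit 4) (nat_lit 4) (nat_lit 4) (nat_lit 410) (nat_lit 333) (nat_lit 277)) (XT.nd (nat_lit 78) (nat_lit 0) (nat_lit 0) (XT.lf (nat_lit 0) (nat_lit 4138342807) (nat_lit 76) (nat_lit 106487915840) (nat_lit 76) (nat_lit 96329194081) (nat_lit 3) (nat_lit 4) (nat_lit 4) (nat_lit 5) (nat_lit 4) (nat_lit 4) (nat_lit 411) (nat_lit 333) (nat_lit 276)) (XT.lf (nat_lit 0) (nat_lit 32301882191) (nat_lit 76) (nat_lit 100339027177) (nat_lit 76) (nat_lit 90170825861) (nat_lit 3) (nat_lit 4) (nat_lit 4) (nat_lit 5) (nat_lit 4) (nat_lit 4) (nat_lit 412) (nat_lit 333) (nat_lit 275))))) (XT.nd (nat_lit 234) (nat_lit 0) (nat_lit 0) (XT.nd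 (nat_lit 78) (nat_lit 0) (nat_lit 0) (XT.lf (nat_lit 0) (nat_lit 62670263252) (nat_lit 76) (nat_lit 93722224663) (nat_lit 76) (nat_lit 83545245979) (nat_lit 3) (nat_lit 4) (nat_lit 4) (nat_lit 5) (nat_lit 4) (nat_lit 4) (nat_lit 413) (nat_lit 333) (nat_lit 274)) (XT.nd (nat_lit 78) (nat_lit 0) (nat_lit 0) (XT.lf (nat_lit 0) (nat_lit 95423446767) (nat_lit 76) (nat_lit 86598297615) (nat_lit 76) (nat_lit 76413191738) (nat_lit 3) (nat_lit 4) (nat_lit 4) (nat_lit 5) (nat_lit 4) (nat_lit 4) (nat_lit 414) (nat_lit 333) (nat_lit 273)) (XT.lf (nat_lit 0) (nat_lit 130755525674) (nat_lit 76) (nat_lit 78925030169) (nat_lit 76) (nat_lit 68732399114) (nat_lit 3) (nat_lit 4) (nat_lit 4) (nat_lit 5) (nat_lit 4) (nat_lit 4) (nat_lit 415) (nat_lit 333) (nat_lit 272)))) (XT.nd (nat_lit 78) (nat_lit 0) (nat_lit 0) (XT.lf (nat_lit 0) (nat_lit 168875875257) (nat_lit 76) (nat_lit 70656951112) (nat_lit 76) (nat_lit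 60457352300) (nat_lit 3) (nat_lit 4) (nat_lit 4) (nat_lit 5) (nat_lit 4) (nat_lit 4) (nat_lit 416) (nat_lit 333) (nat_lit 271)) (XT.nd (nat_lit 78) (nat_lit 0) (nat_lit 0) (XT.lf (nat_lit 0) (nat_lit 210010393883) (nat_lit 76) (nat_lit 61745064419) (nat_lit 76) (nat_lit 51539013979) (nat_lit 3) (nat_lit 4) (nat_lit 4) (nat_lit 5) (nat_lit 4) (nat_lit 4) (nat_lit 417) (nat_lit 333) (nat_lit 270)) (XT.lf (nat_lit 0) (nat_lit 254402841663) (nat_lit 76) (nat_lit 52136558910) (nat_lit 76) (nat_lit 41924534740) (nat_lit 3) (nat_lit 4) (nat_lit 4) (nat_lit 5) (nat_lit 4) (nat_lit 4) (nat_lit 418) (nat_lit 333) (nat_lit 269)))))) (XT.nd (nat_lit 468) (nat_lit 0) (nat_lit 0) (XT.nd (nat_lit 234) (nat_lit 152) (nat_lit 0) (XT.nd (nat_lit 78) (nat_lit 0) (nat_lit 0) (XT.lf (nat_lit 0) (nat_lit 302316284954) (nat_lit 76) (nat_lit 41774495292) (nat_lit 76) (nat_lit 31556939892) (nat_lit 3) (nat_lit 4)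 (nat_lit 4) (nat_lit 5) (nat_lit 4) (nat_lit 4) (nat_lit 419) (nat_lit 333) (nat_lit 268)) (XT.nd (nat_lit 78) (nat_lit 0) (nat_lit 0) (XT.lf (nat_lit 0) (nat_lit 354034655271) (nat_lit 76) (nat_lit 30597468745) (nat_lit 76) (nat_lit 20374791835) (nat_lit 3) (nat_lit 4) (nat_lit 4) (nat_lit 5) (nat_lit 4) (nat_lit 4) (nat_lit 420) (nat_lit 333) (nat_lit 267)) (XT.lf (nat_lit 0) (nat_lit 409864431847) (nat_lit 76) (nat_lit 18539245036) (nat_lit 76) (nat_lit 8311825987) (nat_lit 3) (nat_lit 4) (nat_lit 4) (nat_lit 5) (nat_lit 4) (nat_lit 4) (nat_lit 421) (nat_lit 333) (nat_lit 266)))) (XT.nd (nat_lit 78) (nat_lit 76) (nat_lit 0) (XT.lf (nat_lit 0) (nat_lit 4552902377) (nat_lit 152) (nat_lit 898360044) (nat_lit 76) (nat_lit 465506449818) (nat_lit 2) (nat_lit 5) (nat_lit 4) (nat_lit 5) (nat_lit 3) (nat_lit 4) (nat_lit 422) (nat_lit 333) (nat_lit 265)) (XT.nd (nat_lit 78) (nat_lit 0) (nat_lit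 0) (XT.lf (nat_lit 0) (nat_lit 18727873920) (nat_lit 152) (nat_lit 480196577495) (nat_lit 0) (nat_lit 8979421027) (nat_lit 1) (nat_lit 5) (nat_lit 3) (nat_lit 4) (nat_lit 1) (nat_lit 4) (nat_lit 423) (nat_lit 333) (nat_lit 264)) (XT.lf (nat_lit 0) (nat_lit 34133589467) (nat_lit 152) (nat_lit 489285747861) (nat_lit 0) (nat_lit 24381551371) (nat_lit 1) (nat_lit 5) (nat_lit 3) (nat_lit 4) (nat_lit 1) (nat_lit 4) (nat_lit 424) (nat_lit 333) (nat_lit 263))))) (XT.nd (nat_lit 234) (nat_lit 0) (nat_lit 0) (XT.nd (nat_lit 78) (nat_lit 0) (nat_lit 0) (XT.lf (nat_lit 0) (nat_lit 50761505448) (nat_lit 152) (nat_lit 499122526439) (nat_lit 0) (nat_lit 41006147720) (nat_lit 1) (nat_lit 5) (nat_lit 3) (nat_lit 4) (nat_lit 1) (nat_lit 4) (nat_lit 425) (nat_lit 333) (nat_lit 262)) (XT.nd (nat_lit 78) (nat_lit 0) (nat_lit 0) (XT.lf (nat_lit 0) (nat_lit 68710157663) (nat_lit 152) (nat_lit 509765205249) (nat_lit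 0) (nat_lit 58951726202) (nat_lit 1) (nat_lit 5) (nat_lit 3) (nat_lit 4) (nat_lit 1) (nat_lit 4) (nat_lit 426) (nat_lit 333) (nat_lit 261)) (XT.lf (nat_lit 0) (nat_lit 88085908495) (nat_lit 152) (nat_lit 521276852017) (nat_lit 0) (nat_lit 78324630984) (nat_lit 1) (nat_lit 5) (nat_lit 3) (nat_lit 4) (nat_lit 1) (nat_lit 4) (nat_lit 427) (nat_lit 333) (nat_lit 260)))) (XT.nd (nat_lit 78) (nat_lit 0) (nat_lit 0) (XT.lf (nat_lit 0) (nat_lit 109003577208) (nat_lit 152) (nat_lit 533725683911) (nat_lit 0) (nat_lit 99239664467) (nat_lit 1) (nat_lit 5) (nat_lit 3) (nat_lit 4) (nat_lit 1) (nat_lit 4) (nat_lit 428) (nat_lit 333) (nat_lit 259)) (XT.nd (nat_lit 78) (nat_lit 0) (nat_lit 0) (XT.lf (nat_lit 0) (nat_lit 131587120358) (nat_lit 152) (nat_lit 547185471785) (nat_lit 0) (nat_lit 121820767587) (nat_lit 1) (nat_lit 5) (nat_lit 3) (nat_lit 4) (nat_lit 1) (nat_lit 4) (nat_lit 429) (nat_lit 333) (nat_lit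 258)) (XT.lf (nat_lit 0) (nat_lit 155970366347) (nat_lit 152) (nat_lit 561735977346) (nat_lit 0) (nat_lit 146201754291) (nat_lit 1) (nat_lit 5) (nat_lit 3) (nat_lit 4) (nat_lit 1) (nat_lit 4) (nat_lit 430) (nat_lit 333) (nat_lit 257))))))) (XT.nd (nat_lit 47502) (nat_lit 0) (nat_lit 2432) (XT.nd (nat_lit 47034) (nat_lit 0) (nat_lit 5168) (XT.nd (nat_lit 234) (nat_lit 0) (nat_lit 0) (XT.nd (nat_lit 78) (nat_lit 0) (nat_lit 0) (XT.lf (nat_lit 0) (nat_lit 182297808487) (nat_lit 152) (nat_lit 577463425811) (nat_lit 0) (nat_lit 172527104499) (nat_lit 1) (nat_lit 5) (nat_lit 3) (nat_lit 4) (nat_lit 1) (nat_lit 4) (nat_lit 431) (nat_lit 333) (nat_lit 256)) (XT.nd (nat_lit 78) (nat_lit 0) (nat_lit 0) (XT.lf (nat_lit 0) (nat_lit 210725461248) (nat_lit 152) (nat_lit 594461016876) (nat_lit 0) (nat_lit 200952820287) (nat_lit 1) (nat_lit 5) (nat_lit 3) (nat_lit 4) (nat_lit 1) (nat_lit 4) (nat_lit 432)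 (nat_lit 333) (nat_lit 255)) (XT.lf (nat_lit 0) (nat_lit 241421784795) (nat_lit 152) (nat_lit 612829477005) (nat_lit 0) (nat_lit 231647350341) (nat_lit 1) (nat_lit 5) (nat_lit 3) (nat_lit 4) (nat_lit 1) (nat_lit 4) (nat_lit 433) (nat_lit 333) (nat_lit 254)))) (XT.nd (nat_lit 78) (nat_lit 0) (nat_lit 0) (XT.lf (nat_lit 0) (nat_lit 274568683269) (nat_lit 152) (nat_lit 632677656334) (nat_lit 0) (nat_lit 264792588172) (nat_lit 1) (nat_lit 5) (nat_lit 3) (nat_lit 4) (nat_lit 1) (nat_lit 4) (nat_lit 434) (nat_lit 333) (nat_lit 253)) (XT.nd (nat_lit 46644) (nat_lit 0) (nat_lit 7448) (XT.lf (nat_lit 0) (nat_lit 310362582733) (nat_lit 152) (nat_lit 654123173701) (nat_lit 0) (nat_lit 300584950004) (nat_lit 1) (nat_lit 5) (nat_lit 3) (nat_lit 4) (nat_lit 1) (nat_lit 4) (nat_lit 435) (nat_lit 333) (nat_lit 252)) (XT.lf (nat_lit 0) (nat_lit 135749201) (nat_lit 380) (nat_lit 3485168324) (nat_lit 0) (nat_lit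 135749201) (nat_lit 99) (nat_lit 5) (nat_lit 104) (nat_lit 4) (nat_lit 99) (nat_lit 4) (nat_lit 352) (nat_lit 334) (nat_lit 334))))) (XT.nd (nat_lit 234) (nat_lit 1140) (nat_lit 0) (XT.nd (nat_lit 78) (nat_lit 760) (nat_lit 0) (XT.lf (nat_lit 0) (nat_lit 2130038743) (nat_lit 380) (nat_lit 3878889198) (nat_lit 380) (nat_lit 1695395892) (nat_lit 94) (nat_lit 4) (nat_lit 99) (nat_lit 5) (nat_lit 99) (nat_lit 4) (nat_lit 353) (nat_lit 334) (nat_lit 333)) (XT.nd (nat_lit 78) (nat_lit 380) (nat_lit 0) (XT.lf (nat_lit 0) (nat_lit 3860576691) (nat_lit 304) (nat_lit 73971141) (nat_lit 380) (nat_lit 3984126887) (nat_lit 89) (nat_lit 5) (nat_lit 93) (nat_lit 5) (nat_lit 94) (nat_lit 4) (nat_lit 354) (nat_lit 334) (nat_lit 332)) (XT.lf (nat_lit 0) (nat_lit 1612728467) (nat_lit 380) (nat_lit 2481754203) (nat_lit 76) (nat_lit 4059959809) (nat_lit 84) (nat_lit 5) (nat_lit 89) (nat_lit 5) (nat_lit 85) (nat_lit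 4) (nat_lit 355) (nat_lit 334) (nat_lit 331)))) (XT.nd (nat_lit 78) (nat_lit 912) (nat_lit 0) (XT.lf (nat_lit 0) (nat_lit 7345528068) (nat_lit 304) (nat_lit 808017625) (nat_lit 0) (nat_lit 261113261) (nat_lit 81) (nat_lit 5) (nat_lit 85) (nat_lit 4) (nat_lit 81) (nat_lit 4) (nat_lit 356) (nat_lit 334) (nat_lit 330)) (XT.nd (nat_lit 78) (nat_lit 304) (nat_lit 0) (XT.lf (nat_lit 0) (nat_lit 912103368) (nat_lit 228) (nat_lit 3698745169) (nat_lit 304) (nat_lit 4085051312) (nat_lit 73) (nat_lit 5) (nat_lit 76) (nat_lit 5) (nat_lit 77) (nat_lit 4) (nat_lit 357) (nat_lit 334) (nat_lit 329)) (XT.lf (nat_lit 0) (nat_lit 1543554070) (nat_lit 304) (nat_lit 6252882013) (nat_lit 76) (nat_lit 1206719277) (nat_lit 69) (nat_lit 5) (nat_lit 73) (nat_lit 5) (nat_lit 70) (nat_lit 4) (nat_lit 358) (nat_lit 334) (nat_lit 328)))))) (XT.nd (nat_lit 468) (nat_lit 1216) (nat_lit 0) (XT.nd (nat_lit 234) (nat_lit 836)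 (nat_lit 0) (XT.nd (nat_lit 78) (nat_lit 456) (nat_lit 0) (XT.lf (nat_lit 0) (nat_lit 4600462283) (nat_lit 228) (nat_lit 2817218577) (nat_lit 304) (nat_lit 1917218622) (nat_lit 66) (nat_lit 5) (nat_lit 69) (nat_lit 5) (nat_lit 70) (nat_lit 4) (nat_lit 359) (nat_lit 334) (nat_lit 327)) (XT.nd (nat_lit 78) (nat_lit 152) (nat_lit 0) (XT.lf (nat_lit 0) (nat_lit 3869520716) (nat_lit 304) (nat_lit 3216390630) (nat_lit 76) (nat_lit 2607690096) (nat_lit 62) (nat_lit 5) (nat_lit 66) (nat_lit 5) (nat_lit 63) (nat_lit 4) (nat_lit 360) (nat_lit 334) (nat_lit 326)) (XT.lf (nat_lit 0) (nat_lit 8393521906) (nat_lit 152) (nat_lit 1612795316) (nat_lit 228) (nat_lit 75538710) (nat_lit 60) (nat_lit 5) (nat_lit 62) (nat_lit 5) (nat_lit 63) (nat_lit 4) (nat_lit 361) (nat_lit 334) (nat_lit 325)))) (XT.nd (nat_lit 78) (nat_lit 532) (nat_lit 0) (XT.lf (nat_lit 0) (nat_lit 5926307046) (nat_lit 304) (nat_lit 249221326)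 (nat_lit 76) (nat_lit 4321494734) (nat_lit 56) (nat_lit 5) (nat_lit 60) (nat_lit 5) (nat_lit 57) (nat_lit 4) (nat_lit 362) (nat_lit 334) (nat_lit 324)) (XT.nd (nat_lit 78) (nat_lit 152) (nat_lit 0) (XT.lf (nat_lit 0) (nat_lit 1232275746) (nat_lit 152) (nat_lit 161445483) (nat_lit 228) (nat_lit 9551583753) (nat_lit 51) (nat_lit 5) (nat_lit 53) (nat_lit 5) (nat_lit 54) (nat_lit 5) (nat_lit 363) (nat_lit 334) (nat_lit 323)) (XT.lf (nat_lit 0) (nat_lit 2576886090) (nat_lit 152) (nat_lit 5149045113) (nat_lit 228) (nat_lit 3697336485) (nat_lit 49) (nat_lit 5) (nat_lit 51) (nat_lit 5) (nat_lit 52) (nat_lit 4) (nat_lit 364) (nat_lit 334) (nat_lit 322))))) (XT.nd (nat_lit 234) (nat_lit 608) (nat_lit 0) (XT.nd (nat_lit 78) (nat_lit 380) (nat_lit 0) (XT.lf (nat_lit 0) (nat_lit 2522417252) (nat_lit 228) (nat_lit 8075056717) (nat_lit 76) (nat_lit 1340974840) (nat_lit 46) (nat_lit 5) (nat_lit 49) (nat_lit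 5) (nat_lit 47) (nat_lit 4) (nat_lit 365) (nat_lit 334) (nat_lit 321)) (XT.nd (nat_lit 78) (nat_lit 228) (nat_lit 0) (XT.lf (nat_lit 0) (nat_lit 4978153966) (nat_lit 152) (nat_lit 4190015740) (nat_lit 228) (nat_lit 3320829998) (nat_lit 44) (nat_lit 5) (nat_lit 46) (nat_lit 5) (nat_lit 47) (nat_lit 4) (nat_lit 366) (nat_lit 334) (nat_lit 320)) (XT.lf (nat_lit 0) (nat_lit 3182338461) (nat_lit 228) (nat_lit 7138025637) (nat_lit 76) (nat_lit 2759520152) (nat_lit 41) (nat_lit 5) (nat_lit 44) (nat_lit 5) (nat_lit 42) (nat_lit 4) (nat_lit 367) (nat_lit 334) (nat_lit 319)))) (XT.nd (nat_lit 156) (nat_lit 304) (nat_lit 0) (XT.nd (nat_lit 78) (nat_lit 228) (nat_lit 0) (XT.lf (nat_lit 0) (nat_lit 6684864813) (nat_lit 76) (nat_lit 3467609276) (nat_lit 152) (nat_lit 3559758801) (nat_lit 40) (nat_lit 5) (nat_lit 41) (nat_lit 5) (nat_lit 42) (nat_lit 4) (nat_lit 368) (nat_lit 334) (nat_lit 318)) (XT.lf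 (nat_lit 0) (nat_lit 3244191354) (nat_lit 228) (nat_lit 7215202452) (nat_lit 76) (nat_lit 3930057277) (nat_lit 37) (nat_lit 5) (nat_lit 40) (nat_lit 5) (nat_lit 38) (nat_lit 4) (nat_lit 369) (nat_lit 334) (nat_lit 317))) (XT.nd (nat_lit 78) (nat_lit 228) (nat_lit 0) (XT.lf (nat_lit 0) (nat_lit 7355384984) (nat_lit 76) (nat_lit 3181972606) (nat_lit 152) (nat_lit 4577146236) (nat_lit 36) (nat_lit 5) (nat_lit 37) (nat_lit 5) (nat_lit 38) (nat_lit 4) (nat_lit 370) (nat_lit 334) (nat_lit 316)) (XT.lf (nat_lit 0) (nat_lit 2529242447) (nat_lit 228) (nat_lit 8718313362) (nat_lit 76) (nat_lit 4643421379) (nat_lit 33) (nat_lit 5) (nat_lit 36) (nat_lit 5) (nat_lit 34) (nat_lit 4) (nat_lit 371) (nat_lit 334) (nat_lit 315))))))))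
noncomputable def xc36 : XT := (XT.nd (nat_lit 1872) (nat_lit 456) (nat_lit 0) (XT.nd (nat_lit 936) (nat_lit 684) (nat_lit 0) (XT.nd (nat_lit 468) (nat_lit 532) (nat_lit 0) (XT.nd (nat_lit 234) (nat_lit 228) (nat_lit 0) (XT.nd (nat_lit 78) (nat_lit 304) (nat_lit 0) (XT.lf (nat_lit 0) (nat_lit 6541395666) (nat_lit 76) (nat_lit 3583121594) (nat_lit 152) (nat_lit 6597308131) (nat_lit 32) (nat_lit 5) (nat_lit 33) (nat_lit 5) (nat_lit 34) (nat_lit 4) (nat_lit 372) (nat_lit 334) (nat_lit 314)) (XT.nd (nat_lit 78) (nat_lit 76) (nat_lit 0) (XT.lf (nat_lit 0) (nat_lit 792819586) (nat_lit 228) (nat_lit 12185635399) (nat_lit 76) (nat_lit 4634812904) (nat_lit 29) (nat_lit 5) (nat_lit 32) (nat_lit 5) (nat_lit 30) (nat_lit 4) (nat_lit 373) (nat_lit 334) (nat_lit 313)) (XT.lf (nat_lit 0) (nat_lit 3653932002) (nat_lit 76) (nat_lit 4989219259) (nat_lit 152) (nat_lit 9922497510) (nat_lit 28) (nat_lit 5) (nat_lit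 29) (nat_lit 5) (nat_lit 30) (nat_lit 4) (nat_lit 374) (nat_lit 334) (nat_lit 312)))) (XT.nd (nat_lit 78) (nat_lit 152) (nat_lit 0) (XT.lf (nat_lit 0) (nat_lit 1231109288) (nat_lit 76) (nat_lit 15988340549) (nat_lit 76) (nat_lit 2369907689) (nat_lit 27) (nat_lit 4) (nat_lit 28) (nat_lit 5) (nat_lit 28) (nat_lit 4) (nat_lit 375) (nat_lit 334) (nat_lit 311)) (XT.nd (nat_lit 78) (nat_lit 76) (nat_lit 0) (XT.lf (nat_lit 0) (nat_lit 5761885061) (nat_lit 152) (nat_lit 2013646455) (nat_lit 76) (nat_lit 12906933727) (nat_lit 26) (nat_lit 5) (nat_lit 28) (nat_lit 5) (nat_lit 27) (nat_lit 4) (nat_lit 376) (nat_lit 334) (nat_lit 310)) (XT.lf (nat_lit 0) (nat_lit 14554071197) (nat_lit 152) (nat_lit 6098082353) (nat_lit 0) (nat_lit 1204309585) (nat_lit 25) (nat_lit 5) (nat_lit 27) (nat_lit 4) (nat_lit 25) (nat_lit 4) (nat_lit 377) (nat_lit 334) (nat_lit 309))))) (XT.nd (nat_lit 234) (nat_lit 228) (nat_lit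 0) (XT.nd (nat_lit 78) (nat_lit 152) (nat_lit 0) (XT.lf (nat_lit 0) (nat_lit 1081877412) (nat_lit 152) (nat_lit 11300994804) (nat_lit 76) (nat_lit 10731499146) (nat_lit 23) (nat_lit 5) (nat_lit 25) (nat_lit 5) (nat_lit 24) (nat_lit 4) (nat_lit 378) (nat_lit 334) (nat_lit 308)) (XT.nd (nat_lit 78) (nat_lit 76) (nat_lit 0) (XT.lf (nat_lit 0) (nat_lit 6688712890) (nat_lit 76) (nat_lit 3245001106) (nat_lit 152) (nat_lit 14530602337) (nat_lit 22) (nat_lit 5) (nat_lit 23) (nat_lit 5) (nat_lit 24) (nat_lit 4) (nat_lit 379) (nat_lit 334) (nat_lit 307)) (XT.lf (nat_lit 0) (nat_lit 208121580) (nat_lit 76) (nat_lit 19434480096) (nat_lit 76) (nat_lit 6272231267) (nat_lit 21) (nat_lit 4) (nat_lit 22) (nat_lit 5) (nat_lit 22) (nat_lit 4) (nat_lit 380) (nat_lit 334) (nat_lit 306)))) (XT.nd (nat_lit 78) (nat_lit 152) (nat_lit 0) (XT.lf (nat_lit 0) (nat_lit 2778395235) (nat_lit 152) (nat_lit 7594369696) (nat_lit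 76) (nat_lit 17095763474) (nat_lit 20) (nat_lit 5) (nat_lit 22) (nat_lit 5) (nat_lit 21) (nat_lit 4) (nat_lit 381) (nat_lit 334) (nat_lit 305)) (XT.nd (nat_lit 78) (nat_lit 76) (nat_lit 0) (XT.lf (nat_lit 0) (nat_lit 11973451355) (nat_lit 76) (nat_lit 407960065) (nat_lit 152) (nat_lit 16757579861) (nat_lit 19) (nat_lit 5) (nat_lit 20) (nat_lit 5) (nat_lit 21) (nat_lit 4) (nat_lit 382) (nat_lit 334) (nat_lit 304)) (XT.lf (nat_lit 0) (nat_lit 2080122011) (nat_lit 76) (nat_lit 20863869843) (nat_lit 76) (nat_lit 7989549251) (nat_lit 18) (nat_lit 4) (nat_lit 19) (nat_lit 5) (nat_lit 19) (nat_lit 4) (nat_lit 383) (nat_lit 334) (nat_lit 303)))))) (XT.nd (nat_lit 468) (nat_lit 304) (nat_lit 0) (XT.nd (nat_lit 234) (nat_lit 228) (nat_lit 0) (XT.nd (nat_lit 78) (nat_lit 76) (nat_lit 0) (XT.lf (nat_lit 0) (nat_lit 1610145699) (nat_lit 152) (nat_lit 9670166145) (nat_lit 76) (nat_lit 21581322516) (nat_lit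 17) (nat_lit 5) (nat_lit 19) (nat_lit 5) (nat_lit 18) (nat_lit 4) (nat_lit 384) (nat_lit 334) (nat_lit 302)) (XT.nd (nat_lit 78) (nat_lit 0) (nat_lit 0) (XT.lf (nat_lit 0) (nat_lit 11028042946) (nat_lit 76) (nat_lit 722441531) (nat_lit 152) (nat_lit 23184325747) (nat_lit 16) (nat_lit 5) (nat_lit 17) (nat_lit 5) (nat_lit 18) (nat_lit 4) (nat_lit 385) (nat_lit 334) (nat_lit 301)) (XT.lf (nat_lit 0) (nat_lit 22920535113) (nat_lit 152) (nat_lit 3839293161) (nat_lit 0) (nat_lit 10403099791) (nat_lit 16) (nat_lit 5) (nat_lit 18) (nat_lit 4) (nat_lit 16) (nat_lit 4) (nat_lit 386) (nat_lit 334) (nat_lit 300)))) (XT.nd (nat_lit 78) (nat_lit 152) (nat_lit 0) (XT.lf (nat_lit 0) (nat_lit 18188931032) (nat_lit 76) (nat_lit 16980799912) (nat_lit 76) (nat_lit 4390298580) (nat_lit 15) (nat_lit 4) (nat_lit 16) (nat_lit 5) (nat_lit 16) (nat_lit 4) (nat_lit 387) (nat_lit 334) (nat_lit 299)) (XT.nd (nat_lit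 78) (nat_lit 76) (nat_lit 0) (XT.lf (nat_lit 0) (nat_lit 6010526225) (nat_lit 152) (nat_lit 336576282) (nat_lit 76) (nat_lit 35798897498) (nat_lit 14) (nat_lit 5) (nat_lit 16) (nat_lit 5) (nat_lit 15) (nat_lit 4) (nat_lit 388) (nat_lit 334) (nat_lit 298)) (XT.lf (nat_lit 0) (nat_lit 17434705631) (nat_lit 152) (nat_lit 22163637393) (nat_lit 0) (nat_lit 5319660515) (nat_lit 13) (nat_lit 5) (nat_lit 15) (nat_lit 4) (nat_lit 13) (nat_lit 4) (nat_lit 389) (nat_lit 334) (nat_lit 297))))) (XT.nd (nat_lit 234) (nat_lit 152) (nat_lit 0) (XT.nd (nat_lit 78) (nat_lit 152) (nat_lit 0) (XT.lf (nat_lit 0) (nat_lit 29789452739) (nat_lit 152) (nat_lit 502323977) (nat_lit 0) (nat_lit 17619167475) (nat_lit 13) (nat_lit 5) (nat_lit 15) (nat_lit 4) (nat_lit 13) (nat_lit 4) (nat_lit 390) (nat_lit 334) (nat_lit 296)) (XT.nd (nat_lit 78) (nat_lit 76) (nat_lit 0) (XT.lf (nat_lit 0) (nat_lit 23468655731) (nat_lit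 76) (nat_lit 19941122916) (nat_lit 76) (nat_lit 7719689368) (nat_lit 12) (nat_lit 4) (nat_lit 13) (nat_lit 5) (nat_lit 13) (nat_lit 4) (nat_lit 391) (nat_lit 334) (nat_lit 295)) (XT.lf (nat_lit 0) (nat_lit 3324060006) (nat_lit 152) (nat_lit 5454470057) (nat_lit 76) (nat_lit 45828093189) (nat_lit 11) (nat_lit 5) (nat_lit 13) (nat_lit 5) (nat_lit 12) (nat_lit 4) (nat_lit 392) (nat_lit 334) (nat_lit 294)))) (XT.nd (nat_lit 78) (nat_lit 76) (nat_lit 0) (XT.lf (nat_lit 0) (nat_lit 15255400104) (nat_lit 152) (nat_lit 39557430038) (nat_lit 0) (nat_lit 3529072027) (nat_lit 10) (nat_lit 5) (nat_lit 12) (nat_lit 4) (nat_lit 10) (nat_lit 4) (nat_lit 393) (nat_lit 334) (nat_lit 293)) (XT.nd (nat_lit 78) (nat_lit 76) (nat_lit 0) (XT.lf (nat_lit 0) (nat_lit 28308087749) (nat_lit 152) (nat_lit 17516489586) (nat_lit 0) (nat_lit 16543089999) (nat_lit 10) (nat_lit 5) (nat_lit 12) (nat_lit 4) (nat_lit 10) (nat_lit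 4) (nat_lit 394) (nat_lit 334) (nat_lit 292)) (XT.lf (nat_lit 0) (nat_lit 6349310094) (nat_lit 76) (nat_lit 36082817633) (nat_lit 76) (nat_lit 24282014629) (nat_lit 9) (nat_lit 4) (nat_lit 10) (nat_lit 5) (nat_lit 10) (nat_lit 4) (nat_lit 395) (nat_lit 334) (nat_lit 291))))))) (XT.nd (nat_lit 936) (nat_lit 76) (nat_lit 0) (XT.nd (nat_lit 468) (nat_lit 228) (nat_lit 0) (XT.nd (nat_lit 234) (nat_lit 0) (nat_lit 0) (XT.nd (nat_lit 78) (nat_lit 152) (nat_lit 0) (XT.lf (nat_lit 0) (nat_lit 32614403582) (nat_lit 76) (nat_lit 25308037699) (nat_lit 76) (nat_lit 13474081683) (nat_lit 9) (nat_lit 4) (nat_lit 10) (nat_lit 5) (nat_lit 10) (nat_lit 4) (nat_lit 396) (nat_lit 334) (nat_lit 290)) (XT.nd (nat_lit 78) (nat_lit 152) (nat_lit 0) (XT.lf (nat_lit 0) (nat_lit 60855261624) (nat_lit 76) (nat_lit 13733037213) (nat_lit 76) (nat_lit 1868383963) (nat_lit 9) (nat_lit 4) (nat_lit 10) (nat_lit 5) (nat_lit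 10) (nat_lit 4) (nat_lit 397) (nat_lit 334) (nat_lit 289)) (XT.lf (nat_lit 0) (nat_lit 9451583282) (nat_lit 76) (nat_lit 960445935) (nat_lit 152) (nat_lit 71496922701) (nat_lit 7) (nat_lit 5) (nat_lit 8) (nat_lit 5) (nat_lit 9) (nat_lit 4) (nat_lit 398) (nat_lit 334) (nat_lit 288)))) (XT.nd (nat_lit 78) (nat_lit 0) (nat_lit 0) (XT.lf (nat_lit 0) (nat_lit 24028757552) (nat_lit 152) (nat_lit 51069197126) (nat_lit 0) (nat_lit 12676953224) (nat_lit 7) (nat_lit 5) (nat_lit 9) (nat_lit 4) (nat_lit 7) (nat_lit 4) (nat_lit 399) (nat_lit 334) (nat_lit 287)) (XT.nd (nat_lit 78) (nat_lit 0) (nat_lit 0) (XT.lf (nat_lit 0) (nat_lit 38697195136) (nat_lit 152) (nat_lit 28092647496) (nat_lit 0) (nat_lit 27322182757) (nat_lit 7) (nat_lit 5) (nat_lit 9) (nat_lit 4) (nat_lit 7) (nat_lit 4) (nat_lit 400) (nat_lit 334) (nat_lit 286)) (XT.lf (nat_lit 0) (nat_lit 54489270791) (nat_lit 152) (nat_lit 3376567162)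 (nat_lit 0) (nat_lit 43092769475) (nat_lit 7) (nat_lit 5) (nat_lit 9) (nat_lit 4) (nat_lit 7) (nat_lit 4) (nat_lit 401) (nat_lit 334) (nat_lit 285))))) (XT.nd (nat_lit 234) (nat_lit 152) (nat_lit 0) (XT.nd (nat_lit 78) (nat_lit 0) (nat_lit 0) (XT.lf (nat_lit 0) (nat_lit 23993449771) (nat_lit 76) (nat_lit 47879722408) (nat_lit 76) (nat_lit 36463323929) (nat_lit 6) (nat_lit 4) (nat_lit 7) (nat_lit 5) (nat_lit 7) (nat_lit 4) (nat_lit 402) (nat_lit 334) (nat_lit 284)) (XT.nd (nat_lit 78) (nat_lit 0) (nat_lit 0) (XT.lf (nat_lit 0) (nat_lit 53586321477) (nat_lit 76) (nat_lit 37076191332) (nat_lit 76) (nat_lit 25641369553) (nat_lit 6) (nat_lit 4) (nat_lit 7) (nat_lit 5) (nat_lit 7) (nat_lit 4) (nat_lit 403) (nat_lit 334) (nat_lit 283)) (XT.lf (nat_lit 0) (nat_lit 85465768561) (nat_lit 76) (nat_lit 25448407598) (nat_lit 76) (nat_lit 13996527209) (nat_lit 6) (nat_lit 4) (nat_lit 7) (nat_lit 5) (nat_lit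 7) (nat_lit 4) (nat_lit 404) (nat_lit 334) (nat_lit 282)))) (XT.nd (nat_lit 78) (nat_lit 152) (nat_lit 0) (XT.lf (nat_lit 0) (nat_lit 119820706266) (nat_lit 76) (nat_lit 12927465822) (nat_lit 76) (nat_lit 1459790423) (nat_lit 6) (nat_lit 4) (nat_lit 7) (nat_lit 5) (nat_lit 7) (nat_lit 4) (nat_lit 405) (nat_lit 334) (nat_lit 281)) (XT.nd (nat_lit 78) (nat_lit 0) (nat_lit 0) (XT.lf (nat_lit 0) (nat_lit 11873055658) (nat_lit 152) (nat_lit 131419997260) (nat_lit 0) (nat_lit 937531461) (nat_lit 4) (nat_lit 5) (nat_lit 6) (nat_lit 4) (nat_lit 4) (nat_lit 4) (nat_lit 406) (nat_lit 334) (nat_lit 280)) (XT.lf (nat_lit 0) (nat_lit 26660259049) (nat_lit 152) (nat_lit 112659780687) (nat_lit 0) (nat_lit 15711838018) (nat_lit 4) (nat_lit 5) (nat_lit 6) (nat_lit 4) (nat_lit 4) (nat_lit 4) (nat_lit 407) (nat_lit 334) (nat_lit 279)))))) (XT.nd (nat_lit 468) (nat_lit 0) (nat_lit 0) (XT.nd (nat_lit 234) (nat_lit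 76) (nat_lit 0) (XT.nd (nat_lit 78) (nat_lit 0) (nat_lit 0) (XT.lf (nat_lit 0) (nat_lit 42598479400) (nat_lit 152) (nat_lit 92462278147) (nat_lit 0) (nat_lit 31638116857) (nat_lit 4) (nat_lit 5) (nat_lit 6) (nat_lit 4) (nat_lit 4) (nat_lit 4) (nat_lit 408) (nat_lit 334) (nat_lit 278)) (XT.nd (nat_lit 78) (nat_lit 0) (nat_lit 0) (XT.lf (nat_lit 0) (nat_lit 59782165423) (nat_lit 152) (nat_lit 70707800735) (nat_lit 0) (nat_lit 48810745924) (nat_lit 4) (nat_lit 5) (nat_lit 6) (nat_lit 4) (nat_lit 4) (nat_lit 4) (nat_lit 409) (nat_lit 334) (nat_lit 277)) (XT.lf (nat_lit 0) (nat_lit 78313146371) (nat_lit 152) (nat_lit 47267433032) (nat_lit 0) (nat_lit 67331488949) (nat_lit 4) (nat_lit 5) (nat_lit 6) (nat_lit 4) (nat_lit 4) (nat_lit 4) (nat_lit 410) (nat_lit 334) (nat_lit 276)))) (XT.nd (nat_lit 78) (nat_lit 76) (nat_lit 0) (XT.lf (nat_lit 0) (nat_lit 98301235462) (nat_lit 152) (nat_lit 22002269152)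 (nat_lit 0) (nat_lit 87310098483) (nat_lit 4) (nat_lit 5) (nat_lit 6) (nat_lit 4) (nat_lit 4) (nat_lit 4) (nat_lit 411) (nat_lit 334) (nat_lit 275)) (XT.nd (nat_lit 78) (nat_lit 0) (nat_lit 0) (XT.lf (nat_lit 0) (nat_lit 5410582831) (nat_lit 76) (nat_lit 114538772161) (nat_lit 76) (nat_lit 103538857815) (nat_lit 3) (nat_lit 4) (nat_lit 4) (nat_lit 5) (nat_lit 4) (nat_lit 4) (nat_lit 412) (nat_lit 334) (nat_lit 274)) (XT.lf (nat_lit 0) (nat_lit 35757488877) (nat_lit 76) (nat_lit 107932652179) (nat_lit 76) (nat_lit 96924610640) (nat_lit 3) (nat_lit 4) (nat_lit 4) (nat_lit 5) (nat_lit 4) (nat_lit 4) (nat_lit 413) (nat_lit 334) (nat_lit 273))))) (XT.nd (nat_lit 234) (nat_lit 0) (nat_lit 0) (XT.nd (nat_lit 78) (nat_lit 0) (nat_lit 0) (XT.lf (nat_lit 0) (nat_lit 68490788118) (nat_lit 76) (nat_lit 100818616365) (nat_lit 76) (nat_lit 89803049648) (nat_lit 3) (nat_lit 4) (nat_lit 4) (nat_lit 5) (nat_lit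 4) (nat_lit 4) (nat_lit 414) (nat_lit 334) (nat_lit 272)) (XT.nd (nat_lit 78) (nat_lit 0) (nat_lit 0) (XT.lf (nat_lit 0) (nat_lit 103804455662) (nat_lit 76) (nat_lit 93154507470) (nat_lit 76) (nat_lit 82131972995) (nat_lit 3) (nat_lit 4) (nat_lit 4) (nat_lit 5) (nat_lit 4) (nat_lit 4) (nat_lit 415) (nat_lit 334) (nat_lit 271)) (XT.lf (nat_lit 0) (nat_lit 141907757685) (nat_lit 76) (nat_lit 84894908552) (nat_lit 76) (nat_lit 73865922449) (nat_lit 3) (nat_lit 4) (nat_lit 4) (nat_lit 5) (nat_lit 4) (nat_lit 4) (nat_lit 416) (nat_lit 334) (nat_lit 270)))) (XT.nd (nat_lit 156) (nat_lit 0) (nat_lit 0) (XT.nd (nat_lit 78) (nat_lit 0) (nat_lit 0) (XT.lf (nat_lit 0) (nat_lit 183026491534) (nat_lit 76) (nat_lit 75990873839) (nat_lit 76) (nat_lit 64955914007) (nat_lit 3) (nat_lit 4) (nat_lit 4) (nat_lit 5) (nat_lit 4) (nat_lit 4) (nat_lit 417) (nat_lit 334) (nat_lit 269)) (XT.lf (nat_lit 0) (nat_lit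 227404323780) (nat_lit 76) (nat_lit 66389638682) (nat_lit 76) (nat_lit 55349147619) (nat_lit 3) (nat_lit 4) (nat_lit 4) (nat_lit 5) (nat_lit 4) (nat_lit 4) (nat_lit 418) (nat_lit 334) (nat_lit 268))) (XT.nd (nat_lit 78) (nat_lit 0) (nat_lit 0) (XT.lf (nat_lit 0) (nat_lit 275304234168) (nat_lit 76) (nat_lit 56034306872) (nat_lit 76) (nat_lit 44988694299) (nat_lit 3) (nat_lit 4) (nat_lit 4) (nat_lit 5) (nat_lit 4) (nat_lit 4) (nat_lit 419) (nat_lit 334) (nat_lit 267)) (XT.lf (nat_lit 0) (nat_lit 327010074020) (nat_lit 76) (nat_lit 44863513479) (nat_lit 76) (nat_lit 33813158768) (nat_lit 3) (nat_lit 4) (nat_lit 4) (nat_lit 5) (nat_lit 4) (nat_lit 4) (nat_lit 420) (nat_lit 334) (nat_lit 266))))))))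
noncomputable def xc37 : XT := (XT.nd (nat_lit 48282) (nat_lit 0) (nat_lit 1368) (XT.nd (nat_lit 936) (nat_lit 0) (nat_lit 0) (XT.nd (nat_lit 468) (nat_lit 0) (nat_lit 0) (XT.nd (nat_lit 234) (nat_lit 76) (nat_lit 0) (XT.nd (nat_lit 78) (nat_lit 76) (nat_lit 0) (XT.lf (nat_lit 0) (nat_lit 382828248313) (nat_lit 76) (nat_lit 32811061211) (nat_lit 76) (nat_lit 21756315630) (nat_lit 3) (nat_lit 4) (nat_lit 4) (nat_lit 5) (nat_lit 4) (nat_lit 4) (nat_lit 421) (nat_lit 334) (nat_lit 265)) (XT.nd (nat_lit 78) (nat_lit 76) (nat_lit 0) (XT.lf (nat_lit 0) (nat_lit 443089531413) (nat_lit 76) (nat_lit 19805528127) (nat_lit 76) (nat_lit 8746716926) (nat_lit 3) (nat_lit 4) (nat_lit 4) (nat_lit 5) (nat_lit 4) (nat_lit 4) (nat_lit 422) (nat_lit 334) (nat_lit 264)) (XT.lf (nat_lit 0) (nat_lit 5123330807) (nat_lit 152) (nat_lit 559747508) (nat_lit 76) (nat_lit 502940930326) (nat_lit 2) (nat_lit 5) (nat_lit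 4) (nat_lit 5) (nat_lit 3) (nat_lit 4) (nat_lit 423) (nat_lit 334) (nat_lit 263)))) (XT.nd (nat_lit 78) (nat_lit 0) (nat_lit 0) (XT.lf (nat_lit 0) (nat_lit 20426210227) (nat_lit 152) (nat_lit 518212852473) (nat_lit 0) (nat_lit 9887104249) (nat_lit 1) (nat_lit 5) (nat_lit 3) (nat_lit 4) (nat_lit 1) (nat_lit 4) (nat_lit 424) (nat_lit 334) (nat_lit 262)) (XT.nd (nat_lit 78) (nat_lit 0) (nat_lit 0) (XT.lf (nat_lit 0) (nat_lit 37049560322) (nat_lit 152) (nat_lit 528058745448) (nat_lit 0) (nat_lit 26507380610) (nat_lit 1) (nat_lit 5) (nat_lit 3) (nat_lit 4) (nat_lit 1) (nat_lit 4) (nat_lit 425) (nat_lit 334) (nat_lit 261)) (XT.lf (nat_lit 0) (nat_lit 54993984864) (nat_lit 152) (nat_lit 538709863515) (nat_lit 0) (nat_lit 44448959103) (nat_lit 1) (nat_lit 5) (nat_lit 3) (nat_lit 4) (nat_lit 1) (nat_lit 4) (nat_lit 426) (nat_lit 334) (nat_lit 260))))) (XT.nd (nat_lit 234) (nat_lit 0) (nat_lit 0) (XT.nd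 (nat_lit 78) (nat_lit 0) (nat_lit 0) (XT.lf (nat_lit 0) (nat_lit 74365821183) (nat_lit 152) (nat_lit 550229324410) (nat_lit 0) (nat_lit 63818160191) (nat_lit 1) (nat_lit 5) (nat_lit 3) (nat_lit 4) (nat_lit 1) (nat_lit 4) (nat_lit 427) (nat_lit 334) (nat_lit 259)) (XT.nd (nat_lit 78) (nat_lit 0) (nat_lit 0) (XT.lf (nat_lit 0) (nat_lit 95279865348) (nat_lit 152) (nat_lit 562685391606) (nat_lit 0) (nat_lit 84729764327) (nat_lit 1) (nat_lit 5) (nat_lit 3) (nat_lit 4) (nat_lit 1) (nat_lit 4) (nat_lit 428) (nat_lit 334) (nat_lit 258)) (XT.lf (nat_lit 0) (nat_lit 117860052434) (nat_lit 152) (nat_lit 576151878834) (nat_lit 0) (nat_lit 107307692128) (nat_lit 1) (nat_lit 5) (nat_lit 3) (nat_lit 4) (nat_lit 1) (nat_lit 4) (nat_lit 429) (nat_lit 334) (nat_lit 257)))) (XT.nd (nat_lit 78) (nat_lit 0) (nat_lit 0) (XT.lf (nat_lit 0) (nat_lit 142240190958) (nat_lit 152) (nat_lit 590708587501) (nat_lit 0)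 (nat_lit 131685738720) (nat_lit 1) (nat_lit 5) (nat_lit 3) (nat_lit 4) (nat_lit 1) (nat_lit 4) (nat_lit 430) (nat_lit 334) (nat_lit 256)) (XT.nd (nat_lit 78) (nat_lit 0) (nat_lit 0) (XT.lf (nat_lit 0) (nat_lit 168564755814) (nat_lit 152) (nat_lit 606441779582) (nat_lit 0) (nat_lit 158008366603) (nat_lit 1) (nat_lit 5) (nat_lit 3) (nat_lit 4) (nat_lit 1) (nat_lit 4) (nat_lit 431) (nat_lit 334) (nat_lit 255)) (XT.lf (nat_lit 0) (nat_lit 196989744424) (nat_lit 152) (nat_lit 623444688810) (nat_lit 0) (nat_lit 186431561719) (nat_lit 1) (nat_lit 5) (nat_lit 3) (nat_lit 4) (nat_lit 1) (nat_lit 4) (nat_lit 432) (nat_lit 334) (nat_lit 254)))))) (XT.nd (nat_lit 46878) (nat_lit 0) (nat_lit 5168) (XT.nd (nat_lit 46644) (nat_lit 0) (nat_lit 7448) (XT.nd (nat_lit 78) (nat_lit 0) (nat_lit 0) (XT.lf (nat_lit 0) (nat_lit 227683601164) (nat_lit 152) (nat_lit 641818073165) (nat_lit 0) (nat_lit 217123757817)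 (nat_lit 1) (nat_lit 5) (nat_lit 3) (nat_lit 4) (nat_lit 1) (nat_lit 4) (nat_lit 433) (nat_lit 334) (nat_lit 253)) (XT.nd (nat_lit 78) (nat_lit 0) (nat_lit 0) (XT.lf (nat_lit 0) (nat_lit 260828215558) (nat_lit 152) (nat_lit 661670811961) (nat_lit 0) (nat_lit 250266834578) (nat_lit 1) (nat_lit 5) (nat_lit 3) (nat_lit 4) (nat_lit 1) (nat_lit 4) (nat_lit 434) (nat_lit 334) (nat_lit 252)) (XT.lf (nat_lit 0) (nat_lit 296620000133) (nat_lit 152) (nat_lit 683120551058) (nat_lit 0) (nat_lit 286057195420) (nat_lit 1) (nat_lit 5) (nat_lit 3) (nat_lit 4) (nat_lit 1) (nat_lit 4) (nat_lit 435) (nat_lit 334) (nat_lit 251)))) (XT.nd (nat_lit 78) (nat_lit 1596) (nat_lit 0) (XT.lf (nat_lit 0) (nat_lit 2583738940) (nat_lit 684) (nat_lit 503389717) (nat_lit 684) (nat_lit 503389717) (nat_lit 120) (nat_lit 4) (nat_lit 129) (nat_lit 5) (nat_lit 129) (nat_lit 4) (nat_lit 350) (nat_lit 335) (nat_lit 335)) (XT.nd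 (nat_lit 78) (nat_lit 760) (nat_lit 0) (XT.lf (nat_lit 0) (nat_lit 4439741021) (nat_lit 836) (nat_lit 937408999) (nat_lit 0) (nat_lit 1963659612) (nat_lit 109) (nat_lit 5) (nat_lit 120) (nat_lit 4) (nat_lit 109) (nat_lit 4) (nat_lit 351) (nat_lit 335) (nat_lit 334)) (XT.lf (nat_lit 0) (nat_lit 274727988) (nat_lit 304) (nat_lit 2185504873) (nat_lit 380) (nat_lit 5061734080) (nat_lit 99) (nat_lit 5) (nat_lit 103) (nat_lit 5) (nat_lit 104) (nat_lit 4) (nat_lit 352) (nat_lit 335) (nat_lit 333))))) (XT.nd (nat_lit 234) (nat_lit 1140) (nat_lit 0) (XT.nd (nat_lit 78) (nat_lit 684) (nat_lit 0) (XT.lf (nat_lit 0) (nat_lit 235128742) (nat_lit 456) (nat_lit 6081405214) (nat_lit 76) (nat_lit 1407890606) (nat_lit 93) (nat_lit 5) (nat_lit 99) (nat_lit 5) (nat_lit 94) (nat_lit 4) (nat_lit 353) (nat_lit 335) (nat_lit 332)) (XT.nd (nat_lit 78) (nat_lit 380) (nat_lit 0) (XT.lf (nat_lit 0) (nat_lit 3080890331)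 (nat_lit 304) (nat_lit 2536818469) (nat_lit 380) (nat_lit 2329530101) (nat_lit 89) (nat_lit 5) (nat_lit 93) (nat_lit 5) (nat_lit 94) (nat_lit 4) (nat_lit 354) (nat_lit 335) (nat_lit 331)) (XT.lf (nat_lit 0) (nat_lit 2984674038) (nat_lit 380) (nat_lit 3565932597) (nat_lit 76) (nat_lit 1642709409) (nat_lit 84) (nat_lit 5) (nat_lit 89) (nat_lit 5) (nat_lit 85) (nat_lit 4) (nat_lit 355) (nat_lit 335) (nat_lit 330)))) (XT.nd (nat_lit 78) (nat_lit 836) (nat_lit 0) (XT.lf (nat_lit 0) (nat_lit 62292109) (nat_lit 304) (nat_lit 2195809021) (nat_lit 76) (nat_lit 6204988000) (nat_lit 80) (nat_lit 5) (nat_lit 84) (nat_lit 5) (nat_lit 81) (nat_lit 5) (nat_lit 356) (nat_lit 335) (nat_lit 329)) (XT.nd (nat_lit 78) (nat_lit 532) (nat_lit 0) (XT.lf (nat_lit 0) (nat_lit 5473040050) (nat_lit 380) (nat_lit 807226365) (nat_lit 76) (nat_lit 2475074624) (nat_lit 76) (nat_lit 5) (nat_lit 81) (nat_lit 5) (nat_lit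 77) (nat_lit 4) (nat_lit 357) (nat_lit 335) (nat_lit 328)) (XT.lf (nat_lit 0) (nat_lit 663545634) (nat_lit 228) (nat_lit 1434777325) (nat_lit 304) (nat_lit 6974845120) (nat_lit 69) (nat_lit 5) (nat_lit 72) (nat_lit 5) (nat_lit 73) (nat_lit 5) (nat_lit 358) (nat_lit 335) (nat_lit 327))))))) (XT.nd (nat_lit 936) (nat_lit 1368) (nat_lit 0) (XT.nd (nat_lit 468) (nat_lit 1064) (nat_lit 0) (XT.nd (nat_lit 234) (nat_lit 684) (nat_lit 0) (XT.nd (nat_lit 78) (nat_lit 456) (nat_lit 0) (XT.lf (nat_lit 0) (nat_lit 2170156151) (nat_lit 228) (nat_lit 5592569681) (nat_lit 304) (nat_lit 1652750126) (nat_lit 66) (nat_lit 5) (nat_lit 69) (nat_lit 5) (nat_lit 70) (nat_lit 4) (nat_lit 359) (nat_lit 335) (nat_lit 326)) (XT.nd (nat_lit 78) (nat_lit 152) (nat_lit 0) (XT.lf (nat_lit 0) (nat_lit 3702615583) (nat_lit 228) (nat_lit 192877983) (nat_lit 304) (nat_lit 5890047845) (nat_lit 62) (nat_lit 5) (nat_lit 65)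 (nat_lit 5) (nat_lit 66) (nat_lit 5) (nat_lit 360) (nat_lit 335) (nat_lit 325)) (XT.lf (nat_lit 0) (nat_lit 5218292629) (nat_lit 152) (nat_lit 4623866157) (nat_lit 228) (nat_lit 341207010) (nat_lit 60) (nat_lit 5) (nat_lit 62) (nat_lit 5) (nat_lit 63) (nat_lit 4) (nat_lit 361) (nat_lit 335) (nat_lit 324)))) (XT.nd (nat_lit 78) (nat_lit 380) (nat_lit 0) (XT.lf (nat_lit 0) (nat_lit 5431220845) (nat_lit 304) (nat_lit 3904280709) (nat_lit 76) (nat_lit 1275190701) (nat_lit 56) (nat_lit 5) (nat_lit 60) (nat_lit 5) (nat_lit 57) (nat_lit 4) (nat_lit 362) (nat_lit 335) (nat_lit 323)) (XT.nd (nat_lit 78) (nat_lit 152) (nat_lit 0) (XT.lf (nat_lit 0) (nat_lit 592822050) (nat_lit 228) (nat_lit 2902034242) (nat_lit 76) (nat_lit 7575223695) (nat_lit 53) (nat_lit 5) (nat_lit 56) (nat_lit 5) (nat_lit 54) (nat_lit 5) (nat_lit 363) (nat_lit 335) (nat_lit 322)) (XT.lf (nat_lit 0) (nat_lit 6658132699) (nat_lit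 228) (nat_lit 2018845485) (nat_lit 76) (nat_lit 2884455075) (nat_lit 51) (nat_lit 5) (nat_lit 54) (nat_lit 5) (nat_lit 52) (nat_lit 4) (nat_lit 364) (nat_lit 335) (nat_lit 321))))) (XT.nd (nat_lit 234) (nat_lit 456) (nat_lit 0) (XT.nd (nat_lit 78) (nat_lit 380) (nat_lit 0) (XT.lf (nat_lit 0) (nat_lit 1116879444) (nat_lit 228) (nat_lit 1224909571) (nat_lit 76) (nat_lit 9747715607) (nat_lit 48) (nat_lit 5) (nat_lit 51) (nat_lit 5) (nat_lit 49) (nat_lit 5) (nat_lit 365) (nat_lit 335) (nat_lit 320)) (XT.nd (nat_lit 78) (nat_lit 228) (nat_lit 0) (XT.lf (nat_lit 0) (nat_lit 7510323925) (nat_lit 228) (nat_lit 624655770) (nat_lit 76) (nat_lit 4517728453) (nat_lit 46) (nat_lit 5) (nat_lit 49) (nat_lit 5) (nat_lit 47) (nat_lit 4) (nat_lit 366) (nat_lit 335) (nat_lit 319)) (XT.lf (nat_lit 0) (nat_lit 1156779689) (nat_lit 228) (nat_lit 156801559) (nat_lit 76) (nat_lit 11944581539) (nat_lit 43) (nat_lit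 5) (nat_lit 46) (nat_lit 5) (nat_lit 44) (nat_lit 5) (nat_lit 367) (nat_lit 335) (nat_lit 318)))) (XT.nd (nat_lit 78) (nat_lit 228) (nat_lit 0) (XT.lf (nat_lit 0) (nat_lit 19393811) (nat_lit 76) (nat_lit 7870646398) (nat_lit 152) (nat_lit 6012345375) (nat_lit 40) (nat_lit 5) (nat_lit 41) (nat_lit 5) (nat_lit 42) (nat_lit 4) (nat_lit 368) (nat_lit 335) (nat_lit 317)) (XT.nd (nat_lit 78) (nat_lit 0) (nat_lit 0) (XT.lf (nat_lit 0) (nat_lit 6225957) (nat_lit 152) (nat_lit 581352216) (nat_lit 228) (nat_lit 14008093235) (nat_lit 37) (nat_lit 5) (nat_lit 39) (nat_lit 5) (nat_lit 40) (nat_lit 5) (nat_lit 369) (nat_lit 335) (nat_lit 316)) (XT.lf (nat_lit 0) (nat_lit 7654542469) (nat_lit 228) (nat_lit 426710528) (nat_lit 76) (nat_lit 7250806073) (nat_lit 37) (nat_lit 5) (nat_lit 40) (nat_lit 5) (nat_lit 38) (nat_lit 4) (nat_lit 370) (nat_lit 335) (nat_lit 315)))))) (XT.nd (nat_lit 468) (nat_lit 532)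 (nat_lit 0) (XT.nd (nat_lit 234) (nat_lit 456) (nat_lit 0) (XT.nd (nat_lit 78) (nat_lit 304) (nat_lit 0) (XT.lf (nat_lit 0) (nat_lit 14989419204) (nat_lit 76) (nat_lit 344276577) (nat_lit 152) (nat_lit 791368177) (nat_lit 36) (nat_lit 5) (nat_lit 37) (nat_lit 5) (nat_lit 38) (nat_lit 4) (nat_lit 371) (nat_lit 335) (nat_lit 314)) (XT.nd (nat_lit 78) (nat_lit 76) (nat_lit 0) (XT.lf (nat_lit 0) (nat_lit 6607598158) (nat_lit 228) (nat_lit 2403598624) (nat_lit 76) (nat_lit 7956435284) (nat_lit 33) (nat_lit 5) (nat_lit 36) (nat_lit 5) (nat_lit 34) (nat_lit 4) (nat_lit 372) (nat_lit 335) (nat_lit 313)) (XT.lf (nat_lit 0) (nat_lit 13772146338) (nat_lit 76) (nat_lit 855958220) (nat_lit 152) (nat_lit 3246024013) (nat_lit 32) (nat_lit 5) (nat_lit 33) (nat_lit 5) (nat_lit 34) (nat_lit 4) (nat_lit 373) (nat_lit 335) (nat_lit 312)))) (XT.nd (nat_lit 78) (nat_lit 228) (nat_lit 0) (XT.lf (nat_lit 0) (nat_lit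 4481214112) (nat_lit 228) (nat_lit 6491640351) (nat_lit 76) (nat_lit 7867554843) (nat_lit 29) (nat_lit 5) (nat_lit 32) (nat_lit 5) (nat_lit 30) (nat_lit 4) (nat_lit 374) (nat_lit 335) (nat_lit 311)) (XT.nd (nat_lit 78) (nat_lit 152) (nat_lit 0) (XT.lf (nat_lit 0) (nat_lit 10325272527) (nat_lit 76) (nat_lit 2465378047) (nat_lit 152) (nat_lit 7086825917) (nat_lit 28) (nat_lit 5) (nat_lit 29) (nat_lit 5) (nat_lit 30) (nat_lit 4) (nat_lit 375) (nat_lit 335) (nat_lit 310)) (XT.lf (nat_lit 0) (nat_lit 917196307) (nat_lit 152) (nat_lit 13450116097) (nat_lit 76) (nat_lit 6620904599) (nat_lit 26) (nat_lit 5) (nat_lit 28) (nat_lit 5) (nat_lit 27) (nat_lit 4) (nat_lit 376) (nat_lit 335) (nat_lit 309))))) (XT.nd (nat_lit 234) (nat_lit 304) (nat_lit 0) (XT.nd (nat_lit 78) (nat_lit 152) (nat_lit 0) (XT.lf (nat_lit 0) (nat_lit 3814795236) (nat_lit 76) (nat_lit 5610911957) (nat_lit 152) (nat_lit 12750703977)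 (nat_lit 25) (nat_lit 5) (nat_lit 26) (nat_lit 5) (nat_lit 27) (nat_lit 4) (nat_lit 377) (nat_lit 335) (nat_lit 308)) (XT.nd (nat_lit 78) (nat_lit 152) (nat_lit 0) (XT.lf (nat_lit 0) (nat_lit 18757313910) (nat_lit 152) (nat_lit 863926572) (nat_lit 0) (nat_lit 3831323737) (nat_lit 25) (nat_lit 5) (nat_lit 27) (nat_lit 4) (nat_lit 25) (nat_lit 4) (nat_lit 378) (nat_lit 335) (nat_lit 307)) (XT.lf (nat_lit 0) (nat_lit 4115644008) (nat_lit 152) (nat_lit 6633880420) (nat_lit 76) (nat_lit 14066221258) (nat_lit 23) (nat_lit 5) (nat_lit 25) (nat_lit 5) (nat_lit 24) (nat_lit 4) (nat_lit 379) (nat_lit 335) (nat_lit 306)))) (XT.nd (nat_lit 156) (nat_lit 152) (nat_lit 0) (XT.nd (nat_lit 78) (nat_lit 76) (nat_lit 0) (XT.lf (nat_lit 0) (nat_lit 12552886589) (nat_lit 76) (nat_lit 987630426) (nat_lit 152) (nat_lit 12739955474) (nat_lit 22) (nat_lit 5) (nat_lit 23) (nat_lit 5) (nat_lit 24) (nat_lit 4) (nat_lit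 380) (nat_lit 335) (nat_lit 305)) (XT.lf (nat_lit 0) (nat_lit 5419525561) (nat_lit 76) (nat_lit 18515776761) (nat_lit 76) (nat_lit 3916297209) (nat_lit 21) (nat_lit 4) (nat_lit 22) (nat_lit 5) (nat_lit 22) (nat_lit 4) (nat_lit 381) (nat_lit 335) (nat_lit 304))) (XT.nd (nat_lit 78) (nat_lit 76) (nat_lit 0) (XT.lf (nat_lit 0) (nat_lit 5562007512) (nat_lit 152) (nat_lit 3306958715) (nat_lit 76) (nat_lit 20668663994) (nat_lit 20) (nat_lit 5) (nat_lit 22) (nat_lit 5) (nat_lit 21) (nat_lit 4) (nat_lit 382) (nat_lit 335) (nat_lit 303)) (XT.lf (nat_lit 0) (nat_lit 15844693771) (nat_lit 152) (nat_lit 13762080615) (nat_lit 0) (nat_lit 1739407520) (nat_lit 19) (nat_lit 5) (nat_lit 21) (nat_lit 4) (nat_lit 19) (nat_lit 4) (nat_lit 383) (nat_lit 335) (nat_lit 302))))))))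
noncomputable def xc38 : XT := (XT.nd (nat_lit 1872) (nat_lit 228) (nat_lit 0) (XT.nd (nat_lit 936) (nat_lit 456) (nat_lit 0) (XT.nd (nat_lit 468) (nat_lit 228) (nat_lit 0) (XT.nd (nat_lit 234) (nat_lit 228) (nat_lit 0) (XT.nd (nat_lit 78) (nat_lit 152) (nat_lit 0) (XT.lf (nat_lit 0) (nat_lit 6809064607) (nat_lit 76) (nat_lit 20337651250) (nat_lit 76) (nat_lit 6142879595) (nat_lit 18) (nat_lit 4) (nat_lit 19) (nat_lit 5) (nat_lit 19) (nat_lit 4) (nat_lit 384) (nat_lit 335) (nat_lit 301)) (XT.nd (nat_lit 78) (nat_lit 76) (nat_lit 0) (XT.lf (nat_lit 0) (nat_lit 3966986426) (nat_lit 152) (nat_lit 6145306335) (nat_lit 76) (nat_lit 25266633935) (nat_lit 17) (nat_lit 5) (nat_lit 19) (nat_lit 5) (nat_lit 18) (nat_lit 4) (nat_lit 385) (nat_lit 335) (nat_lit 300)) (XT.lf (nat_lit 0) (nat_lit 14836509401) (nat_lit 152) (nat_lit 21619864976) (nat_lit 0) (nat_lit 1165701952) (nat_lit 16) (nat_lit 5)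 (nat_lit 18) (nat_lit 4) (nat_lit 16) (nat_lit 4) (nat_lit 386) (nat_lit 335) (nat_lit 299)))) (XT.nd (nat_lit 78) (nat_lit 228) (nat_lit 0) (XT.lf (nat_lit 0) (nat_lit 26752481487) (nat_lit 152) (nat_lit 269342168) (nat_lit 0) (nat_lit 13014020325) (nat_lit 16) (nat_lit 5) (nat_lit 18) (nat_lit 4) (nat_lit 16) (nat_lit 4) (nat_lit 387) (nat_lit 335) (nat_lit 298)) (XT.nd (nat_lit 78) (nat_lit 152) (nat_lit 0) (XT.lf (nat_lit 0) (nat_lit 23352646161) (nat_lit 76) (nat_lit 16538845986) (nat_lit 76) (nat_lit 2737742497) (nat_lit 15) (nat_lit 4) (nat_lit 16) (nat_lit 5) (nat_lit 16) (nat_lit 4) (nat_lit 388) (nat_lit 335) (nat_lit 297)) (XT.lf (nat_lit 0) (nat_lit 3233425637) (nat_lit 76) (nat_lit 5104394499) (nat_lit 152) (nat_lit 37087371403) (nat_lit 13) (nat_lit 5) (nat_lit 14) (nat_lit 5) (nat_lit 15) (nat_lit 4) (nat_lit 389) (nat_lit 335) (nat_lit 296))))) (XT.nd (nat_lit 234) (nat_lit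 152) (nat_lit 0) (XT.nd (nat_lit 78) (nat_lit 76) (nat_lit 0) (XT.lf (nat_lit 0) (nat_lit 20569982738) (nat_lit 152) (nat_lit 20534596241) (nat_lit 0) (nat_lit 7319686221) (nat_lit 13) (nat_lit 5) (nat_lit 15) (nat_lit 4) (nat_lit 13) (nat_lit 4) (nat_lit 390) (nat_lit 335) (nat_lit 295)) (XT.nd (nat_lit 78) (nat_lit 0) (nat_lit 0) (XT.lf (nat_lit 0) (nat_lit 2693831903) (nat_lit 76) (nat_lit 31132410001) (nat_lit 76) (nat_lit 17834753962) (nat_lit 12) (nat_lit 4) (nat_lit 13) (nat_lit 5) (nat_lit 13) (nat_lit 4) (nat_lit 391) (nat_lit 335) (nat_lit 294)) (XT.lf (nat_lit 0) (nat_lit 28359370066) (nat_lit 76) (nat_lit 20062434490) (nat_lit 76) (nat_lit 6720927041) (nat_lit 12) (nat_lit 4) (nat_lit 13) (nat_lit 5) (nat_lit 13) (nat_lit 4) (nat_lit 392) (nat_lit 335) (nat_lit 293)))) (XT.nd (nat_lit 78) (nat_lit 76) (nat_lit 0) (XT.lf (nat_lit 0) (nat_lit 5038692754) (nat_lit 152) (nat_lit 3052790460)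 (nat_lit 76) (nat_lit 50811118383) (nat_lit 11) (nat_lit 5) (nat_lit 13) (nat_lit 5) (nat_lit 12) (nat_lit 4) (nat_lit 393) (nat_lit 335) (nat_lit 292)) (XT.nd (nat_lit 78) (nat_lit 0) (nat_lit 0) (XT.lf (nat_lit 0) (nat_lit 17880391807) (nat_lit 152) (nat_lit 39958807723) (nat_lit 0) (nat_lit 5099719310) (nat_lit 10) (nat_lit 5) (nat_lit 12) (nat_lit 4) (nat_lit 10) (nat_lit 4) (nat_lit 394) (nat_lit 335) (nat_lit 291)) (XT.lf (nat_lit 0) (nat_lit 31873253005) (nat_lit 152) (nat_lit 16359274755) (nat_lit 0) (nat_lit 19059427495) (nat_lit 10) (nat_lit 5) (nat_lit 12) (nat_lit 4) (nat_lit 10) (nat_lit 4) (nat_lit 395) (nat_lit 335) (nat_lit 290)))))) (XT.nd (nat_lit 468) (nat_lit 228) (nat_lit 0) (XT.nd (nat_lit 234) (nat_lit 152) (nat_lit 0) (XT.nd (nat_lit 78) (nat_lit 0) (nat_lit 0) (XT.lf (nat_lit 0) (nat_lit 9304598129) (nat_lit 76) (nat_lit 37764493254) (nat_lit 76) (nat_lit 24919970511)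 (nat_lit 9) (nat_lit 4) (nat_lit 10) (nat_lit 5) (nat_lit 10) (nat_lit 4) (nat_lit 396) (nat_lit 335) (nat_lit 289)) (XT.nd (nat_lit 78) (nat_lit 0) (nat_lit 0) (XT.lf (nat_lit 0) (nat_lit 37489614413) (nat_lit 76) (nat_lit 26216986466) (nat_lit 76) (nat_lit 13344040358) (nat_lit 9) (nat_lit 4) (nat_lit 10) (nat_lit 5) (nat_lit 10) (nat_lit 4) (nat_lit 397) (nat_lit 335) (nat_lit 288)) (XT.lf (nat_lit 0) (nat_lit 67821884910) (nat_lit 76) (nat_lit 13798629959) (nat_lit 76) (nat_lit 899365921) (nat_lit 9) (nat_lit 4) (nat_lit 10) (nat_lit 5) (nat_lit 10) (nat_lit 4) (nat_lit 398) (nat_lit 335) (nat_lit 287)))) (XT.nd (nat_lit 78) (nat_lit 0) (nat_lit 0) (XT.lf (nat_lit 0) (nat_lit 12249041839) (nat_lit 76) (nat_lit 30311493) (nat_lit 152) (nat_lit 76130526962) (nat_lit 7) (nat_lit 5) (nat_lit 8) (nat_lit 5) (nat_lit 9) (nat_lit 4) (nat_lit 399) (nat_lit 335) (nat_lit 286)) (XT.nd (nat_lit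 78) (nat_lit 0) (nat_lit 0) (XT.lf (nat_lit 0) (nat_lit 26923357603) (nat_lit 152) (nat_lit 53231216186) (nat_lit 0) (nat_lit 14593647246) (nat_lit 7) (nat_lit 5) (nat_lit 9) (nat_lit 4) (nat_lit 7) (nat_lit 4) (nat_lit 400) (nat_lit 335) (nat_lit 285)) (XT.lf (nat_lit 0) (nat_lit 42693248012) (nat_lit 152) (nat_lit 28559025305) (nat_lit 0) (nat_lit 30343640492) (nat_lit 7) (nat_lit 5) (nat_lit 9) (nat_lit 4) (nat_lit 7) (nat_lit 4) (nat_lit 401) (nat_lit 335) (nat_lit 284))))) (XT.nd (nat_lit 234) (nat_lit 152) (nat_lit 0) (XT.nd (nat_lit 78) (nat_lit 76) (nat_lit 0) (XT.lf (nat_lit 0) (nat_lit 59682002514) (nat_lit 152) (nat_lit 1997586988) (nat_lit 0) (nat_lit 47313971694) (nat_lit 7) (nat_lit 5) (nat_lit 9) (nat_lit 4) (nat_lit 7) (nat_lit 4) (nat_lit 402) (nat_lit 335) (nat_lit 283)) (XT.nd (nat_lit 78) (nat_lit 0) (nat_lit 0) (XT.lf (nat_lit 0) (nat_lit 27490363182) (nat_lit 76) (nat_lit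 50929133638) (nat_lit 76) (nat_lit 38544044208) (nat_lit 6) (nat_lit 4) (nat_lit 7) (nat_lit 5) (nat_lit 7) (nat_lit 4) (nat_lit 403) (nat_lit 335) (nat_lit 282)) (XT.lf (nat_lit 0) (nat_lit 59333817408) (nat_lit 76) (nat_lit 39319169451) (nat_lit 76) (nat_lit 26918285011) (nat_lit 6) (nat_lit 4) (nat_lit 7) (nat_lit 5) (nat_lit 7) (nat_lit 4) (nat_lit 404) (nat_lit 335) (nat_lit 281)))) (XT.nd (nat_lit 78) (nat_lit 152) (nat_lit 0) (XT.lf (nat_lit 0) (nat_lit 93655428391) (nat_lit 76) (nat_lit 26814727255) (nat_lit 76) (nat_lit 14399217806) (nat_lit 6) (nat_lit 4) (nat_lit 7) (nat_lit 5) (nat_lit 7) (nat_lit 4) (nat_lit 405) (nat_lit 335) (nat_lit 280)) (XT.nd (nat_lit 78) (nat_lit 152) (nat_lit 0) (XT.lf (nat_lit 0) (nat_lit 130658583457) (nat_lit 76) (nat_lit 13341706651) (nat_lit 76) (nat_lit 912655527) (nat_lit 6) (nat_lit 4) (nat_lit 7) (nat_lit 5) (nat_lit 7) (nat_lit 4) (nat_lit 406)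 (nat_lit 335) (nat_lit 279)) (XT.lf (nat_lit 0) (nat_lit 13446413986) (nat_lit 152) (nat_lit 140694124665) (nat_lit 0) (nat_lit 1597280927) (nat_lit 4) (nat_lit 5) (nat_lit 6) (nat_lit 4) (nat_lit 4) (nat_lit 4) (nat_lit 407) (nat_lit 335) (nat_lit 278))))))) (XT.nd (nat_lit 936) (nat_lit 152) (nat_lit 0) (XT.nd (nat_lit 468) (nat_lit 0) (nat_lit 0) (XT.nd (nat_lit 234) (nat_lit 76) (nat_lit 0) (XT.nd (nat_lit 78) (nat_lit 0) (nat_lit 0) (XT.lf (nat_lit 0) (nat_lit 29370407435) (nat_lit 152) (nat_lit 120524903534) (nat_lit 0) (nat_lit 17510217420) (nat_lit 4) (nat_lit 5) (nat_lit 6) (nat_lit 4) (nat_lit 4) (nat_lit 4) (nat_lit 408) (nat_lit 335) (nat_lit 277)) (XT.nd (nat_lit 78) (nat_lit 0) (nat_lit 0) (XT.lf (nat_lit 0) (nat_lit 46540920402) (nat_lit 152) (nat_lit 98796612614) (nat_lit 0) (nat_lit 34670492465) (nat_lit 4) (nat_lit 5) (nat_lit 6) (nat_lit 4) (nat_lit 4) (nat_lit 4) (nat_lit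 409) (nat_lit 335) (nat_lit 276)) (XT.lf (nat_lit 0) (nat_lit 65059704074) (nat_lit 152) (nat_lit 75380491660) (nat_lit 0) (nat_lit 53179796580) (nat_lit 4) (nat_lit 5) (nat_lit 6) (nat_lit 4) (nat_lit 4) (nat_lit 4) (nat_lit 410) (nat_lit 335) (nat_lit 275)))) (XT.nd (nat_lit 78) (nat_lit 76) (nat_lit 0) (XT.lf (nat_lit 0) (nat_lit 85036499392) (nat_lit 152) (nat_lit 50137778476) (nat_lit 0) (nat_lit 73147814529) (nat_lit 4) (nat_lit 5) (nat_lit 6) (nat_lit 4) (nat_lit 4) (nat_lit 4) (nat_lit 411) (nat_lit 335) (nat_lit 274)) (XT.nd (nat_lit 78) (nat_lit 76) (nat_lit 0) (XT.lf (nat_lit 0) (nat_lit 106589687365) (nat_lit 152) (nat_lit 22918886612) (nat_lit 0) (nat_lit 94692875310) (nat_lit 4) (nat_lit 5) (nat_lit 6) (nat_lit 4) (nat_lit 4) (nat_lit 4) (nat_lit 412) (nat_lit 335) (nat_lit 273)) (XT.lf (nat_lit 0) (nat_lit 6650333263) (nat_lit 76) (nat_lit 123300487664) (nat_lit 76) (nat_lit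 111396150431) (nat_lit 3) (nat_lit 4) (nat_lit 4) (nat_lit 5) (nat_lit 4) (nat_lit 4) (nat_lit 413) (nat_lit 335) (nat_lit 272))))) (XT.nd (nat_lit 234) (nat_lit 0) (nat_lit 0) (XT.nd (nat_lit 78) (nat_lit 0) (nat_lit 0) (XT.lf (nat_lit 0) (nat_lit 39365221141) (nat_lit 76) (nat_lit 116195610400) (nat_lit 76) (nat_lit 104284305409) (nat_lit 3) (nat_lit 4) (nat_lit 4) (nat_lit 5) (nat_lit 4) (nat_lit 4) (nat_lit 414) (nat_lit 335) (nat_lit 271)) (XT.nd (nat_lit 78) (nat_lit 0) (nat_lit 0) (XT.lf (nat_lit 0) (nat_lit 74661841125) (nat_lit 76) (nat_lit 108539981643) (nat_lit 76) (nat_lit 96622225025) (nat_lit 3) (nat_lit 4) (nat_lit 4) (nat_lit 5) (nat_lit 4) (nat_lit 4) (nat_lit 415) (nat_lit 335) (nat_lit 270)) (XT.lf (nat_lit 0) (nat_lit 112749358371) (nat_lit 76) (nat_lit 100288234705) (nat_lit 76) (nat_lit 88364504357) (nat_lit 3) (nat_lit 4) (nat_lit 4) (nat_lit 5) (nat_lit 4) (nat_lit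 4) (nat_lit 416) (nat_lit 335) (nat_lit 269)))) (XT.nd (nat_lit 78) (nat_lit 0) (nat_lit 0) (XT.lf (nat_lit 0) (nat_lit 153853476686) (nat_lit 76) (nat_lit 91391470345) (nat_lit 76) (nat_lit 79462208766) (nat_lit 3) (nat_lit 4) (nat_lit 4) (nat_lit 5) (nat_lit 4) (nat_lit 4) (nat_lit 417) (nat_lit 335) (nat_lit 268)) (XT.nd (nat_lit 78) (nat_lit 0) (nat_lit 0) (XT.lf (nat_lit 0) (nat_lit 198217776029) (nat_lit 76) (nat_lit 81796966995) (nat_lit 76) (nat_lit 69862583906) (nat_lit 3) (nat_lit 4) (nat_lit 4) (nat_lit 5) (nat_lit 4) (nat_lit 4) (nat_lit 418) (nat_lit 335) (nat_lit 267)) (XT.lf (nat_lit 0) (nat_lit 246105155952) (nat_lit 76) (nat_lit 71447868340) (nat_lit 76) (nat_lit 59508743113) (nat_lit 3) (nat_lit 4) (nat_lit 4) (nat_lit 5) (nat_lit 4) (nat_lit 4) (nat_lit 419) (nat_lit 335) (nat_lit 266)))))) (XT.nd (nat_lit 468) (nat_lit 0) (nat_lit 0) (XT.nd (nat_lit 234) (nat_lit 152)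 (nat_lit 0) (XT.nd (nat_lit 78) (nat_lit 0) (nat_lit 0) (XT.lf (nat_lit 0) (nat_lit 297799393522) (nat_lit 76) (nat_lit 60282846388) (nat_lit 76) (nat_lit 48339330291) (nat_lit 3) (nat_lit 4) (nat_lit 4) (nat_lit 5) (nat_lit 4) (nat_lit 4) (nat_lit 420) (nat_lit 335) (nat_lit 265)) (XT.nd (nat_lit 78) (nat_lit 0) (nat_lit 0) (XT.lf (nat_lit 0) (nat_lit 353606824961) (nat_lit 76) (nat_lit 48235738045) (nat_lit 76) (nat_lit 36288156329) (nat_lit 3) (nat_lit 4) (nat_lit 4) (nat_lit 5) (nat_lit 4) (nat_lit 4) (nat_lit 421) (nat_lit 335) (nat_lit 264)) (XT.lf (nat_lit 0) (nat_lit 413858160974) (nat_lit 76) (nat_lit 35235153041) (nat_lit 76) (nat_lit 23283806862) (nat_lit 3) (nat_lit 4) (nat_lit 4) (nat_lit 5) (nat_lit 4) (nat_lit 4) (nat_lit 422) (nat_lit 335) (nat_lit 263)))) (XT.nd (nat_lit 78) (nat_lit 152) (nat_lit 0) (XT.lf (nat_lit 0) (nat_lit 478910446515) (nat_lit 76) (nat_lit 21204050871)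 (nat_lit 76) (nat_lit 9249219078) (nat_lit 3) (nat_lit 4) (nat_lit 4) (nat_lit 5) (nat_lit 4) (nat_lit 4) (nat_lit 423) (nat_lit 335) (nat_lit 262)) (XT.nd (nat_lit 78) (nat_lit 76) (nat_lit 0) (XT.lf (nat_lit 0) (nat_lit 5709977313) (nat_lit 152) (nat_lit 252605721) (nat_lit 76) (nat_lit 543342498067) (nat_lit 2) (nat_lit 5) (nat_lit 4) (nat_lit 5) (nat_lit 3) (nat_lit 4) (nat_lit 424) (nat_lit 335) (nat_lit 261)) (XT.lf (nat_lit 0) (nat_lit 22231866025) (nat_lit 152) (nat_lit 559327415632) (nat_lit 0) (nat_lit 10840392154) (nat_lit 1) (nat_lit 5) (nat_lit 3) (nat_lit 4) (nat_lit 1) (nat_lit 4) (nat_lit 425) (nat_lit 335) (nat_lit 260))))) (XT.nd (nat_lit 234) (nat_lit 0) (nat_lit 0) (XT.nd (nat_lit 78) (nat_lit 0) (nat_lit 0) (XT.lf (nat_lit 0) (nat_lit 40172376055) (nat_lit 152) (nat_lit 569986347825) (nat_lit 0) (nat_lit 28778266952) (nat_lit 1) (nat_lit 5) (nat_lit 3) (nat_lit 4) (nat_lit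 1) (nat_lit 4) (nat_lit 426) (nat_lit 335) (nat_lit 259)) (XT.nd (nat_lit 78) (nat_lit 0) (nat_lit 0) (XT.lf (nat_lit 0) (nat_lit 59540587826) (nat_lit 152) (nat_lit 581513044023) (nat_lit 0) (nat_lit 48144038695) (nat_lit 1) (nat_lit 5) (nat_lit 3) (nat_lit 4) (nat_lit 1) (nat_lit 4) (nat_lit 427) (nat_lit 335) (nat_lit 258)) (XT.lf (nat_lit 0) (nat_lit 80451275927) (nat_lit 152) (nat_lit 593975810573) (nat_lit 0) (nat_lit 69052467511) (nat_lit 1) (nat_lit 5) (nat_lit 3) (nat_lit 4) (nat_lit 1) (nat_lit 4) (nat_lit 428) (nat_lit 335) (nat_lit 257)))) (XT.nd (nat_lit 156) (nat_lit 0) (nat_lit 0) (XT.nd (nat_lit 78) (nat_lit 0) (nat_lit 0) (XT.lf (nat_lit 0) (nat_lit 103028355547) (nat_lit 152) (nat_lit 607448500907) (nat_lit 0) (nat_lit 91627455199) (nat_lit 1) (nat_lit 5) (nat_lit 3) (nat_lit 4) (nat_lit 1) (nat_lit 4) (nat_lit 429) (nat_lit 335) (nat_lit 256)) (XT.lf (nat_lit 0) (nat_lit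 127405616787) (nat_lit 152) (nat_lit 622010953190) (nat_lit 0) (nat_lit 116002779466) (nat_lit 1) (nat_lit 5) (nat_lit 3) (nat_lit 4) (nat_lit 1) (nat_lit 4) (nat_lit 430) (nat_lit 335) (nat_lit 255))) (XT.nd (nat_lit 78) (nat_lit 0) (nat_lit 0) (XT.lf (nat_lit 0) (nat_lit 153727517492) (nat_lit 152) (nat_lit 637749463435) (nat_lit 0) (nat_lit 142322886677) (nat_lit 1) (nat_lit 5) (nat_lit 3) (nat_lit 4) (nat_lit 1) (nat_lit 4) (nat_lit 431) (nat_lit 335) (nat_lit 254)) (XT.lf (nat_lit 0) (nat_lit 182150039296) (nat_lit 152) (nat_lit 654757296888) (nat_lit 0) (nat_lit 170743747838) (nat_lit 1) (nat_lit 5) (nat_lit 3) (nat_lit 4) (nat_lit 1) (nat_lit 4) (nat_lit 432) (nat_lit 335) (nat_lit 253))))))))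
noncomputable def xc39 : XT := (XT.nd (nat_lit 48126) (nat_lit 0) (nat_lit 836) (XT.nd (nat_lit 47190) (nat_lit 0) (nat_lit 3040) (XT.nd (nat_lit 46722) (nat_lit 0) (nat_lit 6004) (XT.nd (nat_lit 46488) (nat_lit 0) (nat_lit 8968) (XT.nd (nat_lit 78) (nat_lit 0) (nat_lit 0) (XT.lf (nat_lit 0) (nat_lit 212841611956) (nat_lit 152) (nat_lit 673135240710) (nat_lit 0) (nat_lit 201433782867) (nat_lit 1) (nat_lit 5) (nat_lit 3) (nat_lit 4) (nat_lit 1) (nat_lit 4) (nat_lit 433) (nat_lit 335) (nat_lit 252)) (XT.nd (nat_lit 78) (nat_lit 0) (nat_lit 0) (XT.lf (nat_lit 0) (nat_lit 245984111460) (nat_lit 152) (nat_lit 692992201236) (nat_lit 0) (nat_lit 234574858637) (nat_lit 1) (nat_lit 5) (nat_lit 3) (nat_lit 4) (nat_lit 1) (nat_lit 4) (nat_lit 434) (nat_lit 335) (nat_lit 251)) (XT.lf (nat_lit 0) (nat_lit 281773937804) (nat_lit 152) (nat_lit 714445849342) (nat_lit 0) (nat_lit 270363366710) (nat_lit 1)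 (nat_lit 5) (nat_lit 3) (nat_lit 4) (nat_lit 1) (nat_lit 4) (nat_lit 435) (nat_lit 335) (nat_lit 250)))) (XT.nd (nat_lit 78) (nat_lit 1444) (nat_lit 0) (XT.lf (nat_lit 0) (nat_lit 1657742842) (nat_lit 532) (nat_lit 899152913) (nat_lit 532) (nat_lit 899152913) (nat_lit 138) (nat_lit 4) (nat_lit 145) (nat_lit 5) (nat_lit 145) (nat_lit 4) (nat_lit 348) (nat_lit 336) (nat_lit 336)) (XT.nd (nat_lit 78) (nat_lit 760) (nat_lit 0) (XT.lf (nat_lit 0) (nat_lit 3433225969) (nat_lit 684) (nat_lit 2982511388) (nat_lit 0) (nat_lit 625349652) (nat_lit 129) (nat_lit 5) (nat_lit 138) (nat_lit 4) (nat_lit 129) (nat_lit 4) (nat_lit 349) (nat_lit 336) (nat_lit 335)) (XT.lf (nat_lit 0) (nat_lit 1538941614) (nat_lit 760) (nat_lit 2252931486) (nat_lit 76) (nat_lit 3398166314) (nat_lit 119) (nat_lit 5) (nat_lit 129) (nat_lit 5) (nat_lit 120) (nat_lit 4) (nat_lit 350) (nat_lit 336) (nat_lit 334))))) (XT.nd (nat_lit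 234) (nat_lit 988) (nat_lit 0) (XT.nd (nat_lit 78) (nat_lit 1216) (nat_lit 0) (XT.lf (nat_lit 0) (nat_lit 5971058755) (nat_lit 760) (nat_lit 753878766) (nat_lit 836) (nat_lit 635673559) (nat_lit 109) (nat_lit 5) (nat_lit 119) (nat_lit 5) (nat_lit 120) (nat_lit 4) (nat_lit 351) (nat_lit 336) (nat_lit 333)) (XT.nd (nat_lit 78) (nat_lit 760) (nat_lit 0) (XT.lf (nat_lit 0) (nat_lit 4444966488) (nat_lit 456) (nat_lit 453576712) (nat_lit 76) (nat_lit 2652014070) (nat_lit 103) (nat_lit 5) (nat_lit 109) (nat_lit 5) (nat_lit 104) (nat_lit 4) (nat_lit 352) (nat_lit 336) (nat_lit 332)) (XT.lf (nat_lit 0) (nat_lit 625154564) (nat_lit 380) (nat_lit 1279991898) (nat_lit 456) (nat_lit 5857649149) (nat_lit 93) (nat_lit 5) (nat_lit 98) (nat_lit 5) (nat_lit 99) (nat_lit 5) (nat_lit 353) (nat_lit 336) (nat_lit 331)))) (XT.nd (nat_lit 78) (nat_lit 684) (nat_lit 0) (XT.lf (nat_lit 0) (nat_lit 1798844618) (nat_lit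 304) (nat_lit 5281356018) (nat_lit 380) (nat_lit 915907765) (nat_lit 89) (nat_lit 5) (nat_lit 93) (nat_lit 5) (nat_lit 94) (nat_lit 4) (nat_lit 354) (nat_lit 336) (nat_lit 330)) (XT.nd (nat_lit 78) (nat_lit 304) (nat_lit 0) (XT.lf (nat_lit 0) (nat_lit 3049537317) (nat_lit 304) (nat_lit 1091073577) (nat_lit 380) (nat_lit 4111200876) (nat_lit 84) (nat_lit 5) (nat_lit 88) (nat_lit 5) (nat_lit 89) (nat_lit 5) (nat_lit 355) (nat_lit 336) (nat_lit 329)) (XT.lf (nat_lit 0) (nat_lit 922278571) (nat_lit 304) (nat_lit 4157278222) (nat_lit 76) (nat_lit 3451382833) (nat_lit 80) (nat_lit 5) (nat_lit 84) (nat_lit 5) (nat_lit 81) (nat_lit 5) (nat_lit 356) (nat_lit 336) (nat_lit 328)))))) (XT.nd (nat_lit 468) (nat_lit 1140) (nat_lit 0) (XT.nd (nat_lit 234) (nat_lit 988) (nat_lit 0) (XT.nd (nat_lit 78) (nat_lit 532) (nat_lit 0) (XT.lf (nat_lit 0) (nat_lit 5761359930) (nat_lit 304) (nat_lit 350219008) (nat_lit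 380) (nat_lit 2722772930) (nat_lit 76) (nat_lit 5) (nat_lit 80) (nat_lit 5) (nat_lit 81) (nat_lit 5) (nat_lit 357) (nat_lit 336) (nat_lit 327)) (XT.nd (nat_lit 78) (nat_lit 228) (nat_lit 0) (XT.lf (nat_lit 0) (nat_lit 2441884889) (nat_lit 304) (nat_lit 1986778514) (nat_lit 76) (nat_lit 4733059164) (nat_lit 72) (nat_lit 5) (nat_lit 76) (nat_lit 5) (nat_lit 73) (nat_lit 5) (nat_lit 358) (nat_lit 336) (nat_lit 326)) (XT.lf (nat_lit 0) (nat_lit 7854778439) (nat_lit 304) (nat_lit 860226889) (nat_lit 76) (nat_lit 801672402) (nat_lit 69) (nat_lit 5) (nat_lit 73) (nat_lit 5) (nat_lit 70) (nat_lit 4) (nat_lit 359) (nat_lit 336) (nat_lit 325)))) (XT.nd (nat_lit 78) (nat_lit 456) (nat_lit 0) (XT.lf (nat_lit 0) (nat_lit 233520371) (nat_lit 228) (nat_lit 3451553615) (nat_lit 304) (nat_lit 6211817831) (nat_lit 62) (nat_lit 5) (nat_lit 65) (nat_lit 5) (nat_lit 66) (nat_lit 5) (nat_lit 360) (nat_lit 336)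 (nat_lit 324)) (XT.nd (nat_lit 78) (nat_lit 304) (nat_lit 0) (XT.lf (nat_lit 0) (nat_lit 1371072060) (nat_lit 152) (nat_lit 8022367068) (nat_lit 228) (nat_lit 913250716) (nat_lit 60) (nat_lit 5) (nat_lit 62) (nat_lit 5) (nat_lit 63) (nat_lit 4) (nat_lit 361) (nat_lit 336) (nat_lit 323)) (XT.lf (nat_lit 0) (nat_lit 2438939622) (nat_lit 228) (nat_lit 2228152942) (nat_lit 304) (nat_lit 6077941687) (nat_lit 56) (nat_lit 5) (nat_lit 59) (nat_lit 5) (nat_lit 60) (nat_lit 5) (nat_lit 362) (nat_lit 336) (nat_lit 322))))) (XT.nd (nat_lit 234) (nat_lit 608) (nat_lit 0) (XT.nd (nat_lit 78) (nat_lit 380) (nat_lit 0) (XT.lf (nat_lit 0) (nat_lit 3473719303) (nat_lit 152) (nat_lit 7219277269) (nat_lit 228) (nat_lit 523244205) (nat_lit 54) (nat_lit 5) (nat_lit 56) (nat_lit 5) (nat_lit 57) (nat_lit 4) (nat_lit 363) (nat_lit 336) (nat_lit 321)) (XT.nd (nat_lit 78) (nat_lit 152) (nat_lit 0) (XT.lf (nat_lit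 0) (nat_lit 4410857136) (nat_lit 152) (nat_lit 906978282) (nat_lit 228) (nat_lit 6402258224) (nat_lit 51) (nat_lit 5) (nat_lit 53) (nat_lit 5) (nat_lit 54) (nat_lit 5) (nat_lit 364) (nat_lit 336) (nat_lit 320)) (XT.lf (nat_lit 0) (nat_lit 5247992487) (nat_lit 152) (nat_lit 6444853615) (nat_lit 228) (nat_lit 566812230) (nat_lit 49) (nat_lit 5) (nat_lit 51) (nat_lit 5) (nat_lit 52) (nat_lit 4) (nat_lit 365) (nat_lit 336) (nat_lit 319)))) (XT.nd (nat_lit 78) (nat_lit 380) (nat_lit 0) (XT.lf (nat_lit 0) (nat_lit 5576642417) (nat_lit 228) (nat_lit 6887866937) (nat_lit 76) (nat_lit 372236022) (nat_lit 46) (nat_lit 5) (nat_lit 49) (nat_lit 5) (nat_lit 47) (nat_lit 4) (nat_lit 366) (nat_lit 336) (nat_lit 318)) (XT.nd (nat_lit 78) (nat_lit 228) (nat_lit 0) (XT.lf (nat_lit 0) (nat_lit 6473941039) (nat_lit 152) (nat_lit 5841605887) (nat_lit 228) (nat_lit 1137862664) (nat_lit 44) (nat_lit 5) (nat_lit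 46) (nat_lit 5) (nat_lit 47) (nat_lit 4) (nat_lit 367) (nat_lit 336) (nat_lit 317)) (XT.lf (nat_lit 0) (nat_lit 5347370489) (nat_lit 228) (nat_lit 7316295115) (nat_lit 76) (nat_lit 1449105496) (nat_lit 41) (nat_lit 5) (nat_lit 44) (nat_lit 5) (nat_lit 42) (nat_lit 4) (nat_lit 368) (nat_lit 336) (nat_lit 316))))))) (XT.nd (nat_lit 936) (nat_lit 836) (nat_lit 0) (XT.nd (nat_lit 468) (nat_lit 532) (nat_lit 0) (XT.nd (nat_lit 234) (nat_lit 456) (nat_lit 0) (XT.nd (nat_lit 78) (nat_lit 304) (nat_lit 0) (XT.lf (nat_lit 0) (nat_lit 6865388125) (nat_lit 76) (nat_lit 5580284719) (nat_lit 152) (nat_lit 2371624441) (nat_lit 40) (nat_lit 5) (nat_lit 41) (nat_lit 5) (nat_lit 42) (nat_lit 4) (nat_lit 369) (nat_lit 336) (nat_lit 315)) (XT.nd (nat_lit 78) (nat_lit 76) (nat_lit 0) (XT.lf (nat_lit 0) (nat_lit 4468129736) (nat_lit 228) (nat_lit 8926698317) (nat_lit 76) (nat_lit 2175887108) (nat_lit 37) (nat_lit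 5) (nat_lit 40) (nat_lit 5) (nat_lit 38) (nat_lit 4) (nat_lit 370) (nat_lit 336) (nat_lit 314)) (XT.lf (nat_lit 0) (nat_lit 6047621804) (nat_lit 76) (nat_lit 5872359914) (nat_lit 152) (nat_lit 4455124680) (nat_lit 36) (nat_lit 5) (nat_lit 37) (nat_lit 5) (nat_lit 38) (nat_lit 4) (nat_lit 371) (nat_lit 336) (nat_lit 313)))) (XT.nd (nat_lit 78) (nat_lit 228) (nat_lit 0) (XT.lf (nat_lit 0) (nat_lit 2735669755) (nat_lit 228) (nat_lit 12170875607) (nat_lit 76) (nat_lit 2330279734) (nat_lit 33) (nat_lit 5) (nat_lit 36) (nat_lit 5) (nat_lit 34) (nat_lit 4) (nat_lit 372) (nat_lit 336) (nat_lit 312)) (XT.nd (nat_lit 78) (nat_lit 152) (nat_lit 0) (XT.lf (nat_lit 0) (nat_lit 3528873437) (nat_lit 76) (nat_lit 6985487432) (nat_lit 152) (nat_lit 7641068874) (nat_lit 32) (nat_lit 5) (nat_lit 33) (nat_lit 5) (nat_lit 34) (nat_lit 4) (nat_lit 373) (nat_lit 336) (nat_lit 311)) (XT.lf (nat_lit 0) (nat_lit 1501544954)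 (nat_lit 152) (nat_lit 17512848439) (nat_lit 152) (nat_lit 128210527) (nat_lit 30) (nat_lit 4) (nat_lit 32) (nat_lit 5) (nat_lit 32) (nat_lit 4) (nat_lit 374) (nat_lit 336) (nat_lit 310))))) (XT.nd (nat_lit 234) (nat_lit 228) (nat_lit 0) (XT.nd (nat_lit 78) (nat_lit 228) (nat_lit 0) (XT.lf (nat_lit 0) (nat_lit 7947537851) (nat_lit 228) (nat_lit 1293511120) (nat_lit 76) (nat_lit 10950625989) (nat_lit 29) (nat_lit 5) (nat_lit 32) (nat_lit 5) (nat_lit 30) (nat_lit 4) (nat_lit 375) (nat_lit 336) (nat_lit 309)) (XT.nd (nat_lit 78) (nat_lit 152) (nat_lit 0) (XT.lf (nat_lit 0) (nat_lit 16620280924) (nat_lit 76) (nat_lit 156625135) (nat_lit 152) (nat_lit 4542085268) (nat_lit 28) (nat_lit 5) (nat_lit 29) (nat_lit 5) (nat_lit 30) (nat_lit 4) (nat_lit 376) (nat_lit 336) (nat_lit 308)) (XT.lf (nat_lit 0) (nat_lit 3901045793) (nat_lit 152) (nat_lit 9093314147) (nat_lit 76) (nat_lit 9526920618) (nat_lit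 26) (nat_lit 5) (nat_lit 28) (nat_lit 5) (nat_lit 27) (nat_lit 4) (nat_lit 377) (nat_lit 336) (nat_lit 307)))) (XT.nd (nat_lit 78) (nat_lit 152) (nat_lit 0) (XT.lf (nat_lit 0) (nat_lit 9316686737) (nat_lit 76) (nat_lit 3639095336) (nat_lit 152) (nat_lit 10855505783) (nat_lit 25) (nat_lit 5) (nat_lit 26) (nat_lit 5) (nat_lit 27) (nat_lit 4) (nat_lit 378) (nat_lit 336) (nat_lit 306)) (XT.nd (nat_lit 78) (nat_lit 76) (nat_lit 0) (XT.lf (nat_lit 0) (nat_lit 4104007947) (nat_lit 76) (nat_lit 18823347672) (nat_lit 76) (nat_lit 2267537860) (nat_lit 24) (nat_lit 4) (nat_lit 25) (nat_lit 5) (nat_lit 25) (nat_lit 4) (nat_lit 379) (nat_lit 336) (nat_lit 305)) (XT.lf (nat_lit 0) (nat_lit 6971658564) (nat_lit 152) (nat_lit 2388189990) (nat_lit 76) (nat_lit 17314463215) (nat_lit 23) (nat_lit 5) (nat_lit 25) (nat_lit 5) (nat_lit 24) (nat_lit 4) (nat_lit 380) (nat_lit 336) (nat_lit 304)))))) (XT.nd (nat_lit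 468) (nat_lit 380) (nat_lit 0) (XT.nd (nat_lit 234) (nat_lit 152) (nat_lit 0) (XT.nd (nat_lit 78) (nat_lit 228) (nat_lit 0) (XT.lf (nat_lit 0) (nat_lit 17051723493) (nat_lit 152) (nat_lit 10153130560) (nat_lit 0) (nat_lit 1056328885) (nat_lit 22) (nat_lit 5) (nat_lit 24) (nat_lit 4) (nat_lit 22) (nat_lit 4) (nat_lit 381) (nat_lit 336) (nat_lit 303)) (XT.nd (nat_lit 78) (nat_lit 152) (nat_lit 0) (XT.lf (nat_lit 0) (nat_lit 10306752090) (nat_lit 76) (nat_lit 17876444129) (nat_lit 76) (nat_lit 1779573072) (nat_lit 21) (nat_lit 4) (nat_lit 22) (nat_lit 5) (nat_lit 22) (nat_lit 4) (nat_lit 382) (nat_lit 336) (nat_lit 302)) (XT.lf (nat_lit 0) (nat_lit 645793727) (nat_lit 76) (nat_lit 7567193813) (nat_lit 152) (nat_lit 23577083418) (nat_lit 19) (nat_lit 5) (nat_lit 20) (nat_lit 5) (nat_lit 21) (nat_lit 4) (nat_lit 383) (nat_lit 336) (nat_lit 301)))) (XT.nd (nat_lit 78) (nat_lit 152) (nat_lit 0)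 (XT.lf (nat_lit 0) (nat_lit 19238168097) (nat_lit 152) (nat_lit 10773692165) (nat_lit 0) (nat_lit 3735472449) (nat_lit 19) (nat_lit 5) (nat_lit 21) (nat_lit 4) (nat_lit 19) (nat_lit 4) (nat_lit 384) (nat_lit 336) (nat_lit 300)) (XT.nd (nat_lit 78) (nat_lit 76) (nat_lit 0) (XT.lf (nat_lit 0) (nat_lit 11265426294) (nat_lit 76) (nat_lit 20082523277) (nat_lit 76) (nat_lit 4503108319) (nat_lit 18) (nat_lit 4) (nat_lit 19) (nat_lit 5) (nat_lit 19) (nat_lit 4) (nat_lit 385) (nat_lit 336) (nat_lit 299)) (XT.lf (nat_lit 0) (nat_lit 6194521156) (nat_lit 152) (nat_lit 2951682985) (nat_lit 76) (nat_lit 28967324748) (nat_lit 17) (nat_lit 5) (nat_lit 19) (nat_lit 5) (nat_lit 18) (nat_lit 4) (nat_lit 386) (nat_lit 336) (nat_lit 298))))) (XT.nd (nat_lit 234) (nat_lit 228) (nat_lit 0) (XT.nd (nat_lit 78) (nat_lit 76) (nat_lit 0) (XT.lf (nat_lit 0) (nat_lit 17873711231) (nat_lit 152) (nat_lit 19759551909)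 (nat_lit 0) (nat_lit 2905877136) (nat_lit 16) (nat_lit 5) (nat_lit 18) (nat_lit 4) (nat_lit 16) (nat_lit 4) (nat_lit 387) (nat_lit 336) (nat_lit 297)) (XT.nd (nat_lit 78) (nat_lit 0) (nat_lit 0) (XT.lf (nat_lit 0) (nat_lit 3133381822) (nat_lit 76) (nat_lit 27521442275) (nat_lit 76) (nat_lit 12495606025) (nat_lit 15) (nat_lit 4) (nat_lit 16) (nat_lit 5) (nat_lit 16) (nat_lit 4) (nat_lit 388) (nat_lit 336) (nat_lit 296)) (XT.lf (nat_lit 0) (nat_lit 28400385156) (nat_lit 76) (nat_lit 16318385491) (nat_lit 76) (nat_lit 1238843543) (nat_lit 15) (nat_lit 4) (nat_lit 16) (nat_lit 5) (nat_lit 16) (nat_lit 4) (nat_lit 389) (nat_lit 336) (nat_lit 295)))) (XT.nd (nat_lit 156) (nat_lit 76) (nat_lit 0) (XT.nd (nat_lit 78) (nat_lit 0) (nat_lit 0) (XT.lf (nat_lit 0) (nat_lit 6586190097) (nat_lit 76) (nat_lit 4006716997) (nat_lit 152) (nat_lit 38386754488) (nat_lit 13) (nat_lit 5) (nat_lit 14) (nat_lit 5)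 (nat_lit 15) (nat_lit 4) (nat_lit 390) (nat_lit 336) (nat_lit 294)) (XT.lf (nat_lit 0) (nat_lit 23707780136) (nat_lit 152) (nat_lit 19260583982) (nat_lit 0) (nat_lit 9255100681) (nat_lit 13) (nat_lit 5) (nat_lit 15) (nat_lit 4) (nat_lit 13) (nat_lit 4) (nat_lit 391) (nat_lit 336) (nat_lit 293))) (XT.nd (nat_lit 78) (nat_lit 0) (nat_lit 0) (XT.lf (nat_lit 0) (nat_lit 5699358711) (nat_lit 76) (nat_lit 32258208117) (nat_lit 76) (nat_lit 17764925504) (nat_lit 12) (nat_lit 4) (nat_lit 13) (nat_lit 5) (nat_lit 13) (nat_lit 4) (nat_lit 392) (nat_lit 336) (nat_lit 292)) (XT.lf (nat_lit 0) (nat_lit 33211471760) (nat_lit 76) (nat_lit 20403730467) (nat_lit 76) (nat_lit 5872852339) (nat_lit 12) (nat_lit 4) (nat_lit 13) (nat_lit 5) (nat_lit 13) (nat_lit 4) (nat_lit 393) (nat_lit 336) (nat_lit 291))))))))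
noncomputable def xc40 : XT := (XT.nd (nat_lit 1872) (nat_lit 152) (nat_lit 0) (XT.nd (nat_lit 936) (nat_lit 228) (nat_lit 0) (XT.nd (nat_lit 468) (nat_lit 228) (nat_lit 0) (XT.nd (nat_lit 234) (nat_lit 76) (nat_lit 0) (XT.nd (nat_lit 78) (nat_lit 76) (nat_lit 0) (XT.lf (nat_lit 0) (nat_lit 6683821736) (nat_lit 152) (nat_lit 863854230) (nat_lit 76) (nat_lit 56004932527) (nat_lit 11) (nat_lit 5) (nat_lit 13) (nat_lit 5) (nat_lit 12) (nat_lit 4) (nat_lit 394) (nat_lit 336) (nat_lit 290)) (XT.nd (nat_lit 78) (nat_lit 0) (nat_lit 0) (XT.lf (nat_lit 0) (nat_lit 20515006704) (nat_lit 152) (nat_lit 40786499381) (nat_lit 0) (nat_lit 6612224907) (nat_lit 10) (nat_lit 5) (nat_lit 12) (nat_lit 4) (nat_lit 10) (nat_lit 4) (nat_lit 395) (nat_lit 336) (nat_lit 289)) (XT.lf (nat_lit 0) (nat_lit 35538098016) (nat_lit 152) (nat_lit 15474486217) (nat_lit 0) (nat_lit 21606892855) (nat_lit 10) (nat_lit 5) (nat_lit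 12) (nat_lit 4) (nat_lit 10) (nat_lit 4) (nat_lit 396) (nat_lit 336) (nat_lit 288)))) (XT.nd (nat_lit 78) (nat_lit 0) (nat_lit 0) (XT.lf (nat_lit 0) (nat_lit 12147168336) (nat_lit 76) (nat_lit 39752602483) (nat_lit 76) (nat_lit 25795079392) (nat_lit 9) (nat_lit 4) (nat_lit 10) (nat_lit 5) (nat_lit 10) (nat_lit 4) (nat_lit 397) (nat_lit 336) (nat_lit 287)) (XT.nd (nat_lit 78) (nat_lit 0) (nat_lit 0) (XT.lf (nat_lit 0) (nat_lit 42431563525) (nat_lit 76) (nat_lit 27357817391) (nat_lit 76) (nat_lit 13375925846) (nat_lit 9) (nat_lit 4) (nat_lit 10) (nat_lit 5) (nat_lit 10) (nat_lit 4) (nat_lit 398) (nat_lit 336) (nat_lit 286)) (XT.lf (nat_lit 0) (nat_lit 75046506035) (nat_lit 76) (nat_lit 14016846289) (nat_lit 76) (nat_lit 12391361) (nat_lit 9) (nat_lit 4) (nat_lit 10) (nat_lit 5) (nat_lit 10) (nat_lit 4) (nat_lit 399) (nat_lit 336) (nat_lit 285))))) (XT.nd (nat_lit 234) (nat_lit 76) (nat_lit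 0) (XT.nd (nat_lit 78) (nat_lit 0) (nat_lit 0) (XT.lf (nat_lit 0) (nat_lit 14161467756) (nat_lit 152) (nat_lit 80472160434) (nat_lit 0) (nat_lit 803994471) (nat_lit 7) (nat_lit 5) (nat_lit 9) (nat_lit 4) (nat_lit 7) (nat_lit 4) (nat_lit 400) (nat_lit 336) (nat_lit 284)) (XT.nd (nat_lit 78) (nat_lit 0) (nat_lit 0) (XT.lf (nat_lit 0) (nat_lit 29910816271) (nat_lit 152) (nat_lit 55840607934) (nat_lit 0) (nat_lit 16534919687) (nat_lit 7) (nat_lit 5) (nat_lit 9) (nat_lit 4) (nat_lit 7) (nat_lit 4) (nat_lit 401) (nat_lit 336) (nat_lit 283)) (XT.lf (nat_lit 0) (nat_lit 46880550501) (nat_lit 152) (nat_lit 29316797749) (nat_lit 0) (nat_lit 33487595306) (nat_lit 7) (nat_lit 5) (nat_lit 9) (nat_lit 4) (nat_lit 7) (nat_lit 4) (nat_lit 402) (nat_lit 336) (nat_lit 282)))) (XT.nd (nat_lit 78) (nat_lit 76) (nat_lit 0) (XT.lf (nat_lit 0) (nat_lit 65171231834) (nat_lit 152) (nat_lit 743551743) (nat_lit 0)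 (nat_lit 51762481630) (nat_lit 7) (nat_lit 5) (nat_lit 9) (nat_lit 4) (nat_lit 7) (nat_lit 4) (nat_lit 403) (nat_lit 336) (nat_lit 281)) (XT.nd (nat_lit 78) (nat_lit 0) (nat_lit 0) (XT.lf (nat_lit 0) (nat_lit 31041990582) (nat_lit 76) (nat_lit 54333911379) (nat_lit 76) (nat_lit 40910536165) (nat_lit 6) (nat_lit 4) (nat_lit 7) (nat_lit 5) (nat_lit 7) (nat_lit 4) (nat_lit 404) (nat_lit 336) (nat_lit 280)) (XT.lf (nat_lit 0) (nat_lit 65332743490) (nat_lit 76) (nat_lit 41844746571) (nat_lit 76) (nat_lit 28407829682) (nat_lit 6) (nat_lit 4) (nat_lit 7) (nat_lit 5) (nat_lit 7) (nat_lit 4) (nat_lit 405) (nat_lit 336) (nat_lit 279)))))) (XT.nd (nat_lit 468) (nat_lit 76) (nat_lit 0) (XT.nd (nat_lit 234) (nat_lit 0) (nat_lit 0) (XT.nd (nat_lit 78) (nat_lit 152) (nat_lit 0) (XT.lf (nat_lit 0) (nat_lit 102307326264) (nat_lit 76) (nat_lit 28385871698) (nat_lit 76) (nat_lit 14936416221) (nat_lit 6) (nat_lit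 4) (nat_lit 7) (nat_lit 5) (nat_lit 7) (nat_lit 4) (nat_lit 406) (nat_lit 336) (nat_lit 278)) (XT.nd (nat_lit 78) (nat_lit 152) (nat_lit 0) (XT.lf (nat_lit 0) (nat_lit 142184847543) (nat_lit 76) (nat_lit 13877530464) (nat_lit 76) (nat_lit 416465183) (nat_lit 6) (nat_lit 4) (nat_lit 7) (nat_lit 5) (nat_lit 7) (nat_lit 4) (nat_lit 407) (nat_lit 336) (nat_lit 277)) (XT.lf (nat_lit 0) (nat_lit 15056689755) (nat_lit 152) (nat_lit 150887006853) (nat_lit 0) (nat_lit 2226389661) (nat_lit 4) (nat_lit 5) (nat_lit 6) (nat_lit 4) (nat_lit 4) (nat_lit 4) (nat_lit 408) (nat_lit 336) (nat_lit 276)))) (XT.nd (nat_lit 78) (nat_lit 0) (nat_lit 0) (XT.lf (nat_lit 0) (nat_lit 32215005447) (nat_lit 152) (nat_lit 129182962683) (nat_lit 0) (nat_lit 19375225795) (nat_lit 4) (nat_lit 5) (nat_lit 6) (nat_lit 4) (nat_lit 4) (nat_lit 4) (nat_lit 409) (nat_lit 336) (nat_lit 275)) (XT.nd (nat_lit 78) (nat_lit 0) (nat_lit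 0) (XT.lf (nat_lit 0) (nat_lit 50722495346) (nat_lit 152) (nat_lit 105789292424) (nat_lit 0) (nat_lit 37873938326) (nat_lit 4) (nat_lit 5) (nat_lit 6) (nat_lit 4) (nat_lit 4) (nat_lit 4) (nat_lit 410) (nat_lit 336) (nat_lit 274)) (XT.lf (nat_lit 0) (nat_lit 70688833466) (nat_lit 152) (nat_lit 80567366921) (nat_lit 0) (nat_lit 57832149254) (nat_lit 4) (nat_lit 5) (nat_lit 6) (nat_lit 4) (nat_lit 4) (nat_lit 4) (nat_lit 411) (nat_lit 336) (nat_lit 273))))) (XT.nd (nat_lit 234) (nat_lit 0) (nat_lit 0) (XT.nd (nat_lit 78) (nat_lit 76) (nat_lit 0) (XT.lf (nat_lit 0) (nat_lit 92232338849) (nat_lit 152) (nat_lit 53367722909) (nat_lit 0) (nat_lit 79368129459) (nat_lit 4) (nat_lit 5) (nat_lit 6) (nat_lit 4) (nat_lit 4) (nat_lit 4) (nat_lit 412) (nat_lit 336) (nat_lit 272)) (XT.nd (nat_lit 78) (nat_lit 76) (nat_lit 0) (XT.lf (nat_lit 0) (nat_lit 115480676711) (nat_lit 152) (nat_lit 24029177315) (nat_lit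 0) (nat_lit 102609499563) (nat_lit 4) (nat_lit 5) (nat_lit 6) (nat_lit 4) (nat_lit 4) (nat_lit 4) (nat_lit 413) (nat_lit 336) (nat_lit 271)) (XT.lf (nat_lit 0) (nat_lit 7874149882) (nat_lit 76) (nat_lit 132820402646) (nat_lit 76) (nat_lit 119942773870) (nat_lit 3) (nat_lit 4) (nat_lit 4) (nat_lit 5) (nat_lit 4) (nat_lit 4) (nat_lit 414) (nat_lit 336) (nat_lit 270)))) (XT.nd (nat_lit 78) (nat_lit 0) (nat_lit 0) (XT.lf (nat_lit 0) (nat_lit 43154985089) (nat_lit 76) (nat_lit 125172625870) (nat_lit 76) (nat_lit 112289023365) (nat_lit 3) (nat_lit 4) (nat_lit 4) (nat_lit 5) (nat_lit 4) (nat_lit 4) (nat_lit 415) (nat_lit 336) (nat_lit 269)) (XT.nd (nat_lit 78) (nat_lit 0) (nat_lit 0) (XT.lf (nat_lit 0) (nat_lit 81227886801) (nat_lit 76) (nat_lit 116928149284) (nat_lit 76) (nat_lit 104039015548) (nat_lit 3) (nat_lit 4) (nat_lit 4) (nat_lit 5) (nat_lit 4) (nat_lit 4) (nat_lit 416) (nat_lit 336) (nat_lit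 268)) (XT.lf (nat_lit 0) (nat_lit 122318472213) (nat_lit 76) (nat_lit 108038116731) (nat_lit 76) (nat_lit 95143861485) (nat_lit 3) (nat_lit 4) (nat_lit 4) (nat_lit 5) (nat_lit 4) (nat_lit 4) (nat_lit 417) (nat_lit 336) (nat_lit 267))))))) (XT.nd (nat_lit 936) (nat_lit 0) (nat_lit 0) (XT.nd (nat_lit 468) (nat_lit 152) (nat_lit 0) (XT.nd (nat_lit 234) (nat_lit 0) (nat_lit 0) (XT.nd (nat_lit 78) (nat_lit 0) (nat_lit 0) (XT.lf (nat_lit 0) (nat_lit 166670241091) (nat_lit 76) (nat_lit 98449846536) (nat_lit 76) (nat_lit 85550849152) (nat_lit 3) (nat_lit 4) (nat_lit 4) (nat_lit 5) (nat_lit 4) (nat_lit 4) (nat_lit 418) (nat_lit 336) (nat_lit 266)) (XT.nd (nat_lit 78) (nat_lit 0) (nat_lit 0) (XT.lf (nat_lit 0) (nat_lit 214546018732) (nat_lit 76) (nat_lit 88106519321) (nat_lit 76) (nat_lit 75203131067) (nat_lit 3) (nat_lit 4) (nat_lit 4) (nat_lit 5) (nat_lit 4) (nat_lit 4) (nat_lit 419) (nat_lit 336)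 (nat_lit 265)) (XT.lf (nat_lit 0) (nat_lit 266229513448) (nat_lit 76) (nat_lit 76946841295) (nat_lit 76) (nat_lit 64039387421) (nat_lit 3) (nat_lit 4) (nat_lit 4) (nat_lit 5) (nat_lit 4) (nat_lit 4) (nat_lit 420) (nat_lit 336) (nat_lit 264)))) (XT.nd (nat_lit 78) (nat_lit 0) (nat_lit 0) (XT.lf (nat_lit 0) (nat_lit 322026997800) (nat_lit 76) (nat_lit 64904681032) (nat_lit 76) (nat_lit 51993462696) (nat_lit 3) (nat_lit 4) (nat_lit 4) (nat_lit 5) (nat_lit 4) (nat_lit 4) (nat_lit 421) (nat_lit 336) (nat_lit 263)) (XT.nd (nat_lit 78) (nat_lit 0) (nat_lit 0) (XT.lf (nat_lit 0) (nat_lit 382269123546) (nat_lit 76) (nat_lit 51908677582) (nat_lit 76) (nat_lit 38993973632) (nat_lit 3) (nat_lit 4) (nat_lit 4) (nat_lit 5) (nat_lit 4) (nat_lit 4) (nat_lit 422) (nat_lit 336) (nat_lit 262)) (XT.lf (nat_lit 0) (nat_lit 447312881063) (nat_lit 76) (nat_lit 37881817593) (nat_lit 76) (nat_lit 24963886223) (nat_lit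 3) (nat_lit 4) (nat_lit 4) (nat_lit 5) (nat_lit 4) (nat_lit 4) (nat_lit 423) (nat_lit 336) (nat_lit 261))))) (XT.nd (nat_lit 234) (nat_lit 0) (nat_lit 0) (XT.nd (nat_lit 78) (nat_lit 152) (nat_lit 0) (XT.lf (nat_lit 0) (nat_lit 517543714839) (nat_lit 76) (nat_lit 22740978930) (nat_lit 76) (nat_lit 9820059208) (nat_lit 3) (nat_lit 4) (nat_lit 4) (nat_lit 5) (nat_lit 4) (nat_lit 4) (nat_lit 424) (nat_lit 336) (nat_lit 260)) (XT.nd (nat_lit 78) (nat_lit 0) (nat_lit 0) (XT.lf (nat_lit 0) (nat_lit 29857486) (nat_lit 76) (nat_lit 6288944562) (nat_lit 152) (nat_lit 586923076300) (nat_lit 1) (nat_lit 5) (nat_lit 2) (nat_lit 5) (nat_lit 3) (nat_lit 4) (nat_lit 425) (nat_lit 336) (nat_lit 259)) (XT.lf (nat_lit 0) (nat_lit 24157499480) (nat_lit 152) (nat_lit 603780000309) (nat_lit 0) (nat_lit 11846786390) (nat_lit 1) (nat_lit 5) (nat_lit 3) (nat_lit 4) (nat_lit 1) (nat_lit 4) (nat_lit 426) (nat_lit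 336) (nat_lit 258)))) (XT.nd (nat_lit 78) (nat_lit 0) (nat_lit 0) (XT.lf (nat_lit 0) (nat_lit 43522355188) (nat_lit 152) (nat_lit 615313395861) (nat_lit 0) (nat_lit 31209382813) (nat_lit 1) (nat_lit 5) (nat_lit 3) (nat_lit 4) (nat_lit 1) (nat_lit 4) (nat_lit 427) (nat_lit 336) (nat_lit 257)) (XT.nd (nat_lit 78) (nat_lit 0) (nat_lit 0) (XT.lf (nat_lit 0) (nat_lit 64429935823) (nat_lit 152) (nat_lit 627782365517) (nat_lit 0) (nat_lit 52114871516) (nat_lit 1) (nat_lit 5) (nat_lit 3) (nat_lit 4) (nat_lit 1) (nat_lit 4) (nat_lit 428) (nat_lit 336) (nat_lit 256)) (XT.lf (nat_lit 0) (nat_lit 87004138160) (nat_lit 152) (nat_lit 641260799468) (nat_lit 0) (nat_lit 74687136880) (nat_lit 1) (nat_lit 5) (nat_lit 3) (nat_lit 4) (nat_lit 1) (nat_lit 4) (nat_lit 429) (nat_lit 336) (nat_lit 255)))))) (XT.nd (nat_lit 46644) (nat_lit 0) (nat_lit 7372) (XT.nd (nat_lit 234) (nat_lit 0) (nat_lit 0) (XT.nd (nat_lit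 78) (nat_lit 0) (nat_lit 0) (XT.lf (nat_lit 0) (nat_lit 111378735249) (nat_lit 152) (nat_lit 655828569914) (nat_lit 0) (nat_lit 99059940475) (nat_lit 1) (nat_lit 5) (nat_lit 3) (nat_lit 4) (nat_lit 1) (nat_lit 4) (nat_lit 430) (nat_lit 336) (nat_lit 254)) (XT.nd (nat_lit 78) (nat_lit 0) (nat_lit 0) (XT.lf (nat_lit 0) (nat_lit 137698169147) (nat_lit 152) (nat_lit 671572004384) (nat_lit 0) (nat_lit 125377713731) (nat_lit 1) (nat_lit 5) (nat_lit 3) (nat_lit 4) (nat_lit 1) (nat_lit 4) (nat_lit 431) (nat_lit 336) (nat_lit 253)) (XT.lf (nat_lit 0) (nat_lit 166118406870) (nat_lit 152) (nat_lit 688584397305) (nat_lit 0) (nat_lit 153796413822) (nat_lit 1) (nat_lit 5) (nat_lit 3) (nat_lit 4) (nat_lit 1) (nat_lit 4) (nat_lit 432) (nat_lit 336) (nat_lit 252)))) (XT.nd (nat_lit 78) (nat_lit 0) (nat_lit 0) (XT.lf (nat_lit 0) (nat_lit 196807864642) (nat_lit 152) (nat_lit 706966562857) (nat_lit 0) (nat_lit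 184484447860) (nat_lit 1) (nat_lit 5) (nat_lit 3) (nat_lit 4) (nat_lit 1) (nat_lit 4) (nat_lit 433) (nat_lit 336) (nat_lit 251)) (XT.nd (nat_lit 46254) (nat_lit 0) (nat_lit 11476) (XT.lf (nat_lit 0) (nat_lit 229948405915) (nat_lit 152) (nat_lit 726827432391) (nat_lit 0) (nat_lit 217623670861) (nat_lit 1) (nat_lit 5) (nat_lit 3) (nat_lit 4) (nat_lit 1) (nat_lit 4) (nat_lit 434) (nat_lit 336) (nat_lit 250)) (XT.lf (nat_lit 0) (nat_lit 1249450909) (nat_lit 380) (nat_lit 1051492793) (nat_lit 380) (nat_lit 1051492793) (nat_lit 152) (nat_lit 4) (nat_lit 157) (nat_lit 5) (nat_lit 157) (nat_lit 4) (nat_lit 346) (nat_lit 337) (nat_lit 337))))) (XT.nd (nat_lit 234) (nat_lit 2356) (nat_lit 0) (XT.nd (nat_lit 78) (nat_lit 1216) (nat_lit 0) (XT.lf (nat_lit 0) (nat_lit 2733387945) (nat_lit 456) (nat_lit 230868774) (nat_lit 532) (nat_lit 3839389660) (nat_lit 145) (nat_lit 5) (nat_lit 151) (nat_lit 5) (nat_lit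 152) (nat_lit 4) (nat_lit 347) (nat_lit 337) (nat_lit 336)) (XT.nd (nat_lit 78) (nat_lit 608) (nat_lit 0) (XT.lf (nat_lit 0) (nat_lit 1130791416) (nat_lit 608) (nat_lit 3814279472) (nat_lit 76) (nat_lit 1976686364) (nat_lit 137) (nat_lit 5) (nat_lit 145) (nat_lit 5) (nat_lit 138) (nat_lit 4) (nat_lit 348) (nat_lit 337) (nat_lit 335)) (XT.lf (nat_lit 0) (nat_lit 3627784470) (nat_lit 608) (nat_lit 2464930700) (nat_lit 684) (nat_lit 967422863) (nat_lit 129) (nat_lit 5) (nat_lit 137) (nat_lit 5) (nat_lit 138) (nat_lit 4) (nat_lit 349) (nat_lit 337) (nat_lit 334)))) (XT.nd (nat_lit 156) (nat_lit 760) (nat_lit 0) (XT.nd (nat_lit 78) (nat_lit 836) (nat_lit 0) (XT.lf (nat_lit 0) (nat_lit 3859650231) (nat_lit 760) (nat_lit 2935286612) (nat_lit 76) (nat_lit 424022968) (nat_lit 119) (nat_lit 5) (nat_lit 129) (nat_lit 5) (nat_lit 120) (nat_lit 4) (nat_lit 350) (nat_lit 337) (nat_lit 333)) (XT.lf (nat_lit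 0) (nat_lit 1410593590) (nat_lit 836) (nat_lit 2342864605) (nat_lit 76) (nat_lit 3644555812) (nat_lit 108) (nat_lit 5) (nat_lit 119) (nat_lit 5) (nat_lit 109) (nat_lit 5) (nat_lit 351) (nat_lit 337) (nat_lit 332))) (XT.nd (nat_lit 78) (nat_lit 380) (nat_lit 0) (XT.lf (nat_lit 0) (nat_lit 5961957601) (nat_lit 380) (nat_lit 279836844) (nat_lit 456) (nat_lit 1357262725) (nat_lit 103) (nat_lit 5) (nat_lit 108) (nat_lit 5) (nat_lit 109) (nat_lit 5) (nat_lit 352) (nat_lit 337) (nat_lit 331)) (XT.lf (nat_lit 0) (nat_lit 3399995640) (nat_lit 380) (nat_lit 880030167) (nat_lit 76) (nat_lit 3539903118) (nat_lit 98) (nat_lit 5) (nat_lit 103) (nat_lit 5) (nat_lit 99) (nat_lit 5) (nat_lit 353) (nat_lit 337) (nat_lit 330))))))))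
noncomputable def xc41 : XT := (XT.nd (nat_lit 1872) (nat_lit 1596) (nat_lit 0) (XT.nd (nat_lit 936) (nat_lit 1748) (nat_lit 0) (XT.nd (nat_lit 468) (nat_lit 1368) (nat_lit 0) (XT.nd (nat_lit 234) (nat_lit 836) (nat_lit 0) (XT.nd (nat_lit 78) (nat_lit 912) (nat_lit 0) (XT.lf (nat_lit 0) (nat_lit 260758926) (nat_lit 456) (nat_lit 1749985) (nat_lit 76) (nat_lit 7802650582) (nat_lit 92) (nat_lit 5) (nat_lit 98) (nat_lit 5) (nat_lit 93) (nat_lit 5) (nat_lit 354) (nat_lit 337) (nat_lit 329)) (XT.nd (nat_lit 78) (nat_lit 304) (nat_lit 0) (XT.lf (nat_lit 0) (nat_lit 914931976) (nat_lit 304) (nat_lit 4186616784) (nat_lit 380) (nat_lit 3228019553) (nat_lit 84) (nat_lit 5) (nat_lit 88) (nat_lit 5) (nat_lit 89) (nat_lit 5) (nat_lit 355) (nat_lit 337) (nat_lit 328)) (XT.lf (nat_lit 0) (nat_lit 1545863034) (nat_lit 304) (nat_lit 6683076074) (nat_lit 76) (nat_lit 390722045) (nat_lit 80) (nat_lit 5) (nat_lit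 84) (nat_lit 5) (nat_lit 81) (nat_lit 5) (nat_lit 356) (nat_lit 337) (nat_lit 327)))) (XT.nd (nat_lit 78) (nat_lit 532) (nat_lit 0) (XT.lf (nat_lit 0) (nat_lit 2964689368) (nat_lit 304) (nat_lit 3590947937) (nat_lit 380) (nat_lit 2376493836) (nat_lit 76) (nat_lit 5) (nat_lit 80) (nat_lit 5) (nat_lit 81) (nat_lit 5) (nat_lit 357) (nat_lit 337) (nat_lit 326)) (XT.nd (nat_lit 78) (nat_lit 228) (nat_lit 0) (XT.lf (nat_lit 0) (nat_lit 2544694835) (nat_lit 304) (nat_lit 5220809698) (nat_lit 76) (nat_lit 1505418107) (nat_lit 72) (nat_lit 5) (nat_lit 76) (nat_lit 5) (nat_lit 73) (nat_lit 5) (nat_lit 358) (nat_lit 337) (nat_lit 325)) (XT.lf (nat_lit 0) (nat_lit 5147589638) (nat_lit 228) (nat_lit 2617685274) (nat_lit 304) (nat_lit 1870285061) (nat_lit 69) (nat_lit 5) (nat_lit 72) (nat_lit 5) (nat_lit 73) (nat_lit 5) (nat_lit 359) (nat_lit 337) (nat_lit 324))))) (XT.nd (nat_lit 234) (nat_lit 608) (nat_lit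 0) (XT.nd (nat_lit 78) (nat_lit 456) (nat_lit 0) (XT.lf (nat_lit 0) (nat_lit 3255946471) (nat_lit 304) (nat_lit 3781438496) (nat_lit 76) (nat_lit 2989980975) (nat_lit 65) (nat_lit 5) (nat_lit 69) (nat_lit 5) (nat_lit 66) (nat_lit 5) (nat_lit 360) (nat_lit 337) (nat_lit 323)) (XT.nd (nat_lit 78) (nat_lit 228) (nat_lit 0) (XT.lf (nat_lit 0) (nat_lit 7358172471) (nat_lit 228) (nat_lit 1370227014) (nat_lit 304) (nat_lit 1720614387) (nat_lit 62) (nat_lit 5) (nat_lit 65) (nat_lit 5) (nat_lit 66) (nat_lit 5) (nat_lit 361) (nat_lit 337) (nat_lit 322)) (XT.lf (nat_lit 0) (nat_lit 3661667550) (nat_lit 228) (nat_lit 2489323714) (nat_lit 76) (nat_lit 4748240255) (nat_lit 59) (nat_lit 5) (nat_lit 62) (nat_lit 5) (nat_lit 60) (nat_lit 5) (nat_lit 362) (nat_lit 337) (nat_lit 321)))) (XT.nd (nat_lit 78) (nat_lit 380) (nat_lit 0) (XT.lf (nat_lit 0) (nat_lit 9422374025) (nat_lit 304) (nat_lit 1915269102) (nat_lit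 76) (nat_lit 46099129) (nat_lit 56) (nat_lit 5) (nat_lit 60) (nat_lit 5) (nat_lit 57) (nat_lit 4) (nat_lit 363) (nat_lit 337) (nat_lit 320)) (XT.nd (nat_lit 78) (nat_lit 152) (nat_lit 0) (XT.lf (nat_lit 0) (nat_lit 3720318072) (nat_lit 228) (nat_lit 1497656688) (nat_lit 76) (nat_lit 6681053225) (nat_lit 53) (nat_lit 5) (nat_lit 56) (nat_lit 5) (nat_lit 54) (nat_lit 5) (nat_lit 364) (nat_lit 337) (nat_lit 319)) (XT.lf (nat_lit 0) (nat_lit 9820679050) (nat_lit 228) (nat_lit 1156110747) (nat_lit 76) (nat_lit 1475571563) (nat_lit 51) (nat_lit 5) (nat_lit 54) (nat_lit 5) (nat_lit 52) (nat_lit 4) (nat_lit 365) (nat_lit 337) (nat_lit 318)))))) (XT.nd (nat_lit 468) (nat_lit 684) (nat_lit 0) (XT.nd (nat_lit 234) (nat_lit 456) (nat_lit 0) (XT.nd (nat_lit 78) (nat_lit 380) (nat_lit 0) (XT.lf (nat_lit 0) (nat_lit 3362465018) (nat_lit 228) (nat_lit 1000558525) (nat_lit 76) (nat_lit 8678838505) (nat_lit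 48) (nat_lit 5) (nat_lit 51) (nat_lit 5) (nat_lit 49) (nat_lit 5) (nat_lit 366) (nat_lit 337) (nat_lit 317)) (XT.nd (nat_lit 78) (nat_lit 228) (nat_lit 0) (XT.lf (nat_lit 0) (nat_lit 9822144851) (nat_lit 228) (nat_lit 1011708582) (nat_lit 76) (nat_lit 2838663618) (nat_lit 46) (nat_lit 5) (nat_lit 49) (nat_lit 5) (nat_lit 47) (nat_lit 4) (nat_lit 367) (nat_lit 337) (nat_lit 316)) (XT.lf (nat_lit 0) (nat_lit 2484681790) (nat_lit 228) (nat_lit 1248224942) (nat_lit 76) (nat_lit 10612965208) (nat_lit 43) (nat_lit 5) (nat_lit 46) (nat_lit 5) (nat_lit 44) (nat_lit 5) (nat_lit 368) (nat_lit 337) (nat_lit 315)))) (XT.nd (nat_lit 78) (nat_lit 304) (nat_lit 0) (XT.lf (nat_lit 0) (nat_lit 9309945762) (nat_lit 228) (nat_lit 1766989563) (nat_lit 76) (nat_lit 3987138853) (nat_lit 41) (nat_lit 5) (nat_lit 44) (nat_lit 5) (nat_lit 42) (nat_lit 4) (nat_lit 369) (nat_lit 337) (nat_lit 314)) (XT.nd (nat_lit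 78) (nat_lit 152) (nat_lit 0) (XT.lf (nat_lit 0) (nat_lit 941225205) (nat_lit 152) (nat_lit 2566101351) (nat_lit 76) (nat_lit 12325460389) (nat_lit 39) (nat_lit 5) (nat_lit 41) (nat_lit 5) (nat_lit 40) (nat_lit 5) (nat_lit 370) (nat_lit 337) (nat_lit 313)) (XT.lf (nat_lit 0) (nat_lit 8120631529) (nat_lit 228) (nat_lit 3793697599) (nat_lit 76) (nat_lit 4736491041) (nat_lit 37) (nat_lit 5) (nat_lit 40) (nat_lit 5) (nat_lit 38) (nat_lit 4) (nat_lit 371) (nat_lit 337) (nat_lit 312))))) (XT.nd (nat_lit 234) (nat_lit 304) (nat_lit 0) (XT.nd (nat_lit 78) (nat_lit 304) (nat_lit 0) (XT.lf (nat_lit 0) (nat_lit 12124458702) (nat_lit 76) (nat_lit 3887417914) (nat_lit 152) (nat_lit 1515583074) (nat_lit 36) (nat_lit 5) (nat_lit 37) (nat_lit 5) (nat_lit 38) (nat_lit 4) (nat_lit 372) (nat_lit 337) (nat_lit 311)) (XT.nd (nat_lit 78) (nat_lit 76) (nat_lit 0) (XT.lf (nat_lit 0) (nat_lit 6031430053) (nat_lit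 228) (nat_lit 7578051245) (nat_lit 76) (nat_lit 4851791558) (nat_lit 33) (nat_lit 5) (nat_lit 36) (nat_lit 5) (nat_lit 34) (nat_lit 4) (nat_lit 373) (nat_lit 337) (nat_lit 310)) (XT.lf (nat_lit 0) (nat_lit 9135764659) (nat_lit 76) (nat_lit 5151864417) (nat_lit 152) (nat_lit 5173024530) (nat_lit 32) (nat_lit 5) (nat_lit 33) (nat_lit 5) (nat_lit 34) (nat_lit 4) (nat_lit 374) (nat_lit 337) (nat_lit 309)))) (XT.nd (nat_lit 78) (nat_lit 76) (nat_lit 0) (XT.lf (nat_lit 0) (nat_lit 2743581682) (nat_lit 228) (nat_lit 13756236951) (nat_lit 76) (nat_lit 4029887721) (nat_lit 29) (nat_lit 5) (nat_lit 32) (nat_lit 5) (nat_lit 30) (nat_lit 4) (nat_lit 375) (nat_lit 337) (nat_lit 308)) (XT.nd (nat_lit 78) (nat_lit 0) (nat_lit 0) (XT.lf (nat_lit 0) (nat_lit 3620693601) (nat_lit 76) (nat_lit 7683636851) (nat_lit 152) (nat_lit 10366135404) (nat_lit 28) (nat_lit 5) (nat_lit 29) (nat_lit 5) (nat_lit 30) (nat_lit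 4) (nat_lit 376) (nat_lit 337) (nat_lit 307)) (XT.lf (nat_lit 0) (nat_lit 20690259173) (nat_lit 152) (nat_lit 289263524) (nat_lit 0) (nat_lit 1915970847) (nat_lit 28) (nat_lit 5) (nat_lit 30) (nat_lit 4) (nat_lit 28) (nat_lit 4) (nat_lit 377) (nat_lit 337) (nat_lit 306))))))) (XT.nd (nat_lit 936) (nat_lit 608) (nat_lit 0) (XT.nd (nat_lit 468) (nat_lit 380) (nat_lit 0) (XT.nd (nat_lit 234) (nat_lit 304) (nat_lit 0) (XT.nd (nat_lit 78) (nat_lit 152) (nat_lit 0) (XT.lf (nat_lit 0) (nat_lit 6708391615) (nat_lit 152) (nat_lit 5163019301) (nat_lit 76) (nat_lit 12326405931) (nat_lit 26) (nat_lit 5) (nat_lit 28) (nat_lit 5) (nat_lit 27) (nat_lit 4) (nat_lit 378) (nat_lit 337) (nat_lit 305)) (XT.nd (nat_lit 78) (nat_lit 76) (nat_lit 0) (XT.lf (nat_lit 0) (nat_lit 14517361082) (nat_lit 76) (nat_lit 1854871816) (nat_lit 152) (nat_lit 9224585381) (nat_lit 25) (nat_lit 5) (nat_lit 26) (nat_lit 5) (nat_lit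 27) (nat_lit 4) (nat_lit 379) (nat_lit 337) (nat_lit 304)) (XT.lf (nat_lit 0) (nat_lit 8777235291) (nat_lit 76) (nat_lit 18285839675) (nat_lit 76) (nat_lit 31987897) (nat_lit 24) (nat_lit 4) (nat_lit 25) (nat_lit 5) (nat_lit 25) (nat_lit 4) (nat_lit 380) (nat_lit 337) (nat_lit 303)))) (XT.nd (nat_lit 78) (nat_lit 152) (nat_lit 0) (XT.lf (nat_lit 0) (nat_lit 1565866189) (nat_lit 76) (nat_lit 8154264658) (nat_lit 152) (nat_lit 18978284165) (nat_lit 22) (nat_lit 5) (nat_lit 23) (nat_lit 5) (nat_lit 24) (nat_lit 4) (nat_lit 381) (nat_lit 337) (nat_lit 302)) (XT.nd (nat_lit 78) (nat_lit 152) (nat_lit 0) (XT.lf (nat_lit 0) (nat_lit 20511727602) (nat_lit 152) (nat_lit 6973603776) (nat_lit 0) (nat_lit 2931670738) (nat_lit 22) (nat_lit 5) (nat_lit 24) (nat_lit 4) (nat_lit 22) (nat_lit 4) (nat_lit 382) (nat_lit 337) (nat_lit 301)) (XT.lf (nat_lit 0) (nat_lit 172849924) (nat_lit 152) (nat_lit 17312714217)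 (nat_lit 76) (nat_lit 14773814491) (nat_lit 20) (nat_lit 5) (nat_lit 22) (nat_lit 5) (nat_lit 21) (nat_lit 4) (nat_lit 383) (nat_lit 337) (nat_lit 300))))) (XT.nd (nat_lit 234) (nat_lit 228) (nat_lit 0) (XT.nd (nat_lit 78) (nat_lit 76) (nat_lit 0) (XT.lf (nat_lit 0) (nat_lit 4414363578) (nat_lit 76) (nat_lit 6396356136) (nat_lit 152) (nat_lit 23425291885) (nat_lit 19) (nat_lit 5) (nat_lit 20) (nat_lit 5) (nat_lit 21) (nat_lit 4) (nat_lit 384) (nat_lit 337) (nat_lit 299)) (XT.nd (nat_lit 78) (nat_lit 76) (nat_lit 0) (XT.lf (nat_lit 0) (nat_lit 22599837134) (nat_lit 152) (nat_lit 8129624833) (nat_lit 0) (nat_lit 5626313270) (nat_lit 19) (nat_lit 5) (nat_lit 21) (nat_lit 4) (nat_lit 19) (nat_lit 4) (nat_lit 385) (nat_lit 337) (nat_lit 298)) (XT.lf (nat_lit 0) (nat_lit 15520258236) (nat_lit 76) (nat_lit 20075493389) (nat_lit 76) (nat_lit 3036195082) (nat_lit 18) (nat_lit 4) (nat_lit 19) (nat_lit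 5) (nat_lit 19) (nat_lit 4) (nat_lit 386) (nat_lit 337) (nat_lit 297)))) (XT.nd (nat_lit 78) (nat_lit 152) (nat_lit 0) (XT.lf (nat_lit 0) (nat_lit 8327750729) (nat_lit 152) (nat_lit 28311573) (nat_lit 76) (nat_lit 32724491333) (nat_lit 17) (nat_lit 5) (nat_lit 19) (nat_lit 5) (nat_lit 18) (nat_lit 4) (nat_lit 387) (nat_lit 337) (nat_lit 296)) (XT.nd (nat_lit 78) (nat_lit 76) (nat_lit 0) (XT.lf (nat_lit 0) (nat_lit 20889925926) (nat_lit 152) (nat_lit 18262553490) (nat_lit 0) (nat_lit 4550314923) (nat_lit 16) (nat_lit 5) (nat_lit 18) (nat_lit 4) (nat_lit 16) (nat_lit 4) (nat_lit 388) (nat_lit 337) (nat_lit 295)) (XT.lf (nat_lit 0) (nat_lit 6328059129) (nat_lit 76) (nat_lit 28293927866) (nat_lit 76) (nat_lit 11904589365) (nat_lit 15) (nat_lit 4) (nat_lit 16) (nat_lit 5) (nat_lit 16) (nat_lit 4) (nat_lit 389) (nat_lit 337) (nat_lit 294)))))) (XT.nd (nat_lit 468) (nat_lit 228) (nat_lit 0) (XT.nd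 (nat_lit 234) (nat_lit 228) (nat_lit 0) (XT.nd (nat_lit 78) (nat_lit 76) (nat_lit 0) (XT.lf (nat_lit 0) (nat_lit 130569839) (nat_lit 152) (nat_lit 16167714310) (nat_lit 76) (nat_lit 33265567052) (nat_lit 14) (nat_lit 5) (nat_lit 16) (nat_lit 5) (nat_lit 15) (nat_lit 4) (nat_lit 390) (nat_lit 337) (nat_lit 293)) (XT.nd (nat_lit 78) (nat_lit 0) (nat_lit 0) (XT.lf (nat_lit 0) (nat_lit 9765769126) (nat_lit 76) (nat_lit 3036077177) (nat_lit 152) (nat_lit 40027990948) (nat_lit 13) (nat_lit 5) (nat_lit 14) (nat_lit 5) (nat_lit 15) (nat_lit 4) (nat_lit 391) (nat_lit 337) (nat_lit 292)) (XT.lf (nat_lit 0) (nat_lit 26883722487) (nat_lit 152) (nat_lit 18300762012) (nat_lit 0) (nat_lit 11152778593) (nat_lit 13) (nat_lit 5) (nat_lit 15) (nat_lit 4) (nat_lit 13) (nat_lit 4) (nat_lit 392) (nat_lit 337) (nat_lit 291)))) (XT.nd (nat_lit 78) (nat_lit 152) (nat_lit 0) (XT.lf (nat_lit 0) (nat_lit 8547300083)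 (nat_lit 76) (nat_lit 33668773301) (nat_lit 76) (nat_lit 17903018744) (nat_lit 12) (nat_lit 4) (nat_lit 13) (nat_lit 5) (nat_lit 13) (nat_lit 4) (nat_lit 393) (nat_lit 337) (nat_lit 290)) (XT.nd (nat_lit 78) (nat_lit 152) (nat_lit 0) (XT.lf (nat_lit 0) (nat_lit 38083197534) (nat_lit 76) (nat_lit 20952610881) (nat_lit 76) (nat_lit 5154624228) (nat_lit 12) (nat_lit 4) (nat_lit 13) (nat_lit 5) (nat_lit 13) (nat_lit 4) (nat_lit 394) (nat_lit 337) (nat_lit 289)) (XT.lf (nat_lit 0) (nat_lit 1191205513) (nat_lit 76) (nat_lit 7110763608) (nat_lit 152) (nat_lit 60280590620) (nat_lit 10) (nat_lit 5) (nat_lit 11) (nat_lit 5) (nat_lit 12) (nat_lit 4) (nat_lit 395) (nat_lit 337) (nat_lit 288))))) (XT.nd (nat_lit 234) (nat_lit 152) (nat_lit 0) (XT.nd (nat_lit 78) (nat_lit 76) (nat_lit 0) (XT.lf (nat_lit 0) (nat_lit 23188600546) (nat_lit 152) (nat_lit 42018372554) (nat_lit 0) (nat_lit 8088157677) (nat_lit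 10) (nat_lit 5) (nat_lit 12) (nat_lit 4) (nat_lit 10) (nat_lit 4) (nat_lit 396) (nat_lit 337) (nat_lit 287)) (XT.nd (nat_lit 78) (nat_lit 76) (nat_lit 0) (XT.lf (nat_lit 0) (nat_lit 39337065585) (nat_lit 152) (nat_lit 14831846246) (nat_lit 0) (nat_lit 24212254262) (nat_lit 10) (nat_lit 5) (nat_lit 12) (nat_lit 4) (nat_lit 10) (nat_lit 4) (nat_lit 397) (nat_lit 337) (nat_lit 286)) (XT.lf (nat_lit 0) (nat_lit 14917812135) (nat_lit 76) (nat_lit 42047136616) (nat_lit 76) (nat_lit 26899761910) (nat_lit 9) (nat_lit 4) (nat_lit 10) (nat_lit 5) (nat_lit 10) (nat_lit 4) (nat_lit 398) (nat_lit 337) (nat_lit 285)))) (XT.nd (nat_lit 156) (nat_lit 76) (nat_lit 0) (XT.nd (nat_lit 78) (nat_lit 76) (nat_lit 0) (XT.lf (nat_lit 0) (nat_lit 47491709286) (nat_lit 76) (nat_lit 28726374202) (nat_lit 76) (nat_lit 13558107475) (nat_lit 9) (nat_lit 4) (nat_lit 10) (nat_lit 5) (nat_lit 10) (nat_lit 4) (nat_lit 399)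 (nat_lit 337) (nat_lit 284)) (XT.lf (nat_lit 0) (nat_lit 782855228) (nat_lit 152) (nat_lit 13582757973) (nat_lit 76) (nat_lit 81796354627) (nat_lit 8) (nat_lit 5) (nat_lit 10) (nat_lit 5) (nat_lit 9) (nat_lit 4) (nat_lit 400) (nat_lit 337) (nat_lit 283))) (XT.nd (nat_lit 78) (nat_lit 0) (nat_lit 0) (XT.lf (nat_lit 0) (nat_lit 16066227825) (nat_lit 152) (nat_lit 85382983688) (nat_lit 0) (nat_lit 1584777604) (nat_lit 7) (nat_lit 5) (nat_lit 9) (nat_lit 4) (nat_lit 7) (nat_lit 4) (nat_lit 401) (nat_lit 337) (nat_lit 282)) (XT.lf (nat_lit 0) (nat_lit 33018350692) (nat_lit 152) (nat_lit 58894014365) (nat_lit 0) (nat_lit 18521105461) (nat_lit 7) (nat_lit 5) (nat_lit 9) (nat_lit 4) (nat_lit 7) (nat_lit 4) (nat_lit 402) (nat_lit 337) (nat_lit 281))))))))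
noncomputable def xc42 : XT := (XT.nd (nat_lit 1872) (nat_lit 0) (nat_lit 0) (XT.nd (nat_lit 936) (nat_lit 228) (nat_lit 0) (XT.nd (nat_lit 468) (nat_lit 76) (nat_lit 0) (XT.nd (nat_lit 234) (nat_lit 76) (nat_lit 0) (XT.nd (nat_lit 78) (nat_lit 76) (nat_lit 0) (XT.lf (nat_lit 0) (nat_lit 51292725207) (nat_lit 152) (nat_lit 30353028417) (nat_lit 0) (nat_lit 36780854967) (nat_lit 7) (nat_lit 5) (nat_lit 9) (nat_lit 4) (nat_lit 7) (nat_lit 4) (nat_lit 403) (nat_lit 337) (nat_lit 280)) (XT.nd (nat_lit 78) (nat_lit 0) (nat_lit 0) (XT.lf (nat_lit 0) (nat_lit 422632814) (nat_lit 76) (nat_lit 70581609629) (nat_lit 76) (nat_lit 56056197714) (nat_lit 6) (nat_lit 4) (nat_lit 7) (nat_lit 5) (nat_lit 7) (nat_lit 4) (nat_lit 404) (nat_lit 337) (nat_lit 279)) (XT.lf (nat_lit 0) (nat_lit 34684813430) (nat_lit 76) (nat_lit 58106590552) (nat_lit 76) (nat_lit 43568640049) (nat_lit 6) (nat_lit 4) (nat_lit 7)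 (nat_lit 5) (nat_lit 7) (nat_lit 4) (nat_lit 405) (nat_lit 337) (nat_lit 278)))) (XT.nd (nat_lit 78) (nat_lit 76) (nat_lit 0) (XT.lf (nat_lit 0) (nat_lit 71632940379) (nat_lit 76) (nat_lit 44660813577) (nat_lit 76) (nat_lit 30111253271) (nat_lit 6) (nat_lit 4) (nat_lit 7) (nat_lit 5) (nat_lit 7) (nat_lit 4) (nat_lit 406) (nat_lit 337) (nat_lit 277)) (XT.nd (nat_lit 78) (nat_lit 76) (nat_lit 0) (XT.lf (nat_lit 0) (nat_lit 111485965522) (nat_lit 76) (nat_lit 30164600027) (nat_lit 76) (nat_lit 15604289902) (nat_lit 6) (nat_lit 4) (nat_lit 7) (nat_lit 5) (nat_lit 7) (nat_lit 4) (nat_lit 407) (nat_lit 337) (nat_lit 276)) (XT.lf (nat_lit 0) (nat_lit 36994056) (nat_lit 152) (nat_lit 14494425845) (nat_lit 76) (nat_lit 154442434367) (nat_lit 5) (nat_lit 5) (nat_lit 7) (nat_lit 5) (nat_lit 6) (nat_lit 4) (nat_lit 408) (nat_lit 337) (nat_lit 275))))) (XT.nd (nat_lit 234) (nat_lit 0) (nat_lit 0) (XT.nd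 (nat_lit 78) (nat_lit 0) (nat_lit 0) (XT.lf (nat_lit 0) (nat_lit 16719526247) (nat_lit 152) (nat_lit 162046918203) (nat_lit 0) (nat_lit 2834307298) (nat_lit 4) (nat_lit 5) (nat_lit 6) (nat_lit 4) (nat_lit 4) (nat_lit 4) (nat_lit 409) (nat_lit 337) (nat_lit 274)) (XT.nd (nat_lit 78) (nat_lit 0) (nat_lit 0) (XT.lf (nat_lit 0) (nat_lit 35216558949) (nat_lit 152) (nat_lit 138674035625) (nat_lit 0) (nat_lit 21323212807) (nat_lit 4) (nat_lit 5) (nat_lit 6) (nat_lit 4) (nat_lit 4) (nat_lit 4) (nat_lit 410) (nat_lit 337) (nat_lit 273)) (XT.lf (nat_lit 0) (nat_lit 55173214479) (nat_lit 152) (nat_lit 113471357974) (nat_lit 0) (nat_lit 41272343159) (nat_lit 4) (nat_lit 5) (nat_lit 6) (nat_lit 4) (nat_lit 4) (nat_lit 4) (nat_lit 411) (nat_lit 337) (nat_lit 272)))) (XT.nd (nat_lit 78) (nat_lit 0) (nat_lit 0) (XT.lf (nat_lit 0) (nat_lit 76707754501) (nat_lit 152) (nat_lit 86289536048) (nat_lit 0) (nat_lit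 62799915423) (nat_lit 4) (nat_lit 5) (nat_lit 6) (nat_lit 4) (nat_lit 4) (nat_lit 4) (nat_lit 412) (nat_lit 337) (nat_lit 271)) (XT.nd (nat_lit 78) (nat_lit 0) (nat_lit 0) (XT.lf (nat_lit 0) (nat_lit 99947791103) (nat_lit 152) (nat_lit 56967492384) (nat_lit 0) (nat_lit 86033500397) (nat_lit 4) (nat_lit 5) (nat_lit 6) (nat_lit 4) (nat_lit 4) (nat_lit 4) (nat_lit 413) (nat_lit 337) (nat_lit 270)) (XT.lf (nat_lit 0) (nat_lit 125031043020) (nat_lit 152) (nat_lit 25331466724) (nat_lit 0) (nat_lit 111110778585) (nat_lit 4) (nat_lit 5) (nat_lit 6) (nat_lit 4) (nat_lit 4) (nat_lit 4) (nat_lit 414) (nat_lit 337) (nat_lit 269)))))) (XT.nd (nat_lit 468) (nat_lit 152) (nat_lit 0) (XT.nd (nat_lit 234) (nat_lit 0) (nat_lit 0) (XT.nd (nat_lit 78) (nat_lit 0) (nat_lit 0) (XT.lf (nat_lit 0) (nat_lit 9097180258) (nat_lit 76) (nat_lit 143151003966) (nat_lit 76) (nat_lit 129225208301) (nat_lit 3) (nat_lit 4)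 (nat_lit 4) (nat_lit 5) (nat_lit 4) (nat_lit 4) (nat_lit 415) (nat_lit 337) (nat_lit 268)) (XT.nd (nat_lit 78) (nat_lit 0) (nat_lit 0) (XT.lf (nat_lit 0) (nat_lit 47156549068) (nat_lit 76) (nat_lit 134913259188) (nat_lit 76) (nat_lit 120982342013) (nat_lit 3) (nat_lit 4) (nat_lit 4) (nat_lit 5) (nat_lit 4) (nat_lit 4) (nat_lit 416) (nat_lit 337) (nat_lit 267)) (XT.lf (nat_lit 0) (nat_lit 88234604015) (nat_lit 76) (nat_lit 126029459790) (nat_lit 76) (nat_lit 112093800476) (nat_lit 3) (nat_lit 4) (nat_lit 4) (nat_lit 5) (nat_lit 4) (nat_lit 4) (nat_lit 417) (nat_lit 337) (nat_lit 266)))) (XT.nd (nat_lit 78) (nat_lit 0) (nat_lit 0) (XT.lf (nat_lit 0) (nat_lit 132574770611) (nat_lit 76) (nat_lit 116446961036) (nat_lit 76) (nat_lit 102506910852) (nat_lit 3) (nat_lit 4) (nat_lit 4) (nat_lit 5) (nat_lit 4) (nat_lit 4) (nat_lit 418) (nat_lit 337) (nat_lit 265)) (XT.nd (nat_lit 78) (nat_lit 0) (nat_lit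 0) (XT.lf (nat_lit 0) (nat_lit 180439805398) (nat_lit 76) (nat_lit 106108977747) (nat_lit 76) (nat_lit 92164861943) (nat_lit 3) (nat_lit 4) (nat_lit 4) (nat_lit 5) (nat_lit 4) (nat_lit 4) (nat_lit 419) (nat_lit 337) (nat_lit 264)) (XT.lf (nat_lit 0) (nat_lit 232113353026) (nat_lit 76) (nat_lit 94954247800) (nat_lit 76) (nat_lit 81006367534) (nat_lit 3) (nat_lit 4) (nat_lit 4) (nat_lit 5) (nat_lit 4) (nat_lit 4) (nat_lit 420) (nat_lit 337) (nat_lit 263))))) (XT.nd (nat_lit 234) (nat_lit 152) (nat_lit 0) (XT.nd (nat_lit 78) (nat_lit 0) (nat_lit 0) (XT.lf (nat_lit 0) (nat_lit 287901627112) (nat_lit 76) (nat_lit 82916669092) (nat_lit 76) (nat_lit 68965303212) (nat_lit 3) (nat_lit 4) (nat_lit 4) (nat_lit 5) (nat_lit 4) (nat_lit 4) (nat_lit 421) (nat_lit 337) (nat_lit 262)) (XT.nd (nat_lit 78) (nat_lit 0) (nat_lit 0) (XT.lf (nat_lit 0) (nat_lit 348135224835) (nat_lit 76) (nat_lit 69924907823) (nat_lit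 76) (nat_lit 55970314524) (nat_lit 3) (nat_lit 4) (nat_lit 4) (nat_lit 5) (nat_lit 4) (nat_lit 4) (nat_lit 422) (nat_lit 337) (nat_lit 261)) (XT.lf (nat_lit 0) (nat_lit 413171086033) (nat_lit 76) (nat_lit 55901975779) (nat_lit 76) (nat_lit 41944394127) (nat_lit 3) (nat_lit 4) (nat_lit 4) (nat_lit 5) (nat_lit 4) (nat_lit 4) (nat_lit 423) (nat_lit 337) (nat_lit 260)))) (XT.nd (nat_lit 78) (nat_lit 152) (nat_lit 0) (XT.lf (nat_lit 0) (nat_lit 483394608403) (nat_lit 76) (nat_lit 40764774102) (nat_lit 76) (nat_lit 26804425458) (nat_lit 3) (nat_lit 4) (nat_lit 4) (nat_lit 5) (nat_lit 4) (nat_lit 4) (nat_lit 424) (nat_lit 337) (nat_lit 259)) (XT.nd (nat_lit 78) (nat_lit 152) (nat_lit 0) (XT.lf (nat_lit 0) (nat_lit 559221931336) (nat_lit 76) (nat_lit 24423600857) (nat_lit 76) (nat_lit 10460690183) (nat_lit 3) (nat_lit 4) (nat_lit 4) (nat_lit 5) (nat_lit 4) (nat_lit 4) (nat_lit 425) (nat_lit 337)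 (nat_lit 258)) (XT.lf (nat_lit 0) (nat_lit 299471851) (nat_lit 76) (nat_lit 6658945112) (nat_lit 152) (nat_lit 633736099332) (nat_lit 1) (nat_lit 5) (nat_lit 2) (nat_lit 5) (nat_lit 3) (nat_lit 4) (nat_lit 426) (nat_lit 337) (nat_lit 257))))))) (XT.nd (nat_lit 46956) (nat_lit 0) (nat_lit 4864) (XT.nd (nat_lit 468) (nat_lit 0) (nat_lit 0) (XT.nd (nat_lit 234) (nat_lit 0) (nat_lit 0) (XT.nd (nat_lit 78) (nat_lit 0) (nat_lit 0) (XT.lf (nat_lit 0) (nat_lit 26216200410) (nat_lit 152) (nat_lit 651830678307) (nat_lit 0) (nat_lit 12913839027) (nat_lit 1) (nat_lit 5) (nat_lit 3) (nat_lit 4) (nat_lit 1) (nat_lit 4) (nat_lit 427) (nat_lit 337) (nat_lit 256)) (XT.nd (nat_lit 78) (nat_lit 0) (nat_lit 0) (XT.lf (nat_lit 0) (nat_lit 47120903762) (nat_lit 152) (nat_lit 664305391579) (nat_lit 0) (nat_lit 33816605406) (nat_lit 1) (nat_lit 5) (nat_lit 3) (nat_lit 4) (nat_lit 1) (nat_lit 4) (nat_lit 428) (nat_lit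 337) (nat_lit 255)) (XT.lf (nat_lit 0) (nat_lit 69692441947) (nat_lit 152) (nat_lit 677789143693) (nat_lit 0) (nat_lit 56386350097) (nat_lit 1) (nat_lit 5) (nat_lit 3) (nat_lit 4) (nat_lit 1) (nat_lit 4) (nat_lit 429) (nat_lit 337) (nat_lit 254)))) (XT.nd (nat_lit 78) (nat_lit 0) (nat_lit 0) (XT.lf (nat_lit 0) (nat_lit 94064572230) (nat_lit 152) (nat_lit 692361838364) (nat_lit 0) (nat_lit 80756819737) (nat_lit 1) (nat_lit 5) (nat_lit 3) (nat_lit 4) (nat_lit 1) (nat_lit 4) (nat_lit 430) (nat_lit 337) (nat_lit 253)) (XT.nd (nat_lit 78) (nat_lit 0) (nat_lit 0) (XT.lf (nat_lit 0) (nat_lit 120381722048) (nat_lit 152) (nat_lit 708109832302) (nat_lit 0) (nat_lit 107072431923) (nat_lit 1) (nat_lit 5) (nat_lit 3) (nat_lit 4) (nat_lit 1) (nat_lit 4) (nat_lit 431) (nat_lit 337) (nat_lit 252)) (XT.lf (nat_lit 0) (nat_lit 148799844881) (nat_lit 152) (nat_lit 725126446952) (nat_lit 0) (nat_lit 135489131024)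 (nat_lit 1) (nat_lit 5) (nat_lit 3) (nat_lit 4) (nat_lit 1) (nat_lit 4) (nat_lit 432) (nat_lit 337) (nat_lit 251))))) (XT.nd (nat_lit 46254) (nat_lit 0) (nat_lit 10944) (XT.nd (nat_lit 78) (nat_lit 0) (nat_lit 0) (XT.lf (nat_lit 0) (nat_lit 179487344422) (nat_lit 152) (nat_lit 743512521513) (nat_lit 0) (nat_lit 166175312293) (nat_lit 1) (nat_lit 5) (nat_lit 3) (nat_lit 4) (nat_lit 1) (nat_lit 4) (nat_lit 433) (nat_lit 337) (nat_lit 250)) (XT.nd (nat_lit 46098) (nat_lit 0) (nat_lit 12236) (XT.lf (nat_lit 0) (nat_lit 212626072519) (nat_lit 152) (nat_lit 763377010500) (nat_lit 0) (nat_lit 199312819767) (nat_lit 1) (nat_lit 5) (nat_lit 3) (nat_lit 4) (nat_lit 1) (nat_lit 4) (nat_lit 434) (nat_lit 337) (nat_lit 249)) (XT.lf (nat_lit 0) (nat_lit 1365577542) (nat_lit 228) (nat_lit 956663883) (nat_lit 228) (nat_lit 956663883) (nat_lit 162) (nat_lit 4) (nat_lit 165) (nat_lit 5) (nat_lit 165) (nat_lit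 4) (nat_lit 344) (nat_lit 338) (nat_lit 338)))) (XT.nd (nat_lit 78) (nat_lit 912) (nat_lit 0) (XT.lf (nat_lit 0) (nat_lit 2438980159) (nat_lit 304) (nat_lit 600203170) (nat_lit 380) (nat_lit 3587355674) (nat_lit 157) (nat_lit 5) (nat_lit 161) (nat_lit 5) (nat_lit 162) (nat_lit 4) (nat_lit 345) (nat_lit 338) (nat_lit 337)) (XT.nd (nat_lit 78) (nat_lit 456) (nat_lit 0) (XT.lf (nat_lit 0) (nat_lit 1241450057) (nat_lit 456) (nat_lit 4409171109) (nat_lit 76) (nat_lit 1064215886) (nat_lit 151) (nat_lit 5) (nat_lit 157) (nat_lit 5) (nat_lit 152) (nat_lit 4) (nat_lit 346) (nat_lit 338) (nat_lit 336)) (XT.lf (nat_lit 0) (nat_lit 2317699284) (nat_lit 456) (nat_lit 3715240546) (nat_lit 532) (nat_lit 789669293) (nat_lit 145) (nat_lit 5) (nat_lit 151) (nat_lit 5) (nat_lit 152) (nat_lit 4) (nat_lit 347) (nat_lit 338) (nat_lit 335)))))) (XT.nd (nat_lit 468) (nat_lit 2508) (nat_lit 0) (XT.nd (nat_lit 234)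 (nat_lit 1596) (nat_lit 0) (XT.nd (nat_lit 78) (nat_lit 1368) (nat_lit 0) (XT.lf (nat_lit 0) (nat_lit 2471575778) (nat_lit 532) (nat_lit 1376212668) (nat_lit 608) (nat_lit 3102498864) (nat_lit 137) (nat_lit 5) (nat_lit 144) (nat_lit 5) (nat_lit 145) (nat_lit 5) (nat_lit 348) (nat_lit 338) (nat_lit 334)) (XT.nd (nat_lit 78) (nat_lit 684) (nat_lit 0) (XT.lf (nat_lit 0) (nat_lit 1447068797) (nat_lit 684) (nat_lit 4332987477) (nat_lit 76) (nat_lit 1318382511) (nat_lit 128) (nat_lit 5) (nat_lit 137) (nat_lit 5) (nat_lit 129) (nat_lit 5) (nat_lit 349) (nat_lit 338) (nat_lit 333)) (XT.lf (nat_lit 0) (nat_lit 3172699753) (nat_lit 684) (nat_lit 2873485400) (nat_lit 760) (nat_lit 1220326946) (nat_lit 119) (nat_lit 5) (nat_lit 128) (nat_lit 5) (nat_lit 129) (nat_lit 5) (nat_lit 350) (nat_lit 338) (nat_lit 332)))) (XT.nd (nat_lit 78) (nat_lit 760) (nat_lit 0) (XT.lf (nat_lit 0) (nat_lit 3249362899) (nat_lit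 836) (nat_lit 3755342891) (nat_lit 76) (nat_lit 450916879) (nat_lit 108) (nat_lit 5) (nat_lit 119) (nat_lit 5) (nat_lit 109) (nat_lit 5) (nat_lit 351) (nat_lit 338) (nat_lit 331)) (XT.nd (nat_lit 78) (nat_lit 304) (nat_lit 0) (XT.lf (nat_lit 0) (nat_lit 226326102) (nat_lit 456) (nat_lit 3337871438) (nat_lit 76) (nat_lit 4101459757) (nat_lit 102) (nat_lit 5) (nat_lit 108) (nat_lit 5) (nat_lit 103) (nat_lit 5) (nat_lit 352) (nat_lit 338) (nat_lit 330)) (XT.lf (nat_lit 0) (nat_lit 4709141414) (nat_lit 380) (nat_lit 2850816043) (nat_lit 76) (nat_lit 337175275) (nat_lit 98) (nat_lit 5) (nat_lit 103) (nat_lit 5) (nat_lit 99) (nat_lit 5) (nat_lit 353) (nat_lit 338) (nat_lit 329))))) (XT.nd (nat_lit 234) (nat_lit 1368) (nat_lit 0) (XT.nd (nat_lit 78) (nat_lit 684) (nat_lit 0) (XT.lf (nat_lit 0) (nat_lit 1275285140) (nat_lit 456) (nat_lit 2308802067) (nat_lit 76) (nat_lit 4566313427) (nat_lit 92)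 (nat_lit 5) (nat_lit 98) (nat_lit 5) (nat_lit 93) (nat_lit 5) (nat_lit 354) (nat_lit 338) (nat_lit 328)) (XT.nd (nat_lit 78) (nat_lit 380) (nat_lit 0) (XT.lf (nat_lit 0) (nat_lit 5874185004) (nat_lit 380) (nat_lit 1704890627) (nat_lit 76) (nat_lit 847920674) (nat_lit 88) (nat_lit 5) (nat_lit 93) (nat_lit 5) (nat_lit 89) (nat_lit 5) (nat_lit 355) (nat_lit 338) (nat_lit 327)) (XT.lf (nat_lit 0) (nat_lit 2002365778) (nat_lit 380) (nat_lit 1073616201) (nat_lit 76) (nat_lit 5650516243) (nat_lit 83) (nat_lit 5) (nat_lit 88) (nat_lit 5) (nat_lit 84) (nat_lit 5) (nat_lit 356) (nat_lit 338) (nat_lit 326)))) (XT.nd (nat_lit 156) (nat_lit 532) (nat_lit 0) (XT.nd (nat_lit 78) (nat_lit 608) (nat_lit 0) (XT.lf (nat_lit 0) (nat_lit 6774429613) (nat_lit 304) (nat_lit 403220981) (nat_lit 76) (nat_lit 1873278545) (nat_lit 80) (nat_lit 5) (nat_lit 84) (nat_lit 5) (nat_lit 81) (nat_lit 5) (nat_lit 357) (nat_lit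 338) (nat_lit 325)) (XT.lf (nat_lit 0) (nat_lit 287858734) (nat_lit 228) (nat_lit 2142595419) (nat_lit 304) (nat_lit 6969806650) (nat_lit 72) (nat_lit 5) (nat_lit 75) (nat_lit 5) (nat_lit 76) (nat_lit 5) (nat_lit 358) (nat_lit 338) (nat_lit 324))) (XT.nd (nat_lit 78) (nat_lit 304) (nat_lit 0) (XT.lf (nat_lit 0) (nat_lit 993849182) (nat_lit 228) (nat_lit 6443707391) (nat_lit 304) (nat_lit 2338077016) (nat_lit 69) (nat_lit 5) (nat_lit 72) (nat_lit 5) (nat_lit 73) (nat_lit 5) (nat_lit 359) (nat_lit 338) (nat_lit 323)) (XT.lf (nat_lit 0) (nat_lit 1703747618) (nat_lit 228) (nat_lit 868531760) (nat_lit 304) (nat_lit 7607122024) (nat_lit 65) (nat_lit 5) (nat_lit 68) (nat_lit 5) (nat_lit 69) (nat_lit 5) (nat_lit 360) (nat_lit 338) (nat_lit 322))))))))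
noncomputable def xc43 : XT := (XT.nd (nat_lit 1872) (nat_lit 1140) (nat_lit 0) (XT.nd (nat_lit 936) (nat_lit 1216) (nat_lit 0) (XT.nd (nat_lit 468) (nat_lit 912) (nat_lit 0) (XT.nd (nat_lit 234) (nat_lit 608) (nat_lit 0) (XT.nd (nat_lit 78) (nat_lit 456) (nat_lit 0) (XT.lf (nat_lit 0) (nat_lit 2360614761) (nat_lit 228) (nat_lit 5486714597) (nat_lit 304) (nat_lit 2763640399) (nat_lit 62) (nat_lit 5) (nat_lit 65) (nat_lit 5) (nat_lit 66) (nat_lit 5) (nat_lit 361) (nat_lit 338) (nat_lit 321)) (XT.nd (nat_lit 78) (nat_lit 228) (nat_lit 0) (XT.lf (nat_lit 0) (nat_lit 2397838783) (nat_lit 228) (nat_lit 8066678791) (nat_lit 76) (nat_lit 610237697) (nat_lit 59) (nat_lit 5) (nat_lit 62) (nat_lit 5) (nat_lit 60) (nat_lit 5) (nat_lit 362) (nat_lit 338) (nat_lit 320)) (XT.lf (nat_lit 0) (nat_lit 3551525472) (nat_lit 228) (nat_lit 4416352440) (nat_lit 304) (nat_lit 3600962511) (nat_lit 56) (nat_lit 5)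 (nat_lit 59) (nat_lit 5) (nat_lit 60) (nat_lit 5) (nat_lit 363) (nat_lit 338) (nat_lit 319)))) (XT.nd (nat_lit 78) (nat_lit 380) (nat_lit 0) (XT.lf (nat_lit 0) (nat_lit 1866846821) (nat_lit 228) (nat_lit 8051741855) (nat_lit 76) (nat_lit 2180171319) (nat_lit 53) (nat_lit 5) (nat_lit 56) (nat_lit 5) (nat_lit 54) (nat_lit 5) (nat_lit 364) (nat_lit 338) (nat_lit 318)) (XT.nd (nat_lit 78) (nat_lit 228) (nat_lit 0) (XT.lf (nat_lit 0) (nat_lit 4400822554) (nat_lit 152) (nat_lit 3344382062) (nat_lit 228) (nat_lit 4918022430) (nat_lit 51) (nat_lit 5) (nat_lit 53) (nat_lit 5) (nat_lit 54) (nat_lit 5) (nat_lit 365) (nat_lit 338) (nat_lit 317)) (XT.lf (nat_lit 0) (nat_lit 890347184) (nat_lit 228) (nat_lit 8618362801) (nat_lit 76) (nat_lit 3758779859) (nat_lit 48) (nat_lit 5) (nat_lit 51) (nat_lit 5) (nat_lit 49) (nat_lit 5) (nat_lit 366) (nat_lit 338) (nat_lit 316))))) (XT.nd (nat_lit 234) (nat_lit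 380) (nat_lit 0) (XT.nd (nat_lit 78) (nat_lit 380) (nat_lit 0) (XT.lf (nat_lit 0) (nat_lit 4695968632) (nat_lit 152) (nat_lit 2399611035) (nat_lit 228) (nat_lit 6815314914) (nat_lit 46) (nat_lit 5) (nat_lit 48) (nat_lit 5) (nat_lit 49) (nat_lit 5) (nat_lit 367) (nat_lit 338) (nat_lit 315)) (XT.nd (nat_lit 78) (nat_lit 228) (nat_lit 0) (XT.lf (nat_lit 0) (nat_lit 4563699133) (nat_lit 152) (nat_lit 9372817725) (nat_lit 228) (nat_lit 662343241) (nat_lit 44) (nat_lit 5) (nat_lit 46) (nat_lit 5) (nat_lit 47) (nat_lit 4) (nat_lit 368) (nat_lit 338) (nat_lit 314)) (XT.lf (nat_lit 0) (nat_lit 4160963787) (nat_lit 152) (nat_lit 1737526518) (nat_lit 228) (nat_lit 9433392906) (nat_lit 41) (nat_lit 5) (nat_lit 43) (nat_lit 5) (nat_lit 44) (nat_lit 5) (nat_lit 369) (nat_lit 338) (nat_lit 313)))) (XT.nd (nat_lit 78) (nat_lit 304) (nat_lit 0) (XT.lf (nat_lit 0) (nat_lit 3461892018) (nat_lit 76) (nat_lit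 9677408186) (nat_lit 152) (nat_lit 2974832352) (nat_lit 40) (nat_lit 5) (nat_lit 41) (nat_lit 5) (nat_lit 42) (nat_lit 4) (nat_lit 370) (nat_lit 338) (nat_lit 312)) (XT.nd (nat_lit 78) (nat_lit 76) (nat_lit 0) (XT.lf (nat_lit 0) (nat_lit 2435125397) (nat_lit 152) (nat_lit 1552030353) (nat_lit 228) (nat_lit 12962982122) (nat_lit 37) (nat_lit 5) (nat_lit 39) (nat_lit 5) (nat_lit 40) (nat_lit 5) (nat_lit 371) (nat_lit 338) (nat_lit 311)) (XT.lf (nat_lit 0) (nat_lit 946063720) (nat_lit 76) (nat_lit 10663964529) (nat_lit 152) (nat_lit 6230184666) (nat_lit 36) (nat_lit 5) (nat_lit 37) (nat_lit 5) (nat_lit 38) (nat_lit 4) (nat_lit 372) (nat_lit 338) (nat_lit 310)))))) (XT.nd (nat_lit 468) (nat_lit 532) (nat_lit 0) (XT.nd (nat_lit 234) (nat_lit 380) (nat_lit 0) (XT.nd (nat_lit 78) (nat_lit 228) (nat_lit 0) (XT.lf (nat_lit 0) (nat_lit 1150864733) (nat_lit 152) (nat_lit 923520159) (nat_lit 76) (nat_lit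 16719179514) (nat_lit 35) (nat_lit 5) (nat_lit 37) (nat_lit 5) (nat_lit 36) (nat_lit 5) (nat_lit 373) (nat_lit 338) (nat_lit 309)) (XT.nd (nat_lit 78) (nat_lit 76) (nat_lit 0) (XT.lf (nat_lit 0) (nat_lit 9151896032) (nat_lit 228) (nat_lit 3411923593) (nat_lit 76) (nat_lit 7241897713) (nat_lit 33) (nat_lit 5) (nat_lit 36) (nat_lit 5) (nat_lit 34) (nat_lit 4) (nat_lit 374) (nat_lit 338) (nat_lit 308)) (XT.lf (nat_lit 0) (nat_lit 14431596122) (nat_lit 76) (nat_lit 3512863015) (nat_lit 152) (nat_lit 2946837468) (nat_lit 32) (nat_lit 5) (nat_lit 33) (nat_lit 5) (nat_lit 34) (nat_lit 4) (nat_lit 375) (nat_lit 338) (nat_lit 307)))) (XT.nd (nat_lit 78) (nat_lit 152) (nat_lit 0) (XT.lf (nat_lit 0) (nat_lit 5430161179) (nat_lit 228) (nat_lit 10318031457) (nat_lit 76) (nat_lit 6300078520) (nat_lit 29) (nat_lit 5) (nat_lit 32) (nat_lit 5) (nat_lit 30) (nat_lit 4) (nat_lit 376) (nat_lit 338) (nat_lit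 306)) (XT.nd (nat_lit 78) (nat_lit 76) (nat_lit 0) (XT.lf (nat_lit 0) (nat_lit 8251806975) (nat_lit 76) (nat_lit 6308997575) (nat_lit 152) (nat_lit 8725268992) (nat_lit 28) (nat_lit 5) (nat_lit 29) (nat_lit 5) (nat_lit 30) (nat_lit 4) (nat_lit 377) (nat_lit 338) (nat_lit 305)) (XT.lf (nat_lit 0) (nat_lit 3913240231) (nat_lit 76) (nat_lit 20699990656) (nat_lit 76) (nat_lit 122739) (nat_lit 27) (nat_lit 4) (nat_lit 28) (nat_lit 5) (nat_lit 28) (nat_lit 4) (nat_lit 378) (nat_lit 338) (nat_lit 304))))) (XT.nd (nat_lit 234) (nat_lit 228) (nat_lit 0) (XT.nd (nat_lit 78) (nat_lit 228) (nat_lit 0) (XT.lf (nat_lit 0) (nat_lit 9384348059) (nat_lit 152) (nat_lit 1582782401) (nat_lit 76) (nat_lit 15059201930) (nat_lit 26) (nat_lit 5) (nat_lit 28) (nat_lit 5) (nat_lit 27) (nat_lit 4) (nat_lit 379) (nat_lit 338) (nat_lit 303)) (XT.nd (nat_lit 78) (nat_lit 152) (nat_lit 0) (XT.lf (nat_lit 0) (nat_lit 19498485398)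 (nat_lit 76) (nat_lit 223982458) (nat_lit 152) (nat_lit 7819753116) (nat_lit 25) (nat_lit 5) (nat_lit 26) (nat_lit 5) (nat_lit 27) (nat_lit 4) (nat_lit 380) (nat_lit 338) (nat_lit 302)) (XT.lf (nat_lit 0) (nat_lit 1972384750) (nat_lit 152) (nat_lit 15991053402) (nat_lit 76) (nat_lit 11198683265) (nat_lit 23) (nat_lit 5) (nat_lit 25) (nat_lit 5) (nat_lit 24) (nat_lit 4) (nat_lit 381) (nat_lit 338) (nat_lit 301)))) (XT.nd (nat_lit 78) (nat_lit 152) (nat_lit 0) (XT.lf (nat_lit 0) (nat_lit 5318015520) (nat_lit 76) (nat_lit 7093597818) (nat_lit 152) (nat_lit 18486720029) (nat_lit 22) (nat_lit 5) (nat_lit 23) (nat_lit 5) (nat_lit 24) (nat_lit 4) (nat_lit 382) (nat_lit 338) (nat_lit 300)) (XT.nd (nat_lit 78) (nat_lit 152) (nat_lit 0) (XT.lf (nat_lit 0) (nat_lit 23949533291) (nat_lit 152) (nat_lit 4109186498) (nat_lit 0) (nat_lit 4701557229) (nat_lit 22) (nat_lit 5) (nat_lit 24) (nat_lit 4) (nat_lit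 22) (nat_lit 4) (nat_lit 383) (nat_lit 338) (nat_lit 299)) (XT.lf (nat_lit 0) (nat_lit 1929883331) (nat_lit 152) (nat_lit 15366303449) (nat_lit 76) (nat_lit 17456568560) (nat_lit 20) (nat_lit 5) (nat_lit 22) (nat_lit 5) (nat_lit 21) (nat_lit 4) (nat_lit 384) (nat_lit 338) (nat_lit 298))))))) (XT.nd (nat_lit 936) (nat_lit 380) (nat_lit 0) (XT.nd (nat_lit 468) (nat_lit 380) (nat_lit 0) (XT.nd (nat_lit 234) (nat_lit 228) (nat_lit 0) (XT.nd (nat_lit 78) (nat_lit 76) (nat_lit 0) (XT.lf (nat_lit 0) (nat_lit 7954160772) (nat_lit 76) (nat_lit 5385248114) (nat_lit 152) (nat_lit 23552094553) (nat_lit 19) (nat_lit 5) (nat_lit 20) (nat_lit 5) (nat_lit 21) (nat_lit 4) (nat_lit 385) (nat_lit 338) (nat_lit 297)) (XT.nd (nat_lit 78) (nat_lit 76) (nat_lit 0) (XT.lf (nat_lit 0) (nat_lit 25970423205) (nat_lit 152) (nat_lit 5774196891) (nat_lit 0) (nat_lit 7441304327) (nat_lit 19) (nat_lit 5) (nat_lit 21) (nat_lit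 4) (nat_lit 19) (nat_lit 4) (nat_lit 386) (nat_lit 338) (nat_lit 296)) (XT.lf (nat_lit 0) (nat_lit 19637048509) (nat_lit 76) (nat_lit 20298103719) (nat_lit 76) (nat_lit 1712593858) (nat_lit 18) (nat_lit 4) (nat_lit 19) (nat_lit 5) (nat_lit 19) (nat_lit 4) (nat_lit 387) (nat_lit 338) (nat_lit 295)))) (XT.nd (nat_lit 78) (nat_lit 76) (nat_lit 0) (XT.lf (nat_lit 0) (nat_lit 2766743770) (nat_lit 76) (nat_lit 7674459890) (nat_lit 152) (nat_lit 33853283299) (nat_lit 16) (nat_lit 5) (nat_lit 17) (nat_lit 5) (nat_lit 18) (nat_lit 4) (nat_lit 388) (nat_lit 338) (nat_lit 294)) (XT.nd (nat_lit 78) (nat_lit 76) (nat_lit 0) (XT.lf (nat_lit 0) (nat_lit 23921131829) (nat_lit 152) (nat_lit 17084872436) (nat_lit 0) (nat_lit 6124874768) (nat_lit 16) (nat_lit 5) (nat_lit 18) (nat_lit 4) (nat_lit 16) (nat_lit 4) (nat_lit 389) (nat_lit 338) (nat_lit 293)) (XT.lf (nat_lit 0) (nat_lit 9358315144) (nat_lit 76) (nat_lit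 29332107913) (nat_lit 76) (nat_lit 11493217537) (nat_lit 15) (nat_lit 4) (nat_lit 16) (nat_lit 5) (nat_lit 16) (nat_lit 4) (nat_lit 390) (nat_lit 338) (nat_lit 292))))) (XT.nd (nat_lit 234) (nat_lit 228) (nat_lit 0) (XT.nd (nat_lit 78) (nat_lit 76) (nat_lit 0) (XT.lf (nat_lit 0) (nat_lit 1363321735) (nat_lit 152) (nat_lit 15083556110) (nat_lit 76) (nat_lit 37020853244) (nat_lit 14) (nat_lit 5) (nat_lit 16) (nat_lit 5) (nat_lit 15) (nat_lit 4) (nat_lit 391) (nat_lit 338) (nat_lit 291)) (XT.nd (nat_lit 78) (nat_lit 0) (nat_lit 0) (XT.lf (nat_lit 0) (nat_lit 12821279474) (nat_lit 76) (nat_lit 2171987032) (nat_lit 152) (nat_lit 42004489571) (nat_lit 13) (nat_lit 5) (nat_lit 14) (nat_lit 5) (nat_lit 15) (nat_lit 4) (nat_lit 392) (nat_lit 338) (nat_lit 290)) (XT.lf (nat_lit 0) (nat_lit 30131230935) (nat_lit 152) (nat_lit 17620902629) (nat_lit 0) (nat_lit 13037173255) (nat_lit 13) (nat_lit 5) (nat_lit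 15) (nat_lit 4) (nat_lit 13) (nat_lit 4) (nat_lit 393) (nat_lit 338) (nat_lit 289)))) (XT.nd (nat_lit 78) (nat_lit 152) (nat_lit 0) (XT.lf (nat_lit 0) (nat_lit 11281832268) (nat_lit 76) (nat_lit 35359110329) (nat_lit 76) (nat_lit 18235208116) (nat_lit 12) (nat_lit 4) (nat_lit 13) (nat_lit 5) (nat_lit 13) (nat_lit 4) (nat_lit 394) (nat_lit 338) (nat_lit 288)) (XT.nd (nat_lit 78) (nat_lit 152) (nat_lit 0) (XT.lf (nat_lit 0) (nat_lit 43028694242) (nat_lit 76) (nat_lit 21699963422) (nat_lit 76) (nat_lit 4548427382) (nat_lit 12) (nat_lit 4) (nat_lit 13) (nat_lit 5) (nat_lit 13) (nat_lit 4) (nat_lit 395) (nat_lit 338) (nat_lit 287)) (XT.lf (nat_lit 0) (nat_lit 3134080862) (nat_lit 76) (nat_lit 6773823419) (nat_lit 152) (nat_lit 64114098182) (nat_lit 10) (nat_lit 5) (nat_lit 11) (nat_lit 5) (nat_lit 12) (nat_lit 4) (nat_lit 396) (nat_lit 338) (nat_lit 286)))))) (XT.nd (nat_lit 468) (nat_lit 152)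 (nat_lit 0) (XT.nd (nat_lit 234) (nat_lit 152) (nat_lit 0) (XT.nd (nat_lit 78) (nat_lit 76) (nat_lit 0) (XT.lf (nat_lit 0) (nat_lit 25928799449) (nat_lit 152) (nat_lit 43638547111) (nat_lit 0) (nat_lit 9547071383) (nat_lit 10) (nat_lit 5) (nat_lit 12) (nat_lit 4) (nat_lit 10) (nat_lit 4) (nat_lit 397) (nat_lit 338) (nat_lit 285)) (XT.nd (nat_lit 78) (nat_lit 76) (nat_lit 0) (XT.lf (nat_lit 0) (nat_lit 43303577923) (nat_lit 152) (nat_lit 14406083531) (nat_lit 0) (nat_lit 26900957836) (nat_lit 10) (nat_lit 5) (nat_lit 12) (nat_lit 4) (nat_lit 10) (nat_lit 4) (nat_lit 398) (nat_lit 338) (nat_lit 284)) (XT.lf (nat_lit 0) (nat_lit 17653478475) (nat_lit 76) (nat_lit 44651584786) (nat_lit 76) (nat_lit 28229620235) (nat_lit 9) (nat_lit 4) (nat_lit 10) (nat_lit 5) (nat_lit 10) (nat_lit 4) (nat_lit 399) (nat_lit 338) (nat_lit 283)))) (XT.nd (nat_lit 78) (nat_lit 152) (nat_lit 0) (XT.lf (nat_lit 0)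 (nat_lit 52719047296) (nat_lit 76) (nat_lit 30321407510) (nat_lit 76) (nat_lit 13881531418) (nat_lit 9) (nat_lit 4) (nat_lit 10) (nat_lit 5) (nat_lit 10) (nat_lit 4) (nat_lit 400) (nat_lit 338) (nat_lit 282)) (XT.nd (nat_lit 78) (nat_lit 76) (nat_lit 0) (XT.lf (nat_lit 0) (nat_lit 1527762084) (nat_lit 152) (nat_lit 13324548579) (nat_lit 76) (nat_lit 88968453240) (nat_lit 8) (nat_lit 5) (nat_lit 10) (nat_lit 5) (nat_lit 9) (nat_lit 4) (nat_lit 401) (nat_lit 338) (nat_lit 281)) (XT.lf (nat_lit 0) (nat_lit 18013256717) (nat_lit 152) (nat_lit 90904509231) (nat_lit 0) (nat_lit 2325811849) (nat_lit 7) (nat_lit 5) (nat_lit 9) (nat_lit 4) (nat_lit 7) (nat_lit 4) (nat_lit 402) (nat_lit 338) (nat_lit 280))))) (XT.nd (nat_lit 234) (nat_lit 76) (nat_lit 0) (XT.nd (nat_lit 78) (nat_lit 76) (nat_lit 0) (XT.lf (nat_lit 0) (nat_lit 36272532327) (nat_lit 152) (nat_lit 62393393707) (nat_lit 0) (nat_lit 20571545784)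 (nat_lit 7) (nat_lit 5) (nat_lit 9) (nat_lit 4) (nat_lit 7) (nat_lit 4) (nat_lit 403) (nat_lit 338) (nat_lit 279)) (XT.nd (nat_lit 78) (nat_lit 76) (nat_lit 0) (XT.lf (nat_lit 0) (nat_lit 55963470612) (nat_lit 152) (nat_lit 31658917165) (nat_lit 0) (nat_lit 40249945481) (nat_lit 7) (nat_lit 5) (nat_lit 9) (nat_lit 4) (nat_lit 7) (nat_lit 4) (nat_lit 404) (nat_lit 338) (nat_lit 278)) (XT.lf (nat_lit 0) (nat_lit 1530020848) (nat_lit 76) (nat_lit 75696625680) (nat_lit 76) (nat_lit 59971490745) (nat_lit 6) (nat_lit 4) (nat_lit 7) (nat_lit 5) (nat_lit 7) (nat_lit 4) (nat_lit 405) (nat_lit 338) (nat_lit 277)))) (XT.nd (nat_lit 156) (nat_lit 76) (nat_lit 0) (XT.nd (nat_lit 78) (nat_lit 0) (nat_lit 0) (XT.lf (nat_lit 0) (nat_lit 38453651661) (nat_lit 76) (nat_lit 62262976389) (nat_lit 76) (nat_lit 46527091636) (nat_lit 6) (nat_lit 4) (nat_lit 7) (nat_lit 5) (nat_lit 7) (nat_lit 4) (nat_lit 406) (nat_lit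 338) (nat_lit 276)) (XT.lf (nat_lit 0) (nat_lit 78283995198) (nat_lit 76) (nat_lit 47777992175) (nat_lit 76) (nat_lit 32032153887) (nat_lit 6) (nat_lit 4) (nat_lit 7) (nat_lit 5) (nat_lit 7) (nat_lit 4) (nat_lit 407) (nat_lit 338) (nat_lit 275))) (XT.nd (nat_lit 78) (nat_lit 76) (nat_lit 0) (XT.lf (nat_lit 0) (nat_lit 121257083124) (nat_lit 76) (nat_lit 32155836096) (nat_lit 76) (nat_lit 16400781571) (nat_lit 6) (nat_lit 4) (nat_lit 7) (nat_lit 5) (nat_lit 7) (nat_lit 4) (nat_lit 408) (nat_lit 338) (nat_lit 274)) (XT.lf (nat_lit 0) (nat_lit 444943814) (nat_lit 152) (nat_lit 14851453257) (nat_lit 76) (nat_lit 167175091622) (nat_lit 5) (nat_lit 5) (nat_lit 7) (nat_lit 5) (nat_lit 6) (nat_lit 4) (nat_lit 409) (nat_lit 338) (nat_lit 273))))))))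
noncomputable def xc44 : XT := (XT.nd (nat_lit 1872) (nat_lit 0) (nat_lit 0) (XT.nd (nat_lit 936) (nat_lit 152) (nat_lit 0) (XT.nd (nat_lit 468) (nat_lit 76) (nat_lit 0) (XT.nd (nat_lit 234) (nat_lit 0) (nat_lit 0) (XT.nd (nat_lit 78) (nat_lit 0) (nat_lit 0) (XT.lf (nat_lit 0) (nat_lit 18450007852) (nat_lit 152) (nat_lit 174229593815) (nat_lit 0) (nat_lit 3429541648) (nat_lit 4) (nat_lit 5) (nat_lit 6) (nat_lit 4) (nat_lit 4) (nat_lit 4) (nat_lit 410) (nat_lit 338) (nat_lit 272)) (XT.nd (nat_lit 78) (nat_lit 0) (nat_lit 0) (XT.lf (nat_lit 0) (nat_lit 38397698022) (nat_lit 152) (nat_lit 149044738249) (nat_lit 0) (nat_lit 23370264060) (nat_lit 4) (nat_lit 5) (nat_lit 6) (nat_lit 4) (nat_lit 4) (nat_lit 4) (nat_lit 411) (nat_lit 338) (nat_lit 271)) (XT.lf (nat_lit 0) (nat_lit 59923936783) (nat_lit 152) (nat_lit 121879418254) (nat_lit 0) (nat_lit 44890051194) (nat_lit 4) (nat_lit 5) (nat_lit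 6) (nat_lit 4) (nat_lit 4) (nat_lit 4) (nat_lit 412) (nat_lit 338) (nat_lit 270)))) (XT.nd (nat_lit 78) (nat_lit 0) (nat_lit 0) (XT.lf (nat_lit 0) (nat_lit 83156287033) (nat_lit 152) (nat_lit 92572654156) (nat_lit 0) (nat_lit 68116427714) (nat_lit 4) (nat_lit 5) (nat_lit 6) (nat_lit 4) (nat_lit 4) (nat_lit 4) (nat_lit 413) (nat_lit 338) (nat_lit 269)) (XT.nd (nat_lit 78) (nat_lit 0) (nat_lit 0) (XT.lf (nat_lit 0) (nat_lit 108232421958) (nat_lit 152) (nat_lit 60950776241) (nat_lit 0) (nat_lit 93187031408) (nat_lit 4) (nat_lit 5) (nat_lit 6) (nat_lit 4) (nat_lit 4) (nat_lit 4) (nat_lit 414) (nat_lit 338) (nat_lit 268)) (XT.lf (nat_lit 0) (nat_lit 135300940875) (nat_lit 152) (nat_lit 26826395605) (nat_lit 0) (nat_lit 120250428816) (nat_lit 4) (nat_lit 5) (nat_lit 6) (nat_lit 4) (nat_lit 4) (nat_lit 4) (nat_lit 415) (nat_lit 338) (nat_lit 267))))) (XT.nd (nat_lit 234) (nat_lit 0) (nat_lit 0)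 (XT.nd (nat_lit 78) (nat_lit 0) (nat_lit 0) (XT.lf (nat_lit 0) (nat_lit 10333440949) (nat_lit 76) (nat_lit 154350142848) (nat_lit 76) (nat_lit 139294888649) (nat_lit 3) (nat_lit 4) (nat_lit 4) (nat_lit 5) (nat_lit 4) (nat_lit 4) (nat_lit 416) (nat_lit 338) (nat_lit 266)) (XT.nd (nat_lit 78) (nat_lit 0) (nat_lit 0) (XT.lf (nat_lit 0) (nat_lit 51399893614) (nat_lit 76) (nat_lit 145472114890) (nat_lit 76) (nat_lit 130412469822) (nat_lit 3) (nat_lit 4) (nat_lit 4) (nat_lit 5) (nat_lit 4) (nat_lit 4) (nat_lit 417) (nat_lit 338) (nat_lit 265)) (XT.lf (nat_lit 0) (nat_lit 95729317355) (nat_lit 76) (nat_lit 135894960061) (nat_lit 76) (nat_lit 120831249374) (nat_lit 3) (nat_lit 4) (nat_lit 4) (nat_lit 5) (nat_lit 4) (nat_lit 4) (nat_lit 418) (nat_lit 338) (nat_lit 264)))) (XT.nd (nat_lit 78) (nat_lit 0) (nat_lit 0) (XT.lf (nat_lit 0) (nat_lit 143584405055) (nat_lit 76) (nat_lit 125561924852) (nat_lit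 76) (nat_lit 110494449702) (nat_lit 3) (nat_lit 4) (nat_lit 4) (nat_lit 5) (nat_lit 4) (nat_lit 4) (nat_lit 419) (nat_lit 338) (nat_lit 263)) (XT.nd (nat_lit 78) (nat_lit 0) (nat_lit 0) (XT.lf (nat_lit 0) (nat_lit 195248742418) (nat_lit 76) (nat_lit 114411776460) (nat_lit 76) (nat_lit 99340815696) (nat_lit 3) (nat_lit 4) (nat_lit 4) (nat_lit 5) (nat_lit 4) (nat_lit 4) (nat_lit 420) (nat_lit 338) (nat_lit 262)) (XT.lf (nat_lit 0) (nat_lit 251028488480) (nat_lit 76) (nat_lit 102378439933) (nat_lit 76) (nat_lit 87304251749) (nat_lit 3) (nat_lit 4) (nat_lit 4) (nat_lit 5) (nat_lit 4) (nat_lit 4) (nat_lit 421) (nat_lit 338) (nat_lit 261)))))) (XT.nd (nat_lit 468) (nat_lit 0) (nat_lit 0) (XT.nd (nat_lit 234) (nat_lit 152) (nat_lit 0) (XT.nd (nat_lit 78) (nat_lit 0) (nat_lit 0) (XT.lf (nat_lit 0) (nat_lit 311254189884) (nat_lit 76) (nat_lit 89390606609) (nat_lit 76) (nat_lit 74313430073) (nat_lit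 3) (nat_lit 4) (nat_lit 4) (nat_lit 5) (nat_lit 4) (nat_lit 4) (nat_lit 422) (nat_lit 338) (nat_lit 260)) (XT.nd (nat_lit 78) (nat_lit 0) (nat_lit 0) (XT.lf (nat_lit 0) (nat_lit 376282739677) (nat_lit 76) (nat_lit 75371311551) (nat_lit 76) (nat_lit 60291368023) (nat_lit 3) (nat_lit 4) (nat_lit 4) (nat_lit 5) (nat_lit 4) (nat_lit 4) (nat_lit 423) (nat_lit 338) (nat_lit 259)) (XT.lf (nat_lit 0) (nat_lit 446499492226) (nat_lit 76) (nat_lit 60237477453) (nat_lit 76) (nat_lit 45154971895) (nat_lit 3) (nat_lit 4) (nat_lit 4) (nat_lit 5) (nat_lit 4) (nat_lit 4) (nat_lit 424) (nat_lit 338) (nat_lit 258)))) (XT.nd (nat_lit 78) (nat_lit 152) (nat_lit 0) (XT.lf (nat_lit 0) (nat_lit 522320546807) (nat_lit 76) (nat_lit 43899422338) (nat_lit 76) (nat_lit 28814544530) (nat_lit 3) (nat_lit 4) (nat_lit 4) (nat_lit 5) (nat_lit 4) (nat_lit 4) (nat_lit 425) (nat_lit 338) (nat_lit 257)) (XT.nd (nat_lit 78) (nat_lit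 152) (nat_lit 0) (XT.lf (nat_lit 0) (nat_lit 604195213373) (nat_lit 76) (nat_lit 26260328099) (nat_lit 76) (nat_lit 11173253763) (nat_lit 3) (nat_lit 4) (nat_lit 4) (nat_lit 5) (nat_lit 4) (nat_lit 4) (nat_lit 426) (nat_lit 338) (nat_lit 256)) (XT.lf (nat_lit 0) (nat_lit 552532622) (nat_lit 76) (nat_lit 7077536050) (nat_lit 152) (nat_lit 684314254191) (nat_lit 1) (nat_lit 5) (nat_lit 2) (nat_lit 5) (nat_lit 3) (nat_lit 4) (nat_lit 427) (nat_lit 338) (nat_lit 255))))) (XT.nd (nat_lit 234) (nat_lit 0) (nat_lit 0) (XT.nd (nat_lit 78) (nat_lit 0) (nat_lit 0) (XT.lf (nat_lit 0) (nat_lit 28421607701) (nat_lit 152) (nat_lit 703761321505) (nat_lit 0) (nat_lit 14049235009) (nat_lit 1) (nat_lit 5) (nat_lit 3) (nat_lit 4) (nat_lit 1) (nat_lit 4) (nat_lit 428) (nat_lit 338) (nat_lit 254)) (XT.nd (nat_lit 78) (nat_lit 0) (nat_lit 0) (XT.lf (nat_lit 0) (nat_lit 50990679080) (nat_lit 152) (nat_lit 717249997844)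 (nat_lit 0) (nat_lit 36616645745) (nat_lit 1) (nat_lit 5) (nat_lit 3) (nat_lit 4) (nat_lit 1) (nat_lit 4) (nat_lit 429) (nat_lit 338) (nat_lit 253)) (XT.lf (nat_lit 0) (nat_lit 75360525282) (nat_lit 152) (nat_lit 731827251983) (nat_lit 0) (nat_lit 60984954315) (nat_lit 1) (nat_lit 5) (nat_lit 3) (nat_lit 4) (nat_lit 1) (nat_lit 4) (nat_lit 430) (nat_lit 338) (nat_lit 252)))) (XT.nd (nat_lit 78) (nat_lit 0) (nat_lit 0) (XT.lf (nat_lit 0) (nat_lit 101675560210) (nat_lit 152) (nat_lit 747579467651) (nat_lit 0) (nat_lit 87298565511) (nat_lit 1) (nat_lit 5) (nat_lit 3) (nat_lit 4) (nat_lit 1) (nat_lit 4) (nat_lit 431) (nat_lit 338) (nat_lit 251)) (XT.nd (nat_lit 78) (nat_lit 0) (nat_lit 0) (XT.lf (nat_lit 0) (nat_lit 130091724813) (nat_lit 152) (nat_lit 764599991310) (nat_lit 0) (nat_lit 115713411842) (nat_lit 1) (nat_lit 5) (nat_lit 3) (nat_lit 4) (nat_lit 1) (nat_lit 4) (nat_lit 432) (nat_lit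 338) (nat_lit 250)) (XT.lf (nat_lit 0) (nat_lit 160777411178) (nat_lit 152) (nat_lit 782989685323) (nat_lit 0) (nat_lit 146397877585) (nat_lit 1) (nat_lit 5) (nat_lit 3) (nat_lit 4) (nat_lit 1) (nat_lit 4) (nat_lit 433) (nat_lit 338) (nat_lit 249))))))) (XT.nd (nat_lit 46800) (nat_lit 0) (nat_lit 3952) (XT.nd (nat_lit 46332) (nat_lit 0) (nat_lit 7676) (XT.nd (nat_lit 46098) (nat_lit 0) (nat_lit 11400) (XT.nd (nat_lit 45942) (nat_lit 0) (nat_lit 12464) (XT.lf (nat_lit 0) (nat_lit 193914460407) (nat_lit 152) (nat_lit 802857525655) (nat_lit 0) (nat_lit 179533796609) (nat_lit 1) (nat_lit 5) (nat_lit 3) (nat_lit 4) (nat_lit 1) (nat_lit 4) (nat_lit 434) (nat_lit 338) (nat_lit 248)) (XT.nd (nat_lit 78) (nat_lit 228) (nat_lit 0) (XT.lf (nat_lit 0) (nat_lit 2017316261) (nat_lit 76) (nat_lit 608906787) (nat_lit 76) (nat_lit 608906787) (nat_lit 168) (nat_lit 4) (nat_lit 169) (nat_lit 5) (nat_lit 169)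 (nat_lit 4) (nat_lit 342) (nat_lit 339) (nat_lit 339)) (XT.lf (nat_lit 0) (nat_lit 3203606311) (nat_lit 152) (nat_lit 456389931) (nat_lit 228) (nat_lit 2849174360) (nat_lit 165) (nat_lit 5) (nat_lit 167) (nat_lit 5) (nat_lit 168) (nat_lit 4) (nat_lit 343) (nat_lit 339) (nat_lit 338)))) (XT.nd (nat_lit 78) (nat_lit 760) (nat_lit 0) (XT.lf (nat_lit 0) (nat_lit 1884548518) (nat_lit 304) (nat_lit 4022674525) (nat_lit 76) (nat_lit 660499985) (nat_lit 161) (nat_lit 5) (nat_lit 165) (nat_lit 5) (nat_lit 162) (nat_lit 4) (nat_lit 344) (nat_lit 339) (nat_lit 337)) (XT.nd (nat_lit 78) (nat_lit 456) (nat_lit 0) (XT.lf (nat_lit 0) (nat_lit 2050696067) (nat_lit 304) (nat_lit 4508913835) (nat_lit 380) (nat_lit 86405855) (nat_lit 157) (nat_lit 5) (nat_lit 161) (nat_lit 5) (nat_lit 162) (nat_lit 4) (nat_lit 345) (nat_lit 339) (nat_lit 336)) (XT.lf (nat_lit 0) (nat_lit 1690721683) (nat_lit 380) (nat_lit 2712308339)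 (nat_lit 456) (nat_lit 2340134848) (nat_lit 151) (nat_lit 5) (nat_lit 156) (nat_lit 5) (nat_lit 157) (nat_lit 5) (nat_lit 346) (nat_lit 339) (nat_lit 335))))) (XT.nd (nat_lit 234) (nat_lit 1976) (nat_lit 0) (XT.nd (nat_lit 78) (nat_lit 1216) (nat_lit 0) (XT.lf (nat_lit 0) (nat_lit 1494728733) (nat_lit 456) (nat_lit 536549361) (nat_lit 532) (nat_lit 4829886512) (nat_lit 144) (nat_lit 5) (nat_lit 150) (nat_lit 5) (nat_lit 151) (nat_lit 5) (nat_lit 347) (nat_lit 339) (nat_lit 334)) (XT.nd (nat_lit 78) (nat_lit 684) (nat_lit 0) (XT.lf (nat_lit 0) (nat_lit 1418994037) (nat_lit 532) (nat_lit 5021156352) (nat_lit 608) (nat_lit 558419647) (nat_lit 137) (nat_lit 5) (nat_lit 144) (nat_lit 5) (nat_lit 145) (nat_lit 5) (nat_lit 348) (nat_lit 339) (nat_lit 333)) (XT.lf (nat_lit 0) (nat_lit 1451896316) (nat_lit 608) (nat_lit 2245228274) (nat_lit 684) (nat_lit 3458397847) (nat_lit 128) (nat_lit 5) (nat_lit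 136) (nat_lit 5) (nat_lit 137) (nat_lit 5) (nat_lit 349) (nat_lit 339) (nat_lit 332)))) (XT.nd (nat_lit 78) (nat_lit 1216) (nat_lit 0) (XT.lf (nat_lit 0) (nat_lit 718795011) (nat_lit 760) (nat_lit 5712716129) (nat_lit 76) (nat_lit 902599821) (nat_lit 118) (nat_lit 5) (nat_lit 128) (nat_lit 5) (nat_lit 119) (nat_lit 5) (nat_lit 350) (nat_lit 339) (nat_lit 331)) (XT.nd (nat_lit 78) (nat_lit 456) (nat_lit 0) (XT.lf (nat_lit 0) (nat_lit 1857984061) (nat_lit 760) (nat_lit 3102328278) (nat_lit 836) (nat_lit 2571540540) (nat_lit 108) (nat_lit 5) (nat_lit 118) (nat_lit 5) (nat_lit 119) (nat_lit 5) (nat_lit 351) (nat_lit 339) (nat_lit 330)) (XT.lf (nat_lit 0) (nat_lit 1579902512) (nat_lit 456) (nat_lit 5537705947) (nat_lit 76) (nat_lit 634557108) (nat_lit 102) (nat_lit 5) (nat_lit 108) (nat_lit 5) (nat_lit 103) (nat_lit 5) (nat_lit 352) (nat_lit 339) (nat_lit 329)))))) (XT.nd (nat_lit 468) (nat_lit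 1672) (nat_lit 0) (XT.nd (nat_lit 234) (nat_lit 988) (nat_lit 0) (XT.nd (nat_lit 78) (nat_lit 760) (nat_lit 0) (XT.lf (nat_lit 0) (nat_lit 2623045376) (nat_lit 304) (nat_lit 3258408787) (nat_lit 380) (nat_lit 2111354751) (nat_lit 98) (nat_lit 5) (nat_lit 102) (nat_lit 5) (nat_lit 103) (nat_lit 5) (nat_lit 353) (nat_lit 339) (nat_lit 328)) (XT.nd (nat_lit 78) (nat_lit 304) (nat_lit 0) (XT.lf (nat_lit 0) (nat_lit 2090408509) (nat_lit 456) (nat_lit 5134753284) (nat_lit 76) (nat_lit 1031519615) (nat_lit 92) (nat_lit 5) (nat_lit 98) (nat_lit 5) (nat_lit 93) (nat_lit 5) (nat_lit 354) (nat_lit 339) (nat_lit 327)) (XT.lf (nat_lit 0) (nat_lit 3663323210) (nat_lit 304) (nat_lit 2839433294) (nat_lit 380) (nat_lit 2039933680) (nat_lit 88) (nat_lit 5) (nat_lit 92) (nat_lit 5) (nat_lit 93) (nat_lit 5) (nat_lit 355) (nat_lit 339) (nat_lit 326)))) (XT.nd (nat_lit 78) (nat_lit 608) (nat_lit 0) (XT.lf (nat_lit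 0) (nat_lit 2279766377) (nat_lit 380) (nat_lit 4591123141) (nat_lit 76) (nat_lit 1981930704) (nat_lit 83) (nat_lit 5) (nat_lit 88) (nat_lit 5) (nat_lit 84) (nat_lit 5) (nat_lit 356) (nat_lit 339) (nat_lit 325)) (XT.nd (nat_lit 78) (nat_lit 380) (nat_lit 0) (XT.lf (nat_lit 0) (nat_lit 4895465939) (nat_lit 228) (nat_lit 1953470263) (nat_lit 304) (nat_lit 2338529460) (nat_lit 80) (nat_lit 5) (nat_lit 83) (nat_lit 5) (nat_lit 84) (nat_lit 5) (nat_lit 357) (nat_lit 339) (nat_lit 324)) (XT.lf (nat_lit 0) (nat_lit 2159623027) (nat_lit 380) (nat_lit 3998388032) (nat_lit 76) (nat_lit 3389435587) (nat_lit 75) (nat_lit 5) (nat_lit 80) (nat_lit 5) (nat_lit 76) (nat_lit 5) (nat_lit 358) (nat_lit 339) (nat_lit 323))))) (XT.nd (nat_lit 234) (nat_lit 912) (nat_lit 0) (XT.nd (nat_lit 78) (nat_lit 532) (nat_lit 0) (XT.lf (nat_lit 0) (nat_lit 6230292681) (nat_lit 228) (nat_lit 696914766) (nat_lit 304) (nat_lit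 3007644896) (nat_lit 72) (nat_lit 5) (nat_lit 75) (nat_lit 5) (nat_lit 76) (nat_lit 5) (nat_lit 359) (nat_lit 339) (nat_lit 322)) (XT.nd (nat_lit 78) (nat_lit 228) (nat_lit 0) (XT.lf (nat_lit 0) (nat_lit 1723231074) (nat_lit 304) (nat_lit 3459080139) (nat_lit 76) (nat_lit 5166927447) (nat_lit 68) (nat_lit 5) (nat_lit 72) (nat_lit 5) (nat_lit 69) (nat_lit 5) (nat_lit 360) (nat_lit 339) (nat_lit 321)) (XT.lf (nat_lit 0) (nat_lit 6739390177) (nat_lit 304) (nat_lit 3241825941) (nat_lit 76) (nat_lit 812581991) (nat_lit 65) (nat_lit 5) (nat_lit 69) (nat_lit 5) (nat_lit 66) (nat_lit 5) (nat_lit 361) (nat_lit 339) (nat_lit 320)))) (XT.nd (nat_lit 156) (nat_lit 456) (nat_lit 0) (XT.nd (nat_lit 78) (nat_lit 152) (nat_lit 0) (XT.lf (nat_lit 0) (nat_lit 943814979) (nat_lit 304) (nat_lit 3094432299) (nat_lit 76) (nat_lit 7230613463) (nat_lit 61) (nat_lit 5) (nat_lit 65) (nat_lit 5) (nat_lit 62) (nat_lit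 5) (nat_lit 362) (nat_lit 339) (nat_lit 319)) (XT.lf (nat_lit 0) (nat_lit 6254321156) (nat_lit 228) (nat_lit 3039490790) (nat_lit 76) (nat_lit 2482148603) (nat_lit 59) (nat_lit 5) (nat_lit 62) (nat_lit 5) (nat_lit 60) (nat_lit 5) (nat_lit 363) (nat_lit 339) (nat_lit 318))) (XT.nd (nat_lit 78) (nat_lit 228) (nat_lit 0) (XT.lf (nat_lit 0) (nat_lit 9261648908) (nat_lit 228) (nat_lit 2821573650) (nat_lit 304) (nat_lit 235801249) (nat_lit 56) (nat_lit 5) (nat_lit 59) (nat_lit 5) (nat_lit 60) (nat_lit 5) (nat_lit 364) (nat_lit 339) (nat_lit 317)) (XT.lf (nat_lit 0) (nat_lit 5403742646) (nat_lit 228) (nat_lit 3253809007) (nat_lit 76) (nat_lit 4238472365) (nat_lit 53) (nat_lit 5) (nat_lit 56) (nat_lit 5) (nat_lit 54) (nat_lit 5) (nat_lit 365) (nat_lit 339) (nat_lit 316))))))))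
noncomputable def xc45 : XT := (XT.nd (nat_lit 1872) (nat_lit 912) (nat_lit 0) (XT.nd (nat_lit 936) (nat_lit 988) (nat_lit 0) (XT.nd (nat_lit 468) (nat_lit 836) (nat_lit 0) (XT.nd (nat_lit 234) (nat_lit 456) (nat_lit 0) (XT.nd (nat_lit 78) (nat_lit 380) (nat_lit 0) (XT.lf (nat_lit 0) (nat_lit 9958454730) (nat_lit 152) (nat_lit 1624258327) (nat_lit 228) (nat_lit 1931511463) (nat_lit 51) (nat_lit 5) (nat_lit 53) (nat_lit 5) (nat_lit 54) (nat_lit 5) (nat_lit 366) (nat_lit 339) (nat_lit 315)) (XT.nd (nat_lit 78) (nat_lit 152) (nat_lit 0) (XT.lf (nat_lit 0) (nat_lit 4101204790) (nat_lit 228) (nat_lit 4098321161) (nat_lit 76) (nat_lit 5971353295) (nat_lit 48) (nat_lit 5) (nat_lit 51) (nat_lit 5) (nat_lit 49) (nat_lit 5) (nat_lit 367) (nat_lit 339) (nat_lit 314)) (XT.lf (nat_lit 0) (nat_lit 10054757803) (nat_lit 152) (nat_lit 593333236) (nat_lit 228) (nat_lit 4225479735) (nat_lit 46) (nat_lit 5)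 (nat_lit 48) (nat_lit 5) (nat_lit 49) (nat_lit 5) (nat_lit 368) (nat_lit 339) (nat_lit 313)))) (XT.nd (nat_lit 78) (nat_lit 228) (nat_lit 0) (XT.lf (nat_lit 0) (nat_lit 2224295521) (nat_lit 228) (nat_lit 5849148214) (nat_lit 76) (nat_lit 7547207413) (nat_lit 43) (nat_lit 5) (nat_lit 46) (nat_lit 5) (nat_lit 44) (nat_lit 5) (nat_lit 369) (nat_lit 339) (nat_lit 312)) (XT.nd (nat_lit 78) (nat_lit 76) (nat_lit 0) (XT.lf (nat_lit 0) (nat_lit 9147098460) (nat_lit 228) (nat_lit 7165444569) (nat_lit 76) (nat_lit 106276970) (nat_lit 41) (nat_lit 5) (nat_lit 44) (nat_lit 5) (nat_lit 42) (nat_lit 4) (nat_lit 370) (nat_lit 339) (nat_lit 311)) (XT.lf (nat_lit 0) (nat_lit 8397056148) (nat_lit 76) (nat_lit 8464288792) (nat_lit 152) (nat_lit 407653349) (nat_lit 40) (nat_lit 5) (nat_lit 41) (nat_lit 5) (nat_lit 42) (nat_lit 4) (nat_lit 371) (nat_lit 339) (nat_lit 310))))) (XT.nd (nat_lit 234) (nat_lit 304)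 (nat_lit 0) (XT.nd (nat_lit 78) (nat_lit 304) (nat_lit 0) (XT.lf (nat_lit 0) (nat_lit 6895676191) (nat_lit 228) (nat_lit 11008397869) (nat_lit 76) (nat_lit 271962666) (nat_lit 37) (nat_lit 5) (nat_lit 40) (nat_lit 5) (nat_lit 38) (nat_lit 4) (nat_lit 372) (nat_lit 339) (nat_lit 309)) (XT.nd (nat_lit 78) (nat_lit 228) (nat_lit 0) (XT.lf (nat_lit 0) (nat_lit 5461674097) (nat_lit 76) (nat_lit 9568437244) (nat_lit 152) (nat_lit 4112166809) (nat_lit 36) (nat_lit 5) (nat_lit 37) (nat_lit 5) (nat_lit 38) (nat_lit 4) (nat_lit 373) (nat_lit 339) (nat_lit 308)) (XT.lf (nat_lit 0) (nat_lit 3297229448) (nat_lit 152) (nat_lit 342267201) (nat_lit 228) (nat_lit 16537206470) (nat_lit 33) (nat_lit 5) (nat_lit 35) (nat_lit 5) (nat_lit 36) (nat_lit 5) (nat_lit 374) (nat_lit 339) (nat_lit 307)))) (XT.nd (nat_lit 78) (nat_lit 228) (nat_lit 0) (XT.lf (nat_lit 0) (nat_lit 420108171) (nat_lit 76) (nat_lit 11732116901)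 (nat_lit 152) (nat_lit 9124060875) (nat_lit 32) (nat_lit 5) (nat_lit 33) (nat_lit 5) (nat_lit 34) (nat_lit 4) (nat_lit 375) (nat_lit 339) (nat_lit 306)) (XT.nd (nat_lit 78) (nat_lit 228) (nat_lit 0) (XT.lf (nat_lit 0) (nat_lit 19499850056) (nat_lit 76) (nat_lit 2035361058) (nat_lit 152) (nat_lit 919185097) (nat_lit 32) (nat_lit 5) (nat_lit 33) (nat_lit 5) (nat_lit 34) (nat_lit 4) (nat_lit 376) (nat_lit 339) (nat_lit 305)) (XT.lf (nat_lit 0) (nat_lit 7979708644) (nat_lit 228) (nat_lit 7252266456) (nat_lit 76) (nat_lit 8474009169) (nat_lit 29) (nat_lit 5) (nat_lit 32) (nat_lit 5) (nat_lit 30) (nat_lit 4) (nat_lit 377) (nat_lit 339) (nat_lit 304)))))) (XT.nd (nat_lit 468) (nat_lit 456) (nat_lit 0) (XT.nd (nat_lit 234) (nat_lit 228) (nat_lit 0) (XT.nd (nat_lit 78) (nat_lit 228) (nat_lit 0) (XT.lf (nat_lit 0) (nat_lit 12634051914) (nat_lit 76) (nat_lit 5108187353) (nat_lit 152) (nat_lit 7305528813)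 (nat_lit 28) (nat_lit 5) (nat_lit 29) (nat_lit 5) (nat_lit 30) (nat_lit 4) (nat_lit 378) (nat_lit 339) (nat_lit 303)) (XT.nd (nat_lit 78) (nat_lit 76) (nat_lit 0) (XT.lf (nat_lit 0) (nat_lit 1980691234) (nat_lit 152) (nat_lit 18658640357) (nat_lit 76) (nat_lit 5843729499) (nat_lit 26) (nat_lit 5) (nat_lit 28) (nat_lit 5) (nat_lit 27) (nat_lit 4) (nat_lit 379) (nat_lit 339) (nat_lit 302)) (XT.lf (nat_lit 0) (nat_lit 1770866422) (nat_lit 76) (nat_lit 10225969846) (nat_lit 152) (nat_lit 16018219442) (nat_lit 25) (nat_lit 5) (nat_lit 26) (nat_lit 5) (nat_lit 27) (nat_lit 4) (nat_lit 380) (nat_lit 339) (nat_lit 301)))) (XT.nd (nat_lit 78) (nat_lit 228) (nat_lit 0) (XT.lf (nat_lit 0) (nat_lit 23069667423) (nat_lit 152) (nat_lit 5344724243) (nat_lit 0) (nat_lit 1242462569) (nat_lit 25) (nat_lit 5) (nat_lit 27) (nat_lit 4) (nat_lit 25) (nat_lit 4) (nat_lit 381) (nat_lit 339) (nat_lit 300)) (XT.nd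 (nat_lit 78) (nat_lit 76) (nat_lit 0) (XT.lf (nat_lit 0) (nat_lit 3849847995) (nat_lit 152) (nat_lit 14019599504) (nat_lit 76) (nat_lit 13539418114) (nat_lit 23) (nat_lit 5) (nat_lit 25) (nat_lit 5) (nat_lit 24) (nat_lit 4) (nat_lit 382) (nat_lit 339) (nat_lit 299)) (XT.lf (nat_lit 0) (nat_lit 8852921813) (nat_lit 76) (nat_lit 6192457375) (nat_lit 152) (nat_lit 18242555033) (nat_lit 22) (nat_lit 5) (nat_lit 23) (nat_lit 5) (nat_lit 24) (nat_lit 4) (nat_lit 383) (nat_lit 339) (nat_lit 298))))) (XT.nd (nat_lit 234) (nat_lit 228) (nat_lit 0) (XT.nd (nat_lit 78) (nat_lit 228) (nat_lit 0) (XT.lf (nat_lit 0) (nat_lit 27406020200) (nat_lit 152) (nat_lit 1503845989) (nat_lit 0) (nat_lit 6393999393) (nat_lit 22) (nat_lit 5) (nat_lit 24) (nat_lit 4) (nat_lit 22) (nat_lit 4) (nat_lit 384) (nat_lit 339) (nat_lit 297)) (XT.nd (nat_lit 78) (nat_lit 76) (nat_lit 0) (XT.lf (nat_lit 0) (nat_lit 3578791671)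 (nat_lit 152) (nat_lit 13739445256) (nat_lit 76) (nat_lit 20139830078) (nat_lit 20) (nat_lit 5) (nat_lit 22) (nat_lit 5) (nat_lit 21) (nat_lit 4) (nat_lit 385) (nat_lit 339) (nat_lit 296)) (XT.lf (nat_lit 0) (nat_lit 11322530764) (nat_lit 76) (nat_lit 4510498250) (nat_lit 152) (nat_lit 23938301997) (nat_lit 19) (nat_lit 5) (nat_lit 20) (nat_lit 5) (nat_lit 21) (nat_lit 4) (nat_lit 386) (nat_lit 339) (nat_lit 295)))) (XT.nd (nat_lit 78) (nat_lit 228) (nat_lit 0) (XT.lf (nat_lit 0) (nat_lit 29387733930) (nat_lit 152) (nat_lit 3659145391) (nat_lit 0) (nat_lit 9206778422) (nat_lit 19) (nat_lit 5) (nat_lit 21) (nat_lit 4) (nat_lit 19) (nat_lit 4) (nat_lit 387) (nat_lit 339) (nat_lit 294)) (XT.nd (nat_lit 78) (nat_lit 152) (nat_lit 0) (XT.lf (nat_lit 0) (nat_lit 23673006915) (nat_lit 76) (nat_lit 20735884509) (nat_lit 76) (nat_lit 506582822) (nat_lit 18) (nat_lit 4) (nat_lit 19) (nat_lit 5) (nat_lit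 19) (nat_lit 4) (nat_lit 388) (nat_lit 339) (nat_lit 293)) (XT.lf (nat_lit 0) (nat_lit 5387201298) (nat_lit 76) (nat_lit 7130490392) (nat_lit 152) (nat_lit 35258166618) (nat_lit 16) (nat_lit 5) (nat_lit 17) (nat_lit 5) (nat_lit 18) (nat_lit 4) (nat_lit 389) (nat_lit 339) (nat_lit 292))))))) (XT.nd (nat_lit 936) (nat_lit 380) (nat_lit 0) (XT.nd (nat_lit 468) (nat_lit 228) (nat_lit 0) (XT.nd (nat_lit 234) (nat_lit 152) (nat_lit 0) (XT.nd (nat_lit 78) (nat_lit 152) (nat_lit 0) (XT.lf (nat_lit 0) (nat_lit 27000813312) (nat_lit 152) (nat_lit 16189414860) (nat_lit 0) (nat_lit 7652703098) (nat_lit 16) (nat_lit 5) (nat_lit 18) (nat_lit 4) (nat_lit 16) (nat_lit 4) (nat_lit 390) (nat_lit 339) (nat_lit 291)) (XT.nd (nat_lit 78) (nat_lit 76) (nat_lit 0) (XT.lf (nat_lit 0) (nat_lit 12270913212) (nat_lit 76) (nat_lit 30628149983) (nat_lit 76) (nat_lit 11243488574) (nat_lit 15) (nat_lit 4) (nat_lit 16)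 (nat_lit 5) (nat_lit 16) (nat_lit 4) (nat_lit 391) (nat_lit 339) (nat_lit 290)) (XT.lf (nat_lit 0) (nat_lit 2520318123) (nat_lit 152) (nat_lit 14251852957) (nat_lit 76) (nat_lit 40920485177) (nat_lit 14) (nat_lit 5) (nat_lit 16) (nat_lit 5) (nat_lit 15) (nat_lit 4) (nat_lit 392) (nat_lit 339) (nat_lit 289)))) (XT.nd (nat_lit 78) (nat_lit 76) (nat_lit 0) (XT.lf (nat_lit 0) (nat_lit 15796783631) (nat_lit 76) (nat_lit 1396692222) (nat_lit 152) (nat_lit 44313973690) (nat_lit 13) (nat_lit 5) (nat_lit 14) (nat_lit 5) (nat_lit 15) (nat_lit 4) (nat_lit 393) (nat_lit 339) (nat_lit 288)) (XT.nd (nat_lit 78) (nat_lit 76) (nat_lit 0) (XT.lf (nat_lit 0) (nat_lit 33482067758) (nat_lit 152) (nat_lit 17192508702) (nat_lit 0) (nat_lit 14930775008) (nat_lit 13) (nat_lit 5) (nat_lit 15) (nat_lit 4) (nat_lit 13) (nat_lit 4) (nat_lit 394) (nat_lit 339) (nat_lit 287)) (XT.lf (nat_lit 0) (nat_lit 13942564873) (nat_lit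 76) (nat_lit 37327786998) (nat_lit 76) (nat_lit 18750907372) (nat_lit 12) (nat_lit 4) (nat_lit 13) (nat_lit 5) (nat_lit 13) (nat_lit 4) (nat_lit 395) (nat_lit 339) (nat_lit 286))))) (XT.nd (nat_lit 234) (nat_lit 76) (nat_lit 0) (XT.nd (nat_lit 78) (nat_lit 152) (nat_lit 0) (XT.lf (nat_lit 0) (nat_lit 48098939803) (nat_lit 76) (nat_lit 22639615906) (nat_lit 76) (nat_lit 4039044727) (nat_lit 12) (nat_lit 4) (nat_lit 13) (nat_lit 5) (nat_lit 13) (nat_lit 4) (nat_lit 396) (nat_lit 339) (nat_lit 285)) (XT.nd (nat_lit 78) (nat_lit 0) (nat_lit 0) (XT.lf (nat_lit 0) (nat_lit 4968808452) (nat_lit 76) (nat_lit 6539150695) (nat_lit 152) (nat_lit 68395369652) (nat_lit 10) (nat_lit 5) (nat_lit 11) (nat_lit 5) (nat_lit 12) (nat_lit 4) (nat_lit 397) (nat_lit 339) (nat_lit 284)) (XT.lf (nat_lit 0) (nat_lit 28761943304) (nat_lit 152) (nat_lit 45636750866) (nat_lit 0) (nat_lit 11006877125) (nat_lit 10) (nat_lit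 5) (nat_lit 12) (nat_lit 4) (nat_lit 10) (nat_lit 4) (nat_lit 398) (nat_lit 339) (nat_lit 283)))) (XT.nd (nat_lit 78) (nat_lit 76) (nat_lit 0) (XT.lf (nat_lit 0) (nat_lit 47470493694) (nat_lit 152) (nat_lit 14176273905) (nat_lit 0) (nat_lit 29697515973) (nat_lit 10) (nat_lit 5) (nat_lit 12) (nat_lit 4) (nat_lit 10) (nat_lit 4) (nat_lit 399) (nat_lit 339) (nat_lit 282)) (XT.nd (nat_lit 78) (nat_lit 0) (nat_lit 0) (XT.lf (nat_lit 0) (nat_lit 20387980149) (nat_lit 76) (nat_lit 47572714690) (nat_lit 76) (nat_lit 29783152209) (nat_lit 9) (nat_lit 4) (nat_lit 10) (nat_lit 5) (nat_lit 10) (nat_lit 4) (nat_lit 400) (nat_lit 339) (nat_lit 281)) (XT.lf (nat_lit 0) (nat_lit 58160852002) (nat_lit 76) (nat_lit 32144345223) (nat_lit 76) (nat_lit 14339426483) (nat_lit 9) (nat_lit 4) (nat_lit 10) (nat_lit 5) (nat_lit 10) (nat_lit 4) (nat_lit 401) (nat_lit 339) (nat_lit 280)))))) (XT.nd (nat_lit 468) (nat_lit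 152) (nat_lit 0) (XT.nd (nat_lit 234) (nat_lit 76) (nat_lit 0) (XT.nd (nat_lit 78) (nat_lit 76) (nat_lit 0) (XT.lf (nat_lit 0) (nat_lit 2234926842) (nat_lit 152) (nat_lit 13237537472) (nat_lit 76) (nat_lit 96624672848) (nat_lit 8) (nat_lit 5) (nat_lit 10) (nat_lit 5) (nat_lit 9) (nat_lit 4) (nat_lit 402) (nat_lit 339) (nat_lit 279)) (XT.nd (nat_lit 78) (nat_lit 0) (nat_lit 0) (XT.lf (nat_lit 0) (nat_lit 20021644643) (nat_lit 152) (nat_lit 97054516444) (nat_lit 0) (nat_lit 3038498913) (nat_lit 7) (nat_lit 5) (nat_lit 9) (nat_lit 4) (nat_lit 7) (nat_lit 4) (nat_lit 403) (nat_lit 339) (nat_lit 278)) (XT.lf (nat_lit 0) (nat_lit 39699638050) (nat_lit 152) (nat_lit 66345648976) (nat_lit 0) (nat_lit 22704882517) (nat_lit 7) (nat_lit 5) (nat_lit 9) (nat_lit 4) (nat_lit 7) (nat_lit 4) (nat_lit 404) (nat_lit 339) (nat_lit 277)))) (XT.nd (nat_lit 78) (nat_lit 76) (nat_lit 0) (XT.lf (nat_lit 0) (nat_lit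 60926940055) (nat_lit 152) (nat_lit 33229393290) (nat_lit 0) (nat_lit 43921434704) (nat_lit 7) (nat_lit 5) (nat_lit 9) (nat_lit 4) (nat_lit 7) (nat_lit 4) (nat_lit 405) (nat_lit 339) (nat_lit 276)) (XT.nd (nat_lit 78) (nat_lit 0) (nat_lit 0) (XT.lf (nat_lit 0) (nat_lit 2572842105) (nat_lit 76) (nat_lit 81296669246) (nat_lit 76) (nat_lit 64281210359) (nat_lit 6) (nat_lit 4) (nat_lit 7) (nat_lit 5) (nat_lit 7) (nat_lit 4) (nat_lit 406) (nat_lit 339) (nat_lit 275)) (XT.lf (nat_lit 0) (nat_lit 42382184155) (nat_lit 76) (nat_lit 66822082567) (nat_lit 76) (nat_lit 49797407443) (nat_lit 6) (nat_lit 4) (nat_lit 7) (nat_lit 5) (nat_lit 7) (nat_lit 4) (nat_lit 407) (nat_lit 339) (nat_lit 274))))) (XT.nd (nat_lit 234) (nat_lit 76) (nat_lit 0) (XT.nd (nat_lit 78) (nat_lit 76) (nat_lit 0) (XT.lf (nat_lit 0) (nat_lit 85335826259) (nat_lit 76) (nat_lit 51209553833) (nat_lit 76) (nat_lit 34176345158) (nat_lit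 6) (nat_lit 4) (nat_lit 7) (nat_lit 5) (nat_lit 7) (nat_lit 4) (nat_lit 408) (nat_lit 339) (nat_lit 273)) (XT.nd (nat_lit 78) (nat_lit 76) (nat_lit 0) (XT.lf (nat_lit 0) (nat_lit 131688308520) (nat_lit 76) (nat_lit 34366564357) (nat_lit 76) (nat_lit 17325454245) (nat_lit 6) (nat_lit 4) (nat_lit 7) (nat_lit 5) (nat_lit 7) (nat_lit 4) (nat_lit 409) (nat_lit 339) (nat_lit 272)) (XT.lf (nat_lit 0) (nat_lit 827753169) (nat_lit 152) (nat_lit 15351532261) (nat_lit 76) (nat_lit 180872540743) (nat_lit 5) (nat_lit 5) (nat_lit 7) (nat_lit 5) (nat_lit 6) (nat_lit 4) (nat_lit 410) (nat_lit 339) (nat_lit 271)))) (XT.nd (nat_lit 156) (nat_lit 0) (nat_lit 0) (XT.nd (nat_lit 78) (nat_lit 0) (nat_lit 0) (XT.lf (nat_lit 0) (nat_lit 20262873626) (nat_lit 152) (nat_lit 187498312962) (nat_lit 0) (nat_lit 4019825562) (nat_lit 4) (nat_lit 5) (nat_lit 6) (nat_lit 4) (nat_lit 4) (nat_lit 4) (nat_lit 411) (nat_lit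 339) (nat_lit 270)) (XT.lf (nat_lit 0) (nat_lit 41781426035) (nat_lit 152) (nat_lit 160348272533) (nat_lit 0) (nat_lit 25532404242) (nat_lit 4) (nat_lit 5) (nat_lit 6) (nat_lit 4) (nat_lit 4) (nat_lit 4) (nat_lit 412) (nat_lit 339) (nat_lit 269))) (XT.nd (nat_lit 78) (nat_lit 0) (nat_lit 0) (XT.lf (nat_lit 0) (nat_lit 65006659292) (nat_lit 152) (nat_lit 131055656181) (nat_lit 0) (nat_lit 48752106268) (nat_lit 4) (nat_lit 5) (nat_lit 6) (nat_lit 4) (nat_lit 4) (nat_lit 4) (nat_lit 413) (nat_lit 339) (nat_lit 268)) (XT.lf (nat_lit 0) (nat_lit 90076204409) (nat_lit 152) (nat_lit 99446878031) (nat_lit 0) (nat_lit 73816529875) (nat_lit 4) (nat_lit 5) (nat_lit 6) (nat_lit 4) (nat_lit 4) (nat_lit 4) (nat_lit 414) (nat_lit 339) (nat_lit 267))))))))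
noncomputable def xc46 : XT := (XT.nd (nat_lit 47580) (nat_lit 0) (nat_lit 3420) (XT.nd (nat_lit 936) (nat_lit 152) (nat_lit 0) (XT.nd (nat_lit 468) (nat_lit 0) (nat_lit 0) (XT.nd (nat_lit 234) (nat_lit 0) (nat_lit 0) (XT.nd (nat_lit 78) (nat_lit 76) (nat_lit 0) (XT.lf (nat_lit 0) (nat_lit 117138621653) (nat_lit 152) (nat_lit 65334626807) (nat_lit 0) (nat_lit 100874204980) (nat_lit 4) (nat_lit 5) (nat_lit 6) (nat_lit 4) (nat_lit 4) (nat_lit 4) (nat_lit 415) (nat_lit 339) (nat_lit 266)) (XT.nd (nat_lit 78) (nat_lit 76) (nat_lit 0) (XT.lf (nat_lit 0) (nat_lit 146354280903) (nat_lit 152) (nat_lit 28516755833) (nat_lit 0) (nat_lit 130085473361) (nat_lit 4) (nat_lit 5) (nat_lit 6) (nat_lit 4) (nat_lit 4) (nat_lit 4) (nat_lit 416) (nat_lit 339) (nat_lit 265)) (XT.lf (nat_lit 0) (nat_lit 11596061244) (nat_lit 76) (nat_lit 166481297763) (nat_lit 76) (nat_lit 150208424601) (nat_lit 3) (nat_lit 4)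 (nat_lit 4) (nat_lit 5) (nat_lit 4) (nat_lit 4) (nat_lit 417) (nat_lit 339) (nat_lit 264)))) (XT.nd (nat_lit 78) (nat_lit 0) (nat_lit 0) (XT.lf (nat_lit 0) (nat_lit 55915537898) (nat_lit 76) (nat_lit 156909091014) (nat_lit 76) (nat_lit 140632453389) (nat_lit 3) (nat_lit 4) (nat_lit 4) (nat_lit 5) (nat_lit 4) (nat_lit 4) (nat_lit 418) (nat_lit 339) (nat_lit 263)) (XT.nd (nat_lit 78) (nat_lit 0) (nat_lit 0) (XT.lf (nat_lit 0) (nat_lit 103761415332) (nat_lit 76) (nat_lit 146580637359) (nat_lit 76) (nat_lit 130300514121) (nat_lit 3) (nat_lit 4) (nat_lit 4) (nat_lit 5) (nat_lit 4) (nat_lit 4) (nat_lit 419) (nat_lit 339) (nat_lit 262)) (XT.lf (nat_lit 0) (nat_lit 155417224671) (nat_lit 76) (nat_lit 135434731148) (nat_lit 76) (nat_lit 119151380490) (nat_lit 3) (nat_lit 4) (nat_lit 4) (nat_lit 5) (nat_lit 4) (nat_lit 4) (nat_lit 420) (nat_lit 339) (nat_lit 261))))) (XT.nd (nat_lit 234) (nat_lit 0)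 (nat_lit 0) (XT.nd (nat_lit 78) (nat_lit 0) (nat_lit 0) (XT.lf (nat_lit 0) (nat_lit 211189074414) (nat_lit 76) (nat_lit 123405322566) (nat_lit 76) (nat_lit 107118983556) (nat_lit 3) (nat_lit 4) (nat_lit 4) (nat_lit 5) (nat_lit 4) (nat_lit 4) (nat_lit 421) (nat_lit 339) (nat_lit 260)) (XT.nd (nat_lit 78) (nat_lit 0) (nat_lit 0) (XT.lf (nat_lit 0) (nat_lit 271407464413) (nat_lit 76) (nat_lit 110421126229) (nat_lit 76) (nat_lit 94132020226) (nat_lit 3) (nat_lit 4) (nat_lit 4) (nat_lit 5) (nat_lit 4) (nat_lit 4) (nat_lit 422) (nat_lit 339) (nat_lit 259)) (XT.lf (nat_lit 0) (nat_lit 336429244385) (nat_lit 76) (nat_lit 96405198750) (nat_lit 76) (nat_lit 80113530717) (nat_lit 3) (nat_lit 4) (nat_lit 4) (nat_lit 5) (nat_lit 4) (nat_lit 4) (nat_lit 423) (nat_lit 339) (nat_lit 258)))) (XT.nd (nat_lit 78) (nat_lit 0) (nat_lit 0) (XT.lf (nat_lit 0) (nat_lit 406639728582) (nat_lit 76) (nat_lit 81274482782)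 (nat_lit 76) (nat_lit 64980442500) (nat_lit 3) (nat_lit 4) (nat_lit 4) (nat_lit 5) (nat_lit 4) (nat_lit 4) (nat_lit 424) (nat_lit 339) (nat_lit 257)) (XT.nd (nat_lit 78) (nat_lit 0) (nat_lit 0) (XT.lf (nat_lit 0) (nat_lit 482454979133) (nat_lit 76) (nat_lit 64939314824) (nat_lit 76) (nat_lit 48643078013) (nat_lit 3) (nat_lit 4) (nat_lit 4) (nat_lit 5) (nat_lit 4) (nat_lit 4) (nat_lit 425) (nat_lit 339) (nat_lit 256)) (XT.lf (nat_lit 0) (nat_lit 564324271597) (nat_lit 76) (nat_lit 47302893878) (nat_lit 76) (nat_lit 31004623246) (nat_lit 3) (nat_lit 4) (nat_lit 4) (nat_lit 5) (nat_lit 4) (nat_lit 4) (nat_lit 426) (nat_lit 339) (nat_lit 255)))))) (XT.nd (nat_lit 468) (nat_lit 0) (nat_lit 0) (XT.nd (nat_lit 234) (nat_lit 0) (nat_lit 0) (XT.nd (nat_lit 78) (nat_lit 152) (nat_lit 0) (XT.lf (nat_lit 0) (nat_lit 652732757336) (nat_lit 76) (nat_lit 28260707823) (nat_lit 76) (nat_lit 11960554022) (nat_lit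 3) (nat_lit 4) (nat_lit 4) (nat_lit 5) (nat_lit 4) (nat_lit 4) (nat_lit 427) (nat_lit 339) (nat_lit 254)) (XT.nd (nat_lit 78) (nat_lit 0) (nat_lit 0) (XT.lf (nat_lit 0) (nat_lit 793154148) (nat_lit 76) (nat_lit 7545895424) (nat_lit 152) (nat_lit 738955885365) (nat_lit 1) (nat_lit 5) (nat_lit 2) (nat_lit 5) (nat_lit 3) (nat_lit 4) (nat_lit 428) (nat_lit 339) (nat_lit 253)) (XT.lf (nat_lit 0) (nat_lit 30788024296) (nat_lit 152) (nat_lit 759877204021) (nat_lit 0) (nat_lit 15260870020) (nat_lit 1) (nat_lit 5) (nat_lit 3) (nat_lit 4) (nat_lit 1) (nat_lit 4) (nat_lit 429) (nat_lit 339) (nat_lit 252)))) (XT.nd (nat_lit 78) (nat_lit 0) (nat_lit 0) (XT.lf (nat_lit 0) (nat_lit 55155755608) (nat_lit 152) (nat_lit 774458679890) (nat_lit 0) (nat_lit 39627177600) (nat_lit 1) (nat_lit 5) (nat_lit 3) (nat_lit 4) (nat_lit 1) (nat_lit 4) (nat_lit 430) (nat_lit 339) (nat_lit 251)) (XT.nd (nat_lit 78) (nat_lit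 0) (nat_lit 0) (XT.lf (nat_lit 0) (nat_lit 81468832306) (nat_lit 152) (nat_lit 790214804566) (nat_lit 0) (nat_lit 65938936026) (nat_lit 1) (nat_lit 5) (nat_lit 3) (nat_lit 4) (nat_lit 1) (nat_lit 4) (nat_lit 431) (nat_lit 339) (nat_lit 250)) (XT.lf (nat_lit 0) (nat_lit 109883183733) (nat_lit 152) (nat_lit 807238947678) (nat_lit 0) (nat_lit 94352066831) (nat_lit 1) (nat_lit 5) (nat_lit 3) (nat_lit 4) (nat_lit 1) (nat_lit 4) (nat_lit 432) (nat_lit 339) (nat_lit 249))))) (XT.nd (nat_lit 45942) (nat_lit 0) (nat_lit 12388) (XT.nd (nat_lit 78) (nat_lit 0) (nat_lit 0) (XT.lf (nat_lit 0) (nat_lit 140567191230) (nat_lit 152) (nat_lit 825631993036) (nat_lit 0) (nat_lit 125034944122) (nat_lit 1) (nat_lit 5) (nat_lit 3) (nat_lit 4) (nat_lit 1) (nat_lit 4) (nat_lit 433) (nat_lit 339) (nat_lit 248)) (XT.nd (nat_lit 45786) (nat_lit 0) (nat_lit 12844) (XT.lf (nat_lit 0) (nat_lit 173702685952) (nat_lit 152)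 (nat_lit 845502936465) (nat_lit 0) (nat_lit 158169392358) (nat_lit 1) (nat_lit 5) (nat_lit 3) (nat_lit 4) (nat_lit 1) (nat_lit 4) (nat_lit 434) (nat_lit 339) (nat_lit 247)) (XT.lf (nat_lit 0) (nat_lit 1073741823) (nat_lit 0) (nat_lit 0) (nat_lit 0) (nat_lit 0) (nat_lit 170) (nat_lit 0) (nat_lit 1) (nat_lit 0) (nat_lit 1) (nat_lit 0) (nat_lit 340) (nat_lit 340) (nat_lit 340)))) (XT.nd (nat_lit 78) (nat_lit 380) (nat_lit 0) (XT.lf (nat_lit 0) (nat_lit 4847339206) (nat_lit 76) (nat_lit 1399826224) (nat_lit 0) (nat_lit 204002340) (nat_lit 169) (nat_lit 5) (nat_lit 170) (nat_lit 0) (nat_lit 169) (nat_lit 4) (nat_lit 341) (nat_lit 340) (nat_lit 339)) (XT.nd (nat_lit 78) (nat_lit 228) (nat_lit 0) (XT.lf (nat_lit 0) (nat_lit 3078471409) (nat_lit 152) (nat_lit 2631856462) (nat_lit 76) (nat_lit 769431382) (nat_lit 167) (nat_lit 5) (nat_lit 169) (nat_lit 5) (nat_lit 168) (nat_lit 4) (nat_lit 342) (nat_lit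 340) (nat_lit 338)) (XT.lf (nat_lit 0) (nat_lit 1125390454) (nat_lit 228) (nat_lit 3702720129) (nat_lit 76) (nat_lit 1700253457) (nat_lit 164) (nat_lit 5) (nat_lit 167) (nat_lit 5) (nat_lit 165) (nat_lit 5) (nat_lit 343) (nat_lit 340) (nat_lit 337))))))) (XT.nd (nat_lit 936) (nat_lit 3192) (nat_lit 0) (XT.nd (nat_lit 468) (nat_lit 3648) (nat_lit 0) (XT.nd (nat_lit 234) (nat_lit 1064) (nat_lit 0) (XT.nd (nat_lit 78) (nat_lit 836) (nat_lit 0) (XT.lf (nat_lit 0) (nat_lit 1961983424) (nat_lit 228) (nat_lit 3576868849) (nat_lit 304) (nat_lit 1057540897) (nat_lit 161) (nat_lit 5) (nat_lit 164) (nat_lit 5) (nat_lit 165) (nat_lit 5) (nat_lit 344) (nat_lit 340) (nat_lit 336)) (XT.nd (nat_lit 78) (nat_lit 456) (nat_lit 0) (XT.lf (nat_lit 0) (nat_lit 1247620329) (nat_lit 304) (nat_lit 1942514306) (nat_lit 380) (nat_lit 3493797355) (nat_lit 156) (nat_lit 5) (nat_lit 160) (nat_lit 5) (nat_lit 161) (nat_lit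 5) (nat_lit 345) (nat_lit 340) (nat_lit 335)) (XT.lf (nat_lit 0) (nat_lit 632031169) (nat_lit 456) (nat_lit 6094861563) (nat_lit 76) (nat_lit 65368477) (nat_lit 150) (nat_lit 5) (nat_lit 156) (nat_lit 5) (nat_lit 151) (nat_lit 5) (nat_lit 346) (nat_lit 340) (nat_lit 334)))) (XT.nd (nat_lit 78) (nat_lit 608) (nat_lit 0) (XT.lf (nat_lit 0) (nat_lit 236366738) (nat_lit 456) (nat_lit 4495724214) (nat_lit 532) (nat_lit 2186344037) (nat_lit 144) (nat_lit 5) (nat_lit 150) (nat_lit 5) (nat_lit 151) (nat_lit 5) (nat_lit 347) (nat_lit 340) (nat_lit 333)) (XT.nd (nat_lit 78) (nat_lit 532) (nat_lit 0) (XT.lf (nat_lit 0) (nat_lit 1795148627) (nat_lit 532) (nat_lit 81012556) (nat_lit 76) (nat_lit 5189370452) (nat_lit 143) (nat_lit 5) (nat_lit 150) (nat_lit 5) (nat_lit 144) (nat_lit 5) (nat_lit 348) (nat_lit 340) (nat_lit 332)) (XT.lf (nat_lit 0) (nat_lit 5821683518) (nat_lit 608) (nat_lit 284932378) (nat_lit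 76) (nat_lit 1126134488) (nat_lit 136) (nat_lit 5) (nat_lit 144) (nat_lit 5) (nat_lit 137) (nat_lit 5) (nat_lit 349) (nat_lit 340) (nat_lit 331))))) (XT.nd (nat_lit 234) (nat_lit 1444) (nat_lit 0) (XT.nd (nat_lit 78) (nat_lit 1520) (nat_lit 0) (XT.lf (nat_lit 0) (nat_lit 2504990468) (nat_lit 684) (nat_lit 411518906) (nat_lit 76) (nat_lit 4503139975) (nat_lit 127) (nat_lit 5) (nat_lit 136) (nat_lit 5) (nat_lit 128) (nat_lit 5) (nat_lit 350) (nat_lit 340) (nat_lit 330)) (XT.nd (nat_lit 78) (nat_lit 836) (nat_lit 0) (XT.lf (nat_lit 0) (nat_lit 6523589700) (nat_lit 760) (nat_lit 429680307) (nat_lit 76) (nat_lit 675385927) (nat_lit 118) (nat_lit 5) (nat_lit 128) (nat_lit 5) (nat_lit 119) (nat_lit 5) (nat_lit 351) (nat_lit 340) (nat_lit 329)) (XT.lf (nat_lit 0) (nat_lit 2811879064) (nat_lit 836) (nat_lit 407706979) (nat_lit 76) (nat_lit 4637720589) (nat_lit 107) (nat_lit 5) (nat_lit 118) (nat_lit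 5) (nat_lit 108) (nat_lit 5) (nat_lit 352) (nat_lit 340) (nat_lit 328)))) (XT.nd (nat_lit 78) (nat_lit 1064) (nat_lit 0) (XT.lf (nat_lit 0) (nat_lit 6887839976) (nat_lit 456) (nat_lit 291840296) (nat_lit 76) (nat_lit 929646213) (nat_lit 102) (nat_lit 5) (nat_lit 108) (nat_lit 5) (nat_lit 103) (nat_lit 5) (nat_lit 353) (nat_lit 340) (nat_lit 327)) (XT.nd (nat_lit 78) (nat_lit 684) (nat_lit 0) (XT.lf (nat_lit 0) (nat_lit 2758977036) (nat_lit 380) (nat_lit 154416106) (nat_lit 76) (nat_lit 5468837601) (nat_lit 97) (nat_lit 5) (nat_lit 102) (nat_lit 5) (nat_lit 98) (nat_lit 5) (nat_lit 354) (nat_lit 340) (nat_lit 326)) (XT.lf (nat_lit 0) (nat_lit 48213495) (nat_lit 304) (nat_lit 6903008045) (nat_lit 380) (nat_lit 1728102332) (nat_lit 88) (nat_lit 5) (nat_lit 92) (nat_lit 5) (nat_lit 93) (nat_lit 5) (nat_lit 355) (nat_lit 340) (nat_lit 325)))))) (XT.nd (nat_lit 468) (nat_lit 1444) (nat_lit 0) (XT.nd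 (nat_lit 234) (nat_lit 760) (nat_lit 0) (XT.nd (nat_lit 78) (nat_lit 608) (nat_lit 0) (XT.lf (nat_lit 0) (nat_lit 274399542) (nat_lit 304) (nat_lit 2101478309) (nat_lit 380) (nat_lit 6623689419) (nat_lit 83) (nat_lit 5) (nat_lit 87) (nat_lit 5) (nat_lit 88) (nat_lit 5) (nat_lit 356) (nat_lit 340) (nat_lit 324)) (XT.nd (nat_lit 78) (nat_lit 380) (nat_lit 0) (XT.lf (nat_lit 0) (nat_lit 519593115) (nat_lit 228) (nat_lit 6219138376) (nat_lit 304) (nat_lit 2605861678) (nat_lit 80) (nat_lit 5) (nat_lit 83) (nat_lit 5) (nat_lit 84) (nat_lit 5) (nat_lit 357) (nat_lit 340) (nat_lit 323)) (XT.lf (nat_lit 0) (nat_lit 791387710) (nat_lit 304) (nat_lit 878521887) (nat_lit 380) (nat_lit 8046477131) (nat_lit 75) (nat_lit 5) (nat_lit 79) (nat_lit 5) (nat_lit 80) (nat_lit 5) (nat_lit 358) (nat_lit 340) (nat_lit 322)))) (XT.nd (nat_lit 78) (nat_lit 532) (nat_lit 0) (XT.lf (nat_lit 0) (nat_lit 1019890564) (nat_lit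 228) (nat_lit 5226479782) (nat_lit 304) (nat_lit 3867031051) (nat_lit 72) (nat_lit 5) (nat_lit 75) (nat_lit 5) (nat_lit 76) (nat_lit 5) (nat_lit 359) (nat_lit 340) (nat_lit 321)) (XT.nd (nat_lit 78) (nat_lit 228) (nat_lit 0) (XT.lf (nat_lit 0) (nat_lit 637196102) (nat_lit 304) (nat_lit 9260128128) (nat_lit 76) (nat_lit 643888631) (nat_lit 68) (nat_lit 5) (nat_lit 72) (nat_lit 5) (nat_lit 69) (nat_lit 5) (nat_lit 360) (nat_lit 340) (nat_lit 320)) (XT.lf (nat_lit 0) (nat_lit 1442232118) (nat_lit 228) (nat_lit 4014363873) (nat_lit 304) (nat_lit 5539057381) (nat_lit 65) (nat_lit 5) (nat_lit 68) (nat_lit 5) (nat_lit 69) (nat_lit 5) (nat_lit 361) (nat_lit 340) (nat_lit 319))))) (XT.nd (nat_lit 234) (nat_lit 760) (nat_lit 0) (XT.nd (nat_lit 78) (nat_lit 456) (nat_lit 0) (XT.lf (nat_lit 0) (nat_lit 1606163853) (nat_lit 228) (nat_lit 9106210669) (nat_lit 304) (nat_lit 771616279) (nat_lit 62) (nat_lit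 5) (nat_lit 65) (nat_lit 5) (nat_lit 66) (nat_lit 5) (nat_lit 362) (nat_lit 340) (nat_lit 318)) (XT.nd (nat_lit 78) (nat_lit 228) (nat_lit 0) (XT.lf (nat_lit 0) (nat_lit 1657347219) (nat_lit 152) (nat_lit 2674042687) (nat_lit 228) (nat_lit 7671948078) (nat_lit 59) (nat_lit 5) (nat_lit 61) (nat_lit 5) (nat_lit 62) (nat_lit 5) (nat_lit 363) (nat_lit 340) (nat_lit 317)) (XT.lf (nat_lit 0) (nat_lit 1632886079) (nat_lit 228) (nat_lit 8289125923) (nat_lit 304) (nat_lit 2636335790) (nat_lit 56) (nat_lit 5) (nat_lit 59) (nat_lit 5) (nat_lit 60) (nat_lit 5) (nat_lit 364) (nat_lit 340) (nat_lit 316)))) (XT.nd (nat_lit 156) (nat_lit 380) (nat_lit 0) (XT.nd (nat_lit 78) (nat_lit 152) (nat_lit 0) (XT.lf (nat_lit 0) (nat_lit 1503464708) (nat_lit 152) (nat_lit 1305311528) (nat_lit 228) (nat_lit 10342037655) (nat_lit 53) (nat_lit 5) (nat_lit 55) (nat_lit 5) (nat_lit 56) (nat_lit 5) (nat_lit 365) (nat_lit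 340) (nat_lit 315)) (XT.lf (nat_lit 0) (nat_lit 1189662664) (nat_lit 152) (nat_lit 7569229835) (nat_lit 228) (nat_lit 5021591208) (nat_lit 51) (nat_lit 5) (nat_lit 53) (nat_lit 5) (nat_lit 54) (nat_lit 5) (nat_lit 366) (nat_lit 340) (nat_lit 314))) (XT.nd (nat_lit 78) (nat_lit 152) (nat_lit 0) (XT.lf (nat_lit 0) (nat_lit 773734601) (nat_lit 152) (nat_lit 24097393) (nat_lit 228) (nat_lit 13657351887) (nat_lit 48) (nat_lit 5) (nat_lit 50) (nat_lit 5) (nat_lit 51) (nat_lit 5) (nat_lit 367) (nat_lit 340) (nat_lit 313)) (XT.lf (nat_lit 0) (nat_lit 41455715) (nat_lit 152) (nat_lit 7080219233) (nat_lit 228) (nat_lit 8047374351) (nat_lit 46) (nat_lit 5) (nat_lit 48) (nat_lit 5) (nat_lit 49) (nat_lit 5) (nat_lit 368) (nat_lit 340) (nat_lit 312))))))))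
noncomputable def xc47 : XT := (XT.nd (nat_lit 1872) (nat_lit 836) (nat_lit 0) (XT.nd (nat_lit 936) (nat_lit 836) (nat_lit 0) (XT.nd (nat_lit 468) (nat_lit 760) (nat_lit 0) (XT.nd (nat_lit 234) (nat_lit 380) (nat_lit 0) (XT.nd (nat_lit 78) (nat_lit 380) (nat_lit 0) (XT.lf (nat_lit 0) (nat_lit 14075721729) (nat_lit 228) (nat_lit 820077367) (nat_lit 76) (nat_lit 1038051875) (nat_lit 46) (nat_lit 5) (nat_lit 49) (nat_lit 5) (nat_lit 47) (nat_lit 4) (nat_lit 369) (nat_lit 340) (nat_lit 311)) (XT.nd (nat_lit 78) (nat_lit 152) (nat_lit 0) (XT.lf (nat_lit 0) (nat_lit 4902866026) (nat_lit 228) (nat_lit 2049541222) (nat_lit 76) (nat_lit 9792144813) (nat_lit 43) (nat_lit 5) (nat_lit 46) (nat_lit 5) (nat_lit 44) (nat_lit 5) (nat_lit 370) (nat_lit 340) (nat_lit 310)) (XT.lf (nat_lit 0) (nat_lit 12284582045) (nat_lit 228) (nat_lit 3563568219) (nat_lit 76) (nat_lit 1763223036) (nat_lit 41) (nat_lit 5)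 (nat_lit 44) (nat_lit 5) (nat_lit 42) (nat_lit 4) (nat_lit 371) (nat_lit 340) (nat_lit 309)))) (XT.nd (nat_lit 78) (nat_lit 228) (nat_lit 0) (XT.lf (nat_lit 0) (nat_lit 1901828696) (nat_lit 152) (nat_lit 5503595042) (nat_lit 76) (nat_lit 11128450194) (nat_lit 39) (nat_lit 5) (nat_lit 41) (nat_lit 5) (nat_lit 40) (nat_lit 5) (nat_lit 372) (nat_lit 340) (nat_lit 308)) (XT.nd (nat_lit 78) (nat_lit 76) (nat_lit 0) (XT.lf (nat_lit 0) (nat_lit 9689886912) (nat_lit 228) (nat_lit 7909606789) (nat_lit 76) (nat_lit 1917953914) (nat_lit 37) (nat_lit 5) (nat_lit 40) (nat_lit 5) (nat_lit 38) (nat_lit 4) (nat_lit 373) (nat_lit 340) (nat_lit 307)) (XT.lf (nat_lit 0) (nat_lit 9705128326) (nat_lit 76) (nat_lit 8663263693) (nat_lit 152) (nat_lit 2197970890) (nat_lit 36) (nat_lit 5) (nat_lit 37) (nat_lit 5) (nat_lit 38) (nat_lit 4) (nat_lit 374) (nat_lit 340) (nat_lit 306))))) (XT.nd (nat_lit 234) (nat_lit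 228) (nat_lit 0) (XT.nd (nat_lit 78) (nat_lit 304) (nat_lit 0) (XT.lf (nat_lit 0) (nat_lit 6018976142) (nat_lit 228) (nat_lit 14435597754) (nat_lit 76) (nat_lit 1231405124) (nat_lit 33) (nat_lit 5) (nat_lit 36) (nat_lit 5) (nat_lit 34) (nat_lit 4) (nat_lit 375) (nat_lit 340) (nat_lit 305)) (XT.nd (nat_lit 78) (nat_lit 228) (nat_lit 0) (XT.lf (nat_lit 0) (nat_lit 4077537420) (nat_lit 76) (nat_lit 11042416811) (nat_lit 152) (nat_lit 7758245589) (nat_lit 32) (nat_lit 5) (nat_lit 33) (nat_lit 5) (nat_lit 34) (nat_lit 4) (nat_lit 376) (nat_lit 340) (nat_lit 304)) (XT.lf (nat_lit 0) (nat_lit 250466164) (nat_lit 152) (nat_lit 670889667) (nat_lit 228) (nat_lit 23235689081) (nat_lit 29) (nat_lit 5) (nat_lit 31) (nat_lit 5) (nat_lit 32) (nat_lit 5) (nat_lit 377) (nat_lit 340) (nat_lit 303)))) (XT.nd (nat_lit 78) (nat_lit 228) (nat_lit 0) (XT.lf (nat_lit 0) (nat_lit 10431472313) (nat_lit 228) (nat_lit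 4496364509) (nat_lit 76) (nat_lit 10583620889) (nat_lit 29) (nat_lit 5) (nat_lit 32) (nat_lit 5) (nat_lit 30) (nat_lit 4) (nat_lit 378) (nat_lit 340) (nat_lit 302)) (XT.nd (nat_lit 78) (nat_lit 152) (nat_lit 0) (XT.lf (nat_lit 0) (nat_lit 16835877218) (nat_lit 76) (nat_lit 4054625239) (nat_lit 152) (nat_lit 6074331803) (nat_lit 28) (nat_lit 5) (nat_lit 29) (nat_lit 5) (nat_lit 30) (nat_lit 4) (nat_lit 379) (nat_lit 340) (nat_lit 301)) (XT.lf (nat_lit 0) (nat_lit 3837380030) (nat_lit 152) (nat_lit 16981338409) (nat_lit 76) (nat_lit 7697801555) (nat_lit 26) (nat_lit 5) (nat_lit 28) (nat_lit 5) (nat_lit 27) (nat_lit 4) (nat_lit 380) (nat_lit 340) (nat_lit 300)))))) (XT.nd (nat_lit 468) (nat_lit 380) (nat_lit 0) (XT.nd (nat_lit 234) (nat_lit 228) (nat_lit 0) (XT.nd (nat_lit 78) (nat_lit 152) (nat_lit 0) (XT.lf (nat_lit 0) (nat_lit 4944764872) (nat_lit 76) (nat_lit 9631598315) (nat_lit 152) (nat_lit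 15598653990) (nat_lit 25) (nat_lit 5) (nat_lit 26) (nat_lit 5) (nat_lit 27) (nat_lit 4) (nat_lit 381) (nat_lit 340) (nat_lit 299)) (XT.nd (nat_lit 78) (nat_lit 152) (nat_lit 0) (XT.lf (nat_lit 0) (nat_lit 26435455916) (nat_lit 152) (nat_lit 2909876407) (nat_lit 0) (nat_lit 2607824321) (nat_lit 25) (nat_lit 5) (nat_lit 27) (nat_lit 4) (nat_lit 25) (nat_lit 4) (nat_lit 382) (nat_lit 340) (nat_lit 298)) (XT.lf (nat_lit 0) (nat_lit 5632177796) (nat_lit 152) (nat_lit 12354183436) (nat_lit 76) (nat_lit 15861289147) (nat_lit 23) (nat_lit 5) (nat_lit 25) (nat_lit 5) (nat_lit 24) (nat_lit 4) (nat_lit 383) (nat_lit 340) (nat_lit 297)))) (XT.nd (nat_lit 78) (nat_lit 152) (nat_lit 0) (XT.lf (nat_lit 0) (nat_lit 12227020656) (nat_lit 76) (nat_lit 5428741938) (nat_lit 152) (nat_lit 18224676687) (nat_lit 22) (nat_lit 5) (nat_lit 23) (nat_lit 5) (nat_lit 24) (nat_lit 4) (nat_lit 384) (nat_lit 340) (nat_lit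 296)) (XT.nd (nat_lit 78) (nat_lit 76) (nat_lit 0) (XT.lf (nat_lit 0) (nat_lit 920814926) (nat_lit 76) (nat_lit 30012814630) (nat_lit 76) (nat_lit 7127611085) (nat_lit 21) (nat_lit 4) (nat_lit 22) (nat_lit 5) (nat_lit 22) (nat_lit 4) (nat_lit 385) (nat_lit 340) (nat_lit 295)) (XT.lf (nat_lit 0) (nat_lit 5146403023) (nat_lit 152) (nat_lit 12389901914) (nat_lit 76) (nat_lit 22854185238) (nat_lit 20) (nat_lit 5) (nat_lit 22) (nat_lit 5) (nat_lit 21) (nat_lit 4) (nat_lit 386) (nat_lit 340) (nat_lit 294))))) (XT.nd (nat_lit 234) (nat_lit 152) (nat_lit 0) (XT.nd (nat_lit 78) (nat_lit 152) (nat_lit 0) (XT.lf (nat_lit 0) (nat_lit 14570614714) (nat_lit 76) (nat_lit 3752022512) (nat_lit 152) (nat_lit 24569106795) (nat_lit 19) (nat_lit 5) (nat_lit 20) (nat_lit 5) (nat_lit 21) (nat_lit 4) (nat_lit 387) (nat_lit 340) (nat_lit 293)) (XT.nd (nat_lit 78) (nat_lit 152) (nat_lit 0) (XT.lf (nat_lit 0) (nat_lit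 32887309630) (nat_lit 152) (nat_lit 1742525813) (nat_lit 0) (nat_lit 10946552648) (nat_lit 19) (nat_lit 5) (nat_lit 21) (nat_lit 4) (nat_lit 19) (nat_lit 4) (nat_lit 388) (nat_lit 340) (nat_lit 292)) (XT.lf (nat_lit 0) (nat_lit 584970712) (nat_lit 152) (nat_lit 20783016078) (nat_lit 76) (nat_lit 27085305493) (nat_lit 17) (nat_lit 5) (nat_lit 19) (nat_lit 5) (nat_lit 18) (nat_lit 4) (nat_lit 389) (nat_lit 340) (nat_lit 291)))) (XT.nd (nat_lit 78) (nat_lit 76) (nat_lit 0) (XT.lf (nat_lit 0) (nat_lit 7875034421) (nat_lit 76) (nat_lit 6708194464) (nat_lit 152) (nat_lit 36961382237) (nat_lit 16) (nat_lit 5) (nat_lit 17) (nat_lit 5) (nat_lit 18) (nat_lit 4) (nat_lit 390) (nat_lit 340) (nat_lit 290)) (XT.nd (nat_lit 78) (nat_lit 76) (nat_lit 0) (XT.lf (nat_lit 0) (nat_lit 30160527671) (nat_lit 152) (nat_lit 15545055557) (nat_lit 0) (nat_lit 9154698452) (nat_lit 16) (nat_lit 5) (nat_lit 18) (nat_lit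 4) (nat_lit 16) (nat_lit 4) (nat_lit 391) (nat_lit 340) (nat_lit 289)) (XT.lf (nat_lit 0) (nat_lit 15107809912) (nat_lit 76) (nat_lit 32177744778) (nat_lit 76) (nat_lit 11140578800) (nat_lit 15) (nat_lit 4) (nat_lit 16) (nat_lit 5) (nat_lit 16) (nat_lit 4) (nat_lit 392) (nat_lit 340) (nat_lit 288))))))) (XT.nd (nat_lit 936) (nat_lit 228) (nat_lit 0) (XT.nd (nat_lit 468) (nat_lit 228) (nat_lit 0) (XT.nd (nat_lit 234) (nat_lit 228) (nat_lit 0) (XT.nd (nat_lit 78) (nat_lit 76) (nat_lit 0) (XT.lf (nat_lit 0) (nat_lit 3620375198) (nat_lit 152) (nat_lit 13644412337) (nat_lit 76) (nat_lit 44998276660) (nat_lit 14) (nat_lit 5) (nat_lit 16) (nat_lit 5) (nat_lit 15) (nat_lit 4) (nat_lit 393) (nat_lit 340) (nat_lit 287)) (XT.nd (nat_lit 78) (nat_lit 0) (nat_lit 0) (XT.lf (nat_lit 0) (nat_lit 18732167095) (nat_lit 76) (nat_lit 694766959) (nat_lit 152) (nat_lit 46958135613) (nat_lit 13) (nat_lit 5) (nat_lit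 14) (nat_lit 5) (nat_lit 15) (nat_lit 4) (nat_lit 394) (nat_lit 340) (nat_lit 286)) (XT.lf (nat_lit 0) (nat_lit 36966821748) (nat_lit 152) (nat_lit 16992063943) (nat_lit 0) (nat_lit 16854513324) (nat_lit 13) (nat_lit 5) (nat_lit 15) (nat_lit 4) (nat_lit 13) (nat_lit 4) (nat_lit 395) (nat_lit 340) (nat_lit 285)))) (XT.nd (nat_lit 78) (nat_lit 152) (nat_lit 0) (XT.lf (nat_lit 0) (nat_lit 16565331194) (nat_lit 76) (nat_lit 39576653856) (nat_lit 76) (nat_lit 19442408809) (nat_lit 12) (nat_lit 4) (nat_lit 13) (nat_lit 5) (nat_lit 13) (nat_lit 4) (nat_lit 396) (nat_lit 340) (nat_lit 284)) (XT.nd (nat_lit 78) (nat_lit 152) (nat_lit 0) (XT.lf (nat_lit 0) (nat_lit 53342559739) (nat_lit 76) (nat_lit 23768048047) (nat_lit 76) (nat_lit 3613491312) (nat_lit 12) (nat_lit 4) (nat_lit 13) (nat_lit 5) (nat_lit 13) (nat_lit 4) (nat_lit 397) (nat_lit 340) (nat_lit 283)) (XT.lf (nat_lit 0) (nat_lit 6724338782)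 (nat_lit 76) (nat_lit 6396491771) (nat_lit 152) (nat_lit 73140099031) (nat_lit 10) (nat_lit 5) (nat_lit 11) (nat_lit 5) (nat_lit 12) (nat_lit 4) (nat_lit 398) (nat_lit 340) (nat_lit 282))))) (XT.nd (nat_lit 234) (nat_lit 152) (nat_lit 0) (XT.nd (nat_lit 78) (nat_lit 76) (nat_lit 0) (XT.lf (nat_lit 0) (nat_lit 31713481673) (nat_lit 152) (nat_lit 48007786945) (nat_lit 0) (nat_lit 12484169434) (nat_lit 10) (nat_lit 5) (nat_lit 12) (nat_lit 4) (nat_lit 10) (nat_lit 4) (nat_lit 399) (nat_lit 340) (nat_lit 281)) (XT.nd (nat_lit 78) (nat_lit 76) (nat_lit 0) (XT.lf (nat_lit 0) (nat_lit 51870524767) (nat_lit 152) (nat_lit 14125279531) (nat_lit 0) (nat_lit 32625856269) (nat_lit 10) (nat_lit 5) (nat_lit 12) (nat_lit 4) (nat_lit 10) (nat_lit 4) (nat_lit 400) (nat_lit 340) (nat_lit 280)) (XT.lf (nat_lit 0) (nat_lit 23152612007) (nat_lit 76) (nat_lit 50820406969) (nat_lit 76) (nat_lit 31561519712) (nat_lit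 9) (nat_lit 4) (nat_lit 10) (nat_lit 5) (nat_lit 10) (nat_lit 4) (nat_lit 401) (nat_lit 340) (nat_lit 279)))) (XT.nd (nat_lit 78) (nat_lit 152) (nat_lit 0) (XT.lf (nat_lit 0) (nat_lit 63863343724) (nat_lit 76) (nat_lit 34199110529) (nat_lit 76) (nat_lit 14927057755) (nat_lit 9) (nat_lit 4) (nat_lit 10) (nat_lit 5) (nat_lit 10) (nat_lit 4) (nat_lit 402) (nat_lit 340) (nat_lit 278)) (XT.nd (nat_lit 78) (nat_lit 76) (nat_lit 0) (XT.lf (nat_lit 0) (nat_lit 2915216009) (nat_lit 152) (nat_lit 13308050249) (nat_lit 76) (nat_lit 104816532263) (nat_lit 8) (nat_lit 5) (nat_lit 10) (nat_lit 5) (nat_lit 9) (nat_lit 4) (nat_lit 403) (nat_lit 340) (nat_lit 277)) (XT.lf (nat_lit 0) (nat_lit 22109768008) (nat_lit 152) (nat_lit 103856640512) (nat_lit 0) (nat_lit 3733072410) (nat_lit 7) (nat_lit 5) (nat_lit 9) (nat_lit 4) (nat_lit 7) (nat_lit 4) (nat_lit 404) (nat_lit 340) (nat_lit 276)))))) (XT.nd (nat_lit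 468) (nat_lit 152) (nat_lit 0) (XT.nd (nat_lit 234) (nat_lit 0) (nat_lit 0) (XT.nd (nat_lit 78) (nat_lit 76) (nat_lit 0) (XT.lf (nat_lit 0) (nat_lit 43325971867) (nat_lit 152) (nat_lit 70762340480) (nat_lit 0) (nat_lit 24939322734) (nat_lit 7) (nat_lit 5) (nat_lit 9) (nat_lit 4) (nat_lit 7) (nat_lit 4) (nat_lit 405) (nat_lit 340) (nat_lit 275)) (XT.nd (nat_lit 78) (nat_lit 76) (nat_lit 0) (XT.lf (nat_lit 0) (nat_lit 66218097826) (nat_lit 152) (nat_lit 35062781407) (nat_lit 0) (nat_lit 47822232457) (nat_lit 7) (nat_lit 5) (nat_lit 9) (nat_lit 4) (nat_lit 7) (nat_lit 4) (nat_lit 406) (nat_lit 340) (nat_lit 274)) (XT.lf (nat_lit 0) (nat_lit 3567780918) (nat_lit 76) (nat_lit 87409725070) (nat_lit 76) (nat_lit 69005326148) (nat_lit 6) (nat_lit 4) (nat_lit 7) (nat_lit 5) (nat_lit 7) (nat_lit 4) (nat_lit 407) (nat_lit 340) (nat_lit 273)))) (XT.nd (nat_lit 78) (nat_lit 0) (nat_lit 0) (XT.lf (nat_lit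 0) (nat_lit 46503417632) (nat_lit 76) (nat_lit 71806110546) (nat_lit 76) (nat_lit 53393810187) (nat_lit 6) (nat_lit 4) (nat_lit 7) (nat_lit 5) (nat_lit 7) (nat_lit 4) (nat_lit 408) (nat_lit 340) (nat_lit 272)) (XT.nd (nat_lit 78) (nat_lit 0) (nat_lit 0) (XT.lf (nat_lit 0) (nat_lit 92839228235) (nat_lit 76) (nat_lit 54971374968) (nat_lit 76) (nat_lit 36551758463) (nat_lit 6) (nat_lit 4) (nat_lit 7) (nat_lit 5) (nat_lit 7) (nat_lit 4) (nat_lit 409) (nat_lit 340) (nat_lit 271)) (XT.lf (nat_lit 0) (nat_lit 142849795308) (nat_lit 76) (nat_lit 36805756939) (nat_lit 76) (nat_lit 18379366226) (nat_lit 6) (nat_lit 4) (nat_lit 7) (nat_lit 5) (nat_lit 7) (nat_lit 4) (nat_lit 410) (nat_lit 340) (nat_lit 270))))) (XT.nd (nat_lit 234) (nat_lit 0) (nat_lit 0) (XT.nd (nat_lit 78) (nat_lit 76) (nat_lit 0) (XT.lf (nat_lit 0) (nat_lit 1191653334) (nat_lit 152) (nat_lit 15989773792) (nat_lit 76) (nat_lit 195619643206)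 (nat_lit 5) (nat_lit 5) (nat_lit 7) (nat_lit 5) (nat_lit 6) (nat_lit 4) (nat_lit 411) (nat_lit 340) (nat_lit 269)) (XT.nd (nat_lit 78) (nat_lit 0) (nat_lit 0) (XT.lf (nat_lit 0) (nat_lit 22172711083) (nat_lit 152) (nat_lit 201924062466) (nat_lit 0) (nat_lit 4612262586) (nat_lit 4) (nat_lit 5) (nat_lit 6) (nat_lit 4) (nat_lit 4) (nat_lit 4) (nat_lit 412) (nat_lit 340) (nat_lit 268)) (XT.lf (nat_lit 0) (nat_lit 45391354532) (nat_lit 152) (nat_lit 172644545878) (nat_lit 0) (nat_lit 27825784525) (nat_lit 4) (nat_lit 5) (nat_lit 6) (nat_lit 4) (nat_lit 4) (nat_lit 4) (nat_lit 413) (nat_lit 340) (nat_lit 267)))) (XT.nd (nat_lit 156) (nat_lit 0) (nat_lit 0) (XT.nd (nat_lit 78) (nat_lit 0) (nat_lit 0) (XT.lf (nat_lit 0) (nat_lit 70454797974) (nat_lit 152) (nat_lit 141047897141) (nat_lit 0) (nat_lit 52884485829) (nat_lit 4) (nat_lit 5) (nat_lit 6) (nat_lit 4) (nat_lit 4) (nat_lit 4) (nat_lit 414)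 (nat_lit 340) (nat_lit 266)) (XT.lf (nat_lit 0) (nat_lit 97511565520) (nat_lit 152) (nat_lit 106946876853) (nat_lit 0) (nat_lit 79936862505) (nat_lit 4) (nat_lit 5) (nat_lit 6) (nat_lit 4) (nat_lit 4) (nat_lit 4) (nat_lit 415) (nat_lit 340) (nat_lit 265))) (XT.nd (nat_lit 78) (nat_lit 0) (nat_lit 0) (XT.lf (nat_lit 0) (nat_lit 126721993568) (nat_lit 152) (nat_lit 70139404895) (nat_lit 0) (nat_lit 109143224933) (nat_lit 4) (nat_lit 5) (nat_lit 6) (nat_lit 4) (nat_lit 4) (nat_lit 4) (nat_lit 416) (nat_lit 340) (nat_lit 264)) (XT.lf (nat_lit 0) (nat_lit 158259180952) (nat_lit 152) (nat_lit 30407362915) (nat_lit 0) (nat_lit 140676647855) (nat_lit 4) (nat_lit 5) (nat_lit 6) (nat_lit 4) (nat_lit 4) (nat_lit 4) (nat_lit 417) (nat_lit 340) (nat_lit 263))))))))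
noncomputable def xc48 : XT := (XT.nd (nat_lit 47658) (nat_lit 0) (nat_lit 3040) (XT.nd (nat_lit 936) (nat_lit 0) (nat_lit 0) (XT.nd (nat_lit 468) (nat_lit 152) (nat_lit 0) (XT.nd (nat_lit 234) (nat_lit 0) (nat_lit 0) (XT.nd (nat_lit 78) (nat_lit 0) (nat_lit 0) (XT.lf (nat_lit 0) (nat_lit 12897498732) (nat_lit 76) (nat_lit 179613882078) (nat_lit 76) (nat_lit 162027863367) (nat_lit 3) (nat_lit 4) (nat_lit 4) (nat_lit 5) (nat_lit 4) (nat_lit 4) (nat_lit 418) (nat_lit 340) (nat_lit 262)) (XT.nd (nat_lit 78) (nat_lit 0) (nat_lit 0) (XT.lf (nat_lit 0) (nat_lit 60734848142) (nat_lit 76) (nat_lit 169289670604) (nat_lit 76) (nat_lit 151700424473) (nat_lit 3) (nat_lit 4) (nat_lit 4) (nat_lit 5) (nat_lit 4) (nat_lit 4) (nat_lit 419) (nat_lit 340) (nat_lit 261)) (XT.lf (nat_lit 0) (nat_lit 112382761162) (nat_lit 76) (nat_lit 158147692338) (nat_lit 76) (nat_lit 140555457855) (nat_lit 3) (nat_lit 4) (nat_lit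 4) (nat_lit 5) (nat_lit 4) (nat_lit 4) (nat_lit 420) (nat_lit 340) (nat_lit 260)))) (XT.nd (nat_lit 78) (nat_lit 0) (nat_lit 0) (XT.lf (nat_lit 0) (nat_lit 168147299499) (nat_lit 76) (nat_lit 146121920742) (nat_lit 76) (nat_lit 128526919267) (nat_lit 3) (nat_lit 4) (nat_lit 4) (nat_lit 5) (nat_lit 4) (nat_lit 4) (nat_lit 421) (nat_lit 340) (nat_lit 259)) (XT.nd (nat_lit 78) (nat_lit 0) (nat_lit 0) (XT.lf (nat_lit 0) (nat_lit 228358919678) (nat_lit 76) (nat_lit 133141091984) (nat_lit 76) (nat_lit 115543528479) (nat_lit 3) (nat_lit 4) (nat_lit 4) (nat_lit 5) (nat_lit 4) (nat_lit 4) (nat_lit 422) (nat_lit 340) (nat_lit 258)) (XT.lf (nat_lit 0) (nat_lit 293374431297) (nat_lit 76) (nat_lit 119128282635) (nat_lit 76) (nat_lit 101528346879) (nat_lit 3) (nat_lit 4) (nat_lit 4) (nat_lit 5) (nat_lit 4) (nat_lit 4) (nat_lit 423) (nat_lit 340) (nat_lit 257))))) (XT.nd (nat_lit 234) (nat_lit 152) (nat_lit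 0) (XT.nd (nat_lit 78) (nat_lit 0) (nat_lit 0) (XT.lf (nat_lit 0) (nat_lit 363579111465) (nat_lit 76) (nat_lit 104000453824) (nat_lit 76) (nat_lit 86398321541) (nat_lit 3) (nat_lit 4) (nat_lit 4) (nat_lit 5) (nat_lit 4) (nat_lit 4) (nat_lit 424) (nat_lit 340) (nat_lit 256)) (XT.nd (nat_lit 78) (nat_lit 0) (nat_lit 0) (XT.lf (nat_lit 0) (nat_lit 439388987914) (nat_lit 76) (nat_lit 87667959159) (nat_lit 76) (nat_lit 70063793053) (nat_lit 3) (nat_lit 4) (nat_lit 4) (nat_lit 5) (nat_lit 4) (nat_lit 4) (nat_lit 425) (nat_lit 340) (nat_lit 255)) (XT.lf (nat_lit 0) (nat_lit 521253304358) (nat_lit 76) (nat_lit 70034013485) (nat_lit 76) (nat_lit 52427964211) (nat_lit 3) (nat_lit 4) (nat_lit 4) (nat_lit 5) (nat_lit 4) (nat_lit 4) (nat_lit 426) (nat_lit 340) (nat_lit 254)))) (XT.nd (nat_lit 78) (nat_lit 152) (nat_lit 0) (XT.lf (nat_lit 0) (nat_lit 609657182671) (nat_lit 76) (nat_lit 50994119348) (nat_lit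 76) (nat_lit 33386326399) (nat_lit 3) (nat_lit 4) (nat_lit 4) (nat_lit 5) (nat_lit 4) (nat_lit 4) (nat_lit 427) (nat_lit 340) (nat_lit 253)) (XT.nd (nat_lit 78) (nat_lit 152) (nat_lit 0) (XT.lf (nat_lit 0) (nat_lit 705124497688) (nat_lit 76) (nat_lit 30435447744) (nat_lit 76) (nat_lit 12826040282) (nat_lit 3) (nat_lit 4) (nat_lit 4) (nat_lit 5) (nat_lit 4) (nat_lit 4) (nat_lit 428) (nat_lit 340) (nat_lit 252)) (XT.lf (nat_lit 0) (nat_lit 1025004041) (nat_lit 76) (nat_lit 8065682018) (nat_lit 152) (nat_lit 797983613771) (nat_lit 1) (nat_lit 5) (nat_lit 2) (nat_lit 5) (nat_lit 3) (nat_lit 4) (nat_lit 429) (nat_lit 340) (nat_lit 251)))))) (XT.nd (nat_lit 46254) (nat_lit 0) (nat_lit 11248) (XT.nd (nat_lit 234) (nat_lit 0) (nat_lit 0) (XT.nd (nat_lit 78) (nat_lit 0) (nat_lit 0) (XT.lf (nat_lit 0) (nat_lit 33330531241) (nat_lit 152) (nat_lit 820508752767) (nat_lit 0) (nat_lit 16556924987) (nat_lit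 1) (nat_lit 5) (nat_lit 3) (nat_lit 4) (nat_lit 1) (nat_lit 4) (nat_lit 430) (nat_lit 340) (nat_lit 250)) (XT.nd (nat_lit 78) (nat_lit 0) (nat_lit 0) (XT.lf (nat_lit 0) (nat_lit 59641794763) (nat_lit 152) (nat_lit 836268496895) (nat_lit 0) (nat_lit 42866967887) (nat_lit 1) (nat_lit 5) (nat_lit 3) (nat_lit 4) (nat_lit 1) (nat_lit 4) (nat_lit 431) (nat_lit 340) (nat_lit 249)) (XT.lf (nat_lit 0) (nat_lit 88054467322) (nat_lit 152) (nat_lit 853295991352) (nat_lit 0) (nat_lit 71278510241) (nat_lit 1) (nat_lit 5) (nat_lit 3) (nat_lit 4) (nat_lit 1) (nat_lit 4) (nat_lit 432) (nat_lit 340) (nat_lit 248)))) (XT.nd (nat_lit 78) (nat_lit 0) (nat_lit 0) (XT.lf (nat_lit 0) (nat_lit 118736920312) (nat_lit 152) (nat_lit 871692139808) (nat_lit 0) (nat_lit 101959916744) (nat_lit 1) (nat_lit 5) (nat_lit 3) (nat_lit 4) (nat_lit 1) (nat_lit 4) (nat_lit 433) (nat_lit 340) (nat_lit 247)) (XT.nd (nat_lit 45864)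 (nat_lit 0) (nat_lit 12540) (XT.lf (nat_lit 0) (nat_lit 151870975677) (nat_lit 152) (nat_lit 891565956475) (nat_lit 0) (nat_lit 135093003140) (nat_lit 1) (nat_lit 5) (nat_lit 3) (nat_lit 4) (nat_lit 1) (nat_lit 4) (nat_lit 434) (nat_lit 340) (nat_lit 246)) (XT.lf (nat_lit 0) (nat_lit 1443722503) (nat_lit 228) (nat_lit 895602034) (nat_lit 228) (nat_lit 895602034) (nat_lit 166) (nat_lit 3) (nat_lit 169) (nat_lit 3) (nat_lit 169) (nat_lit 5) (nat_lit 341) (nat_lit 341) (nat_lit 338))))) (XT.nd (nat_lit 234) (nat_lit 760) (nat_lit 0) (XT.nd (nat_lit 78) (nat_lit 304) (nat_lit 0) (XT.lf (nat_lit 0) (nat_lit 747113987) (nat_lit 228) (nat_lit 3213320654) (nat_lit 304) (nat_lit 2548298982) (nat_lit 163) (nat_lit 5) (nat_lit 166) (nat_lit 3) (nat_lit 167) (nat_lit 5) (nat_lit 342) (nat_lit 341) (nat_lit 337)) (XT.nd (nat_lit 78) (nat_lit 304) (nat_lit 0) (XT.lf (nat_lit 76) (nat_lit 2064431569) (nat_lit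 0) (nat_lit 2864720356) (nat_lit 304) (nat_lit 1637567598) (nat_lit 164) (nat_lit 5) (nat_lit 163) (nat_lit 5) (nat_lit 167) (nat_lit 5) (nat_lit 343) (nat_lit 341) (nat_lit 336)) (XT.lf (nat_lit 76) (nat_lit 991495168) (nat_lit 0) (nat_lit 1394569607) (nat_lit 380) (nat_lit 4258544763) (nat_lit 160) (nat_lit 5) (nat_lit 159) (nat_lit 5) (nat_lit 164) (nat_lit 5) (nat_lit 344) (nat_lit 341) (nat_lit 335)))) (XT.nd (nat_lit 78) (nat_lit 532) (nat_lit 0) (XT.lf (nat_lit 0) (nat_lit 71931236) (nat_lit 304) (nat_lit 6303507330) (nat_lit 380) (nat_lit 367308929) (nat_lit 156) (nat_lit 5) (nat_lit 160) (nat_lit 5) (nat_lit 161) (nat_lit 5) (nat_lit 345) (nat_lit 341) (nat_lit 334)) (XT.nd (nat_lit 78) (nat_lit 456) (nat_lit 0) (XT.lf (nat_lit 0) (nat_lit 3470950750) (nat_lit 380) (nat_lit 732351398) (nat_lit 76) (nat_lit 2654887124) (nat_lit 155) (nat_lit 5) (nat_lit 160) (nat_lit 5) (nat_lit 156)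 (nat_lit 5) (nat_lit 346) (nat_lit 341) (nat_lit 333)) (XT.lf (nat_lit 0) (nat_lit 346267005) (nat_lit 456) (nat_lit 1387434545) (nat_lit 76) (nat_lit 5261440831) (nat_lit 149) (nat_lit 5) (nat_lit 155) (nat_lit 5) (nat_lit 150) (nat_lit 5) (nat_lit 347) (nat_lit 341) (nat_lit 332))))))) (XT.nd (nat_lit 936) (nat_lit 2584) (nat_lit 0) (XT.nd (nat_lit 468) (nat_lit 2052) (nat_lit 0) (XT.nd (nat_lit 234) (nat_lit 1900) (nat_lit 0) (XT.nd (nat_lit 78) (nat_lit 1216) (nat_lit 0) (XT.lf (nat_lit 0) (nat_lit 4051797872) (nat_lit 532) (nat_lit 1963751774) (nat_lit 76) (nat_lit 1135427342) (nat_lit 143) (nat_lit 5) (nat_lit 150) (nat_lit 5) (nat_lit 144) (nat_lit 5) (nat_lit 348) (nat_lit 341) (nat_lit 331)) (XT.nd (nat_lit 78) (nat_lit 608) (nat_lit 0) (XT.lf (nat_lit 0) (nat_lit 537426057) (nat_lit 608) (nat_lit 2437803286) (nat_lit 76) (nat_lit 4352420354) (nat_lit 135) (nat_lit 5) (nat_lit 143)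 (nat_lit 5) (nat_lit 136) (nat_lit 5) (nat_lit 349) (nat_lit 341) (nat_lit 330)) (XT.lf (nat_lit 0) (nat_lit 4186922204) (nat_lit 684) (nat_lit 2837051048) (nat_lit 76) (nat_lit 500662547) (nat_lit 127) (nat_lit 5) (nat_lit 136) (nat_lit 5) (nat_lit 128) (nat_lit 5) (nat_lit 350) (nat_lit 341) (nat_lit 329)))) (XT.nd (nat_lit 78) (nat_lit 1140) (nat_lit 0) (XT.lf (nat_lit 0) (nat_lit 272435360) (nat_lit 760) (nat_lit 3166717123) (nat_lit 76) (nat_lit 4303443293) (nat_lit 117) (nat_lit 5) (nat_lit 127) (nat_lit 5) (nat_lit 118) (nat_lit 5) (nat_lit 351) (nat_lit 341) (nat_lit 328)) (XT.nd (nat_lit 78) (nat_lit 380) (nat_lit 0) (XT.lf (nat_lit 0) (nat_lit 3929946464) (nat_lit 836) (nat_lit 3443751586) (nat_lit 76) (nat_lit 607985994) (nat_lit 107) (nat_lit 5) (nat_lit 118) (nat_lit 5) (nat_lit 108) (nat_lit 5) (nat_lit 352) (nat_lit 341) (nat_lit 327)) (XT.lf (nat_lit 0) (nat_lit 4572902149)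 (nat_lit 380) (nat_lit 3250903529) (nat_lit 456) (nat_lit 419093092) (nat_lit 102) (nat_lit 5) (nat_lit 107) (nat_lit 5) (nat_lit 108) (nat_lit 5) (nat_lit 353) (nat_lit 341) (nat_lit 326))))) (XT.nd (nat_lit 234) (nat_lit 912) (nat_lit 0) (XT.nd (nat_lit 78) (nat_lit 760) (nat_lit 0) (XT.lf (nat_lit 0) (nat_lit 3316236953) (nat_lit 380) (nat_lit 3869434503) (nat_lit 76) (nat_lit 1340556965) (nat_lit 97) (nat_lit 5) (nat_lit 102) (nat_lit 5) (nat_lit 98) (nat_lit 5) (nat_lit 354) (nat_lit 341) (nat_lit 325)) (XT.nd (nat_lit 78) (nat_lit 380) (nat_lit 0) (XT.lf (nat_lit 0) (nat_lit 4795820799) (nat_lit 380) (nat_lit 2516515955) (nat_lit 456) (nat_lit 1520865342) (nat_lit 92) (nat_lit 5) (nat_lit 97) (nat_lit 5) (nat_lit 98) (nat_lit 5) (nat_lit 355) (nat_lit 341) (nat_lit 324)) (XT.lf (nat_lit 0) (nat_lit 2363947514) (nat_lit 380) (nat_lit 4199000645) (nat_lit 76) (nat_lit 2601026931) (nat_lit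 87) (nat_lit 5) (nat_lit 92) (nat_lit 5) (nat_lit 88) (nat_lit 5) (nat_lit 356) (nat_lit 341) (nat_lit 323)))) (XT.nd (nat_lit 78) (nat_lit 608) (nat_lit 0) (XT.lf (nat_lit 0) (nat_lit 5168455559) (nat_lit 304) (nat_lit 1335192275) (nat_lit 380) (nat_lit 3016570680) (nat_lit 83) (nat_lit 5) (nat_lit 87) (nat_lit 5) (nat_lit 88) (nat_lit 5) (nat_lit 357) (nat_lit 341) (nat_lit 322)) (XT.nd (nat_lit 78) (nat_lit 304) (nat_lit 0) (XT.lf (nat_lit 0) (nat_lit 1074199510) (nat_lit 304) (nat_lit 4522258447) (nat_lit 76) (nat_lit 4305834838) (nat_lit 79) (nat_lit 5) (nat_lit 83) (nat_lit 5) (nat_lit 80) (nat_lit 5) (nat_lit 358) (nat_lit 341) (nat_lit 321)) (XT.lf (nat_lit 0) (nat_lit 5397998259) (nat_lit 380) (nat_lit 4711679187) (nat_lit 76) (nat_lit 202311994) (nat_lit 75) (nat_lit 5) (nat_lit 80) (nat_lit 5) (nat_lit 76) (nat_lit 5) (nat_lit 359) (nat_lit 341) (nat_lit 320)))))) (XT.nd (nat_lit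 468) (nat_lit 1064) (nat_lit 0) (XT.nd (nat_lit 234) (nat_lit 760) (nat_lit 0) (XT.nd (nat_lit 78) (nat_lit 532) (nat_lit 0) (XT.lf (nat_lit 0) (nat_lit 5800496543) (nat_lit 228) (nat_lit 4360901346) (nat_lit 304) (nat_lit 588473212) (nat_lit 72) (nat_lit 5) (nat_lit 75) (nat_lit 5) (nat_lit 76) (nat_lit 5) (nat_lit 360) (nat_lit 341) (nat_lit 319)) (XT.nd (nat_lit 78) (nat_lit 228) (nat_lit 0) (XT.lf (nat_lit 0) (nat_lit 3996495074) (nat_lit 304) (nat_lit 5249199272) (nat_lit 76) (nat_lit 1971779881) (nat_lit 68) (nat_lit 5) (nat_lit 72) (nat_lit 5) (nat_lit 69) (nat_lit 5) (nat_lit 361) (nat_lit 341) (nat_lit 318)) (XT.lf (nat_lit 0) (nat_lit 6102845003) (nat_lit 228) (nat_lit 2924504813) (nat_lit 304) (nat_lit 2689744982) (nat_lit 65) (nat_lit 5) (nat_lit 68) (nat_lit 5) (nat_lit 69) (nat_lit 5) (nat_lit 362) (nat_lit 341) (nat_lit 317)))) (XT.nd (nat_lit 78) (nat_lit 456) (nat_lit 0)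 (XT.lf (nat_lit 0) (nat_lit 2236098805) (nat_lit 304) (nat_lit 6075145354) (nat_lit 76) (nat_lit 3938655501) (nat_lit 61) (nat_lit 5) (nat_lit 65) (nat_lit 5) (nat_lit 62) (nat_lit 5) (nat_lit 363) (nat_lit 341) (nat_lit 316)) (XT.nd (nat_lit 78) (nat_lit 304) (nat_lit 0) (XT.lf (nat_lit 0) (nat_lit 6170795149) (nat_lit 152) (nat_lit 1392885050) (nat_lit 228) (nat_lit 5254411478) (nat_lit 59) (nat_lit 5) (nat_lit 61) (nat_lit 5) (nat_lit 62) (nat_lit 5) (nat_lit 364) (nat_lit 341) (nat_lit 315)) (XT.lf (nat_lit 0) (nat_lit 51125232) (nat_lit 304) (nat_lit 7353810676) (nat_lit 76) (nat_lit 6018860753) (nat_lit 55) (nat_lit 5) (nat_lit 59) (nat_lit 5) (nat_lit 56) (nat_lit 5) (nat_lit 365) (nat_lit 341) (nat_lit 314))))) (XT.nd (nat_lit 234) (nat_lit 532) (nat_lit 0) (XT.nd (nat_lit 78) (nat_lit 380) (nat_lit 0) (XT.lf (nat_lit 0) (nat_lit 5700613282) (nat_lit 228) (nat_lit 8237034814) (nat_lit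 76) (nat_lit 130874428) (nat_lit 53) (nat_lit 5) (nat_lit 56) (nat_lit 5) (nat_lit 54) (nat_lit 5) (nat_lit 366) (nat_lit 341) (nat_lit 313)) (XT.nd (nat_lit 78) (nat_lit 228) (nat_lit 0) (XT.lf (nat_lit 0) (nat_lit 5417182095) (nat_lit 152) (nat_lit 6596888278) (nat_lit 228) (nat_lit 2740203030) (nat_lit 51) (nat_lit 5) (nat_lit 53) (nat_lit 5) (nat_lit 54) (nat_lit 5) (nat_lit 367) (nat_lit 341) (nat_lit 312)) (XT.lf (nat_lit 0) (nat_lit 3353591613) (nat_lit 228) (nat_lit 10640081372) (nat_lit 76) (nat_lit 1492512660) (nat_lit 48) (nat_lit 5) (nat_lit 51) (nat_lit 5) (nat_lit 49) (nat_lit 5) (nat_lit 368) (nat_lit 341) (nat_lit 311)))) (XT.nd (nat_lit 156) (nat_lit 152) (nat_lit 0) (XT.nd (nat_lit 78) (nat_lit 228) (nat_lit 0) (XT.lf (nat_lit 0) (nat_lit 4000526884) (nat_lit 152) (nat_lit 6060364130) (nat_lit 228) (nat_lit 6202452298) (nat_lit 46) (nat_lit 5) (nat_lit 48) (nat_lit 5) (nat_lit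 49) (nat_lit 5) (nat_lit 369) (nat_lit 341) (nat_lit 310)) (XT.lf (nat_lit 0) (nat_lit 358325738) (nat_lit 228) (nat_lit 14141251068) (nat_lit 76) (nat_lit 2594838509) (nat_lit 43) (nat_lit 5) (nat_lit 46) (nat_lit 5) (nat_lit 44) (nat_lit 5) (nat_lit 370) (nat_lit 341) (nat_lit 309))) (XT.nd (nat_lit 78) (nat_lit 0) (nat_lit 0) (XT.lf (nat_lit 0) (nat_lit 1493007775) (nat_lit 152) (nat_lit 5969282053) (nat_lit 228) (nat_lit 10512849529) (nat_lit 41) (nat_lit 5) (nat_lit 43) (nat_lit 5) (nat_lit 44) (nat_lit 5) (nat_lit 371) (nat_lit 341) (nat_lit 308)) (XT.lf (nat_lit 0) (nat_lit 15329862075) (nat_lit 228) (nat_lit 269168151) (nat_lit 76) (nat_lit 3317555834) (nat_lit 41) (nat_lit 5) (nat_lit 44) (nat_lit 5) (nat_lit 42) (nat_lit 4) (nat_lit 372) (nat_lit 341) (nat_lit 307))))))))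
noncomputable def xc49 : XT := (XT.nd (nat_lit 1872) (nat_lit 760) (nat_lit 0) (XT.nd (nat_lit 936) (nat_lit 760) (nat_lit 0) (XT.nd (nat_lit 468) (nat_lit 456) (nat_lit 0) (XT.nd (nat_lit 234) (nat_lit 532) (nat_lit 0) (XT.nd (nat_lit 78) (nat_lit 228) (nat_lit 0) (XT.lf (nat_lit 0) (nat_lit 4049862393) (nat_lit 152) (nat_lit 2453460243) (nat_lit 76) (nat_lit 13412962936) (nat_lit 39) (nat_lit 5) (nat_lit 41) (nat_lit 5) (nat_lit 40) (nat_lit 5) (nat_lit 373) (nat_lit 341) (nat_lit 306)) (XT.nd (nat_lit 78) (nat_lit 76) (nat_lit 0) (XT.lf (nat_lit 0) (nat_lit 12387708717) (nat_lit 228) (nat_lit 5130627296) (nat_lit 76) (nat_lit 3463909289) (nat_lit 37) (nat_lit 5) (nat_lit 40) (nat_lit 5) (nat_lit 38) (nat_lit 4) (nat_lit 374) (nat_lit 341) (nat_lit 305)) (XT.lf (nat_lit 0) (nat_lit 13745016217) (nat_lit 76) (nat_lit 7924012947) (nat_lit 152) (nat_lit 450652471) (nat_lit 36) (nat_lit 5)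 (nat_lit 37) (nat_lit 5) (nat_lit 38) (nat_lit 4) (nat_lit 375) (nat_lit 341) (nat_lit 304)))) (XT.nd (nat_lit 78) (nat_lit 304) (nat_lit 0) (XT.lf (nat_lit 0) (nat_lit 8295839751) (nat_lit 228) (nat_lit 12342449550) (nat_lit 76) (nat_lit 2692419798) (nat_lit 33) (nat_lit 5) (nat_lit 36) (nat_lit 5) (nat_lit 34) (nat_lit 4) (nat_lit 376) (nat_lit 341) (nat_lit 303)) (XT.nd (nat_lit 78) (nat_lit 228) (nat_lit 0) (XT.lf (nat_lit 0) (nat_lit 7510582489) (nat_lit 76) (nat_lit 10529831552) (nat_lit 152) (nat_lit 6582145843) (nat_lit 32) (nat_lit 5) (nat_lit 33) (nat_lit 5) (nat_lit 34) (nat_lit 4) (nat_lit 377) (nat_lit 341) (nat_lit 302)) (XT.lf (nat_lit 0) (nat_lit 2662813889) (nat_lit 228) (nat_lit 22718826639) (nat_lit 76) (nat_lit 624269432) (nat_lit 29) (nat_lit 5) (nat_lit 32) (nat_lit 5) (nat_lit 30) (nat_lit 4) (nat_lit 378) (nat_lit 341) (nat_lit 301))))) (XT.nd (nat_lit 234) (nat_lit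 228) (nat_lit 0) (XT.nd (nat_lit 78) (nat_lit 228) (nat_lit 0) (XT.lf (nat_lit 0) (nat_lit 12820677150) (nat_lit 228) (nat_lit 1995919980) (nat_lit 76) (nat_lit 12657754821) (nat_lit 29) (nat_lit 5) (nat_lit 32) (nat_lit 5) (nat_lit 30) (nat_lit 4) (nat_lit 379) (nat_lit 341) (nat_lit 300)) (XT.nd (nat_lit 78) (nat_lit 152) (nat_lit 0) (XT.lf (nat_lit 0) (nat_lit 20918602291) (nat_lit 76) (nat_lit 3125379773) (nat_lit 152) (nat_lit 5003660278) (nat_lit 28) (nat_lit 5) (nat_lit 29) (nat_lit 5) (nat_lit 30) (nat_lit 4) (nat_lit 380) (nat_lit 341) (nat_lit 299)) (XT.lf (nat_lit 0) (nat_lit 5600331935) (nat_lit 152) (nat_lit 15622087271) (nat_lit 76) (nat_lit 9502389137) (nat_lit 26) (nat_lit 5) (nat_lit 28) (nat_lit 5) (nat_lit 27) (nat_lit 4) (nat_lit 381) (nat_lit 341) (nat_lit 298)))) (XT.nd (nat_lit 78) (nat_lit 152) (nat_lit 0) (XT.lf (nat_lit 0) (nat_lit 7939993813) (nat_lit 76) (nat_lit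 9191178720) (nat_lit 152) (nat_lit 15388193250) (nat_lit 25) (nat_lit 5) (nat_lit 26) (nat_lit 5) (nat_lit 27) (nat_lit 4) (nat_lit 382) (nat_lit 341) (nat_lit 297)) (XT.nd (nat_lit 78) (nat_lit 152) (nat_lit 0) (XT.lf (nat_lit 0) (nat_lit 29853631809) (nat_lit 152) (nat_lit 688597782) (nat_lit 0) (nat_lit 3901810988) (nat_lit 25) (nat_lit 5) (nat_lit 27) (nat_lit 4) (nat_lit 25) (nat_lit 4) (nat_lit 383) (nat_lit 341) (nat_lit 296)) (XT.lf (nat_lit 0) (nat_lit 7346762618) (nat_lit 152) (nat_lit 10953128512) (nat_lit 76) (nat_lit 18192192950) (nat_lit 23) (nat_lit 5) (nat_lit 25) (nat_lit 5) (nat_lit 24) (nat_lit 4) (nat_lit 384) (nat_lit 341) (nat_lit 295)))))) (XT.nd (nat_lit 468) (nat_lit 304) (nat_lit 0) (XT.nd (nat_lit 234) (nat_lit 228) (nat_lit 0) (XT.nd (nat_lit 78) (nat_lit 152) (nat_lit 0) (XT.lf (nat_lit 0) (nat_lit 15490731948) (nat_lit 76) (nat_lit 4783555673) (nat_lit 152) (nat_lit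 18416118974) (nat_lit 22) (nat_lit 5) (nat_lit 23) (nat_lit 5) (nat_lit 24) (nat_lit 4) (nat_lit 385) (nat_lit 341) (nat_lit 294)) (XT.nd (nat_lit 78) (nat_lit 76) (nat_lit 0) (XT.lf (nat_lit 0) (nat_lit 3222421179) (nat_lit 76) (nat_lit 31353014456) (nat_lit 76) (nat_lit 6472196038) (nat_lit 21) (nat_lit 4) (nat_lit 22) (nat_lit 5) (nat_lit 22) (nat_lit 4) (nat_lit 386) (nat_lit 341) (nat_lit 293)) (XT.lf (nat_lit 0) (nat_lit 6656630370) (nat_lit 152) (nat_lit 11281729387) (nat_lit 76) (nat_lit 25628309454) (nat_lit 20) (nat_lit 5) (nat_lit 22) (nat_lit 5) (nat_lit 21) (nat_lit 4) (nat_lit 387) (nat_lit 341) (nat_lit 292)))) (XT.nd (nat_lit 78) (nat_lit 152) (nat_lit 0) (XT.lf (nat_lit 0) (nat_lit 17744392740) (nat_lit 76) (nat_lit 3092551599) (nat_lit 152) (nat_lit 25433589932) (nat_lit 19) (nat_lit 5) (nat_lit 20) (nat_lit 5) (nat_lit 21) (nat_lit 4) (nat_lit 388) (nat_lit 341) (nat_lit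 291)) (XT.nd (nat_lit 78) (nat_lit 76) (nat_lit 0) (XT.lf (nat_lit 0) (nat_lit 12639215) (nat_lit 76) (nat_lit 36490555011) (nat_lit 76) (nat_lit 12669944677) (nat_lit 18) (nat_lit 4) (nat_lit 19) (nat_lit 5) (nat_lit 19) (nat_lit 4) (nat_lit 389) (nat_lit 341) (nat_lit 290)) (XT.lf (nat_lit 0) (nat_lit 1587331847) (nat_lit 152) (nat_lit 20602115930) (nat_lit 76) (nat_lit 30092228087) (nat_lit 17) (nat_lit 5) (nat_lit 19) (nat_lit 5) (nat_lit 18) (nat_lit 4) (nat_lit 390) (nat_lit 341) (nat_lit 289))))) (XT.nd (nat_lit 234) (nat_lit 152) (nat_lit 0) (XT.nd (nat_lit 78) (nat_lit 76) (nat_lit 0) (XT.lf (nat_lit 0) (nat_lit 10268460545) (nat_lit 76) (nat_lit 6393739630) (nat_lit 152) (nat_lit 38960270088) (nat_lit 16) (nat_lit 5) (nat_lit 17) (nat_lit 5) (nat_lit 18) (nat_lit 4) (nat_lit 391) (nat_lit 341) (nat_lit 288)) (XT.nd (nat_lit 78) (nat_lit 76) (nat_lit 0) (XT.lf (nat_lit 0) (nat_lit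 33430408031) (nat_lit 152) (nat_lit 15125840650) (nat_lit 0) (nat_lit 10649916498) (nat_lit 16) (nat_lit 5) (nat_lit 18) (nat_lit 4) (nat_lit 16) (nat_lit 4) (nat_lit 392) (nat_lit 341) (nat_lit 287)) (XT.lf (nat_lit 0) (nat_lit 17906989954) (nat_lit 76) (nat_lit 33979795975) (nat_lit 76) (nat_lit 11172438222) (nat_lit 15) (nat_lit 4) (nat_lit 16) (nat_lit 5) (nat_lit 16) (nat_lit 4) (nat_lit 393) (nat_lit 341) (nat_lit 286)))) (XT.nd (nat_lit 78) (nat_lit 76) (nat_lit 0) (XT.lf (nat_lit 0) (nat_lit 4680265525) (nat_lit 152) (nat_lit 13237689556) (nat_lit 76) (nat_lit 49287570093) (nat_lit 14) (nat_lit 5) (nat_lit 16) (nat_lit 5) (nat_lit 15) (nat_lit 4) (nat_lit 394) (nat_lit 341) (nat_lit 285)) (XT.nd (nat_lit 78) (nat_lit 0) (nat_lit 0) (XT.lf (nat_lit 0) (nat_lit 21663902992) (nat_lit 76) (nat_lit 52765461) (nat_lit 152) (nat_lit 49942361932) (nat_lit 13) (nat_lit 5) (nat_lit 14) (nat_lit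 5) (nat_lit 15) (nat_lit 4) (nat_lit 395) (nat_lit 341) (nat_lit 284)) (XT.lf (nat_lit 0) (nat_lit 40615344246) (nat_lit 152) (nat_lit 17000395576) (nat_lit 0) (nat_lit 18828111285) (nat_lit 13) (nat_lit 5) (nat_lit 15) (nat_lit 4) (nat_lit 13) (nat_lit 4) (nat_lit 396) (nat_lit 341) (nat_lit 283))))))) (XT.nd (nat_lit 936) (nat_lit 228) (nat_lit 0) (XT.nd (nat_lit 468) (nat_lit 228) (nat_lit 0) (XT.nd (nat_lit 234) (nat_lit 76) (nat_lit 0) (XT.nd (nat_lit 78) (nat_lit 152) (nat_lit 0) (XT.lf (nat_lit 0) (nat_lit 19182876904) (nat_lit 76) (nat_lit 42110622154) (nat_lit 76) (nat_lit 20304582075) (nat_lit 12) (nat_lit 4) (nat_lit 13) (nat_lit 5) (nat_lit 13) (nat_lit 4) (nat_lit 397) (nat_lit 341) (nat_lit 282)) (XT.nd (nat_lit 78) (nat_lit 152) (nat_lit 0) (XT.lf (nat_lit 0) (nat_lit 58806556383) (nat_lit 76) (nat_lit 25084154844) (nat_lit 76) (nat_lit 3260700767) (nat_lit 12) (nat_lit 4)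 (nat_lit 13) (nat_lit 5) (nat_lit 13) (nat_lit 4) (nat_lit 398) (nat_lit 341) (nat_lit 281)) (XT.lf (nat_lit 0) (nat_lit 8426573995) (nat_lit 76) (nat_lit 6337402660) (nat_lit 152) (nat_lit 78368107200) (nat_lit 10) (nat_lit 5) (nat_lit 11) (nat_lit 5) (nat_lit 12) (nat_lit 4) (nat_lit 399) (nat_lit 341) (nat_lit 280)))) (XT.nd (nat_lit 78) (nat_lit 76) (nat_lit 0) (XT.lf (nat_lit 0) (nat_lit 34808330186) (nat_lit 152) (nat_lit 50751098525) (nat_lit 0) (nat_lit 13994513190) (nat_lit 10) (nat_lit 5) (nat_lit 12) (nat_lit 4) (nat_lit 10) (nat_lit 4) (nat_lit 400) (nat_lit 341) (nat_lit 279)) (XT.nd (nat_lit 78) (nat_lit 76) (nat_lit 0) (XT.lf (nat_lit 0) (nat_lit 56536620433) (nat_lit 152) (nat_lit 14239272841) (nat_lit 0) (nat_lit 35709637919) (nat_lit 10) (nat_lit 5) (nat_lit 12) (nat_lit 4) (nat_lit 10) (nat_lit 4) (nat_lit 401) (nat_lit 341) (nat_lit 278)) (XT.lf (nat_lit 0) (nat_lit 25976694635)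 (nat_lit 76) (nat_lit 54407537387) (nat_lit 76) (nat_lit 33568364579) (nat_lit 9) (nat_lit 4) (nat_lit 10) (nat_lit 5) (nat_lit 10) (nat_lit 4) (nat_lit 402) (nat_lit 341) (nat_lit 277))))) (XT.nd (nat_lit 234) (nat_lit 76) (nat_lit 0) (XT.nd (nat_lit 78) (nat_lit 152) (nat_lit 0) (XT.lf (nat_lit 0) (nat_lit 69872294247) (nat_lit 76) (nat_lit 36491981835) (nat_lit 76) (nat_lit 15641521718) (nat_lit 9) (nat_lit 4) (nat_lit 10) (nat_lit 5) (nat_lit 10) (nat_lit 4) (nat_lit 403) (nat_lit 341) (nat_lit 276)) (XT.nd (nat_lit 78) (nat_lit 76) (nat_lit 0) (XT.lf (nat_lit 0) (nat_lit 3578384438) (nat_lit 152) (nat_lit 13525223230) (nat_lit 76) (nat_lit 113597847289) (nat_lit 8) (nat_lit 5) (nat_lit 10) (nat_lit 5) (nat_lit 9) (nat_lit 4) (nat_lit 404) (nat_lit 341) (nat_lit 275)) (XT.lf (nat_lit 0) (nat_lit 24295552016) (nat_lit 152) (nat_lit 111340208406) (nat_lit 0) (nat_lit 4418801180) (nat_lit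 7) (nat_lit 5) (nat_lit 9) (nat_lit 4) (nat_lit 7) (nat_lit 4) (nat_lit 405) (nat_lit 341) (nat_lit 274)))) (XT.nd (nat_lit 78) (nat_lit 76) (nat_lit 0) (XT.lf (nat_lit 0) (nat_lit 47178163104) (nat_lit 152) (nat_lit 75659472768) (nat_lit 0) (nat_lit 27292878716) (nat_lit 7) (nat_lit 5) (nat_lit 9) (nat_lit 4) (nat_lit 7) (nat_lit 4) (nat_lit 406) (nat_lit 341) (nat_lit 273)) (XT.nd (nat_lit 78) (nat_lit 76) (nat_lit 0) (XT.lf (nat_lit 0) (nat_lit 71873058141) (nat_lit 152) (nat_lit 37160530817) (nat_lit 0) (nat_lit 51979872316) (nat_lit 7) (nat_lit 5) (nat_lit 9) (nat_lit 4) (nat_lit 7) (nat_lit 4) (nat_lit 407) (nat_lit 341) (nat_lit 272)) (XT.lf (nat_lit 0) (nat_lit 4529739267) (nat_lit 76) (nat_lit 94067559903) (nat_lit 76) (nat_lit 74167057933) (nat_lit 6) (nat_lit 4) (nat_lit 7) (nat_lit 5) (nat_lit 7) (nat_lit 4) (nat_lit 408) (nat_lit 341) (nat_lit 271)))))) (XT.nd (nat_lit 468) (nat_lit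 76) (nat_lit 0) (XT.nd (nat_lit 234) (nat_lit 152) (nat_lit 0) (XT.nd (nat_lit 78) (nat_lit 0) (nat_lit 0) (XT.lf (nat_lit 0) (nat_lit 50850113150) (nat_lit 76) (nat_lit 77240466823) (nat_lit 76) (nat_lit 57333190643) (nat_lit 6) (nat_lit 4) (nat_lit 7) (nat_lit 5) (nat_lit 7) (nat_lit 4) (nat_lit 409) (nat_lit 341) (nat_lit 270)) (XT.nd (nat_lit 78) (nat_lit 0) (nat_lit 0) (XT.lf (nat_lit 0) (nat_lit 100846386963) (nat_lit 76) (nat_lit 59081925181) (nat_lit 76) (nat_lit 39168376586) (nat_lit 6) (nat_lit 4) (nat_lit 7) (nat_lit 5) (nat_lit 7) (nat_lit 4) (nat_lit 410) (nat_lit 341) (nat_lit 269)) (XT.lf (nat_lit 0) (nat_lit 154814834922) (nat_lit 76) (nat_lit 39484328805) (nat_lit 76) (nat_lit 19564972418) (nat_lit 6) (nat_lit 4) (nat_lit 7) (nat_lit 5) (nat_lit 7) (nat_lit 4) (nat_lit 411) (nat_lit 341) (nat_lit 268)))) (XT.nd (nat_lit 78) (nat_lit 76) (nat_lit 0) (XT.lf (nat_lit 0) (nat_lit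 1542198146) (nat_lit 152) (nat_lit 16763227773) (nat_lit 76) (nat_lit 211506954035) (nat_lit 5) (nat_lit 5) (nat_lit 7) (nat_lit 5) (nat_lit 6) (nat_lit 4) (nat_lit 412) (nat_lit 341) (nat_lit 267)) (XT.nd (nat_lit 78) (nat_lit 0) (nat_lit 0) (XT.lf (nat_lit 0) (nat_lit 24194133908) (nat_lit 152) (nat_lit 217585775929) (nat_lit 0) (nat_lit 5213454652) (nat_lit 4) (nat_lit 5) (nat_lit 6) (nat_lit 4) (nat_lit 4) (nat_lit 4) (nat_lit 413) (nat_lit 341) (nat_lit 266)) (XT.lf (nat_lit 0) (nat_lit 49251927652) (nat_lit 152) (nat_lit 186000358128) (nat_lit 0) (nat_lit 30266857527) (nat_lit 4) (nat_lit 5) (nat_lit 6) (nat_lit 4) (nat_lit 4) (nat_lit 4) (nat_lit 414) (nat_lit 341) (nat_lit 265))))) (XT.nd (nat_lit 234) (nat_lit 76) (nat_lit 0) (XT.nd (nat_lit 78) (nat_lit 0) (nat_lit 0) (XT.lf (nat_lit 0) (nat_lit 76303463995) (nat_lit 152) (nat_lit 151909736856) (nat_lit 0) (nat_lit 57314328250)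 (nat_lit 4) (nat_lit 5) (nat_lit 6) (nat_lit 4) (nat_lit 4) (nat_lit 4) (nat_lit 415) (nat_lit 341) (nat_lit 264)) (XT.nd (nat_lit 78) (nat_lit 0) (nat_lit 0) (XT.lf (nat_lit 0) (nat_lit 105509048338) (nat_lit 152) (nat_lit 115111893617) (nat_lit 0) (nat_lit 86516148130) (nat_lit 4) (nat_lit 5) (nat_lit 6) (nat_lit 4) (nat_lit 4) (nat_lit 4) (nat_lit 416) (nat_lit 341) (nat_lit 263)) (XT.lf (nat_lit 0) (nat_lit 137041750810) (nat_lit 152) (nat_lit 75388767116) (nat_lit 0) (nat_lit 118045364988) (nat_lit 4) (nat_lit 5) (nat_lit 6) (nat_lit 4) (nat_lit 4) (nat_lit 4) (nat_lit 417) (nat_lit 341) (nat_lit 262)))) (XT.nd (nat_lit 156) (nat_lit 0) (nat_lit 0) (XT.nd (nat_lit 78) (nat_lit 76) (nat_lit 0) (XT.lf (nat_lit 0) (nat_lit 171088431870) (nat_lit 152) (nat_lit 32504961048) (nat_lit 0) (nat_lit 152088818628) (nat_lit 4) (nat_lit 5) (nat_lit 6) (nat_lit 4) (nat_lit 4) (nat_lit 4) (nat_lit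 418) (nat_lit 341) (nat_lit 261)) (XT.lf (nat_lit 0) (nat_lit 14249731233) (nat_lit 76) (nat_lit 193823596633) (nat_lit 76) (nat_lit 174820995040) (nat_lit 3) (nat_lit 4) (nat_lit 4) (nat_lit 5) (nat_lit 4) (nat_lit 4) (nat_lit 419) (nat_lit 341) (nat_lit 260))) (XT.nd (nat_lit 78) (nat_lit 0) (nat_lit 0) (XT.lf (nat_lit 0) (nat_lit 65890332848) (nat_lit 76) (nat_lit 182685255354) (nat_lit 76) (nat_lit 163679886768) (nat_lit 3) (nat_lit 4) (nat_lit 4) (nat_lit 5) (nat_lit 4) (nat_lit 4) (nat_lit 420) (nat_lit 341) (nat_lit 259)) (XT.lf (nat_lit 0) (nat_lit 121648101365) (nat_lit 76) (nat_lit 170662851337) (nat_lit 76) (nat_lit 151654920722) (nat_lit 3) (nat_lit 4) (nat_lit 4) (nat_lit 5) (nat_lit 4) (nat_lit 4) (nat_lit 421) (nat_lit 341) (nat_lit 258))))))))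
noncomputable def xc50 : XT := (XT.nd (nat_lit 47736) (nat_lit 0) (nat_lit 2432) (XT.nd (nat_lit 936) (nat_lit 0) (nat_lit 0) (XT.nd (nat_lit 468) (nat_lit 152) (nat_lit 0) (XT.nd (nat_lit 234) (nat_lit 0) (nat_lit 0) (XT.nd (nat_lit 78) (nat_lit 0) (nat_lit 0) (XT.lf (nat_lit 0) (nat_lit 181853453191) (nat_lit 76) (nat_lit 157685140709) (nat_lit 76) (nat_lit 138674837843) (nat_lit 3) (nat_lit 4) (nat_lit 4) (nat_lit 5) (nat_lit 4) (nat_lit 4) (nat_lit 422) (nat_lit 341) (nat_lit 257)) (XT.nd (nat_lit 78) (nat_lit 0) (nat_lit 0) (XT.lf (nat_lit 0) (nat_lit 246863160781) (nat_lit 76) (nat_lit 143675218517) (nat_lit 76) (nat_lit 124662719123) (nat_lit 3) (nat_lit 4) (nat_lit 4) (nat_lit 5) (nat_lit 4) (nat_lit 4) (nat_lit 423) (nat_lit 341) (nat_lit 256)) (XT.lf (nat_lit 0) (nat_lit 317062466847) (nat_lit 76) (nat_lit 128550062999) (nat_lit 76) (nat_lit 109535529784) (nat_lit 3) (nat_lit 4)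 (nat_lit 4) (nat_lit 5) (nat_lit 4) (nat_lit 4) (nat_lit 424) (nat_lit 341) (nat_lit 255)))) (XT.nd (nat_lit 78) (nat_lit 0) (nat_lit 0) (XT.lf (nat_lit 0) (nat_lit 392867367276) (nat_lit 76) (nat_lit 112220043606) (nat_lit 76) (nat_lit 93203627221) (nat_lit 3) (nat_lit 4) (nat_lit 4) (nat_lit 5) (nat_lit 4) (nat_lit 4) (nat_lit 425) (nat_lit 341) (nat_lit 254)) (XT.nd (nat_lit 78) (nat_lit 0) (nat_lit 0) (XT.lf (nat_lit 0) (nat_lit 474727076294) (nat_lit 76) (nat_lit 94588389850) (nat_lit 76) (nat_lit 75570229791) (nat_lit 3) (nat_lit 4) (nat_lit 4) (nat_lit 5) (nat_lit 4) (nat_lit 4) (nat_lit 426) (nat_lit 341) (nat_lit 253)) (XT.lf (nat_lit 0) (nat_lit 563126688472) (nat_lit 76) (nat_lit 75550617859) (nat_lit 76) (nat_lit 56530843287) (nat_lit 3) (nat_lit 4) (nat_lit 4) (nat_lit 5) (nat_lit 4) (nat_lit 4) (nat_lit 427) (nat_lit 341) (nat_lit 252))))) (XT.nd (nat_lit 234) (nat_lit 0) (nat_lit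 0) (XT.nd (nat_lit 78) (nat_lit 152) (nat_lit 0) (XT.lf (nat_lit 0) (nat_lit 658590053364) (nat_lit 76) (nat_lit 54993911206) (nat_lit 76) (nat_lit 35972641713) (nat_lit 3) (nat_lit 4) (nat_lit 4) (nat_lit 5) (nat_lit 4) (nat_lit 4) (nat_lit 428) (nat_lit 341) (nat_lit 251)) (XT.nd (nat_lit 78) (nat_lit 152) (nat_lit 0) (XT.lf (nat_lit 0) (nat_lit 761682879799) (nat_lit 76) (nat_lit 32796452369) (nat_lit 76) (nat_lit 13773798692) (nat_lit 3) (nat_lit 4) (nat_lit 4) (nat_lit 5) (nat_lit 4) (nat_lit 4) (nat_lit 429) (nat_lit 341) (nat_lit 250)) (XT.lf (nat_lit 0) (nat_lit 1251378131) (nat_lit 76) (nat_lit 8639018679) (nat_lit 152) (nat_lit 861746220548) (nat_lit 1) (nat_lit 5) (nat_lit 2) (nat_lit 5) (nat_lit 3) (nat_lit 4) (nat_lit 430) (nat_lit 341) (nat_lit 249)))) (XT.nd (nat_lit 78) (nat_lit 0) (nat_lit 0) (XT.lf (nat_lit 0) (nat_lit 36065102172) (nat_lit 152) (nat_lit 886013455409) (nat_lit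 0) (nat_lit 17945938318) (nat_lit 1) (nat_lit 5) (nat_lit 3) (nat_lit 4) (nat_lit 1) (nat_lit 4) (nat_lit 431) (nat_lit 341) (nat_lit 248)) (XT.nd (nat_lit 78) (nat_lit 0) (nat_lit 0) (XT.lf (nat_lit 0) (nat_lit 64476220225) (nat_lit 152) (nat_lit 903044052963) (nat_lit 0) (nat_lit 46356009885) (nat_lit 1) (nat_lit 5) (nat_lit 3) (nat_lit 4) (nat_lit 1) (nat_lit 4) (nat_lit 432) (nat_lit 341) (nat_lit 247)) (XT.lf (nat_lit 0) (nat_lit 95157233857) (nat_lit 152) (nat_lit 921443074656) (nat_lit 0) (nat_lit 77036054548) (nat_lit 1) (nat_lit 5) (nat_lit 3) (nat_lit 4) (nat_lit 1) (nat_lit 4) (nat_lit 433) (nat_lit 341) (nat_lit 246)))))) (XT.nd (nat_lit 46332) (nat_lit 0) (nat_lit 8056) (XT.nd (nat_lit 46098) (nat_lit 0) (nat_lit 11628) (XT.nd (nat_lit 45942) (nat_lit 0) (nat_lit 11932) (XT.lf (nat_lit 0) (nat_lit 128289956483) (nat_lit 152) (nat_lit 941319551729) (nat_lit 0) (nat_lit 110167879980)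 (nat_lit 1) (nat_lit 5) (nat_lit 3) (nat_lit 4) (nat_lit 1) (nat_lit 4) (nat_lit 434) (nat_lit 341) (nat_lit 245)) (XT.nd (nat_lit 78) (nat_lit 380) (nat_lit 0) (XT.lf (nat_lit 0) (nat_lit 1181594194) (nat_lit 0) (nat_lit 1181594194) (nat_lit 228) (nat_lit 915234074) (nat_lit 163) (nat_lit 5) (nat_lit 163) (nat_lit 3) (nat_lit 166) (nat_lit 3) (nat_lit 342) (nat_lit 342) (nat_lit 336)) (XT.lf (nat_lit 76) (nat_lit 926665532) (nat_lit 0) (nat_lit 1058719566) (nat_lit 380) (nat_lit 4639612919) (nat_lit 159) (nat_lit 5) (nat_lit 158) (nat_lit 3) (nat_lit 163) (nat_lit 5) (nat_lit 343) (nat_lit 342) (nat_lit 335)))) (XT.nd (nat_lit 78) (nat_lit 380) (nat_lit 0) (XT.lf (nat_lit 0) (nat_lit 5740935959) (nat_lit 304) (nat_lit 355699334) (nat_lit 380) (nat_lit 615959850) (nat_lit 159) (nat_lit 5) (nat_lit 163) (nat_lit 5) (nat_lit 164) (nat_lit 5) (nat_lit 344) (nat_lit 342) (nat_lit 334)) (XT.nd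 (nat_lit 78) (nat_lit 0) (nat_lit 0) (XT.lf (nat_lit 0) (nat_lit 2637277710) (nat_lit 380) (nat_lit 1507423130) (nat_lit 456) (nat_lit 2673373970) (nat_lit 154) (nat_lit 5) (nat_lit 159) (nat_lit 5) (nat_lit 160) (nat_lit 5) (nat_lit 345) (nat_lit 342) (nat_lit 333)) (XT.lf (nat_lit 76) (nat_lit 4421551162) (nat_lit 0) (nat_lit 1818663610) (nat_lit 456) (nat_lit 704358339) (nat_lit 155) (nat_lit 5) (nat_lit 154) (nat_lit 5) (nat_lit 160) (nat_lit 5) (nat_lit 346) (nat_lit 342) (nat_lit 332))))) (XT.nd (nat_lit 234) (nat_lit 2128) (nat_lit 0) (XT.nd (nat_lit 78) (nat_lit 1064) (nat_lit 0) (XT.lf (nat_lit 0) (nat_lit 2730655403) (nat_lit 456) (nat_lit 3454299773) (nat_lit 76) (nat_lit 905253274) (nat_lit 149) (nat_lit 5) (nat_lit 155) (nat_lit 5) (nat_lit 150) (nat_lit 5) (nat_lit 347) (nat_lit 342) (nat_lit 331)) (XT.nd (nat_lit 78) (nat_lit 608) (nat_lit 0) (XT.lf (nat_lit 0) (nat_lit 2960156669)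 (nat_lit 456) (nat_lit 3279244168) (nat_lit 532) (nat_lit 1016616167) (nat_lit 143) (nat_lit 5) (nat_lit 149) (nat_lit 5) (nat_lit 150) (nat_lit 5) (nat_lit 348) (nat_lit 342) (nat_lit 330)) (XT.lf (nat_lit 0) (nat_lit 2325889656) (nat_lit 608) (nat_lit 5053167741) (nat_lit 76) (nat_lit 63497562) (nat_lit 135) (nat_lit 5) (nat_lit 143) (nat_lit 5) (nat_lit 136) (nat_lit 5) (nat_lit 349) (nat_lit 342) (nat_lit 329)))) (XT.nd (nat_lit 78) (nat_lit 1520) (nat_lit 0) (XT.lf (nat_lit 0) (nat_lit 1880849179) (nat_lit 608) (nat_lit 3914716505) (nat_lit 684) (nat_lit 1853076349) (nat_lit 127) (nat_lit 5) (nat_lit 135) (nat_lit 5) (nat_lit 136) (nat_lit 5) (nat_lit 350) (nat_lit 342) (nat_lit 328)) (XT.nd (nat_lit 78) (nat_lit 760) (nat_lit 0) (XT.lf (nat_lit 0) (nat_lit 1475973809) (nat_lit 684) (nat_lit 812611) (nat_lit 760) (nat_lit 6400392018) (nat_lit 117) (nat_lit 5) (nat_lit 126) (nat_lit 5)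 (nat_lit 127) (nat_lit 5) (nat_lit 351) (nat_lit 342) (nat_lit 327)) (XT.lf (nat_lit 0) (nat_lit 1092812046) (nat_lit 760) (nat_lit 3863258039) (nat_lit 836) (nat_lit 3169197781) (nat_lit 107) (nat_lit 5) (nat_lit 117) (nat_lit 5) (nat_lit 118) (nat_lit 5) (nat_lit 352) (nat_lit 342) (nat_lit 326))))))) (XT.nd (nat_lit 936) (nat_lit 2128) (nat_lit 0) (XT.nd (nat_lit 468) (nat_lit 1596) (nat_lit 0) (XT.nd (nat_lit 234) (nat_lit 760) (nat_lit 0) (XT.nd (nat_lit 78) (nat_lit 684) (nat_lit 0) (XT.lf (nat_lit 0) (nat_lit 218204386) (nat_lit 456) (nat_lit 7588286540) (nat_lit 76) (nat_lit 591229516) (nat_lit 101) (nat_lit 5) (nat_lit 107) (nat_lit 5) (nat_lit 102) (nat_lit 5) (nat_lit 353) (nat_lit 342) (nat_lit 325)) (XT.nd (nat_lit 78) (nat_lit 380) (nat_lit 0) (XT.lf (nat_lit 0) (nat_lit 511561534) (nat_lit 304) (nat_lit 3238844235) (nat_lit 380) (nat_lit 4939876227) (nat_lit 97) (nat_lit 5)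 (nat_lit 101) (nat_lit 5) (nat_lit 102) (nat_lit 5) (nat_lit 354) (nat_lit 342) (nat_lit 324)) (XT.lf (nat_lit 0) (nat_lit 282931093) (nat_lit 380) (nat_lit 7245397489) (nat_lit 456) (nat_lit 1479903822) (nat_lit 92) (nat_lit 5) (nat_lit 97) (nat_lit 5) (nat_lit 98) (nat_lit 5) (nat_lit 355) (nat_lit 342) (nat_lit 323)))) (XT.nd (nat_lit 78) (nat_lit 380) (nat_lit 0) (XT.lf (nat_lit 0) (nat_lit 53763499) (nat_lit 304) (nat_lit 2137361493) (nat_lit 380) (nat_lit 7158531941) (nat_lit 87) (nat_lit 5) (nat_lit 91) (nat_lit 5) (nat_lit 92) (nat_lit 5) (nat_lit 356) (nat_lit 342) (nat_lit 322)) (XT.nd (nat_lit 78) (nat_lit 380) (nat_lit 0) (XT.lf (nat_lit 0) (nat_lit 6128649016) (nat_lit 380) (nat_lit 168100051) (nat_lit 76) (nat_lit 3419315532) (nat_lit 87) (nat_lit 5) (nat_lit 92) (nat_lit 5) (nat_lit 88) (nat_lit 5) (nat_lit 357) (nat_lit 342) (nat_lit 321)) (XT.lf (nat_lit 0) (nat_lit 279678830)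 (nat_lit 380) (nat_lit 356491251) (nat_lit 76) (nat_lit 9474560619) (nat_lit 82) (nat_lit 5) (nat_lit 87) (nat_lit 5) (nat_lit 83) (nat_lit 5) (nat_lit 358) (nat_lit 342) (nat_lit 320))))) (XT.nd (nat_lit 234) (nat_lit 760) (nat_lit 0) (XT.nd (nat_lit 78) (nat_lit 608) (nat_lit 0) (XT.lf (nat_lit 0) (nat_lit 4416697514) (nat_lit 304) (nat_lit 627521613) (nat_lit 76) (nat_lit 5485592477) (nat_lit 79) (nat_lit 5) (nat_lit 83) (nat_lit 5) (nat_lit 80) (nat_lit 5) (nat_lit 359) (nat_lit 342) (nat_lit 319)) (XT.nd (nat_lit 78) (nat_lit 304) (nat_lit 0) (XT.lf (nat_lit 0) (nat_lit 8924239162) (nat_lit 380) (nat_lit 876931192) (nat_lit 76) (nat_lit 1179357715) (nat_lit 75) (nat_lit 5) (nat_lit 80) (nat_lit 5) (nat_lit 76) (nat_lit 5) (nat_lit 360) (nat_lit 342) (nat_lit 318)) (XT.lf (nat_lit 0) (nat_lit 2362400672) (nat_lit 304) (nat_lit 1206801266) (nat_lit 76) (nat_lit 7890774944) (nat_lit 71)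 (nat_lit 5) (nat_lit 75) (nat_lit 5) (nat_lit 72) (nat_lit 5) (nat_lit 361) (nat_lit 342) (nat_lit 317)))) (XT.nd (nat_lit 78) (nat_lit 532) (nat_lit 0) (XT.lf (nat_lit 0) (nat_lit 7152568662) (nat_lit 304) (nat_lit 1595284815) (nat_lit 76) (nat_lit 3223812530) (nat_lit 68) (nat_lit 5) (nat_lit 72) (nat_lit 5) (nat_lit 69) (nat_lit 5) (nat_lit 362) (nat_lit 342) (nat_lit 316)) (XT.nd (nat_lit 78) (nat_lit 304) (nat_lit 0) (XT.lf (nat_lit 0) (nat_lit 10487878429) (nat_lit 228) (nat_lit 1948753119) (nat_lit 304) (nat_lit 82190536) (nat_lit 65) (nat_lit 5) (nat_lit 68) (nat_lit 5) (nat_lit 69) (nat_lit 5) (nat_lit 363) (nat_lit 342) (nat_lit 315)) (XT.lf (nat_lit 0) (nat_lit 5023673373) (nat_lit 304) (nat_lit 2634633586) (nat_lit 76) (nat_lit 5440016646) (nat_lit 61) (nat_lit 5) (nat_lit 65) (nat_lit 5) (nat_lit 62) (nat_lit 5) (nat_lit 364) (nat_lit 342) (nat_lit 314)))))) (XT.nd (nat_lit 468)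 (nat_lit 988) (nat_lit 0) (XT.nd (nat_lit 234) (nat_lit 532) (nat_lit 0) (XT.nd (nat_lit 78) (nat_lit 456) (nat_lit 0) (XT.lf (nat_lit 0) (nat_lit 10420340236) (nat_lit 152) (nat_lit 222524829) (nat_lit 228) (nat_lit 3075919705) (nat_lit 59) (nat_lit 5) (nat_lit 61) (nat_lit 5) (nat_lit 62) (nat_lit 5) (nat_lit 365) (nat_lit 342) (nat_lit 313)) (XT.nd (nat_lit 78) (nat_lit 152) (nat_lit 0) (XT.lf (nat_lit 0) (nat_lit 2461969657) (nat_lit 304) (nat_lit 4168766305) (nat_lit 76) (nat_lit 7745701035) (nat_lit 55) (nat_lit 5) (nat_lit 59) (nat_lit 5) (nat_lit 56) (nat_lit 5) (nat_lit 366) (nat_lit 342) (nat_lit 312)) (XT.lf (nat_lit 0) (nat_lit 8462170647) (nat_lit 228) (nat_lit 5192214704) (nat_lit 76) (nat_lit 1423486451) (nat_lit 53) (nat_lit 5) (nat_lit 56) (nat_lit 5) (nat_lit 54) (nat_lit 5) (nat_lit 367) (nat_lit 342) (nat_lit 311)))) (XT.nd (nat_lit 78) (nat_lit 380) (nat_lit 0) (XT.lf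 (nat_lit 0) (nat_lit 9393377666) (nat_lit 152) (nat_lit 5771861611) (nat_lit 228) (nat_lit 659080216) (nat_lit 51) (nat_lit 5) (nat_lit 53) (nat_lit 5) (nat_lit 54) (nat_lit 5) (nat_lit 368) (nat_lit 342) (nat_lit 310)) (XT.nd (nat_lit 78) (nat_lit 152) (nat_lit 0) (XT.lf (nat_lit 0) (nat_lit 5758658250) (nat_lit 228) (nat_lit 7945782459) (nat_lit 76) (nat_lit 2913100982) (nat_lit 48) (nat_lit 5) (nat_lit 51) (nat_lit 5) (nat_lit 49) (nat_lit 5) (nat_lit 369) (nat_lit 342) (nat_lit 309)) (XT.lf (nat_lit 0) (nat_lit 7711991112) (nat_lit 152) (nat_lit 5185220145) (nat_lit 228) (nat_lit 4564979071) (nat_lit 46) (nat_lit 5) (nat_lit 48) (nat_lit 5) (nat_lit 49) (nat_lit 5) (nat_lit 370) (nat_lit 342) (nat_lit 308))))) (XT.nd (nat_lit 234) (nat_lit 532) (nat_lit 0) (XT.nd (nat_lit 78) (nat_lit 228) (nat_lit 0) (XT.lf (nat_lit 0) (nat_lit 2372070023) (nat_lit 228) (nat_lit 11884841225) (nat_lit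 76) (nat_lit 4105231951) (nat_lit 43) (nat_lit 5) (nat_lit 46) (nat_lit 5) (nat_lit 44) (nat_lit 5) (nat_lit 371) (nat_lit 342) (nat_lit 307)) (XT.nd (nat_lit 78) (nat_lit 76) (nat_lit 0) (XT.lf (nat_lit 0) (nat_lit 4852932580) (nat_lit 152) (nat_lit 5094968869) (nat_lit 228) (nat_lit 9370288534) (nat_lit 41) (nat_lit 5) (nat_lit 43) (nat_lit 5) (nat_lit 44) (nat_lit 5) (nat_lit 372) (nat_lit 342) (nat_lit 306)) (XT.lf (nat_lit 0) (nat_lit 2869987826) (nat_lit 76) (nat_lit 15499344630) (nat_lit 152) (nat_lit 1969436511) (nat_lit 40) (nat_lit 5) (nat_lit 41) (nat_lit 5) (nat_lit 42) (nat_lit 4) (nat_lit 373) (nat_lit 342) (nat_lit 305)))) (XT.nd (nat_lit 156) (nat_lit 304) (nat_lit 0) (XT.nd (nat_lit 78) (nat_lit 0) (nat_lit 0) (XT.lf (nat_lit 0) (nat_lit 354070013) (nat_lit 152) (nat_lit 5736461146) (nat_lit 228) (nat_lit 15332791252) (nat_lit 37) (nat_lit 5) (nat_lit 39) (nat_lit 5) (nat_lit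 40) (nat_lit 5) (nat_lit 374) (nat_lit 342) (nat_lit 304)) (XT.lf (nat_lit 0) (nat_lit 15027071481) (nat_lit 228) (nat_lit 2616053443) (nat_lit 76) (nat_lit 4934882683) (nat_lit 37) (nat_lit 5) (nat_lit 40) (nat_lit 5) (nat_lit 38) (nat_lit 4) (nat_lit 375) (nat_lit 342) (nat_lit 303))) (XT.nd (nat_lit 78) (nat_lit 152) (nat_lit 0) (XT.lf (nat_lit 0) (nat_lit 1124897512) (nat_lit 152) (nat_lit 6186009243) (nat_lit 76) (nat_lit 16498575374) (nat_lit 35) (nat_lit 5) (nat_lit 37) (nat_lit 5) (nat_lit 36) (nat_lit 5) (nat_lit 376) (nat_lit 342) (nat_lit 302)) (XT.lf (nat_lit 0) (nat_lit 10498726338) (nat_lit 228) (nat_lit 10545212435) (nat_lit 76) (nat_lit 4075939464) (nat_lit 33) (nat_lit 5) (nat_lit 36) (nat_lit 5) (nat_lit 34) (nat_lit 4) (nat_lit 377) (nat_lit 342) (nat_lit 301))))))))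
noncomputable def xc51 : XT := (XT.nd (nat_lit 1872) (nat_lit 532) (nat_lit 0) (XT.nd (nat_lit 936) (nat_lit 684) (nat_lit 0) (XT.nd (nat_lit 468) (nat_lit 456) (nat_lit 0) (XT.nd (nat_lit 234) (nat_lit 228) (nat_lit 0) (XT.nd (nat_lit 78) (nat_lit 304) (nat_lit 0) (XT.lf (nat_lit 0) (nat_lit 10775045407) (nat_lit 76) (nat_lit 10175391428) (nat_lit 152) (nat_lit 5568285931) (nat_lit 32) (nat_lit 5) (nat_lit 33) (nat_lit 5) (nat_lit 34) (nat_lit 4) (nat_lit 378) (nat_lit 342) (nat_lit 300)) (XT.nd (nat_lit 78) (nat_lit 76) (nat_lit 0) (XT.lf (nat_lit 0) (nat_lit 4315364048) (nat_lit 228) (nat_lit 21888042317) (nat_lit 76) (nat_lit 1810733451) (nat_lit 29) (nat_lit 5) (nat_lit 32) (nat_lit 5) (nat_lit 30) (nat_lit 4) (nat_lit 379) (nat_lit 342) (nat_lit 299)) (XT.lf (nat_lit 0) (nat_lit 306331739) (nat_lit 76) (nat_lit 14877675842) (nat_lit 152) (nat_lit 14421161779) (nat_lit 28) (nat_lit 5)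 (nat_lit 29) (nat_lit 5) (nat_lit 30) (nat_lit 4) (nat_lit 380) (nat_lit 342) (nat_lit 298)))) (XT.nd (nat_lit 78) (nat_lit 228) (nat_lit 0) (XT.lf (nat_lit 0) (nat_lit 24937645083) (nat_lit 76) (nat_lit 2300636933) (nat_lit 152) (nat_lit 4069404001) (nat_lit 28) (nat_lit 5) (nat_lit 29) (nat_lit 5) (nat_lit 30) (nat_lit 4) (nat_lit 381) (nat_lit 342) (nat_lit 297)) (XT.nd (nat_lit 78) (nat_lit 76) (nat_lit 0) (XT.lf (nat_lit 0) (nat_lit 7296610808) (nat_lit 152) (nat_lit 14541814635) (nat_lit 76) (nat_lit 11281753328) (nat_lit 26) (nat_lit 5) (nat_lit 28) (nat_lit 5) (nat_lit 27) (nat_lit 4) (nat_lit 382) (nat_lit 342) (nat_lit 296)) (XT.lf (nat_lit 0) (nat_lit 10803972253) (nat_lit 76) (nat_lit 8888280750) (nat_lit 152) (nat_lit 15368946019) (nat_lit 25) (nat_lit 5) (nat_lit 26) (nat_lit 5) (nat_lit 27) (nat_lit 4) (nat_lit 383) (nat_lit 342) (nat_lit 295))))) (XT.nd (nat_lit 234) (nat_lit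 228) (nat_lit 0) (XT.nd (nat_lit 78) (nat_lit 152) (nat_lit 0) (XT.lf (nat_lit 0) (nat_lit 1405259882) (nat_lit 76) (nat_lit 31976005996) (nat_lit 76) (nat_lit 3761157910) (nat_lit 24) (nat_lit 4) (nat_lit 25) (nat_lit 5) (nat_lit 25) (nat_lit 4) (nat_lit 384) (nat_lit 342) (nat_lit 294)) (XT.nd (nat_lit 78) (nat_lit 76) (nat_lit 0) (XT.lf (nat_lit 0) (nat_lit 9018188982) (nat_lit 152) (nat_lit 9780862333) (nat_lit 76) (nat_lit 20558062788) (nat_lit 23) (nat_lit 5) (nat_lit 25) (nat_lit 5) (nat_lit 24) (nat_lit 4) (nat_lit 385) (nat_lit 342) (nat_lit 293)) (XT.lf (nat_lit 0) (nat_lit 18689480934) (nat_lit 76) (nat_lit 4240755199) (nat_lit 152) (nat_lit 18803561570) (nat_lit 22) (nat_lit 5) (nat_lit 23) (nat_lit 5) (nat_lit 24) (nat_lit 4) (nat_lit 386) (nat_lit 342) (nat_lit 292)))) (XT.nd (nat_lit 78) (nat_lit 152) (nat_lit 0) (XT.lf (nat_lit 0) (nat_lit 5390315232) (nat_lit 76) (nat_lit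 32951768862) (nat_lit 76) (nat_lit 5939196744) (nat_lit 21) (nat_lit 4) (nat_lit 22) (nat_lit 5) (nat_lit 22) (nat_lit 4) (nat_lit 387) (nat_lit 342) (nat_lit 291)) (XT.nd (nat_lit 78) (nat_lit 76) (nat_lit 0) (XT.lf (nat_lit 0) (nat_lit 8130960444) (nat_lit 152) (nat_lit 10384400901) (nat_lit 76) (nat_lit 28489436177) (nat_lit 20) (nat_lit 5) (nat_lit 22) (nat_lit 5) (nat_lit 21) (nat_lit 4) (nat_lit 388) (nat_lit 342) (nat_lit 290)) (XT.lf (nat_lit 0) (nat_lit 20885590978) (nat_lit 76) (nat_lit 2517225348) (nat_lit 152) (nat_lit 26524308157) (nat_lit 19) (nat_lit 5) (nat_lit 20) (nat_lit 5) (nat_lit 21) (nat_lit 4) (nat_lit 389) (nat_lit 342) (nat_lit 289)))))) (XT.nd (nat_lit 468) (nat_lit 304) (nat_lit 0) (XT.nd (nat_lit 234) (nat_lit 152) (nat_lit 0) (XT.nd (nat_lit 78) (nat_lit 152) (nat_lit 0) (XT.lf (nat_lit 0) (nat_lit 1691284207) (nat_lit 76) (nat_lit 38602581796) (nat_lit 76) (nat_lit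 12769504397) (nat_lit 18) (nat_lit 4) (nat_lit 19) (nat_lit 5) (nat_lit 19) (nat_lit 4) (nat_lit 390) (nat_lit 342) (nat_lit 288)) (XT.nd (nat_lit 78) (nat_lit 76) (nat_lit 0) (XT.lf (nat_lit 0) (nat_lit 2533560061) (nat_lit 152) (nat_lit 20669745566) (nat_lit 76) (nat_lit 33219855094) (nat_lit 17) (nat_lit 5) (nat_lit 19) (nat_lit 5) (nat_lit 18) (nat_lit 4) (nat_lit 391) (nat_lit 342) (nat_lit 287)) (XT.lf (nat_lit 0) (nat_lit 12601788701) (nat_lit 76) (nat_lit 6175548823) (nat_lit 152) (nat_lit 41255741620) (nat_lit 16) (nat_lit 5) (nat_lit 17) (nat_lit 5) (nat_lit 18) (nat_lit 4) (nat_lit 392) (nat_lit 342) (nat_lit 286)))) (XT.nd (nat_lit 78) (nat_lit 152) (nat_lit 0) (XT.lf (nat_lit 0) (nat_lit 36839612747) (nat_lit 152) (nat_lit 14910308320) (nat_lit 0) (nat_lit 12155924023) (nat_lit 16) (nat_lit 5) (nat_lit 18) (nat_lit 4) (nat_lit 16) (nat_lit 4) (nat_lit 393) (nat_lit 342) (nat_lit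 285)) (XT.nd (nat_lit 78) (nat_lit 76) (nat_lit 0) (XT.lf (nat_lit 0) (nat_lit 20703193911) (nat_lit 76) (nat_lit 36036169721) (nat_lit 76) (nat_lit 11329447543) (nat_lit 15) (nat_lit 4) (nat_lit 16) (nat_lit 5) (nat_lit 16) (nat_lit 4) (nat_lit 394) (nat_lit 342) (nat_lit 284)) (XT.lf (nat_lit 0) (nat_lit 5715060833) (nat_lit 152) (nat_lit 13012174742) (nat_lit 76) (nat_lit 53821651918) (nat_lit 14) (nat_lit 5) (nat_lit 16) (nat_lit 5) (nat_lit 15) (nat_lit 4) (nat_lit 395) (nat_lit 342) (nat_lit 283))))) (XT.nd (nat_lit 234) (nat_lit 152) (nat_lit 0) (XT.nd (nat_lit 78) (nat_lit 76) (nat_lit 0) (XT.lf (nat_lit 0) (nat_lit 24093090686) (nat_lit 152) (nat_lit 52742890934) (nat_lit 0) (nat_lit 523760283) (nat_lit 13) (nat_lit 5) (nat_lit 15) (nat_lit 4) (nat_lit 13) (nat_lit 4) (nat_lit 396) (nat_lit 342) (nat_lit 282)) (XT.nd (nat_lit 78) (nat_lit 76) (nat_lit 0) (XT.lf (nat_lit 0) (nat_lit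 44457144451) (nat_lit 152) (nat_lit 17202133770) (nat_lit 0) (nat_lit 20870400049) (nat_lit 13) (nat_lit 5) (nat_lit 15) (nat_lit 4) (nat_lit 13) (nat_lit 4) (nat_lit 397) (nat_lit 342) (nat_lit 281)) (XT.lf (nat_lit 0) (nat_lit 21825462487) (nat_lit 76) (nat_lit 44937493180) (nat_lit 76) (nat_lit 21334624705) (nat_lit 12) (nat_lit 4) (nat_lit 13) (nat_lit 5) (nat_lit 13) (nat_lit 4) (nat_lit 398) (nat_lit 342) (nat_lit 280)))) (XT.nd (nat_lit 78) (nat_lit 152) (nat_lit 0) (XT.lf (nat_lit 0) (nat_lit 64536965551) (nat_lit 76) (nat_lit 26589055058) (nat_lit 76) (nat_lit 2971256887) (nat_lit 12) (nat_lit 4) (nat_lit 13) (nat_lit 5) (nat_lit 13) (nat_lit 4) (nat_lit 399) (nat_lit 342) (nat_lit 279)) (XT.nd (nat_lit 78) (nat_lit 0) (nat_lit 0) (XT.lf (nat_lit 0) (nat_lit 10098889311) (nat_lit 76) (nat_lit 6355018628) (nat_lit 152) (nat_lit 84103262435) (nat_lit 10) (nat_lit 5) (nat_lit 11) (nat_lit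 5) (nat_lit 12) (nat_lit 4) (nat_lit 400) (nat_lit 342) (nat_lit 278)) (XT.lf (nat_lit 0) (nat_lit 38071194458) (nat_lit 152) (nat_lit 53870418765) (nat_lit 0) (nat_lit 15552697531) (nat_lit 10) (nat_lit 5) (nat_lit 12) (nat_lit 4) (nat_lit 10) (nat_lit 4) (nat_lit 401) (nat_lit 342) (nat_lit 277))))))) (XT.nd (nat_lit 936) (nat_lit 152) (nat_lit 0) (XT.nd (nat_lit 468) (nat_lit 152) (nat_lit 0) (XT.nd (nat_lit 234) (nat_lit 152) (nat_lit 0) (XT.nd (nat_lit 78) (nat_lit 76) (nat_lit 0) (XT.lf (nat_lit 0) (nat_lit 61502325861) (nat_lit 152) (nat_lit 14507333519) (nat_lit 0) (nat_lit 38972541626) (nat_lit 10) (nat_lit 5) (nat_lit 12) (nat_lit 4) (nat_lit 10) (nat_lit 4) (nat_lit 402) (nat_lit 342) (nat_lit 276)) (XT.nd (nat_lit 78) (nat_lit 0) (nat_lit 0) (XT.lf (nat_lit 0) (nat_lit 28888055230) (nat_lit 76) (nat_lit 58349901917) (nat_lit 76) (nat_lit 35809666470) (nat_lit 9) (nat_lit 4) (nat_lit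 10) (nat_lit 5) (nat_lit 10) (nat_lit 4) (nat_lit 403) (nat_lit 342) (nat_lit 275)) (XT.lf (nat_lit 0) (nat_lit 76233582439) (nat_lit 76) (nat_lit 39031489956) (nat_lit 76) (nat_lit 16481577460) (nat_lit 9) (nat_lit 4) (nat_lit 10) (nat_lit 5) (nat_lit 10) (nat_lit 4) (nat_lit 404) (nat_lit 342) (nat_lit 274)))) (XT.nd (nat_lit 78) (nat_lit 76) (nat_lit 0) (XT.lf (nat_lit 0) (nat_lit 4233269004) (nat_lit 152) (nat_lit 13880671267) (nat_lit 76) (nat_lit 123025174767) (nat_lit 8) (nat_lit 5) (nat_lit 10) (nat_lit 5) (nat_lit 9) (nat_lit 4) (nat_lit 405) (nat_lit 342) (nat_lit 273)) (XT.nd (nat_lit 78) (nat_lit 0) (nat_lit 0) (XT.lf (nat_lit 0) (nat_lit 26596708665) (nat_lit 152) (nat_lit 119540151977) (nat_lit 0) (nat_lit 5104166537) (nat_lit 7) (nat_lit 5) (nat_lit 9) (nat_lit 4) (nat_lit 7) (nat_lit 4) (nat_lit 406) (nat_lit 342) (nat_lit 272)) (XT.lf (nat_lit 0) (nat_lit 51283446234) (nat_lit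 152) (nat_lit 81057348087) (nat_lit 0) (nat_lit 29783587960) (nat_lit 7) (nat_lit 5) (nat_lit 9) (nat_lit 4) (nat_lit 7) (nat_lit 4) (nat_lit 407) (nat_lit 342) (nat_lit 271))))) (XT.nd (nat_lit 234) (nat_lit 76) (nat_lit 0) (XT.nd (nat_lit 78) (nat_lit 76) (nat_lit 0) (XT.lf (nat_lit 0) (nat_lit 77929412128) (nat_lit 152) (nat_lit 39527000596) (nat_lit 0) (nat_lit 56422779645) (nat_lit 7) (nat_lit 5) (nat_lit 9) (nat_lit 4) (nat_lit 7) (nat_lit 4) (nat_lit 408) (nat_lit 342) (nat_lit 270)) (XT.nd (nat_lit 78) (nat_lit 0) (nat_lit 0) (XT.lf (nat_lit 0) (nat_lit 5472138878) (nat_lit 76) (nat_lit 101305804911) (nat_lit 76) (nat_lit 79792900013) (nat_lit 6) (nat_lit 4) (nat_lit 7) (nat_lit 5) (nat_lit 7) (nat_lit 4) (nat_lit 409) (nat_lit 342) (nat_lit 269)) (XT.lf (nat_lit 0) (nat_lit 55455178192) (nat_lit 76) (nat_lit 83153815480) (nat_lit 76) (nat_lit 61635102789) (nat_lit 6) (nat_lit 4)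 (nat_lit 7) (nat_lit 5) (nat_lit 7) (nat_lit 4) (nat_lit 410) (nat_lit 342) (nat_lit 268)))) (XT.nd (nat_lit 78) (nat_lit 76) (nat_lit 0) (XT.lf (nat_lit 0) (nat_lit 109411371985) (nat_lit 76) (nat_lit 63562285965) (nat_lit 76) (nat_lit 42038195689) (nat_lit 6) (nat_lit 4) (nat_lit 7) (nat_lit 5) (nat_lit 7) (nat_lit 4) (nat_lit 411) (nat_lit 342) (nat_lit 267)) (XT.nd (nat_lit 78) (nat_lit 76) (nat_lit 0) (XT.lf (nat_lit 0) (nat_lit 167660460665) (nat_lit 76) (nat_lit 42415118415) (nat_lit 76) (nat_lit 20886048893) (nat_lit 6) (nat_lit 4) (nat_lit 7) (nat_lit 5) (nat_lit 7) (nat_lit 4) (nat_lit 412) (nat_lit 342) (nat_lit 266)) (XT.lf (nat_lit 0) (nat_lit 1884377619) (nat_lit 152) (nat_lit 17670705814) (nat_lit 76) (nat_lit 228631333551) (nat_lit 5) (nat_lit 5) (nat_lit 7) (nat_lit 5) (nat_lit 6) (nat_lit 4) (nat_lit 413) (nat_lit 342) (nat_lit 265)))))) (XT.nd (nat_lit 468) (nat_lit 76)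 (nat_lit 0) (XT.nd (nat_lit 234) (nat_lit 0) (nat_lit 0) (XT.nd (nat_lit 78) (nat_lit 0) (nat_lit 0) (XT.lf (nat_lit 0) (nat_lit 26341946804) (nat_lit 152) (nat_lit 234570645947) (nat_lit 0) (nat_lit 5829614580) (nat_lit 4) (nat_lit 5) (nat_lit 6) (nat_lit 4) (nat_lit 4) (nat_lit 4) (nat_lit 414) (nat_lit 342) (nat_lit 264)) (XT.nd (nat_lit 78) (nat_lit 0) (nat_lit 0) (XT.lf (nat_lit 0) (nat_lit 53388639441) (nat_lit 152) (nat_lit 200489653394) (nat_lit 0) (nat_lit 32872542754) (nat_lit 4) (nat_lit 5) (nat_lit 6) (nat_lit 4) (nat_lit 4) (nat_lit 4) (nat_lit 415) (nat_lit 342) (nat_lit 263)) (XT.lf (nat_lit 0) (nat_lit 82589738871) (nat_lit 152) (nat_lit 163700725634) (nat_lit 0) (nat_lit 62070156571) (nat_lit 4) (nat_lit 5) (nat_lit 6) (nat_lit 4) (nat_lit 4) (nat_lit 4) (nat_lit 416) (nat_lit 342) (nat_lit 262)))) (XT.nd (nat_lit 78) (nat_lit 0) (nat_lit 0) (XT.lf (nat_lit 0) (nat_lit 114118288646)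 (nat_lit 152) (nat_lit 123985854206) (nat_lit 0) (nat_lit 93595478926) (nat_lit 4) (nat_lit 5) (nat_lit 6) (nat_lit 4) (nat_lit 4) (nat_lit 4) (nat_lit 417) (nat_lit 342) (nat_lit 261)) (XT.nd (nat_lit 78) (nat_lit 0) (nat_lit 0) (XT.lf (nat_lit 0) (nat_lit 148161124617) (nat_lit 152) (nat_lit 81109691726) (nat_lit 0) (nat_lit 127635326544) (nat_lit 4) (nat_lit 5) (nat_lit 6) (nat_lit 4) (nat_lit 4) (nat_lit 4) (nat_lit 418) (nat_lit 342) (nat_lit 260)) (XT.lf (nat_lit 0) (nat_lit 184919982106) (nat_lit 152) (nat_lit 34818157230) (nat_lit 0) (nat_lit 164391417041) (nat_lit 4) (nat_lit 5) (nat_lit 6) (nat_lit 4) (nat_lit 4) (nat_lit 4) (nat_lit 419) (nat_lit 342) (nat_lit 259))))) (XT.nd (nat_lit 234) (nat_lit 0) (nat_lit 0) (XT.nd (nat_lit 78) (nat_lit 0) (nat_lit 0) (XT.lf (nat_lit 0) (nat_lit 15664429042) (nat_lit 76) (nat_lit 209192827977) (nat_lit 76) (nat_lit 188661700881) (nat_lit 3)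 (nat_lit 4) (nat_lit 4) (nat_lit 5) (nat_lit 4) (nat_lit 4) (nat_lit 420) (nat_lit 342) (nat_lit 258)) (XT.nd (nat_lit 78) (nat_lit 0) (nat_lit 0) (XT.lf (nat_lit 0) (nat_lit 71415929207) (nat_lit 76) (nat_lit 197173542090) (nat_lit 76) (nat_lit 176640042745) (nat_lit 3) (nat_lit 4) (nat_lit 4) (nat_lit 5) (nat_lit 4) (nat_lit 4) (nat_lit 421) (nat_lit 342) (nat_lit 257)) (XT.lf (nat_lit 0) (nat_lit 131615477003) (nat_lit 76) (nat_lit 184198718618) (nat_lit 76) (nat_lit 163663022745) (nat_lit 3) (nat_lit 4) (nat_lit 4) (nat_lit 5) (nat_lit 4) (nat_lit 4) (nat_lit 422) (nat_lit 342) (nat_lit 256)))) (XT.nd (nat_lit 156) (nat_lit 0) (nat_lit 0) (XT.nd (nat_lit 78) (nat_lit 0) (nat_lit 0) (XT.lf (nat_lit 0) (nat_lit 196619810492) (nat_lit 76) (nat_lit 170191469719) (nat_lit 76) (nat_lit 149653740024) (nat_lit 3) (nat_lit 4) (nat_lit 4) (nat_lit 5) (nat_lit 4) (nat_lit 4) (nat_lit 423) (nat_lit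 342) (nat_lit 255)) (XT.lf (nat_lit 0) (nat_lit 266814140538) (nat_lit 76) (nat_lit 155068789474) (nat_lit 76) (nat_lit 134529176610) (nat_lit 3) (nat_lit 4) (nat_lit 4) (nat_lit 5) (nat_lit 4) (nat_lit 4) (nat_lit 424) (nat_lit 342) (nat_lit 254))) (XT.nd (nat_lit 78) (nat_lit 0) (nat_lit 0) (XT.lf (nat_lit 0) (nat_lit 342614433541) (nat_lit 76) (nat_lit 138741061998) (nat_lit 76) (nat_lit 118199705460) (nat_lit 3) (nat_lit 4) (nat_lit 4) (nat_lit 5) (nat_lit 4) (nat_lit 4) (nat_lit 425) (nat_lit 342) (nat_lit 253)) (XT.lf (nat_lit 0) (nat_lit 424469876423) (nat_lit 76) (nat_lit 121111530389) (nat_lit 76) (nat_lit 100568559338) (nat_lit 3) (nat_lit 4) (nat_lit 4) (nat_lit 5) (nat_lit 4) (nat_lit 4) (nat_lit 426) (nat_lit 342) (nat_lit 252))))))))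
noncomputable def xc52 : XT := (XT.nd (nat_lit 47814) (nat_lit 0) (nat_lit 1900) (XT.nd (nat_lit 46878) (nat_lit 0) (nat_lit 6232) (XT.nd (nat_lit 468) (nat_lit 0) (nat_lit 0) (XT.nd (nat_lit 234) (nat_lit 152) (nat_lit 0) (XT.nd (nat_lit 78) (nat_lit 0) (nat_lit 0) (XT.lf (nat_lit 0) (nat_lit 512865538476) (nat_lit 76) (nat_lit 102075723349) (nat_lit 76) (nat_lit 81531257377) (nat_lit 3) (nat_lit 4) (nat_lit 4) (nat_lit 5) (nat_lit 4) (nat_lit 4) (nat_lit 427) (nat_lit 342) (nat_lit 251)) (XT.nd (nat_lit 78) (nat_lit 0) (nat_lit 0) (XT.lf (nat_lit 0) (nat_lit 608325245845) (nat_lit 76) (nat_lit 81520836094) (nat_lit 76) (nat_lit 60974985937) (nat_lit 3) (nat_lit 4) (nat_lit 4) (nat_lit 5) (nat_lit 4) (nat_lit 4) (nat_lit 428) (nat_lit 342) (nat_lit 250)) (XT.lf (nat_lit 0) (nat_lit 711414685684) (nat_lit 76) (nat_lit 59325061886) (nat_lit 76) (nat_lit 38777930076) (nat_lit 3) (nat_lit 4)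 (nat_lit 4) (nat_lit 5) (nat_lit 4) (nat_lit 4) (nat_lit 429) (nat_lit 342) (nat_lit 249)))) (XT.nd (nat_lit 78) (nat_lit 152) (nat_lit 0) (XT.lf (nat_lit 0) (nat_lit 822744758378) (nat_lit 76) (nat_lit 35356870210) (nat_lit 76) (nat_lit 14808551685) (nat_lit 3) (nat_lit 4) (nat_lit 4) (nat_lit 5) (nat_lit 4) (nat_lit 4) (nat_lit 430) (nat_lit 342) (nat_lit 248)) (XT.nd (nat_lit 78) (nat_lit 0) (nat_lit 0) (XT.lf (nat_lit 0) (nat_lit 1475265616) (nat_lit 76) (nat_lit 9268482165) (nat_lit 152) (nat_lit 930620689862) (nat_lit 1) (nat_lit 5) (nat_lit 2) (nat_lit 5) (nat_lit 3) (nat_lit 4) (nat_lit 431) (nat_lit 342) (nat_lit 247)) (XT.lf (nat_lit 0) (nat_lit 39008719495) (nat_lit 152) (nat_lit 956777935838) (nat_lit 0) (nat_lit 19436876872) (nat_lit 1) (nat_lit 5) (nat_lit 3) (nat_lit 4) (nat_lit 1) (nat_lit 4) (nat_lit 432) (nat_lit 342) (nat_lit 246))))) (XT.nd (nat_lit 46176) (nat_lit 0)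 (nat_lit 11172) (XT.nd (nat_lit 78) (nat_lit 0) (nat_lit 0) (XT.lf (nat_lit 0) (nat_lit 69688400388) (nat_lit 152) (nat_lit 975179617937) (nat_lit 0) (nat_lit 50115660572) (nat_lit 1) (nat_lit 5) (nat_lit 3) (nat_lit 4) (nat_lit 1) (nat_lit 4) (nat_lit 433) (nat_lit 342) (nat_lit 245)) (XT.nd (nat_lit 46020) (nat_lit 0) (nat_lit 11932) (XT.lf (nat_lit 0) (nat_lit 102819888996) (nat_lit 152) (nat_lit 995058558349) (nat_lit 0) (nat_lit 83246318445) (nat_lit 1) (nat_lit 5) (nat_lit 3) (nat_lit 4) (nat_lit 1) (nat_lit 4) (nat_lit 434) (nat_lit 342) (nat_lit 244)) (XT.lf (nat_lit 0) (nat_lit 2765139163) (nat_lit 380) (nat_lit 293066133) (nat_lit 380) (nat_lit 293066133) (nat_lit 158) (nat_lit 3) (nat_lit 163) (nat_lit 3) (nat_lit 163) (nat_lit 5) (nat_lit 343) (nat_lit 343) (nat_lit 334)))) (XT.nd (nat_lit 78) (nat_lit 380) (nat_lit 0) (XT.lf (nat_lit 0) (nat_lit 2221826375) (nat_lit 380) (nat_lit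 2092763664) (nat_lit 456) (nat_lit 2483479104) (nat_lit 153) (nat_lit 5) (nat_lit 158) (nat_lit 3) (nat_lit 159) (nat_lit 5) (nat_lit 344) (nat_lit 343) (nat_lit 333)) (XT.nd (nat_lit 78) (nat_lit 380) (nat_lit 0) (XT.lf (nat_lit 76) (nat_lit 3441432511) (nat_lit 0) (nat_lit 2133950526) (nat_lit 456) (nat_lit 1338786250) (nat_lit 154) (nat_lit 5) (nat_lit 153) (nat_lit 5) (nat_lit 159) (nat_lit 5) (nat_lit 345) (nat_lit 343) (nat_lit 332)) (XT.lf (nat_lit 0) (nat_lit 1849751691) (nat_lit 456) (nat_lit 4754556912) (nat_lit 532) (nat_lit 445809829) (nat_lit 148) (nat_lit 5) (nat_lit 154) (nat_lit 5) (nat_lit 155) (nat_lit 5) (nat_lit 346) (nat_lit 343) (nat_lit 331)))))) (XT.nd (nat_lit 468) (nat_lit 2584) (nat_lit 0) (XT.nd (nat_lit 234) (nat_lit 1824) (nat_lit 0) (XT.nd (nat_lit 78) (nat_lit 532) (nat_lit 0) (XT.lf (nat_lit 76) (nat_lit 1235058416) (nat_lit 0) (nat_lit 3832295060) (nat_lit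 532) (nat_lit 2137728524) (nat_lit 149) (nat_lit 5) (nat_lit 148) (nat_lit 5) (nat_lit 155) (nat_lit 5) (nat_lit 347) (nat_lit 343) (nat_lit 330)) (XT.nd (nat_lit 78) (nat_lit 0) (nat_lit 76) (XT.lf (nat_lit 76) (nat_lit 293894749) (nat_lit 0) (nat_lit 645027349) (nat_lit 608) (nat_lit 6442531987) (nat_lit 142) (nat_lit 5) (nat_lit 141) (nat_lit 5) (nat_lit 149) (nat_lit 5) (nat_lit 348) (nat_lit 343) (nat_lit 329)) (XT.lf (nat_lit 0) (nat_lit 4073891246) (nat_lit 532) (nat_lit 583086882) (nat_lit 76) (nat_lit 2919080195) (nat_lit 142) (nat_lit 5) (nat_lit 149) (nat_lit 5) (nat_lit 143) (nat_lit 5) (nat_lit 349) (nat_lit 343) (nat_lit 328)))) (XT.nd (nat_lit 78) (nat_lit 1368) (nat_lit 0) (XT.lf (nat_lit 0) (nat_lit 6445456794) (nat_lit 532) (nat_lit 881921651) (nat_lit 608) (nat_lit 465678213) (nat_lit 135) (nat_lit 5) (nat_lit 142) (nat_lit 5) (nat_lit 143) (nat_lit 5) (nat_lit 350) (nat_lit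 343) (nat_lit 327)) (XT.nd (nat_lit 78) (nat_lit 684) (nat_lit 0) (XT.lf (nat_lit 0) (nat_lit 2647883575) (nat_lit 684) (nat_lit 2098336303) (nat_lit 76) (nat_lit 3282974692) (nat_lit 126) (nat_lit 5) (nat_lit 135) (nat_lit 5) (nat_lit 127) (nat_lit 5) (nat_lit 351) (nat_lit 343) (nat_lit 326)) (XT.lf (nat_lit 0) (nat_lit 5515520354) (nat_lit 684) (nat_lit 386144480) (nat_lit 760) (nat_lit 2386977421) (nat_lit 117) (nat_lit 5) (nat_lit 126) (nat_lit 5) (nat_lit 127) (nat_lit 5) (nat_lit 352) (nat_lit 343) (nat_lit 325))))) (XT.nd (nat_lit 234) (nat_lit 1064) (nat_lit 0) (XT.nd (nat_lit 78) (nat_lit 684) (nat_lit 0) (XT.lf (nat_lit 0) (nat_lit 800204245) (nat_lit 836) (nat_lit 3436625930) (nat_lit 76) (nat_lit 4332486565) (nat_lit 106) (nat_lit 5) (nat_lit 117) (nat_lit 5) (nat_lit 107) (nat_lit 5) (nat_lit 353) (nat_lit 343) (nat_lit 324)) (XT.nd (nat_lit 78) (nat_lit 304) (nat_lit 0) (XT.lf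 (nat_lit 0) (nat_lit 4106542882) (nat_lit 456) (nat_lit 4073388308) (nat_lit 76) (nat_lit 693308123) (nat_lit 101) (nat_lit 5) (nat_lit 107) (nat_lit 5) (nat_lit 102) (nat_lit 5) (nat_lit 354) (nat_lit 343) (nat_lit 323)) (XT.lf (nat_lit 0) (nat_lit 4495312203) (nat_lit 304) (nat_lit 3200834723) (nat_lit 380) (nat_lit 1504521588) (nat_lit 97) (nat_lit 5) (nat_lit 101) (nat_lit 5) (nat_lit 102) (nat_lit 5) (nat_lit 355) (nat_lit 343) (nat_lit 322)))) (XT.nd (nat_lit 78) (nat_lit 608) (nat_lit 0) (XT.lf (nat_lit 0) (nat_lit 1953089699) (nat_lit 456) (nat_lit 5336547492) (nat_lit 76) (nat_lit 2263240768) (nat_lit 91) (nat_lit 5) (nat_lit 97) (nat_lit 5) (nat_lit 92) (nat_lit 5) (nat_lit 356) (nat_lit 343) (nat_lit 321)) (XT.nd (nat_lit 78) (nat_lit 304) (nat_lit 0) (XT.lf (nat_lit 0) (nat_lit 3943366698) (nat_lit 304) (nat_lit 1724662794) (nat_lit 380) (nat_lit 4262436666) (nat_lit 87) (nat_lit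 5) (nat_lit 91) (nat_lit 5) (nat_lit 92) (nat_lit 5) (nat_lit 357) (nat_lit 343) (nat_lit 320)) (XT.lf (nat_lit 0) (nat_lit 3680082425) (nat_lit 304) (nat_lit 6061803338) (nat_lit 380) (nat_lit 593388425) (nat_lit 83) (nat_lit 5) (nat_lit 87) (nat_lit 5) (nat_lit 88) (nat_lit 5) (nat_lit 358) (nat_lit 343) (nat_lit 319))))))) (XT.nd (nat_lit 936) (nat_lit 1672) (nat_lit 0) (XT.nd (nat_lit 468) (nat_lit 988) (nat_lit 0) (XT.nd (nat_lit 234) (nat_lit 760) (nat_lit 0) (XT.nd (nat_lit 78) (nat_lit 608) (nat_lit 0) (XT.lf (nat_lit 0) (nat_lit 3300349724) (nat_lit 304) (nat_lit 7365591682) (nat_lit 76) (nat_lit 102032447) (nat_lit 79) (nat_lit 5) (nat_lit 83) (nat_lit 5) (nat_lit 80) (nat_lit 5) (nat_lit 359) (nat_lit 343) (nat_lit 318)) (XT.nd (nat_lit 78) (nat_lit 304) (nat_lit 0) (XT.lf (nat_lit 0) (nat_lit 3069807364) (nat_lit 304) (nat_lit 4540131308) (nat_lit 380) (nat_lit 3618688081) (nat_lit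 75) (nat_lit 5) (nat_lit 79) (nat_lit 5) (nat_lit 80) (nat_lit 5) (nat_lit 360) (nat_lit 343) (nat_lit 317)) (XT.lf (nat_lit 0) (nat_lit 591807623) (nat_lit 304) (nat_lit 8980433243) (nat_lit 76) (nat_lit 2149998607) (nat_lit 71) (nat_lit 5) (nat_lit 75) (nat_lit 5) (nat_lit 72) (nat_lit 5) (nat_lit 361) (nat_lit 343) (nat_lit 316)))) (XT.nd (nat_lit 78) (nat_lit 532) (nat_lit 0) (XT.lf (nat_lit 0) (nat_lit 2310205125) (nat_lit 228) (nat_lit 2830077140) (nat_lit 304) (nat_lit 7105762680) (nat_lit 68) (nat_lit 5) (nat_lit 71) (nat_lit 5) (nat_lit 72) (nat_lit 5) (nat_lit 362) (nat_lit 343) (nat_lit 315)) (XT.nd (nat_lit 78) (nat_lit 304) (nat_lit 0) (XT.lf (nat_lit 0) (nat_lit 1828278835) (nat_lit 228) (nat_lit 8356756252) (nat_lit 304) (nat_lit 2620160773) (nat_lit 65) (nat_lit 5) (nat_lit 68) (nat_lit 5) (nat_lit 69) (nat_lit 5) (nat_lit 363) (nat_lit 343) (nat_lit 314)) (XT.lf (nat_lit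 0) (nat_lit 1267937661) (nat_lit 228) (nat_lit 1008516777) (nat_lit 304) (nat_lit 11124774031) (nat_lit 61) (nat_lit 5) (nat_lit 64) (nat_lit 5) (nat_lit 65) (nat_lit 5) (nat_lit 364) (nat_lit 343) (nat_lit 313))))) (XT.nd (nat_lit 234) (nat_lit 532) (nat_lit 0) (XT.nd (nat_lit 78) (nat_lit 304) (nat_lit 0) (XT.lf (nat_lit 0) (nat_lit 538181843) (nat_lit 152) (nat_lit 7132316272) (nat_lit 228) (nat_lit 6362472872) (nat_lit 59) (nat_lit 5) (nat_lit 61) (nat_lit 5) (nat_lit 62) (nat_lit 5) (nat_lit 365) (nat_lit 343) (nat_lit 312)) (XT.nd (nat_lit 78) (nat_lit 304) (nat_lit 0) (XT.lf (nat_lit 0) (nat_lit 13628833248) (nat_lit 228) (nat_lit 248705640) (nat_lit 76) (nat_lit 831121751) (nat_lit 59) (nat_lit 5) (nat_lit 62) (nat_lit 5) (nat_lit 60) (nat_lit 5) (nat_lit 366) (nat_lit 343) (nat_lit 311)) (XT.lf (nat_lit 0) (nat_lit 4722331214) (nat_lit 304) (nat_lit 1267228835) (nat_lit 76) (nat_lit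 9433028089) (nat_lit 55) (nat_lit 5) (nat_lit 59) (nat_lit 5) (nat_lit 56) (nat_lit 5) (nat_lit 367) (nat_lit 343) (nat_lit 310)))) (XT.nd (nat_lit 78) (nat_lit 380) (nat_lit 0) (XT.lf (nat_lit 0) (nat_lit 11115746066) (nat_lit 228) (nat_lit 2432195024) (nat_lit 76) (nat_lit 2636595536) (nat_lit 53) (nat_lit 5) (nat_lit 56) (nat_lit 5) (nat_lit 54) (nat_lit 5) (nat_lit 368) (nat_lit 343) (nat_lit 309)) (XT.nd (nat_lit 78) (nat_lit 152) (nat_lit 0) (XT.lf (nat_lit 0) (nat_lit 1220023841) (nat_lit 228) (nat_lit 3833136141) (nat_lit 76) (nat_lit 11941560324) (nat_lit 50) (nat_lit 5) (nat_lit 53) (nat_lit 5) (nat_lit 51) (nat_lit 5) (nat_lit 369) (nat_lit 343) (nat_lit 308)) (XT.lf (nat_lit 0) (nat_lit 8051294761) (nat_lit 228) (nat_lit 5541745619) (nat_lit 76) (nat_lit 4261707454) (nat_lit 48) (nat_lit 5) (nat_lit 51) (nat_lit 5) (nat_lit 49) (nat_lit 5) (nat_lit 370) (nat_lit 343) (nat_lit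 307)))))) (XT.nd (nat_lit 468) (nat_lit 836) (nat_lit 0) (XT.nd (nat_lit 234) (nat_lit 304) (nat_lit 0) (XT.nd (nat_lit 78) (nat_lit 380) (nat_lit 0) (XT.lf (nat_lit 0) (nat_lit 11236548205) (nat_lit 152) (nat_lit 4434080010) (nat_lit 228) (nat_lit 3100899781) (nat_lit 46) (nat_lit 5) (nat_lit 48) (nat_lit 5) (nat_lit 49) (nat_lit 5) (nat_lit 371) (nat_lit 343) (nat_lit 306)) (XT.nd (nat_lit 78) (nat_lit 152) (nat_lit 0) (XT.lf (nat_lit 0) (nat_lit 4263720250) (nat_lit 228) (nat_lit 9931213290) (nat_lit 76) (nat_lit 5550596976) (nat_lit 43) (nat_lit 5) (nat_lit 46) (nat_lit 5) (nat_lit 44) (nat_lit 5) (nat_lit 372) (nat_lit 343) (nat_lit 305)) (XT.lf (nat_lit 0) (nat_lit 8019360073) (nat_lit 152) (nat_lit 4343567966) (nat_lit 228) (nat_lit 8419303801) (nat_lit 41) (nat_lit 5) (nat_lit 43) (nat_lit 5) (nat_lit 44) (nat_lit 5) (nat_lit 373) (nat_lit 343) (nat_lit 304)))) (XT.nd (nat_lit 78)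 (nat_lit 228) (nat_lit 0) (XT.lf (nat_lit 0) (nat_lit 5817609262) (nat_lit 76) (nat_lit 15579714707) (nat_lit 152) (nat_lit 490204252) (nat_lit 40) (nat_lit 5) (nat_lit 41) (nat_lit 5) (nat_lit 42) (nat_lit 4) (nat_lit 374) (nat_lit 343) (nat_lit 303)) (XT.nd (nat_lit 78) (nat_lit 0) (nat_lit 0) (XT.lf (nat_lit 0) (nat_lit 3032789433) (nat_lit 152) (nat_lit 5053401116) (nat_lit 228) (nat_lit 14975206424) (nat_lit 37) (nat_lit 5) (nat_lit 39) (nat_lit 5) (nat_lit 40) (nat_lit 5) (nat_lit 375) (nat_lit 343) (nat_lit 302)) (XT.lf (nat_lit 0) (nat_lit 17642428272) (nat_lit 228) (nat_lit 317601062) (nat_lit 76) (nat_lit 6353216379) (nat_lit 37) (nat_lit 5) (nat_lit 40) (nat_lit 5) (nat_lit 38) (nat_lit 4) (nat_lit 376) (nat_lit 343) (nat_lit 301))))) (XT.nd (nat_lit 234) (nat_lit 456) (nat_lit 0) (XT.nd (nat_lit 78) (nat_lit 228) (nat_lit 0) (XT.lf (nat_lit 0) (nat_lit 2583223155) (nat_lit 152)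 (nat_lit 4236590784) (nat_lit 76) (nat_lit 18825707645) (nat_lit 35) (nat_lit 5) (nat_lit 37) (nat_lit 5) (nat_lit 36) (nat_lit 5) (nat_lit 377) (nat_lit 343) (nat_lit 300)) (XT.nd (nat_lit 78) (nat_lit 76) (nat_lit 0) (XT.lf (nat_lit 0) (nat_lit 12658256996) (nat_lit 228) (nat_lit 9001455390) (nat_lit 76) (nat_lit 5403494460) (nat_lit 33) (nat_lit 5) (nat_lit 36) (nat_lit 5) (nat_lit 34) (nat_lit 4) (nat_lit 378) (nat_lit 343) (nat_lit 299)) (XT.lf (nat_lit 0) (nat_lit 13920670713) (nat_lit 76) (nat_lit 9963336795) (nat_lit 152) (nat_lit 4693077013) (nat_lit 32) (nat_lit 5) (nat_lit 33) (nat_lit 5) (nat_lit 34) (nat_lit 4) (nat_lit 379) (nat_lit 343) (nat_lit 298)))) (XT.nd (nat_lit 156) (nat_lit 152) (nat_lit 0) (XT.nd (nat_lit 78) (nat_lit 76) (nat_lit 0) (XT.lf (nat_lit 0) (nat_lit 5894753878) (nat_lit 228) (nat_lit 21368603490) (nat_lit 76) (nat_lit 2929976956) (nat_lit 29) (nat_lit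 5) (nat_lit 32) (nat_lit 5) (nat_lit 30) (nat_lit 4) (nat_lit 380) (nat_lit 343) (nat_lit 297)) (XT.lf (nat_lit 0) (nat_lit 2502648101) (nat_lit 76) (nat_lit 15072729519) (nat_lit 152) (nat_lit 14339161111) (nat_lit 28) (nat_lit 5) (nat_lit 29) (nat_lit 5) (nat_lit 30) (nat_lit 4) (nat_lit 381) (nat_lit 343) (nat_lit 296))) (XT.nd (nat_lit 78) (nat_lit 152) (nat_lit 0) (XT.lf (nat_lit 0) (nat_lit 28943591710) (nat_lit 76) (nat_lit 1563243082) (nat_lit 152) (nat_lit 3250795571) (nat_lit 28) (nat_lit 5) (nat_lit 29) (nat_lit 5) (nat_lit 30) (nat_lit 4) (nat_lit 382) (nat_lit 343) (nat_lit 295)) (XT.lf (nat_lit 0) (nat_lit 8950514842) (nat_lit 152) (nat_lit 13707526388) (nat_lit 76) (nat_lit 13058070223) (nat_lit 26) (nat_lit 5) (nat_lit 28) (nat_lit 5) (nat_lit 27) (nat_lit 4) (nat_lit 383) (nat_lit 343) (nat_lit 294))))))))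
noncomputable def xc53 : XT := (XT.nd (nat_lit 1872) (nat_lit 456) (nat_lit 0) (XT.nd (nat_lit 936) (nat_lit 608) (nat_lit 0) (XT.nd (nat_lit 468) (nat_lit 380) (nat_lit 0) (XT.nd (nat_lit 234) (nat_lit 228) (nat_lit 0) (XT.nd (nat_lit 78) (nat_lit 152) (nat_lit 0) (XT.lf (nat_lit 0) (nat_lit 13579108737) (nat_lit 76) (nat_lit 8709260676) (nat_lit 152) (nat_lit 15526528667) (nat_lit 25) (nat_lit 5) (nat_lit 26) (nat_lit 5) (nat_lit 27) (nat_lit 4) (nat_lit 384) (nat_lit 343) (nat_lit 293)) (XT.nd (nat_lit 78) (nat_lit 76) (nat_lit 0) (XT.lf (nat_lit 0) (nat_lit 3381136686) (nat_lit 76) (nat_lit 33657717616) (nat_lit 76) (nat_lit 3025460833) (nat_lit 24) (nat_lit 4) (nat_lit 25) (nat_lit 5) (nat_lit 25) (nat_lit 4) (nat_lit 385) (nat_lit 343) (nat_lit 292)) (XT.lf (nat_lit 0) (nat_lit 10668729625) (nat_lit 152) (nat_lit 8807058634) (nat_lit 76) (nat_lit 22983310008) (nat_lit 23) (nat_lit 5)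 (nat_lit 25) (nat_lit 5) (nat_lit 24) (nat_lit 4) (nat_lit 386) (nat_lit 343) (nat_lit 291)))) (XT.nd (nat_lit 78) (nat_lit 152) (nat_lit 0) (XT.lf (nat_lit 0) (nat_lit 21864586624) (nat_lit 76) (nat_lit 3786561458) (nat_lit 152) (nat_lit 19376907778) (nat_lit 22) (nat_lit 5) (nat_lit 23) (nat_lit 5) (nat_lit 24) (nat_lit 4) (nat_lit 387) (nat_lit 343) (nat_lit 290)) (XT.nd (nat_lit 78) (nat_lit 76) (nat_lit 0) (XT.lf (nat_lit 0) (nat_lit 7459143638) (nat_lit 76) (nat_lit 34808172074) (nat_lit 76) (nat_lit 5513462304) (nat_lit 21) (nat_lit 4) (nat_lit 22) (nat_lit 5) (nat_lit 22) (nat_lit 4) (nat_lit 388) (nat_lit 343) (nat_lit 289)) (XT.lf (nat_lit 0) (nat_lit 9588878676) (nat_lit 152) (nat_lit 9672057261) (nat_lit 76) (nat_lit 31463774513) (nat_lit 20) (nat_lit 5) (nat_lit 22) (nat_lit 5) (nat_lit 21) (nat_lit 4) (nat_lit 389) (nat_lit 343) (nat_lit 288))))) (XT.nd (nat_lit 234) (nat_lit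 152) (nat_lit 0) (XT.nd (nat_lit 78) (nat_lit 152) (nat_lit 0) (XT.lf (nat_lit 0) (nat_lit 24032472909) (nat_lit 76) (nat_lit 2013244683) (nat_lit 152) (nat_lit 27836951566) (nat_lit 19) (nat_lit 5) (nat_lit 20) (nat_lit 5) (nat_lit 21) (nat_lit 4) (nat_lit 390) (nat_lit 343) (nat_lit 287)) (XT.nd (nat_lit 78) (nat_lit 76) (nat_lit 0) (XT.lf (nat_lit 0) (nat_lit 3264887573) (nat_lit 76) (nat_lit 40998729341) (nat_lit 76) (nat_lit 13007426327) (nat_lit 18) (nat_lit 4) (nat_lit 19) (nat_lit 5) (nat_lit 19) (nat_lit 4) (nat_lit 391) (nat_lit 343) (nat_lit 286)) (XT.lf (nat_lit 0) (nat_lit 3438612549) (nat_lit 152) (nat_lit 20968267222) (nat_lit 76) (nat_lit 36494940724) (nat_lit 17) (nat_lit 5) (nat_lit 19) (nat_lit 5) (nat_lit 18) (nat_lit 4) (nat_lit 392) (nat_lit 343) (nat_lit 285)))) (XT.nd (nat_lit 78) (nat_lit 76) (nat_lit 0) (XT.lf (nat_lit 0) (nat_lit 14906100617) (nat_lit 76) (nat_lit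 6044001184) (nat_lit 152) (nat_lit 43852025645) (nat_lit 16) (nat_lit 5) (nat_lit 17) (nat_lit 5) (nat_lit 18) (nat_lit 4) (nat_lit 393) (nat_lit 343) (nat_lit 284)) (XT.nd (nat_lit 78) (nat_lit 76) (nat_lit 0) (XT.lf (nat_lit 0) (nat_lit 40416730390) (nat_lit 152) (nat_lit 14880911123) (nat_lit 0) (nat_lit 13689109712) (nat_lit 16) (nat_lit 5) (nat_lit 18) (nat_lit 4) (nat_lit 16) (nat_lit 4) (nat_lit 394) (nat_lit 343) (nat_lit 283)) (XT.lf (nat_lit 0) (nat_lit 23528555015) (nat_lit 76) (nat_lit 38351496485) (nat_lit 76) (nat_lit 11604128333) (nat_lit 15) (nat_lit 4) (nat_lit 16) (nat_lit 5) (nat_lit 16) (nat_lit 4) (nat_lit 395) (nat_lit 343) (nat_lit 282)))))) (XT.nd (nat_lit 468) (nat_lit 228) (nat_lit 0) (XT.nd (nat_lit 234) (nat_lit 228) (nat_lit 0) (XT.nd (nat_lit 78) (nat_lit 76) (nat_lit 0) (XT.lf (nat_lit 0) (nat_lit 6738430022) (nat_lit 152) (nat_lit 12951871304) (nat_lit 76)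 (nat_lit 58634136659) (nat_lit 14) (nat_lit 5) (nat_lit 16) (nat_lit 5) (nat_lit 15) (nat_lit 4) (nat_lit 396) (nat_lit 343) (nat_lit 281)) (XT.nd (nat_lit 78) (nat_lit 0) (nat_lit 0) (XT.lf (nat_lit 0) (nat_lit 26569216335) (nat_lit 152) (nat_lit 55889828271) (nat_lit 0) (nat_lit 1061994311) (nat_lit 13) (nat_lit 5) (nat_lit 15) (nat_lit 4) (nat_lit 13) (nat_lit 4) (nat_lit 397) (nat_lit 343) (nat_lit 280)) (XT.lf (nat_lit 0) (nat_lit 48521751557) (nat_lit 152) (nat_lit 17585254529) (nat_lit 0) (nat_lit 22999599836) (nat_lit 13) (nat_lit 5) (nat_lit 15) (nat_lit 4) (nat_lit 13) (nat_lit 4) (nat_lit 398) (nat_lit 343) (nat_lit 279)))) (XT.nd (nat_lit 78) (nat_lit 152) (nat_lit 0) (XT.lf (nat_lit 0) (nat_lit 24521392687) (nat_lit 76) (nat_lit 48067833214) (nat_lit 76) (nat_lit 22531857700) (nat_lit 12) (nat_lit 4) (nat_lit 13) (nat_lit 5) (nat_lit 13) (nat_lit 4) (nat_lit 399) (nat_lit 343)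 (nat_lit 278)) (XT.nd (nat_lit 78) (nat_lit 152) (nat_lit 0) (XT.lf (nat_lit 0) (nat_lit 70579453538) (nat_lit 76) (nat_lit 28285939260) (nat_lit 76) (nat_lit 2737163937) (nat_lit 12) (nat_lit 4) (nat_lit 13) (nat_lit 5) (nat_lit 13) (nat_lit 4) (nat_lit 400) (nat_lit 343) (nat_lit 277)) (XT.lf (nat_lit 0) (nat_lit 11762586974) (nat_lit 76) (nat_lit 6443858865) (nat_lit 152) (nat_lit 90373453006) (nat_lit 10) (nat_lit 5) (nat_lit 11) (nat_lit 5) (nat_lit 12) (nat_lit 4) (nat_lit 401) (nat_lit 343) (nat_lit 276))))) (XT.nd (nat_lit 234) (nat_lit 152) (nat_lit 0) (XT.nd (nat_lit 78) (nat_lit 76) (nat_lit 0) (XT.lf (nat_lit 0) (nat_lit 41526867600) (nat_lit 152) (nat_lit 57373495647) (nat_lit 0) (nat_lit 17172962105) (nat_lit 10) (nat_lit 5) (nat_lit 12) (nat_lit 4) (nat_lit 10) (nat_lit 4) (nat_lit 402) (nat_lit 343) (nat_lit 275)) (XT.nd (nat_lit 78) (nat_lit 76) (nat_lit 0) (XT.lf (nat_lit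 0) (nat_lit 66802120806) (nat_lit 152) (nat_lit 14921108516) (nat_lit 0) (nat_lit 42438538262) (nat_lit 10) (nat_lit 5) (nat_lit 12) (nat_lit 4) (nat_lit 10) (nat_lit 4) (nat_lit 403) (nat_lit 343) (nat_lit 274)) (XT.lf (nat_lit 0) (nat_lit 31913455808) (nat_lit 76) (nat_lit 62666180713) (nat_lit 76) (nat_lit 38293637940) (nat_lit 9) (nat_lit 4) (nat_lit 10) (nat_lit 5) (nat_lit 10) (nat_lit 4) (nat_lit 404) (nat_lit 343) (nat_lit 273)))) (XT.nd (nat_lit 78) (nat_lit 152) (nat_lit 0) (XT.lf (nat_lit 0) (nat_lit 82993709922) (nat_lit 76) (nat_lit 41828348636) (nat_lit 76) (nat_lit 17447509353) (nat_lit 9) (nat_lit 4) (nat_lit 10) (nat_lit 5) (nat_lit 10) (nat_lit 4) (nat_lit 405) (nat_lit 343) (nat_lit 272)) (XT.nd (nat_lit 78) (nat_lit 76) (nat_lit 0) (XT.lf (nat_lit 0) (nat_lit 4887957453) (nat_lit 152) (nat_lit 14368208455) (nat_lit 76) (nat_lit 133158255017) (nat_lit 8) (nat_lit 5) (nat_lit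 10) (nat_lit 5) (nat_lit 9) (nat_lit 4) (nat_lit 406) (nat_lit 343) (nat_lit 271)) (XT.lf (nat_lit 0) (nat_lit 29030954694) (nat_lit 152) (nat_lit 128496991448) (nat_lit 0) (nat_lit 5797017403) (nat_lit 7) (nat_lit 5) (nat_lit 9) (nat_lit 4) (nat_lit 7) (nat_lit 4) (nat_lit 407) (nat_lit 343) (nat_lit 270))))))) (XT.nd (nat_lit 936) (nat_lit 228) (nat_lit 0) (XT.nd (nat_lit 468) (nat_lit 152) (nat_lit 0) (XT.nd (nat_lit 234) (nat_lit 0) (nat_lit 0) (XT.nd (nat_lit 78) (nat_lit 76) (nat_lit 0) (XT.lf (nat_lit 0) (nat_lit 55669926873) (nat_lit 152) (nat_lit 86980479742) (nat_lit 0) (nat_lit 32429717167) (nat_lit 7) (nat_lit 5) (nat_lit 9) (nat_lit 4) (nat_lit 7) (nat_lit 4) (nat_lit 408) (nat_lit 343) (nat_lit 269)) (XT.nd (nat_lit 78) (nat_lit 76) (nat_lit 0) (XT.lf (nat_lit 0) (nat_lit 84426547450) (nat_lit 152) (nat_lit 42169293799) (nat_lit 0) (nat_lit 61180529951) (nat_lit 7) (nat_lit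 5) (nat_lit 9) (nat_lit 4) (nat_lit 7) (nat_lit 4) (nat_lit 409) (nat_lit 343) (nat_lit 268)) (XT.lf (nat_lit 0) (nat_lit 6407184053) (nat_lit 76) (nat_lit 109164076074) (nat_lit 76) (nat_lit 85912680990) (nat_lit 6) (nat_lit 4) (nat_lit 7) (nat_lit 5) (nat_lit 7) (nat_lit 4) (nat_lit 410) (nat_lit 343) (nat_lit 267)))) (XT.nd (nat_lit 78) (nat_lit 0) (nat_lit 0) (XT.lf (nat_lit 0) (nat_lit 60352031396) (nat_lit 76) (nat_lit 89578164023) (nat_lit 76) (nat_lit 66321789694) (nat_lit 6) (nat_lit 4) (nat_lit 7) (nat_lit 5) (nat_lit 7) (nat_lit 4) (nat_lit 411) (nat_lit 343) (nat_lit 266)) (XT.nd (nat_lit 78) (nat_lit 0) (nat_lit 0) (XT.lf (nat_lit 0) (nat_lit 118590614104) (nat_lit 76) (nat_lit 68436197829) (nat_lit 76) (nat_lit 45175213086) (nat_lit 6) (nat_lit 4) (nat_lit 7) (nat_lit 5) (nat_lit 7) (nat_lit 4) (nat_lit 412) (nat_lit 343) (nat_lit 265)) (XT.lf (nat_lit 0) (nat_lit 181468049704)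 (nat_lit 76) (nat_lit 45612891764) (nat_lit 76) (nat_lit 22347638121) (nat_lit 6) (nat_lit 4) (nat_lit 7) (nat_lit 5) (nat_lit 7) (nat_lit 4) (nat_lit 413) (nat_lit 343) (nat_lit 264))))) (XT.nd (nat_lit 234) (nat_lit 0) (nat_lit 0) (XT.nd (nat_lit 78) (nat_lit 76) (nat_lit 0) (XT.lf (nat_lit 0) (nat_lit 2222716668) (nat_lit 152) (nat_lit 18712637158) (nat_lit 76) (nat_lit 247096585770) (nat_lit 5) (nat_lit 5) (nat_lit 7) (nat_lit 5) (nat_lit 6) (nat_lit 4) (nat_lit 414) (nat_lit 343) (nat_lit 263)) (XT.nd (nat_lit 78) (nat_lit 0) (nat_lit 0) (XT.lf (nat_lit 0) (nat_lit 28631300305) (nat_lit 152) (nat_lit 252974507452) (nat_lit 0) (nat_lit 6466665806) (nat_lit 4) (nat_lit 5) (nat_lit 6) (nat_lit 4) (nat_lit 4) (nat_lit 4) (nat_lit 415) (nat_lit 343) (nat_lit 262)) (XT.lf (nat_lit 0) (nat_lit 57828247038) (nat_lit 152) (nat_lit 216193834766) (nat_lit 0) (nat_lit 35660385119) (nat_lit 4) (nat_lit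 5) (nat_lit 6) (nat_lit 4) (nat_lit 4) (nat_lit 4) (nat_lit 416) (nat_lit 343) (nat_lit 261)))) (XT.nd (nat_lit 78) (nat_lit 0) (nat_lit 0) (XT.lf (nat_lit 0) (nat_lit 89352951723) (nat_lit 152) (nat_lit 176486606926) (nat_lit 0) (nat_lit 67182101453) (nat_lit 4) (nat_lit 5) (nat_lit 6) (nat_lit 4) (nat_lit 4) (nat_lit 4) (nat_lit 417) (nat_lit 343) (nat_lit 260)) (XT.nd (nat_lit 78) (nat_lit 0) (nat_lit 0) (XT.lf (nat_lit 0) (nat_lit 123392227425) (nat_lit 152) (nat_lit 133617521841) (nat_lit 0) (nat_lit 101218610162) (nat_lit 4) (nat_lit 5) (nat_lit 6) (nat_lit 4) (nat_lit 4) (nat_lit 4) (nat_lit 418) (nat_lit 343) (nat_lit 259)) (XT.lf (nat_lit 0) (nat_lit 160147788370) (nat_lit 152) (nat_lit 87332540488) (nat_lit 0) (nat_lit 137971609077) (nat_lit 4) (nat_lit 5) (nat_lit 6) (nat_lit 4) (nat_lit 4) (nat_lit 4) (nat_lit 419) (nat_lit 343) (nat_lit 258)))))) (XT.nd (nat_lit 468) (nat_lit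 152) (nat_lit 0) (XT.nd (nat_lit 234) (nat_lit 0) (nat_lit 0) (XT.nd (nat_lit 78) (nat_lit 76) (nat_lit 0) (XT.lf (nat_lit 0) (nat_lit 199837445290) (nat_lit 152) (nat_lit 37357381497) (nat_lit 0) (nat_lit 177658893747) (nat_lit 4) (nat_lit 5) (nat_lit 6) (nat_lit 4) (nat_lit 4) (nat_lit 4) (nat_lit 420) (nat_lit 343) (nat_lit 257)) (XT.nd (nat_lit 78) (nat_lit 0) (nat_lit 0) (XT.lf (nat_lit 0) (nat_lit 17153110895) (nat_lit 76) (nat_lit 225811093389) (nat_lit 76) (nat_lit 203630345318) (nat_lit 3) (nat_lit 4) (nat_lit 4) (nat_lit 5) (nat_lit 4) (nat_lit 4) (nat_lit 421) (nat_lit 343) (nat_lit 256)) (XT.lf (nat_lit 0) (nat_lit 77347284589) (nat_lit 76) (nat_lit 212838943211) (nat_lit 76) (nat_lit 190656161318) (nat_lit 3) (nat_lit 4) (nat_lit 4) (nat_lit 5) (nat_lit 4) (nat_lit 4) (nat_lit 422) (nat_lit 343) (nat_lit 255)))) (XT.nd (nat_lit 78) (nat_lit 0) (nat_lit 0) (XT.lf (nat_lit 0) (nat_lit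 142346642058) (nat_lit 76) (nat_lit 198834169583) (nat_lit 76) (nat_lit 176649504522) (nat_lit 3) (nat_lit 4) (nat_lit 4) (nat_lit 5) (nat_lit 4) (nat_lit 4) (nat_lit 423) (nat_lit 343) (nat_lit 254)) (XT.nd (nat_lit 78) (nat_lit 0) (nat_lit 0) (XT.lf (nat_lit 0) (nat_lit 212536364677) (nat_lit 76) (nat_lit 183713781256) (nat_lit 76) (nat_lit 161527372520) (nat_lit 3) (nat_lit 4) (nat_lit 4) (nat_lit 5) (nat_lit 4) (nat_lit 4) (nat_lit 424) (nat_lit 343) (nat_lit 253)) (XT.lf (nat_lit 0) (nat_lit 288332391546) (nat_lit 76) (nat_lit 167388175927) (nat_lit 76) (nat_lit 145200152677) (nat_lit 3) (nat_lit 4) (nat_lit 4) (nat_lit 5) (nat_lit 4) (nat_lit 4) (nat_lit 425) (nat_lit 343) (nat_lit 252))))) (XT.nd (nat_lit 234) (nat_lit 152) (nat_lit 0) (XT.nd (nat_lit 78) (nat_lit 0) (nat_lit 0) (XT.lf (nat_lit 0) (nat_lit 370183884303) (nat_lit 76) (nat_lit 149760609269) (nat_lit 76) (nat_lit 127571091099)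 (nat_lit 3) (nat_lit 4) (nat_lit 4) (nat_lit 5) (nat_lit 4) (nat_lit 4) (nat_lit 426) (nat_lit 343) (nat_lit 251)) (XT.nd (nat_lit 78) (nat_lit 0) (nat_lit 0) (XT.lf (nat_lit 0) (nat_lit 458575888833) (nat_lit 76) (nat_lit 130726621627) (nat_lit 76) (nat_lit 108535719272) (nat_lit 3) (nat_lit 4) (nat_lit 4) (nat_lit 5) (nat_lit 4) (nat_lit 4) (nat_lit 427) (nat_lit 343) (nat_lit 250)) (XT.lf (nat_lit 0) (nat_lit 554032209606) (nat_lit 76) (nat_lit 110173419000) (nat_lit 76) (nat_lit 87981234993) (nat_lit 3) (nat_lit 4) (nat_lit 4) (nat_lit 5) (nat_lit 4) (nat_lit 4) (nat_lit 428) (nat_lit 343) (nat_lit 249)))) (XT.nd (nat_lit 156) (nat_lit 152) (nat_lit 0) (XT.nd (nat_lit 78) (nat_lit 0) (nat_lit 0) (XT.lf (nat_lit 0) (nat_lit 657118513708) (nat_lit 76) (nat_lit 87979204633) (nat_lit 76) (nat_lit 65785833910) (nat_lit 3) (nat_lit 4) (nat_lit 4) (nat_lit 5) (nat_lit 4) (nat_lit 4) (nat_lit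 429) (nat_lit 343) (nat_lit 248)) (XT.lf (nat_lit 0) (nat_lit 768445682942) (nat_lit 76) (nat_lit 64012457254) (nat_lit 76) (nat_lit 41817987720) (nat_lit 3) (nat_lit 4) (nat_lit 4) (nat_lit 5) (nat_lit 4) (nat_lit 4) (nat_lit 430) (nat_lit 343) (nat_lit 247))) (XT.nd (nat_lit 78) (nat_lit 152) (nat_lit 0) (XT.lf (nat_lit 0) (nat_lit 888673433866) (nat_lit 76) (nat_lit 38131151695) (nat_lit 76) (nat_lit 15935664744) (nat_lit 3) (nat_lit 4) (nat_lit 4) (nat_lit 5) (nat_lit 4) (nat_lit 4) (nat_lit 431) (nat_lit 343) (nat_lit 246)) (XT.lf (nat_lit 0) (nat_lit 1699405894) (nat_lit 76) (nat_lit 9957098934) (nat_lit 152) (nat_lit 1005014422271) (nat_lit 1) (nat_lit 5) (nat_lit 2) (nat_lit 5) (nat_lit 3) (nat_lit 4) (nat_lit 432) (nat_lit 343) (nat_lit 245))))))))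
noncomputable def xc54 : XT := (XT.nd (nat_lit 47892) (nat_lit 0) (nat_lit 1444) (XT.nd (nat_lit 46956) (nat_lit 0) (nat_lit 4560) (XT.nd (nat_lit 46488) (nat_lit 0) (nat_lit 7980) (XT.nd (nat_lit 46254) (nat_lit 0) (nat_lit 10564) (XT.nd (nat_lit 78) (nat_lit 0) (nat_lit 0) (XT.lf (nat_lit 0) (nat_lit 42179493485) (nat_lit 152) (nat_lit 1033220208424) (nat_lit 0) (nat_lit 21039206555) (nat_lit 1) (nat_lit 5) (nat_lit 3) (nat_lit 4) (nat_lit 1) (nat_lit 4) (nat_lit 433) (nat_lit 343) (nat_lit 244)) (XT.nd (nat_lit 46098) (nat_lit 0) (nat_lit 11552) (XT.lf (nat_lit 0) (nat_lit 75309839484) (nat_lit 152) (nat_lit 1053101429705) (nat_lit 0) (nat_lit 54168783356) (nat_lit 1) (nat_lit 5) (nat_lit 3) (nat_lit 4) (nat_lit 1) (nat_lit 4) (nat_lit 434) (nat_lit 343) (nat_lit 243)) (XT.lf (nat_lit 0) (nat_lit 1338564679) (nat_lit 0) (nat_lit 1338564679) (nat_lit 380) (nat_lit 774896737) (nat_lit 153)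 (nat_lit 5) (nat_lit 153) (nat_lit 3) (nat_lit 158) (nat_lit 3) (nat_lit 344) (nat_lit 344) (nat_lit 332)))) (XT.nd (nat_lit 78) (nat_lit 456) (nat_lit 0) (XT.lf (nat_lit 76) (nat_lit 1165215542) (nat_lit 0) (nat_lit 242034077) (nat_lit 532) (nat_lit 5623050591) (nat_lit 147) (nat_lit 5) (nat_lit 146) (nat_lit 3) (nat_lit 153) (nat_lit 5) (nat_lit 345) (nat_lit 344) (nat_lit 331)) (XT.nd (nat_lit 78) (nat_lit 532) (nat_lit 0) (XT.lf (nat_lit 0) (nat_lit 4363980344) (nat_lit 456) (nat_lit 265400956) (nat_lit 532) (nat_lit 2545405505) (nat_lit 147) (nat_lit 5) (nat_lit 153) (nat_lit 5) (nat_lit 154) (nat_lit 5) (nat_lit 346) (nat_lit 344) (nat_lit 330)) (XT.lf (nat_lit 0) (nat_lit 37073388) (nat_lit 532) (nat_lit 1541174005) (nat_lit 608) (nat_lit 5761760061) (nat_lit 140) (nat_lit 5) (nat_lit 147) (nat_lit 5) (nat_lit 148) (nat_lit 5) (nat_lit 347) (nat_lit 344) (nat_lit 329))))) (XT.nd (nat_lit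 234) (nat_lit 2128) (nat_lit 0) (XT.nd (nat_lit 78) (nat_lit 532) (nat_lit 0) (XT.lf (nat_lit 0) (nat_lit 2865131535) (nat_lit 532) (nat_lit 2776769672) (nat_lit 608) (nat_lit 1881928090) (nat_lit 141) (nat_lit 5) (nat_lit 148) (nat_lit 5) (nat_lit 149) (nat_lit 5) (nat_lit 348) (nat_lit 344) (nat_lit 328)) (XT.nd (nat_lit 78) (nat_lit 532) (nat_lit 0) (XT.lf (nat_lit 76) (nat_lit 3794251717) (nat_lit 0) (nat_lit 1996274881) (nat_lit 608) (nat_lit 1938487462) (nat_lit 142) (nat_lit 5) (nat_lit 141) (nat_lit 5) (nat_lit 149) (nat_lit 5) (nat_lit 349) (nat_lit 344) (nat_lit 327)) (XT.lf (nat_lit 0) (nat_lit 864952603) (nat_lit 608) (nat_lit 5042791433) (nat_lit 76) (nat_lit 2047396297) (nat_lit 134) (nat_lit 5) (nat_lit 142) (nat_lit 5) (nat_lit 135) (nat_lit 5) (nat_lit 350) (nat_lit 344) (nat_lit 326)))) (XT.nd (nat_lit 78) (nat_lit 1520) (nat_lit 0) (XT.lf (nat_lit 0) (nat_lit 2073624030)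 (nat_lit 608) (nat_lit 1672432263) (nat_lit 684) (nat_lit 4455819235) (nat_lit 126) (nat_lit 5) (nat_lit 134) (nat_lit 5) (nat_lit 135) (nat_lit 5) (nat_lit 351) (nat_lit 344) (nat_lit 325)) (XT.nd (nat_lit 78) (nat_lit 836) (nat_lit 0) (XT.lf (nat_lit 0) (nat_lit 1289855361) (nat_lit 684) (nat_lit 5521025291) (nat_lit 760) (nat_lit 1659967384) (nat_lit 117) (nat_lit 5) (nat_lit 126) (nat_lit 5) (nat_lit 127) (nat_lit 5) (nat_lit 352) (nat_lit 344) (nat_lit 324)) (XT.lf (nat_lit 0) (nat_lit 551902554) (nat_lit 760) (nat_lit 716949987) (nat_lit 836) (nat_lit 7493924972) (nat_lit 106) (nat_lit 5) (nat_lit 116) (nat_lit 5) (nat_lit 117) (nat_lit 5) (nat_lit 353) (nat_lit 344) (nat_lit 323)))))) (XT.nd (nat_lit 468) (nat_lit 1596) (nat_lit 0) (XT.nd (nat_lit 234) (nat_lit 1064) (nat_lit 0) (XT.nd (nat_lit 78) (nat_lit 760) (nat_lit 0) (XT.lf (nat_lit 0) (nat_lit 4390788656) (nat_lit 836) (nat_lit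 192190527) (nat_lit 76) (nat_lit 4493003885) (nat_lit 106) (nat_lit 5) (nat_lit 117) (nat_lit 5) (nat_lit 107) (nat_lit 5) (nat_lit 354) (nat_lit 344) (nat_lit 322)) (XT.nd (nat_lit 78) (nat_lit 380) (nat_lit 0) (XT.lf (nat_lit 0) (nat_lit 7753723845) (nat_lit 456) (nat_lit 865342059) (nat_lit 76) (nat_lit 795738004) (nat_lit 101) (nat_lit 5) (nat_lit 107) (nat_lit 5) (nat_lit 102) (nat_lit 5) (nat_lit 355) (nat_lit 344) (nat_lit 321)) (XT.lf (nat_lit 0) (nat_lit 1606086903) (nat_lit 380) (nat_lit 1568884755) (nat_lit 76) (nat_lit 6601987990) (nat_lit 96) (nat_lit 5) (nat_lit 101) (nat_lit 5) (nat_lit 97) (nat_lit 5) (nat_lit 356) (nat_lit 344) (nat_lit 320)))) (XT.nd (nat_lit 78) (nat_lit 684) (nat_lit 0) (XT.lf (nat_lit 0) (nat_lit 5110220251) (nat_lit 456) (nat_lit 2281111859) (nat_lit 76) (nat_lit 2773803579) (nat_lit 91) (nat_lit 5) (nat_lit 97) (nat_lit 5) (nat_lit 92) (nat_lit 5) (nat_lit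 357) (nat_lit 344) (nat_lit 319)) (XT.nd (nat_lit 78) (nat_lit 380) (nat_lit 0) (XT.lf (nat_lit 0) (nat_lit 7589856369) (nat_lit 304) (nat_lit 1362217764) (nat_lit 380) (nat_lit 1629513706) (nat_lit 87) (nat_lit 5) (nat_lit 91) (nat_lit 5) (nat_lit 92) (nat_lit 5) (nat_lit 358) (nat_lit 344) (nat_lit 318)) (XT.lf (nat_lit 0) (nat_lit 2105117936) (nat_lit 380) (nat_lit 3770038613) (nat_lit 76) (nat_lit 5149592045) (nat_lit 82) (nat_lit 5) (nat_lit 87) (nat_lit 5) (nat_lit 83) (nat_lit 5) (nat_lit 359) (nat_lit 344) (nat_lit 317))))) (XT.nd (nat_lit 234) (nat_lit 760) (nat_lit 0) (XT.nd (nat_lit 78) (nat_lit 608) (nat_lit 0) (XT.lf (nat_lit 0) (nat_lit 6149541647) (nat_lit 304) (nat_lit 4575878183) (nat_lit 76) (nat_lit 773275851) (nat_lit 79) (nat_lit 5) (nat_lit 83) (nat_lit 5) (nat_lit 80) (nat_lit 5) (nat_lit 360) (nat_lit 344) (nat_lit 316)) (XT.nd (nat_lit 78) (nat_lit 304) (nat_lit 0)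 (XT.lf (nat_lit 0) (nat_lit 6547507266) (nat_lit 304) (nat_lit 4115359196) (nat_lit 380) (nat_lit 1340493903) (nat_lit 75) (nat_lit 5) (nat_lit 79) (nat_lit 5) (nat_lit 80) (nat_lit 5) (nat_lit 361) (nat_lit 344) (nat_lit 315)) (XT.lf (nat_lit 0) (nat_lit 3002875162) (nat_lit 304) (nat_lit 6421451697) (nat_lit 76) (nat_lit 3116315245) (nat_lit 71) (nat_lit 5) (nat_lit 75) (nat_lit 5) (nat_lit 72) (nat_lit 5) (nat_lit 362) (nat_lit 344) (nat_lit 314)))) (XT.nd (nat_lit 78) (nat_lit 532) (nat_lit 0) (XT.lf (nat_lit 0) (nat_lit 5630005226) (nat_lit 228) (nat_lit 2159077843) (nat_lit 304) (nat_lit 5323664357) (nat_lit 68) (nat_lit 5) (nat_lit 71) (nat_lit 5) (nat_lit 72) (nat_lit 5) (nat_lit 363) (nat_lit 344) (nat_lit 313)) (XT.nd (nat_lit 78) (nat_lit 304) (nat_lit 0) (XT.lf (nat_lit 0) (nat_lit 5067951244) (nat_lit 228) (nat_lit 8064988301) (nat_lit 304) (nat_lit 588996343) (nat_lit 65) (nat_lit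 5) (nat_lit 68) (nat_lit 5) (nat_lit 69) (nat_lit 5) (nat_lit 364) (nat_lit 344) (nat_lit 312)) (XT.lf (nat_lit 0) (nat_lit 4397878716) (nat_lit 228) (nat_lit 116362975) (nat_lit 304) (nat_lit 9855401548) (nat_lit 61) (nat_lit 5) (nat_lit 64) (nat_lit 5) (nat_lit 65) (nat_lit 5) (nat_lit 365) (nat_lit 344) (nat_lit 311))))))) (XT.nd (nat_lit 936) (nat_lit 1216) (nat_lit 0) (XT.nd (nat_lit 468) (nat_lit 912) (nat_lit 0) (XT.nd (nat_lit 234) (nat_lit 380) (nat_lit 0) (XT.nd (nat_lit 78) (nat_lit 456) (nat_lit 0) (XT.lf (nat_lit 0) (nat_lit 3562776199) (nat_lit 152) (nat_lit 6685374532) (nat_lit 228) (nat_lit 4808423997) (nat_lit 59) (nat_lit 5) (nat_lit 61) (nat_lit 5) (nat_lit 62) (nat_lit 5) (nat_lit 366) (nat_lit 344) (nat_lit 310)) (XT.nd (nat_lit 78) (nat_lit 152) (nat_lit 0) (XT.lf (nat_lit 0) (nat_lit 777268465) (nat_lit 304) (nat_lit 13149368240) (nat_lit 76) (nat_lit 1863584549) (nat_lit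 55) (nat_lit 5) (nat_lit 59) (nat_lit 5) (nat_lit 56) (nat_lit 5) (nat_lit 367) (nat_lit 344) (nat_lit 309)) (XT.lf (nat_lit 0) (nat_lit 1451370090) (nat_lit 152) (nat_lit 5440443912) (nat_lit 228) (nat_lit 9674315972) (nat_lit 53) (nat_lit 5) (nat_lit 55) (nat_lit 5) (nat_lit 56) (nat_lit 5) (nat_lit 368) (nat_lit 344) (nat_lit 308)))) (XT.nd (nat_lit 78) (nat_lit 228) (nat_lit 0) (XT.lf (nat_lit 0) (nat_lit 98782010) (nat_lit 152) (nat_lit 13602383432) (nat_lit 228) (nat_lit 3692696128) (nat_lit 51) (nat_lit 5) (nat_lit 53) (nat_lit 5) (nat_lit 54) (nat_lit 5) (nat_lit 369) (nat_lit 344) (nat_lit 307)) (XT.nd (nat_lit 78) (nat_lit 152) (nat_lit 0) (XT.lf (nat_lit 0) (nat_lit 2954326895) (nat_lit 228) (nat_lit 1481035544) (nat_lit 76) (nat_lit 13836544878) (nat_lit 50) (nat_lit 5) (nat_lit 53) (nat_lit 5) (nat_lit 51) (nat_lit 5) (nat_lit 370) (nat_lit 344) (nat_lit 306)) (XT.lf (nat_lit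 0) (nat_lit 10265994922) (nat_lit 228) (nat_lit 3379032939) (nat_lit 76) (nat_lit 5559055566) (nat_lit 48) (nat_lit 5) (nat_lit 51) (nat_lit 5) (nat_lit 49) (nat_lit 5) (nat_lit 371) (nat_lit 344) (nat_lit 305))))) (XT.nd (nat_lit 234) (nat_lit 380) (nat_lit 0) (XT.nd (nat_lit 78) (nat_lit 380) (nat_lit 0) (XT.lf (nat_lit 0) (nat_lit 14628268532) (nat_lit 152) (nat_lit 3789185572) (nat_lit 228) (nat_lit 1780661050) (nat_lit 46) (nat_lit 5) (nat_lit 48) (nat_lit 5) (nat_lit 49) (nat_lit 5) (nat_lit 372) (nat_lit 344) (nat_lit 304)) (XT.nd (nat_lit 78) (nat_lit 152) (nat_lit 0) (XT.lf (nat_lit 0) (nat_lit 6063909627) (nat_lit 228) (nat_lit 8235642424) (nat_lit 76) (nat_lit 6952246302) (nat_lit 43) (nat_lit 5) (nat_lit 46) (nat_lit 5) (nat_lit 44) (nat_lit 5) (nat_lit 373) (nat_lit 344) (nat_lit 303)) (XT.lf (nat_lit 0) (nat_lit 11042761490) (nat_lit 152) (nat_lit 3697399071) (nat_lit 228) (nat_lit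 7634851006) (nat_lit 41) (nat_lit 5) (nat_lit 43) (nat_lit 5) (nat_lit 44) (nat_lit 5) (nat_lit 374) (nat_lit 344) (nat_lit 302)))) (XT.nd (nat_lit 78) (nat_lit 228) (nat_lit 0) (XT.lf (nat_lit 0) (nat_lit 845891600) (nat_lit 152) (nat_lit 14971723899) (nat_lit 76) (nat_lit 7753066945) (nat_lit 39) (nat_lit 5) (nat_lit 41) (nat_lit 5) (nat_lit 40) (nat_lit 5) (nat_lit 375) (nat_lit 344) (nat_lit 301)) (XT.nd (nat_lit 78) (nat_lit 76) (nat_lit 0) (XT.lf (nat_lit 0) (nat_lit 5547698098) (nat_lit 152) (nat_lit 4478612059) (nat_lit 228) (nat_lit 14815019810) (nat_lit 37) (nat_lit 5) (nat_lit 39) (nat_lit 5) (nat_lit 40) (nat_lit 5) (nat_lit 376) (nat_lit 344) (nat_lit 300)) (XT.lf (nat_lit 0) (nat_lit 1866717456) (nat_lit 76) (nat_lit 18427833335) (nat_lit 152) (nat_lit 5901424142) (nat_lit 36) (nat_lit 5) (nat_lit 37) (nat_lit 5) (nat_lit 38) (nat_lit 4) (nat_lit 377) (nat_lit 344) (nat_lit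 299)))))) (XT.nd (nat_lit 468) (nat_lit 608) (nat_lit 0) (XT.nd (nat_lit 234) (nat_lit 304) (nat_lit 0) (XT.nd (nat_lit 78) (nat_lit 228) (nat_lit 0) (XT.lf (nat_lit 0) (nat_lit 3963006729) (nat_lit 152) (nat_lit 2479925455) (nat_lit 76) (nat_lit 21195315560) (nat_lit 35) (nat_lit 5) (nat_lit 37) (nat_lit 5) (nat_lit 36) (nat_lit 5) (nat_lit 378) (nat_lit 344) (nat_lit 298)) (XT.nd (nat_lit 78) (nat_lit 76) (nat_lit 0) (XT.lf (nat_lit 0) (nat_lit 14802289770) (nat_lit 228) (nat_lit 7674783379) (nat_lit 76) (nat_lit 6694381559) (nat_lit 33) (nat_lit 5) (nat_lit 36) (nat_lit 5) (nat_lit 34) (nat_lit 4) (nat_lit 379) (nat_lit 344) (nat_lit 297)) (XT.lf (nat_lit 0) (nat_lit 16992161881) (nat_lit 76) (nat_lit 9880700423) (nat_lit 152) (nat_lit 3936259978) (nat_lit 32) (nat_lit 5) (nat_lit 33) (nat_lit 5) (nat_lit 34) (nat_lit 4) (nat_lit 380) (nat_lit 344) (nat_lit 296)))) (XT.nd (nat_lit 78)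 (nat_lit 76) (nat_lit 0) (XT.lf (nat_lit 0) (nat_lit 7424428073) (nat_lit 228) (nat_lit 21131519227) (nat_lit 76) (nat_lit 3999753052) (nat_lit 29) (nat_lit 5) (nat_lit 32) (nat_lit 5) (nat_lit 30) (nat_lit 4) (nat_lit 381) (nat_lit 344) (nat_lit 295)) (XT.nd (nat_lit 78) (nat_lit 0) (nat_lit 0) (XT.lf (nat_lit 0) (nat_lit 4564836821) (nat_lit 76) (nat_lit 15425358246) (nat_lit 152) (nat_lit 14426885898) (nat_lit 28) (nat_lit 5) (nat_lit 29) (nat_lit 5) (nat_lit 30) (nat_lit 4) (nat_lit 382) (nat_lit 344) (nat_lit 294)) (XT.lf (nat_lit 0) (nat_lit 32983131706) (nat_lit 76) (nat_lit 898312126) (nat_lit 152) (nat_lit 2529925789) (nat_lit 28) (nat_lit 5) (nat_lit 29) (nat_lit 5) (nat_lit 30) (nat_lit 4) (nat_lit 383) (nat_lit 344) (nat_lit 293))))) (XT.nd (nat_lit 234) (nat_lit 304) (nat_lit 0) (XT.nd (nat_lit 78) (nat_lit 152) (nat_lit 0) (XT.lf (nat_lit 0) (nat_lit 10584058746) (nat_lit 152)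 (nat_lit 13091479822) (nat_lit 76) (nat_lit 14851838466) (nat_lit 26) (nat_lit 5) (nat_lit 28) (nat_lit 5) (nat_lit 27) (nat_lit 4) (nat_lit 384) (nat_lit 344) (nat_lit 292)) (XT.nd (nat_lit 78) (nat_lit 76) (nat_lit 0) (XT.lf (nat_lit 0) (nat_lit 16303656489) (nat_lit 76) (nat_lit 8642899220) (nat_lit 152) (nat_lit 15849641157) (nat_lit 25) (nat_lit 5) (nat_lit 26) (nat_lit 5) (nat_lit 27) (nat_lit 4) (nat_lit 385) (nat_lit 344) (nat_lit 291)) (XT.lf (nat_lit 0) (nat_lit 5249240800) (nat_lit 76) (nat_lit 35598989980) (nat_lit 76) (nat_lit 2378789100) (nat_lit 24) (nat_lit 4) (nat_lit 25) (nat_lit 5) (nat_lit 25) (nat_lit 4) (nat_lit 386) (nat_lit 344) (nat_lit 290)))) (XT.nd (nat_lit 156) (nat_lit 152) (nat_lit 0) (XT.nd (nat_lit 78) (nat_lit 76) (nat_lit 0) (XT.lf (nat_lit 0) (nat_lit 12318769082) (nat_lit 152) (nat_lit 8005902573) (nat_lit 76) (nat_lit 25491215376) (nat_lit 23) (nat_lit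 5) (nat_lit 25) (nat_lit 5) (nat_lit 24) (nat_lit 4) (nat_lit 387) (nat_lit 344) (nat_lit 289)) (XT.lf (nat_lit 0) (nat_lit 25054037517) (nat_lit 76) (nat_lit 3409227324) (nat_lit 152) (nat_lit 20128930497) (nat_lit 22) (nat_lit 5) (nat_lit 23) (nat_lit 5) (nat_lit 24) (nat_lit 4) (nat_lit 388) (nat_lit 344) (nat_lit 288))) (XT.nd (nat_lit 78) (nat_lit 76) (nat_lit 0) (XT.lf (nat_lit 0) (nat_lit 9459855915) (nat_lit 76) (nat_lit 36924325929) (nat_lit 76) (nat_lit 5182188312) (nat_lit 21) (nat_lit 4) (nat_lit 22) (nat_lit 5) (nat_lit 22) (nat_lit 4) (nat_lit 389) (nat_lit 344) (nat_lit 287)) (XT.lf (nat_lit 0) (nat_lit 11048239824) (nat_lit 152) (nat_lit 9122865985) (nat_lit 76) (nat_lit 34576884225) (nat_lit 20) (nat_lit 5) (nat_lit 22) (nat_lit 5) (nat_lit 21) (nat_lit 4) (nat_lit 390) (nat_lit 344) (nat_lit 286))))))))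
noncomputable def xc55 : XT := (XT.nd (nat_lit 1872) (nat_lit 380) (nat_lit 0) (XT.nd (nat_lit 936) (nat_lit 304) (nat_lit 0) (XT.nd (nat_lit 468) (nat_lit 380) (nat_lit 0) (XT.nd (nat_lit 234) (nat_lit 152) (nat_lit 0) (XT.nd (nat_lit 78) (nat_lit 152) (nat_lit 0) (XT.lf (nat_lit 0) (nat_lit 27220532549) (nat_lit 76) (nat_lit 1569572868) (nat_lit 152) (nat_lit 29370062319) (nat_lit 19) (nat_lit 5) (nat_lit 20) (nat_lit 5) (nat_lit 21) (nat_lit 4) (nat_lit 391) (nat_lit 344) (nat_lit 285)) (XT.nd (nat_lit 78) (nat_lit 76) (nat_lit 0) (XT.lf (nat_lit 0) (nat_lit 4759189544) (nat_lit 76) (nat_lit 43685298642) (nat_lit 76) (nat_lit 13376176794) (nat_lit 18) (nat_lit 4) (nat_lit 19) (nat_lit 5) (nat_lit 19) (nat_lit 4) (nat_lit 392) (nat_lit 344) (nat_lit 284)) (XT.lf (nat_lit 0) (nat_lit 4315868634) (nat_lit 152) (nat_lit 21483984782) (nat_lit 76) (nat_lit 39943940323) (nat_lit 17) (nat_lit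 5) (nat_lit 19) (nat_lit 5) (nat_lit 18) (nat_lit 4) (nat_lit 393) (nat_lit 344) (nat_lit 283)))) (XT.nd (nat_lit 78) (nat_lit 76) (nat_lit 0) (XT.lf (nat_lit 0) (nat_lit 17209844514) (nat_lit 76) (nat_lit 5991177361) (nat_lit 152) (nat_lit 46756470872) (nat_lit 16) (nat_lit 5) (nat_lit 17) (nat_lit 5) (nat_lit 18) (nat_lit 4) (nat_lit 394) (nat_lit 344) (nat_lit 282)) (XT.nd (nat_lit 78) (nat_lit 76) (nat_lit 0) (XT.lf (nat_lit 0) (nat_lit 44190148230) (nat_lit 152) (nat_lit 15023525762) (nat_lit 0) (nat_lit 15264958454) (nat_lit 16) (nat_lit 5) (nat_lit 18) (nat_lit 4) (nat_lit 16) (nat_lit 4) (nat_lit 395) (nat_lit 344) (nat_lit 281)) (XT.lf (nat_lit 0) (nat_lit 26413159024) (nat_lit 76) (nat_lit 40933019141) (nat_lit 76) (nat_lit 11990899089) (nat_lit 15) (nat_lit 4) (nat_lit 16) (nat_lit 5) (nat_lit 16) (nat_lit 4) (nat_lit 396) (nat_lit 344) (nat_lit 280))))) (XT.nd (nat_lit 234) (nat_lit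 228) (nat_lit 0) (XT.nd (nat_lit 78) (nat_lit 76) (nat_lit 0) (XT.lf (nat_lit 0) (nat_lit 7762899076) (nat_lit 152) (nat_lit 13043853126) (nat_lit 76) (nat_lit 63759326257) (nat_lit 14) (nat_lit 5) (nat_lit 16) (nat_lit 5) (nat_lit 15) (nat_lit 4) (nat_lit 397) (nat_lit 344) (nat_lit 279)) (XT.nd (nat_lit 78) (nat_lit 0) (nat_lit 0) (XT.lf (nat_lit 0) (nat_lit 29165156929) (nat_lit 152) (nat_lit 59441523846) (nat_lit 0) (nat_lit 1572479581) (nat_lit 13) (nat_lit 5) (nat_lit 15) (nat_lit 4) (nat_lit 13) (nat_lit 4) (nat_lit 398) (nat_lit 344) (nat_lit 278)) (XT.lf (nat_lit 0) (nat_lit 52839050281) (nat_lit 152) (nat_lit 18140694626) (nat_lit 0) (nat_lit 25233573124) (nat_lit 13) (nat_lit 5) (nat_lit 15) (nat_lit 4) (nat_lit 13) (nat_lit 4) (nat_lit 399) (nat_lit 344) (nat_lit 277)))) (XT.nd (nat_lit 78) (nat_lit 152) (nat_lit 0) (XT.lf (nat_lit 0) (nat_lit 27297484419) (nat_lit 76) (nat_lit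 51514889313) (nat_lit 76) (nat_lit 23897560481) (nat_lit 12) (nat_lit 4) (nat_lit 13) (nat_lit 5) (nat_lit 13) (nat_lit 4) (nat_lit 400) (nat_lit 344) (nat_lit 276)) (XT.nd (nat_lit 78) (nat_lit 152) (nat_lit 0) (XT.lf (nat_lit 0) (nat_lit 76979865670) (nat_lit 76) (nat_lit 30179952772) (nat_lit 76) (nat_lit 2551650168) (nat_lit 12) (nat_lit 4) (nat_lit 13) (nat_lit 5) (nat_lit 13) (nat_lit 4) (nat_lit 401) (nat_lit 344) (nat_lit 275)) (XT.lf (nat_lit 0) (nat_lit 13437292937) (nat_lit 76) (nat_lit 6599661424) (nat_lit 152) (nat_lit 97210607691) (nat_lit 10) (nat_lit 5) (nat_lit 11) (nat_lit 5) (nat_lit 12) (nat_lit 4) (nat_lit 402) (nat_lit 344) (nat_lit 274)))))) (XT.nd (nat_lit 468) (nat_lit 76) (nat_lit 0) (XT.nd (nat_lit 234) (nat_lit 152) (nat_lit 0) (XT.nd (nat_lit 78) (nat_lit 76) (nat_lit 0) (XT.lf (nat_lit 0) (nat_lit 45200506708) (nat_lit 152) (nat_lit 61271882998) (nat_lit 0) (nat_lit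 18869200283) (nat_lit 10) (nat_lit 5) (nat_lit 12) (nat_lit 4) (nat_lit 10) (nat_lit 4) (nat_lit 403) (nat_lit 344) (nat_lit 273)) (XT.nd (nat_lit 78) (nat_lit 76) (nat_lit 0) (XT.lf (nat_lit 0) (nat_lit 72471743896) (nat_lit 152) (nat_lit 15474526548) (nat_lit 0) (nat_lit 46132140962) (nat_lit 10) (nat_lit 5) (nat_lit 12) (nat_lit 4) (nat_lit 10) (nat_lit 4) (nat_lit 404) (nat_lit 344) (nat_lit 272)) (XT.lf (nat_lit 0) (nat_lit 35078977539) (nat_lit 76) (nat_lit 67377937655) (nat_lit 76) (nat_lit 41030652768) (nat_lit 9) (nat_lit 4) (nat_lit 10) (nat_lit 5) (nat_lit 10) (nat_lit 4) (nat_lit 405) (nat_lit 344) (nat_lit 271)))) (XT.nd (nat_lit 78) (nat_lit 152) (nat_lit 0) (XT.lf (nat_lit 0) (nat_lit 90200285667) (nat_lit 76) (nat_lit 44895415124) (nat_lit 76) (nat_lit 18541017317) (nat_lit 9) (nat_lit 4) (nat_lit 10) (nat_lit 5) (nat_lit 10) (nat_lit 4) (nat_lit 406) (nat_lit 344) (nat_lit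 270)) (XT.nd (nat_lit 78) (nat_lit 76) (nat_lit 0) (XT.lf (nat_lit 0) (nat_lit 5549936204) (nat_lit 152) (nat_lit 14983614623) (nat_lit 76) (nat_lit 144060457830) (nat_lit 8) (nat_lit 5) (nat_lit 10) (nat_lit 5) (nat_lit 9) (nat_lit 4) (nat_lit 407) (nat_lit 344) (nat_lit 269)) (XT.lf (nat_lit 0) (nat_lit 31616213421) (nat_lit 152) (nat_lit 138256883919) (nat_lit 0) (nat_lit 6504706731) (nat_lit 7) (nat_lit 5) (nat_lit 9) (nat_lit 4) (nat_lit 7) (nat_lit 4) (nat_lit 408) (nat_lit 344) (nat_lit 268))))) (XT.nd (nat_lit 234) (nat_lit 0) (nat_lit 0) (XT.nd (nat_lit 78) (nat_lit 76) (nat_lit 0) (XT.lf (nat_lit 0) (nat_lit 60366838015) (nat_lit 152) (nat_lit 93457559932) (nat_lit 0) (nat_lit 35249953739) (nat_lit 7) (nat_lit 5) (nat_lit 9) (nat_lit 4) (nat_lit 7) (nat_lit 4) (nat_lit 409) (nat_lit 344) (nat_lit 267)) (XT.nd (nat_lit 78) (nat_lit 76) (nat_lit 0) (XT.lf (nat_lit 0) (nat_lit 91405964757)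 (nat_lit 152) (nat_lit 45097135276) (nat_lit 0) (nat_lit 66284101235) (nat_lit 7) (nat_lit 5) (nat_lit 9) (nat_lit 4) (nat_lit 7) (nat_lit 4) (nat_lit 410) (nat_lit 344) (nat_lit 266)) (XT.lf (nat_lit 0) (nat_lit 7346091137) (nat_lit 76) (nat_lit 117686131146) (nat_lit 76) (nat_lit 92559657211) (nat_lit 6) (nat_lit 4) (nat_lit 7) (nat_lit 5) (nat_lit 7) (nat_lit 4) (nat_lit 411) (nat_lit 344) (nat_lit 265)))) (XT.nd (nat_lit 78) (nat_lit 0) (nat_lit 0) (XT.lf (nat_lit 0) (nat_lit 65574946093) (nat_lit 76) (nat_lit 96548981021) (nat_lit 76) (nat_lit 71418238186) (nat_lit 6) (nat_lit 4) (nat_lit 7) (nat_lit 5) (nat_lit 7) (nat_lit 4) (nat_lit 412) (nat_lit 344) (nat_lit 264)) (XT.nd (nat_lit 78) (nat_lit 0) (nat_lit 0) (XT.lf (nat_lit 0) (nat_lit 128443374515) (nat_lit 76) (nat_lit 73730134281) (nat_lit 76) (nat_lit 48595438760) (nat_lit 6) (nat_lit 4) (nat_lit 7) (nat_lit 5) (nat_lit 7) (nat_lit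 4) (nat_lit 413) (nat_lit 344) (nat_lit 263)) (XT.lf (nat_lit 0) (nat_lit 196323930053) (nat_lit 76) (nat_lit 49094368129) (nat_lit 76) (nat_lit 23956012714) (nat_lit 6) (nat_lit 4) (nat_lit 7) (nat_lit 5) (nat_lit 7) (nat_lit 4) (nat_lit 414) (nat_lit 344) (nat_lit 262))))))) (XT.nd (nat_lit 936) (nat_lit 152) (nat_lit 0) (XT.nd (nat_lit 468) (nat_lit 76) (nat_lit 0) (XT.nd (nat_lit 234) (nat_lit 0) (nat_lit 0) (XT.nd (nat_lit 78) (nat_lit 76) (nat_lit 0) (XT.lf (nat_lit 0) (nat_lit 2561361196) (nat_lit 152) (nat_lit 19890953754) (nat_lit 76) (nat_lit 267014128764) (nat_lit 5) (nat_lit 5) (nat_lit 7) (nat_lit 5) (nat_lit 6) (nat_lit 4) (nat_lit 415) (nat_lit 344) (nat_lit 261)) (XT.nd (nat_lit 78) (nat_lit 0) (nat_lit 0) (XT.lf (nat_lit 0) (nat_lit 31077838071) (nat_lit 152) (nat_lit 272902291289) (nat_lit 0) (nat_lit 7130331427) (nat_lit 4) (nat_lit 5) (nat_lit 6) (nat_lit 4) (nat_lit 4)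 (nat_lit 4) (nat_lit 416) (nat_lit 344) (nat_lit 260)) (XT.lf (nat_lit 0) (nat_lit 62598982488) (nat_lit 152) (nat_lit 233202140844) (nat_lit 0) (nat_lit 38648708852) (nat_lit 4) (nat_lit 5) (nat_lit 6) (nat_lit 4) (nat_lit 4) (nat_lit 4) (nat_lit 417) (nat_lit 344) (nat_lit 259)))) (XT.nd (nat_lit 78) (nat_lit 0) (nat_lit 0) (XT.lf (nat_lit 0) (nat_lit 96634961645) (nat_lit 152) (nat_lit 190339608903) (nat_lit 0) (nat_lit 72682125979) (nat_lit 4) (nat_lit 5) (nat_lit 6) (nat_lit 4) (nat_lit 4) (nat_lit 4) (nat_lit 418) (nat_lit 344) (nat_lit 258)) (XT.nd (nat_lit 78) (nat_lit 0) (nat_lit 0) (XT.lf (nat_lit 0) (nat_lit 133387470234) (nat_lit 152) (nat_lit 144060695276) (nat_lit 0) (nat_lit 109432262317) (nat_lit 4) (nat_lit 5) (nat_lit 6) (nat_lit 4) (nat_lit 4) (nat_lit 4) (nat_lit 419) (nat_lit 344) (nat_lit 257)) (XT.lf (nat_lit 0) (nat_lit 173074300898) (nat_lit 152) (nat_lit 94091154550)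 (nat_lit 0) (nat_lit 149116896454) (nat_lit 4) (nat_lit 5) (nat_lit 6) (nat_lit 4) (nat_lit 4) (nat_lit 4) (nat_lit 420) (nat_lit 344) (nat_lit 256))))) (XT.nd (nat_lit 234) (nat_lit 0) (nat_lit 0) (XT.nd (nat_lit 78) (nat_lit 76) (nat_lit 0) (XT.lf (nat_lit 0) (nat_lit 215930634856) (nat_lit 152) (nat_lit 40134870926) (nat_lit 0) (nat_lit 191971196590) (nat_lit 4) (nat_lit 5) (nat_lit 6) (nat_lit 4) (nat_lit 4) (nat_lit 4) (nat_lit 421) (nat_lit 344) (nat_lit 255)) (XT.nd (nat_lit 78) (nat_lit 0) (nat_lit 0) (XT.lf (nat_lit 0) (nat_lit 18727286660) (nat_lit 76) (nat_lit 243775534335) (nat_lit 76) (nat_lit 219814212900) (nat_lit 3) (nat_lit 4) (nat_lit 4) (nat_lit 5) (nat_lit 4) (nat_lit 4) (nat_lit 422) (nat_lit 344) (nat_lit 254)) (XT.lf (nat_lit 0) (nat_lit 83722036703) (nat_lit 76) (nat_lit 229773052626) (nat_lit 76) (nat_lit 205809987517) (nat_lit 3) (nat_lit 4) (nat_lit 4) (nat_lit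 5) (nat_lit 4) (nat_lit 4) (nat_lit 423) (nat_lit 344) (nat_lit 253)))) (XT.nd (nat_lit 78) (nat_lit 0) (nat_lit 0) (XT.lf (nat_lit 0) (nat_lit 153907493187) (nat_lit 76) (nat_lit 214654786445) (nat_lit 76) (nat_lit 190690106822) (nat_lit 3) (nat_lit 4) (nat_lit 4) (nat_lit 5) (nat_lit 4) (nat_lit 4) (nat_lit 424) (nat_lit 344) (nat_lit 252)) (XT.nd (nat_lit 78) (nat_lit 0) (nat_lit 0) (XT.lf (nat_lit 0) (nat_lit 229699569930) (nat_lit 76) (nat_lit 198331146067) (nat_lit 76) (nat_lit 174364971524) (nat_lit 3) (nat_lit 4) (nat_lit 4) (nat_lit 5) (nat_lit 4) (nat_lit 4) (nat_lit 425) (nat_lit 344) (nat_lit 251)) (XT.lf (nat_lit 0) (nat_lit 311547405164) (nat_lit 76) (nat_lit 180705398807) (nat_lit 76) (nat_lit 156737840079) (nat_lit 3) (nat_lit 4) (nat_lit 4) (nat_lit 5) (nat_lit 4) (nat_lit 4) (nat_lit 426) (nat_lit 344) (nat_lit 250)))))) (XT.nd (nat_lit 468) (nat_lit 152) (nat_lit 0) (XT.nd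 (nat_lit 234) (nat_lit 0) (nat_lit 0) (XT.nd (nat_lit 78) (nat_lit 0) (nat_lit 0) (XT.lf (nat_lit 0) (nat_lit 399936023098) (nat_lit 76) (nat_lit 161673095793) (nat_lit 76) (nat_lit 137704255412) (nat_lit 3) (nat_lit 4) (nat_lit 4) (nat_lit 5) (nat_lit 4) (nat_lit 4) (nat_lit 427) (nat_lit 344) (nat_lit 249)) (XT.nd (nat_lit 78) (nat_lit 0) (nat_lit 0) (XT.lf (nat_lit 0) (nat_lit 495389208135) (nat_lit 76) (nat_lit 141121453008) (nat_lit 76) (nat_lit 117151425911) (nat_lit 3) (nat_lit 4) (nat_lit 4) (nat_lit 5) (nat_lit 4) (nat_lit 4) (nat_lit 428) (nat_lit 344) (nat_lit 248)) (XT.lf (nat_lit 0) (nat_lit 598472608777) (nat_lit 76) (nat_lit 118928682938) (nat_lit 76) (nat_lit 94957557030) (nat_lit 3) (nat_lit 4) (nat_lit 4) (nat_lit 5) (nat_lit 4) (nat_lit 4) (nat_lit 429) (nat_lit 344) (nat_lit 247)))) (XT.nd (nat_lit 78) (nat_lit 0) (nat_lit 0) (XT.lf (nat_lit 0) (nat_lit 709797089622) (nat_lit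 76) (nat_lit 94963272872) (nat_lit 76) (nat_lit 70991129547) (nat_lit 3) (nat_lit 4) (nat_lit 4) (nat_lit 5) (nat_lit 4) (nat_lit 4) (nat_lit 430) (nat_lit 344) (nat_lit 246)) (XT.nd (nat_lit 78) (nat_lit 0) (nat_lit 0) (XT.lf (nat_lit 0) (nat_lit 830022351298) (nat_lit 76) (nat_lit 69083205565) (nat_lit 76) (nat_lit 45110120187) (nat_lit 3) (nat_lit 4) (nat_lit 4) (nat_lit 5) (nat_lit 4) (nat_lit 4) (nat_lit 431) (nat_lit 344) (nat_lit 245)) (XT.lf (nat_lit 0) (nat_lit 959860839798) (nat_lit 76) (nat_lit 41135117655) (nat_lit 76) (nat_lit 17161160006) (nat_lit 3) (nat_lit 4) (nat_lit 4) (nat_lit 5) (nat_lit 4) (nat_lit 4) (nat_lit 432) (nat_lit 344) (nat_lit 244))))) (XT.nd (nat_lit 46332) (nat_lit 0) (nat_lit 10564) (XT.nd (nat_lit 78) (nat_lit 0) (nat_lit 0) (XT.lf (nat_lit 0) (nat_lit 1926338328) (nat_lit 76) (nat_lit 10708346372) (nat_lit 152) (nat_lit 1085367631283) (nat_lit 1) (nat_lit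 5) (nat_lit 2) (nat_lit 5) (nat_lit 3) (nat_lit 4) (nat_lit 433) (nat_lit 344) (nat_lit 243)) (XT.nd (nat_lit 46176) (nat_lit 0) (nat_lit 11020) (XT.lf (nat_lit 0) (nat_lit 45596785432) (nat_lit 152) (nat_lit 1115792123555) (nat_lit 0) (nat_lit 22762963393) (nat_lit 1) (nat_lit 5) (nat_lit 3) (nat_lit 4) (nat_lit 1) (nat_lit 4) (nat_lit 434) (nat_lit 344) (nat_lit 242)) (XT.lf (nat_lit 0) (nat_lit 2068222880) (nat_lit 532) (nat_lit 756984877) (nat_lit 532) (nat_lit 756984877) (nat_lit 146) (nat_lit 3) (nat_lit 153) (nat_lit 3) (nat_lit 153) (nat_lit 5) (nat_lit 345) (nat_lit 345) (nat_lit 330)))) (XT.nd (nat_lit 156) (nat_lit 0) (nat_lit 0) (XT.nd (nat_lit 78) (nat_lit 456) (nat_lit 0) (XT.lf (nat_lit 76) (nat_lit 4151945634) (nat_lit 0) (nat_lit 2743292575) (nat_lit 532) (nat_lit 423655269) (nat_lit 147) (nat_lit 5) (nat_lit 146) (nat_lit 3) (nat_lit 153) (nat_lit 5) (nat_lit 346) (nat_lit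 345) (nat_lit 329)) (XT.lf (nat_lit 0) (nat_lit 2132348646) (nat_lit 532) (nat_lit 4758596914) (nat_lit 608) (nat_lit 602188634) (nat_lit 140) (nat_lit 5) (nat_lit 147) (nat_lit 5) (nat_lit 148) (nat_lit 5) (nat_lit 347) (nat_lit 345) (nat_lit 328))) (XT.nd (nat_lit 78) (nat_lit 0) (nat_lit 76) (XT.lf (nat_lit 76) (nat_lit 1378775661) (nat_lit 0) (nat_lit 3382380982) (nat_lit 608) (nat_lit 2925863722) (nat_lit 141) (nat_lit 5) (nat_lit 140) (nat_lit 5) (nat_lit 148) (nat_lit 5) (nat_lit 348) (nat_lit 345) (nat_lit 327)) (XT.lf (nat_lit 76) (nat_lit 121232488) (nat_lit 0) (nat_lit 7347416636) (nat_lit 608) (nat_lit 434545408) (nat_lit 142) (nat_lit 5) (nat_lit 141) (nat_lit 5) (nat_lit 149) (nat_lit 5) (nat_lit 349) (nat_lit 345) (nat_lit 326))))))))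
noncomputable def xc56 : XT := (XT.nd (nat_lit 1872) (nat_lit 2432) (nat_lit 0) (XT.nd (nat_lit 936) (nat_lit 2508) (nat_lit 0) (XT.nd (nat_lit 468) (nat_lit 1672) (nat_lit 0) (XT.nd (nat_lit 234) (nat_lit 1900) (nat_lit 0) (XT.nd (nat_lit 78) (nat_lit 532) (nat_lit 0) (XT.lf (nat_lit 0) (nat_lit 2139072970) (nat_lit 608) (nat_lit 1094914071) (nat_lit 684) (nat_lit 4903327171) (nat_lit 133) (nat_lit 5) (nat_lit 141) (nat_lit 5) (nat_lit 142) (nat_lit 5) (nat_lit 350) (nat_lit 345) (nat_lit 325)) (XT.nd (nat_lit 78) (nat_lit 608) (nat_lit 0) (XT.lf (nat_lit 0) (nat_lit 4823516128) (nat_lit 608) (nat_lit 2247315876) (nat_lit 76) (nat_lit 1323127409) (nat_lit 134) (nat_lit 5) (nat_lit 142) (nat_lit 5) (nat_lit 135) (nat_lit 5) (nat_lit 351) (nat_lit 345) (nat_lit 324)) (XT.lf (nat_lit 0) (nat_lit 5299392577) (nat_lit 608) (nat_lit 2395387534) (nat_lit 684) (nat_lit 977901105) (nat_lit 126) (nat_lit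 5) (nat_lit 134) (nat_lit 5) (nat_lit 135) (nat_lit 5) (nat_lit 352) (nat_lit 345) (nat_lit 323)))) (XT.nd (nat_lit 78) (nat_lit 1140) (nat_lit 0) (XT.lf (nat_lit 0) (nat_lit 1742079127) (nat_lit 760) (nat_lit 4496962488) (nat_lit 76) (nat_lit 2734449949) (nat_lit 116) (nat_lit 5) (nat_lit 126) (nat_lit 5) (nat_lit 117) (nat_lit 5) (nat_lit 353) (nat_lit 345) (nat_lit 322)) (XT.nd (nat_lit 78) (nat_lit 380) (nat_lit 0) (XT.lf (nat_lit 0) (nat_lit 3686179837) (nat_lit 760) (nat_lit 952300712) (nat_lit 836) (nat_lit 4659551502) (nat_lit 106) (nat_lit 5) (nat_lit 116) (nat_lit 5) (nat_lit 117) (nat_lit 5) (nat_lit 354) (nat_lit 345) (nat_lit 321)) (XT.lf (nat_lit 0) (nat_lit 2902625004) (nat_lit 380) (nat_lit 4908208565) (nat_lit 456) (nat_lit 1835602318) (nat_lit 101) (nat_lit 5) (nat_lit 106) (nat_lit 5) (nat_lit 107) (nat_lit 5) (nat_lit 355) (nat_lit 345) (nat_lit 320))))) (XT.nd (nat_lit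 234) (nat_lit 608) (nat_lit 0) (XT.nd (nat_lit 78) (nat_lit 684) (nat_lit 0) (XT.lf (nat_lit 0) (nat_lit 1191615856) (nat_lit 380) (nat_lit 7876761020) (nat_lit 76) (nat_lit 952675240) (nat_lit 96) (nat_lit 5) (nat_lit 101) (nat_lit 5) (nat_lit 97) (nat_lit 5) (nat_lit 356) (nat_lit 345) (nat_lit 319)) (XT.nd (nat_lit 78) (nat_lit 304) (nat_lit 0) (XT.lf (nat_lit 0) (nat_lit 1338438639) (nat_lit 380) (nat_lit 3142481073) (nat_lit 456) (nat_lit 5939093918) (nat_lit 91) (nat_lit 5) (nat_lit 96) (nat_lit 5) (nat_lit 97) (nat_lit 5) (nat_lit 357) (nat_lit 345) (nat_lit 318)) (XT.lf (nat_lit 0) (nat_lit 539219511) (nat_lit 304) (nat_lit 7561010902) (nat_lit 380) (nat_lit 2747403266) (nat_lit 87) (nat_lit 5) (nat_lit 91) (nat_lit 5) (nat_lit 92) (nat_lit 5) (nat_lit 358) (nat_lit 345) (nat_lit 317)))) (XT.nd (nat_lit 78) (nat_lit 532) (nat_lit 0) (XT.lf (nat_lit 0) (nat_lit 764502548) (nat_lit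 380) (nat_lit 264717591) (nat_lit 76) (nat_lit 10275408154) (nat_lit 86) (nat_lit 5) (nat_lit 91) (nat_lit 5) (nat_lit 87) (nat_lit 5) (nat_lit 359) (nat_lit 345) (nat_lit 316)) (XT.nd (nat_lit 78) (nat_lit 228) (nat_lit 0) (XT.lf (nat_lit 0) (nat_lit 4610175115) (nat_lit 380) (nat_lit 1150205764) (nat_lit 76) (nat_lit 6028165324) (nat_lit 82) (nat_lit 5) (nat_lit 87) (nat_lit 5) (nat_lit 83) (nat_lit 5) (nat_lit 360) (nat_lit 345) (nat_lit 315)) (XT.lf (nat_lit 0) (nat_lit 8857866385) (nat_lit 304) (nat_lit 2045034143) (nat_lit 76) (nat_lit 1403622838) (nat_lit 79) (nat_lit 5) (nat_lit 83) (nat_lit 5) (nat_lit 80) (nat_lit 5) (nat_lit 361) (nat_lit 345) (nat_lit 314)))))) (XT.nd (nat_lit 468) (nat_lit 988) (nat_lit 0) (XT.nd (nat_lit 234) (nat_lit 684) (nat_lit 0) (XT.nd (nat_lit 78) (nat_lit 456) (nat_lit 0) (XT.lf (nat_lit 0) (nat_lit 729524847) (nat_lit 380) (nat_lit 3027140142) (nat_lit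 76) (nat_lit 9100446074) (nat_lit 74) (nat_lit 5) (nat_lit 79) (nat_lit 5) (nat_lit 75) (nat_lit 5) (nat_lit 362) (nat_lit 345) (nat_lit 313)) (XT.nd (nat_lit 78) (nat_lit 228) (nat_lit 0) (XT.lf (nat_lit 0) (nat_lit 5269616603) (nat_lit 304) (nat_lit 4125311689) (nat_lit 76) (nat_lit 4046619050) (nat_lit 71) (nat_lit 5) (nat_lit 75) (nat_lit 5) (nat_lit 72) (nat_lit 5) (nat_lit 363) (nat_lit 345) (nat_lit 312)) (XT.lf (nat_lit 0) (nat_lit 8768148864) (nat_lit 228) (nat_lit 1562423525) (nat_lit 304) (nat_lit 3734331735) (nat_lit 68) (nat_lit 5) (nat_lit 71) (nat_lit 5) (nat_lit 72) (nat_lit 5) (nat_lit 364) (nat_lit 345) (nat_lit 311)))) (XT.nd (nat_lit 78) (nat_lit 380) (nat_lit 0) (XT.lf (nat_lit 0) (nat_lit 1243861626) (nat_lit 304) (nat_lit 6621950626) (nat_lit 76) (nat_lit 6860560885) (nat_lit 64) (nat_lit 5) (nat_lit 68) (nat_lit 5) (nat_lit 65) (nat_lit 5) (nat_lit 365) (nat_lit 345)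 (nat_lit 310)) (XT.nd (nat_lit 78) (nat_lit 152) (nat_lit 0) (XT.lf (nat_lit 0) (nat_lit 6648847243) (nat_lit 304) (nat_lit 8095217745) (nat_lit 76) (nat_lit 685704823) (nat_lit 61) (nat_lit 5) (nat_lit 65) (nat_lit 5) (nat_lit 62) (nat_lit 5) (nat_lit 366) (nat_lit 345) (nat_lit 309)) (XT.lf (nat_lit 0) (nat_lit 6403988117) (nat_lit 152) (nat_lit 6347839060) (nat_lit 228) (nat_lit 3424367889) (nat_lit 59) (nat_lit 5) (nat_lit 61) (nat_lit 5) (nat_lit 62) (nat_lit 5) (nat_lit 367) (nat_lit 345) (nat_lit 308))))) (XT.nd (nat_lit 234) (nat_lit 380) (nat_lit 0) (XT.nd (nat_lit 78) (nat_lit 304) (nat_lit 0) (XT.lf (nat_lit 0) (nat_lit 2477446551) (nat_lit 304) (nat_lit 11633239620) (nat_lit 76) (nat_lit 2860222953) (nat_lit 55) (nat_lit 5) (nat_lit 59) (nat_lit 5) (nat_lit 56) (nat_lit 5) (nat_lit 368) (nat_lit 345) (nat_lit 307)) (XT.nd (nat_lit 78) (nat_lit 152) (nat_lit 0) (XT.lf (nat_lit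 0) (nat_lit 4023952233) (nat_lit 152) (nat_lit 4974222836) (nat_lit 228) (nat_lit 8814911172) (nat_lit 53) (nat_lit 5) (nat_lit 55) (nat_lit 5) (nat_lit 56) (nat_lit 5) (nat_lit 369) (nat_lit 345) (nat_lit 306)) (XT.lf (nat_lit 0) (nat_lit 2517869016) (nat_lit 152) (nat_lit 13769896315) (nat_lit 228) (nat_lit 2422539709) (nat_lit 51) (nat_lit 5) (nat_lit 53) (nat_lit 5) (nat_lit 54) (nat_lit 5) (nat_lit 370) (nat_lit 345) (nat_lit 305)))) (XT.nd (nat_lit 78) (nat_lit 152) (nat_lit 0) (XT.lf (nat_lit 0) (nat_lit 702414114) (nat_lit 152) (nat_lit 3902433016) (nat_lit 228) (nat_lit 15057627770) (nat_lit 48) (nat_lit 5) (nat_lit 50) (nat_lit 5) (nat_lit 51) (nat_lit 5) (nat_lit 371) (nat_lit 345) (nat_lit 304)) (XT.nd (nat_lit 78) (nat_lit 152) (nat_lit 0) (XT.lf (nat_lit 0) (nat_lit 12433807935) (nat_lit 228) (nat_lit 1415085745) (nat_lit 76) (nat_lit 6823748733) (nat_lit 48) (nat_lit 5) (nat_lit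 51) (nat_lit 5) (nat_lit 49) (nat_lit 5) (nat_lit 372) (nat_lit 345) (nat_lit 303)) (XT.lf (nat_lit 0) (nat_lit 17935701200) (nat_lit 152) (nat_lit 3235306666) (nat_lit 228) (nat_lit 578540278) (nat_lit 46) (nat_lit 5) (nat_lit 48) (nat_lit 5) (nat_lit 49) (nat_lit 5) (nat_lit 373) (nat_lit 345) (nat_lit 302))))))) (XT.nd (nat_lit 936) (nat_lit 912) (nat_lit 0) (XT.nd (nat_lit 468) (nat_lit 684) (nat_lit 0) (XT.nd (nat_lit 234) (nat_lit 304) (nat_lit 0) (XT.nd (nat_lit 78) (nat_lit 304) (nat_lit 0) (XT.lf (nat_lit 0) (nat_lit 7799958402) (nat_lit 228) (nat_lit 6759661916) (nat_lit 76) (nat_lit 8329415005) (nat_lit 43) (nat_lit 5) (nat_lit 46) (nat_lit 5) (nat_lit 44) (nat_lit 5) (nat_lit 374) (nat_lit 345) (nat_lit 301)) (XT.nd (nat_lit 78) (nat_lit 152) (nat_lit 0) (XT.lf (nat_lit 0) (nat_lit 13968237118) (nat_lit 152) (nat_lit 3141292564) (nat_lit 228) (nat_lit 6995641573) (nat_lit 41)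 (nat_lit 5) (nat_lit 43) (nat_lit 5) (nat_lit 44) (nat_lit 5) (nat_lit 375) (nat_lit 345) (nat_lit 300)) (XT.lf (nat_lit 0) (nat_lit 2078144057) (nat_lit 152) (nat_lit 14132833864) (nat_lit 76) (nat_lit 9186836039) (nat_lit 39) (nat_lit 5) (nat_lit 41) (nat_lit 5) (nat_lit 40) (nat_lit 5) (nat_lit 376) (nat_lit 345) (nat_lit 299)))) (XT.nd (nat_lit 78) (nat_lit 152) (nat_lit 0) (XT.lf (nat_lit 0) (nat_lit 7939632525) (nat_lit 152) (nat_lit 3997513895) (nat_lit 228) (nat_lit 14835781128) (nat_lit 37) (nat_lit 5) (nat_lit 39) (nat_lit 5) (nat_lit 40) (nat_lit 5) (nat_lit 377) (nat_lit 345) (nat_lit 298)) (XT.nd (nat_lit 78) (nat_lit 76) (nat_lit 0) (XT.lf (nat_lit 0) (nat_lit 3920262701) (nat_lit 76) (nat_lit 19066319799) (nat_lit 152) (nat_lit 5251394966) (nat_lit 36) (nat_lit 5) (nat_lit 37) (nat_lit 5) (nat_lit 38) (nat_lit 4) (nat_lit 378) (nat_lit 345) (nat_lit 297)) (XT.lf (nat_lit 0)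 (nat_lit 5285813489) (nat_lit 152) (nat_lit 881686611) (nat_lit 76) (nat_lit 23631296861) (nat_lit 35) (nat_lit 5) (nat_lit 37) (nat_lit 5) (nat_lit 36) (nat_lit 5) (nat_lit 379) (nat_lit 345) (nat_lit 296))))) (XT.nd (nat_lit 234) (nat_lit 228) (nat_lit 0) (XT.nd (nat_lit 78) (nat_lit 304) (nat_lit 0) (XT.lf (nat_lit 0) (nat_lit 16956442271) (nat_lit 228) (nat_lit 6533974861) (nat_lit 76) (nat_lit 7966049662) (nat_lit 33) (nat_lit 5) (nat_lit 36) (nat_lit 5) (nat_lit 34) (nat_lit 4) (nat_lit 380) (nat_lit 345) (nat_lit 295)) (XT.nd (nat_lit 78) (nat_lit 228) (nat_lit 0) (XT.lf (nat_lit 0) (nat_lit 20030064934) (nat_lit 76) (nat_lit 9916952654) (nat_lit 152) (nat_lit 3280427583) (nat_lit 32) (nat_lit 5) (nat_lit 33) (nat_lit 5) (nat_lit 34) (nat_lit 4) (nat_lit 381) (nat_lit 345) (nat_lit 294)) (XT.lf (nat_lit 0) (nat_lit 8925527281) (nat_lit 228) (nat_lit 21153168558) (nat_lit 76) (nat_lit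 5035935234) (nat_lit 29) (nat_lit 5) (nat_lit 32) (nat_lit 5) (nat_lit 30) (nat_lit 4) (nat_lit 382) (nat_lit 345) (nat_lit 293)))) (XT.nd (nat_lit 78) (nat_lit 152) (nat_lit 0) (XT.lf (nat_lit 0) (nat_lit 6526368821) (nat_lit 76) (nat_lit 15927914311) (nat_lit 152) (nat_lit 14672765078) (nat_lit 28) (nat_lit 5) (nat_lit 29) (nat_lit 5) (nat_lit 30) (nat_lit 4) (nat_lit 383) (nat_lit 345) (nat_lit 292)) (XT.nd (nat_lit 78) (nat_lit 152) (nat_lit 0) (XT.lf (nat_lit 0) (nat_lit 37099879515) (nat_lit 76) (nat_lit 292887656) (nat_lit 152) (nat_lit 1891327544) (nat_lit 28) (nat_lit 5) (nat_lit 29) (nat_lit 5) (nat_lit 30) (nat_lit 4) (nat_lit 384) (nat_lit 345) (nat_lit 291)) (XT.lf (nat_lit 0) (nat_lit 12217394143) (nat_lit 152) (nat_lit 12670478011) (nat_lit 76) (nat_lit 16682237450) (nat_lit 26) (nat_lit 5) (nat_lit 28) (nat_lit 5) (nat_lit 27) (nat_lit 4) (nat_lit 385) (nat_lit 345) (nat_lit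 290)))))) (XT.nd (nat_lit 468) (nat_lit 456) (nat_lit 0) (XT.nd (nat_lit 234) (nat_lit 228) (nat_lit 0) (XT.nd (nat_lit 78) (nat_lit 152) (nat_lit 0) (XT.lf (nat_lit 0) (nat_lit 19012457799) (nat_lit 76) (nat_lit 8680093924) (nat_lit 152) (nat_lit 16329709669) (nat_lit 25) (nat_lit 5) (nat_lit 26) (nat_lit 5) (nat_lit 27) (nat_lit 4) (nat_lit 386) (nat_lit 345) (nat_lit 289)) (XT.nd (nat_lit 78) (nat_lit 76) (nat_lit 0) (XT.lf (nat_lit 0) (nat_lit 7038875863) (nat_lit 76) (nat_lit 37802751904) (nat_lit 76) (nat_lit 1807167846) (nat_lit 24) (nat_lit 4) (nat_lit 25) (nat_lit 5) (nat_lit 25) (nat_lit 4) (nat_lit 387) (nat_lit 345) (nat_lit 288)) (XT.lf (nat_lit 0) (nat_lit 13987176205) (nat_lit 152) (nat_lit 7355461926) (nat_lit 76) (nat_lit 28104278524) (nat_lit 23) (nat_lit 5) (nat_lit 25) (nat_lit 5) (nat_lit 24) (nat_lit 4) (nat_lit 388) (nat_lit 345) (nat_lit 287)))) (XT.nd (nat_lit 78)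 (nat_lit 152) (nat_lit 0) (XT.lf (nat_lit 0) (nat_lit 28293171872) (nat_lit 76) (nat_lit 3098753018) (nat_lit 152) (nat_lit 21054977188) (nat_lit 22) (nat_lit 5) (nat_lit 23) (nat_lit 5) (nat_lit 24) (nat_lit 4) (nat_lit 389) (nat_lit 345) (nat_lit 286)) (XT.nd (nat_lit 78) (nat_lit 76) (nat_lit 0) (XT.lf (nat_lit 0) (nat_lit 11420331618) (nat_lit 76) (nat_lit 39305141077) (nat_lit 76) (nat_lit 4934596901) (nat_lit 21) (nat_lit 4) (nat_lit 22) (nat_lit 5) (nat_lit 22) (nat_lit 4) (nat_lit 390) (nat_lit 345) (nat_lit 285)) (XT.lf (nat_lit 0) (nat_lit 12525592540) (nat_lit 152) (nat_lit 8718473851) (nat_lit 76) (nat_lit 37854015546) (nat_lit 20) (nat_lit 5) (nat_lit 22) (nat_lit 5) (nat_lit 21) (nat_lit 4) (nat_lit 391) (nat_lit 345) (nat_lit 284))))) (XT.nd (nat_lit 234) (nat_lit 228) (nat_lit 0) (XT.nd (nat_lit 78) (nat_lit 152) (nat_lit 0) (XT.lf (nat_lit 0) (nat_lit 30483104686) (nat_lit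 76) (nat_lit 1176679002) (nat_lit 152) (nat_lit 31124806731) (nat_lit 19) (nat_lit 5) (nat_lit 20) (nat_lit 5) (nat_lit 21) (nat_lit 4) (nat_lit 392) (nat_lit 345) (nat_lit 283)) (XT.nd (nat_lit 78) (nat_lit 76) (nat_lit 0) (XT.lf (nat_lit 0) (nat_lit 6197118608) (nat_lit 76) (nat_lit 46671438510) (nat_lit 76) (nat_lit 13870273304) (nat_lit 18) (nat_lit 4) (nat_lit 19) (nat_lit 5) (nat_lit 19) (nat_lit 4) (nat_lit 393) (nat_lit 345) (nat_lit 282)) (XT.lf (nat_lit 0) (nat_lit 5177399340) (nat_lit 152) (nat_lit 22206695491) (nat_lit 76) (nat_lit 43593334442) (nat_lit 17) (nat_lit 5) (nat_lit 19) (nat_lit 5) (nat_lit 18) (nat_lit 4) (nat_lit 394) (nat_lit 345) (nat_lit 281)))) (XT.nd (nat_lit 156) (nat_lit 152) (nat_lit 0) (XT.nd (nat_lit 78) (nat_lit 0) (nat_lit 0) (XT.lf (nat_lit 0) (nat_lit 19539354852) (nat_lit 76) (nat_lit 6010643089) (nat_lit 152) (nat_lit 49979398671) (nat_lit 16) (nat_lit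 5) (nat_lit 17) (nat_lit 5) (nat_lit 18) (nat_lit 4) (nat_lit 395) (nat_lit 345) (nat_lit 280)) (XT.lf (nat_lit 0) (nat_lit 48188391132) (nat_lit 152) (nat_lit 15327038267) (nat_lit 0) (nat_lit 16898295018) (nat_lit 16) (nat_lit 5) (nat_lit 18) (nat_lit 4) (nat_lit 16) (nat_lit 4) (nat_lit 396) (nat_lit 345) (nat_lit 279))) (XT.nd (nat_lit 78) (nat_lit 76) (nat_lit 0) (XT.lf (nat_lit 0) (nat_lit 29385539256) (nat_lit 76) (nat_lit 43790482120) (nat_lit 76) (nat_lit 12485871024) (nat_lit 15) (nat_lit 4) (nat_lit 16) (nat_lit 5) (nat_lit 16) (nat_lit 4) (nat_lit 397) (nat_lit 345) (nat_lit 278)) (XT.lf (nat_lit 0) (nat_lit 8800078681) (nat_lit 152) (nat_lit 13277889598) (nat_lit 76) (nat_lit 69232550637) (nat_lit 14) (nat_lit 5) (nat_lit 16) (nat_lit 5) (nat_lit 15) (nat_lit 4) (nat_lit 398) (nat_lit 345) (nat_lit 277))))))))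
noncomputable def xc57 : XT := (XT.nd (nat_lit 1872) (nat_lit 228) (nat_lit 0) (XT.nd (nat_lit 936) (nat_lit 228) (nat_lit 0) (XT.nd (nat_lit 468) (nat_lit 228) (nat_lit 0) (XT.nd (nat_lit 234) (nat_lit 152) (nat_lit 0) (XT.nd (nat_lit 78) (nat_lit 76) (nat_lit 0) (XT.lf (nat_lit 0) (nat_lit 31901664483) (nat_lit 152) (nat_lit 63408530693) (nat_lit 0) (nat_lit 2063097670) (nat_lit 13) (nat_lit 5) (nat_lit 15) (nat_lit 4) (nat_lit 13) (nat_lit 4) (nat_lit 399) (nat_lit 345) (nat_lit 276)) (XT.nd (nat_lit 78) (nat_lit 76) (nat_lit 0) (XT.lf (nat_lit 0) (nat_lit 57439595600) (nat_lit 152) (nat_lit 18862028843) (nat_lit 0) (nat_lit 27590055014) (nat_lit 13) (nat_lit 5) (nat_lit 15) (nat_lit 4) (nat_lit 13) (nat_lit 4) (nat_lit 400) (nat_lit 345) (nat_lit 275)) (XT.lf (nat_lit 0) (nat_lit 30179483033) (nat_lit 76) (nat_lit 55294541913) (nat_lit 76) (nat_lit 25434840427) (nat_lit 12) (nat_lit 4)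 (nat_lit 13) (nat_lit 5) (nat_lit 13) (nat_lit 4) (nat_lit 401) (nat_lit 345) (nat_lit 274)))) (XT.nd (nat_lit 78) (nat_lit 152) (nat_lit 0) (XT.lf (nat_lit 0) (nat_lit 83784736276) (nat_lit 76) (nat_lit 32278109601) (nat_lit 76) (nat_lit 2408999873) (nat_lit 12) (nat_lit 4) (nat_lit 13) (nat_lit 5) (nat_lit 13) (nat_lit 4) (nat_lit 402) (nat_lit 345) (nat_lit 273)) (XT.nd (nat_lit 78) (nat_lit 0) (nat_lit 0) (XT.lf (nat_lit 0) (nat_lit 15141305011) (nat_lit 76) (nat_lit 6819244292) (nat_lit 152) (nat_lit 104650760870) (nat_lit 10) (nat_lit 5) (nat_lit 11) (nat_lit 5) (nat_lit 12) (nat_lit 4) (nat_lit 403) (nat_lit 345) (nat_lit 272)) (XT.lf (nat_lit 0) (nat_lit 49117893010) (nat_lit 152) (nat_lit 65580790445) (nat_lit 0) (nat_lit 20655143378) (nat_lit 10) (nat_lit 5) (nat_lit 12) (nat_lit 4) (nat_lit 10) (nat_lit 4) (nat_lit 404) (nat_lit 345) (nat_lit 271))))) (XT.nd (nat_lit 234) (nat_lit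 152) (nat_lit 0) (XT.nd (nat_lit 78) (nat_lit 76) (nat_lit 0) (XT.lf (nat_lit 0) (nat_lit 78548507264) (nat_lit 152) (nat_lit 16163559789) (nat_lit 0) (nat_lit 50078644714) (nat_lit 10) (nat_lit 5) (nat_lit 12) (nat_lit 4) (nat_lit 10) (nat_lit 4) (nat_lit 405) (nat_lit 345) (nat_lit 270)) (XT.nd (nat_lit 78) (nat_lit 0) (nat_lit 0) (XT.lf (nat_lit 0) (nat_lit 38410368845) (nat_lit 76) (nat_lit 72509652850) (nat_lit 76) (nat_lit 44033204263) (nat_lit 9) (nat_lit 4) (nat_lit 10) (nat_lit 5) (nat_lit 10) (nat_lit 4) (nat_lit 406) (nat_lit 345) (nat_lit 269)) (XT.lf (nat_lit 0) (nat_lit 97902487319) (nat_lit 76) (nat_lit 48247678133) (nat_lit 76) (nat_lit 19765131364) (nat_lit 9) (nat_lit 4) (nat_lit 10) (nat_lit 5) (nat_lit 10) (nat_lit 4) (nat_lit 407) (nat_lit 345) (nat_lit 268)))) (XT.nd (nat_lit 78) (nat_lit 76) (nat_lit 0) (XT.lf (nat_lit 0) (nat_lit 6226220328) (nat_lit 152) (nat_lit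 15724441559) (nat_lit 76) (nat_lit 155799236852) (nat_lit 8) (nat_lit 5) (nat_lit 10) (nat_lit 5) (nat_lit 9) (nat_lit 4) (nat_lit 408) (nat_lit 345) (nat_lit 267)) (XT.nd (nat_lit 78) (nat_lit 0) (nat_lit 0) (XT.lf (nat_lit 0) (nat_lit 34370804007) (nat_lit 152) (nat_lit 148871732606) (nat_lit 0) (nat_lit 7234212157) (nat_lit 7) (nat_lit 5) (nat_lit 9) (nat_lit 4) (nat_lit 7) (nat_lit 4) (nat_lit 409) (nat_lit 345) (nat_lit 266)) (XT.lf (nat_lit 0) (nat_lit 65404790160) (nat_lit 152) (nat_lit 100521477665) (nat_lit 0) (nat_lit 38263587897) (nat_lit 7) (nat_lit 5) (nat_lit 9) (nat_lit 4) (nat_lit 7) (nat_lit 4) (nat_lit 410) (nat_lit 345) (nat_lit 265)))))) (XT.nd (nat_lit 468) (nat_lit 76) (nat_lit 0) (XT.nd (nat_lit 234) (nat_lit 76) (nat_lit 0) (XT.nd (nat_lit 78) (nat_lit 76) (nat_lit 0) (XT.lf (nat_lit 0) (nat_lit 98911594811) (nat_lit 152) (nat_lit 48322788448) (nat_lit 0) (nat_lit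 71766123648) (nat_lit 7) (nat_lit 5) (nat_lit 9) (nat_lit 4) (nat_lit 7) (nat_lit 4) (nat_lit 411) (nat_lit 345) (nat_lit 264)) (XT.nd (nat_lit 78) (nat_lit 0) (nat_lit 0) (XT.lf (nat_lit 0) (nat_lit 8299289711) (nat_lit 76) (nat_lit 126920062264) (nat_lit 76) (nat_lit 99770638415) (nat_lit 6) (nat_lit 4) (nat_lit 7) (nat_lit 5) (nat_lit 7) (nat_lit 4) (nat_lit 412) (nat_lit 345) (nat_lit 263)) (XT.lf (nat_lit 0) (nat_lit 71159378153) (nat_lit 76) (nat_lit 104105344527) (nat_lit 76) (nat_lit 76952260784) (nat_lit 6) (nat_lit 4) (nat_lit 7) (nat_lit 5) (nat_lit 7) (nat_lit 4) (nat_lit 413) (nat_lit 345) (nat_lit 262)))) (XT.nd (nat_lit 78) (nat_lit 76) (nat_lit 0) (XT.lf (nat_lit 0) (nat_lit 139032211488) (nat_lit 76) (nat_lit 79473401527) (nat_lit 76) (nat_lit 52316928993) (nat_lit 6) (nat_lit 4) (nat_lit 7) (nat_lit 5) (nat_lit 7) (nat_lit 4) (nat_lit 414) (nat_lit 345) (nat_lit 261)) (XT.nd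 (nat_lit 78) (nat_lit 76) (nat_lit 0) (XT.lf (nat_lit 0) (nat_lit 212319999098) (nat_lit 76) (nat_lit 52878266194) (nat_lit 76) (nat_lit 25718655891) (nat_lit 6) (nat_lit 4) (nat_lit 7) (nat_lit 5) (nat_lit 7) (nat_lit 4) (nat_lit 415) (nat_lit 345) (nat_lit 260)) (XT.lf (nat_lit 0) (nat_lit 2904153488) (nat_lit 152) (nat_lit 21209000993) (nat_lit 76) (nat_lit 288503702250) (nat_lit 5) (nat_lit 5) (nat_lit 7) (nat_lit 5) (nat_lit 6) (nat_lit 4) (nat_lit 416) (nat_lit 345) (nat_lit 259))))) (XT.nd (nat_lit 234) (nat_lit 0) (nat_lit 0) (XT.nd (nat_lit 78) (nat_lit 0) (nat_lit 0) (XT.lf (nat_lit 0) (nat_lit 33697838901) (nat_lit 152) (nat_lit 294468548016) (nat_lit 0) (nat_lit 7826214351) (nat_lit 4) (nat_lit 5) (nat_lit 6) (nat_lit 4) (nat_lit 4) (nat_lit 4) (nat_lit 417) (nat_lit 345) (nat_lit 258)) (XT.nd (nat_lit 78) (nat_lit 0) (nat_lit 0) (XT.lf (nat_lit 0) (nat_lit 67730765702) (nat_lit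 152) (nat_lit 251612083800) (nat_lit 0) (nat_lit 41856768902) (nat_lit 4) (nat_lit 5) (nat_lit 6) (nat_lit 4) (nat_lit 4) (nat_lit 4) (nat_lit 418) (nat_lit 345) (nat_lit 257)) (XT.lf (nat_lit 0) (nat_lit 104480448035) (nat_lit 152) (nat_lit 205338788438) (nat_lit 0) (nat_lit 78604254707) (nat_lit 4) (nat_lit 5) (nat_lit 6) (nat_lit 4) (nat_lit 4) (nat_lit 4) (nat_lit 419) (nat_lit 345) (nat_lit 256)))) (XT.nd (nat_lit 78) (nat_lit 0) (nat_lit 0) (XT.lf (nat_lit 0) (nat_lit 144164661796) (nat_lit 152) (nat_lit 155374449808) (nat_lit 0) (nat_lit 118286434646) (nat_lit 4) (nat_lit 5) (nat_lit 6) (nat_lit 4) (nat_lit 4) (nat_lit 4) (nat_lit 420) (nat_lit 345) (nat_lit 255)) (XT.nd (nat_lit 78) (nat_lit 0) (nat_lit 0) (XT.lf (nat_lit 0) (nat_lit 187018572695) (nat_lit 152) (nat_lit 101422982941) (nat_lit 0) (nat_lit 161138462376) (nat_lit 4) (nat_lit 5) (nat_lit 6) (nat_lit 4) (nat_lit 4) (nat_lit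 4) (nat_lit 421) (nat_lit 345) (nat_lit 254)) (XT.lf (nat_lit 0) (nat_lit 233296129834) (nat_lit 152) (nat_lit 43164675441) (nat_lit 0) (nat_lit 207414275841) (nat_lit 4) (nat_lit 5) (nat_lit 6) (nat_lit 4) (nat_lit 4) (nat_lit 4) (nat_lit 422) (nat_lit 345) (nat_lit 253))))))) (XT.nd (nat_lit 47112) (nat_lit 0) (nat_lit 6840) (XT.nd (nat_lit 468) (nat_lit 152) (nat_lit 0) (XT.nd (nat_lit 234) (nat_lit 0) (nat_lit 0) (XT.nd (nat_lit 78) (nat_lit 0) (nat_lit 0) (XT.lf (nat_lit 0) (nat_lit 20398589358) (nat_lit 76) (nat_lit 263191460377) (nat_lit 76) (nat_lit 237307991871) (nat_lit 3) (nat_lit 4) (nat_lit 4) (nat_lit 5) (nat_lit 4) (nat_lit 4) (nat_lit 423) (nat_lit 345) (nat_lit 252)) (XT.nd (nat_lit 78) (nat_lit 0) (nat_lit 0) (XT.lf (nat_lit 0) (nat_lit 90580095718) (nat_lit 76) (nat_lit 248075159147) (nat_lit 76) (nat_lit 222190195721) (nat_lit 3) (nat_lit 4) (nat_lit 4) (nat_lit 5) (nat_lit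 4) (nat_lit 4) (nat_lit 424) (nat_lit 345) (nat_lit 251)) (XT.lf (nat_lit 0) (nat_lit 166368514937) (nat_lit 76) (nat_lit 231753338167) (nat_lit 76) (nat_lit 205866990555) (nat_lit 3) (nat_lit 4) (nat_lit 4) (nat_lit 5) (nat_lit 4) (nat_lit 4) (nat_lit 425) (nat_lit 345) (nat_lit 250)))) (XT.nd (nat_lit 78) (nat_lit 0) (nat_lit 0) (XT.lf (nat_lit 0) (nat_lit 248212963576) (nat_lit 76) (nat_lit 214129275535) (nat_lit 76) (nat_lit 188241646271) (nat_lit 3) (nat_lit 4) (nat_lit 4) (nat_lit 5) (nat_lit 4) (nat_lit 4) (nat_lit 426) (nat_lit 345) (nat_lit 249)) (XT.nd (nat_lit 78) (nat_lit 0) (nat_lit 0) (XT.lf (nat_lit 0) (nat_lit 336598445773) (nat_lit 76) (nat_lit 195098532363) (nat_lit 76) (nat_lit 169209716383) (nat_lit 3) (nat_lit 4) (nat_lit 4) (nat_lit 5) (nat_lit 4) (nat_lit 4) (nat_lit 427) (nat_lit 345) (nat_lit 248)) (XT.lf (nat_lit 0) (nat_lit 432048727350) (nat_lit 76) (nat_lit 174548333875)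 (nat_lit 76) (nat_lit 148658419084) (nat_lit 3) (nat_lit 4) (nat_lit 4) (nat_lit 5) (nat_lit 4) (nat_lit 4) (nat_lit 428) (nat_lit 345) (nat_lit 247))))) (XT.nd (nat_lit 234) (nat_lit 152) (nat_lit 0) (XT.nd (nat_lit 78) (nat_lit 0) (nat_lit 0) (XT.lf (nat_lit 0) (nat_lit 535129439603) (nat_lit 76) (nat_lit 152356901117) (nat_lit 76) (nat_lit 126465968909) (nat_lit 3) (nat_lit 4) (nat_lit 4) (nat_lit 5) (nat_lit 4) (nat_lit 4) (nat_lit 429) (nat_lit 345) (nat_lit 246)) (XT.nd (nat_lit 78) (nat_lit 0) (nat_lit 0) (XT.lf (nat_lit 0) (nat_lit 646451431200) (nat_lit 76) (nat_lit 128392729303) (nat_lit 76) (nat_lit 102500855042) (nat_lit 3) (nat_lit 4) (nat_lit 4) (nat_lit 5) (nat_lit 4) (nat_lit 4) (nat_lit 430) (nat_lit 345) (nat_lit 245)) (XT.lf (nat_lit 0) (nat_lit 766674388015) (nat_lit 76) (nat_lit 102513808526) (nat_lit 76) (nat_lit 76621061993) (nat_lit 3) (nat_lit 4) (nat_lit 4) (nat_lit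 5) (nat_lit 4) (nat_lit 4) (nat_lit 431) (nat_lit 345) (nat_lit 244)))) (XT.nd (nat_lit 78) (nat_lit 152) (nat_lit 0) (XT.lf (nat_lit 0) (nat_lit 896510742385) (nat_lit 76) (nat_lit 74566782217) (nat_lit 76) (nat_lit 48673228026) (nat_lit 3) (nat_lit 4) (nat_lit 4) (nat_lit 5) (nat_lit 4) (nat_lit 4) (nat_lit 432) (nat_lit 345) (nat_lit 243)) (XT.nd (nat_lit 78) (nat_lit 152) (nat_lit 0) (XT.lf (nat_lit 0) (nat_lit 1036729894930) (nat_lit 76) (nat_lit 44386038370) (nat_lit 76) (nat_lit 18491736347) (nat_lit 3) (nat_lit 4) (nat_lit 4) (nat_lit 5) (nat_lit 4) (nat_lit 4) (nat_lit 433) (nat_lit 345) (nat_lit 242)) (XT.lf (nat_lit 0) (nat_lit 2158446048) (nat_lit 76) (nat_lit 11526159077) (nat_lit 152) (nat_lit 1172155936873) (nat_lit 1) (nat_lit 5) (nat_lit 2) (nat_lit 5) (nat_lit 3) (nat_lit 4) (nat_lit 434) (nat_lit 345) (nat_lit 241)))))) (XT.nd (nat_lit 468) (nat_lit 3116) (nat_lit 0) (XT.nd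 (nat_lit 234) (nat_lit 532) (nat_lit 0) (XT.nd (nat_lit 78) (nat_lit 0) (nat_lit 0) (XT.lf (nat_lit 0) (nat_lit 471441835) (nat_lit 0) (nat_lit 471441835) (nat_lit 532) (nat_lit 2798647708) (nat_lit 139) (nat_lit 5) (nat_lit 139) (nat_lit 3) (nat_lit 146) (nat_lit 3) (nat_lit 346) (nat_lit 346) (nat_lit 328)) (XT.nd (nat_lit 78) (nat_lit 0) (nat_lit 0) (XT.lf (nat_lit 0) (nat_lit 4245392671) (nat_lit 532) (nat_lit 773291125) (nat_lit 608) (nat_lit 2647531726) (nat_lit 139) (nat_lit 5) (nat_lit 146) (nat_lit 3) (nat_lit 147) (nat_lit 5) (nat_lit 347) (nat_lit 346) (nat_lit 327)) (XT.lf (nat_lit 76) (nat_lit 5489457947) (nat_lit 0) (nat_lit 1183428215) (nat_lit 608) (nat_lit 1197375532) (nat_lit 140) (nat_lit 5) (nat_lit 139) (nat_lit 5) (nat_lit 147) (nat_lit 5) (nat_lit 348) (nat_lit 346) (nat_lit 326)))) (XT.nd (nat_lit 78) (nat_lit 0) (nat_lit 0) (XT.lf (nat_lit 0) (nat_lit 1081978668)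 (nat_lit 608) (nat_lit 3967008146) (nat_lit 684) (nat_lit 3045049573) (nat_lit 132) (nat_lit 5) (nat_lit 140) (nat_lit 5) (nat_lit 141) (nat_lit 5) (nat_lit 349) (nat_lit 346) (nat_lit 325)) (XT.nd (nat_lit 78) (nat_lit 0) (nat_lit 76) (XT.lf (nat_lit 76) (nat_lit 2823691552) (nat_lit 0) (nat_lit 588271673) (nat_lit 684) (nat_lit 4927416878) (nat_lit 133) (nat_lit 5) (nat_lit 132) (nat_lit 5) (nat_lit 141) (nat_lit 5) (nat_lit 350) (nat_lit 346) (nat_lit 324)) (XT.lf (nat_lit 76) (nat_lit 1543455801) (nat_lit 0) (nat_lit 4362198897) (nat_lit 684) (nat_lit 2699979467) (nat_lit 134) (nat_lit 5) (nat_lit 133) (nat_lit 5) (nat_lit 142) (nat_lit 5) (nat_lit 351) (nat_lit 346) (nat_lit 323))))) (XT.nd (nat_lit 234) (nat_lit 1900) (nat_lit 0) (XT.nd (nat_lit 78) (nat_lit 760) (nat_lit 0) (XT.lf (nat_lit 0) (nat_lit 325868876) (nat_lit 608) (nat_lit 8223121855) (nat_lit 684) (nat_lit 346827632) (nat_lit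 126) (nat_lit 5) (nat_lit 134) (nat_lit 5) (nat_lit 135) (nat_lit 5) (nat_lit 352) (nat_lit 346) (nat_lit 322)) (XT.nd (nat_lit 78) (nat_lit 684) (nat_lit 0) (XT.lf (nat_lit 0) (nat_lit 2159819394) (nat_lit 684) (nat_lit 895731887) (nat_lit 76) (nat_lit 6150299732) (nat_lit 125) (nat_lit 5) (nat_lit 134) (nat_lit 5) (nat_lit 126) (nat_lit 5) (nat_lit 353) (nat_lit 346) (nat_lit 321)) (XT.lf (nat_lit 0) (nat_lit 4862810541) (nat_lit 760) (nat_lit 2087069694) (nat_lit 76) (nat_lit 2590235665) (nat_lit 116) (nat_lit 5) (nat_lit 126) (nat_lit 5) (nat_lit 117) (nat_lit 5) (nat_lit 354) (nat_lit 346) (nat_lit 320)))) (XT.nd (nat_lit 156) (nat_lit 684) (nat_lit 0) (XT.nd (nat_lit 78) (nat_lit 456) (nat_lit 0) (XT.lf (nat_lit 0) (nat_lit 6630358412) (nat_lit 760) (nat_lit 1181086557) (nat_lit 836) (nat_lit 2088310592) (nat_lit 106) (nat_lit 5) (nat_lit 116) (nat_lit 5) (nat_lit 117) (nat_lit 5) (nat_lit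 355) (nat_lit 346) (nat_lit 319)) (XT.lf (nat_lit 0) (nat_lit 759849043) (nat_lit 456) (nat_lit 4489632552) (nat_lit 76) (nat_lit 5034488807) (nat_lit 100) (nat_lit 5) (nat_lit 106) (nat_lit 5) (nat_lit 101) (nat_lit 5) (nat_lit 356) (nat_lit 346) (nat_lit 318))) (XT.nd (nat_lit 78) (nat_lit 380) (nat_lit 0) (XT.lf (nat_lit 0) (nat_lit 3810509087) (nat_lit 380) (nat_lit 5738387290) (nat_lit 76) (nat_lit 1146008472) (nat_lit 96) (nat_lit 5) (nat_lit 101) (nat_lit 5) (nat_lit 97) (nat_lit 5) (nat_lit 357) (nat_lit 346) (nat_lit 317)) (XT.lf (nat_lit 0) (nat_lit 4093712071) (nat_lit 380) (nat_lit 3123660314) (nat_lit 456) (nat_lit 3915812604) (nat_lit 91) (nat_lit 5) (nat_lit 96) (nat_lit 5) (nat_lit 97) (nat_lit 5) (nat_lit 358) (nat_lit 346) (nat_lit 316))))))))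
noncomputable def xc58 : XT := (XT.nd (nat_lit 1872) (nat_lit 1748) (nat_lit 0) (XT.nd (nat_lit 936) (nat_lit 1596) (nat_lit 0) (XT.nd (nat_lit 468) (nat_lit 1368) (nat_lit 0) (XT.nd (nat_lit 234) (nat_lit 608) (nat_lit 0) (XT.nd (nat_lit 78) (nat_lit 608) (nat_lit 0) (XT.lf (nat_lit 0) (nat_lit 3226628409) (nat_lit 304) (nat_lit 7768643789) (nat_lit 380) (nat_lit 606403622) (nat_lit 87) (nat_lit 5) (nat_lit 91) (nat_lit 5) (nat_lit 92) (nat_lit 5) (nat_lit 359) (nat_lit 346) (nat_lit 315)) (XT.nd (nat_lit 78) (nat_lit 228) (nat_lit 0) (XT.lf (nat_lit 0) (nat_lit 2307574110) (nat_lit 304) (nat_lit 670071731) (nat_lit 380) (nat_lit 9122503662) (nat_lit 82) (nat_lit 5) (nat_lit 86) (nat_lit 5) (nat_lit 87) (nat_lit 5) (nat_lit 360) (nat_lit 346) (nat_lit 314)) (XT.lf (nat_lit 0) (nat_lit 1304180123) (nat_lit 228) (nat_lit 5698469728) (nat_lit 304) (nat_lit 5626639698) (nat_lit 79) (nat_lit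 5) (nat_lit 82) (nat_lit 5) (nat_lit 83) (nat_lit 5) (nat_lit 361) (nat_lit 346) (nat_lit 313)))) (XT.nd (nat_lit 78) (nat_lit 304) (nat_lit 0) (XT.lf (nat_lit 0) (nat_lit 284092958) (nat_lit 304) (nat_lit 11187010899) (nat_lit 380) (nat_lit 1723639384) (nat_lit 75) (nat_lit 5) (nat_lit 79) (nat_lit 5) (nat_lit 80) (nat_lit 5) (nat_lit 362) (nat_lit 346) (nat_lit 312)) (XT.nd (nat_lit 78) (nat_lit 228) (nat_lit 0) (XT.lf (nat_lit 0) (nat_lit 2614808777) (nat_lit 380) (nat_lit 832258858) (nat_lit 76) (nat_lit 10346321254) (nat_lit 74) (nat_lit 5) (nat_lit 79) (nat_lit 5) (nat_lit 75) (nat_lit 5) (nat_lit 363) (nat_lit 346) (nat_lit 311)) (XT.lf (nat_lit 0) (nat_lit 7428592848) (nat_lit 304) (nat_lit 2046337873) (nat_lit 76) (nat_lit 4954195097) (nat_lit 71) (nat_lit 5) (nat_lit 75) (nat_lit 5) (nat_lit 72) (nat_lit 5) (nat_lit 364) (nat_lit 346) (nat_lit 310))))) (XT.nd (nat_lit 234) (nat_lit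 608) (nat_lit 0) (XT.nd (nat_lit 78) (nat_lit 532) (nat_lit 0) (XT.lf (nat_lit 0) (nat_lit 11773907375) (nat_lit 228) (nat_lit 1027797598) (nat_lit 304) (nat_lit 2305346989) (nat_lit 68) (nat_lit 5) (nat_lit 71) (nat_lit 5) (nat_lit 72) (nat_lit 5) (nat_lit 365) (nat_lit 346) (nat_lit 309)) (XT.nd (nat_lit 78) (nat_lit 228) (nat_lit 0) (XT.lf (nat_lit 0) (nat_lit 2937693251) (nat_lit 304) (nat_lit 4824527975) (nat_lit 76) (nat_lit 8061831206) (nat_lit 64) (nat_lit 5) (nat_lit 68) (nat_lit 5) (nat_lit 65) (nat_lit 5) (nat_lit 366) (nat_lit 346) (nat_lit 308)) (XT.lf (nat_lit 0) (nat_lit 8702898635) (nat_lit 304) (nat_lit 6451746476) (nat_lit 76) (nat_lit 1432737605) (nat_lit 61) (nat_lit 5) (nat_lit 65) (nat_lit 5) (nat_lit 62) (nat_lit 5) (nat_lit 367) (nat_lit 346) (nat_lit 307)))) (XT.nd (nat_lit 78) (nat_lit 456) (nat_lit 0) (XT.lf (nat_lit 0) (nat_lit 9107827933) (nat_lit 152) (nat_lit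 6107753433) (nat_lit 228) (nat_lit 2181916405) (nat_lit 59) (nat_lit 5) (nat_lit 61) (nat_lit 5) (nat_lit 62) (nat_lit 5) (nat_lit 368) (nat_lit 346) (nat_lit 306)) (XT.nd (nat_lit 78) (nat_lit 152) (nat_lit 0) (XT.lf (nat_lit 0) (nat_lit 4079960356) (nat_lit 304) (nat_lit 10362185758) (nat_lit 76) (nat_lit 3815679712) (nat_lit 55) (nat_lit 5) (nat_lit 59) (nat_lit 5) (nat_lit 56) (nat_lit 5) (nat_lit 369) (nat_lit 346) (nat_lit 305)) (XT.lf (nat_lit 0) (nat_lit 6451897678) (nat_lit 152) (nat_lit 4599306935) (nat_lit 228) (nat_lit 8119769636) (nat_lit 53) (nat_lit 5) (nat_lit 55) (nat_lit 5) (nat_lit 56) (nat_lit 5) (nat_lit 370) (nat_lit 346) (nat_lit 304)))))) (XT.nd (nat_lit 468) (nat_lit 684) (nat_lit 0) (XT.nd (nat_lit 234) (nat_lit 380) (nat_lit 0) (XT.nd (nat_lit 78) (nat_lit 380) (nat_lit 0) (XT.lf (nat_lit 0) (nat_lit 4786500565) (nat_lit 152) (nat_lit 14082155208) (nat_lit 228)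 (nat_lit 1274117141) (nat_lit 51) (nat_lit 5) (nat_lit 53) (nat_lit 5) (nat_lit 54) (nat_lit 5) (nat_lit 371) (nat_lit 346) (nat_lit 303)) (XT.nd (nat_lit 78) (nat_lit 152) (nat_lit 0) (XT.lf (nat_lit 0) (nat_lit 2777485675) (nat_lit 152) (nat_lit 3430293777) (nat_lit 228) (nat_lit 14965557860) (nat_lit 48) (nat_lit 5) (nat_lit 50) (nat_lit 5) (nat_lit 51) (nat_lit 5) (nat_lit 372) (nat_lit 346) (nat_lit 302)) (XT.lf (nat_lit 0) (nat_lit 400037348) (nat_lit 152) (nat_lit 14189156299) (nat_lit 228) (nat_lit 7678848003) (nat_lit 46) (nat_lit 5) (nat_lit 48) (nat_lit 5) (nat_lit 49) (nat_lit 5) (nat_lit 373) (nat_lit 346) (nat_lit 301)))) (XT.nd (nat_lit 78) (nat_lit 304) (nat_lit 0) (XT.lf (nat_lit 0) (nat_lit 511034580) (nat_lit 228) (nat_lit 2239690843) (nat_lit 76) (nat_lit 20683147921) (nat_lit 45) (nat_lit 5) (nat_lit 48) (nat_lit 5) (nat_lit 46) (nat_lit 5) (nat_lit 374) (nat_lit 346)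 (nat_lit 300)) (XT.nd (nat_lit 78) (nat_lit 152) (nat_lit 0) (XT.lf (nat_lit 0) (nat_lit 9496431074) (nat_lit 228) (nat_lit 5470160606) (nat_lit 76) (nat_lit 9699633945) (nat_lit 43) (nat_lit 5) (nat_lit 46) (nat_lit 5) (nat_lit 44) (nat_lit 5) (nat_lit 375) (nat_lit 346) (nat_lit 299)) (XT.lf (nat_lit 0) (nat_lit 16836428863) (nat_lit 152) (nat_lit 2662230372) (nat_lit 228) (nat_lit 6483621506) (nat_lit 41) (nat_lit 5) (nat_lit 43) (nat_lit 5) (nat_lit 44) (nat_lit 5) (nat_lit 376) (nat_lit 346) (nat_lit 298))))) (XT.nd (nat_lit 234) (nat_lit 304) (nat_lit 0) (XT.nd (nat_lit 78) (nat_lit 228) (nat_lit 0) (XT.lf (nat_lit 0) (nat_lit 3242836192) (nat_lit 152) (nat_lit 13517380371) (nat_lit 76) (nat_lit 10619248404) (nat_lit 39) (nat_lit 5) (nat_lit 41) (nat_lit 5) (nat_lit 40) (nat_lit 5) (nat_lit 377) (nat_lit 346) (nat_lit 297)) (XT.nd (nat_lit 78) (nat_lit 76) (nat_lit 0) (XT.lf (nat_lit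 0) (nat_lit 10245000811) (nat_lit 152) (nat_lit 3597675836) (nat_lit 228) (nat_lit 15024323773) (nat_lit 37) (nat_lit 5) (nat_lit 39) (nat_lit 5) (nat_lit 40) (nat_lit 5) (nat_lit 378) (nat_lit 346) (nat_lit 296)) (XT.lf (nat_lit 0) (nat_lit 5866435028) (nat_lit 76) (nat_lit 19875112864) (nat_lit 152) (nat_lit 4709449715) (nat_lit 36) (nat_lit 5) (nat_lit 37) (nat_lit 5) (nat_lit 38) (nat_lit 4) (nat_lit 379) (nat_lit 346) (nat_lit 295)))) (XT.nd (nat_lit 78) (nat_lit 76) (nat_lit 0) (XT.lf (nat_lit 0) (nat_lit 607546867) (nat_lit 152) (nat_lit 5972899636) (nat_lit 228) (nat_lit 25558475238) (nat_lit 33) (nat_lit 5) (nat_lit 35) (nat_lit 5) (nat_lit 36) (nat_lit 5) (nat_lit 380) (nat_lit 346) (nat_lit 294)) (XT.nd (nat_lit 78) (nat_lit 76) (nat_lit 0) (XT.lf (nat_lit 0) (nat_lit 19144550005) (nat_lit 228) (nat_lit 5552242242) (nat_lit 76) (nat_lit 9234435811) (nat_lit 33) (nat_lit 5) (nat_lit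 36) (nat_lit 5) (nat_lit 34) (nat_lit 4) (nat_lit 381) (nat_lit 346) (nat_lit 293)) (XT.lf (nat_lit 0) (nat_lit 23071539146) (nat_lit 76) (nat_lit 10063700668) (nat_lit 152) (nat_lit 2710614539) (nat_lit 32) (nat_lit 5) (nat_lit 33) (nat_lit 5) (nat_lit 34) (nat_lit 4) (nat_lit 382) (nat_lit 346) (nat_lit 292))))))) (XT.nd (nat_lit 936) (nat_lit 684) (nat_lit 0) (XT.nd (nat_lit 468) (nat_lit 456) (nat_lit 0) (XT.nd (nat_lit 234) (nat_lit 304) (nat_lit 0) (XT.nd (nat_lit 78) (nat_lit 76) (nat_lit 0) (XT.lf (nat_lit 0) (nat_lit 10417300055) (nat_lit 228) (nat_lit 21414633114) (nat_lit 76) (nat_lit 6052837777) (nat_lit 29) (nat_lit 5) (nat_lit 32) (nat_lit 5) (nat_lit 30) (nat_lit 4) (nat_lit 383) (nat_lit 346) (nat_lit 291)) (XT.nd (nat_lit 78) (nat_lit 0) (nat_lit 0) (XT.lf (nat_lit 0) (nat_lit 8417086912) (nat_lit 76) (nat_lit 16575027604) (nat_lit 152) (nat_lit 15067889703) (nat_lit 28)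 (nat_lit 5) (nat_lit 29) (nat_lit 5) (nat_lit 30) (nat_lit 4) (nat_lit 384) (nat_lit 346) (nat_lit 290)) (XT.lf (nat_lit 0) (nat_lit 41074879399) (nat_lit 152) (nat_lit 1061397745) (nat_lit 0) (nat_lit 255887077) (nat_lit 28) (nat_lit 5) (nat_lit 30) (nat_lit 4) (nat_lit 28) (nat_lit 4) (nat_lit 385) (nat_lit 346) (nat_lit 289)))) (XT.nd (nat_lit 78) (nat_lit 152) (nat_lit 0) (XT.lf (nat_lit 0) (nat_lit 13869177561) (nat_lit 152) (nat_lit 12425268346) (nat_lit 76) (nat_lit 18567443938) (nat_lit 26) (nat_lit 5) (nat_lit 28) (nat_lit 5) (nat_lit 27) (nat_lit 4) (nat_lit 386) (nat_lit 346) (nat_lit 288)) (XT.nd (nat_lit 78) (nat_lit 76) (nat_lit 0) (XT.lf (nat_lit 0) (nat_lit 21737594332) (nat_lit 76) (nat_lit 8813598459) (nat_lit 152) (nat_lit 16960586803) (nat_lit 25) (nat_lit 5) (nat_lit 26) (nat_lit 5) (nat_lit 27) (nat_lit 4) (nat_lit 387) (nat_lit 346) (nat_lit 287)) (XT.lf (nat_lit 0)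 (nat_lit 8776279312) (nat_lit 76) (nat_lit 40274711019) (nat_lit 76) (nat_lit 1298513923) (nat_lit 24) (nat_lit 4) (nat_lit 25) (nat_lit 5) (nat_lit 25) (nat_lit 4) (nat_lit 388) (nat_lit 346) (nat_lit 286))))) (XT.nd (nat_lit 234) (nat_lit 228) (nat_lit 0) (XT.nd (nat_lit 78) (nat_lit 152) (nat_lit 0) (XT.lf (nat_lit 0) (nat_lit 15691631779) (nat_lit 152) (nat_lit 6837149177) (nat_lit 76) (nat_lit 30844532601) (nat_lit 23) (nat_lit 5) (nat_lit 25) (nat_lit 5) (nat_lit 24) (nat_lit 4) (nat_lit 389) (nat_lit 346) (nat_lit 285)) (XT.nd (nat_lit 78) (nat_lit 76) (nat_lit 0) (XT.lf (nat_lit 0) (nat_lit 31615277331) (nat_lit 76) (nat_lit 2846642550) (nat_lit 152) (nat_lit 22152726058) (nat_lit 22) (nat_lit 5) (nat_lit 23) (nat_lit 5) (nat_lit 24) (nat_lit 4) (nat_lit 390) (nat_lit 346) (nat_lit 284)) (XT.lf (nat_lit 0) (nat_lit 13365925938) (nat_lit 76) (nat_lit 41958184972) (nat_lit 76) (nat_lit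 4761663628) (nat_lit 21) (nat_lit 4) (nat_lit 22) (nat_lit 5) (nat_lit 22) (nat_lit 4) (nat_lit 391) (nat_lit 346) (nat_lit 283)))) (XT.nd (nat_lit 78) (nat_lit 152) (nat_lit 0) (XT.lf (nat_lit 0) (nat_lit 14036464986) (nat_lit 152) (nat_lit 8443539710) (nat_lit 76) (nat_lit 41320420280) (nat_lit 20) (nat_lit 5) (nat_lit 22) (nat_lit 5) (nat_lit 21) (nat_lit 4) (nat_lit 392) (nat_lit 346) (nat_lit 282)) (XT.nd (nat_lit 78) (nat_lit 76) (nat_lit 0) (XT.lf (nat_lit 0) (nat_lit 33851905267) (nat_lit 76) (nat_lit 826317698) (nat_lit 152) (nat_lit 33104794207) (nat_lit 19) (nat_lit 5) (nat_lit 20) (nat_lit 5) (nat_lit 21) (nat_lit 4) (nat_lit 393) (nat_lit 346) (nat_lit 281)) (XT.lf (nat_lit 0) (nat_lit 7599261468) (nat_lit 76) (nat_lit 49969039029) (nat_lit 76) (nat_lit 14486070037) (nat_lit 18) (nat_lit 4) (nat_lit 19) (nat_lit 5) (nat_lit 19) (nat_lit 4) (nat_lit 394) (nat_lit 346) (nat_lit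 280)))))) (XT.nd (nat_lit 468) (nat_lit 304) (nat_lit 0) (XT.nd (nat_lit 234) (nat_lit 228) (nat_lit 0) (XT.nd (nat_lit 78) (nat_lit 76) (nat_lit 0) (XT.lf (nat_lit 0) (nat_lit 6034202068) (nat_lit 152) (nat_lit 23129314743) (nat_lit 76) (nat_lit 47469929191) (nat_lit 17) (nat_lit 5) (nat_lit 19) (nat_lit 5) (nat_lit 18) (nat_lit 4) (nat_lit 395) (nat_lit 346) (nat_lit 279)) (XT.nd (nat_lit 78) (nat_lit 0) (nat_lit 0) (XT.lf (nat_lit 0) (nat_lit 21919309462) (nat_lit 76) (nat_lit 6097265746) (nat_lit 152) (nat_lit 53534000676) (nat_lit 16) (nat_lit 5) (nat_lit 17) (nat_lit 5) (nat_lit 18) (nat_lit 4) (nat_lit 396) (nat_lit 346) (nat_lit 278)) (XT.lf (nat_lit 0) (nat_lit 52440436911) (nat_lit 152) (nat_lit 15782994233) (nat_lit 0) (nat_lit 18603502145) (nat_lit 16) (nat_lit 5) (nat_lit 18) (nat_lit 4) (nat_lit 16) (nat_lit 4) (nat_lit 397) (nat_lit 346) (nat_lit 277)))) (XT.nd (nat_lit 78)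 (nat_lit 152) (nat_lit 0) (XT.lf (nat_lit 0) (nat_lit 32473117230) (nat_lit 76) (nat_lit 46936057322) (nat_lit 76) (nat_lit 13086678298) (nat_lit 15) (nat_lit 4) (nat_lit 16) (nat_lit 5) (nat_lit 16) (nat_lit 4) (nat_lit 398) (nat_lit 346) (nat_lit 276)) (XT.nd (nat_lit 78) (nat_lit 76) (nat_lit 0) (XT.lf (nat_lit 0) (nat_lit 9860864535) (nat_lit 152) (nat_lit 13646129187) (nat_lit 76) (nat_lit 75090494777) (nat_lit 14) (nat_lit 5) (nat_lit 16) (nat_lit 5) (nat_lit 15) (nat_lit 4) (nat_lit 399) (nat_lit 346) (nat_lit 275)) (XT.lf (nat_lit 0) (nat_lit 34799558101) (nat_lit 152) (nat_lit 67805360044) (nat_lit 0) (nat_lit 2540919595) (nat_lit 13) (nat_lit 5) (nat_lit 15) (nat_lit 4) (nat_lit 13) (nat_lit 4) (nat_lit 400) (nat_lit 346) (nat_lit 274))))) (XT.nd (nat_lit 234) (nat_lit 228) (nat_lit 0) (XT.nd (nat_lit 78) (nat_lit 76) (nat_lit 0) (XT.lf (nat_lit 0) (nat_lit 62354911821) (nat_lit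 152) (nat_lit 19745201239) (nat_lit 0) (nat_lit 30086865073) (nat_lit 13) (nat_lit 5) (nat_lit 15) (nat_lit 4) (nat_lit 13) (nat_lit 4) (nat_lit 401) (nat_lit 346) (nat_lit 273)) (XT.nd (nat_lit 78) (nat_lit 0) (nat_lit 0) (XT.lf (nat_lit 0) (nat_lit 33192435520) (nat_lit 76) (nat_lit 59425291013) (nat_lit 76) (nat_lit 27148532931) (nat_lit 12) (nat_lit 4) (nat_lit 13) (nat_lit 5) (nat_lit 13) (nat_lit 4) (nat_lit 402) (nat_lit 346) (nat_lit 272)) (XT.lf (nat_lit 0) (nat_lit 91041768738) (nat_lit 76) (nat_lit 34589234060) (nat_lit 76) (nat_lit 2304409928) (nat_lit 12) (nat_lit 4) (nat_lit 13) (nat_lit 5) (nat_lit 13) (nat_lit 4) (nat_lit 403) (nat_lit 346) (nat_lit 271)))) (XT.nd (nat_lit 156) (nat_lit 76) (nat_lit 0) (XT.nd (nat_lit 78) (nat_lit 0) (nat_lit 0) (XT.lf (nat_lit 0) (nat_lit 16891900083) (nat_lit 76) (nat_lit 7100389078) (nat_lit 152) (nat_lit 112734159672) (nat_lit 10) (nat_lit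 5) (nat_lit 11) (nat_lit 5) (nat_lit 12) (nat_lit 4) (nat_lit 404) (nat_lit 346) (nat_lit 270)) (XT.lf (nat_lit 0) (nat_lit 53305679873) (nat_lit 152) (nat_lit 70318986196) (nat_lit 0) (nat_lit 22544529362) (nat_lit 10) (nat_lit 5) (nat_lit 12) (nat_lit 4) (nat_lit 10) (nat_lit 4) (nat_lit 405) (nat_lit 346) (nat_lit 269))) (XT.nd (nat_lit 78) (nat_lit 76) (nat_lit 0) (XT.lf (nat_lit 0) (nat_lit 85071605829) (nat_lit 152) (nat_lit 16986026532) (nat_lit 0) (nat_lit 54304357137) (nat_lit 10) (nat_lit 5) (nat_lit 12) (nat_lit 4) (nat_lit 10) (nat_lit 4) (nat_lit 406) (nat_lit 346) (nat_lit 268)) (XT.lf (nat_lit 0) (nat_lit 41933363907) (nat_lit 76) (nat_lit 78088786003) (nat_lit 76) (nat_lit 47315890846) (nat_lit 9) (nat_lit 4) (nat_lit 10) (nat_lit 5) (nat_lit 10) (nat_lit 4) (nat_lit 407) (nat_lit 346) (nat_lit 267))))))))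
noncomputable def xc59 : XT := (XT.nd (nat_lit 1872) (nat_lit 0) (nat_lit 0) (XT.nd (nat_lit 936) (nat_lit 76) (nat_lit 0) (XT.nd (nat_lit 468) (nat_lit 152) (nat_lit 0) (XT.nd (nat_lit 234) (nat_lit 76) (nat_lit 0) (XT.nd (nat_lit 78) (nat_lit 152) (nat_lit 0) (XT.lf (nat_lit 0) (nat_lit 106151506262) (nat_lit 76) (nat_lit 51902271017) (nat_lit 76) (nat_lit 21124147652) (nat_lit 9) (nat_lit 4) (nat_lit 10) (nat_lit 5) (nat_lit 10) (nat_lit 4) (nat_lit 408) (nat_lit 346) (nat_lit 266)) (XT.nd (nat_lit 78) (nat_lit 76) (nat_lit 0) (XT.lf (nat_lit 0) (nat_lit 6923468527) (nat_lit 152) (nat_lit 16589853817) (nat_lit 76) (nat_lit 168446596922) (nat_lit 8) (nat_lit 5) (nat_lit 10) (nat_lit 5) (nat_lit 9) (nat_lit 4) (nat_lit 409) (nat_lit 346) (nat_lit 265)) (XT.lf (nat_lit 0) (nat_lit 37313621201) (nat_lit 152) (nat_lit 160399353564) (nat_lit 0) (nat_lit 7992243444) (nat_lit 7) (nat_lit 5) (nat_lit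 9) (nat_lit 4) (nat_lit 7) (nat_lit 4) (nat_lit 410) (nat_lit 346) (nat_lit 264)))) (XT.nd (nat_lit 78) (nat_lit 76) (nat_lit 0) (XT.lf (nat_lit 0) (nat_lit 70816018626) (nat_lit 152) (nat_lit 108209383239) (nat_lit 0) (nat_lit 41490688183) (nat_lit 7) (nat_lit 5) (nat_lit 9) (nat_lit 4) (nat_lit 7) (nat_lit 4) (nat_lit 411) (nat_lit 346) (nat_lit 263)) (XT.nd (nat_lit 78) (nat_lit 76) (nat_lit 0) (XT.lf (nat_lit 0) (nat_lit 106990119853) (nat_lit 152) (nat_lit 51861007229) (nat_lit 0) (nat_lit 77661129516) (nat_lit 7) (nat_lit 5) (nat_lit 9) (nat_lit 4) (nat_lit 7) (nat_lit 4) (nat_lit 412) (nat_lit 346) (nat_lit 262)) (XT.lf (nat_lit 0) (nat_lit 9276599899) (nat_lit 76) (nat_lit 136918523749) (nat_lit 76) (nat_lit 107586144621) (nat_lit 6) (nat_lit 4) (nat_lit 7) (nat_lit 5) (nat_lit 7) (nat_lit 4) (nat_lit 413) (nat_lit 346) (nat_lit 261))))) (XT.nd (nat_lit 234) (nat_lit 152) (nat_lit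 0) (XT.nd (nat_lit 78) (nat_lit 0) (nat_lit 0) (XT.lf (nat_lit 0) (nat_lit 77142283046) (nat_lit 76) (nat_lit 112290120704) (nat_lit 76) (nat_lit 82954603807) (nat_lit 6) (nat_lit 4) (nat_lit 7) (nat_lit 5) (nat_lit 7) (nat_lit 4) (nat_lit 414) (nat_lit 346) (nat_lit 260)) (XT.nd (nat_lit 78) (nat_lit 0) (nat_lit 0) (XT.lf (nat_lit 0) (nat_lit 150423450111) (nat_lit 76) (nat_lit 85698263108) (nat_lit 76) (nat_lit 56359840868) (nat_lit 6) (nat_lit 4) (nat_lit 7) (nat_lit 5) (nat_lit 7) (nat_lit 4) (nat_lit 415) (nat_lit 346) (nat_lit 259)) (XT.lf (nat_lit 0) (nat_lit 229554359863) (nat_lit 76) (nat_lit 56985369581) (nat_lit 76) (nat_lit 27644257210) (nat_lit 6) (nat_lit 4) (nat_lit 7) (nat_lit 5) (nat_lit 7) (nat_lit 4) (nat_lit 416) (nat_lit 346) (nat_lit 258)))) (XT.nd (nat_lit 78) (nat_lit 76) (nat_lit 0) (XT.lf (nat_lit 0) (nat_lit 3254698556) (nat_lit 152) (nat_lit 22671471192) (nat_lit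 76) (nat_lit 311694117759) (nat_lit 5) (nat_lit 5) (nat_lit 7) (nat_lit 5) (nat_lit 6) (nat_lit 4) (nat_lit 417) (nat_lit 346) (nat_lit 257)) (XT.nd (nat_lit 78) (nat_lit 0) (nat_lit 0) (XT.lf (nat_lit 0) (nat_lit 36508355471) (nat_lit 152) (nat_lit 317798042680) (nat_lit 0) (nat_lit 8559870150) (nat_lit 4) (nat_lit 5) (nat_lit 6) (nat_lit 4) (nat_lit 4) (nat_lit 4) (nat_lit 418) (nat_lit 346) (nat_lit 256)) (XT.lf (nat_lit 0) (nat_lit 73255420901) (nat_lit 152) (nat_lit 271529949414) (nat_lit 0) (nat_lit 45304901757) (nat_lit 4) (nat_lit 5) (nat_lit 6) (nat_lit 4) (nat_lit 4) (nat_lit 4) (nat_lit 419) (nat_lit 346) (nat_lit 255)))))) (XT.nd (nat_lit 468) (nat_lit 0) (nat_lit 0) (XT.nd (nat_lit 234) (nat_lit 76) (nat_lit 0) (XT.nd (nat_lit 78) (nat_lit 0) (nat_lit 0) (XT.lf (nat_lit 0) (nat_lit 112937211603) (nat_lit 152) (nat_lit 221570427541) (nat_lit 0) (nat_lit 84984809290) (nat_lit 4)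 (nat_lit 5) (nat_lit 6) (nat_lit 4) (nat_lit 4) (nat_lit 4) (nat_lit 420) (nat_lit 346) (nat_lit 254)) (XT.nd (nat_lit 78) (nat_lit 0) (nat_lit 0) (XT.lf (nat_lit 0) (nat_lit 155788878929) (nat_lit 152) (nat_lit 167623420633) (nat_lit 0) (nat_lit 127834732942) (nat_lit 4) (nat_lit 5) (nat_lit 6) (nat_lit 4) (nat_lit 4) (nat_lit 4) (nat_lit 421) (nat_lit 346) (nat_lit 253)) (XT.lf (nat_lit 0) (nat_lit 202064358686) (nat_lit 152) (nat_lit 109369242725) (nat_lit 0) (nat_lit 174108598185) (nat_lit 4) (nat_lit 5) (nat_lit 6) (nat_lit 4) (nat_lit 4) (nat_lit 4) (nat_lit 422) (nat_lit 346) (nat_lit 252)))) (XT.nd (nat_lit 78) (nat_lit 76) (nat_lit 0) (XT.lf (nat_lit 0) (nat_lit 252037875939) (nat_lit 152) (nat_lit 46462683873) (nat_lit 0) (nat_lit 224080620519) (nat_lit 4) (nat_lit 5) (nat_lit 6) (nat_lit 4) (nat_lit 4) (nat_lit 4) (nat_lit 423) (nat_lit 346) (nat_lit 251)) (XT.nd (nat_lit 78) (nat_lit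 0) (nat_lit 0) (XT.lf (nat_lit 0) (nat_lit 22178898802) (nat_lit 76) (nat_lit 284172946014) (nat_lit 76) (nat_lit 256214306408) (nat_lit 3) (nat_lit 4) (nat_lit 4) (nat_lit 5) (nat_lit 4) (nat_lit 4) (nat_lit 424) (nat_lit 346) (nat_lit 250)) (XT.lf (nat_lit 0) (nat_lit 97963931426) (nat_lit 76) (nat_lit 267852809662) (nat_lit 76) (nat_lit 239892888404) (nat_lit 3) (nat_lit 4) (nat_lit 4) (nat_lit 5) (nat_lit 4) (nat_lit 4) (nat_lit 425) (nat_lit 346) (nat_lit 249))))) (XT.nd (nat_lit 234) (nat_lit 0) (nat_lit 0) (XT.nd (nat_lit 78) (nat_lit 0) (nat_lit 0) (XT.lf (nat_lit 0) (nat_lit 179805244328) (nat_lit 76) (nat_lit 250230306872) (nat_lit 76) (nat_lit 222269198897) (nat_lit 3) (nat_lit 4) (nat_lit 4) (nat_lit 5) (nat_lit 4) (nat_lit 4) (nat_lit 426) (nat_lit 346) (nat_lit 248)) (XT.nd (nat_lit 78) (nat_lit 0) (nat_lit 0) (XT.lf (nat_lit 0) (nat_lit 268187823065) (nat_lit 76) (nat_lit 231201007996)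 (nat_lit 76) (nat_lit 203238801211) (nat_lit 3) (nat_lit 4) (nat_lit 4) (nat_lit 5) (nat_lit 4) (nat_lit 4) (nat_lit 427) (nat_lit 346) (nat_lit 247)) (XT.lf (nat_lit 0) (nat_lit 363635416253) (nat_lit 76) (nat_lit 210652146820) (nat_lit 76) (nat_lit 182688922618) (nat_lit 3) (nat_lit 4) (nat_lit 4) (nat_lit 5) (nat_lit 4) (nat_lit 4) (nat_lit 428) (nat_lit 346) (nat_lit 246)))) (XT.nd (nat_lit 78) (nat_lit 0) (nat_lit 0) (XT.lf (nat_lit 0) (nat_lit 466713639258) (nat_lit 76) (nat_lit 188461952315) (nat_lit 76) (nat_lit 160497786059) (nat_lit 3) (nat_lit 4) (nat_lit 4) (nat_lit 5) (nat_lit 4) (nat_lit 4) (nat_lit 429) (nat_lit 346) (nat_lit 245)) (XT.nd (nat_lit 78) (nat_lit 0) (nat_lit 0) (XT.lf (nat_lit 0) (nat_lit 578033325994) (nat_lit 76) (nat_lit 164498927030) (nat_lit 76) (nat_lit 136533888503) (nat_lit 3) (nat_lit 4) (nat_lit 4) (nat_lit 5) (nat_lit 4) (nat_lit 4) (nat_lit 430) (nat_lit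 346) (nat_lit 244)) (XT.lf (nat_lit 0) (nat_lit 698254148679) (nat_lit 76) (nat_lit 138621067854) (nat_lit 76) (nat_lit 110655221669) (nat_lit 3) (nat_lit 4) (nat_lit 4) (nat_lit 5) (nat_lit 4) (nat_lit 4) (nat_lit 431) (nat_lit 346) (nat_lit 243))))))) (XT.nd (nat_lit 47190) (nat_lit 0) (nat_lit 4408) (XT.nd (nat_lit 46722) (nat_lit 0) (nat_lit 7828) (XT.nd (nat_lit 46488) (nat_lit 0) (nat_lit 9728) (XT.nd (nat_lit 78) (nat_lit 0) (nat_lit 0) (XT.lf (nat_lit 0) (nat_lit 828088527004) (nat_lit 76) (nat_lit 110675024511) (nat_lit 76) (nat_lit 82708430493) (nat_lit 3) (nat_lit 4) (nat_lit 4) (nat_lit 5) (nat_lit 4) (nat_lit 4) (nat_lit 432) (nat_lit 346) (nat_lit 242)) (XT.nd (nat_lit 78) (nat_lit 0) (nat_lit 0) (XT.lf (nat_lit 0) (nat_lit 968305849876) (nat_lit 76) (nat_lit 80495190816) (nat_lit 76) (nat_lit 52527904361) (nat_lit 3) (nat_lit 4) (nat_lit 4) (nat_lit 5) (nat_lit 4) (nat_lit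 4) (nat_lit 433) (nat_lit 346) (nat_lit 241)) (XT.lf (nat_lit 0) (nat_lit 1119737034765) (nat_lit 76) (nat_lit 47902723312) (nat_lit 76) (nat_lit 19934795711) (nat_lit 3) (nat_lit 4) (nat_lit 4) (nat_lit 5) (nat_lit 4) (nat_lit 4) (nat_lit 434) (nat_lit 346) (nat_lit 240)))) (XT.nd (nat_lit 78) (nat_lit 608) (nat_lit 0) (XT.lf (nat_lit 0) (nat_lit 1602949462) (nat_lit 0) (nat_lit 1602949462) (nat_lit 532) (nat_lit 723662858) (nat_lit 139) (nat_lit 5) (nat_lit 139) (nat_lit 3) (nat_lit 146) (nat_lit 3) (nat_lit 347) (nat_lit 347) (nat_lit 326)) (XT.nd (nat_lit 78) (nat_lit 0) (nat_lit 0) (XT.lf (nat_lit 0) (nat_lit 535949521) (nat_lit 608) (nat_lit 6607162734) (nat_lit 684) (nat_lit 930301317) (nat_lit 131) (nat_lit 5) (nat_lit 139) (nat_lit 5) (nat_lit 140) (nat_lit 5) (nat_lit 348) (nat_lit 347) (nat_lit 325)) (XT.lf (nat_lit 0) (nat_lit 2568485416) (nat_lit 608) (nat_lit 256735712) (nat_lit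 684) (nat_lit 5481534136) (nat_lit 131) (nat_lit 5) (nat_lit 139) (nat_lit 5) (nat_lit 140) (nat_lit 5) (nat_lit 349) (nat_lit 347) (nat_lit 324))))) (XT.nd (nat_lit 234) (nat_lit 1368) (nat_lit 0) (XT.nd (nat_lit 78) (nat_lit 608) (nat_lit 0) (XT.lf (nat_lit 0) (nat_lit 4718583177) (nat_lit 608) (nat_lit 1886768722) (nat_lit 684) (nat_lit 1955812699) (nat_lit 132) (nat_lit 5) (nat_lit 140) (nat_lit 5) (nat_lit 141) (nat_lit 5) (nat_lit 350) (nat_lit 347) (nat_lit 323)) (XT.nd (nat_lit 78) (nat_lit 608) (nat_lit 0) (XT.lf (nat_lit 76) (nat_lit 5342990175) (nat_lit 0) (nat_lit 1664816391) (nat_lit 684) (nat_lit 1829901495) (nat_lit 133) (nat_lit 5) (nat_lit 132) (nat_lit 5) (nat_lit 141) (nat_lit 5) (nat_lit 351) (nat_lit 347) (nat_lit 322)) (XT.lf (nat_lit 0) (nat_lit 329428981) (nat_lit 684) (nat_lit 5104447447) (nat_lit 760) (nat_lit 3702519261) (nat_lit 124) (nat_lit 5) (nat_lit 133) (nat_lit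 5) (nat_lit 134) (nat_lit 5) (nat_lit 352) (nat_lit 347) (nat_lit 321)))) (XT.nd (nat_lit 78) (nat_lit 1444) (nat_lit 0) (XT.lf (nat_lit 0) (nat_lit 2583849795) (nat_lit 684) (nat_lit 6721057812) (nat_lit 76) (nat_lit 153360150) (nat_lit 125) (nat_lit 5) (nat_lit 134) (nat_lit 5) (nat_lit 126) (nat_lit 5) (nat_lit 353) (nat_lit 347) (nat_lit 320)) (XT.nd (nat_lit 78) (nat_lit 760) (nat_lit 0) (XT.lf (nat_lit 0) (nat_lit 1419371160) (nat_lit 684) (nat_lit 3663574643) (nat_lit 760) (nat_lit 4719831494) (nat_lit 116) (nat_lit 5) (nat_lit 125) (nat_lit 5) (nat_lit 126) (nat_lit 5) (nat_lit 354) (nat_lit 347) (nat_lit 319)) (XT.lf (nat_lit 0) (nat_lit 124477059) (nat_lit 760) (nat_lit 7685341785) (nat_lit 836) (nat_lit 2363732382) (nat_lit 106) (nat_lit 5) (nat_lit 116) (nat_lit 5) (nat_lit 117) (nat_lit 5) (nat_lit 355) (nat_lit 347) (nat_lit 318)))))) (XT.nd (nat_lit 468) (nat_lit 1596) (nat_lit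 0) (XT.nd (nat_lit 234) (nat_lit 1064) (nat_lit 0) (XT.nd (nat_lit 78) (nat_lit 684) (nat_lit 0) (XT.lf (nat_lit 0) (nat_lit 260036382) (nat_lit 836) (nat_lit 1141964694) (nat_lit 76) (nat_lit 9167681042) (nat_lit 105) (nat_lit 5) (nat_lit 116) (nat_lit 5) (nat_lit 106) (nat_lit 5) (nat_lit 356) (nat_lit 347) (nat_lit 317)) (XT.nd (nat_lit 78) (nat_lit 304) (nat_lit 0) (XT.lf (nat_lit 0) (nat_lit 3117317995) (nat_lit 456) (nat_lit 2480206111) (nat_lit 76) (nat_lit 5392799101) (nat_lit 100) (nat_lit 5) (nat_lit 106) (nat_lit 5) (nat_lit 101) (nat_lit 5) (nat_lit 357) (nat_lit 347) (nat_lit 316)) (XT.lf (nat_lit 0) (nat_lit 6278899164) (nat_lit 380) (nat_lit 3823903221) (nat_lit 76) (nat_lit 1338099997) (nat_lit 96) (nat_lit 5) (nat_lit 101) (nat_lit 5) (nat_lit 97) (nat_lit 5) (nat_lit 358) (nat_lit 347) (nat_lit 315)))) (XT.nd (nat_lit 78) (nat_lit 684) (nat_lit 0) (XT.lf (nat_lit 0) (nat_lit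 6691612278) (nat_lit 380) (nat_lit 3141883691) (nat_lit 456) (nat_lit 2087094735) (nat_lit 91) (nat_lit 5) (nat_lit 96) (nat_lit 5) (nat_lit 97) (nat_lit 5) (nat_lit 359) (nat_lit 347) (nat_lit 314)) (XT.nd (nat_lit 78) (nat_lit 304) (nat_lit 0) (XT.lf (nat_lit 0) (nat_lit 1325263441) (nat_lit 380) (nat_lit 6701851754) (nat_lit 76) (nat_lit 4404087732) (nat_lit 86) (nat_lit 5) (nat_lit 91) (nat_lit 5) (nat_lit 87) (nat_lit 5) (nat_lit 360) (nat_lit 347) (nat_lit 313)) (XT.lf (nat_lit 0) (nat_lit 4723766192) (nat_lit 304) (nat_lit 341023328) (nat_lit 380) (nat_lit 7909853756) (nat_lit 82) (nat_lit 5) (nat_lit 86) (nat_lit 5) (nat_lit 87) (nat_lit 5) (nat_lit 361) (nat_lit 347) (nat_lit 312))))) (XT.nd (nat_lit 234) (nat_lit 760) (nat_lit 0) (XT.nd (nat_lit 78) (nat_lit 608) (nat_lit 0) (XT.lf (nat_lit 0) (nat_lit 3626858005) (nat_lit 228) (nat_lit 5688144240) (nat_lit 304) (nat_lit 4236031237)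 (nat_lit 79) (nat_lit 5) (nat_lit 82) (nat_lit 5) (nat_lit 83) (nat_lit 5) (nat_lit 362) (nat_lit 347) (nat_lit 311)) (XT.nd (nat_lit 78) (nat_lit 304) (nat_lit 0) (XT.lf (nat_lit 0) (nat_lit 2506543767) (nat_lit 304) (nat_lit 11545684043) (nat_lit 380) (nat_lit 114004393) (nat_lit 75) (nat_lit 5) (nat_lit 79) (nat_lit 5) (nat_lit 80) (nat_lit 5) (nat_lit 363) (nat_lit 347) (nat_lit 310)) (XT.lf (nat_lit 0) (nat_lit 1229904777) (nat_lit 228) (nat_lit 3179582064) (nat_lit 304) (nat_lit 10407288338) (nat_lit 71) (nat_lit 5) (nat_lit 74) (nat_lit 5) (nat_lit 75) (nat_lit 5) (nat_lit 364) (nat_lit 347) (nat_lit 309)))) (XT.nd (nat_lit 156) (nat_lit 532) (nat_lit 0) (XT.nd (nat_lit 78) (nat_lit 228) (nat_lit 0) (XT.lf (nat_lit 0) (nat_lit 9512426673) (nat_lit 304) (nat_lit 144716755) (nat_lit 76) (nat_lit 5851084995) (nat_lit 71) (nat_lit 5) (nat_lit 75) (nat_lit 5) (nat_lit 72) (nat_lit 5) (nat_lit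 365) (nat_lit 347) (nat_lit 308)) (XT.lf (nat_lit 0) (nat_lit 14691391468) (nat_lit 228) (nat_lit 544503736) (nat_lit 304) (nat_lit 1008523647) (nat_lit 68) (nat_lit 5) (nat_lit 71) (nat_lit 5) (nat_lit 72) (nat_lit 5) (nat_lit 366) (nat_lit 347) (nat_lit 307))) (XT.nd (nat_lit 78) (nat_lit 228) (nat_lit 0) (XT.lf (nat_lit 0) (nat_lit 4539583449) (nat_lit 304) (nat_lit 3215309572) (nat_lit 76) (nat_lit 9266127369) (nat_lit 64) (nat_lit 5) (nat_lit 68) (nat_lit 5) (nat_lit 65) (nat_lit 5) (nat_lit 367) (nat_lit 347) (nat_lit 306)) (XT.lf (nat_lit 0) (nat_lit 10704123335) (nat_lit 304) (nat_lit 5003646921) (nat_lit 76) (nat_lit 2140786308) (nat_lit 61) (nat_lit 5) (nat_lit 65) (nat_lit 5) (nat_lit 62) (nat_lit 5) (nat_lit 368) (nat_lit 347) (nat_lit 305))))))))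
noncomputable def xc60 : XT := (XT.nd (nat_lit 1872) (nat_lit 1140) (nat_lit 0) (XT.nd (nat_lit 936) (nat_lit 1140) (nat_lit 0) (XT.nd (nat_lit 468) (nat_lit 760) (nat_lit 0) (XT.nd (nat_lit 234) (nat_lit 532) (nat_lit 0) (XT.nd (nat_lit 78) (nat_lit 456) (nat_lit 0) (XT.lf (nat_lit 0) (nat_lit 11715329997) (nat_lit 152) (nat_lit 5955159072) (nat_lit 228) (nat_lit 1056400345) (nat_lit 59) (nat_lit 5) (nat_lit 61) (nat_lit 5) (nat_lit 62) (nat_lit 5) (nat_lit 369) (nat_lit 347) (nat_lit 304)) (XT.nd (nat_lit 78) (nat_lit 152) (nat_lit 0) (XT.lf (nat_lit 0) (nat_lit 5610333590) (nat_lit 304) (nat_lit 9303546566) (nat_lit 76) (nat_lit 4743909847) (nat_lit 55) (nat_lit 5) (nat_lit 59) (nat_lit 5) (nat_lit 56) (nat_lit 5) (nat_lit 370) (nat_lit 347) (nat_lit 303)) (XT.lf (nat_lit 0) (nat_lit 8773630139) (nat_lit 152) (nat_lit 4304653986) (nat_lit 228) (nat_lit 7568790140) (nat_lit 53) (nat_lit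 5) (nat_lit 55) (nat_lit 5) (nat_lit 56) (nat_lit 5) (nat_lit 371) (nat_lit 347) (nat_lit 302)))) (XT.nd (nat_lit 78) (nat_lit 380) (nat_lit 0) (XT.lf (nat_lit 0) (nat_lit 6941713158) (nat_lit 152) (nat_lit 14532001962) (nat_lit 228) (nat_lit 225304275) (nat_lit 51) (nat_lit 5) (nat_lit 53) (nat_lit 5) (nat_lit 54) (nat_lit 5) (nat_lit 372) (nat_lit 347) (nat_lit 301)) (XT.nd (nat_lit 78) (nat_lit 152) (nat_lit 0) (XT.lf (nat_lit 0) (nat_lit 4730547383) (nat_lit 152) (nat_lit 3032277396) (nat_lit 228) (nat_lit 15051108276) (nat_lit 48) (nat_lit 5) (nat_lit 50) (nat_lit 5) (nat_lit 51) (nat_lit 5) (nat_lit 373) (nat_lit 347) (nat_lit 300)) (XT.lf (nat_lit 0) (nat_lit 2128595727) (nat_lit 152) (nat_lit 14643963656) (nat_lit 228) (nat_lit 7225789924) (nat_lit 46) (nat_lit 5) (nat_lit 48) (nat_lit 5) (nat_lit 49) (nat_lit 5) (nat_lit 374) (nat_lit 347) (nat_lit 299))))) (XT.nd (nat_lit 234) (nat_lit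 380) (nat_lit 0) (XT.nd (nat_lit 78) (nat_lit 304) (nat_lit 0) (XT.lf (nat_lit 0) (nat_lit 1508587295) (nat_lit 228) (nat_lit 816063803) (nat_lit 76) (nat_lit 22935812760) (nat_lit 45) (nat_lit 5) (nat_lit 48) (nat_lit 5) (nat_lit 46) (nat_lit 5) (nat_lit 375) (nat_lit 347) (nat_lit 298)) (XT.nd (nat_lit 78) (nat_lit 152) (nat_lit 0) (XT.lf (nat_lit 0) (nat_lit 11175620867) (nat_lit 228) (nat_lit 4338608276) (nat_lit 76) (nat_lit 11079056083) (nat_lit 43) (nat_lit 5) (nat_lit 46) (nat_lit 5) (nat_lit 44) (nat_lit 5) (nat_lit 376) (nat_lit 347) (nat_lit 297)) (XT.lf (nat_lit 0) (nat_lit 19684314343) (nat_lit 152) (nat_lit 2249038023) (nat_lit 228) (nat_lit 6083525739) (nat_lit 41) (nat_lit 5) (nat_lit 43) (nat_lit 5) (nat_lit 44) (nat_lit 5) (nat_lit 377) (nat_lit 347) (nat_lit 296)))) (XT.nd (nat_lit 78) (nat_lit 228) (nat_lit 0) (XT.lf (nat_lit 0) (nat_lit 4358264983) (nat_lit 152) (nat_lit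 13101788461) (nat_lit 76) (nat_lit 12066752510) (nat_lit 39) (nat_lit 5) (nat_lit 41) (nat_lit 5) (nat_lit 40) (nat_lit 5) (nat_lit 378) (nat_lit 347) (nat_lit 295)) (XT.nd (nat_lit 78) (nat_lit 76) (nat_lit 0) (XT.lf (nat_lit 0) (nat_lit 12496526188) (nat_lit 152) (nat_lit 3268515306) (nat_lit 228) (nat_lit 15370371317) (nat_lit 37) (nat_lit 5) (nat_lit 39) (nat_lit 5) (nat_lit 40) (nat_lit 5) (nat_lit 379) (nat_lit 347) (nat_lit 294)) (XT.lf (nat_lit 0) (nat_lit 7735399446) (nat_lit 76) (nat_lit 20850827896) (nat_lit 152) (nat_lit 4261397010) (nat_lit 36) (nat_lit 5) (nat_lit 37) (nat_lit 5) (nat_lit 38) (nat_lit 4) (nat_lit 380) (nat_lit 347) (nat_lit 293)))))) (XT.nd (nat_lit 468) (nat_lit 532) (nat_lit 0) (XT.nd (nat_lit 234) (nat_lit 304) (nat_lit 0) (XT.nd (nat_lit 78) (nat_lit 76) (nat_lit 0) (XT.lf (nat_lit 0) (nat_lit 2020393717) (nat_lit 152) (nat_lit 5847056363) (nat_lit 228)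 (nat_lit 26804393618) (nat_lit 33) (nat_lit 5) (nat_lit 35) (nat_lit 5) (nat_lit 36) (nat_lit 5) (nat_lit 381) (nat_lit 347) (nat_lit 292)) (XT.nd (nat_lit 78) (nat_lit 76) (nat_lit 0) (XT.lf (nat_lit 0) (nat_lit 21389070412) (nat_lit 228) (nat_lit 4706597712) (nat_lit 76) (nat_lit 10514259070) (nat_lit 33) (nat_lit 5) (nat_lit 36) (nat_lit 5) (nat_lit 34) (nat_lit 4) (nat_lit 382) (nat_lit 347) (nat_lit 291)) (XT.lf (nat_lit 0) (nat_lit 26151032011) (nat_lit 76) (nat_lit 10314434412) (nat_lit 152) (nat_lit 2213945826) (nat_lit 32) (nat_lit 5) (nat_lit 33) (nat_lit 5) (nat_lit 34) (nat_lit 4) (nat_lit 383) (nat_lit 347) (nat_lit 290)))) (XT.nd (nat_lit 78) (nat_lit 76) (nat_lit 0) (XT.lf (nat_lit 0) (nat_lit 11917462688) (nat_lit 228) (nat_lit 21901132871) (nat_lit 76) (nat_lit 7063494603) (nat_lit 29) (nat_lit 5) (nat_lit 32) (nat_lit 5) (nat_lit 30) (nat_lit 4) (nat_lit 384) (nat_lit 347)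 (nat_lit 289)) (XT.nd (nat_lit 78) (nat_lit 0) (nat_lit 0) (XT.lf (nat_lit 0) (nat_lit 10263815136) (nat_lit 76) (nat_lit 17363375618) (nat_lit 152) (nat_lit 15605714071) (nat_lit 28) (nat_lit 5) (nat_lit 29) (nat_lit 5) (nat_lit 30) (nat_lit 4) (nat_lit 385) (nat_lit 347) (nat_lit 288)) (XT.lf (nat_lit 0) (nat_lit 44957259904) (nat_lit 152) (nat_lit 38099645) (nat_lit 0) (nat_lit 758252397) (nat_lit 28) (nat_lit 5) (nat_lit 30) (nat_lit 4) (nat_lit 28) (nat_lit 4) (nat_lit 386) (nat_lit 347) (nat_lit 287))))) (XT.nd (nat_lit 234) (nat_lit 228) (nat_lit 0) (XT.nd (nat_lit 78) (nat_lit 152) (nat_lit 0) (XT.lf (nat_lit 0) (nat_lit 15556894111) (nat_lit 152) (nat_lit 12340030636) (nat_lit 76) (nat_lit 20524913778) (nat_lit 26) (nat_lit 5) (nat_lit 28) (nat_lit 5) (nat_lit 27) (nat_lit 4) (nat_lit 387) (nat_lit 347) (nat_lit 286)) (XT.nd (nat_lit 78) (nat_lit 76) (nat_lit 0) (XT.lf (nat_lit 0)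 (nat_lit 24508957768) (nat_lit 76) (nat_lit 9037802438) (nat_lit 152) (nat_lit 17738301682) (nat_lit 25) (nat_lit 5) (nat_lit 26) (nat_lit 5) (nat_lit 27) (nat_lit 4) (nat_lit 388) (nat_lit 347) (nat_lit 285)) (XT.lf (nat_lit 0) (nat_lit 10485148958) (nat_lit 76) (nat_lit 43023213074) (nat_lit 76) (nat_lit 842357871) (nat_lit 24) (nat_lit 4) (nat_lit 25) (nat_lit 5) (nat_lit 25) (nat_lit 4) (nat_lit 389) (nat_lit 347) (nat_lit 284)))) (XT.nd (nat_lit 78) (nat_lit 152) (nat_lit 0) (XT.lf (nat_lit 0) (nat_lit 17448918321) (nat_lit 152) (nat_lit 6435261627) (nat_lit 76) (nat_lit 33733830287) (nat_lit 23) (nat_lit 5) (nat_lit 25) (nat_lit 5) (nat_lit 24) (nat_lit 4) (nat_lit 390) (nat_lit 347) (nat_lit 283)) (XT.nd (nat_lit 78) (nat_lit 76) (nat_lit 0) (XT.lf (nat_lit 0) (nat_lit 35052122725) (nat_lit 76) (nat_lit 2645695362) (nat_lit 152) (nat_lit 23421986920) (nat_lit 22) (nat_lit 5) (nat_lit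 23) (nat_lit 5) (nat_lit 24) (nat_lit 4) (nat_lit 391) (nat_lit 347) (nat_lit 282)) (XT.lf (nat_lit 0) (nat_lit 15319946061) (nat_lit 76) (nat_lit 44893571430) (nat_lit 76) (nat_lit 4655884592) (nat_lit 21) (nat_lit 4) (nat_lit 22) (nat_lit 5) (nat_lit 22) (nat_lit 4) (nat_lit 392) (nat_lit 347) (nat_lit 281))))))) (XT.nd (nat_lit 936) (nat_lit 456) (nat_lit 0) (XT.nd (nat_lit 468) (nat_lit 304) (nat_lit 0) (XT.nd (nat_lit 234) (nat_lit 152) (nat_lit 0) (XT.nd (nat_lit 78) (nat_lit 152) (nat_lit 0) (XT.lf (nat_lit 0) (nat_lit 15595617648) (nat_lit 152) (nat_lit 8285336288) (nat_lit 76) (nat_lit 45001639885) (nat_lit 20) (nat_lit 5) (nat_lit 22) (nat_lit 5) (nat_lit 21) (nat_lit 4) (nat_lit 393) (nat_lit 347) (nat_lit 280)) (XT.nd (nat_lit 78) (nat_lit 76) (nat_lit 0) (XT.lf (nat_lit 0) (nat_lit 37357513284) (nat_lit 76) (nat_lit 511339760) (nat_lit 152) (nat_lit 35315937464) (nat_lit 19)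 (nat_lit 5) (nat_lit 20) (nat_lit 5) (nat_lit 21) (nat_lit 4) (nat_lit 394) (nat_lit 347) (nat_lit 279)) (XT.lf (nat_lit 0) (nat_lit 8984271463) (nat_lit 76) (nat_lit 53592664208) (nat_lit 76) (nat_lit 15221580184) (nat_lit 18) (nat_lit 4) (nat_lit 19) (nat_lit 5) (nat_lit 19) (nat_lit 4) (nat_lit 395) (nat_lit 347) (nat_lit 278)))) (XT.nd (nat_lit 78) (nat_lit 76) (nat_lit 0) (XT.lf (nat_lit 0) (nat_lit 6896405638) (nat_lit 152) (nat_lit 24247564254) (nat_lit 76) (nat_lit 51601138062) (nat_lit 17) (nat_lit 5) (nat_lit 19) (nat_lit 5) (nat_lit 18) (nat_lit 4) (nat_lit 396) (nat_lit 347) (nat_lit 277)) (XT.nd (nat_lit 78) (nat_lit 0) (nat_lit 0) (XT.lf (nat_lit 0) (nat_lit 24373133901) (nat_lit 76) (nat_lit 6247059359) (nat_lit 152) (nat_lit 57436276723) (nat_lit 16) (nat_lit 5) (nat_lit 17) (nat_lit 5) (nat_lit 18) (nat_lit 4) (nat_lit 397) (nat_lit 347) (nat_lit 276)) (XT.lf (nat_lit 0)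 (nat_lit 56976013503) (nat_lit 152) (nat_lit 16385305329) (nat_lit 0) (nat_lit 20394717437) (nat_lit 16) (nat_lit 5) (nat_lit 18) (nat_lit 4) (nat_lit 16) (nat_lit 4) (nat_lit 398) (nat_lit 347) (nat_lit 275))))) (XT.nd (nat_lit 234) (nat_lit 76) (nat_lit 0) (XT.nd (nat_lit 78) (nat_lit 152) (nat_lit 0) (XT.lf (nat_lit 0) (nat_lit 35702597982) (nat_lit 76) (nat_lit 50384303219) (nat_lit 76) (nat_lit 13792338207) (nat_lit 15) (nat_lit 4) (nat_lit 16) (nat_lit 5) (nat_lit 16) (nat_lit 4) (nat_lit 399) (nat_lit 347) (nat_lit 274)) (XT.nd (nat_lit 78) (nat_lit 76) (nat_lit 0) (XT.lf (nat_lit 0) (nat_lit 10955614665) (nat_lit 152) (nat_lit 14142833600) (nat_lit 76) (nat_lit 81371517014) (nat_lit 14) (nat_lit 5) (nat_lit 16) (nat_lit 5) (nat_lit 15) (nat_lit 4) (nat_lit 400) (nat_lit 347) (nat_lit 273)) (XT.lf (nat_lit 0) (nat_lit 37879956613) (nat_lit 152) (nat_lit 72650353744) (nat_lit 0) (nat_lit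 3012346550) (nat_lit 13) (nat_lit 5) (nat_lit 15) (nat_lit 4) (nat_lit 13) (nat_lit 4) (nat_lit 401) (nat_lit 347) (nat_lit 272)))) (XT.nd (nat_lit 78) (nat_lit 76) (nat_lit 0) (XT.lf (nat_lit 0) (nat_lit 67617780566) (nat_lit 152) (nat_lit 20788303354) (nat_lit 0) (nat_lit 32742104453) (nat_lit 13) (nat_lit 5) (nat_lit 15) (nat_lit 4) (nat_lit 13) (nat_lit 4) (nat_lit 402) (nat_lit 347) (nat_lit 271)) (XT.nd (nat_lit 78) (nat_lit 0) (nat_lit 0) (XT.lf (nat_lit 0) (nat_lit 36361028103) (nat_lit 76) (nat_lit 63928273268) (nat_lit 76) (nat_lit 29045128589) (nat_lit 12) (nat_lit 4) (nat_lit 13) (nat_lit 5) (nat_lit 13) (nat_lit 4) (nat_lit 403) (nat_lit 347) (nat_lit 270)) (XT.lf (nat_lit 0) (nat_lit 98800293330) (nat_lit 76) (nat_lit 37123927391) (nat_lit 76) (nat_lit 2233867373) (nat_lit 12) (nat_lit 4) (nat_lit 13) (nat_lit 5) (nat_lit 13) (nat_lit 4) (nat_lit 404) (nat_lit 347) (nat_lit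 269)))))) (XT.nd (nat_lit 468) (nat_lit 152) (nat_lit 0) (XT.nd (nat_lit 234) (nat_lit 152) (nat_lit 0) (XT.nd (nat_lit 78) (nat_lit 0) (nat_lit 0) (XT.lf (nat_lit 0) (nat_lit 18705606918) (nat_lit 76) (nat_lit 7441744314) (nat_lit 152) (nat_lit 121505411249) (nat_lit 10) (nat_lit 5) (nat_lit 11) (nat_lit 5) (nat_lit 12) (nat_lit 4) (nat_lit 405) (nat_lit 347) (nat_lit 268)) (XT.nd (nat_lit 78) (nat_lit 0) (nat_lit 0) (XT.lf (nat_lit 0) (nat_lit 57791632396) (nat_lit 152) (nat_lit 75508747647) (nat_lit 0) (nat_lit 24551259162) (nat_lit 10) (nat_lit 5) (nat_lit 12) (nat_lit 4) (nat_lit 10) (nat_lit 4) (nat_lit 406) (nat_lit 347) (nat_lit 267)) (XT.lf (nat_lit 0) (nat_lit 92082425160) (nat_lit 152) (nat_lit 17941429538) (nat_lit 0) (nat_lit 58836823717) (nat_lit 10) (nat_lit 5) (nat_lit 12) (nat_lit 4) (nat_lit 10) (nat_lit 4) (nat_lit 407) (nat_lit 347) (nat_lit 266)))) (XT.nd (nat_lit 78)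 (nat_lit 76) (nat_lit 0) (XT.lf (nat_lit 0) (nat_lit 45673977424) (nat_lit 76) (nat_lit 84145869100) (nat_lit 76) (nat_lit 50895426724) (nat_lit 9) (nat_lit 4) (nat_lit 10) (nat_lit 5) (nat_lit 10) (nat_lit 4) (nat_lit 408) (nat_lit 347) (nat_lit 265)) (XT.nd (nat_lit 78) (nat_lit 76) (nat_lit 0) (XT.lf (nat_lit 0) (nat_lit 115000982694) (nat_lit 76) (nat_lit 55878508455) (nat_lit 76) (nat_lit 22623583733) (nat_lit 9) (nat_lit 4) (nat_lit 10) (nat_lit 5) (nat_lit 10) (nat_lit 4) (nat_lit 409) (nat_lit 347) (nat_lit 264)) (XT.lf (nat_lit 0) (nat_lit 7648085526) (nat_lit 152) (nat_lit 17580499713) (nat_lit 76) (nat_lit 182079578724) (nat_lit 8) (nat_lit 5) (nat_lit 10) (nat_lit 5) (nat_lit 9) (nat_lit 4) (nat_lit 410) (nat_lit 347) (nat_lit 263))))) (XT.nd (nat_lit 234) (nat_lit 76) (nat_lit 0) (XT.nd (nat_lit 78) (nat_lit 0) (nat_lit 0) (XT.lf (nat_lit 0) (nat_lit 40464308353) (nat_lit 152)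 (nat_lit 172903697554) (nat_lit 0) (nat_lit 8785338895) (nat_lit 7) (nat_lit 5) (nat_lit 9) (nat_lit 4) (nat_lit 7) (nat_lit 4) (nat_lit 411) (nat_lit 347) (nat_lit 262)) (XT.nd (nat_lit 78) (nat_lit 0) (nat_lit 0) (XT.lf (nat_lit 0) (nat_lit 76634631094) (nat_lit 152) (nat_lit 116562796588) (nat_lit 0) (nat_lit 44952272845) (nat_lit 7) (nat_lit 5) (nat_lit 9) (nat_lit 4) (nat_lit 7) (nat_lit 4) (nat_lit 412) (nat_lit 347) (nat_lit 261)) (XT.lf (nat_lit 0) (nat_lit 115691302569) (nat_lit 152) (nat_lit 55729019927) (nat_lit 0) (nat_lit 84005806551) (nat_lit 7) (nat_lit 5) (nat_lit 9) (nat_lit 4) (nat_lit 7) (nat_lit 4) (nat_lit 413) (nat_lit 347) (nat_lit 260)))) (XT.nd (nat_lit 156) (nat_lit 0) (nat_lit 0) (XT.nd (nat_lit 78) (nat_lit 0) (nat_lit 0) (XT.lf (nat_lit 0) (nat_lit 10287389596) (nat_lit 76) (nat_lit 147738995107) (nat_lit 76) (nat_lit 116050593746) (nat_lit 6) (nat_lit 4) (nat_lit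 7) (nat_lit 5) (nat_lit 7) (nat_lit 4) (nat_lit 414) (nat_lit 347) (nat_lit 259)) (XT.lf (nat_lit 0) (nat_lit 83562426527) (nat_lit 76) (nat_lit 121150172451) (nat_lit 76) (nat_lit 89459080959) (nat_lit 6) (nat_lit 4) (nat_lit 7) (nat_lit 5) (nat_lit 7) (nat_lit 4) (nat_lit 415) (nat_lit 347) (nat_lit 258))) (XT.nd (nat_lit 78) (nat_lit 0) (nat_lit 0) (XT.lf (nat_lit 0) (nat_lit 162687660229) (nat_lit 76) (nat_lit 92440089055) (nat_lit 76) (nat_lit 60746506700) (nat_lit 6) (nat_lit 4) (nat_lit 7) (nat_lit 5) (nat_lit 7) (nat_lit 4) (nat_lit 416) (nat_lit 347) (nat_lit 257)) (XT.lf (nat_lit 0) (nat_lit 248131980975) (nat_lit 76) (nat_lit 61438611091) (nat_lit 76) (nat_lit 29742722382) (nat_lit 6) (nat_lit 4) (nat_lit 7) (nat_lit 5) (nat_lit 7) (nat_lit 4) (nat_lit 417) (nat_lit 347) (nat_lit 256))))))))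
noncomputable def xc61 : XT := (XT.nd (nat_lit 48204) (nat_lit 0) (nat_lit 2736) (XT.nd (nat_lit 936) (nat_lit 0) (nat_lit 0) (XT.nd (nat_lit 468) (nat_lit 76) (nat_lit 0) (XT.nd (nat_lit 234) (nat_lit 0) (nat_lit 0) (XT.nd (nat_lit 78) (nat_lit 76) (nat_lit 0) (XT.lf (nat_lit 0) (nat_lit 3616422853) (nat_lit 152) (nat_lit 24284357371) (nat_lit 76) (nat_lit 336724056756) (nat_lit 5) (nat_lit 5) (nat_lit 7) (nat_lit 5) (nat_lit 6) (nat_lit 4) (nat_lit 418) (nat_lit 347) (nat_lit 255)) (XT.nd (nat_lit 78) (nat_lit 0) (nat_lit 0) (XT.lf (nat_lit 0) (nat_lit 39527351634) (nat_lit 152) (nat_lit 343026422122) (nat_lit 0) (nat_lit 9336873968) (nat_lit 4) (nat_lit 5) (nat_lit 6) (nat_lit 4) (nat_lit 4) (nat_lit 4) (nat_lit 419) (nat_lit 347) (nat_lit 254)) (XT.lf (nat_lit 0) (nat_lit 79206898763) (nat_lit 152) (nat_lit 293071360208) (nat_lit 0) (nat_lit 49014677422) (nat_lit 4) (nat_lit 5) (nat_lit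 6) (nat_lit 4) (nat_lit 4) (nat_lit 4) (nat_lit 420) (nat_lit 347) (nat_lit 253)))) (XT.nd (nat_lit 78) (nat_lit 0) (nat_lit 0) (XT.lf (nat_lit 0) (nat_lit 122056488707) (nat_lit 152) (nat_lit 239128482893) (nat_lit 0) (nat_lit 91862652853) (nat_lit 4) (nat_lit 5) (nat_lit 6) (nat_lit 4) (nat_lit 4) (nat_lit 4) (nat_lit 421) (nat_lit 347) (nat_lit 252)) (XT.nd (nat_lit 78) (nat_lit 0) (nat_lit 0) (XT.lf (nat_lit 0) (nat_lit 168330044961) (nat_lit 152) (nat_lit 180878128681) (nat_lit 0) (nat_lit 138134714187) (nat_lit 4) (nat_lit 5) (nat_lit 6) (nat_lit 4) (nat_lit 4) (nat_lit 4) (nat_lit 422) (nat_lit 347) (nat_lit 251)) (XT.lf (nat_lit 0) (nat_lit 218301781194) (nat_lit 152) (nat_lit 117975110288) (nat_lit 0) (nat_lit 188105066235) (nat_lit 4) (nat_lit 5) (nat_lit 6) (nat_lit 4) (nat_lit 4) (nat_lit 4) (nat_lit 423) (nat_lit 347) (nat_lit 250))))) (XT.nd (nat_lit 234) (nat_lit 0) (nat_lit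 0) (XT.nd (nat_lit 78) (nat_lit 76) (nat_lit 0) (XT.lf (nat_lit 0) (nat_lit 272267826211) (nat_lit 152) (nat_lit 50046669088) (nat_lit 0) (nat_lit 242069829599) (nat_lit 4) (nat_lit 5) (nat_lit 6) (nat_lit 4) (nat_lit 4) (nat_lit 4) (nat_lit 424) (nat_lit 347) (nat_lit 249)) (XT.nd (nat_lit 78) (nat_lit 0) (nat_lit 0) (XT.lf (nat_lit 0) (nat_lit 24080458902) (nat_lit 76) (nat_lit 306843483346) (nat_lit 76) (nat_lit 276644300018) (nat_lit 3) (nat_lit 4) (nat_lit 4) (nat_lit 5) (nat_lit 4) (nat_lit 4) (nat_lit 425) (nat_lit 347) (nat_lit 248)) (XT.lf (nat_lit 0) (nat_lit 105918868344) (nat_lit 76) (nat_lit 289222424853) (nat_lit 76) (nat_lit 259022142714) (nat_lit 3) (nat_lit 4) (nat_lit 4) (nat_lit 5) (nat_lit 4) (nat_lit 4) (nat_lit 426) (nat_lit 347) (nat_lit 247)))) (XT.nd (nat_lit 78) (nat_lit 0) (nat_lit 0) (XT.lf (nat_lit 0) (nat_lit 194298758692) (nat_lit 76) (nat_lit 270194463290)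 (nat_lit 76) (nat_lit 239993163734) (nat_lit 3) (nat_lit 4) (nat_lit 4) (nat_lit 5) (nat_lit 4) (nat_lit 4) (nat_lit 427) (nat_lit 347) (nat_lit 246)) (XT.nd (nat_lit 78) (nat_lit 0) (nat_lit 0) (XT.lf (nat_lit 0) (nat_lit 289743862631) (nat_lit 76) (nat_lit 249646840366) (nat_lit 76) (nat_lit 219444598757) (nat_lit 3) (nat_lit 4) (nat_lit 4) (nat_lit 5) (nat_lit 4) (nat_lit 4) (nat_lit 428) (nat_lit 347) (nat_lit 245)) (XT.lf (nat_lit 0) (nat_lit 392819780775) (nat_lit 76) (nat_lit 227457792390) (nat_lit 76) (nat_lit 197254678509) (nat_lit 3) (nat_lit 4) (nat_lit 4) (nat_lit 5) (nat_lit 4) (nat_lit 4) (nat_lit 429) (nat_lit 347) (nat_lit 244)))))) (XT.nd (nat_lit 46800) (nat_lit 0) (nat_lit 9120) (XT.nd (nat_lit 234) (nat_lit 0) (nat_lit 0) (XT.nd (nat_lit 78) (nat_lit 0) (nat_lit 0) (XT.lf (nat_lit 0) (nat_lit 504137333382) (nat_lit 76) (nat_lit 203495828707) (nat_lit 76) (nat_lit 173291907168)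 (nat_lit 3) (nat_lit 4) (nat_lit 4) (nat_lit 5) (nat_lit 4) (nat_lit 4) (nat_lit 430) (nat_lit 347) (nat_lit 243)) (XT.nd (nat_lit 78) (nat_lit 0) (nat_lit 0) (XT.lf (nat_lit 0) (nat_lit 624356180021) (nat_lit 76) (nat_lit 177618952496) (nat_lit 76) (nat_lit 147414283125) (nat_lit 3) (nat_lit 4) (nat_lit 4) (nat_lit 5) (nat_lit 4) (nat_lit 4) (nat_lit 431) (nat_lit 347) (nat_lit 242)) (XT.lf (nat_lit 0) (nat_lit 754188728674) (nat_lit 76) (nat_lit 149673819304) (nat_lit 76) (nat_lit 119468457496) (nat_lit 3) (nat_lit 4) (nat_lit 4) (nat_lit 5) (nat_lit 4) (nat_lit 4) (nat_lit 432) (nat_lit 347) (nat_lit 241)))) (XT.nd (nat_lit 78) (nat_lit 0) (nat_lit 0) (XT.lf (nat_lit 0) (nat_lit 894404357405) (nat_lit 76) (nat_lit 119494828343) (nat_lit 76) (nat_lit 89288825389) (nat_lit 3) (nat_lit 4) (nat_lit 4) (nat_lit 5) (nat_lit 4) (nat_lit 4) (nat_lit 433) (nat_lit 347) (nat_lit 240)) (XT.nd (nat_lit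 46410) (nat_lit 0) (nat_lit 9652) (XT.lf (nat_lit 0) (nat_lit 1045833973644) (nat_lit 76) (nat_lit 86903141148) (nat_lit 76) (nat_lit 56696544541) (nat_lit 3) (nat_lit 4) (nat_lit 4) (nat_lit 5) (nat_lit 4) (nat_lit 4) (nat_lit 434) (nat_lit 347) (nat_lit 239)) (XT.lf (nat_lit 0) (nat_lit 1151293363) (nat_lit 684) (nat_lit 1498144928) (nat_lit 684) (nat_lit 1498144928) (nat_lit 130) (nat_lit 3) (nat_lit 139) (nat_lit 3) (nat_lit 139) (nat_lit 5) (nat_lit 348) (nat_lit 348) (nat_lit 324))))) (XT.nd (nat_lit 234) (nat_lit 532) (nat_lit 0) (XT.nd (nat_lit 78) (nat_lit 0) (nat_lit 76) (XT.lf (nat_lit 76) (nat_lit 3518228965) (nat_lit 0) (nat_lit 607358358) (nat_lit 684) (nat_lit 4413468853) (nat_lit 131) (nat_lit 5) (nat_lit 130) (nat_lit 3) (nat_lit 139) (nat_lit 5) (nat_lit 349) (nat_lit 348) (nat_lit 323)) (XT.nd (nat_lit 78) (nat_lit 0) (nat_lit 76) (XT.lf (nat_lit 76) (nat_lit 1745625139)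 (nat_lit 0) (nat_lit 4330851799) (nat_lit 684) (nat_lit 2727014976) (nat_lit 132) (nat_lit 5) (nat_lit 131) (nat_lit 5) (nat_lit 140) (nat_lit 5) (nat_lit 350) (nat_lit 348) (nat_lit 322)) (XT.lf (nat_lit 76) (nat_lit 18435450) (nat_lit 0) (nat_lit 8121514644) (nat_lit 684) (nat_lit 951433902) (nat_lit 133) (nat_lit 5) (nat_lit 132) (nat_lit 5) (nat_lit 141) (nat_lit 5) (nat_lit 351) (nat_lit 348) (nat_lit 321)))) (XT.nd (nat_lit 78) (nat_lit 0) (nat_lit 76) (XT.lf (nat_lit 0) (nat_lit 984724395) (nat_lit 684) (nat_lit 1679216248) (nat_lit 760) (nat_lit 6735251887) (nat_lit 123) (nat_lit 5) (nat_lit 132) (nat_lit 5) (nat_lit 133) (nat_lit 5) (nat_lit 352) (nat_lit 348) (nat_lit 320)) (XT.nd (nat_lit 78) (nat_lit 0) (nat_lit 0) (XT.lf (nat_lit 0) (nat_lit 3058181538) (nat_lit 684) (nat_lit 3389021864) (nat_lit 760) (nat_lit 3282959276) (nat_lit 124) (nat_lit 5) (nat_lit 133) (nat_lit 5) (nat_lit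 134) (nat_lit 5) (nat_lit 353) (nat_lit 348) (nat_lit 319)) (XT.lf (nat_lit 76) (nat_lit 4990476177) (nat_lit 0) (nat_lit 331347923) (nat_lit 760) (nat_lit 4764666989) (nat_lit 125) (nat_lit 5) (nat_lit 124) (nat_lit 5) (nat_lit 134) (nat_lit 5) (nat_lit 354) (nat_lit 348) (nat_lit 318))))))) (XT.nd (nat_lit 936) (nat_lit 2204) (nat_lit 0) (XT.nd (nat_lit 468) (nat_lit 1748) (nat_lit 0) (XT.nd (nat_lit 234) (nat_lit 684) (nat_lit 0) (XT.nd (nat_lit 78) (nat_lit 1216) (nat_lit 0) (XT.lf (nat_lit 0) (nat_lit 3606607320) (nat_lit 684) (nat_lit 4254325253) (nat_lit 760) (nat_lit 2605763452) (nat_lit 116) (nat_lit 5) (nat_lit 125) (nat_lit 5) (nat_lit 126) (nat_lit 5) (nat_lit 355) (nat_lit 348) (nat_lit 317)) (XT.nd (nat_lit 78) (nat_lit 456) (nat_lit 0) (XT.lf (nat_lit 0) (nat_lit 2237522429) (nat_lit 760) (nat_lit 8421309347) (nat_lit 836) (nat_lit 215784862) (nat_lit 106) (nat_lit 5) (nat_lit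 116) (nat_lit 5) (nat_lit 117) (nat_lit 5) (nat_lit 356) (nat_lit 348) (nat_lit 316)) (XT.lf (nat_lit 0) (nat_lit 810602138) (nat_lit 380) (nat_lit 1577565185) (nat_lit 456) (nat_lit 8920305578) (nat_lit 100) (nat_lit 5) (nat_lit 105) (nat_lit 5) (nat_lit 106) (nat_lit 5) (nat_lit 357) (nat_lit 348) (nat_lit 315)))) (XT.nd (nat_lit 78) (nat_lit 684) (nat_lit 0) (XT.lf (nat_lit 0) (nat_lit 5335737238) (nat_lit 456) (nat_lit 647932403) (nat_lit 76) (nat_lit 5786115339) (nat_lit 100) (nat_lit 5) (nat_lit 106) (nat_lit 5) (nat_lit 101) (nat_lit 5) (nat_lit 358) (nat_lit 348) (nat_lit 314)) (XT.nd (nat_lit 78) (nat_lit 380) (nat_lit 0) (XT.lf (nat_lit 0) (nat_lit 8636105945) (nat_lit 380) (nat_lit 2094874592) (nat_lit 76) (nat_lit 1531234115) (nat_lit 96) (nat_lit 5) (nat_lit 101) (nat_lit 5) (nat_lit 97) (nat_lit 5) (nat_lit 359) (nat_lit 348) (nat_lit 313)) (XT.lf (nat_lit 0) (nat_lit 9173446097)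 (nat_lit 380) (nat_lit 3194615175) (nat_lit 456) (nat_lit 417657242) (nat_lit 91) (nat_lit 5) (nat_lit 96) (nat_lit 5) (nat_lit 97) (nat_lit 5) (nat_lit 360) (nat_lit 348) (nat_lit 312))))) (XT.nd (nat_lit 234) (nat_lit 836) (nat_lit 0) (XT.nd (nat_lit 78) (nat_lit 532) (nat_lit 0) (XT.lf (nat_lit 0) (nat_lit 3110998125) (nat_lit 380) (nat_lit 5237850394) (nat_lit 76) (nat_lit 4991872751) (nat_lit 86) (nat_lit 5) (nat_lit 91) (nat_lit 5) (nat_lit 87) (nat_lit 5) (nat_lit 361) (nat_lit 348) (nat_lit 311)) (XT.nd (nat_lit 78) (nat_lit 228) (nat_lit 0) (XT.lf (nat_lit 0) (nat_lit 7014892928) (nat_lit 304) (nat_lit 40240944) (nat_lit 380) (nat_lit 6877304094) (nat_lit 82) (nat_lit 5) (nat_lit 86) (nat_lit 5) (nat_lit 87) (nat_lit 5) (nat_lit 362) (nat_lit 348) (nat_lit 310)) (XT.lf (nat_lit 0) (nat_lit 5818878622) (nat_lit 228) (nat_lit 5743501792) (nat_lit 304) (nat_lit 2996776187) (nat_lit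 79) (nat_lit 5) (nat_lit 82) (nat_lit 5) (nat_lit 83) (nat_lit 5) (nat_lit 363) (nat_lit 348) (nat_lit 309)))) (XT.nd (nat_lit 78) (nat_lit 456) (nat_lit 0) (XT.lf (nat_lit 0) (nat_lit 1331085554) (nat_lit 380) (nat_lit 10655930346) (nat_lit 76) (nat_lit 3239347378) (nat_lit 74) (nat_lit 5) (nat_lit 79) (nat_lit 5) (nat_lit 75) (nat_lit 5) (nat_lit 364) (nat_lit 348) (nat_lit 308)) (XT.nd (nat_lit 78) (nat_lit 228) (nat_lit 0) (XT.lf (nat_lit 0) (nat_lit 3178832174) (nat_lit 228) (nat_lit 2955147819) (nat_lit 304) (nat_lit 9798855915) (nat_lit 71) (nat_lit 5) (nat_lit 74) (nat_lit 5) (nat_lit 75) (nat_lit 5) (nat_lit 365) (nat_lit 348) (nat_lit 307)) (XT.lf (nat_lit 0) (nat_lit 1667770988) (nat_lit 228) (nat_lit 9908734347) (nat_lit 304) (nat_lit 5106584009) (nat_lit 68) (nat_lit 5) (nat_lit 71) (nat_lit 5) (nat_lit 72) (nat_lit 5) (nat_lit 366) (nat_lit 348) (nat_lit 306)))))) (XT.nd (nat_lit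 468) (nat_lit 1064) (nat_lit 0) (XT.nd (nat_lit 234) (nat_lit 608) (nat_lit 0) (XT.nd (nat_lit 78) (nat_lit 228) (nat_lit 0) (XT.lf (nat_lit 0) (nat_lit 77152427) (nat_lit 228) (nat_lit 98996227) (nat_lit 304) (nat_lit 17306582212) (nat_lit 64) (nat_lit 5) (nat_lit 67) (nat_lit 5) (nat_lit 68) (nat_lit 5) (nat_lit 367) (nat_lit 348) (nat_lit 305)) (XT.nd (nat_lit 78) (nat_lit 228) (nat_lit 0) (XT.lf (nat_lit 0) (nat_lit 6074624901) (nat_lit 304) (nat_lit 1761988520) (nat_lit 76) (nat_lit 10486969741) (nat_lit 64) (nat_lit 5) (nat_lit 68) (nat_lit 5) (nat_lit 65) (nat_lit 5) (nat_lit 368) (nat_lit 348) (nat_lit 304)) (XT.lf (nat_lit 0) (nat_lit 12679274197) (nat_lit 304) (nat_lit 3719920092) (nat_lit 76) (nat_lit 2820819526) (nat_lit 61) (nat_lit 5) (nat_lit 65) (nat_lit 5) (nat_lit 62) (nat_lit 5) (nat_lit 369) (nat_lit 348) (nat_lit 303)))) (XT.nd (nat_lit 78) (nat_lit 456) (nat_lit 0) (XT.lf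 (nat_lit 0) (nat_lit 14263389583) (nat_lit 152) (nat_lit 5881833597) (nat_lit 228) (nat_lit 26312431) (nat_lit 59) (nat_lit 5) (nat_lit 61) (nat_lit 5) (nat_lit 62) (nat_lit 5) (nat_lit 370) (nat_lit 348) (nat_lit 302)) (XT.nd (nat_lit 78) (nat_lit 152) (nat_lit 0) (XT.lf (nat_lit 0) (nat_lit 7091375989) (nat_lit 304) (nat_lit 8429505486) (nat_lit 76) (nat_lit 5657523936) (nat_lit 55) (nat_lit 5) (nat_lit 59) (nat_lit 5) (nat_lit 56) (nat_lit 5) (nat_lit 371) (nat_lit 348) (nat_lit 301)) (XT.lf (nat_lit 0) (nat_lit 11023514932) (nat_lit 152) (nat_lit 4080955742) (nat_lit 228) (nat_lit 7145005741) (nat_lit 53) (nat_lit 5) (nat_lit 55) (nat_lit 5) (nat_lit 56) (nat_lit 5) (nat_lit 372) (nat_lit 348) (nat_lit 300))))) (XT.nd (nat_lit 234) (nat_lit 532) (nat_lit 0) (XT.nd (nat_lit 78) (nat_lit 304) (nat_lit 0) (XT.lf (nat_lit 0) (nat_lit 719458816) (nat_lit 228) (nat_lit 14382735739) (nat_lit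 76) (nat_lit 8284862213) (nat_lit 50) (nat_lit 5) (nat_lit 53) (nat_lit 5) (nat_lit 51) (nat_lit 5) (nat_lit 373) (nat_lit 348) (nat_lit 299)) (XT.nd (nat_lit 78) (nat_lit 152) (nat_lit 0) (XT.lf (nat_lit 0) (nat_lit 6592927091) (nat_lit 152) (nat_lit 2698350772) (nat_lit 228) (nat_lit 15302098332) (nat_lit 48) (nat_lit 5) (nat_lit 50) (nat_lit 5) (nat_lit 51) (nat_lit 5) (nat_lit 374) (nat_lit 348) (nat_lit 298)) (XT.lf (nat_lit 0) (nat_lit 3753406184) (nat_lit 152) (nat_lit 15232211590) (nat_lit 228) (nat_lit 6888758881) (nat_lit 46) (nat_lit 5) (nat_lit 48) (nat_lit 5) (nat_lit 49) (nat_lit 5) (nat_lit 375) (nat_lit 348) (nat_lit 297)))) (XT.nd (nat_lit 156) (nat_lit 304) (nat_lit 0) (XT.nd (nat_lit 78) (nat_lit 0) (nat_lit 0) (XT.lf (nat_lit 0) (nat_lit 509089784) (nat_lit 152) (nat_lit 1948323097) (nat_lit 228) (nat_lit 24782236080) (nat_lit 43) (nat_lit 5) (nat_lit 45) (nat_lit 5) (nat_lit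 46) (nat_lit 5) (nat_lit 376) (nat_lit 348) (nat_lit 296)) (XT.lf (nat_lit 0) (nat_lit 12857972413) (nat_lit 228) (nat_lit 3340390715) (nat_lit 76) (nat_lit 12482742901) (nat_lit 43) (nat_lit 5) (nat_lit 46) (nat_lit 5) (nat_lit 44) (nat_lit 5) (nat_lit 377) (nat_lit 348) (nat_lit 295))) (XT.nd (nat_lit 78) (nat_lit 152) (nat_lit 0) (XT.lf (nat_lit 0) (nat_lit 22545900345) (nat_lit 152) (nat_lit 1892120547) (nat_lit 228) (nat_lit 5782497331) (nat_lit 41) (nat_lit 5) (nat_lit 43) (nat_lit 5) (nat_lit 44) (nat_lit 5) (nat_lit 378) (nat_lit 348) (nat_lit 294)) (XT.lf (nat_lit 0) (nat_lit 5440809837) (nat_lit 152) (nat_lit 12866510464) (nat_lit 76) (nat_lit 13544750662) (nat_lit 39) (nat_lit 5) (nat_lit 41) (nat_lit 5) (nat_lit 40) (nat_lit 5) (nat_lit 379) (nat_lit 348) (nat_lit 293))))))))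
noncomputable def xc62 : XT := (XT.nd (nat_lit 1872) (nat_lit 760) (nat_lit 0) (XT.nd (nat_lit 936) (nat_lit 760) (nat_lit 0) (XT.nd (nat_lit 468) (nat_lit 456) (nat_lit 0) (XT.nd (nat_lit 234) (nat_lit 304) (nat_lit 0) (XT.nd (nat_lit 78) (nat_lit 304) (nat_lit 0) (XT.lf (nat_lit 0) (nat_lit 14723893441) (nat_lit 152) (nat_lit 3001040257) (nat_lit 228) (nat_lit 15866206133) (nat_lit 37) (nat_lit 5) (nat_lit 39) (nat_lit 5) (nat_lit 40) (nat_lit 5) (nat_lit 380) (nat_lit 348) (nat_lit 292)) (XT.nd (nat_lit 78) (nat_lit 228) (nat_lit 0) (XT.lf (nat_lit 0) (nat_lit 9554205351) (nat_lit 76) (nat_lit 21992236036) (nat_lit 152) (nat_lit 3895168267) (nat_lit 36) (nat_lit 5) (nat_lit 37) (nat_lit 5) (nat_lit 38) (nat_lit 4) (nat_lit 381) (nat_lit 348) (nat_lit 291)) (XT.lf (nat_lit 0) (nat_lit 3351643785) (nat_lit 152) (nat_lit 5797266650) (nat_lit 228) (nat_lit 28263937460) (nat_lit 33) (nat_lit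 5) (nat_lit 35) (nat_lit 5) (nat_lit 36) (nat_lit 5) (nat_lit 382) (nat_lit 348) (nat_lit 290)))) (XT.nd (nat_lit 78) (nat_lit 304) (nat_lit 0) (XT.lf (nat_lit 0) (nat_lit 23711441249) (nat_lit 228) (nat_lit 3977309421) (nat_lit 76) (nat_lit 11819278735) (nat_lit 33) (nat_lit 5) (nat_lit 36) (nat_lit 5) (nat_lit 34) (nat_lit 4) (nat_lit 383) (nat_lit 348) (nat_lit 289)) (XT.nd (nat_lit 78) (nat_lit 228) (nat_lit 0) (XT.lf (nat_lit 0) (nat_lit 29300873261) (nat_lit 76) (nat_lit 10664312836) (nat_lit 152) (nat_lit 1779334918) (nat_lit 32) (nat_lit 5) (nat_lit 33) (nat_lit 5) (nat_lit 34) (nat_lit 4) (nat_lit 384) (nat_lit 348) (nat_lit 288)) (XT.lf (nat_lit 0) (nat_lit 13442514906) (nat_lit 228) (nat_lit 22601550925) (nat_lit 76) (nat_lit 8079902879) (nat_lit 29) (nat_lit 5) (nat_lit 32) (nat_lit 5) (nat_lit 30) (nat_lit 4) (nat_lit 385) (nat_lit 348) (nat_lit 287))))) (XT.nd (nat_lit 234)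 (nat_lit 228) (nat_lit 0) (XT.nd (nat_lit 78) (nat_lit 152) (nat_lit 0) (XT.lf (nat_lit 0) (nat_lit 12090888514) (nat_lit 76) (nat_lit 18291493855) (nat_lit 152) (nat_lit 16281805963) (nat_lit 28) (nat_lit 5) (nat_lit 29) (nat_lit 5) (nat_lit 30) (nat_lit 4) (nat_lit 386) (nat_lit 348) (nat_lit 286)) (XT.nd (nat_lit 78) (nat_lit 76) (nat_lit 0) (XT.lf (nat_lit 0) (nat_lit 939018215) (nat_lit 76) (nat_lit 48140791616) (nat_lit 76) (nat_lit 307701816) (nat_lit 27) (nat_lit 4) (nat_lit 28) (nat_lit 5) (nat_lit 28) (nat_lit 4) (nat_lit 387) (nat_lit 348) (nat_lit 285)) (XT.lf (nat_lit 0) (nat_lit 17297143810) (nat_lit 152) (nat_lit 12401942296) (nat_lit 76) (nat_lit 22571634525) (nat_lit 26) (nat_lit 5) (nat_lit 28) (nat_lit 5) (nat_lit 27) (nat_lit 4) (nat_lit 388) (nat_lit 348) (nat_lit 284)))) (XT.nd (nat_lit 78) (nat_lit 152) (nat_lit 0) (XT.lf (nat_lit 0) (nat_lit 27354753170) (nat_lit 76)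 (nat_lit 9348546200) (nat_lit 152) (nat_lit 18660853416) (nat_lit 25) (nat_lit 5) (nat_lit 26) (nat_lit 5) (nat_lit 27) (nat_lit 4) (nat_lit 389) (nat_lit 348) (nat_lit 283)) (XT.nd (nat_lit 78) (nat_lit 76) (nat_lit 0) (XT.lf (nat_lit 0) (nat_lit 12187101565) (nat_lit 76) (nat_lit 46059141771) (nat_lit 76) (nat_lit 429604897) (nat_lit 24) (nat_lit 4) (nat_lit 25) (nat_lit 5) (nat_lit 25) (nat_lit 4) (nat_lit 390) (nat_lit 348) (nat_lit 282)) (XT.lf (nat_lit 0) (nat_lit 19275178151) (nat_lit 152) (nat_lit 6136588486) (nat_lit 76) (nat_lit 36794106565) (nat_lit 23) (nat_lit 5) (nat_lit 25) (nat_lit 5) (nat_lit 24) (nat_lit 4) (nat_lit 391) (nat_lit 348) (nat_lit 281)))))) (XT.nd (nat_lit 468) (nat_lit 304) (nat_lit 0) (XT.nd (nat_lit 234) (nat_lit 228) (nat_lit 0) (XT.nd (nat_lit 78) (nat_lit 152) (nat_lit 0) (XT.lf (nat_lit 0) (nat_lit 38634433153) (nat_lit 76) (nat_lit 2489828193) (nat_lit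 152) (nat_lit 24864541121) (nat_lit 22) (nat_lit 5) (nat_lit 23) (nat_lit 5) (nat_lit 24) (nat_lit 4) (nat_lit 392) (nat_lit 348) (nat_lit 280)) (XT.nd (nat_lit 78) (nat_lit 76) (nat_lit 0) (XT.lf (nat_lit 0) (nat_lit 17304068879) (nat_lit 76) (nat_lit 48123887442) (nat_lit 76) (nat_lit 4611078158) (nat_lit 21) (nat_lit 4) (nat_lit 22) (nat_lit 5) (nat_lit 22) (nat_lit 4) (nat_lit 393) (nat_lit 348) (nat_lit 279)) (XT.lf (nat_lit 0) (nat_lit 17217268656) (nat_lit 152) (nat_lit 8233411306) (nat_lit 76) (nat_lit 48923775519) (nat_lit 20) (nat_lit 5) (nat_lit 22) (nat_lit 5) (nat_lit 21) (nat_lit 4) (nat_lit 394) (nat_lit 348) (nat_lit 278)))) (XT.nd (nat_lit 78) (nat_lit 152) (nat_lit 0) (XT.lf (nat_lit 0) (nat_lit 41029803985) (nat_lit 76) (nat_lit 225529388) (nat_lit 152) (nat_lit 37766349395) (nat_lit 19) (nat_lit 5) (nat_lit 20) (nat_lit 5) (nat_lit 21) (nat_lit 4) (nat_lit 395) (nat_lit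 348) (nat_lit 277)) (XT.nd (nat_lit 78) (nat_lit 76) (nat_lit 0) (XT.lf (nat_lit 0) (nat_lit 10369224665) (nat_lit 76) (nat_lit 57559520124) (nat_lit 76) (nat_lit 16076330385) (nat_lit 18) (nat_lit 4) (nat_lit 19) (nat_lit 5) (nat_lit 19) (nat_lit 4) (nat_lit 396) (nat_lit 348) (nat_lit 276)) (XT.lf (nat_lit 0) (nat_lit 7773450226) (nat_lit 152) (nat_lit 25559715358) (nat_lit 76) (nat_lit 56015249800) (nat_lit 17) (nat_lit 5) (nat_lit 19) (nat_lit 5) (nat_lit 18) (nat_lit 4) (nat_lit 397) (nat_lit 348) (nat_lit 275))))) (XT.nd (nat_lit 234) (nat_lit 152) (nat_lit 0) (XT.nd (nat_lit 78) (nat_lit 76) (nat_lit 0) (XT.lf (nat_lit 0) (nat_lit 26923361571) (nat_lit 76) (nat_lit 6457054178) (nat_lit 152) (nat_lit 61705009446) (nat_lit 16) (nat_lit 5) (nat_lit 17) (nat_lit 5) (nat_lit 18) (nat_lit 4) (nat_lit 398) (nat_lit 348) (nat_lit 274)) (XT.nd (nat_lit 78) (nat_lit 76) (nat_lit 0) (XT.lf (nat_lit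 0) (nat_lit 61825882683) (nat_lit 152) (nat_lit 17130004547) (nat_lit 0) (nat_lit 22286012872) (nat_lit 16) (nat_lit 5) (nat_lit 18) (nat_lit 4) (nat_lit 16) (nat_lit 4) (nat_lit 399) (nat_lit 348) (nat_lit 273)) (XT.lf (nat_lit 0) (nat_lit 39100327917) (nat_lit 76) (nat_lit 54152154224) (nat_lit 76) (nat_lit 14603137511) (nat_lit 15) (nat_lit 4) (nat_lit 16) (nat_lit 5) (nat_lit 16) (nat_lit 4) (nat_lit 400) (nat_lit 348) (nat_lit 272)))) (XT.nd (nat_lit 78) (nat_lit 76) (nat_lit 0) (XT.lf (nat_lit 0) (nat_lit 12094307466) (nat_lit 152) (nat_lit 14764155760) (nat_lit 76) (nat_lit 88115962873) (nat_lit 14) (nat_lit 5) (nat_lit 16) (nat_lit 5) (nat_lit 15) (nat_lit 4) (nat_lit 401) (nat_lit 348) (nat_lit 271)) (XT.nd (nat_lit 78) (nat_lit 0) (nat_lit 0) (XT.lf (nat_lit 0) (nat_lit 41164497401) (nat_lit 152) (nat_lit 77965609836) (nat_lit 0) (nat_lit 3483232582) (nat_lit 13) (nat_lit 5) (nat_lit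 15) (nat_lit 4) (nat_lit 13) (nat_lit 4) (nat_lit 402) (nat_lit 348) (nat_lit 270)) (XT.lf (nat_lit 0) (nat_lit 73262521770) (nat_lit 152) (nat_lit 21991393356) (nat_lit 0) (nat_lit 35574341613) (nat_lit 13) (nat_lit 5) (nat_lit 15) (nat_lit 4) (nat_lit 13) (nat_lit 4) (nat_lit 403) (nat_lit 348) (nat_lit 269))))))) (XT.nd (nat_lit 936) (nat_lit 228) (nat_lit 0) (XT.nd (nat_lit 468) (nat_lit 228) (nat_lit 0) (XT.nd (nat_lit 234) (nat_lit 76) (nat_lit 0) (XT.nd (nat_lit 78) (nat_lit 152) (nat_lit 0) (XT.lf (nat_lit 0) (nat_lit 39709894696) (nat_lit 76) (nat_lit 68827307912) (nat_lit 76) (nat_lit 31132724664) (nat_lit 12) (nat_lit 4) (nat_lit 13) (nat_lit 5) (nat_lit 13) (nat_lit 4) (nat_lit 404) (nat_lit 348) (nat_lit 268)) (XT.nd (nat_lit 78) (nat_lit 152) (nat_lit 0) (XT.lf (nat_lit 0) (nat_lit 107111709709) (nat_lit 76) (nat_lit 39894557121) (nat_lit 76) (nat_lit 2194045085) (nat_lit 12)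 (nat_lit 4) (nat_lit 13) (nat_lit 5) (nat_lit 13) (nat_lit 4) (nat_lit 405) (nat_lit 348) (nat_lit 267)) (XT.lf (nat_lit 0) (nat_lit 20598450214) (nat_lit 76) (nat_lit 7842745819) (nat_lit 152) (nat_lit 131013668912) (nat_lit 10) (nat_lit 5) (nat_lit 11) (nat_lit 5) (nat_lit 12) (nat_lit 4) (nat_lit 406) (nat_lit 348) (nat_lit 266)))) (XT.nd (nat_lit 78) (nat_lit 76) (nat_lit 0) (XT.lf (nat_lit 0) (nat_lit 62604861936) (nat_lit 152) (nat_lit 81175855685) (nat_lit 0) (nat_lit 26689543236) (nat_lit 10) (nat_lit 5) (nat_lit 12) (nat_lit 4) (nat_lit 10) (nat_lit 4) (nat_lit 407) (nat_lit 348) (nat_lit 265)) (XT.nd (nat_lit 78) (nat_lit 76) (nat_lit 0) (XT.lf (nat_lit 0) (nat_lit 99624851532) (nat_lit 152) (nat_lit 19030825592) (nat_lit 0) (nat_lit 63705050487) (nat_lit 10) (nat_lit 5) (nat_lit 12) (nat_lit 4) (nat_lit 10) (nat_lit 4) (nat_lit 408) (nat_lit 348) (nat_lit 264)) (XT.lf (nat_lit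 0) (nat_lit 49658780740) (nat_lit 76) (nat_lit 90714627291) (nat_lit 76) (nat_lit 54790675926) (nat_lit 9) (nat_lit 4) (nat_lit 10) (nat_lit 5) (nat_lit 10) (nat_lit 4) (nat_lit 409) (nat_lit 348) (nat_lit 263))))) (XT.nd (nat_lit 234) (nat_lit 76) (nat_lit 0) (XT.nd (nat_lit 78) (nat_lit 152) (nat_lit 0) (XT.lf (nat_lit 0) (nat_lit 124507436421) (nat_lit 76) (nat_lit 60197945301) (nat_lit 76) (nat_lit 24270151046) (nat_lit 9) (nat_lit 4) (nat_lit 10) (nat_lit 5) (nat_lit 10) (nat_lit 4) (nat_lit 410) (nat_lit 348) (nat_lit 262)) (XT.nd (nat_lit 78) (nat_lit 76) (nat_lit 0) (XT.lf (nat_lit 0) (nat_lit 8406313984) (nat_lit 152) (nat_lit 18698408817) (nat_lit 76) (nat_lit 196780765022) (nat_lit 8) (nat_lit 5) (nat_lit 10) (nat_lit 5) (nat_lit 9) (nat_lit 4) (nat_lit 411) (nat_lit 348) (nat_lit 261)) (XT.lf (nat_lit 0) (nat_lit 43843426150) (nat_lit 152) (nat_lit 186455125478) (nat_lit 0) (nat_lit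 9619952680) (nat_lit 7) (nat_lit 5) (nat_lit 9) (nat_lit 4) (nat_lit 7) (nat_lit 4) (nat_lit 412) (nat_lit 348) (nat_lit 260)))) (XT.nd (nat_lit 78) (nat_lit 76) (nat_lit 0) (XT.lf (nat_lit 0) (nat_lit 82896858182) (nat_lit 152) (nat_lit 125627757463) (nat_lit 0) (nat_lit 48670479370) (nat_lit 7) (nat_lit 5) (nat_lit 9) (nat_lit 4) (nat_lit 7) (nat_lit 4) (nat_lit 413) (nat_lit 348) (nat_lit 259)) (XT.nd (nat_lit 78) (nat_lit 76) (nat_lit 0) (XT.lf (nat_lit 0) (nat_lit 125068325849) (nat_lit 152) (nat_lit 59946542584) (nat_lit 0) (nat_lit 90839256906) (nat_lit 7) (nat_lit 5) (nat_lit 9) (nat_lit 4) (nat_lit 7) (nat_lit 4) (nat_lit 414) (nat_lit 348) (nat_lit 258)) (XT.lf (nat_lit 0) (nat_lit 11340714872) (nat_lit 76) (nat_lit 159444079614) (nat_lit 76) (nat_lit 125212519808) (nat_lit 6) (nat_lit 4) (nat_lit 7) (nat_lit 5) (nat_lit 7) (nat_lit 4) (nat_lit 415) (nat_lit 348) (nat_lit 257))))))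 (XT.nd (nat_lit 468) (nat_lit 76) (nat_lit 0) (XT.nd (nat_lit 234) (nat_lit 152) (nat_lit 0) (XT.nd (nat_lit 78) (nat_lit 0) (nat_lit 0) (XT.lf (nat_lit 0) (nat_lit 90460692972) (nat_lit 76) (nat_lit 130736598191) (nat_lit 76) (nat_lit 96502732031) (nat_lit 6) (nat_lit 4) (nat_lit 7) (nat_lit 5) (nat_lit 7) (nat_lit 4) (nat_lit 416) (nat_lit 348) (nat_lit 256)) (XT.nd (nat_lit 78) (nat_lit 0) (nat_lit 0) (XT.lf (nat_lit 0) (nat_lit 175900147420) (nat_lit 76) (nat_lit 99737529460) (nat_lit 76) (nat_lit 65501527787) (nat_lit 6) (nat_lit 4) (nat_lit 7) (nat_lit 5) (nat_lit 7) (nat_lit 4) (nat_lit 417) (nat_lit 348) (nat_lit 255)) (XT.lf (nat_lit 0) (nat_lit 268165386094) (nat_lit 76) (nat_lit 66263175238) (nat_lit 76) (nat_lit 32025196238) (nat_lit 6) (nat_lit 4) (nat_lit 7) (nat_lit 5) (nat_lit 7) (nat_lit 4) (nat_lit 418) (nat_lit 348) (nat_lit 254)))) (XT.nd (nat_lit 78) (nat_lit 76) (nat_lit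 0) (XT.lf (nat_lit 0) (nat_lit 3992626610) (nat_lit 152) (nat_lit 26054925306) (nat_lit 76) (nat_lit 363742922290) (nat_lit 5) (nat_lit 5) (nat_lit 7) (nat_lit 5) (nat_lit 6) (nat_lit 4) (nat_lit 419) (nat_lit 348) (nat_lit 253)) (XT.nd (nat_lit 78) (nat_lit 0) (nat_lit 0) (XT.lf (nat_lit 0) (nat_lit 42773839940) (nat_lit 152) (nat_lit 370300957040) (nat_lit 0) (nat_lit 10162882704) (nat_lit 4) (nat_lit 5) (nat_lit 6) (nat_lit 4) (nat_lit 4) (nat_lit 4) (nat_lit 420) (nat_lit 348) (nat_lit 252)) (XT.lf (nat_lit 0) (nat_lit 85621506382) (nat_lit 152) (nat_lit 316361903422) (nat_lit 0) (nat_lit 53009054226) (nat_lit 4) (nat_lit 5) (nat_lit 6) (nat_lit 4) (nat_lit 4) (nat_lit 4) (nat_lit 421) (nat_lit 348) (nat_lit 251))))) (XT.nd (nat_lit 234) (nat_lit 76) (nat_lit 0) (XT.nd (nat_lit 78) (nat_lit 0) (nat_lit 0) (XT.lf (nat_lit 0) (nat_lit 131893281616) (nat_lit 152) (nat_lit 258115089669) (nat_lit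 0) (nat_lit 99279445275) (nat_lit 4) (nat_lit 5) (nat_lit 6) (nat_lit 4) (nat_lit 4) (nat_lit 4) (nat_lit 422) (nat_lit 348) (nat_lit 250)) (XT.nd (nat_lit 78) (nat_lit 0) (nat_lit 0) (XT.lf (nat_lit 0) (nat_lit 181863368756) (nat_lit 152) (nat_lit 195215349480) (nat_lit 0) (nat_lit 149248250762) (nat_lit 4) (nat_lit 5) (nat_lit 6) (nat_lit 4) (nat_lit 4) (nat_lit 4) (nat_lit 423) (nat_lit 348) (nat_lit 249)) (XT.lf (nat_lit 0) (nat_lit 235827886835) (nat_lit 152) (nat_lit 127289943653) (nat_lit 0) (nat_lit 203211582126) (nat_lit 4) (nat_lit 5) (nat_lit 6) (nat_lit 4) (nat_lit 4) (nat_lit 4) (nat_lit 424) (nat_lit 348) (nat_lit 248)))) (XT.nd (nat_lit 156) (nat_lit 0) (nat_lit 0) (XT.nd (nat_lit 78) (nat_lit 76) (nat_lit 0) (XT.lf (nat_lit 0) (nat_lit 294106625591) (nat_lit 152) (nat_lit 53936351264) (nat_lit 0) (nat_lit 261489222071) (nat_lit 4) (nat_lit 5) (nat_lit 6) (nat_lit 4) (nat_lit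 4) (nat_lit 4) (nat_lit 425) (nat_lit 348) (nat_lit 247)) (XT.lf (nat_lit 0) (nat_lit 26115990432) (nat_lit 76) (nat_lit 331336693882) (nat_lit 76) (nat_lit 298718272944) (nat_lit 3) (nat_lit 4) (nat_lit 4) (nat_lit 5) (nat_lit 4) (nat_lit 4) (nat_lit 426) (nat_lit 348) (nat_lit 246))) (XT.nd (nat_lit 78) (nat_lit 0) (nat_lit 0) (XT.lf (nat_lit 0) (nat_lit 114493391531) (nat_lit 76) (nat_lit 312309970571) (nat_lit 76) (nat_lit 279690607580) (nat_lit 3) (nat_lit 4) (nat_lit 4) (nat_lit 5) (nat_lit 4) (nat_lit 4) (nat_lit 427) (nat_lit 348) (nat_lit 245)) (XT.lf (nat_lit 0) (nat_lit 209936190610) (nat_lit 76) (nat_lit 291763494177) (nat_lit 76) (nat_lit 259143258915) (nat_lit 3) (nat_lit 4) (nat_lit 4) (nat_lit 5) (nat_lit 4) (nat_lit 4) (nat_lit 428) (nat_lit 348) (nat_lit 244))))))))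
noncomputable def xc63 : XT := (XT.nd (nat_lit 48360) (nat_lit 0) (nat_lit 1520) (XT.nd (nat_lit 47424) (nat_lit 0) (nat_lit 4940) (XT.nd (nat_lit 46956) (nat_lit 0) (nat_lit 9044) (XT.nd (nat_lit 234) (nat_lit 0) (nat_lit 0) (XT.nd (nat_lit 78) (nat_lit 0) (nat_lit 0) (XT.lf (nat_lit 0) (nat_lit 313009974625) (nat_lit 76) (nat_lit 269575507802) (nat_lit 76) (nat_lit 236954464882) (nat_lit 3) (nat_lit 4) (nat_lit 4) (nat_lit 5) (nat_lit 4) (nat_lit 4) (nat_lit 429) (nat_lit 348) (nat_lit 243)) (XT.nd (nat_lit 78) (nat_lit 0) (nat_lit 0) (XT.lf (nat_lit 0) (nat_lit 424325551185) (nat_lit 76) (nat_lit 245614527084) (nat_lit 76) (nat_lit 212992736331) (nat_lit 3) (nat_lit 4) (nat_lit 4) (nat_lit 5) (nat_lit 4) (nat_lit 4) (nat_lit 430) (nat_lit 348) (nat_lit 242)) (XT.lf (nat_lit 0) (nat_lit 544542568152) (nat_lit 76) (nat_lit 219738561025) (nat_lit 76) (nat_lit 187116077835) (nat_lit 3) (nat_lit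 4) (nat_lit 4) (nat_lit 5) (nat_lit 4) (nat_lit 4) (nat_lit 431) (nat_lit 348) (nat_lit 241)))) (XT.nd (nat_lit 78) (nat_lit 0) (nat_lit 0) (XT.lf (nat_lit 0) (nat_lit 674373422664) (nat_lit 76) (nat_lit 191794270567) (nat_lit 76) (nat_lit 159171146231) (nat_lit 3) (nat_lit 4) (nat_lit 4) (nat_lit 5) (nat_lit 4) (nat_lit 4) (nat_lit 432) (nat_lit 348) (nat_lit 240)) (XT.nd (nat_lit 46566) (nat_lit 0) (nat_lit 9652) (XT.lf (nat_lit 0) (nat_lit 814587482746) (nat_lit 76) (nat_lit 161616059915) (nat_lit 76) (nat_lit 128992341926) (nat_lit 3) (nat_lit 4) (nat_lit 4) (nat_lit 5) (nat_lit 4) (nat_lit 4) (nat_lit 433) (nat_lit 348) (nat_lit 239)) (XT.lf (nat_lit 0) (nat_lit 2879057482) (nat_lit 684) (nat_lit 758605147) (nat_lit 684) (nat_lit 758605147) (nat_lit 130) (nat_lit 3) (nat_lit 139) (nat_lit 3) (nat_lit 139) (nat_lit 5) (nat_lit 349) (nat_lit 349) (nat_lit 322))))) (XT.nd (nat_lit 234)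 (nat_lit 0) (nat_lit 76) (XT.nd (nat_lit 78) (nat_lit 608) (nat_lit 0) (XT.lf (nat_lit 76) (nat_lit 5443773830) (nat_lit 0) (nat_lit 2066530481) (nat_lit 684) (nat_lit 1556663102) (nat_lit 131) (nat_lit 5) (nat_lit 130) (nat_lit 3) (nat_lit 139) (nat_lit 5) (nat_lit 350) (nat_lit 349) (nat_lit 321)) (XT.nd (nat_lit 78) (nat_lit 0) (nat_lit 76) (XT.lf (nat_lit 0) (nat_lit 32995732) (nat_lit 684) (nat_lit 5736801420) (nat_lit 760) (nat_lit 3593891108) (nat_lit 122) (nat_lit 5) (nat_lit 131) (nat_lit 5) (nat_lit 132) (nat_lit 5) (nat_lit 351) (nat_lit 349) (nat_lit 320)) (XT.lf (nat_lit 0) (nat_lit 1688454426) (nat_lit 684) (nat_lit 7871423380) (nat_lit 760) (nat_lit 123438547) (nat_lit 123) (nat_lit 5) (nat_lit 132) (nat_lit 5) (nat_lit 133) (nat_lit 5) (nat_lit 352) (nat_lit 349) (nat_lit 319)))) (XT.nd (nat_lit 78) (nat_lit 0) (nat_lit 76) (XT.lf (nat_lit 0) (nat_lit 3547868150) (nat_lit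 684) (nat_lit 43814533) (nat_lit 760) (nat_lit 6433352186) (nat_lit 123) (nat_lit 5) (nat_lit 132) (nat_lit 5) (nat_lit 133) (nat_lit 5) (nat_lit 353) (nat_lit 349) (nat_lit 318)) (XT.nd (nat_lit 78) (nat_lit 0) (nat_lit 0) (XT.lf (nat_lit 0) (nat_lit 5619706979) (nat_lit 684) (nat_lit 1839343390) (nat_lit 760) (nat_lit 2931945876) (nat_lit 124) (nat_lit 5) (nat_lit 133) (nat_lit 5) (nat_lit 134) (nat_lit 5) (nat_lit 354) (nat_lit 349) (nat_lit 317)) (XT.lf (nat_lit 76) (nat_lit 7131384734) (nat_lit 0) (nat_lit 788628500) (nat_lit 760) (nat_lit 2863167666) (nat_lit 125) (nat_lit 5) (nat_lit 124) (nat_lit 5) (nat_lit 134) (nat_lit 5) (nat_lit 355) (nat_lit 349) (nat_lit 316)))))) (XT.nd (nat_lit 468) (nat_lit 1672) (nat_lit 0) (XT.nd (nat_lit 234) (nat_lit 760) (nat_lit 0) (XT.nd (nat_lit 78) (nat_lit 1216) (nat_lit 0) (XT.lf (nat_lit 0) (nat_lit 5672987815) (nat_lit 684) (nat_lit 4849870723)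 (nat_lit 760) (nat_lit 678032346) (nat_lit 116) (nat_lit 5) (nat_lit 125) (nat_lit 5) (nat_lit 126) (nat_lit 5) (nat_lit 356) (nat_lit 349) (nat_lit 315)) (XT.nd (nat_lit 78) (nat_lit 380) (nat_lit 0) (XT.lf (nat_lit 0) (nat_lit 1713922679) (nat_lit 836) (nat_lit 7455923518) (nat_lit 76) (nat_lit 2476633737) (nat_lit 105) (nat_lit 5) (nat_lit 116) (nat_lit 5) (nat_lit 106) (nat_lit 5) (nat_lit 357) (nat_lit 349) (nat_lit 314)) (XT.lf (nat_lit 0) (nat_lit 2662747290) (nat_lit 380) (nat_lit 1740221977) (nat_lit 456) (nat_lit 7717778858) (nat_lit 100) (nat_lit 5) (nat_lit 105) (nat_lit 5) (nat_lit 106) (nat_lit 5) (nat_lit 358) (nat_lit 349) (nat_lit 313)))) (XT.nd (nat_lit 78) (nat_lit 456) (nat_lit 0) (XT.lf (nat_lit 0) (nat_lit 1075650061) (nat_lit 304) (nat_lit 6391869185) (nat_lit 380) (nat_lit 5157477214) (nat_lit 96) (nat_lit 5) (nat_lit 100) (nat_lit 5) (nat_lit 101) (nat_lit 5) (nat_lit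 359) (nat_lit 349) (nat_lit 312)) (XT.nd (nat_lit 78) (nat_lit 456) (nat_lit 0) (XT.lf (nat_lit 0) (nat_lit 10917267781) (nat_lit 380) (nat_lit 517830739) (nat_lit 76) (nat_lit 1727537815) (nat_lit 96) (nat_lit 5) (nat_lit 101) (nat_lit 5) (nat_lit 97) (nat_lit 5) (nat_lit 360) (nat_lit 349) (nat_lit 311)) (XT.lf (nat_lit 0) (nat_lit 1087397272) (nat_lit 456) (nat_lit 2174087557) (nat_lit 76) (nat_lit 10470323074) (nat_lit 90) (nat_lit 5) (nat_lit 96) (nat_lit 5) (nat_lit 91) (nat_lit 5) (nat_lit 361) (nat_lit 349) (nat_lit 310))))) (XT.nd (nat_lit 234) (nat_lit 836) (nat_lit 0) (XT.nd (nat_lit 78) (nat_lit 532) (nat_lit 0) (XT.lf (nat_lit 0) (nat_lit 4799961660) (nat_lit 380) (nat_lit 3942072613) (nat_lit 76) (nat_lit 5593089855) (nat_lit 86) (nat_lit 5) (nat_lit 91) (nat_lit 5) (nat_lit 87) (nat_lit 5) (nat_lit 362) (nat_lit 349) (nat_lit 309)) (XT.nd (nat_lit 78) (nat_lit 228) (nat_lit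 0) (XT.lf (nat_lit 0) (nat_lit 8982277562) (nat_lit 380) (nat_lit 5765640295) (nat_lit 76) (nat_lit 230190848) (nat_lit 82) (nat_lit 5) (nat_lit 87) (nat_lit 5) (nat_lit 83) (nat_lit 5) (nat_lit 363) (nat_lit 349) (nat_lit 308)) (XT.lf (nat_lit 0) (nat_lit 7914937588) (nat_lit 228) (nat_lit 5860308764) (nat_lit 304) (nat_lit 1883519698) (nat_lit 79) (nat_lit 5) (nat_lit 82) (nat_lit 5) (nat_lit 83) (nat_lit 5) (nat_lit 364) (nat_lit 349) (nat_lit 307)))) (XT.nd (nat_lit 78) (nat_lit 456) (nat_lit 0) (XT.lf (nat_lit 0) (nat_lit 2680944775) (nat_lit 380) (nat_lit 9849787795) (nat_lit 76) (nat_lit 3850928027) (nat_lit 74) (nat_lit 5) (nat_lit 79) (nat_lit 5) (nat_lit 75) (nat_lit 5) (nat_lit 365) (nat_lit 349) (nat_lit 306)) (XT.nd (nat_lit 78) (nat_lit 228) (nat_lit 0) (XT.lf (nat_lit 0) (nat_lit 5019674254) (nat_lit 228) (nat_lit 2781065122) (nat_lit 304) (nat_lit 9347325869) (nat_lit 71)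 (nat_lit 5) (nat_lit 74) (nat_lit 5) (nat_lit 75) (nat_lit 5) (nat_lit 366) (nat_lit 349) (nat_lit 305)) (XT.lf (nat_lit 0) (nat_lit 3369465021) (nat_lit 228) (nat_lit 10252506936) (nat_lit 304) (nat_lit 4339245849) (nat_lit 68) (nat_lit 5) (nat_lit 71) (nat_lit 5) (nat_lit 72) (nat_lit 5) (nat_lit 367) (nat_lit 349) (nat_lit 304))))))) (XT.nd (nat_lit 936) (nat_lit 1368) (nat_lit 0) (XT.nd (nat_lit 468) (nat_lit 912) (nat_lit 0) (XT.nd (nat_lit 234) (nat_lit 608) (nat_lit 0) (XT.nd (nat_lit 78) (nat_lit 228) (nat_lit 0) (XT.lf (nat_lit 0) (nat_lit 1273640527) (nat_lit 304) (nat_lit 17212516738) (nat_lit 76) (nat_lit 340535850) (nat_lit 64) (nat_lit 5) (nat_lit 68) (nat_lit 5) (nat_lit 65) (nat_lit 5) (nat_lit 368) (nat_lit 349) (nat_lit 303)) (XT.nd (nat_lit 78) (nat_lit 228) (nat_lit 0) (XT.lf (nat_lit 0) (nat_lit 7565288631) (nat_lit 304) (nat_lit 436430268) (nat_lit 76) (nat_lit 11737066023)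 (nat_lit 64) (nat_lit 5) (nat_lit 68) (nat_lit 5) (nat_lit 65) (nat_lit 5) (nat_lit 369) (nat_lit 349) (nat_lit 302)) (XT.lf (nat_lit 0) (nat_lit 14652824805) (nat_lit 304) (nat_lit 2573739196) (nat_lit 76) (nat_lit 3482673629) (nat_lit 61) (nat_lit 5) (nat_lit 65) (nat_lit 5) (nat_lit 62) (nat_lit 5) (nat_lit 370) (nat_lit 349) (nat_lit 301)))) (XT.nd (nat_lit 78) (nat_lit 380) (nat_lit 0) (XT.lf (nat_lit 0) (nat_lit 897497067) (nat_lit 228) (nat_lit 4968371771) (nat_lit 76) (nat_lit 15872793959) (nat_lit 58) (nat_lit 5) (nat_lit 61) (nat_lit 5) (nat_lit 59) (nat_lit 5) (nat_lit 371) (nat_lit 349) (nat_lit 300)) (XT.nd (nat_lit 78) (nat_lit 152) (nat_lit 0) (XT.lf (nat_lit 0) (nat_lit 8543644669) (nat_lit 304) (nat_lit 7716413245) (nat_lit 76) (nat_lit 6568031630) (nat_lit 55) (nat_lit 5) (nat_lit 59) (nat_lit 5) (nat_lit 56) (nat_lit 5) (nat_lit 372) (nat_lit 349) (nat_lit 299)) (XT.lf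 (nat_lit 0) (nat_lit 13232551803) (nat_lit 152) (nat_lit 3920403256) (nat_lit 228) (nat_lit 6834157976) (nat_lit 53) (nat_lit 5) (nat_lit 55) (nat_lit 5) (nat_lit 56) (nat_lit 5) (nat_lit 373) (nat_lit 349) (nat_lit 298))))) (XT.nd (nat_lit 234) (nat_lit 380) (nat_lit 0) (XT.nd (nat_lit 78) (nat_lit 304) (nat_lit 0) (XT.lf (nat_lit 0) (nat_lit 1595773579) (nat_lit 228) (nat_lit 14203316912) (nat_lit 76) (nat_lit 9417714999) (nat_lit 50) (nat_lit 5) (nat_lit 53) (nat_lit 5) (nat_lit 51) (nat_lit 5) (nat_lit 374) (nat_lit 349) (nat_lit 297)) (XT.nd (nat_lit 78) (nat_lit 152) (nat_lit 0) (XT.lf (nat_lit 0) (nat_lit 8392597127) (nat_lit 152) (nat_lit 2419955445) (nat_lit 228) (nat_lit 15709137764) (nat_lit 48) (nat_lit 5) (nat_lit 50) (nat_lit 5) (nat_lit 51) (nat_lit 5) (nat_lit 375) (nat_lit 349) (nat_lit 296)) (XT.lf (nat_lit 0) (nat_lit 5300697538) (nat_lit 152) (nat_lit 15950729225) (nat_lit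 228) (nat_lit 6655313777) (nat_lit 46) (nat_lit 5) (nat_lit 48) (nat_lit 5) (nat_lit 49) (nat_lit 5) (nat_lit 376) (nat_lit 349) (nat_lit 295)))) (XT.nd (nat_lit 78) (nat_lit 152) (nat_lit 0) (XT.lf (nat_lit 0) (nat_lit 1766878066) (nat_lit 152) (nat_lit 1609310550) (nat_lit 228) (nat_lit 26006313012) (nat_lit 43) (nat_lit 5) (nat_lit 45) (nat_lit 5) (nat_lit 46) (nat_lit 5) (nat_lit 377) (nat_lit 349) (nat_lit 294)) (XT.nd (nat_lit 78) (nat_lit 152) (nat_lit 0) (XT.lf (nat_lit 0) (nat_lit 14562452006) (nat_lit 228) (nat_lit 2454238722) (nat_lit 76) (nat_lit 13924917143) (nat_lit 43) (nat_lit 5) (nat_lit 46) (nat_lit 5) (nat_lit 44) (nat_lit 5) (nat_lit 378) (nat_lit 349) (nat_lit 293)) (XT.lf (nat_lit 0) (nat_lit 25452830992) (nat_lit 152) (nat_lit 1583235975) (nat_lit 228) (nat_lit 5569762356) (nat_lit 41) (nat_lit 5) (nat_lit 43) (nat_lit 5) (nat_lit 44) (nat_lit 5) (nat_lit 379) (nat_lit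 349) (nat_lit 292)))))) (XT.nd (nat_lit 468) (nat_lit 684) (nat_lit 0) (XT.nd (nat_lit 234) (nat_lit 304) (nat_lit 0) (XT.nd (nat_lit 78) (nat_lit 228) (nat_lit 0) (XT.lf (nat_lit 0) (nat_lit 6505261571) (nat_lit 152) (nat_lit 12795504592) (nat_lit 76) (nat_lit 15067852278) (nat_lit 39) (nat_lit 5) (nat_lit 41) (nat_lit 5) (nat_lit 40) (nat_lit 5) (nat_lit 380) (nat_lit 349) (nat_lit 291)) (XT.nd (nat_lit 78) (nat_lit 76) (nat_lit 0) (XT.lf (nat_lit 0) (nat_lit 16954312767) (nat_lit 152) (nat_lit 2787628730) (nat_lit 228) (nat_lit 16506391780) (nat_lit 37) (nat_lit 5) (nat_lit 39) (nat_lit 5) (nat_lit 40) (nat_lit 5) (nat_lit 381) (nat_lit 349) (nat_lit 290)) (XT.lf (nat_lit 0) (nat_lit 11347326030) (nat_lit 76) (nat_lit 23300090492) (nat_lit 152) (nat_lit 3600522724) (nat_lit 36) (nat_lit 5) (nat_lit 37) (nat_lit 5) (nat_lit 38) (nat_lit 4) (nat_lit 382) (nat_lit 349) (nat_lit 289)))) (XT.nd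 (nat_lit 78) (nat_lit 76) (nat_lit 0) (XT.lf (nat_lit 0) (nat_lit 4622534694) (nat_lit 152) (nat_lit 5817328656) (nat_lit 228) (nat_lit 29937940276) (nat_lit 33) (nat_lit 5) (nat_lit 35) (nat_lit 5) (nat_lit 36) (nat_lit 5) (nat_lit 383) (nat_lit 349) (nat_lit 288)) (XT.nd (nat_lit 78) (nat_lit 76) (nat_lit 0) (XT.lf (nat_lit 0) (nat_lit 26132400792) (nat_lit 228) (nat_lit 3347435096) (nat_lit 76) (nat_lit 13162522457) (nat_lit 33) (nat_lit 5) (nat_lit 36) (nat_lit 5) (nat_lit 34) (nat_lit 4) (nat_lit 384) (nat_lit 349) (nat_lit 287)) (XT.lf (nat_lit 0) (nat_lit 32551800707) (nat_lit 76) (nat_lit 11109985015) (nat_lit 152) (nat_lit 1397224772) (nat_lit 32) (nat_lit 5) (nat_lit 33) (nat_lit 5) (nat_lit 34) (nat_lit 4) (nat_lit 385) (nat_lit 349) (nat_lit 286))))) (XT.nd (nat_lit 234) (nat_lit 228) (nat_lit 0) (XT.nd (nat_lit 78) (nat_lit 228) (nat_lit 0) (XT.lf (nat_lit 0) (nat_lit 15008018295)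 (nat_lit 228) (nat_lit 23508035273) (nat_lit 76) (nat_lit 9113236731) (nat_lit 29) (nat_lit 5) (nat_lit 32) (nat_lit 5) (nat_lit 30) (nat_lit 4) (nat_lit 386) (nat_lit 349) (nat_lit 285)) (XT.nd (nat_lit 78) (nat_lit 152) (nat_lit 0) (XT.lf (nat_lit 0) (nat_lit 13920615157) (nat_lit 76) (nat_lit 19359621481) (nat_lit 152) (nat_lit 17093639506) (nat_lit 28) (nat_lit 5) (nat_lit 29) (nat_lit 5) (nat_lit 30) (nat_lit 4) (nat_lit 387) (nat_lit 349) (nat_lit 284)) (XT.lf (nat_lit 0) (nat_lit 137298075) (nat_lit 152) (nat_lit 51462433761) (nat_lit 76) (nat_lit 1716017039) (nat_lit 26) (nat_lit 5) (nat_lit 28) (nat_lit 5) (nat_lit 27) (nat_lit 4) (nat_lit 388) (nat_lit 349) (nat_lit 283)))) (XT.nd (nat_lit 156) (nat_lit 152) (nat_lit 0) (XT.nd (nat_lit 78) (nat_lit 76) (nat_lit 0) (XT.lf (nat_lit 0) (nat_lit 19105896598) (nat_lit 152) (nat_lit 12600809965) (nat_lit 76) (nat_lit 24724354009) (nat_lit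 26) (nat_lit 5) (nat_lit 28) (nat_lit 5) (nat_lit 27) (nat_lit 4) (nat_lit 389) (nat_lit 349) (nat_lit 282)) (XT.lf (nat_lit 0) (nat_lit 30301945821) (nat_lit 76) (nat_lit 9742965875) (nat_lit 152) (nat_lit 19728042333) (nat_lit 25) (nat_lit 5) (nat_lit 26) (nat_lit 5) (nat_lit 27) (nat_lit 4) (nat_lit 390) (nat_lit 349) (nat_lit 281))) (XT.nd (nat_lit 78) (nat_lit 76) (nat_lit 0) (XT.lf (nat_lit 0) (nat_lit 13902073712) (nat_lit 76) (nat_lit 49395854981) (nat_lit 76) (nat_lit 52329253) (nat_lit 24) (nat_lit 4) (nat_lit 25) (nat_lit 5) (nat_lit 25) (nat_lit 4) (nat_lit 391) (nat_lit 349) (nat_lit 280)) (XT.lf (nat_lit 0) (nat_lit 21186145048) (nat_lit 152) (nat_lit 5930075517) (nat_lit 76) (nat_lit 40047622962) (nat_lit 23) (nat_lit 5) (nat_lit 25) (nat_lit 5) (nat_lit 24) (nat_lit 4) (nat_lit 392) (nat_lit 349) (nat_lit 279))))))))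
noncomputable def xc64 : XT := (XT.nd (nat_lit 1872) (nat_lit 228) (nat_lit 0) (XT.nd (nat_lit 936) (nat_lit 532) (nat_lit 0) (XT.nd (nat_lit 468) (nat_lit 304) (nat_lit 0) (XT.nd (nat_lit 234) (nat_lit 228) (nat_lit 0) (XT.nd (nat_lit 78) (nat_lit 152) (nat_lit 0) (XT.lf (nat_lit 0) (nat_lit 42392317958) (nat_lit 76) (nat_lit 2373922886) (nat_lit 152) (nat_lit 26484015838) (nat_lit 22) (nat_lit 5) (nat_lit 23) (nat_lit 5) (nat_lit 24) (nat_lit 4) (nat_lit 393) (nat_lit 349) (nat_lit 278)) (XT.nd (nat_lit 78) (nat_lit 76) (nat_lit 0) (XT.lf (nat_lit 0) (nat_lit 19338709146) (nat_lit 76) (nat_lit 51664153632) (nat_lit 76) (nat_lit 4622216468) (nat_lit 21) (nat_lit 4) (nat_lit 22) (nat_lit 5) (nat_lit 22) (nat_lit 4) (nat_lit 394) (nat_lit 349) (nat_lit 277)) (XT.lf (nat_lit 0) (nat_lit 18915296236) (nat_lit 152) (nat_lit 8279299673) (nat_lit 76) (nat_lit 53113744469) (nat_lit 20) (nat_lit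 5) (nat_lit 22) (nat_lit 5) (nat_lit 21) (nat_lit 4) (nat_lit 395) (nat_lit 349) (nat_lit 276)))) (XT.nd (nat_lit 78) (nat_lit 152) (nat_lit 0) (XT.lf (nat_lit 0) (nat_lit 44862376498) (nat_lit 152) (nat_lit 40430307214) (nat_lit 0) (nat_lit 35366525) (nat_lit 19) (nat_lit 5) (nat_lit 21) (nat_lit 4) (nat_lit 19) (nat_lit 4) (nat_lit 396) (nat_lit 349) (nat_lit 275)) (XT.nd (nat_lit 78) (nat_lit 76) (nat_lit 0) (XT.lf (nat_lit 0) (nat_lit 11769931608) (nat_lit 76) (nat_lit 61889455583) (nat_lit 76) (nat_lit 17051243217) (nat_lit 18) (nat_lit 4) (nat_lit 19) (nat_lit 5) (nat_lit 19) (nat_lit 4) (nat_lit 397) (nat_lit 349) (nat_lit 274)) (XT.lf (nat_lit 0) (nat_lit 8674246115) (nat_lit 152) (nat_lit 27066380415) (nat_lit 76) (nat_lit 60741686427) (nat_lit 17) (nat_lit 5) (nat_lit 19) (nat_lit 5) (nat_lit 18) (nat_lit 4) (nat_lit 398) (nat_lit 349) (nat_lit 273))))) (XT.nd (nat_lit 234) (nat_lit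 152) (nat_lit 0) (XT.nd (nat_lit 78) (nat_lit 76) (nat_lit 0) (XT.lf (nat_lit 0) (nat_lit 29591956968) (nat_lit 76) (nat_lit 6725187503) (nat_lit 152) (nat_lit 66361772499) (nat_lit 16) (nat_lit 5) (nat_lit 17) (nat_lit 5) (nat_lit 18) (nat_lit 4) (nat_lit 399) (nat_lit 349) (nat_lit 272)) (XT.nd (nat_lit 78) (nat_lit 76) (nat_lit 0) (XT.lf (nat_lit 0) (nat_lit 67022114563) (nat_lit 152) (nat_lit 18015043792) (nat_lit 0) (nat_lit 24291560259) (nat_lit 16) (nat_lit 5) (nat_lit 18) (nat_lit 4) (nat_lit 16) (nat_lit 4) (nat_lit 400) (nat_lit 349) (nat_lit 271)) (XT.lf (nat_lit 0) (nat_lit 42692622066) (nat_lit 76) (nat_lit 58258937971) (nat_lit 76) (nat_lit 15520541673) (nat_lit 15) (nat_lit 4) (nat_lit 16) (nat_lit 5) (nat_lit 16) (nat_lit 4) (nat_lit 401) (nat_lit 349) (nat_lit 270)))) (XT.nd (nat_lit 78) (nat_lit 76) (nat_lit 0) (XT.lf (nat_lit 0) (nat_lit 13286683705) (nat_lit 152) (nat_lit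 15507955807) (nat_lit 76) (nat_lit 95366478328) (nat_lit 14) (nat_lit 5) (nat_lit 16) (nat_lit 5) (nat_lit 15) (nat_lit 4) (nat_lit 402) (nat_lit 349) (nat_lit 269)) (XT.nd (nat_lit 78) (nat_lit 0) (nat_lit 0) (XT.lf (nat_lit 0) (nat_lit 44675544933) (nat_lit 152) (nat_lit 83776956524) (nat_lit 0) (nat_lit 3958991934) (nat_lit 13) (nat_lit 5) (nat_lit 15) (nat_lit 4) (nat_lit 13) (nat_lit 4) (nat_lit 403) (nat_lit 349) (nat_lit 268)) (XT.lf (nat_lit 0) (nat_lit 79325271419) (nat_lit 152) (nat_lit 23356351029) (nat_lit 0) (nat_lit 38602789632) (nat_lit 13) (nat_lit 5) (nat_lit 15) (nat_lit 4) (nat_lit 13) (nat_lit 4) (nat_lit 404) (nat_lit 349) (nat_lit 267)))))) (XT.nd (nat_lit 468) (nat_lit 228) (nat_lit 0) (XT.nd (nat_lit 234) (nat_lit 76) (nat_lit 0) (XT.nd (nat_lit 78) (nat_lit 152) (nat_lit 0) (XT.lf (nat_lit 0) (nat_lit 43263901932) (nat_lit 76) (nat_lit 74148969897) (nat_lit 76) (nat_lit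 33420998491) (nat_lit 12) (nat_lit 4) (nat_lit 13) (nat_lit 5) (nat_lit 13) (nat_lit 4) (nat_lit 405) (nat_lit 349) (nat_lit 266)) (XT.nd (nat_lit 78) (nat_lit 152) (nat_lit 0) (XT.lf (nat_lit 0) (nat_lit 116029920244) (nat_lit 76) (nat_lit 42915267387) (nat_lit 76) (nat_lit 2182213001) (nat_lit 12) (nat_lit 4) (nat_lit 13) (nat_lit 5) (nat_lit 13) (nat_lit 4) (nat_lit 406) (nat_lit 349) (nat_lit 265)) (XT.lf (nat_lit 0) (nat_lit 22586170832) (nat_lit 76) (nat_lit 8303551938) (nat_lit 152) (nat_lit 141312856358) (nat_lit 10) (nat_lit 5) (nat_lit 11) (nat_lit 5) (nat_lit 12) (nat_lit 4) (nat_lit 407) (nat_lit 349) (nat_lit 264)))) (XT.nd (nat_lit 78) (nat_lit 76) (nat_lit 0) (XT.lf (nat_lit 0) (nat_lit 67776058631) (nat_lit 152) (nat_lit 87349629409) (nat_lit 0) (nat_lit 28974040836) (nat_lit 10) (nat_lit 5) (nat_lit 12) (nat_lit 4) (nat_lit 10) (nat_lit 4) (nat_lit 408) (nat_lit 349) (nat_lit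 263)) (XT.nd (nat_lit 78) (nat_lit 76) (nat_lit 0) (XT.lf (nat_lit 0) (nat_lit 107745587562) (nat_lit 152) (nat_lit 20256722445) (nat_lit 0) (nat_lit 68939726878) (nat_lit 10) (nat_lit 5) (nat_lit 12) (nat_lit 4) (nat_lit 10) (nat_lit 4) (nat_lit 409) (nat_lit 349) (nat_lit 262)) (XT.lf (nat_lit 0) (nat_lit 53915163858) (nat_lit 76) (nat_lit 97832127261) (nat_lit 76) (nat_lit 59022708347) (nat_lit 9) (nat_lit 4) (nat_lit 10) (nat_lit 5) (nat_lit 10) (nat_lit 4) (nat_lit 410) (nat_lit 349) (nat_lit 261))))) (XT.nd (nat_lit 234) (nat_lit 76) (nat_lit 0) (XT.nd (nat_lit 78) (nat_lit 152) (nat_lit 0) (XT.lf (nat_lit 0) (nat_lit 134730698612) (nat_lit 76) (nat_lit 64884456653) (nat_lit 76) (nat_lit 26071743081) (nat_lit 9) (nat_lit 4) (nat_lit 10) (nat_lit 5) (nat_lit 10) (nat_lit 4) (nat_lit 411) (nat_lit 349) (nat_lit 260)) (XT.nd (nat_lit 78) (nat_lit 76) (nat_lit 0) (XT.lf (nat_lit 0) (nat_lit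 9204317744) (nat_lit 152) (nat_lit 19946912805) (nat_lit 76) (nat_lit 212638812644) (nat_lit 8) (nat_lit 5) (nat_lit 10) (nat_lit 5) (nat_lit 9) (nat_lit 4) (nat_lit 412) (nat_lit 349) (nat_lit 259)) (XT.lf (nat_lit 0) (nat_lit 47472619316) (nat_lit 152) (nat_lit 201130736580) (nat_lit 0) (nat_lit 10502534726) (nat_lit 7) (nat_lit 5) (nat_lit 9) (nat_lit 4) (nat_lit 7) (nat_lit 4) (nat_lit 413) (nat_lit 349) (nat_lit 258)))) (XT.nd (nat_lit 78) (nat_lit 76) (nat_lit 0) (XT.lf (nat_lit 0) (nat_lit 89641309683) (nat_lit 152) (nat_lit 135455016082) (nat_lit 0) (nat_lit 52668734230) (nat_lit 7) (nat_lit 5) (nat_lit 9) (nat_lit 4) (nat_lit 7) (nat_lit 4) (nat_lit 414) (nat_lit 349) (nat_lit 257)) (XT.nd (nat_lit 78) (nat_lit 76) (nat_lit 0) (XT.lf (nat_lit 0) (nat_lit 135178146404) (nat_lit 152) (nat_lit 64535819714) (nat_lit 0) (nat_lit 98203264597) (nat_lit 7) (nat_lit 5) (nat_lit 9) (nat_lit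 4) (nat_lit 7) (nat_lit 4) (nat_lit 415) (nat_lit 349) (nat_lit 256)) (XT.lf (nat_lit 0) (nat_lit 12445446435) (nat_lit 76) (nat_lit 172101839264) (nat_lit 76) (nat_lit 135124821944) (nat_lit 6) (nat_lit 4) (nat_lit 7) (nat_lit 5) (nat_lit 7) (nat_lit 4) (nat_lit 416) (nat_lit 349) (nat_lit 255))))))) (XT.nd (nat_lit 936) (nat_lit 0) (nat_lit 0) (XT.nd (nat_lit 468) (nat_lit 76) (nat_lit 0) (XT.nd (nat_lit 234) (nat_lit 152) (nat_lit 0) (XT.nd (nat_lit 78) (nat_lit 0) (nat_lit 0) (XT.lf (nat_lit 0) (nat_lit 97880395051) (nat_lit 76) (nat_lit 141105001306) (nat_lit 76) (nat_lit 104126006659) (nat_lit 6) (nat_lit 4) (nat_lit 7) (nat_lit 5) (nat_lit 7) (nat_lit 4) (nat_lit 417) (nat_lit 349) (nat_lit 254)) (XT.nd (nat_lit 78) (nat_lit 0) (nat_lit 0) (XT.lf (nat_lit 0) (nat_lit 190141461659) (nat_lit 76) (nat_lit 107632712614) (nat_lit 76) (nat_lit 70651887108) (nat_lit 6) (nat_lit 4) (nat_lit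 7) (nat_lit 5) (nat_lit 7) (nat_lit 4) (nat_lit 418) (nat_lit 349) (nat_lit 253)) (XT.lf (nat_lit 0) (nat_lit 289775378506) (nat_lit 76) (nat_lit 71486618883) (nat_lit 76) (nat_lit 34504098139) (nat_lit 6) (nat_lit 4) (nat_lit 7) (nat_lit 5) (nat_lit 7) (nat_lit 4) (nat_lit 419) (nat_lit 349) (nat_lit 252)))) (XT.nd (nat_lit 78) (nat_lit 76) (nat_lit 0) (XT.lf (nat_lit 0) (nat_lit 4386530848) (nat_lit 152) (nat_lit 27991702170) (nat_lit 76) (nat_lit 392911749930) (nat_lit 5) (nat_lit 5) (nat_lit 7) (nat_lit 5) (nat_lit 6) (nat_lit 4) (nat_lit 420) (nat_lit 349) (nat_lit 251)) (XT.nd (nat_lit 78) (nat_lit 0) (nat_lit 0) (XT.lf (nat_lit 0) (nat_lit 46268020949) (nat_lit 152) (nat_lit 399781361749) (nat_lit 0) (nat_lit 11043693515) (nat_lit 4) (nat_lit 5) (nat_lit 6) (nat_lit 4) (nat_lit 4) (nat_lit 4) (nat_lit 421) (nat_lit 349) (nat_lit 250)) (XT.lf (nat_lit 0) (nat_lit 92538147090) (nat_lit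 152) (nat_lit 341537826200) (nat_lit 0) (nat_lit 57312538004) (nat_lit 4) (nat_lit 5) (nat_lit 6) (nat_lit 4) (nat_lit 4) (nat_lit 4) (nat_lit 422) (nat_lit 349) (nat_lit 249))))) (XT.nd (nat_lit 234) (nat_lit 76) (nat_lit 0) (XT.nd (nat_lit 78) (nat_lit 0) (nat_lit 0) (XT.lf (nat_lit 0) (nat_lit 142506707291) (nat_lit 152) (nat_lit 278641121385) (nat_lit 0) (nat_lit 107279911489) (nat_lit 4) (nat_lit 5) (nat_lit 6) (nat_lit 4) (nat_lit 4) (nat_lit 4) (nat_lit 423) (nat_lit 349) (nat_lit 248)) (XT.nd (nat_lit 78) (nat_lit 0) (nat_lit 0) (XT.lf (nat_lit 0) (nat_lit 196469811539) (nat_lit 152) (nat_lit 210718526088) (nat_lit 0) (nat_lit 161241916927) (nat_lit 4) (nat_lit 5) (nat_lit 6) (nat_lit 4) (nat_lit 4) (nat_lit 4) (nat_lit 424) (nat_lit 349) (nat_lit 247)) (XT.lf (nat_lit 0) (nat_lit 254747241192) (nat_lit 152) (nat_lit 137367536043) (nat_lit 0) (nat_lit 219518329162) (nat_lit 4) (nat_lit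 5) (nat_lit 6) (nat_lit 4) (nat_lit 4) (nat_lit 4) (nat_lit 425) (nat_lit 349) (nat_lit 246)))) (XT.nd (nat_lit 78) (nat_lit 76) (nat_lit 0) (XT.lf (nat_lit 0) (nat_lit 317684343982) (nat_lit 152) (nat_lit 58153478715) (nat_lit 0) (nat_lit 282454489898) (nat_lit 4) (nat_lit 5) (nat_lit 6) (nat_lit 4) (nat_lit 4) (nat_lit 4) (nat_lit 426) (nat_lit 349) (nat_lit 245)) (XT.nd (nat_lit 78) (nat_lit 0) (nat_lit 0) (XT.lf (nat_lit 0) (nat_lit 28298800889) (nat_lit 76) (nat_lit 357797103217) (nat_lit 76) (nat_lit 322566376862) (nat_lit 3) (nat_lit 4) (nat_lit 4) (nat_lit 5) (nat_lit 4) (nat_lit 4) (nat_lit 427) (nat_lit 349) (nat_lit 244)) (XT.lf (nat_lit 0) (nat_lit 123739465837) (nat_lit 76) (nat_lit 337251688424) (nat_lit 76) (nat_lit 302020154411) (nat_lit 3) (nat_lit 4) (nat_lit 4) (nat_lit 5) (nat_lit 4) (nat_lit 4) (nat_lit 428) (nat_lit 349) (nat_lit 243)))))) (XT.nd (nat_lit 47034) (nat_lit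 0) (nat_lit 8512) (XT.nd (nat_lit 234) (nat_lit 0) (nat_lit 0) (XT.nd (nat_lit 78) (nat_lit 0) (nat_lit 0) (XT.lf (nat_lit 0) (nat_lit 226811273806) (nat_lit 76) (nat_lit 315064685014) (nat_lit 76) (nat_lit 279832403169) (nat_lit 3) (nat_lit 4) (nat_lit 4) (nat_lit 5) (nat_lit 4) (nat_lit 4) (nat_lit 429) (nat_lit 349) (nat_lit 242)) (XT.nd (nat_lit 78) (nat_lit 0) (nat_lit 0) (XT.lf (nat_lit 0) (nat_lit 338125020695) (nat_lit 76) (nat_lit 291104614448) (nat_lit 76) (nat_lit 255871640165) (nat_lit 3) (nat_lit 4) (nat_lit 4) (nat_lit 5) (nat_lit 4) (nat_lit 4) (nat_lit 430) (nat_lit 349) (nat_lit 241)) (XT.lf (nat_lit 0) (nat_lit 458340343521) (nat_lit 76) (nat_lit 265229491123) (nat_lit 76) (nat_lit 229995875694) (nat_lit 3) (nat_lit 4) (nat_lit 4) (nat_lit 5) (nat_lit 4) (nat_lit 4) (nat_lit 431) (nat_lit 349) (nat_lit 240)))) (XT.nd (nat_lit 78) (nat_lit 0) (nat_lit 0) (XT.lf (nat_lit 0)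 (nat_lit 588169629383) (nat_lit 76) (nat_lit 237285980974) (nat_lit 76) (nat_lit 202051771892) (nat_lit 3) (nat_lit 4) (nat_lit 4) (nat_lit 5) (nat_lit 4) (nat_lit 4) (nat_lit 432) (nat_lit 349) (nat_lit 239)) (XT.nd (nat_lit 46644) (nat_lit 0) (nat_lit 9652) (XT.lf (nat_lit 0) (nat_lit 728382237012) (nat_lit 76) (nat_lit 207108492830) (nat_lit 76) (nat_lit 171873734069) (nat_lit 3) (nat_lit 4) (nat_lit 4) (nat_lit 5) (nat_lit 4) (nat_lit 4) (nat_lit 433) (nat_lit 349) (nat_lit 238)) (XT.lf (nat_lit 0) (nat_lit 4511697453) (nat_lit 684) (nat_lit 82503971) (nat_lit 684) (nat_lit 82503971) (nat_lit 130) (nat_lit 3) (nat_lit 139) (nat_lit 3) (nat_lit 139) (nat_lit 5) (nat_lit 350) (nat_lit 350) (nat_lit 320))))) (XT.nd (nat_lit 234) (nat_lit 456) (nat_lit 0) (XT.nd (nat_lit 78) (nat_lit 0) (nat_lit 76) (XT.lf (nat_lit 0) (nat_lit 1036490325) (nat_lit 684) (nat_lit 2387157084) (nat_lit 760) (nat_lit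 6234771167) (nat_lit 121) (nat_lit 5) (nat_lit 130) (nat_lit 3) (nat_lit 131) (nat_lit 5) (nat_lit 351) (nat_lit 350) (nat_lit 319)) (XT.nd (nat_lit 78) (nat_lit 0) (nat_lit 0) (XT.lf (nat_lit 0) (nat_lit 2508121567) (nat_lit 684) (nat_lit 4618488810) (nat_lit 760) (nat_lit 2860673863) (nat_lit 122) (nat_lit 5) (nat_lit 131) (nat_lit 5) (nat_lit 132) (nat_lit 5) (nat_lit 352) (nat_lit 350) (nat_lit 318)) (XT.lf (nat_lit 76) (nat_lit 3467813210) (nat_lit 0) (nat_lit 666461609) (nat_lit 760) (nat_lit 6206433739) (nat_lit 123) (nat_lit 5) (nat_lit 122) (nat_lit 5) (nat_lit 132) (nat_lit 5) (nat_lit 353) (nat_lit 350) (nat_lit 317)))) (XT.nd (nat_lit 156) (nat_lit 608) (nat_lit 0) (XT.nd (nat_lit 78) (nat_lit 0) (nat_lit 76) (XT.lf (nat_lit 76) (nat_lit 1518549324) (nat_lit 0) (nat_lit 4466800336) (nat_lit 760) (nat_lit 4732398082) (nat_lit 124) (nat_lit 5) (nat_lit 123) (nat_lit 5) (nat_lit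 133) (nat_lit 5) (nat_lit 354) (nat_lit 350) (nat_lit 316)) (XT.lf (nat_lit 0) (nat_lit 8055626917) (nat_lit 684) (nat_lit 425448147) (nat_lit 760) (nat_lit 2640395457) (nat_lit 124) (nat_lit 5) (nat_lit 133) (nat_lit 5) (nat_lit 134) (nat_lit 5) (nat_lit 355) (nat_lit 350) (nat_lit 315))) (XT.nd (nat_lit 78) (nat_lit 684) (nat_lit 0) (XT.lf (nat_lit 76) (nat_lit 9195097214) (nat_lit 0) (nat_lit 1221036976) (nat_lit 760) (nat_lit 1135197174) (nat_lit 125) (nat_lit 5) (nat_lit 124) (nat_lit 5) (nat_lit 134) (nat_lit 5) (nat_lit 356) (nat_lit 350) (nat_lit 314)) (XT.lf (nat_lit 0) (nat_lit 1063985389) (nat_lit 760) (nat_lit 4374648279) (nat_lit 76) (nat_lit 6569043803) (nat_lit 115) (nat_lit 5) (nat_lit 125) (nat_lit 5) (nat_lit 116) (nat_lit 5) (nat_lit 357) (nat_lit 350) (nat_lit 313))))))))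
noncomputable def xc65 : XT := (XT.nd (nat_lit 1872) (nat_lit 2052) (nat_lit 0) (XT.nd (nat_lit 936) (nat_lit 1900) (nat_lit 0) (XT.nd (nat_lit 468) (nat_lit 1672) (nat_lit 0) (XT.nd (nat_lit 234) (nat_lit 760) (nat_lit 0) (XT.nd (nat_lit 78) (nat_lit 684) (nat_lit 0) (XT.lf (nat_lit 0) (nat_lit 3513854868) (nat_lit 836) (nat_lit 6450460070) (nat_lit 76) (nat_lit 2529617306) (nat_lit 105) (nat_lit 5) (nat_lit 116) (nat_lit 5) (nat_lit 106) (nat_lit 5) (nat_lit 358) (nat_lit 350) (nat_lit 312)) (XT.nd (nat_lit 78) (nat_lit 304) (nat_lit 0) (XT.lf (nat_lit 0) (nat_lit 4408086159) (nat_lit 380) (nat_lit 1910691087) (nat_lit 456) (nat_lit 6692410386) (nat_lit 100) (nat_lit 5) (nat_lit 105) (nat_lit 5) (nat_lit 106) (nat_lit 5) (nat_lit 359) (nat_lit 350) (nat_lit 311)) (XT.lf (nat_lit 0) (nat_lit 2703672671) (nat_lit 304) (nat_lit 6832621224) (nat_lit 380) (nat_lit 4024168978) (nat_lit 96) (nat_lit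 5) (nat_lit 100) (nat_lit 5) (nat_lit 101) (nat_lit 5) (nat_lit 360) (nat_lit 350) (nat_lit 310)))) (XT.nd (nat_lit 78) (nat_lit 380) (nat_lit 0) (XT.lf (nat_lit 0) (nat_lit 967449529) (nat_lit 380) (nat_lit 12201707360) (nat_lit 456) (nat_lit 976671776) (nat_lit 91) (nat_lit 5) (nat_lit 96) (nat_lit 5) (nat_lit 97) (nat_lit 5) (nat_lit 361) (nat_lit 350) (nat_lit 309)) (XT.nd (nat_lit 78) (nat_lit 304) (nat_lit 0) (XT.lf (nat_lit 0) (nat_lit 2480999172) (nat_lit 456) (nat_lit 873285318) (nat_lit 76) (nat_lit 11409949889) (nat_lit 90) (nat_lit 5) (nat_lit 96) (nat_lit 5) (nat_lit 91) (nat_lit 5) (nat_lit 362) (nat_lit 350) (nat_lit 308)) (XT.lf (nat_lit 0) (nat_lit 6418598240) (nat_lit 380) (nat_lit 2787268829) (nat_lit 76) (nat_lit 6213605703) (nat_lit 86) (nat_lit 5) (nat_lit 91) (nat_lit 5) (nat_lit 87) (nat_lit 5) (nat_lit 363) (nat_lit 350) (nat_lit 307))))) (XT.nd (nat_lit 234) (nat_lit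 760) (nat_lit 0) (XT.nd (nat_lit 78) (nat_lit 608) (nat_lit 0) (XT.lf (nat_lit 0) (nat_lit 10869765388) (nat_lit 380) (nat_lit 4765446208) (nat_lit 76) (nat_lit 482025243) (nat_lit 82) (nat_lit 5) (nat_lit 87) (nat_lit 5) (nat_lit 83) (nat_lit 5) (nat_lit 364) (nat_lit 350) (nat_lit 306)) (XT.nd (nat_lit 78) (nat_lit 380) (nat_lit 0) (XT.lf (nat_lit 0) (nat_lit 9946065273) (nat_lit 228) (nat_lit 6035346453) (nat_lit 304) (nat_lit 874223063) (nat_lit 79) (nat_lit 5) (nat_lit 82) (nat_lit 5) (nat_lit 83) (nat_lit 5) (nat_lit 365) (nat_lit 350) (nat_lit 305)) (XT.lf (nat_lit 0) (nat_lit 3961411763) (nat_lit 380) (nat_lit 9215774095) (nat_lit 76) (nat_lit 4461156640) (nat_lit 74) (nat_lit 5) (nat_lit 79) (nat_lit 5) (nat_lit 75) (nat_lit 5) (nat_lit 366) (nat_lit 350) (nat_lit 304)))) (XT.nd (nat_lit 78) (nat_lit 532) (nat_lit 0) (XT.lf (nat_lit 0) (nat_lit 6781446673) (nat_lit 228) (nat_lit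 2651617443) (nat_lit 304) (nat_lit 9035922535) (nat_lit 71) (nat_lit 5) (nat_lit 74) (nat_lit 5) (nat_lit 75) (nat_lit 5) (nat_lit 367) (nat_lit 350) (nat_lit 303)) (XT.nd (nat_lit 78) (nat_lit 304) (nat_lit 0) (XT.lf (nat_lit 0) (nat_lit 4983562992) (nat_lit 228) (nat_lit 10687825668) (nat_lit 304) (nat_lit 3678270907) (nat_lit 68) (nat_lit 5) (nat_lit 71) (nat_lit 5) (nat_lit 72) (nat_lit 5) (nat_lit 368) (nat_lit 350) (nat_lit 302)) (XT.lf (nat_lit 0) (nat_lit 2305803749) (nat_lit 304) (nat_lit 17231631657) (nat_lit 76) (nat_lit 748462702) (nat_lit 64) (nat_lit 5) (nat_lit 68) (nat_lit 5) (nat_lit 65) (nat_lit 5) (nat_lit 369) (nat_lit 350) (nat_lit 301)))))) (XT.nd (nat_lit 468) (nat_lit 836) (nat_lit 0) (XT.nd (nat_lit 234) (nat_lit 608) (nat_lit 0) (XT.nd (nat_lit 78) (nat_lit 228) (nat_lit 0) (XT.lf (nat_lit 0) (nat_lit 811944856) (nat_lit 228) (nat_lit 8232606543) (nat_lit 304) (nat_lit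 12229248354) (nat_lit 61) (nat_lit 5) (nat_lit 64) (nat_lit 5) (nat_lit 65) (nat_lit 5) (nat_lit 370) (nat_lit 350) (nat_lit 300)) (XT.nd (nat_lit 78) (nat_lit 228) (nat_lit 0) (XT.lf (nat_lit 0) (nat_lit 16647417621) (nat_lit 304) (nat_lit 1541834401) (nat_lit 76) (nat_lit 4135248889) (nat_lit 61) (nat_lit 5) (nat_lit 65) (nat_lit 5) (nat_lit 62) (nat_lit 5) (nat_lit 371) (nat_lit 350) (nat_lit 299)) (XT.lf (nat_lit 0) (nat_lit 1762339492) (nat_lit 228) (nat_lit 4155294304) (nat_lit 76) (nat_lit 17520154735) (nat_lit 58) (nat_lit 5) (nat_lit 61) (nat_lit 5) (nat_lit 59) (nat_lit 5) (nat_lit 372) (nat_lit 350) (nat_lit 298)))) (XT.nd (nat_lit 78) (nat_lit 380) (nat_lit 0) (XT.lf (nat_lit 0) (nat_lit 9985845605) (nat_lit 304) (nat_lit 7144209261) (nat_lit 76) (nat_lit 7486054561) (nat_lit 55) (nat_lit 5) (nat_lit 59) (nat_lit 5) (nat_lit 56) (nat_lit 5) (nat_lit 373) (nat_lit 350) (nat_lit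 297)) (XT.nd (nat_lit 78) (nat_lit 228) (nat_lit 0) (XT.lf (nat_lit 0) (nat_lit 15428978030) (nat_lit 152) (nat_lit 3816486695) (nat_lit 228) (nat_lit 6624333494) (nat_lit 53) (nat_lit 5) (nat_lit 55) (nat_lit 5) (nat_lit 56) (nat_lit 5) (nat_lit 374) (nat_lit 350) (nat_lit 296)) (XT.lf (nat_lit 0) (nat_lit 2425388533) (nat_lit 228) (nat_lit 14199289325) (nat_lit 76) (nat_lit 10574136150) (nat_lit 50) (nat_lit 5) (nat_lit 53) (nat_lit 5) (nat_lit 51) (nat_lit 5) (nat_lit 375) (nat_lit 350) (nat_lit 295))))) (XT.nd (nat_lit 234) (nat_lit 304) (nat_lit 0) (XT.nd (nat_lit 78) (nat_lit 380) (nat_lit 0) (XT.lf (nat_lit 0) (nat_lit 10154742097) (nat_lit 152) (nat_lit 2189800690) (nat_lit 228) (nat_lit 16265312858) (nat_lit 48) (nat_lit 5) (nat_lit 50) (nat_lit 5) (nat_lit 51) (nat_lit 5) (nat_lit 376) (nat_lit 350) (nat_lit 294)) (XT.nd (nat_lit 78) (nat_lit 228) (nat_lit 0) (XT.lf (nat_lit 0)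 (nat_lit 6793871019) (nat_lit 152) (nat_lit 16798067320) (nat_lit 228) (nat_lit 6515117296) (nat_lit 46) (nat_lit 5) (nat_lit 48) (nat_lit 5) (nat_lit 49) (nat_lit 5) (nat_lit 377) (nat_lit 350) (nat_lit 293)) (XT.lf (nat_lit 0) (nat_lit 2951662040) (nat_lit 152) (nat_lit 1313776935) (nat_lit 228) (nat_lit 27436524882) (nat_lit 43) (nat_lit 5) (nat_lit 45) (nat_lit 5) (nat_lit 46) (nat_lit 5) (nat_lit 378) (nat_lit 350) (nat_lit 292)))) (XT.nd (nat_lit 78) (nat_lit 304) (nat_lit 0) (XT.lf (nat_lit 0) (nat_lit 16306873578) (nat_lit 228) (nat_lit 1661737585) (nat_lit 76) (nat_lit 15419187273) (nat_lit 43) (nat_lit 5) (nat_lit 46) (nat_lit 5) (nat_lit 44) (nat_lit 5) (nat_lit 379) (nat_lit 350) (nat_lit 291)) (XT.nd (nat_lit 78) (nat_lit 152) (nat_lit 0) (XT.lf (nat_lit 0) (nat_lit 28434923914) (nat_lit 152) (nat_lit 1315301047) (nat_lit 228) (nat_lit 5436352636) (nat_lit 41) (nat_lit 5) (nat_lit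 43) (nat_lit 5) (nat_lit 44) (nat_lit 5) (nat_lit 380) (nat_lit 350) (nat_lit 290)) (XT.lf (nat_lit 0) (nat_lit 7565108892) (nat_lit 152) (nat_lit 12875792156) (nat_lit 76) (nat_lit 16650099358) (nat_lit 39) (nat_lit 5) (nat_lit 41) (nat_lit 5) (nat_lit 40) (nat_lit 5) (nat_lit 381) (nat_lit 350) (nat_lit 289))))))) (XT.nd (nat_lit 936) (nat_lit 836) (nat_lit 0) (XT.nd (nat_lit 468) (nat_lit 456) (nat_lit 0) (XT.nd (nat_lit 234) (nat_lit 304) (nat_lit 0) (XT.nd (nat_lit 78) (nat_lit 304) (nat_lit 0) (XT.lf (nat_lit 0) (nat_lit 19213013628) (nat_lit 152) (nat_lit 2621840377) (nat_lit 228) (nat_lit 17287541973) (nat_lit 37) (nat_lit 5) (nat_lit 39) (nat_lit 5) (nat_lit 40) (nat_lit 5) (nat_lit 382) (nat_lit 350) (nat_lit 288)) (XT.nd (nat_lit 78) (nat_lit 228) (nat_lit 0) (XT.lf (nat_lit 0) (nat_lit 13137128788) (nat_lit 76) (nat_lit 24776988312) (nat_lit 152) (nat_lit 3368795162) (nat_lit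 36) (nat_lit 5) (nat_lit 37) (nat_lit 5) (nat_lit 38) (nat_lit 4) (nat_lit 383) (nat_lit 350) (nat_lit 287)) (XT.lf (nat_lit 0) (nat_lit 5852042035) (nat_lit 152) (nat_lit 5902297145) (nat_lit 228) (nat_lit 31829621434) (nat_lit 33) (nat_lit 5) (nat_lit 35) (nat_lit 5) (nat_lit 36) (nat_lit 5) (nat_lit 384) (nat_lit 350) (nat_lit 286)))) (XT.nd (nat_lit 78) (nat_lit 304) (nat_lit 0) (XT.lf (nat_lit 0) (nat_lit 28672276328) (nat_lit 228) (nat_lit 2802422053) (nat_lit 76) (nat_lit 14556489122) (nat_lit 33) (nat_lit 5) (nat_lit 36) (nat_lit 5) (nat_lit 34) (nat_lit 4) (nat_lit 385) (nat_lit 350) (nat_lit 285)) (XT.nd (nat_lit 78) (nat_lit 228) (nat_lit 0) (XT.lf (nat_lit 0) (nat_lit 35933428977) (nat_lit 76) (nat_lit 11649441526) (nat_lit 152) (nat_lit 1059365460) (nat_lit 32) (nat_lit 5) (nat_lit 33) (nat_lit 5) (nat_lit 34) (nat_lit 4) (nat_lit 386) (nat_lit 350) (nat_lit 284)) (XT.lf (nat_lit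 0) (nat_lit 16628843398) (nat_lit 228) (nat_lit 24615667357) (nat_lit 76) (nat_lit 10174035743) (nat_lit 29) (nat_lit 5) (nat_lit 32) (nat_lit 5) (nat_lit 30) (nat_lit 4) (nat_lit 387) (nat_lit 350) (nat_lit 283))))) (XT.nd (nat_lit 234) (nat_lit 228) (nat_lit 0) (XT.nd (nat_lit 78) (nat_lit 152) (nat_lit 0) (XT.lf (nat_lit 0) (nat_lit 15773681003) (nat_lit 76) (nat_lit 20569577857) (nat_lit 152) (nat_lit 18040425133) (nat_lit 28) (nat_lit 5) (nat_lit 29) (nat_lit 5) (nat_lit 30) (nat_lit 4) (nat_lit 388) (nat_lit 350) (nat_lit 282)) (XT.nd (nat_lit 78) (nat_lit 0) (nat_lit 0) (XT.lf (nat_lit 0) (nat_lit 541783109) (nat_lit 152) (nat_lit 54844902800) (nat_lit 76) (nat_lit 2174584255) (nat_lit 26) (nat_lit 5) (nat_lit 28) (nat_lit 5) (nat_lit 27) (nat_lit 4) (nat_lit 389) (nat_lit 350) (nat_lit 281)) (XT.lf (nat_lit 0) (nat_lit 20998721279) (nat_lit 152) (nat_lit 12928758409) (nat_lit 76)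 (nat_lit 26999789230) (nat_lit 26) (nat_lit 5) (nat_lit 28) (nat_lit 5) (nat_lit 27) (nat_lit 4) (nat_lit 390) (nat_lit 350) (nat_lit 280)))) (XT.nd (nat_lit 78) (nat_lit 152) (nat_lit 0) (XT.lf (nat_lit 0) (nat_lit 33376660812) (nat_lit 76) (nat_lit 10219364719) (nat_lit 152) (nat_lit 20941334283) (nat_lit 25) (nat_lit 5) (nat_lit 26) (nat_lit 5) (nat_lit 27) (nat_lit 4) (nat_lit 391) (nat_lit 350) (nat_lit 279)) (XT.nd (nat_lit 78) (nat_lit 0) (nat_lit 0) (XT.lf (nat_lit 0) (nat_lit 286916077) (nat_lit 152) (nat_lit 52757378784) (nat_lit 76) (nat_lit 15356898643) (nat_lit 23) (nat_lit 5) (nat_lit 25) (nat_lit 5) (nat_lit 24) (nat_lit 4) (nat_lit 392) (nat_lit 350) (nat_lit 278)) (XT.lf (nat_lit 0) (nat_lit 23197354077) (nat_lit 152) (nat_lit 5806539132) (nat_lit 76) (nat_lit 43517197436) (nat_lit 23) (nat_lit 5) (nat_lit 25) (nat_lit 5) (nat_lit 24) (nat_lit 4) (nat_lit 393) (nat_lit 350)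 (nat_lit 277)))))) (XT.nd (nat_lit 468) (nat_lit 380) (nat_lit 0) (XT.nd (nat_lit 234) (nat_lit 228) (nat_lit 0) (XT.nd (nat_lit 78) (nat_lit 152) (nat_lit 0) (XT.lf (nat_lit 0) (nat_lit 46355659973) (nat_lit 76) (nat_lit 2293696489) (nat_lit 152) (nat_lit 28285788739) (nat_lit 22) (nat_lit 5) (nat_lit 23) (nat_lit 5) (nat_lit 24) (nat_lit 4) (nat_lit 394) (nat_lit 350) (nat_lit 276)) (XT.nd (nat_lit 78) (nat_lit 76) (nat_lit 0) (XT.lf (nat_lit 0) (nat_lit 21443345965) (nat_lit 76) (nat_lit 55531815410) (nat_lit 76) (nat_lit 4685282586) (nat_lit 21) (nat_lit 4) (nat_lit 22) (nat_lit 5) (nat_lit 22) (nat_lit 4) (nat_lit 395) (nat_lit 350) (nat_lit 275)) (XT.lf (nat_lit 0) (nat_lit 20703422274) (nat_lit 152) (nat_lit 8416279674) (nat_lit 76) (nat_lit 57599526906) (nat_lit 20) (nat_lit 5) (nat_lit 22) (nat_lit 5) (nat_lit 21) (nat_lit 4) (nat_lit 396) (nat_lit 350) (nat_lit 274)))) (XT.nd (nat_lit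 78) (nat_lit 152) (nat_lit 0) (XT.lf (nat_lit 0) (nat_lit 48717501128) (nat_lit 152) (nat_lit 43152798462) (nat_lit 0) (nat_lit 270656793) (nat_lit 19) (nat_lit 5) (nat_lit 21) (nat_lit 4) (nat_lit 19) (nat_lit 4) (nat_lit 397) (nat_lit 350) (nat_lit 273)) (XT.nd (nat_lit 78) (nat_lit 76) (nat_lit 0) (XT.lf (nat_lit 0) (nat_lit 13201211467) (nat_lit 76) (nat_lit 66604992903) (nat_lit 76) (nat_lit 18148544321) (nat_lit 18) (nat_lit 4) (nat_lit 19) (nat_lit 5) (nat_lit 19) (nat_lit 4) (nat_lit 398) (nat_lit 350) (nat_lit 272)) (XT.lf (nat_lit 0) (nat_lit 9607314637) (nat_lit 152) (nat_lit 28770346394) (nat_lit 76) (nat_lit 65811255089) (nat_lit 17) (nat_lit 5) (nat_lit 19) (nat_lit 5) (nat_lit 18) (nat_lit 4) (nat_lit 399) (nat_lit 350) (nat_lit 271))))) (XT.nd (nat_lit 234) (nat_lit 228) (nat_lit 0) (XT.nd (nat_lit 78) (nat_lit 76) (nat_lit 0) (XT.lf (nat_lit 0) (nat_lit 32400608512) (nat_lit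 76) (nat_lit 7050212954) (nat_lit 152) (nat_lit 71430970042) (nat_lit 16) (nat_lit 5) (nat_lit 17) (nat_lit 5) (nat_lit 18) (nat_lit 4) (nat_lit 400) (nat_lit 350) (nat_lit 270)) (XT.nd (nat_lit 78) (nat_lit 76) (nat_lit 0) (XT.lf (nat_lit 0) (nat_lit 72598356693) (nat_lit 152) (nat_lit 19040128368) (nat_lit 0) (nat_lit 26425785592) (nat_lit 16) (nat_lit 5) (nat_lit 18) (nat_lit 4) (nat_lit 16) (nat_lit 4) (nat_lit 401) (nat_lit 350) (nat_lit 269)) (XT.lf (nat_lit 0) (nat_lit 46506066738) (nat_lit 76) (nat_lit 62726418620) (nat_lit 76) (nat_lit 16547124274) (nat_lit 15) (nat_lit 4) (nat_lit 16) (nat_lit 5) (nat_lit 16) (nat_lit 4) (nat_lit 402) (nat_lit 350) (nat_lit 268)))) (XT.nd (nat_lit 156) (nat_lit 76) (nat_lit 0) (XT.nd (nat_lit 78) (nat_lit 76) (nat_lit 0) (XT.lf (nat_lit 0) (nat_lit 14542375296) (nat_lit 152) (nat_lit 16373650215) (nat_lit 76) (nat_lit 103168326108) (nat_lit 14)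 (nat_lit 5) (nat_lit 16) (nat_lit 5) (nat_lit 15) (nat_lit 4) (nat_lit 403) (nat_lit 350) (nat_lit 267)) (XT.lf (nat_lit 0) (nat_lit 48436392145) (nat_lit 152) (nat_lit 90113970643) (nat_lit 0) (nat_lit 4444693409) (nat_lit 13) (nat_lit 5) (nat_lit 15) (nat_lit 4) (nat_lit 13) (nat_lit 4) (nat_lit 404) (nat_lit 350) (nat_lit 266))) (XT.nd (nat_lit 78) (nat_lit 76) (nat_lit 0) (XT.lf (nat_lit 0) (nat_lit 85844259445) (nat_lit 152) (nat_lit 24886764294) (nat_lit 0) (nat_lit 41847477729) (nat_lit 13) (nat_lit 5) (nat_lit 15) (nat_lit 4) (nat_lit 13) (nat_lit 4) (nat_lit 405) (nat_lit 350) (nat_lit 265)) (XT.lf (nat_lit 0) (nat_lit 47048415715) (nat_lit 76) (nat_lit 79922689059) (nat_lit 76) (nat_lit 35921200879) (nat_lit 12) (nat_lit 4) (nat_lit 13) (nat_lit 5) (nat_lit 13) (nat_lit 4) (nat_lit 406) (nat_lit 350) (nat_lit 264))))))))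
noncomputable def xc66 : XT := (XT.nd (nat_lit 1872) (nat_lit 0) (nat_lit 0) (XT.nd (nat_lit 936) (nat_lit 228) (nat_lit 0) (XT.nd (nat_lit 468) (nat_lit 228) (nat_lit 0) (XT.nd (nat_lit 234) (nat_lit 76) (nat_lit 0) (XT.nd (nat_lit 78) (nat_lit 152) (nat_lit 0) (XT.lf (nat_lit 0) (nat_lit 125611759817) (nat_lit 76) (nat_lit 46202008750) (nat_lit 76) (nat_lit 2196162735) (nat_lit 12) (nat_lit 4) (nat_lit 13) (nat_lit 5) (nat_lit 13) (nat_lit 4) (nat_lit 407) (nat_lit 350) (nat_lit 263)) (XT.nd (nat_lit 78) (nat_lit 0) (nat_lit 0) (XT.lf (nat_lit 0) (nat_lit 24684426468) (nat_lit 76) (nat_lit 8824991832) (nat_lit 152) (nat_lit 152461929733) (nat_lit 10) (nat_lit 5) (nat_lit 11) (nat_lit 5) (nat_lit 12) (nat_lit 4) (nat_lit 408) (nat_lit 350) (nat_lit 262)) (XT.lf (nat_lit 0) (nat_lit 73337724717) (nat_lit 152) (nat_lit 94062998655) (nat_lit 0) (nat_lit 31419994059) (nat_lit 10) (nat_lit 5)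 (nat_lit 12) (nat_lit 4) (nat_lit 10) (nat_lit 4) (nat_lit 409) (nat_lit 350) (nat_lit 261)))) (XT.nd (nat_lit 78) (nat_lit 76) (nat_lit 0) (XT.lf (nat_lit 0) (nat_lit 116494476600) (nat_lit 152) (nat_lit 21622999956) (nat_lit 0) (nat_lit 74573451284) (nat_lit 10) (nat_lit 5) (nat_lit 12) (nat_lit 4) (nat_lit 10) (nat_lit 4) (nat_lit 410) (nat_lit 350) (nat_lit 260)) (XT.nd (nat_lit 78) (nat_lit 0) (nat_lit 0) (XT.lf (nat_lit 0) (nat_lit 58471587409) (nat_lit 76) (nat_lit 105538952746) (nat_lit 76) (nat_lit 63614876821) (nat_lit 9) (nat_lit 4) (nat_lit 10) (nat_lit 5) (nat_lit 10) (nat_lit 4) (nat_lit 411) (nat_lit 350) (nat_lit 259)) (XT.lf (nat_lit 0) (nat_lit 145734349355) (nat_lit 76) (nat_lit 69964338467) (nat_lit 76) (nat_lit 28037437904) (nat_lit 9) (nat_lit 4) (nat_lit 10) (nat_lit 5) (nat_lit 10) (nat_lit 4) (nat_lit 412) (nat_lit 350) (nat_lit 258))))) (XT.nd (nat_lit 234) (nat_lit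 76) (nat_lit 0) (XT.nd (nat_lit 78) (nat_lit 76) (nat_lit 0) (XT.lf (nat_lit 0) (nat_lit 10048258021) (nat_lit 152) (nat_lit 21330587024) (nat_lit 76) (nat_lit 229749014380) (nat_lit 8) (nat_lit 5) (nat_lit 10) (nat_lit 5) (nat_lit 9) (nat_lit 4) (nat_lit 413) (nat_lit 350) (nat_lit 257)) (XT.nd (nat_lit 78) (nat_lit 0) (nat_lit 0) (XT.lf (nat_lit 0) (nat_lit 51374783349) (nat_lit 152) (nat_lit 217014749230) (nat_lit 0) (nat_lit 11439604643) (nat_lit 7) (nat_lit 5) (nat_lit 9) (nat_lit 4) (nat_lit 7) (nat_lit 4) (nat_lit 414) (nat_lit 350) (nat_lit 256)) (XT.lf (nat_lit 0) (nat_lit 96909238983) (nat_lit 152) (nat_lit 146100263409) (nat_lit 0) (nat_lit 56971924764) (nat_lit 7) (nat_lit 5) (nat_lit 9) (nat_lit 4) (nat_lit 7) (nat_lit 4) (nat_lit 415) (nat_lit 350) (nat_lit 255)))) (XT.nd (nat_lit 78) (nat_lit 76) (nat_lit 0) (XT.lf (nat_lit 0) (nat_lit 146081865270) (nat_lit 152) (nat_lit 69521690884)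 (nat_lit 0) (nat_lit 106142573724) (nat_lit 7) (nat_lit 5) (nat_lit 9) (nat_lit 4) (nat_lit 7) (nat_lit 4) (nat_lit 416) (nat_lit 350) (nat_lit 254)) (XT.nd (nat_lit 78) (nat_lit 0) (nat_lit 0) (XT.lf (nat_lit 0) (nat_lit 13610384595) (nat_lit 76) (nat_lit 185786167201) (nat_lit 76) (nat_lit 145845044797) (nat_lit 6) (nat_lit 4) (nat_lit 7) (nat_lit 5) (nat_lit 7) (nat_lit 4) (nat_lit 417) (nat_lit 350) (nat_lit 253)) (XT.lf (nat_lit 0) (nat_lit 105867588179) (nat_lit 76) (nat_lit 152315791037) (nat_lit 76) (nat_lit 112372973393) (nat_lit 6) (nat_lit 4) (nat_lit 7) (nat_lit 5) (nat_lit 7) (nat_lit 4) (nat_lit 418) (nat_lit 350) (nat_lit 252)))))) (XT.nd (nat_lit 468) (nat_lit 76) (nat_lit 0) (XT.nd (nat_lit 234) (nat_lit 76) (nat_lit 0) (XT.nd (nat_lit 78) (nat_lit 76) (nat_lit 0) (XT.lf (nat_lit 0) (nat_lit 205497928151) (nat_lit 76) (nat_lit 116171468165) (nat_lit 76) (nat_lit 76227080856)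 (nat_lit 6) (nat_lit 4) (nat_lit 7) (nat_lit 5) (nat_lit 7) (nat_lit 4) (nat_lit 419) (nat_lit 350) (nat_lit 251)) (XT.nd (nat_lit 78) (nat_lit 76) (nat_lit 0) (XT.lf (nat_lit 0) (nat_lit 313091806526) (nat_lit 76) (nat_lit 77139010008) (nat_lit 76) (nat_lit 37193169304) (nat_lit 6) (nat_lit 4) (nat_lit 7) (nat_lit 5) (nat_lit 7) (nat_lit 4) (nat_lit 420) (nat_lit 350) (nat_lit 250)) (XT.lf (nat_lit 0) (nat_lit 4801320008) (nat_lit 152) (nat_lit 30104480422) (nat_lit 76) (nat_lit 424404183972) (nat_lit 5) (nat_lit 5) (nat_lit 7) (nat_lit 5) (nat_lit 6) (nat_lit 4) (nat_lit 421) (nat_lit 350) (nat_lit 249)))) (XT.nd (nat_lit 78) (nat_lit 0) (nat_lit 0) (XT.lf (nat_lit 0) (nat_lit 50031425770) (nat_lit 152) (nat_lit 431640695230) (nat_lit 0) (nat_lit 11985299589) (nat_lit 4) (nat_lit 5) (nat_lit 6) (nat_lit 4) (nat_lit 4) (nat_lit 4) (nat_lit 422) (nat_lit 350) (nat_lit 248)) (XT.nd (nat_lit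 78) (nat_lit 0) (nat_lit 0) (XT.lf (nat_lit 0) (nat_lit 99998572140) (nat_lit 152) (nat_lit 368746800946) (nat_lit 0) (nat_lit 61951347148) (nat_lit 4) (nat_lit 5) (nat_lit 6) (nat_lit 4) (nat_lit 4) (nat_lit 4) (nat_lit 423) (nat_lit 350) (nat_lit 247)) (XT.lf (nat_lit 0) (nat_lit 153960367285) (nat_lit 152) (nat_lit 300826807993) (nat_lit 0) (nat_lit 115912124875) (nat_lit 4) (nat_lit 5) (nat_lit 6) (nat_lit 4) (nat_lit 4) (nat_lit 4) (nat_lit 424) (nat_lit 350) (nat_lit 246))))) (XT.nd (nat_lit 234) (nat_lit 76) (nat_lit 0) (XT.nd (nat_lit 78) (nat_lit 0) (nat_lit 0) (XT.lf (nat_lit 0) (nat_lit 212236584805) (nat_lit 152) (nat_lit 227478227525) (nat_lit 0) (nat_lit 174187400342) (nat_lit 4) (nat_lit 5) (nat_lit 6) (nat_lit 4) (nat_lit 4) (nat_lit 4) (nat_lit 425) (nat_lit 350) (nat_lit 245)) (XT.nd (nat_lit 78) (nat_lit 0) (nat_lit 0) (XT.lf (nat_lit 0) (nat_lit 275172565250) (nat_lit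 152) (nat_lit 148266401287) (nat_lit 0) (nat_lit 237122508515) (nat_lit 4) (nat_lit 5) (nat_lit 6) (nat_lit 4) (nat_lit 4) (nat_lit 4) (nat_lit 426) (nat_lit 350) (nat_lit 244)) (XT.lf (nat_lit 0) (nat_lit 343141262576) (nat_lit 152) (nat_lit 62721925865) (nat_lit 0) (nat_lit 305090398183) (nat_lit 4) (nat_lit 5) (nat_lit 6) (nat_lit 4) (nat_lit 4) (nat_lit 4) (nat_lit 427) (nat_lit 350) (nat_lit 243)))) (XT.nd (nat_lit 78) (nat_lit 0) (nat_lit 0) (XT.lf (nat_lit 0) (nat_lit 30642892908) (nat_lit 76) (nat_lit 386380982777) (nat_lit 76) (nat_lit 348329370552) (nat_lit 3) (nat_lit 4) (nat_lit 4) (nat_lit 5) (nat_lit 4) (nat_lit 4) (nat_lit 428) (nat_lit 350) (nat_lit 242)) (XT.nd (nat_lit 78) (nat_lit 0) (nat_lit 0) (XT.lf (nat_lit 0) (nat_lit 133712871204) (nat_lit 76) (nat_lit 364194889519) (nat_lit 76) (nat_lit 326142584857) (nat_lit 3) (nat_lit 4) (nat_lit 4) (nat_lit 5) (nat_lit 4) (nat_lit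 4) (nat_lit 429) (nat_lit 350) (nat_lit 241)) (XT.lf (nat_lit 0) (nat_lit 245024923952) (nat_lit 76) (nat_lit 340235661687) (nat_lit 76) (nat_lit 302182715879) (nat_lit 3) (nat_lit 4) (nat_lit 4) (nat_lit 5) (nat_lit 4) (nat_lit 4) (nat_lit 430) (nat_lit 350) (nat_lit 240))))))) (XT.nd (nat_lit 47580) (nat_lit 0) (nat_lit 4408) (XT.nd (nat_lit 47112) (nat_lit 0) (nat_lit 7752) (XT.nd (nat_lit 46878) (nat_lit 0) (nat_lit 8968) (XT.nd (nat_lit 78) (nat_lit 0) (nat_lit 0) (XT.lf (nat_lit 0) (nat_lit 365238678129) (nat_lit 76) (nat_lit 314361318670) (nat_lit 76) (nat_lit 276307779209) (nat_lit 3) (nat_lit 4) (nat_lit 4) (nat_lit 5) (nat_lit 4) (nat_lit 4) (nat_lit 431) (nat_lit 350) (nat_lit 239)) (XT.nd (nat_lit 78) (nat_lit 0) (nat_lit 0) (XT.lf (nat_lit 0) (nat_lit 495066511538) (nat_lit 76) (nat_lit 286418531030) (nat_lit 76) (nat_lit 248364441889) (nat_lit 3) (nat_lit 4) (nat_lit 4) (nat_lit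 5) (nat_lit 4) (nat_lit 4) (nat_lit 432) (nat_lit 350) (nat_lit 238)) (XT.lf (nat_lit 0) (nat_lit 635277774304) (nat_lit 76) (nat_lit 256241711875) (nat_lit 76) (nat_lit 218187113772) (nat_lit 3) (nat_lit 4) (nat_lit 4) (nat_lit 5) (nat_lit 4) (nat_lit 4) (nat_lit 433) (nat_lit 350) (nat_lit 237)))) (XT.nd (nat_lit 78) (nat_lit 0) (nat_lit 0) (XT.lf (nat_lit 0) (nat_lit 533822833) (nat_lit 0) (nat_lit 533822833) (nat_lit 684) (nat_lit 3920390368) (nat_lit 121) (nat_lit 5) (nat_lit 121) (nat_lit 3) (nat_lit 130) (nat_lit 3) (nat_lit 351) (nat_lit 351) (nat_lit 318)) (XT.nd (nat_lit 78) (nat_lit 0) (nat_lit 76) (XT.lf (nat_lit 0) (nat_lit 3403255315) (nat_lit 684) (nat_lit 1292426802) (nat_lit 760) (nat_lit 5619481756) (nat_lit 121) (nat_lit 5) (nat_lit 130) (nat_lit 3) (nat_lit 131) (nat_lit 5) (nat_lit 352) (nat_lit 351) (nat_lit 317)) (XT.lf (nat_lit 0) (nat_lit 4828529674) (nat_lit 684)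 (nat_lit 3635724496) (nat_lit 760) (nat_lit 2214417575) (nat_lit 122) (nat_lit 5) (nat_lit 131) (nat_lit 5) (nat_lit 132) (nat_lit 5) (nat_lit 353) (nat_lit 351) (nat_lit 316))))) (XT.nd (nat_lit 234) (nat_lit 1292) (nat_lit 0) (XT.nd (nat_lit 78) (nat_lit 0) (nat_lit 76) (XT.lf (nat_lit 76) (nat_lit 5038714835) (nat_lit 0) (nat_lit 1409236007) (nat_lit 760) (nat_lit 4619379445) (nat_lit 123) (nat_lit 5) (nat_lit 122) (nat_lit 5) (nat_lit 132) (nat_lit 5) (nat_lit 354) (nat_lit 351) (nat_lit 315)) (XT.nd (nat_lit 78) (nat_lit 0) (nat_lit 76) (XT.lf (nat_lit 76) (nat_lit 2983854964) (nat_lit 0) (nat_lit 5327386522) (nat_lit 760) (nat_lit 3170194869) (nat_lit 124) (nat_lit 5) (nat_lit 123) (nat_lit 5) (nat_lit 133) (nat_lit 5) (nat_lit 355) (nat_lit 351) (nat_lit 314)) (XT.lf (nat_lit 76) (nat_lit 907917551) (nat_lit 0) (nat_lit 9509303945) (nat_lit 760) (nat_lit 1506833506) (nat_lit 125) (nat_lit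 5) (nat_lit 124) (nat_lit 5) (nat_lit 134) (nat_lit 5) (nat_lit 356) (nat_lit 351) (nat_lit 313)))) (XT.nd (nat_lit 78) (nat_lit 684) (nat_lit 0) (XT.lf (nat_lit 0) (nat_lit 437358567) (nat_lit 760) (nat_lit 1190585313) (nat_lit 836) (nat_lit 10766119329) (nat_lit 114) (nat_lit 5) (nat_lit 124) (nat_lit 5) (nat_lit 125) (nat_lit 5) (nat_lit 357) (nat_lit 351) (nat_lit 312)) (XT.nd (nat_lit 78) (nat_lit 760) (nat_lit 0) (XT.lf (nat_lit 0) (nat_lit 2669014158) (nat_lit 760) (nat_lit 3366549006) (nat_lit 76) (nat_lit 6855691186) (nat_lit 115) (nat_lit 5) (nat_lit 125) (nat_lit 5) (nat_lit 116) (nat_lit 5) (nat_lit 358) (nat_lit 351) (nat_lit 311)) (XT.lf (nat_lit 0) (nat_lit 5220562000) (nat_lit 836) (nat_lit 5593093815) (nat_lit 76) (nat_lit 2607546422) (nat_lit 105) (nat_lit 5) (nat_lit 116) (nat_lit 5) (nat_lit 106) (nat_lit 5) (nat_lit 359) (nat_lit 351) (nat_lit 310)))))) (XT.nd (nat_lit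 468) (nat_lit 1596) (nat_lit 0) (XT.nd (nat_lit 234) (nat_lit 608) (nat_lit 0) (XT.nd (nat_lit 78) (nat_lit 760) (nat_lit 0) (XT.lf (nat_lit 0) (nat_lit 6074449689) (nat_lit 380) (nat_lit 2090339371) (nat_lit 456) (nat_lit 5819374907) (nat_lit 100) (nat_lit 5) (nat_lit 105) (nat_lit 5) (nat_lit 106) (nat_lit 5) (nat_lit 360) (nat_lit 351) (nat_lit 309)) (XT.nd (nat_lit 78) (nat_lit 456) (nat_lit 0) (XT.lf (nat_lit 0) (nat_lit 4241957745) (nat_lit 304) (nat_lit 7318704947) (nat_lit 380) (nat_lit 3020736916) (nat_lit 96) (nat_lit 5) (nat_lit 100) (nat_lit 5) (nat_lit 101) (nat_lit 5) (nat_lit 361) (nat_lit 351) (nat_lit 308)) (XT.lf (nat_lit 0) (nat_lit 188779029) (nat_lit 456) (nat_lit 12850690956) (nat_lit 76) (nat_lit 2177627882) (nat_lit 90) (nat_lit 5) (nat_lit 96) (nat_lit 5) (nat_lit 91) (nat_lit 5) (nat_lit 362) (nat_lit 351) (nat_lit 307)))) (XT.nd (nat_lit 78) (nat_lit 304) (nat_lit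 0) (XT.lf (nat_lit 0) (nat_lit 331814625) (nat_lit 304) (nat_lit 3473052615) (nat_lit 380) (nat_lit 12083561202) (nat_lit 86) (nat_lit 5) (nat_lit 90) (nat_lit 5) (nat_lit 91) (nat_lit 5) (nat_lit 363) (nat_lit 351) (nat_lit 306)) (XT.nd (nat_lit 78) (nat_lit 304) (nat_lit 0) (XT.lf (nat_lit 0) (nat_lit 7990590597) (nat_lit 380) (nat_lit 1749816871) (nat_lit 76) (nat_lit 6859072639) (nat_lit 86) (nat_lit 5) (nat_lit 91) (nat_lit 5) (nat_lit 87) (nat_lit 5) (nat_lit 364) (nat_lit 351) (nat_lit 305)) (XT.lf (nat_lit 0) (nat_lit 12741494785) (nat_lit 380) (nat_lit 3893728106) (nat_lit 76) (nat_lit 720706542) (nat_lit 82) (nat_lit 5) (nat_lit 87) (nat_lit 5) (nat_lit 83) (nat_lit 5) (nat_lit 365) (nat_lit 351) (nat_lit 304))))) (XT.nd (nat_lit 234) (nat_lit 760) (nat_lit 0) (XT.nd (nat_lit 78) (nat_lit 532) (nat_lit 0) (XT.lf (nat_lit 0) (nat_lit 48722456) (nat_lit 304) (nat_lit 6216751564) (nat_lit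 76) (nat_lit 11890704853) (nat_lit 78) (nat_lit 5) (nat_lit 82) (nat_lit 5) (nat_lit 79) (nat_lit 5) (nat_lit 366) (nat_lit 351) (nat_lit 303)) (XT.nd (nat_lit 78) (nat_lit 228) (nat_lit 0) (XT.lf (nat_lit 0) (nat_lit 5192240518) (nat_lit 380) (nat_lit 8733903029) (nat_lit 76) (nat_lit 5077097843) (nat_lit 74) (nat_lit 5) (nat_lit 79) (nat_lit 5) (nat_lit 75) (nat_lit 5) (nat_lit 367) (nat_lit 351) (nat_lit 302)) (XT.lf (nat_lit 0) (nat_lit 8490113367) (nat_lit 228) (nat_lit 2562021111) (nat_lit 304) (nat_lit 8850712144) (nat_lit 71) (nat_lit 5) (nat_lit 74) (nat_lit 5) (nat_lit 75) (nat_lit 5) (nat_lit 368) (nat_lit 351) (nat_lit 301)))) (XT.nd (nat_lit 156) (nat_lit 228) (nat_lit 0) (XT.nd (nat_lit 78) (nat_lit 304) (nat_lit 0) (XT.lf (nat_lit 0) (nat_lit 6534975029) (nat_lit 228) (nat_lit 11212877593) (nat_lit 304) (nat_lit 3108236789) (nat_lit 68) (nat_lit 5) (nat_lit 71) (nat_lit 5)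 (nat_lit 72) (nat_lit 5) (nat_lit 369) (nat_lit 351) (nat_lit 300)) (XT.lf (nat_lit 0) (nat_lit 3287826330) (nat_lit 304) (nat_lit 17445993449) (nat_lit 76) (nat_lit 1134714875) (nat_lit 64) (nat_lit 5) (nat_lit 68) (nat_lit 5) (nat_lit 65) (nat_lit 5) (nat_lit 370) (nat_lit 351) (nat_lit 299))) (XT.nd (nat_lit 78) (nat_lit 0) (nat_lit 0) (XT.lf (nat_lit 0) (nat_lit 1990475831) (nat_lit 228) (nat_lit 8533505603) (nat_lit 304) (nat_lit 12413598088) (nat_lit 61) (nat_lit 5) (nat_lit 64) (nat_lit 5) (nat_lit 65) (nat_lit 5) (nat_lit 371) (nat_lit 351) (nat_lit 298)) (XT.lf (nat_lit 0) (nat_lit 18684258040) (nat_lit 304) (nat_lit 603963792) (nat_lit 76) (nat_lit 4786680399) (nat_lit 61) (nat_lit 5) (nat_lit 65) (nat_lit 5) (nat_lit 62) (nat_lit 5) (nat_lit 372) (nat_lit 351) (nat_lit 297))))))))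
noncomputable def xc67 : XT := (XT.nd (nat_lit 1872) (nat_lit 1140) (nat_lit 0) (XT.nd (nat_lit 936) (nat_lit 1140) (nat_lit 0) (XT.nd (nat_lit 468) (nat_lit 760) (nat_lit 0) (XT.nd (nat_lit 234) (nat_lit 532) (nat_lit 0) (XT.nd (nat_lit 78) (nat_lit 380) (nat_lit 0) (XT.lf (nat_lit 0) (nat_lit 2583232909) (nat_lit 228) (nat_lit 3449868732) (nat_lit 76) (nat_lit 19245444462) (nat_lit 58) (nat_lit 5) (nat_lit 61) (nat_lit 5) (nat_lit 59) (nat_lit 5) (nat_lit 373) (nat_lit 351) (nat_lit 296)) (XT.nd (nat_lit 78) (nat_lit 152) (nat_lit 0) (XT.lf (nat_lit 0) (nat_lit 11435184244) (nat_lit 304) (nat_lit 6695926863) (nat_lit 76) (nat_lit 8421513343) (nat_lit 55) (nat_lit 5) (nat_lit 59) (nat_lit 5) (nat_lit 56) (nat_lit 5) (nat_lit 374) (nat_lit 351) (nat_lit 295)) (XT.lf (nat_lit 0) (nat_lit 17638795314) (nat_lit 152) (nat_lit 3763824816) (nat_lit 228) (nat_lit 6505654385) (nat_lit 53) (nat_lit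 5) (nat_lit 55) (nat_lit 5) (nat_lit 56) (nat_lit 5) (nat_lit 375) (nat_lit 351) (nat_lit 294)))) (XT.nd (nat_lit 78) (nat_lit 304) (nat_lit 0) (XT.lf (nat_lit 0) (nat_lit 3221231231) (nat_lit 228) (nat_lit 14357615066) (nat_lit 76) (nat_lit 11765577974) (nat_lit 50) (nat_lit 5) (nat_lit 53) (nat_lit 5) (nat_lit 51) (nat_lit 5) (nat_lit 376) (nat_lit 351) (nat_lit 293)) (XT.nd (nat_lit 78) (nat_lit 152) (nat_lit 0) (XT.lf (nat_lit 0) (nat_lit 11902252808) (nat_lit 152) (nat_lit 2001686400) (nat_lit 228) (nat_lit 16965924093) (nat_lit 48) (nat_lit 5) (nat_lit 50) (nat_lit 5) (nat_lit 51) (nat_lit 5) (nat_lit 377) (nat_lit 351) (nat_lit 292)) (XT.lf (nat_lit 0) (nat_lit 8253976790) (nat_lit 152) (nat_lit 17774354197) (nat_lit 228) (nat_lit 6459662085) (nat_lit 46) (nat_lit 5) (nat_lit 48) (nat_lit 5) (nat_lit 49) (nat_lit 5) (nat_lit 378) (nat_lit 351) (nat_lit 291))))) (XT.nd (nat_lit 234)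 (nat_lit 380) (nat_lit 0) (XT.nd (nat_lit 78) (nat_lit 152) (nat_lit 0) (XT.lf (nat_lit 0) (nat_lit 4082371244) (nat_lit 152) (nat_lit 1055128697) (nat_lit 228) (nat_lit 29073925293) (nat_lit 43) (nat_lit 5) (nat_lit 45) (nat_lit 5) (nat_lit 46) (nat_lit 5) (nat_lit 379) (nat_lit 351) (nat_lit 290)) (XT.nd (nat_lit 78) (nat_lit 152) (nat_lit 0) (XT.lf (nat_lit 0) (nat_lit 18108187363) (nat_lit 228) (nat_lit 946905472) (nat_lit 76) (nat_lit 16978748282) (nat_lit 43) (nat_lit 5) (nat_lit 46) (nat_lit 5) (nat_lit 44) (nat_lit 5) (nat_lit 380) (nat_lit 351) (nat_lit 289)) (XT.lf (nat_lit 0) (nat_lit 31520645848) (nat_lit 152) (nat_lit 1082224542) (nat_lit 228) (nat_lit 5374869637) (nat_lit 41) (nat_lit 5) (nat_lit 43) (nat_lit 5) (nat_lit 44) (nat_lit 5) (nat_lit 381) (nat_lit 351) (nat_lit 288)))) (XT.nd (nat_lit 78) (nat_lit 228) (nat_lit 0) (XT.lf (nat_lit 0) (nat_lit 8632788793) (nat_lit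 152) (nat_lit 13097082550) (nat_lit 76) (nat_lit 18305168776) (nat_lit 39) (nat_lit 5) (nat_lit 41) (nat_lit 5) (nat_lit 40) (nat_lit 5) (nat_lit 382) (nat_lit 351) (nat_lit 287)) (XT.nd (nat_lit 78) (nat_lit 76) (nat_lit 0) (XT.lf (nat_lit 0) (nat_lit 21523679410) (nat_lit 152) (nat_lit 2498255429) (nat_lit 228) (nat_lit 18208130080) (nat_lit 37) (nat_lit 5) (nat_lit 39) (nat_lit 5) (nat_lit 40) (nat_lit 5) (nat_lit 383) (nat_lit 351) (nat_lit 286)) (XT.lf (nat_lit 0) (nat_lit 14944286227) (nat_lit 76) (nat_lit 26427263444) (nat_lit 152) (nat_lit 3192680308) (nat_lit 36) (nat_lit 5) (nat_lit 37) (nat_lit 5) (nat_lit 38) (nat_lit 4) (nat_lit 384) (nat_lit 351) (nat_lit 285)))))) (XT.nd (nat_lit 468) (nat_lit 380) (nat_lit 0) (XT.nd (nat_lit 234) (nat_lit 456) (nat_lit 0) (XT.nd (nat_lit 78) (nat_lit 76) (nat_lit 0) (XT.lf (nat_lit 0) (nat_lit 7057263496) (nat_lit 152) (nat_lit 6048333966)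 (nat_lit 228) (nat_lit 33944446169) (nat_lit 33) (nat_lit 5) (nat_lit 35) (nat_lit 5) (nat_lit 36) (nat_lit 5) (nat_lit 385) (nat_lit 351) (nat_lit 284)) (XT.nd (nat_lit 78) (nat_lit 76) (nat_lit 0) (XT.lf (nat_lit 0) (nat_lit 31351246596) (nat_lit 228) (nat_lit 2329764092) (nat_lit 76) (nat_lit 16013330670) (nat_lit 33) (nat_lit 5) (nat_lit 36) (nat_lit 5) (nat_lit 34) (nat_lit 4) (nat_lit 386) (nat_lit 351) (nat_lit 283)) (XT.lf (nat_lit 0) (nat_lit 39474670693) (nat_lit 76) (nat_lit 12281892142) (nat_lit 152) (nat_lit 758623190) (nat_lit 32) (nat_lit 5) (nat_lit 33) (nat_lit 5) (nat_lit 34) (nat_lit 4) (nat_lit 387) (nat_lit 351) (nat_lit 282)))) (XT.nd (nat_lit 78) (nat_lit 228) (nat_lit 0) (XT.lf (nat_lit 0) (nat_lit 18319390616) (nat_lit 228) (nat_lit 25922188630) (nat_lit 76) (nat_lit 11272372246) (nat_lit 29) (nat_lit 5) (nat_lit 32) (nat_lit 5) (nat_lit 30) (nat_lit 4) (nat_lit 388)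 (nat_lit 351) (nat_lit 281)) (XT.nd (nat_lit 78) (nat_lit 152) (nat_lit 0) (XT.lf (nat_lit 0) (nat_lit 17669506068) (nat_lit 76) (nat_lit 21924666254) (nat_lit 152) (nat_lit 19122971958) (nat_lit 28) (nat_lit 5) (nat_lit 29) (nat_lit 5) (nat_lit 30) (nat_lit 4) (nat_lit 389) (nat_lit 351) (nat_lit 280)) (XT.lf (nat_lit 0) (nat_lit 922489603) (nat_lit 152) (nat_lit 58602757660) (nat_lit 76) (nat_lit 2624001830) (nat_lit 26) (nat_lit 5) (nat_lit 28) (nat_lit 5) (nat_lit 27) (nat_lit 4) (nat_lit 390) (nat_lit 351) (nat_lit 279))))) (XT.nd (nat_lit 234) (nat_lit 152) (nat_lit 0) (XT.nd (nat_lit 78) (nat_lit 228) (nat_lit 0) (XT.lf (nat_lit 0) (nat_lit 22990992912) (nat_lit 152) (nat_lit 13379968929) (nat_lit 76) (nat_lit 29414819438) (nat_lit 26) (nat_lit 5) (nat_lit 28) (nat_lit 5) (nat_lit 27) (nat_lit 4) (nat_lit 391) (nat_lit 351) (nat_lit 278)) (XT.nd (nat_lit 78) (nat_lit 152) (nat_lit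 0) (XT.lf (nat_lit 0) (nat_lit 36604543442) (nat_lit 76) (nat_lit 10777107290) (nat_lit 152) (nat_lit 22303753991) (nat_lit 25) (nat_lit 5) (nat_lit 26) (nat_lit 5) (nat_lit 27) (nat_lit 4) (nat_lit 392) (nat_lit 351) (nat_lit 277)) (XT.lf (nat_lit 0) (nat_lit 602755868) (nat_lit 152) (nat_lit 56424318691) (nat_lit 76) (nat_lit 16831528902) (nat_lit 23) (nat_lit 5) (nat_lit 25) (nat_lit 5) (nat_lit 24) (nat_lit 4) (nat_lit 393) (nat_lit 351) (nat_lit 276)))) (XT.nd (nat_lit 78) (nat_lit 152) (nat_lit 0) (XT.lf (nat_lit 0) (nat_lit 25324333611) (nat_lit 152) (nat_lit 5758423007) (nat_lit 76) (nat_lit 47226423572) (nat_lit 23) (nat_lit 5) (nat_lit 25) (nat_lit 5) (nat_lit 24) (nat_lit 4) (nat_lit 394) (nat_lit 351) (nat_lit 275)) (XT.nd (nat_lit 78) (nat_lit 76) (nat_lit 0) (XT.lf (nat_lit 0) (nat_lit 50554473349) (nat_lit 76) (nat_lit 2245590503) (nat_lit 152) (nat_lit 30276919701) (nat_lit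 22) (nat_lit 5) (nat_lit 23) (nat_lit 5) (nat_lit 24) (nat_lit 4) (nat_lit 395) (nat_lit 351) (nat_lit 274)) (XT.lf (nat_lit 0) (nat_lit 23636814402) (nat_lit 76) (nat_lit 59746762466) (nat_lit 76) (nat_lit 4797149775) (nat_lit 21) (nat_lit 4) (nat_lit 22) (nat_lit 5) (nat_lit 22) (nat_lit 4) (nat_lit 396) (nat_lit 351) (nat_lit 273))))))) (XT.nd (nat_lit 936) (nat_lit 456) (nat_lit 0) (XT.nd (nat_lit 468) (nat_lit 304) (nat_lit 0) (XT.nd (nat_lit 234) (nat_lit 152) (nat_lit 0) (XT.nd (nat_lit 78) (nat_lit 152) (nat_lit 0) (XT.lf (nat_lit 0) (nat_lit 22595380502) (nat_lit 152) (nat_lit 8639167119) (nat_lit 76) (nat_lit 62410406478) (nat_lit 20) (nat_lit 5) (nat_lit 22) (nat_lit 5) (nat_lit 21) (nat_lit 4) (nat_lit 397) (nat_lit 351) (nat_lit 272)) (XT.nd (nat_lit 78) (nat_lit 76) (nat_lit 0) (XT.lf (nat_lit 0) (nat_lit 52843068665) (nat_lit 152) (nat_lit 46166122023) (nat_lit 0) (nat_lit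 491607130) (nat_lit 19) (nat_lit 5) (nat_lit 21) (nat_lit 4) (nat_lit 19) (nat_lit 4) (nat_lit 398) (nat_lit 351) (nat_lit 271)) (XT.lf (nat_lit 0) (nat_lit 14677134628) (nat_lit 76) (nat_lit 71731386910) (nat_lit 76) (nat_lit 19371691282) (nat_lit 18) (nat_lit 4) (nat_lit 19) (nat_lit 5) (nat_lit 19) (nat_lit 4) (nat_lit 399) (nat_lit 351) (nat_lit 270)))) (XT.nd (nat_lit 78) (nat_lit 76) (nat_lit 0) (XT.lf (nat_lit 0) (nat_lit 10580914240) (nat_lit 152) (nat_lit 30676445596) (nat_lit 76) (nat_lit 71256397049) (nat_lit 17) (nat_lit 5) (nat_lit 19) (nat_lit 5) (nat_lit 18) (nat_lit 4) (nat_lit 400) (nat_lit 351) (nat_lit 269)) (XT.nd (nat_lit 78) (nat_lit 0) (nat_lit 0) (XT.lf (nat_lit 0) (nat_lit 35370996516) (nat_lit 76) (nat_lit 7431625782) (nat_lit 152) (nat_lit 76939905586) (nat_lit 16) (nat_lit 5) (nat_lit 17) (nat_lit 5) (nat_lit 18) (nat_lit 4) (nat_lit 401) (nat_lit 351) (nat_lit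 268)) (XT.lf (nat_lit 0) (nat_lit 78590101226) (nat_lit 152) (nat_lit 20206583726) (nat_lit 0) (nat_lit 28703514859) (nat_lit 16) (nat_lit 5) (nat_lit 18) (nat_lit 4) (nat_lit 16) (nat_lit 4) (nat_lit 402) (nat_lit 351) (nat_lit 267))))) (XT.nd (nat_lit 234) (nat_lit 76) (nat_lit 0) (XT.nd (nat_lit 78) (nat_lit 152) (nat_lit 0) (XT.lf (nat_lit 0) (nat_lit 50567802854) (nat_lit 76) (nat_lit 67578864767) (nat_lit 76) (nat_lit 17686514300) (nat_lit 15) (nat_lit 4) (nat_lit 16) (nat_lit 5) (nat_lit 16) (nat_lit 4) (nat_lit 403) (nat_lit 351) (nat_lit 266)) (XT.nd (nat_lit 78) (nat_lit 76) (nat_lit 0) (XT.lf (nat_lit 0) (nat_lit 15871023289) (nat_lit 152) (nat_lit 17362089852) (nat_lit 76) (nat_lit 111569708446) (nat_lit 14) (nat_lit 5) (nat_lit 16) (nat_lit 5) (nat_lit 15) (nat_lit 4) (nat_lit 404) (nat_lit 351) (nat_lit 265)) (XT.lf (nat_lit 0) (nat_lit 52471457509) (nat_lit 152) (nat_lit 97010037538)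 (nat_lit 0) (nat_lit 4945143813) (nat_lit 13) (nat_lit 5) (nat_lit 15) (nat_lit 4) (nat_lit 13) (nat_lit 4) (nat_lit 405) (nat_lit 351) (nat_lit 264)))) (XT.nd (nat_lit 78) (nat_lit 76) (nat_lit 0) (XT.lf (nat_lit 0) (nat_lit 92860090935) (nat_lit 152) (nat_lit 26587843626) (nat_lit 0) (nat_lit 45329419402) (nat_lit 13) (nat_lit 5) (nat_lit 15) (nat_lit 4) (nat_lit 13) (nat_lit 4) (nat_lit 406) (nat_lit 351) (nat_lit 263)) (XT.nd (nat_lit 78) (nat_lit 0) (nat_lit 0) (XT.lf (nat_lit 0) (nat_lit 51089553743) (nat_lit 76) (nat_lit 86180874528) (nat_lit 76) (nat_lit 38646167962) (nat_lit 12) (nat_lit 4) (nat_lit 13) (nat_lit 5) (nat_lit 13) (nat_lit 4) (nat_lit 407) (nat_lit 351) (nat_lit 262)) (XT.lf (nat_lit 0) (nat_lit 135917427242) (nat_lit 76) (nat_lit 49772586436) (nat_lit 76) (nat_lit 2234143728) (nat_lit 12) (nat_lit 4) (nat_lit 13) (nat_lit 5) (nat_lit 13) (nat_lit 4) (nat_lit 408) (nat_lit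 351) (nat_lit 261)))))) (XT.nd (nat_lit 468) (nat_lit 152) (nat_lit 0) (XT.nd (nat_lit 234) (nat_lit 152) (nat_lit 0) (XT.nd (nat_lit 78) (nat_lit 0) (nat_lit 0) (XT.lf (nat_lit 0) (nat_lit 26908976513) (nat_lit 76) (nat_lit 9408525248) (nat_lit 152) (nat_lit 164525177722) (nat_lit 10) (nat_lit 5) (nat_lit 11) (nat_lit 5) (nat_lit 12) (nat_lit 4) (nat_lit 409) (nat_lit 351) (nat_lit 260)) (XT.nd (nat_lit 78) (nat_lit 0) (nat_lit 0) (XT.lf (nat_lit 0) (nat_lit 79324411244) (nat_lit 152) (nat_lit 101352612358) (nat_lit 0) (nat_lit 34043358636) (nat_lit 10) (nat_lit 5) (nat_lit 12) (nat_lit 4) (nat_lit 10) (nat_lit 4) (nat_lit 410) (nat_lit 351) (nat_lit 259)) (XT.lf (nat_lit 0) (nat_lit 125924838941) (nat_lit 152) (nat_lit 23134852741) (nat_lit 0) (nat_lit 80640961694) (nat_lit 10) (nat_lit 5) (nat_lit 12) (nat_lit 4) (nat_lit 10) (nat_lit 4) (nat_lit 411) (nat_lit 351) (nat_lit 258)))) (XT.nd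 (nat_lit 78) (nat_lit 76) (nat_lit 0) (XT.lf (nat_lit 0) (nat_lit 63357828155) (nat_lit 76) (nat_lit 113879407190) (nat_lit 76) (nat_lit 68592914538) (nat_lit 9) (nat_lit 4) (nat_lit 10) (nat_lit 5) (nat_lit 10) (nat_lit 4) (nat_lit 412) (nat_lit 351) (nat_lit 257)) (XT.nd (nat_lit 78) (nat_lit 76) (nat_lit 0) (XT.lf (nat_lit 0) (nat_lit 157586165593) (nat_lit 76) (nat_lit 75466428344) (nat_lit 76) (nat_lit 30177514020) (nat_lit 9) (nat_lit 4) (nat_lit 10) (nat_lit 5) (nat_lit 10) (nat_lit 4) (nat_lit 413) (nat_lit 351) (nat_lit 256)) (XT.lf (nat_lit 0) (nat_lit 10944363911) (nat_lit 152) (nat_lit 22855210594) (nat_lit 76) (nat_lit 248213895000) (nat_lit 8) (nat_lit 5) (nat_lit 10) (nat_lit 5) (nat_lit 9) (nat_lit 4) (nat_lit 414) (nat_lit 351) (nat_lit 255))))) (XT.nd (nat_lit 234) (nat_lit 76) (nat_lit 0) (XT.nd (nat_lit 78) (nat_lit 0) (nat_lit 0) (XT.lf (nat_lit 0) (nat_lit 55574233170)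 (nat_lit 152) (nat_lit 234198934761) (nat_lit 0) (nat_lit 12437820973) (nat_lit 7) (nat_lit 5) (nat_lit 9) (nat_lit 4) (nat_lit 7) (nat_lit 4) (nat_lit 415) (nat_lit 351) (nat_lit 254)) (XT.nd (nat_lit 78) (nat_lit 0) (nat_lit 0) (XT.lf (nat_lit 0) (nat_lit 104744818058) (nat_lit 152) (nat_lit 157624400771) (nat_lit 0) (nat_lit 61606575003) (nat_lit 7) (nat_lit 5) (nat_lit 9) (nat_lit 4) (nat_lit 7) (nat_lit 4) (nat_lit 416) (nat_lit 351) (nat_lit 253)) (XT.lf (nat_lit 0) (nat_lit 157845118155) (nat_lit 152) (nat_lit 74931681979) (nat_lit 0) (nat_lit 114705179861) (nat_lit 7) (nat_lit 5) (nat_lit 9) (nat_lit 4) (nat_lit 7) (nat_lit 4) (nat_lit 417) (nat_lit 351) (nat_lit 252)))) (XT.nd (nat_lit 156) (nat_lit 0) (nat_lit 0) (XT.nd (nat_lit 78) (nat_lit 0) (nat_lit 0) (XT.lf (nat_lit 0) (nat_lit 14844364922) (nat_lit 76) (nat_lit 200577199120) (nat_lit 76) (nat_lit 157435691160) (nat_lit 6)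 (nat_lit 4) (nat_lit 7) (nat_lit 5) (nat_lit 7) (nat_lit 4) (nat_lit 418) (nat_lit 351) (nat_lit 251)) (XT.lf (nat_lit 0) (nat_lit 114471392974) (nat_lit 76) (nat_lit 164434515933) (nat_lit 76) (nat_lit 121291554579) (nat_lit 6) (nat_lit 4) (nat_lit 7) (nat_lit 5) (nat_lit 7) (nat_lit 4) (nat_lit 419) (nat_lit 351) (nat_lit 250))) (XT.nd (nat_lit 78) (nat_lit 0) (nat_lit 0) (XT.lf (nat_lit 0) (nat_lit 222062204756) (nat_lit 76) (nat_lit 125403576002) (nat_lit 76) (nat_lit 82259268912) (nat_lit 6) (nat_lit 4) (nat_lit 7) (nat_lit 5) (nat_lit 7) (nat_lit 4) (nat_lit 420) (nat_lit 351) (nat_lit 249)) (XT.lf (nat_lit 0) (nat_lit 338254375448) (nat_lit 76) (nat_lit 83253084867) (nat_lit 76) (nat_lit 40107531725) (nat_lit 6) (nat_lit 4) (nat_lit 7) (nat_lit 5) (nat_lit 7) (nat_lit 4) (nat_lit 421) (nat_lit 351) (nat_lit 248))))))))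
noncomputable def xc68 : XT := (XT.nd (nat_lit 48594) (nat_lit 0) (nat_lit 2204) (XT.nd (nat_lit 47658) (nat_lit 0) (nat_lit 6612) (XT.nd (nat_lit 468) (nat_lit 76) (nat_lit 0) (XT.nd (nat_lit 234) (nat_lit 0) (nat_lit 0) (XT.nd (nat_lit 78) (nat_lit 76) (nat_lit 0) (XT.lf (nat_lit 0) (nat_lit 5240181002) (nat_lit 152) (nat_lit 32404335836) (nat_lit 76) (nat_lit 458407525246) (nat_lit 5) (nat_lit 5) (nat_lit 7) (nat_lit 5) (nat_lit 6) (nat_lit 4) (nat_lit 422) (nat_lit 351) (nat_lit 247)) (XT.nd (nat_lit 78) (nat_lit 0) (nat_lit 0) (XT.lf (nat_lit 0) (nat_lit 54087063242) (nat_lit 152) (nat_lit 466066347746) (nat_lit 0) (nat_lit 12993944022) (nat_lit 4) (nat_lit 5) (nat_lit 6) (nat_lit 4) (nat_lit 4) (nat_lit 4) (nat_lit 423) (nat_lit 351) (nat_lit 246)) (XT.lf (nat_lit 0) (nat_lit 108047646254) (nat_lit 152) (nat_lit 398148764371) (nat_lit 0) (nat_lit 66953584981) (nat_lit 4) (nat_lit 5)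 (nat_lit 6) (nat_lit 4) (nat_lit 4) (nat_lit 4) (nat_lit 424) (nat_lit 351) (nat_lit 245)))) (XT.nd (nat_lit 78) (nat_lit 0) (nat_lit 0) (XT.lf (nat_lit 0) (nat_lit 166322741430) (nat_lit 152) (nat_lit 324802414993) (nat_lit 0) (nat_lit 125227807885) (nat_lit 4) (nat_lit 5) (nat_lit 6) (nat_lit 4) (nat_lit 4) (nat_lit 4) (nat_lit 425) (nat_lit 351) (nat_lit 244)) (XT.nd (nat_lit 78) (nat_lit 0) (nat_lit 0) (XT.lf (nat_lit 0) (nat_lit 229257682665) (nat_lit 152) (nat_lit 245592654580) (nat_lit 0) (nat_lit 188161941462) (nat_lit 4) (nat_lit 5) (nat_lit 6) (nat_lit 4) (nat_lit 4) (nat_lit 4) (nat_lit 426) (nat_lit 351) (nat_lit 243)) (XT.lf (nat_lit 0) (nat_lit 297225417762) (nat_lit 152) (nat_lit 160050091958) (nat_lit 0) (nat_lit 256128928726) (nat_lit 4) (nat_lit 5) (nat_lit 6) (nat_lit 4) (nat_lit 4) (nat_lit 4) (nat_lit 427) (nat_lit 351) (nat_lit 242))))) (XT.nd (nat_lit 234) (nat_lit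 0) (nat_lit 0) (XT.nd (nat_lit 78) (nat_lit 76) (nat_lit 0) (XT.lf (nat_lit 0) (nat_lit 370628718482) (nat_lit 152) (nat_lit 67667808237) (nat_lit 0) (nat_lit 329531537010) (nat_lit 4) (nat_lit 5) (nat_lit 6) (nat_lit 4) (nat_lit 4) (nat_lit 4) (nat_lit 428) (nat_lit 351) (nat_lit 241)) (XT.nd (nat_lit 78) (nat_lit 0) (nat_lit 0) (XT.lf (nat_lit 0) (nat_lit 33163072581) (nat_lit 76) (nat_lit 417257263271) (nat_lit 76) (nat_lit 376159440653) (nat_lit 3) (nat_lit 4) (nat_lit 4) (nat_lit 5) (nat_lit 4) (nat_lit 4) (nat_lit 429) (nat_lit 351) (nat_lit 240)) (XT.lf (nat_lit 0) (nat_lit 144473556679) (nat_lit 76) (nat_lit 393298815747) (nat_lit 76) (nat_lit 352200399476) (nat_lit 3) (nat_lit 4) (nat_lit 4) (nat_lit 5) (nat_lit 4) (nat_lit 4) (nat_lit 430) (nat_lit 351) (nat_lit 239)))) (XT.nd (nat_lit 78) (nat_lit 0) (nat_lit 0) (XT.lf (nat_lit 0) (nat_lit 264685858403) (nat_lit 76) (nat_lit 367425195239)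 (nat_lit 76) (nat_lit 326326229289) (nat_lit 3) (nat_lit 4) (nat_lit 4) (nat_lit 5) (nat_lit 4) (nat_lit 4) (nat_lit 431) (nat_lit 351) (nat_lit 238)) (XT.nd (nat_lit 78) (nat_lit 0) (nat_lit 0) (XT.lf (nat_lit 0) (nat_lit 394512346949) (nat_lit 76) (nat_lit 339483076587) (nat_lit 76) (nat_lit 298383601675) (nat_lit 3) (nat_lit 4) (nat_lit 4) (nat_lit 5) (nat_lit 4) (nat_lit 4) (nat_lit 432) (nat_lit 351) (nat_lit 237)) (XT.lf (nat_lit 0) (nat_lit 534722364470) (nat_lit 76) (nat_lit 309306876867) (nat_lit 76) (nat_lit 268206930693) (nat_lit 3) (nat_lit 4) (nat_lit 4) (nat_lit 5) (nat_lit 4) (nat_lit 4) (nat_lit 433) (nat_lit 351) (nat_lit 236)))))) (XT.nd (nat_lit 468) (nat_lit 2356) (nat_lit 0) (XT.nd (nat_lit 234) (nat_lit 0) (nat_lit 76) (XT.nd (nat_lit 78) (nat_lit 0) (nat_lit 0) (XT.lf (nat_lit 0) (nat_lit 1109356125) (nat_lit 0) (nat_lit 1109356125) (nat_lit 684) (nat_lit 3114280261)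 (nat_lit 121) (nat_lit 5) (nat_lit 121) (nat_lit 3) (nat_lit 130) (nat_lit 3) (nat_lit 352) (nat_lit 352) (nat_lit 316)) (XT.nd (nat_lit 78) (nat_lit 0) (nat_lit 76) (XT.lf (nat_lit 0) (nat_lit 5633545374) (nat_lit 684) (nat_lit 293537983) (nat_lit 760) (nat_lit 5113903890) (nat_lit 121) (nat_lit 5) (nat_lit 130) (nat_lit 3) (nat_lit 131) (nat_lit 5) (nat_lit 353) (nat_lit 352) (nat_lit 315)) (XT.lf (nat_lit 0) (nat_lit 7032163198) (nat_lit 684) (nat_lit 2767251678) (nat_lit 760) (nat_lit 1641305037) (nat_lit 122) (nat_lit 5) (nat_lit 131) (nat_lit 5) (nat_lit 132) (nat_lit 5) (nat_lit 354) (nat_lit 352) (nat_lit 314)))) (XT.nd (nat_lit 78) (nat_lit 0) (nat_lit 76) (XT.lf (nat_lit 76) (nat_lit 6550759697) (nat_lit 0) (nat_lit 2113073540) (nat_lit 760) (nat_lit 3202605217) (nat_lit 123) (nat_lit 5) (nat_lit 122) (nat_lit 5) (nat_lit 132) (nat_lit 5) (nat_lit 355) (nat_lit 352) (nat_lit 313))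 (XT.nd (nat_lit 78) (nat_lit 0) (nat_lit 76) (XT.lf (nat_lit 76) (nat_lit 4374673867) (nat_lit 0) (nat_lit 6185026483) (nat_lit 760) (nat_lit 1759891511) (nat_lit 124) (nat_lit 5) (nat_lit 123) (nat_lit 5) (nat_lit 133) (nat_lit 5) (nat_lit 356) (nat_lit 352) (nat_lit 312)) (XT.lf (nat_lit 76) (nat_lit 2165902608) (nat_lit 0) (nat_lit 10563224952) (nat_lit 760) (nat_lit 73831514) (nat_lit 125) (nat_lit 5) (nat_lit 124) (nat_lit 5) (nat_lit 134) (nat_lit 5) (nat_lit 357) (nat_lit 352) (nat_lit 311))))) (XT.nd (nat_lit 234) (nat_lit 1140) (nat_lit 0) (XT.nd (nat_lit 78) (nat_lit 684) (nat_lit 0) (XT.lf (nat_lit 0) (nat_lit 1864778190) (nat_lit 760) (nat_lit 141279608) (nat_lit 836) (nat_lit 11308944272) (nat_lit 114) (nat_lit 5) (nat_lit 124) (nat_lit 5) (nat_lit 125) (nat_lit 5) (nat_lit 358) (nat_lit 352) (nat_lit 310)) (XT.nd (nat_lit 78) (nat_lit 760) (nat_lit 0) (XT.lf (nat_lit 0) (nat_lit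 4185613085) (nat_lit 760) (nat_lit 2471545822) (nat_lit 76) (nat_lit 7199348708) (nat_lit 115) (nat_lit 5) (nat_lit 125) (nat_lit 5) (nat_lit 116) (nat_lit 5) (nat_lit 359) (nat_lit 352) (nat_lit 309)) (XT.lf (nat_lit 0) (nat_lit 6860428105) (nat_lit 836) (nat_lit 4863069560) (nat_lit 76) (nat_lit 2709462663) (nat_lit 105) (nat_lit 5) (nat_lit 116) (nat_lit 5) (nat_lit 106) (nat_lit 5) (nat_lit 360) (nat_lit 352) (nat_lit 308)))) (XT.nd (nat_lit 78) (nat_lit 760) (nat_lit 0) (XT.lf (nat_lit 0) (nat_lit 7686705936) (nat_lit 380) (nat_lit 2280537198) (nat_lit 456) (nat_lit 5077424634) (nat_lit 100) (nat_lit 5) (nat_lit 105) (nat_lit 5) (nat_lit 106) (nat_lit 5) (nat_lit 361) (nat_lit 352) (nat_lit 307)) (XT.nd (nat_lit 78) (nat_lit 456) (nat_lit 0) (XT.lf (nat_lit 0) (nat_lit 5714708791) (nat_lit 304) (nat_lit 7852310076) (nat_lit 380) (nat_lit 2126108506) (nat_lit 96) (nat_lit 5) (nat_lit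 100) (nat_lit 5) (nat_lit 101) (nat_lit 5) (nat_lit 362) (nat_lit 352) (nat_lit 306)) (XT.lf (nat_lit 0) (nat_lit 1241110590) (nat_lit 456) (nat_lit 12708058613) (nat_lit 76) (nat_lit 2432809771) (nat_lit 90) (nat_lit 5) (nat_lit 96) (nat_lit 5) (nat_lit 91) (nat_lit 5) (nat_lit 363) (nat_lit 352) (nat_lit 305))))))) (XT.nd (nat_lit 936) (nat_lit 1748) (nat_lit 0) (XT.nd (nat_lit 468) (nat_lit 1216) (nat_lit 0) (XT.nd (nat_lit 234) (nat_lit 836) (nat_lit 0) (XT.nd (nat_lit 78) (nat_lit 304) (nat_lit 0) (XT.lf (nat_lit 0) (nat_lit 1478170758) (nat_lit 304) (nat_lit 3608966692) (nat_lit 380) (nat_lit 12022892281) (nat_lit 86) (nat_lit 5) (nat_lit 90) (nat_lit 5) (nat_lit 91) (nat_lit 5) (nat_lit 364) (nat_lit 352) (nat_lit 304)) (XT.nd (nat_lit 78) (nat_lit 304) (nat_lit 0) (XT.lf (nat_lit 0) (nat_lit 9537334843) (nat_lit 380) (nat_lit 809183682) (nat_lit 76) (nat_lit 7535009081) (nat_lit 86)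 (nat_lit 5) (nat_lit 91) (nat_lit 5) (nat_lit 87) (nat_lit 5) (nat_lit 365) (nat_lit 352) (nat_lit 303)) (XT.lf (nat_lit 0) (nat_lit 14619994894) (nat_lit 380) (nat_lit 3131020423) (nat_lit 76) (nat_lit 949933092) (nat_lit 82) (nat_lit 5) (nat_lit 87) (nat_lit 5) (nat_lit 83) (nat_lit 5) (nat_lit 366) (nat_lit 352) (nat_lit 302)))) (XT.nd (nat_lit 78) (nat_lit 532) (nat_lit 0) (XT.lf (nat_lit 0) (nat_lit 877949745) (nat_lit 304) (nat_lit 5658842618) (nat_lit 76) (nat_lit 13030176645) (nat_lit 78) (nat_lit 5) (nat_lit 82) (nat_lit 5) (nat_lit 79) (nat_lit 5) (nat_lit 367) (nat_lit 352) (nat_lit 301)) (XT.nd (nat_lit 78) (nat_lit 228) (nat_lit 0) (XT.lf (nat_lit 0) (nat_lit 6391155266) (nat_lit 380) (nat_lit 8387405229) (nat_lit 76) (nat_lit 5705358153) (nat_lit 74) (nat_lit 5) (nat_lit 79) (nat_lit 5) (nat_lit 75) (nat_lit 5) (nat_lit 368) (nat_lit 352) (nat_lit 300)) (XT.lf (nat_lit 0) (nat_lit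 10169108924) (nat_lit 228) (nat_lit 2508301620) (nat_lit 304) (nat_lit 8780233285) (nat_lit 71) (nat_lit 5) (nat_lit 74) (nat_lit 5) (nat_lit 75) (nat_lit 5) (nat_lit 369) (nat_lit 352) (nat_lit 299))))) (XT.nd (nat_lit 234) (nat_lit 456) (nat_lit 0) (XT.nd (nat_lit 78) (nat_lit 532) (nat_lit 0) (XT.lf (nat_lit 0) (nat_lit 8046050635) (nat_lit 228) (nat_lit 11827008171) (nat_lit 304) (nat_lit 2615901399) (nat_lit 68) (nat_lit 5) (nat_lit 71) (nat_lit 5) (nat_lit 72) (nat_lit 5) (nat_lit 370) (nat_lit 352) (nat_lit 298)) (XT.nd (nat_lit 78) (nat_lit 228) (nat_lit 0) (XT.lf (nat_lit 0) (nat_lit 4234630113) (nat_lit 304) (nat_lit 17843585869) (nat_lit 76) (nat_lit 1505306158) (nat_lit 64) (nat_lit 5) (nat_lit 68) (nat_lit 5) (nat_lit 65) (nat_lit 5) (nat_lit 371) (nat_lit 352) (nat_lit 297)) (XT.lf (nat_lit 0) (nat_lit 3104425305) (nat_lit 228) (nat_lit 8909507842) (nat_lit 304) (nat_lit 12725967371)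 (nat_lit 61) (nat_lit 5) (nat_lit 64) (nat_lit 5) (nat_lit 65) (nat_lit 5) (nat_lit 372) (nat_lit 352) (nat_lit 296)))) (XT.nd (nat_lit 78) (nat_lit 304) (nat_lit 0) (XT.lf (nat_lit 0) (nat_lit 266057444) (nat_lit 152) (nat_lit 20521559312) (nat_lit 228) (nat_lit 5182584059) (nat_lit 59) (nat_lit 5) (nat_lit 61) (nat_lit 5) (nat_lit 62) (nat_lit 5) (nat_lit 373) (nat_lit 352) (nat_lit 295)) (XT.nd (nat_lit 78) (nat_lit 228) (nat_lit 0) (XT.lf (nat_lit 0) (nat_lit 3372801571) (nat_lit 228) (nat_lit 2836069894) (nat_lit 76) (nat_lit 21062581175) (nat_lit 58) (nat_lit 5) (nat_lit 61) (nat_lit 5) (nat_lit 59) (nat_lit 5) (nat_lit 374) (nat_lit 352) (nat_lit 294)) (XT.lf (nat_lit 0) (nat_lit 12907673014) (nat_lit 304) (nat_lit 6357270475) (nat_lit 76) (nat_lit 9383792725) (nat_lit 55) (nat_lit 5) (nat_lit 59) (nat_lit 5) (nat_lit 56) (nat_lit 5) (nat_lit 375) (nat_lit 352) (nat_lit 293)))))) (XT.nd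 (nat_lit 468) (nat_lit 836) (nat_lit 0) (XT.nd (nat_lit 234) (nat_lit 380) (nat_lit 0) (XT.nd (nat_lit 78) (nat_lit 380) (nat_lit 0) (XT.lf (nat_lit 0) (nat_lit 19886232137) (nat_lit 152) (nat_lit 3758019953) (nat_lit 228) (nat_lit 6470014667) (nat_lit 53) (nat_lit 5) (nat_lit 55) (nat_lit 5) (nat_lit 56) (nat_lit 5) (nat_lit 376) (nat_lit 352) (nat_lit 292)) (XT.nd (nat_lit 78) (nat_lit 152) (nat_lit 0) (XT.lf (nat_lit 0) (nat_lit 3994886189) (nat_lit 228) (nat_lit 14668074920) (nat_lit 76) (nat_lit 13003044146) (nat_lit 50) (nat_lit 5) (nat_lit 53) (nat_lit 5) (nat_lit 51) (nat_lit 5) (nat_lit 377) (nat_lit 352) (nat_lit 291)) (XT.lf (nat_lit 0) (nat_lit 13656157435) (nat_lit 152) (nat_lit 1850351537) (nat_lit 228) (nat_lit 17808268500) (nat_lit 48) (nat_lit 5) (nat_lit 50) (nat_lit 5) (nat_lit 51) (nat_lit 5) (nat_lit 378) (nat_lit 352) (nat_lit 290)))) (XT.nd (nat_lit 78) (nat_lit 228)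 (nat_lit 0) (XT.lf (nat_lit 0) (nat_lit 9700128343) (nat_lit 152) (nat_lit 18881180355) (nat_lit 228) (nat_lit 6482038109) (nat_lit 46) (nat_lit 5) (nat_lit 48) (nat_lit 5) (nat_lit 49) (nat_lit 5) (nat_lit 379) (nat_lit 352) (nat_lit 289)) (XT.nd (nat_lit 78) (nat_lit 0) (nat_lit 0) (XT.lf (nat_lit 0) (nat_lit 5175915883) (nat_lit 152) (nat_lit 827681659) (nat_lit 228) (nat_lit 30921854423) (nat_lit 43) (nat_lit 5) (nat_lit 45) (nat_lit 5) (nat_lit 46) (nat_lit 5) (nat_lit 380) (nat_lit 352) (nat_lit 288)) (XT.lf (nat_lit 0) (nat_lit 19982737327) (nat_lit 228) (nat_lit 295830817) (nat_lit 76) (nat_lit 18616562914) (nat_lit 43) (nat_lit 5) (nat_lit 46) (nat_lit 5) (nat_lit 44) (nat_lit 5) (nat_lit 381) (nat_lit 352) (nat_lit 287))))) (XT.nd (nat_lit 234) (nat_lit 380) (nat_lit 0) (XT.nd (nat_lit 78) (nat_lit 304) (nat_lit 0) (XT.lf (nat_lit 0) (nat_lit 34737537589) (nat_lit 152) (nat_lit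 878764278) (nat_lit 228) (nat_lit 5379283753) (nat_lit 41) (nat_lit 5) (nat_lit 43) (nat_lit 5) (nat_lit 44) (nat_lit 5) (nat_lit 382) (nat_lit 352) (nat_lit 286)) (XT.nd (nat_lit 78) (nat_lit 152) (nat_lit 0) (XT.lf (nat_lit 0) (nat_lit 9719906400) (nat_lit 152) (nat_lit 13451456682) (nat_lit 76) (nat_lit 20046555417) (nat_lit 39) (nat_lit 5) (nat_lit 41) (nat_lit 5) (nat_lit 40) (nat_lit 5) (nat_lit 383) (nat_lit 352) (nat_lit 285)) (XT.lf (nat_lit 0) (nat_lit 23908832242) (nat_lit 152) (nat_lit 2412337248) (nat_lit 228) (nat_lit 19268333940) (nat_lit 37) (nat_lit 5) (nat_lit 39) (nat_lit 5) (nat_lit 40) (nat_lit 5) (nat_lit 384) (nat_lit 352) (nat_lit 284)))) (XT.nd (nat_lit 156) (nat_lit 76) (nat_lit 0) (XT.nd (nat_lit 78) (nat_lit 228) (nat_lit 0) (XT.lf (nat_lit 0) (nat_lit 16788137712) (nat_lit 76) (nat_lit 28256907541) (nat_lit 152) (nat_lit 3066048721) (nat_lit 36) (nat_lit 5) (nat_lit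 37) (nat_lit 5) (nat_lit 38) (nat_lit 4) (nat_lit 385) (nat_lit 352) (nat_lit 283)) (XT.lf (nat_lit 0) (nat_lit 8253753096) (nat_lit 152) (nat_lit 6252582241) (nat_lit 228) (nat_lit 36290021599) (nat_lit 33) (nat_lit 5) (nat_lit 35) (nat_lit 5) (nat_lit 36) (nat_lit 5) (nat_lit 386) (nat_lit 352) (nat_lit 282))) (XT.nd (nat_lit 78) (nat_lit 76) (nat_lit 0) (XT.lf (nat_lit 0) (nat_lit 34189583088) (nat_lit 228) (nat_lit 1918707184) (nat_lit 76) (nat_lit 17545016481) (nat_lit 33) (nat_lit 5) (nat_lit 36) (nat_lit 5) (nat_lit 34) (nat_lit 4) (nat_lit 387) (nat_lit 352) (nat_lit 281)) (XT.lf (nat_lit 0) (nat_lit 43204118455) (nat_lit 76) (nat_lit 13007666501) (nat_lit 152) (nat_lit 488816211) (nat_lit 32) (nat_lit 5) (nat_lit 33) (nat_lit 5) (nat_lit 34) (nat_lit 4) (nat_lit 388) (nat_lit 352) (nat_lit 280))))))))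
noncomputable def xc69 : XT := (XT.nd (nat_lit 1872) (nat_lit 532) (nat_lit 0) (XT.nd (nat_lit 936) (nat_lit 608) (nat_lit 0) (XT.nd (nat_lit 468) (nat_lit 380) (nat_lit 0) (XT.nd (nat_lit 234) (nat_lit 228) (nat_lit 0) (XT.nd (nat_lit 78) (nat_lit 228) (nat_lit 0) (XT.lf (nat_lit 0) (nat_lit 20093789383) (nat_lit 228) (nat_lit 27427777752) (nat_lit 76) (nat_lit 12418000883) (nat_lit 29) (nat_lit 5) (nat_lit 32) (nat_lit 5) (nat_lit 30) (nat_lit 4) (nat_lit 389) (nat_lit 352) (nat_lit 279)) (XT.nd (nat_lit 78) (nat_lit 152) (nat_lit 0) (XT.lf (nat_lit 0) (nat_lit 19626559853) (nat_lit 76) (nat_lit 23429601633) (nat_lit 152) (nat_lit 20343578588) (nat_lit 28) (nat_lit 5) (nat_lit 29) (nat_lit 5) (nat_lit 30) (nat_lit 4) (nat_lit 390) (nat_lit 352) (nat_lit 278)) (XT.lf (nat_lit 0) (nat_lit 1285523892) (nat_lit 152) (nat_lit 62751079983) (nat_lit 76) (nat_lit 3070076669) (nat_lit 26) (nat_lit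 5) (nat_lit 28) (nat_lit 5) (nat_lit 27) (nat_lit 4) (nat_lit 391) (nat_lit 352) (nat_lit 277)))) (XT.nd (nat_lit 78) (nat_lit 228) (nat_lit 0) (XT.lf (nat_lit 0) (nat_lit 25098082642) (nat_lit 152) (nat_lit 13950460621) (nat_lit 76) (nat_lit 31986666746) (nat_lit 26) (nat_lit 5) (nat_lit 28) (nat_lit 5) (nat_lit 27) (nat_lit 4) (nat_lit 392) (nat_lit 352) (nat_lit 276)) (XT.nd (nat_lit 78) (nat_lit 152) (nat_lit 0) (XT.lf (nat_lit 0) (nat_lit 40011087443) (nat_lit 76) (nat_lit 11416533583) (nat_lit 152) (nat_lit 23819804109) (nat_lit 25) (nat_lit 5) (nat_lit 26) (nat_lit 5) (nat_lit 27) (nat_lit 4) (nat_lit 393) (nat_lit 352) (nat_lit 275)) (XT.lf (nat_lit 0) (nat_lit 902079308) (nat_lit 152) (nat_lit 60463598210) (nat_lit 76) (nat_lit 18389023752) (nat_lit 23) (nat_lit 5) (nat_lit 25) (nat_lit 5) (nat_lit 24) (nat_lit 4) (nat_lit 394) (nat_lit 352) (nat_lit 274))))) (XT.nd (nat_lit 234)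 (nat_lit 228) (nat_lit 0) (XT.nd (nat_lit 78) (nat_lit 152) (nat_lit 0) (XT.lf (nat_lit 0) (nat_lit 27582783050) (nat_lit 152) (nat_lit 5779591313) (nat_lit 76) (nat_lit 51199882399) (nat_lit 23) (nat_lit 5) (nat_lit 25) (nat_lit 5) (nat_lit 24) (nat_lit 4) (nat_lit 395) (nat_lit 352) (nat_lit 273)) (XT.nd (nat_lit 78) (nat_lit 76) (nat_lit 0) (XT.lf (nat_lit 0) (nat_lit 55019236376) (nat_lit 76) (nat_lit 2226676611) (nat_lit 152) (nat_lit 32466106766) (nat_lit 22) (nat_lit 5) (nat_lit 23) (nat_lit 5) (nat_lit 24) (nat_lit 4) (nat_lit 396) (nat_lit 352) (nat_lit 272)) (XT.lf (nat_lit 0) (nat_lit 25937568162) (nat_lit 76) (nat_lit 64331374712) (nat_lit 76) (nat_lit 4955479870) (nat_lit 21) (nat_lit 4) (nat_lit 22) (nat_lit 5) (nat_lit 22) (nat_lit 4) (nat_lit 397) (nat_lit 352) (nat_lit 271)))) (XT.nd (nat_lit 78) (nat_lit 152) (nat_lit 0) (XT.lf (nat_lit 0) (nat_lit 24605072368) (nat_lit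 152) (nat_lit 8944142285) (nat_lit 76) (nat_lit 67577207977) (nat_lit 20) (nat_lit 5) (nat_lit 22) (nat_lit 5) (nat_lit 21) (nat_lit 4) (nat_lit 398) (nat_lit 352) (nat_lit 270)) (XT.nd (nat_lit 78) (nat_lit 76) (nat_lit 0) (XT.lf (nat_lit 0) (nat_lit 57266130968) (nat_lit 152) (nat_lit 49483125505) (nat_lit 0) (nat_lit 701801436) (nat_lit 19) (nat_lit 5) (nat_lit 21) (nat_lit 4) (nat_lit 19) (nat_lit 4) (nat_lit 399) (nat_lit 352) (nat_lit 269)) (XT.lf (nat_lit 0) (nat_lit 16211238734) (nat_lit 76) (nat_lit 77296710770) (nat_lit 76) (nat_lit 20725321830) (nat_lit 18) (nat_lit 4) (nat_lit 19) (nat_lit 5) (nat_lit 19) (nat_lit 4) (nat_lit 400) (nat_lit 352) (nat_lit 268)))))) (XT.nd (nat_lit 468) (nat_lit 228) (nat_lit 0) (XT.nd (nat_lit 234) (nat_lit 228) (nat_lit 0) (XT.nd (nat_lit 78) (nat_lit 76) (nat_lit 0) (XT.lf (nat_lit 0) (nat_lit 11603154210) (nat_lit 152) (nat_lit 32791459297) (nat_lit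 76) (nat_lit 77111436893) (nat_lit 17) (nat_lit 5) (nat_lit 19) (nat_lit 5) (nat_lit 18) (nat_lit 4) (nat_lit 401) (nat_lit 352) (nat_lit 267)) (XT.nd (nat_lit 78) (nat_lit 0) (nat_lit 0) (XT.lf (nat_lit 0) (nat_lit 38525041226) (nat_lit 76) (nat_lit 7869602168) (nat_lit 152) (nat_lit 82918878847) (nat_lit 16) (nat_lit 5) (nat_lit 17) (nat_lit 5) (nat_lit 18) (nat_lit 4) (nat_lit 402) (nat_lit 352) (nat_lit 266)) (XT.lf (nat_lit 0) (nat_lit 85034953355) (nat_lit 152) (nat_lit 21517250589) (nat_lit 0) (nat_lit 31140113623) (nat_lit 16) (nat_lit 5) (nat_lit 18) (nat_lit 4) (nat_lit 16) (nat_lit 4) (nat_lit 403) (nat_lit 352) (nat_lit 265)))) (XT.nd (nat_lit 78) (nat_lit 152) (nat_lit 0) (XT.lf (nat_lit 0) (nat_lit 54905794622) (nat_lit 76) (nat_lit 72843140904) (nat_lit 76) (nat_lit 18943359386) (nat_lit 15) (nat_lit 4) (nat_lit 16) (nat_lit 5) (nat_lit 16) (nat_lit 4) (nat_lit 404) (nat_lit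 352) (nat_lit 264)) (XT.nd (nat_lit 78) (nat_lit 76) (nat_lit 0) (XT.lf (nat_lit 0) (nat_lit 17282387224) (nat_lit 152) (nat_lit 18475463436) (nat_lit 76) (nat_lit 120622099465) (nat_lit 14) (nat_lit 5) (nat_lit 16) (nat_lit 5) (nat_lit 15) (nat_lit 4) (nat_lit 405) (nat_lit 352) (nat_lit 263)) (XT.lf (nat_lit 0) (nat_lit 56806480346) (nat_lit 152) (nat_lit 104502449974) (nat_lit 0) (nat_lit 5464962221) (nat_lit 13) (nat_lit 5) (nat_lit 15) (nat_lit 4) (nat_lit 13) (nat_lit 4) (nat_lit 406) (nat_lit 352) (nat_lit 262))))) (XT.nd (nat_lit 234) (nat_lit 152) (nat_lit 0) (XT.nd (nat_lit 78) (nat_lit 76) (nat_lit 0) (XT.lf (nat_lit 0) (nat_lit 100416033613) (nat_lit 152) (nat_lit 28466361332) (nat_lit 0) (nat_lit 49070779346) (nat_lit 13) (nat_lit 5) (nat_lit 15) (nat_lit 4) (nat_lit 13) (nat_lit 4) (nat_lit 407) (nat_lit 352) (nat_lit 261)) (XT.nd (nat_lit 78) (nat_lit 0) (nat_lit 0) (XT.lf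 (nat_lit 0) (nat_lit 55414427894) (nat_lit 76) (nat_lit 92959063922) (nat_lit 76) (nat_lit 41610350264) (nat_lit 12) (nat_lit 4) (nat_lit 13) (nat_lit 5) (nat_lit 13) (nat_lit 4) (nat_lit 408) (nat_lit 352) (nat_lit 260)) (XT.lf (nat_lit 0) (nat_lit 147010923135) (nat_lit 76) (nat_lit 53646726158) (nat_lit 76) (nat_lit 2294809360) (nat_lit 12) (nat_lit 4) (nat_lit 13) (nat_lit 5) (nat_lit 13) (nat_lit 4) (nat_lit 409) (nat_lit 352) (nat_lit 259)))) (XT.nd (nat_lit 78) (nat_lit 0) (nat_lit 0) (XT.lf (nat_lit 0) (nat_lit 29275854380) (nat_lit 76) (nat_lit 10056212472) (nat_lit 152) (nat_lit 177572560261) (nat_lit 10) (nat_lit 5) (nat_lit 11) (nat_lit 5) (nat_lit 12) (nat_lit 4) (nat_lit 410) (nat_lit 352) (nat_lit 258)) (XT.nd (nat_lit 78) (nat_lit 0) (nat_lit 0) (XT.lf (nat_lit 0) (nat_lit 85772960637) (nat_lit 152) (nat_lit 109258981336) (nat_lit 0) (nat_lit 36860933166) (nat_lit 10) (nat_lit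 5) (nat_lit 12) (nat_lit 4) (nat_lit 10) (nat_lit 4) (nat_lit 411) (nat_lit 352) (nat_lit 257)) (XT.lf (nat_lit 0) (nat_lit 136093822809) (nat_lit 152) (nat_lit 24798752061) (nat_lit 0) (nat_lit 87179373666) (nat_lit 10) (nat_lit 5) (nat_lit 12) (nat_lit 4) (nat_lit 10) (nat_lit 4) (nat_lit 412) (nat_lit 352) (nat_lit 256))))))) (XT.nd (nat_lit 936) (nat_lit 76) (nat_lit 0) (XT.nd (nat_lit 468) (nat_lit 228) (nat_lit 0) (XT.nd (nat_lit 234) (nat_lit 76) (nat_lit 0) (XT.nd (nat_lit 78) (nat_lit 76) (nat_lit 0) (XT.lf (nat_lit 0) (nat_lit 68605221342) (nat_lit 76) (nat_lit 122901743839) (nat_lit 76) (nat_lit 73985052408) (nat_lit 9) (nat_lit 4) (nat_lit 10) (nat_lit 5) (nat_lit 10) (nat_lit 4) (nat_lit 413) (nat_lit 352) (nat_lit 255)) (XT.nd (nat_lit 78) (nat_lit 76) (nat_lit 0) (XT.lf (nat_lit 0) (nat_lit 170358583781) (nat_lit 76) (nat_lit 81422246384) (nat_lit 76) (nat_lit 32503478760)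 (nat_lit 9) (nat_lit 4) (nat_lit 10) (nat_lit 5) (nat_lit 10) (nat_lit 4) (nat_lit 414) (nat_lit 352) (nat_lit 254)) (XT.lf (nat_lit 0) (nat_lit 11898998456) (nat_lit 152) (nat_lit 24527743189) (nat_lit 76) (nat_lit 268143845651) (nat_lit 8) (nat_lit 5) (nat_lit 10) (nat_lit 5) (nat_lit 9) (nat_lit 4) (nat_lit 415) (nat_lit 352) (nat_lit 253)))) (XT.nd (nat_lit 78) (nat_lit 0) (nat_lit 0) (XT.lf (nat_lit 0) (nat_lit 60096875487) (nat_lit 152) (nat_lit 252783105366) (nat_lit 0) (nat_lit 13504046890) (nat_lit 7) (nat_lit 5) (nat_lit 9) (nat_lit 4) (nat_lit 7) (nat_lit 4) (nat_lit 416) (nat_lit 352) (nat_lit 252)) (XT.nd (nat_lit 78) (nat_lit 0) (nat_lit 0) (XT.lf (nat_lit 0) (nat_lit 113195425414) (nat_lit 152) (nat_lit 170093848966) (nat_lit 0) (nat_lit 66601027151) (nat_lit 7) (nat_lit 5) (nat_lit 9) (nat_lit 4) (nat_lit 7) (nat_lit 4) (nat_lit 417) (nat_lit 352) (nat_lit 251)) (XT.lf (nat_lit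 0) (nat_lit 170538488636) (nat_lit 152) (nat_lit 80796120364) (nat_lit 0) (nat_lit 123942636979) (nat_lit 7) (nat_lit 5) (nat_lit 9) (nat_lit 4) (nat_lit 7) (nat_lit 4) (nat_lit 418) (nat_lit 352) (nat_lit 250))))) (XT.nd (nat_lit 234) (nat_lit 152) (nat_lit 0) (XT.nd (nat_lit 78) (nat_lit 0) (nat_lit 0) (XT.lf (nat_lit 0) (nat_lit 16156356468) (nat_lit 76) (nat_lit 216561765433) (nat_lit 76) (nat_lit 169964568040) (nat_lit 6) (nat_lit 4) (nat_lit 7) (nat_lit 5) (nat_lit 7) (nat_lit 4) (nat_lit 419) (nat_lit 352) (nat_lit 249)) (XT.nd (nat_lit 78) (nat_lit 0) (nat_lit 0) (XT.lf (nat_lit 0) (nat_lit 123744328812) (nat_lit 76) (nat_lit 177532231267) (nat_lit 76) (nat_lit 130933787822) (nat_lit 6) (nat_lit 4) (nat_lit 7) (nat_lit 5) (nat_lit 7) (nat_lit 4) (nat_lit 420) (nat_lit 352) (nat_lit 248)) (XT.lf (nat_lit 0) (nat_lit 239933870395) (nat_lit 76) (nat_lit 135383041766) (nat_lit 76) (nat_lit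 88783444570) (nat_lit 6) (nat_lit 4) (nat_lit 7) (nat_lit 5) (nat_lit 7) (nat_lit 4) (nat_lit 421) (nat_lit 352) (nat_lit 247)))) (XT.nd (nat_lit 78) (nat_lit 152) (nat_lit 0) (XT.lf (nat_lit 0) (nat_lit 365413511835) (nat_lit 76) (nat_lit 89864423956) (nat_lit 76) (nat_lit 43263758472) (nat_lit 6) (nat_lit 4) (nat_lit 7) (nat_lit 5) (nat_lit 7) (nat_lit 4) (nat_lit 422) (nat_lit 352) (nat_lit 246)) (XT.nd (nat_lit 78) (nat_lit 76) (nat_lit 0) (XT.lf (nat_lit 0) (nat_lit 5706339407) (nat_lit 152) (nat_lit 34903658853) (nat_lit 76) (nat_lit 495123857166) (nat_lit 5) (nat_lit 5) (nat_lit 7) (nat_lit 5) (nat_lit 6) (nat_lit 4) (nat_lit 423) (nat_lit 352) (nat_lit 245)) (XT.lf (nat_lit 0) (nat_lit 58459573063) (nat_lit 152) (nat_lit 503261117927) (nat_lit 0) (nat_lit 14076172564) (nat_lit 4) (nat_lit 5) (nat_lit 6) (nat_lit 4) (nat_lit 4) (nat_lit 4) (nat_lit 424) (nat_lit 352) (nat_lit 244))))))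 (XT.nd (nat_lit 468) (nat_lit 0) (nat_lit 0) (XT.nd (nat_lit 234) (nat_lit 76) (nat_lit 0) (XT.nd (nat_lit 78) (nat_lit 0) (nat_lit 0) (XT.lf (nat_lit 0) (nat_lit 116733629030) (nat_lit 152) (nat_lit 429916834374) (nat_lit 0) (nat_lit 72349420872) (nat_lit 4) (nat_lit 5) (nat_lit 6) (nat_lit 4) (nat_lit 4) (nat_lit 4) (nat_lit 425) (nat_lit 352) (nat_lit 243)) (XT.nd (nat_lit 78) (nat_lit 0) (nat_lit 0) (XT.lf (nat_lit 0) (nat_lit 179667608036) (nat_lit 152) (nat_lit 350708986760) (nat_lit 0) (nat_lit 135282652046) (nat_lit 4) (nat_lit 5) (nat_lit 6) (nat_lit 4) (nat_lit 4) (nat_lit 4) (nat_lit 426) (nat_lit 352) (nat_lit 242)) (XT.lf (nat_lit 0) (nat_lit 247634452179) (nat_lit 152) (nat_lit 265168195249) (nat_lit 0) (nat_lit 203248803751) (nat_lit 4) (nat_lit 5) (nat_lit 6) (nat_lit 4) (nat_lit 4) (nat_lit 4) (nat_lit 427) (nat_lit 352) (nat_lit 241)))) (XT.nd (nat_lit 78) (nat_lit 76) (nat_lit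 0) (XT.lf (nat_lit 0) (nat_lit 321036927943) (nat_lit 152) (nat_lit 172787551447) (nat_lit 0) (nat_lit 276650638369) (nat_lit 4) (nat_lit 5) (nat_lit 6) (nat_lit 4) (nat_lit 4) (nat_lit 4) (nat_lit 428) (nat_lit 352) (nat_lit 240)) (XT.nd (nat_lit 78) (nat_lit 76) (nat_lit 0) (XT.lf (nat_lit 0) (nat_lit 400310012961) (nat_lit 152) (nat_lit 73019614500) (nat_lit 0) (nat_lit 355923129734) (nat_lit 4) (nat_lit 5) (nat_lit 6) (nat_lit 4) (nat_lit 4) (nat_lit 4) (nat_lit 429) (nat_lit 352) (nat_lit 239)) (XT.lf (nat_lit 0) (nat_lit 35875058923) (nat_lit 76) (nat_lit 450608524950) (nat_lit 76) (nat_lit 406221092044) (nat_lit 3) (nat_lit 4) (nat_lit 4) (nat_lit 5) (nat_lit 4) (nat_lit 4) (nat_lit 430) (nat_lit 352) (nat_lit 238))))) (XT.nd (nat_lit 47034) (nat_lit 0) (nat_lit 8968) (XT.nd (nat_lit 78) (nat_lit 0) (nat_lit 0) (XT.lf (nat_lit 0) (nat_lit 156086015783) (nat_lit 76) (nat_lit 424735573430)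 (nat_lit 76) (nat_lit 380347631563) (nat_lit 3) (nat_lit 4) (nat_lit 4) (nat_lit 5) (nat_lit 4) (nat_lit 4) (nat_lit 431) (nat_lit 352) (nat_lit 237)) (XT.nd (nat_lit 78) (nat_lit 0) (nat_lit 0) (XT.lf (nat_lit 0) (nat_lit 285911259085) (nat_lit 76) (nat_lit 396794074213) (nat_lit 76) (nat_lit 352405661084) (nat_lit 3) (nat_lit 4) (nat_lit 4) (nat_lit 5) (nat_lit 4) (nat_lit 4) (nat_lit 432) (nat_lit 352) (nat_lit 236)) (XT.lf (nat_lit 0) (nat_lit 426120123602) (nat_lit 76) (nat_lit 366618448043) (nat_lit 76) (nat_lit 322229598561) (nat_lit 3) (nat_lit 4) (nat_lit 4) (nat_lit 5) (nat_lit 4) (nat_lit 4) (nat_lit 433) (nat_lit 352) (nat_lit 235)))) (XT.nd (nat_lit 156) (nat_lit 0) (nat_lit 76) (XT.nd (nat_lit 78) (nat_lit 0) (nat_lit 0) (XT.lf (nat_lit 0) (nat_lit 1654918287) (nat_lit 0) (nat_lit 1654918287) (nat_lit 684) (nat_lit 2403424966) (nat_lit 121) (nat_lit 5) (nat_lit 121) (nat_lit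 3) (nat_lit 130) (nat_lit 3) (nat_lit 353) (nat_lit 353) (nat_lit 314)) (XT.lf (nat_lit 76) (nat_lit 648773766) (nat_lit 0) (nat_lit 7124279231) (nat_lit 760) (nat_lit 4065496092) (nat_lit 122) (nat_lit 5) (nat_lit 121) (nat_lit 5) (nat_lit 131) (nat_lit 5) (nat_lit 354) (nat_lit 353) (nat_lit 313))) (XT.nd (nat_lit 78) (nat_lit 0) (nat_lit 0) (XT.lf (nat_lit 0) (nat_lit 9152821945) (nat_lit 684) (nat_lit 1994692531) (nat_lit 760) (nat_lit 1129377320) (nat_lit 122) (nat_lit 5) (nat_lit 131) (nat_lit 5) (nat_lit 132) (nat_lit 5) (nat_lit 355) (nat_lit 353) (nat_lit 312)) (XT.lf (nat_lit 76) (nat_lit 8025564364) (nat_lit 0) (nat_lit 2788891245) (nat_lit 760) (nat_lit 1927328225) (nat_lit 123) (nat_lit 5) (nat_lit 122) (nat_lit 5) (nat_lit 132) (nat_lit 5) (nat_lit 356) (nat_lit 353) (nat_lit 311))))))))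
noncomputable def xc70 : XT := (XT.nd (nat_lit 1872) (nat_lit 2356) (nat_lit 0) (XT.nd (nat_lit 936) (nat_lit 2432) (nat_lit 0) (XT.nd (nat_lit 468) (nat_lit 1672) (nat_lit 0) (XT.nd (nat_lit 234) (nat_lit 1064) (nat_lit 0) (XT.nd (nat_lit 78) (nat_lit 684) (nat_lit 0) (XT.lf (nat_lit 76) (nat_lit 5712396838) (nat_lit 0) (nat_lit 7049726612) (nat_lit 760) (nat_lit 474140525) (nat_lit 124) (nat_lit 5) (nat_lit 123) (nat_lit 5) (nat_lit 133) (nat_lit 5) (nat_lit 357) (nat_lit 353) (nat_lit 310)) (XT.nd (nat_lit 78) (nat_lit 0) (nat_lit 0) (XT.lf (nat_lit 0) (nat_lit 1212101984) (nat_lit 760) (nat_lit 10427005188) (nat_lit 836) (nat_lit 2122793286) (nat_lit 114) (nat_lit 5) (nat_lit 124) (nat_lit 5) (nat_lit 125) (nat_lit 5) (nat_lit 358) (nat_lit 353) (nat_lit 309)) (XT.lf (nat_lit 76) (nat_lit 856087484) (nat_lit 0) (nat_lit 2365023983) (nat_lit 836) (nat_lit 11097906187) (nat_lit 115) (nat_lit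 5) (nat_lit 114) (nat_lit 5) (nat_lit 125) (nat_lit 5) (nat_lit 359) (nat_lit 353) (nat_lit 308)))) (XT.nd (nat_lit 78) (nat_lit 1140) (nat_lit 0) (XT.lf (nat_lit 0) (nat_lit 5637641310) (nat_lit 760) (nat_lit 1671046662) (nat_lit 76) (nat_lit 7599715525) (nat_lit 115) (nat_lit 5) (nat_lit 125) (nat_lit 5) (nat_lit 116) (nat_lit 5) (nat_lit 360) (nat_lit 353) (nat_lit 307)) (XT.nd (nat_lit 78) (nat_lit 380) (nat_lit 0) (XT.lf (nat_lit 0) (nat_lit 8457119987) (nat_lit 836) (nat_lit 4242622876) (nat_lit 76) (nat_lit 2834752364) (nat_lit 105) (nat_lit 5) (nat_lit 116) (nat_lit 5) (nat_lit 106) (nat_lit 5) (nat_lit 361) (nat_lit 353) (nat_lit 306)) (XT.lf (nat_lit 0) (nat_lit 9267263358) (nat_lit 380) (nat_lit 2482673827) (nat_lit 456) (nat_lit 4448381752) (nat_lit 100) (nat_lit 5) (nat_lit 105) (nat_lit 5) (nat_lit 106) (nat_lit 5) (nat_lit 362) (nat_lit 353) (nat_lit 305))))) (XT.nd (nat_lit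 234) (nat_lit 608) (nat_lit 0) (XT.nd (nat_lit 78) (nat_lit 760) (nat_lit 0) (XT.lf (nat_lit 0) (nat_lit 7143588536) (nat_lit 304) (nat_lit 8436006484) (nat_lit 380) (nat_lit 1322013918) (nat_lit 96) (nat_lit 5) (nat_lit 100) (nat_lit 5) (nat_lit 101) (nat_lit 5) (nat_lit 363) (nat_lit 353) (nat_lit 304)) (XT.nd (nat_lit 78) (nat_lit 304) (nat_lit 0) (XT.lf (nat_lit 0) (nat_lit 2229656330) (nat_lit 456) (nat_lit 12721027359) (nat_lit 76) (nat_lit 2696854699) (nat_lit 90) (nat_lit 5) (nat_lit 96) (nat_lit 5) (nat_lit 91) (nat_lit 5) (nat_lit 364) (nat_lit 353) (nat_lit 303)) (XT.lf (nat_lit 0) (nat_lit 2556481829) (nat_lit 304) (nat_lit 3776001815) (nat_lit 380) (nat_lit 12103933354) (nat_lit 86) (nat_lit 5) (nat_lit 90) (nat_lit 5) (nat_lit 91) (nat_lit 5) (nat_lit 365) (nat_lit 353) (nat_lit 302)))) (XT.nd (nat_lit 78) (nat_lit 304) (nat_lit 0) (XT.lf (nat_lit 0) (nat_lit 54274985) (nat_lit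 304) (nat_lit 11024926436) (nat_lit 380) (nat_lit 8193444819) (nat_lit 82) (nat_lit 5) (nat_lit 86) (nat_lit 5) (nat_lit 87) (nat_lit 5) (nat_lit 366) (nat_lit 353) (nat_lit 301)) (XT.nd (nat_lit 78) (nat_lit 304) (nat_lit 0) (XT.lf (nat_lit 0) (nat_lit 16526203305) (nat_lit 380) (nat_lit 2460543610) (nat_lit 76) (nat_lit 1173021384) (nat_lit 82) (nat_lit 5) (nat_lit 87) (nat_lit 5) (nat_lit 83) (nat_lit 5) (nat_lit 367) (nat_lit 353) (nat_lit 300)) (XT.lf (nat_lit 0) (nat_lit 1655772739) (nat_lit 304) (nat_lit 5206844033) (nat_lit 76) (nat_lit 14233955149) (nat_lit 78) (nat_lit 5) (nat_lit 82) (nat_lit 5) (nat_lit 79) (nat_lit 5) (nat_lit 368) (nat_lit 353) (nat_lit 299)))))) (XT.nd (nat_lit 468) (nat_lit 988) (nat_lit 0) (XT.nd (nat_lit 234) (nat_lit 684) (nat_lit 0) (XT.nd (nat_lit 78) (nat_lit 456) (nat_lit 0) (XT.lf (nat_lit 0) (nat_lit 7574203094) (nat_lit 380) (nat_lit 8162298502)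 (nat_lit 76) (nat_lit 6352195313) (nat_lit 74) (nat_lit 5) (nat_lit 79) (nat_lit 5) (nat_lit 75) (nat_lit 5) (nat_lit 369) (nat_lit 353) (nat_lit 298)) (XT.nd (nat_lit 78) (nat_lit 228) (nat_lit 0) (XT.lf (nat_lit 0) (nat_lit 11839793406) (nat_lit 228) (nat_lit 2487188332) (nat_lit 304) (nat_lit 8815182957) (nat_lit 71) (nat_lit 5) (nat_lit 74) (nat_lit 5) (nat_lit 75) (nat_lit 5) (nat_lit 370) (nat_lit 353) (nat_lit 297)) (XT.lf (nat_lit 0) (nat_lit 9537023441) (nat_lit 228) (nat_lit 12530627990) (nat_lit 304) (nat_lit 2189890303) (nat_lit 68) (nat_lit 5) (nat_lit 71) (nat_lit 5) (nat_lit 72) (nat_lit 5) (nat_lit 371) (nat_lit 353) (nat_lit 296)))) (XT.nd (nat_lit 78) (nat_lit 380) (nat_lit 0) (XT.lf (nat_lit 0) (nat_lit 5159629668) (nat_lit 304) (nat_lit 18415373960) (nat_lit 76) (nat_lit 1865626135) (nat_lit 64) (nat_lit 5) (nat_lit 68) (nat_lit 5) (nat_lit 65) (nat_lit 5) (nat_lit 372)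 (nat_lit 353) (nat_lit 295)) (XT.nd (nat_lit 78) (nat_lit 152) (nat_lit 0) (XT.lf (nat_lit 0) (nat_lit 4171290482) (nat_lit 228) (nat_lit 9359341335) (nat_lit 304) (nat_lit 13160438310) (nat_lit 61) (nat_lit 5) (nat_lit 64) (nat_lit 5) (nat_lit 65) (nat_lit 5) (nat_lit 373) (nat_lit 353) (nat_lit 294)) (XT.lf (nat_lit 0) (nat_lit 1093159677) (nat_lit 152) (nat_lit 21888278090) (nat_lit 228) (nat_lit 5039613314) (nat_lit 59) (nat_lit 5) (nat_lit 61) (nat_lit 5) (nat_lit 62) (nat_lit 5) (nat_lit 374) (nat_lit 353) (nat_lit 293))))) (XT.nd (nat_lit 234) (nat_lit 532) (nat_lit 0) (XT.nd (nat_lit 78) (nat_lit 380) (nat_lit 0) (XT.lf (nat_lit 0) (nat_lit 4142377094) (nat_lit 228) (nat_lit 2300105403) (nat_lit 76) (nat_lit 22985500183) (nat_lit 58) (nat_lit 5) (nat_lit 61) (nat_lit 5) (nat_lit 59) (nat_lit 5) (nat_lit 375) (nat_lit 353) (nat_lit 292)) (XT.nd (nat_lit 78) (nat_lit 152) (nat_lit 0)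 (XT.lf (nat_lit 0) (nat_lit 14418402451) (nat_lit 304) (nat_lit 6116254602) (nat_lit 76) (nat_lit 10381888387) (nat_lit 55) (nat_lit 5) (nat_lit 59) (nat_lit 5) (nat_lit 56) (nat_lit 5) (nat_lit 376) (nat_lit 353) (nat_lit 291)) (XT.lf (nat_lit 0) (nat_lit 22194151625) (nat_lit 152) (nat_lit 3795534964) (nat_lit 228) (nat_lit 6510856523) (nat_lit 53) (nat_lit 5) (nat_lit 55) (nat_lit 5) (nat_lit 56) (nat_lit 5) (nat_lit 377) (nat_lit 353) (nat_lit 290)))) (XT.nd (nat_lit 78) (nat_lit 304) (nat_lit 0) (XT.lf (nat_lit 0) (nat_lit 4756826587) (nat_lit 228) (nat_lit 15122942937) (nat_lit 76) (nat_lit 14297248528) (nat_lit 50) (nat_lit 5) (nat_lit 53) (nat_lit 5) (nat_lit 51) (nat_lit 5) (nat_lit 378) (nat_lit 353) (nat_lit 289)) (XT.nd (nat_lit 78) (nat_lit 152) (nat_lit 0) (XT.lf (nat_lit 0) (nat_lit 15435999483) (nat_lit 152) (nat_lit 1731344531) (nat_lit 228) (nat_lit 18791460913) (nat_lit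 48) (nat_lit 5) (nat_lit 50) (nat_lit 5) (nat_lit 51) (nat_lit 5) (nat_lit 379) (nat_lit 353) (nat_lit 288)) (XT.lf (nat_lit 0) (nat_lit 11149864099) (nat_lit 152) (nat_lit 20121508308) (nat_lit 228) (nat_lit 6576735466) (nat_lit 46) (nat_lit 5) (nat_lit 48) (nat_lit 5) (nat_lit 49) (nat_lit 5) (nat_lit 380) (nat_lit 353) (nat_lit 287))))))) (XT.nd (nat_lit 936) (nat_lit 836) (nat_lit 0) (XT.nd (nat_lit 468) (nat_lit 760) (nat_lit 0) (XT.nd (nat_lit 234) (nat_lit 380) (nat_lit 0) (XT.nd (nat_lit 78) (nat_lit 152) (nat_lit 0) (XT.lf (nat_lit 0) (nat_lit 6247529396) (nat_lit 152) (nat_lit 626528794) (nat_lit 228) (nat_lit 32985807773) (nat_lit 43) (nat_lit 5) (nat_lit 45) (nat_lit 5) (nat_lit 46) (nat_lit 5) (nat_lit 381) (nat_lit 353) (nat_lit 286)) (XT.nd (nat_lit 78) (nat_lit 0) (nat_lit 0) (XT.lf (nat_lit 0) (nat_lit 313679501) (nat_lit 152) (nat_lit 21637710524) (nat_lit 228) (nat_lit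 20036744724) (nat_lit 41) (nat_lit 5) (nat_lit 43) (nat_lit 5) (nat_lit 44) (nat_lit 5) (nat_lit 382) (nat_lit 353) (nat_lit 285)) (XT.lf (nat_lit 0) (nat_lit 38112596899) (nat_lit 152) (nat_lit 700404388) (nat_lit 228) (nat_lit 5444764094) (nat_lit 41) (nat_lit 5) (nat_lit 43) (nat_lit 5) (nat_lit 44) (nat_lit 5) (nat_lit 383) (nat_lit 353) (nat_lit 284)))) (XT.nd (nat_lit 78) (nat_lit 228) (nat_lit 0) (XT.lf (nat_lit 0) (nat_lit 10837429042) (nat_lit 152) (nat_lit 13933100933) (nat_lit 76) (nat_lit 21887739675) (nat_lit 39) (nat_lit 5) (nat_lit 41) (nat_lit 5) (nat_lit 40) (nat_lit 5) (nat_lit 384) (nat_lit 353) (nat_lit 283)) (XT.nd (nat_lit 78) (nat_lit 76) (nat_lit 0) (XT.lf (nat_lit 0) (nat_lit 26390176065) (nat_lit 152) (nat_lit 2360315127) (nat_lit 228) (nat_lit 20469911641) (nat_lit 37) (nat_lit 5) (nat_lit 39) (nat_lit 5) (nat_lit 40) (nat_lit 5) (nat_lit 385) (nat_lit 353) (nat_lit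 282)) (XT.lf (nat_lit 0) (nat_lit 18687008849) (nat_lit 76) (nat_lit 30273515545) (nat_lit 152) (nat_lit 2983789743) (nat_lit 36) (nat_lit 5) (nat_lit 37) (nat_lit 5) (nat_lit 38) (nat_lit 4) (nat_lit 386) (nat_lit 353) (nat_lit 281))))) (XT.nd (nat_lit 234) (nat_lit 456) (nat_lit 0) (XT.nd (nat_lit 78) (nat_lit 76) (nat_lit 0) (XT.lf (nat_lit 0) (nat_lit 9455813049) (nat_lit 152) (nat_lit 6513061075) (nat_lit 228) (nat_lit 38876024884) (nat_lit 33) (nat_lit 5) (nat_lit 35) (nat_lit 5) (nat_lit 36) (nat_lit 5) (nat_lit 387) (nat_lit 353) (nat_lit 280)) (XT.nd (nat_lit 78) (nat_lit 76) (nat_lit 0) (XT.lf (nat_lit 0) (nat_lit 37207874534) (nat_lit 228) (nat_lit 1559996938) (nat_lit 76) (nat_lit 19163483503) (nat_lit 33) (nat_lit 5) (nat_lit 36) (nat_lit 5) (nat_lit 34) (nat_lit 4) (nat_lit 388) (nat_lit 353) (nat_lit 279)) (XT.lf (nat_lit 0) (nat_lit 47150394867) (nat_lit 76) (nat_lit 13828134921)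 (nat_lit 152) (nat_lit 244573743) (nat_lit 32) (nat_lit 5) (nat_lit 33) (nat_lit 5) (nat_lit 34) (nat_lit 4) (nat_lit 389) (nat_lit 353) (nat_lit 278)))) (XT.nd (nat_lit 78) (nat_lit 228) (nat_lit 0) (XT.lf (nat_lit 0) (nat_lit 21966079501) (nat_lit 228) (nat_lit 29134872083) (nat_lit 76) (nat_lit 13620493472) (nat_lit 29) (nat_lit 5) (nat_lit 32) (nat_lit 5) (nat_lit 30) (nat_lit 4) (nat_lit 390) (nat_lit 353) (nat_lit 277)) (XT.nd (nat_lit 78) (nat_lit 152) (nat_lit 0) (XT.lf (nat_lit 0) (nat_lit 21662642546) (nat_lit 76) (nat_lit 25090459885) (nat_lit 152) (nat_lit 21705949026) (nat_lit 28) (nat_lit 5) (nat_lit 29) (nat_lit 5) (nat_lit 30) (nat_lit 4) (nat_lit 391) (nat_lit 353) (nat_lit 276)) (XT.lf (nat_lit 0) (nat_lit 1636338301) (nat_lit 152) (nat_lit 67308290620) (nat_lit 76) (nat_lit 3518147389) (nat_lit 26) (nat_lit 5) (nat_lit 28) (nat_lit 5) (nat_lit 27) (nat_lit 4) (nat_lit 392)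 (nat_lit 353) (nat_lit 275)))))) (XT.nd (nat_lit 468) (nat_lit 456) (nat_lit 0) (XT.nd (nat_lit 234) (nat_lit 152) (nat_lit 0) (XT.nd (nat_lit 78) (nat_lit 228) (nat_lit 0) (XT.lf (nat_lit 0) (nat_lit 27335533417) (nat_lit 152) (nat_lit 14637908802) (nat_lit 76) (nat_lit 34733067295) (nat_lit 26) (nat_lit 5) (nat_lit 28) (nat_lit 5) (nat_lit 27) (nat_lit 4) (nat_lit 393) (nat_lit 353) (nat_lit 274)) (XT.nd (nat_lit 78) (nat_lit 152) (nat_lit 0) (XT.lf (nat_lit 0) (nat_lit 43621937166) (nat_lit 76) (nat_lit 12138890657) (nat_lit 152) (nat_lit 25495407127) (nat_lit 25) (nat_lit 5) (nat_lit 26) (nat_lit 5) (nat_lit 27) (nat_lit 4) (nat_lit 394) (nat_lit 353) (nat_lit 273)) (XT.lf (nat_lit 0) (nat_lit 1189525977) (nat_lit 152) (nat_lit 64893736498) (nat_lit 76) (nat_lit 20041020598) (nat_lit 23) (nat_lit 5) (nat_lit 25) (nat_lit 5) (nat_lit 24) (nat_lit 4) (nat_lit 395) (nat_lit 353) (nat_lit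 272)))) (XT.nd (nat_lit 78) (nat_lit 152) (nat_lit 0) (XT.lf (nat_lit 0) (nat_lit 29988739328) (nat_lit 152) (nat_lit 5865153462) (nat_lit 76) (nat_lit 55463349793) (nat_lit 23) (nat_lit 5) (nat_lit 25) (nat_lit 5) (nat_lit 24) (nat_lit 4) (nat_lit 396) (nat_lit 353) (nat_lit 271)) (XT.nd (nat_lit 78) (nat_lit 76) (nat_lit 0) (XT.lf (nat_lit 0) (nat_lit 59781204950) (nat_lit 76) (nat_lit 2234576573) (nat_lit 152) (nat_lit 34863664074) (nat_lit 22) (nat_lit 5) (nat_lit 23) (nat_lit 5) (nat_lit 24) (nat_lit 4) (nat_lit 397) (nat_lit 353) (nat_lit 270)) (XT.lf (nat_lit 0) (nat_lit 28363918444) (nat_lit 76) (nat_lit 69310593235) (nat_lit 76) (nat_lit 5158638177) (nat_lit 21) (nat_lit 4) (nat_lit 22) (nat_lit 5) (nat_lit 22) (nat_lit 4) (nat_lit 398) (nat_lit 353) (nat_lit 269))))) (XT.nd (nat_lit 234) (nat_lit 228) (nat_lit 0) (XT.nd (nat_lit 78) (nat_lit 152) (nat_lit 0) (XT.lf (nat_lit 0) (nat_lit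 26746713261) (nat_lit 152) (nat_lit 9328605249) (nat_lit 76) (nat_lit 73132534977) (nat_lit 20) (nat_lit 5) (nat_lit 22) (nat_lit 5) (nat_lit 21) (nat_lit 4) (nat_lit 399) (nat_lit 353) (nat_lit 268)) (XT.nd (nat_lit 78) (nat_lit 76) (nat_lit 0) (XT.lf (nat_lit 0) (nat_lit 62015131330) (nat_lit 152) (nat_lit 53119170711) (nat_lit 0) (nat_lit 904435379) (nat_lit 19) (nat_lit 5) (nat_lit 21) (nat_lit 4) (nat_lit 19) (nat_lit 4) (nat_lit 400) (nat_lit 353) (nat_lit 267)) (XT.lf (nat_lit 0) (nat_lit 17816722655) (nat_lit 76) (nat_lit 83331967614) (nat_lit 76) (nat_lit 22215219358) (nat_lit 18) (nat_lit 4) (nat_lit 19) (nat_lit 5) (nat_lit 19) (nat_lit 4) (nat_lit 401) (nat_lit 353) (nat_lit 266)))) (XT.nd (nat_lit 156) (nat_lit 76) (nat_lit 0) (XT.nd (nat_lit 78) (nat_lit 76) (nat_lit 0) (XT.lf (nat_lit 0) (nat_lit 12682098274) (nat_lit 152) (nat_lit 35124050779) (nat_lit 76) (nat_lit 83412834767)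 (nat_lit 17) (nat_lit 5) (nat_lit 19) (nat_lit 5) (nat_lit 18) (nat_lit 4) (nat_lit 402) (nat_lit 353) (nat_lit 265)) (XT.lf (nat_lit 0) (nat_lit 41885135221) (nat_lit 76) (nat_lit 8364950797) (nat_lit 152) (nat_lit 89401309605) (nat_lit 16) (nat_lit 5) (nat_lit 17) (nat_lit 5) (nat_lit 18) (nat_lit 4) (nat_lit 403) (nat_lit 353) (nat_lit 264))) (XT.nd (nat_lit 78) (nat_lit 76) (nat_lit 0) (XT.lf (nat_lit 0) (nat_lit 91972903972) (nat_lit 152) (nat_lit 22976405127) (nat_lit 0) (nat_lit 33751622418) (nat_lit 16) (nat_lit 5) (nat_lit 18) (nat_lit 4) (nat_lit 16) (nat_lit 4) (nat_lit 404) (nat_lit 353) (nat_lit 263)) (XT.lf (nat_lit 0) (nat_lit 59549087700) (nat_lit 76) (nat_lit 78548821734) (nat_lit 76) (nat_lit 20323303395) (nat_lit 15) (nat_lit 4) (nat_lit 16) (nat_lit 5) (nat_lit 16) (nat_lit 4) (nat_lit 405) (nat_lit 353) (nat_lit 262))))))))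
noncomputable def xc71 : XT := (XT.nd (nat_lit 1872) (nat_lit 76) (nat_lit 0) (XT.nd (nat_lit 936) (nat_lit 228) (nat_lit 0) (XT.nd (nat_lit 468) (nat_lit 228) (nat_lit 0) (XT.nd (nat_lit 234) (nat_lit 228) (nat_lit 0) (XT.nd (nat_lit 78) (nat_lit 76) (nat_lit 0) (XT.lf (nat_lit 0) (nat_lit 18786447742) (nat_lit 152) (nat_lit 19717223415) (nat_lit 76) (nat_lit 130380590281) (nat_lit 14) (nat_lit 5) (nat_lit 16) (nat_lit 5) (nat_lit 15) (nat_lit 4) (nat_lit 406) (nat_lit 353) (nat_lit 261)) (XT.nd (nat_lit 78) (nat_lit 0) (nat_lit 0) (XT.lf (nat_lit 0) (nat_lit 61468716739) (nat_lit 152) (nat_lit 112632544321) (nat_lit 0) (nat_lit 6008646598) (nat_lit 13) (nat_lit 5) (nat_lit 15) (nat_lit 4) (nat_lit 13) (nat_lit 4) (nat_lit 407) (nat_lit 353) (nat_lit 260)) (XT.lf (nat_lit 0) (nat_lit 108558314418) (nat_lit 152) (nat_lit 30530613154) (nat_lit 0) (nat_lit 53095041137) (nat_lit 13) (nat_lit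 5) (nat_lit 15) (nat_lit 4) (nat_lit 13) (nat_lit 4) (nat_lit 408) (nat_lit 353) (nat_lit 259)))) (XT.nd (nat_lit 78) (nat_lit 152) (nat_lit 0) (XT.lf (nat_lit 0) (nat_lit 60051380009) (nat_lit 76) (nat_lit 100296097190) (nat_lit 76) (nat_lit 44829858039) (nat_lit 12) (nat_lit 4) (nat_lit 13) (nat_lit 5) (nat_lit 13) (nat_lit 4) (nat_lit 409) (nat_lit 353) (nat_lit 258)) (XT.nd (nat_lit 78) (nat_lit 152) (nat_lit 0) (XT.lf (nat_lit 0) (nat_lit 158960498730) (nat_lit 76) (nat_lit 57846156986) (nat_lit 76) (nat_lit 2377171659) (nat_lit 12) (nat_lit 4) (nat_lit 13) (nat_lit 5) (nat_lit 13) (nat_lit 4) (nat_lit 410) (nat_lit 353) (nat_lit 257)) (XT.lf (nat_lit 0) (nat_lit 31801530193) (nat_lit 76) (nat_lit 10770693355) (nat_lit 152) (nat_lit 191680086894) (nat_lit 10) (nat_lit 5) (nat_lit 11) (nat_lit 5) (nat_lit 12) (nat_lit 4) (nat_lit 411) (nat_lit 353) (nat_lit 256))))) (XT.nd (nat_lit 234)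 (nat_lit 152) (nat_lit 0) (XT.nd (nat_lit 78) (nat_lit 76) (nat_lit 0) (XT.lf (nat_lit 0) (nat_lit 92722757444) (nat_lit 152) (nat_lit 117826654566) (nat_lit 0) (nat_lit 39890488410) (nat_lit 10) (nat_lit 5) (nat_lit 12) (nat_lit 4) (nat_lit 10) (nat_lit 4) (nat_lit 412) (nat_lit 353) (nat_lit 255)) (XT.nd (nat_lit 78) (nat_lit 76) (nat_lit 0) (XT.lf (nat_lit 0) (nat_lit 147062773037) (nat_lit 152) (nat_lit 26622425118) (nat_lit 0) (nat_lit 94228427810) (nat_lit 10) (nat_lit 5) (nat_lit 12) (nat_lit 4) (nat_lit 10) (nat_lit 4) (nat_lit 413) (nat_lit 353) (nat_lit 254)) (XT.lf (nat_lit 0) (nat_lit 74246902883) (nat_lit 76) (nat_lit 132658423876) (nat_lit 76) (nat_lit 79822156247) (nat_lit 9) (nat_lit 4) (nat_lit 10) (nat_lit 5) (nat_lit 10) (nat_lit 4) (nat_lit 414) (nat_lit 353) (nat_lit 253)))) (XT.nd (nat_lit 78) (nat_lit 152) (nat_lit 0) (XT.lf (nat_lit 0) (nat_lit 184129181440) (nat_lit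 76) (nat_lit 87866156215) (nat_lit 76) (nat_lit 35028108585) (nat_lit 9) (nat_lit 4) (nat_lit 10) (nat_lit 5) (nat_lit 10) (nat_lit 4) (nat_lit 415) (nat_lit 353) (nat_lit 252)) (XT.nd (nat_lit 78) (nat_lit 76) (nat_lit 0) (XT.lf (nat_lit 0) (nat_lit 12918721344) (nat_lit 152) (nat_lit 26356317023) (nat_lit 76) (nat_lit 289657801049) (nat_lit 8) (nat_lit 5) (nat_lit 10) (nat_lit 5) (nat_lit 9) (nat_lit 4) (nat_lit 416) (nat_lit 353) (nat_lit 251)) (XT.lf (nat_lit 0) (nat_lit 64970386554) (nat_lit 152) (nat_lit 272875657622) (nat_lit 0) (nat_lit 14645413370) (nat_lit 7) (nat_lit 5) (nat_lit 9) (nat_lit 4) (nat_lit 7) (nat_lit 4) (nat_lit 417) (nat_lit 353) (nat_lit 250)))))) (XT.nd (nat_lit 468) (nat_lit 152) (nat_lit 0) (XT.nd (nat_lit 234) (nat_lit 0) (nat_lit 0) (XT.nd (nat_lit 78) (nat_lit 76) (nat_lit 0) (XT.lf (nat_lit 0) (nat_lit 122311949288) (nat_lit 152) (nat_lit 183580897464) (nat_lit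 0) (nat_lit 71985630368) (nat_lit 7) (nat_lit 5) (nat_lit 9) (nat_lit 4) (nat_lit 7) (nat_lit 4) (nat_lit 418) (nat_lit 353) (nat_lit 249)) (XT.nd (nat_lit 78) (nat_lit 76) (nat_lit 0) (XT.lf (nat_lit 0) (nat_lit 184237947209) (nat_lit 152) (nat_lit 87148273494) (nat_lit 0) (nat_lit 133910382238) (nat_lit 7) (nat_lit 5) (nat_lit 9) (nat_lit 4) (nat_lit 7) (nat_lit 4) (nat_lit 419) (nat_lit 353) (nat_lit 248)) (XT.lf (nat_lit 0) (nat_lit 17555554245) (nat_lit 76) (nat_lit 233833886352) (nat_lit 76) (nat_lit 183505167629) (nat_lit 6) (nat_lit 4) (nat_lit 7) (nat_lit 5) (nat_lit 7) (nat_lit 4) (nat_lit 420) (nat_lit 353) (nat_lit 247)))) (XT.nd (nat_lit 78) (nat_lit 0) (nat_lit 0) (XT.lf (nat_lit 0) (nat_lit 133742661468) (nat_lit 76) (nat_lit 191685902068) (nat_lit 76) (nat_lit 141356115057) (nat_lit 6) (nat_lit 4) (nat_lit 7) (nat_lit 5) (nat_lit 7) (nat_lit 4) (nat_lit 421) (nat_lit 353)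 (nat_lit 246)) (XT.nd (nat_lit 78) (nat_lit 0) (nat_lit 0) (XT.lf (nat_lit 0) (nat_lit 259220048870) (nat_lit 76) (nat_lit 146168400199) (nat_lit 76) (nat_lit 95837624033) (nat_lit 6) (nat_lit 4) (nat_lit 7) (nat_lit 5) (nat_lit 7) (nat_lit 4) (nat_lit 422) (nat_lit 353) (nat_lit 245)) (XT.lf (nat_lit 0) (nat_lit 394731286156) (nat_lit 76) (nat_lit 97011647402) (nat_lit 76) (nat_lit 46679955351) (nat_lit 6) (nat_lit 4) (nat_lit 7) (nat_lit 5) (nat_lit 7) (nat_lit 4) (nat_lit 423) (nat_lit 353) (nat_lit 244))))) (XT.nd (nat_lit 234) (nat_lit 0) (nat_lit 0) (XT.nd (nat_lit 78) (nat_lit 76) (nat_lit 0) (XT.lf (nat_lit 0) (nat_lit 6203093409) (nat_lit 152) (nat_lit 37616198603) (nat_lit 76) (nat_lit 534771257081) (nat_lit 5) (nat_lit 5) (nat_lit 7) (nat_lit 5) (nat_lit 6) (nat_lit 4) (nat_lit 424) (nat_lit 353) (nat_lit 243)) (XT.nd (nat_lit 78) (nat_lit 0) (nat_lit 0) (XT.lf (nat_lit 0) (nat_lit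 63175386201) (nat_lit 152) (nat_lit 543444385929) (nat_lit 0) (nat_lit 15238885899) (nat_lit 4) (nat_lit 5) (nat_lit 6) (nat_lit 4) (nat_lit 4) (nat_lit 4) (nat_lit 425) (nat_lit 353) (nat_lit 242)) (XT.lf (nat_lit 0) (nat_lit 126108474253) (nat_lit 152) (nat_lit 464238309426) (nat_lit 0) (nat_lit 78171281514) (nat_lit 4) (nat_lit 5) (nat_lit 6) (nat_lit 4) (nat_lit 4) (nat_lit 4) (nat_lit 426) (nat_lit 353) (nat_lit 241)))) (XT.nd (nat_lit 78) (nat_lit 0) (nat_lit 0) (XT.lf (nat_lit 0) (nat_lit 194074493439) (nat_lit 152) (nat_lit 378699157833) (nat_lit 0) (nat_lit 146136659554) (nat_lit 4) (nat_lit 5) (nat_lit 6) (nat_lit 4) (nat_lit 4) (nat_lit 4) (nat_lit 427) (nat_lit 353) (nat_lit 240)) (XT.nd (nat_lit 78) (nat_lit 0) (nat_lit 0) (XT.lf (nat_lit 0) (nat_lit 267476205353) (nat_lit 152) (nat_lit 286320032473) (nat_lit 0) (nat_lit 219537777815) (nat_lit 4) (nat_lit 5) (nat_lit 6) (nat_lit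 4) (nat_lit 4) (nat_lit 4) (nat_lit 428) (nat_lit 353) (nat_lit 239)) (XT.lf (nat_lit 0) (nat_lit 346748583104) (nat_lit 152) (nat_lit 186553501492) (nat_lit 0) (nat_lit 298809605887) (nat_lit 4) (nat_lit 5) (nat_lit 6) (nat_lit 4) (nat_lit 4) (nat_lit 4) (nat_lit 429) (nat_lit 353) (nat_lit 238))))))) (XT.nd (nat_lit 47814) (nat_lit 0) (nat_lit 4408) (XT.nd (nat_lit 47346) (nat_lit 0) (nat_lit 8360) (XT.nd (nat_lit 234) (nat_lit 0) (nat_lit 0) (XT.nd (nat_lit 78) (nat_lit 76) (nat_lit 0) (XT.lf (nat_lit 0) (nat_lit 432361388929) (nat_lit 152) (nat_lit 78808355817) (nat_lit 0) (nat_lit 384421902750) (nat_lit 4) (nat_lit 5) (nat_lit 6) (nat_lit 4) (nat_lit 4) (nat_lit 4) (nat_lit 430) (nat_lit 353) (nat_lit 237)) (XT.nd (nat_lit 78) (nat_lit 0) (nat_lit 0) (XT.lf (nat_lit 0) (nat_lit 38795595646) (nat_lit 76) (nat_lit 486632070301) (nat_lit 76) (nat_lit 438692112861) (nat_lit 3) (nat_lit 4)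 (nat_lit 4) (nat_lit 5) (nat_lit 4) (nat_lit 4) (nat_lit 431) (nat_lit 353) (nat_lit 236)) (XT.lf (nat_lit 0) (nat_lit 168619685943) (nat_lit 76) (nat_lit 458691144633) (nat_lit 76) (nat_lit 410750750841) (nat_lit 3) (nat_lit 4) (nat_lit 4) (nat_lit 5) (nat_lit 4) (nat_lit 4) (nat_lit 432) (nat_lit 353) (nat_lit 235)))) (XT.nd (nat_lit 46956) (nat_lit 0) (nat_lit 8968) (XT.lf (nat_lit 0) (nat_lit 308827482865) (nat_lit 76) (nat_lit 428516049528) (nat_lit 76) (nat_lit 380575251705) (nat_lit 3) (nat_lit 4) (nat_lit 4) (nat_lit 5) (nat_lit 4) (nat_lit 4) (nat_lit 433) (nat_lit 353) (nat_lit 234)) (XT.nd (nat_lit 78) (nat_lit 0) (nat_lit 0) (XT.lf (nat_lit 0) (nat_lit 2178955844) (nat_lit 0) (nat_lit 2178955844) (nat_lit 684) (nat_lit 1772655653) (nat_lit 121) (nat_lit 5) (nat_lit 121) (nat_lit 3) (nat_lit 130) (nat_lit 3) (nat_lit 354) (nat_lit 354) (nat_lit 312)) (XT.lf (nat_lit 76) (nat_lit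 1537675782) (nat_lit 0) (nat_lit 8309499604) (nat_lit 760) (nat_lit 2864749809) (nat_lit 122) (nat_lit 5) (nat_lit 121) (nat_lit 5) (nat_lit 131) (nat_lit 5) (nat_lit 355) (nat_lit 354) (nat_lit 311))))) (XT.nd (nat_lit 234) (nat_lit 0) (nat_lit 76) (XT.nd (nat_lit 78) (nat_lit 684) (nat_lit 0) (XT.lf (nat_lit 0) (nat_lit 11220855049) (nat_lit 684) (nat_lit 1302125203) (nat_lit 760) (nat_lit 668259640) (nat_lit 122) (nat_lit 5) (nat_lit 131) (nat_lit 5) (nat_lit 132) (nat_lit 5) (nat_lit 356) (nat_lit 354) (nat_lit 310)) (XT.nd (nat_lit 78) (nat_lit 684) (nat_lit 0) (XT.lf (nat_lit 76) (nat_lit 9482719159) (nat_lit 0) (nat_lit 3446477700) (nat_lit 760) (nat_lit 768512587) (nat_lit 123) (nat_lit 5) (nat_lit 122) (nat_lit 5) (nat_lit 132) (nat_lit 5) (nat_lit 357) (nat_lit 354) (nat_lit 309)) (XT.lf (nat_lit 0) (nat_lit 688203224) (nat_lit 760) (nat_lit 7230974385) (nat_lit 836) (nat_lit 6316365921)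 (nat_lit 113) (nat_lit 5) (nat_lit 123) (nat_lit 5) (nat_lit 124) (nat_lit 5) (nat_lit 358) (nat_lit 354) (nat_lit 308)))) (XT.nd (nat_lit 78) (nat_lit 0) (nat_lit 0) (XT.lf (nat_lit 0) (nat_lit 2414426714) (nat_lit 760) (nat_lit 10352582903) (nat_lit 836) (nat_lit 2039809279) (nat_lit 114) (nat_lit 5) (nat_lit 124) (nat_lit 5) (nat_lit 125) (nat_lit 5) (nat_lit 359) (nat_lit 354) (nat_lit 307)) (XT.nd (nat_lit 78) (nat_lit 0) (nat_lit 76) (XT.lf (nat_lit 76) (nat_lit 1793671286) (nat_lit 0) (nat_lit 2722176442) (nat_lit 836) (nat_lit 10896129925) (nat_lit 115) (nat_lit 5) (nat_lit 114) (nat_lit 5) (nat_lit 125) (nat_lit 5) (nat_lit 360) (nat_lit 354) (nat_lit 306)) (XT.lf (nat_lit 0) (nat_lit 7046453694) (nat_lit 760) (nat_lit 948915214) (nat_lit 76) (nat_lit 8057160290) (nat_lit 115) (nat_lit 5) (nat_lit 125) (nat_lit 5) (nat_lit 116) (nat_lit 5) (nat_lit 361) (nat_lit 354) (nat_lit 305))))))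 (XT.nd (nat_lit 468) (nat_lit 1596) (nat_lit 0) (XT.nd (nat_lit 234) (nat_lit 1064) (nat_lit 0) (XT.nd (nat_lit 78) (nat_lit 684) (nat_lit 0) (XT.lf (nat_lit 0) (nat_lit 10032058614) (nat_lit 836) (nat_lit 3716555811) (nat_lit 76) (nat_lit 2983114076) (nat_lit 105) (nat_lit 5) (nat_lit 116) (nat_lit 5) (nat_lit 106) (nat_lit 5) (nat_lit 362) (nat_lit 354) (nat_lit 304)) (XT.nd (nat_lit 78) (nat_lit 304) (nat_lit 0) (XT.lf (nat_lit 0) (nat_lit 10836508750) (nat_lit 380) (nat_lit 2698171866) (nat_lit 456) (nat_lit 3916703550) (nat_lit 100) (nat_lit 5) (nat_lit 105) (nat_lit 5) (nat_lit 106) (nat_lit 5) (nat_lit 363) (nat_lit 354) (nat_lit 303)) (XT.lf (nat_lit 0) (nat_lit 8548154358) (nat_lit 304) (nat_lit 9072745372) (nat_lit 380) (nat_lit 592569898) (nat_lit 96) (nat_lit 5) (nat_lit 100) (nat_lit 5) (nat_lit 101) (nat_lit 5) (nat_lit 364) (nat_lit 354) (nat_lit 302)))) (XT.nd (nat_lit 78)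 (nat_lit 608) (nat_lit 0) (XT.lf (nat_lit 0) (nat_lit 3170423291) (nat_lit 456) (nat_lit 12878219198) (nat_lit 76) (nat_lit 2972119661) (nat_lit 90) (nat_lit 5) (nat_lit 96) (nat_lit 5) (nat_lit 91) (nat_lit 5) (nat_lit 365) (nat_lit 354) (nat_lit 301)) (XT.nd (nat_lit 78) (nat_lit 304) (nat_lit 0) (XT.lf (nat_lit 0) (nat_lit 3584094862) (nat_lit 304) (nat_lit 3973759076) (nat_lit 380) (nat_lit 12317112297) (nat_lit 86) (nat_lit 5) (nat_lit 90) (nat_lit 5) (nat_lit 91) (nat_lit 5) (nat_lit 366) (nat_lit 354) (nat_lit 300)) (XT.lf (nat_lit 0) (nat_lit 879166581) (nat_lit 304) (nat_lit 11766219417) (nat_lit 380) (nat_lit 8134685498) (nat_lit 82) (nat_lit 5) (nat_lit 86) (nat_lit 5) (nat_lit 87) (nat_lit 5) (nat_lit 367) (nat_lit 354) (nat_lit 299))))) (XT.nd (nat_lit 234) (nat_lit 988) (nat_lit 0) (XT.nd (nat_lit 78) (nat_lit 608) (nat_lit 0) (XT.lf (nat_lit 0) (nat_lit 18479822905) (nat_lit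 380) (nat_lit 1867813672) (nat_lit 76) (nat_lit 1392972186) (nat_lit 82) (nat_lit 5) (nat_lit 87) (nat_lit 5) (nat_lit 83) (nat_lit 5) (nat_lit 368) (nat_lit 354) (nat_lit 298)) (XT.nd (nat_lit 78) (nat_lit 304) (nat_lit 0) (XT.lf (nat_lit 0) (nat_lit 2394876373) (nat_lit 304) (nat_lit 4847751986) (nat_lit 76) (nat_lit 15511015502) (nat_lit 78) (nat_lit 5) (nat_lit 82) (nat_lit 5) (nat_lit 79) (nat_lit 5) (nat_lit 369) (nat_lit 354) (nat_lit 297)) (XT.lf (nat_lit 0) (nat_lit 8756061330) (nat_lit 380) (nat_lit 8047021799) (nat_lit 76) (nat_lit 7023615543) (nat_lit 74) (nat_lit 5) (nat_lit 79) (nat_lit 5) (nat_lit 75) (nat_lit 5) (nat_lit 370) (nat_lit 354) (nat_lit 296)))) (XT.nd (nat_lit 156) (nat_lit 532) (nat_lit 0) (XT.nd (nat_lit 78) (nat_lit 228) (nat_lit 0) (XT.lf (nat_lit 0) (nat_lit 13521849793) (nat_lit 228) (nat_lit 2496025009) (nat_lit 304) (nat_lit 8948150516) (nat_lit 71) (nat_lit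 5) (nat_lit 74) (nat_lit 5) (nat_lit 75) (nat_lit 5) (nat_lit 371) (nat_lit 354) (nat_lit 295)) (XT.lf (nat_lit 0) (nat_lit 11026398858) (nat_lit 228) (nat_lit 13325138556) (nat_lit 304) (nat_lit 1820428572) (nat_lit 68) (nat_lit 5) (nat_lit 71) (nat_lit 5) (nat_lit 72) (nat_lit 5) (nat_lit 372) (nat_lit 354) (nat_lit 294))) (XT.nd (nat_lit 78) (nat_lit 228) (nat_lit 0) (XT.lf (nat_lit 0) (nat_lit 6074997046) (nat_lit 304) (nat_lit 19154980096) (nat_lit 76) (nat_lit 2220547937) (nat_lit 64) (nat_lit 5) (nat_lit 68) (nat_lit 5) (nat_lit 65) (nat_lit 5) (nat_lit 373) (nat_lit 354) (nat_lit 293)) (XT.lf (nat_lit 0) (nat_lit 5206735107) (nat_lit 228) (nat_lit 9882671002) (nat_lit 304) (nat_lit 13712924908) (nat_lit 61) (nat_lit 5) (nat_lit 64) (nat_lit 5) (nat_lit 65) (nat_lit 5) (nat_lit 374) (nat_lit 354) (nat_lit 292))))))))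
noncomputable def xc72 : XT := (XT.nd (nat_lit 1872) (nat_lit 1216) (nat_lit 0) (XT.nd (nat_lit 936) (nat_lit 1140) (nat_lit 0) (XT.nd (nat_lit 468) (nat_lit 836) (nat_lit 0) (XT.nd (nat_lit 234) (nat_lit 532) (nat_lit 0) (XT.nd (nat_lit 78) (nat_lit 304) (nat_lit 0) (XT.lf (nat_lit 0) (nat_lit 1871471195) (nat_lit 152) (nat_lit 23403567046) (nat_lit 228) (nat_lit 4964749569) (nat_lit 59) (nat_lit 5) (nat_lit 61) (nat_lit 5) (nat_lit 62) (nat_lit 5) (nat_lit 375) (nat_lit 354) (nat_lit 291)) (XT.nd (nat_lit 78) (nat_lit 228) (nat_lit 0) (XT.lf (nat_lit 0) (nat_lit 4902223534) (nat_lit 228) (nat_lit 1830092845) (nat_lit 76) (nat_lit 25028311832) (nat_lit 58) (nat_lit 5) (nat_lit 61) (nat_lit 5) (nat_lit 59) (nat_lit 5) (nat_lit 376) (nat_lit 354) (nat_lit 290)) (XT.lf (nat_lit 0) (nat_lit 15981781709) (nat_lit 304) (nat_lit 5962895924) (nat_lit 76) (nat_lit 11424538433) (nat_lit 55) (nat_lit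 5) (nat_lit 59) (nat_lit 5) (nat_lit 56) (nat_lit 5) (nat_lit 377) (nat_lit 354) (nat_lit 289)))) (XT.nd (nat_lit 78) (nat_lit 380) (nat_lit 0) (XT.lf (nat_lit 0) (nat_lit 24584413622) (nat_lit 152) (nat_lit 3873589125) (nat_lit 228) (nat_lit 6622980773) (nat_lit 53) (nat_lit 5) (nat_lit 55) (nat_lit 5) (nat_lit 56) (nat_lit 5) (nat_lit 378) (nat_lit 354) (nat_lit 288)) (XT.nd (nat_lit 78) (nat_lit 152) (nat_lit 0) (XT.lf (nat_lit 0) (nat_lit 5516616115) (nat_lit 228) (nat_lit 15716713577) (nat_lit 76) (nat_lit 15658758905) (nat_lit 50) (nat_lit 5) (nat_lit 53) (nat_lit 5) (nat_lit 51) (nat_lit 5) (nat_lit 379) (nat_lit 354) (nat_lit 287)) (XT.lf (nat_lit 0) (nat_lit 17260170812) (nat_lit 152) (nat_lit 1640912510) (nat_lit 228) (nat_lit 19916289216) (nat_lit 48) (nat_lit 5) (nat_lit 50) (nat_lit 5) (nat_lit 51) (nat_lit 5) (nat_lit 380) (nat_lit 354) (nat_lit 286))))) (XT.nd (nat_lit 234)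 (nat_lit 304) (nat_lit 0) (XT.nd (nat_lit 78) (nat_lit 380) (nat_lit 0) (XT.lf (nat_lit 0) (nat_lit 12619464242) (nat_lit 152) (nat_lit 21499604765) (nat_lit 228) (nat_lit 6739477791) (nat_lit 46) (nat_lit 5) (nat_lit 48) (nat_lit 5) (nat_lit 49) (nat_lit 5) (nat_lit 381) (nat_lit 354) (nat_lit 285)) (XT.nd (nat_lit 78) (nat_lit 152) (nat_lit 0) (XT.lf (nat_lit 0) (nat_lit 7311066524) (nat_lit 152) (nat_lit 447426648) (nat_lit 228) (nat_lit 35273339229) (nat_lit 43) (nat_lit 5) (nat_lit 45) (nat_lit 5) (nat_lit 46) (nat_lit 5) (nat_lit 382) (nat_lit 354) (nat_lit 284)) (XT.lf (nat_lit 0) (nat_lit 890677846) (nat_lit 152) (nat_lit 23138485670) (nat_lit 228) (nat_lit 21301848785) (nat_lit 41) (nat_lit 5) (nat_lit 43) (nat_lit 5) (nat_lit 44) (nat_lit 5) (nat_lit 383) (nat_lit 354) (nat_lit 283)))) (XT.nd (nat_lit 78) (nat_lit 304) (nat_lit 0) (XT.lf (nat_lit 0) (nat_lit 41672626860) (nat_lit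 152) (nat_lit 543249984) (nat_lit 228) (nat_lit 5567534558) (nat_lit 41) (nat_lit 5) (nat_lit 43) (nat_lit 5) (nat_lit 44) (nat_lit 5) (nat_lit 384) (nat_lit 354) (nat_lit 282)) (XT.nd (nat_lit 78) (nat_lit 152) (nat_lit 0) (XT.lf (nat_lit 0) (nat_lit 11995858662) (nat_lit 152) (nat_lit 14538084841) (nat_lit 76) (nat_lit 23842342375) (nat_lit 39) (nat_lit 5) (nat_lit 41) (nat_lit 5) (nat_lit 40) (nat_lit 5) (nat_lit 385) (nat_lit 354) (nat_lit 281)) (XT.lf (nat_lit 0) (nat_lit 28988904933) (nat_lit 152) (nat_lit 2339084523) (nat_lit 228) (nat_lit 21816104526) (nat_lit 37) (nat_lit 5) (nat_lit 39) (nat_lit 5) (nat_lit 40) (nat_lit 5) (nat_lit 386) (nat_lit 354) (nat_lit 280)))))) (XT.nd (nat_lit 468) (nat_lit 456) (nat_lit 0) (XT.nd (nat_lit 234) (nat_lit 380) (nat_lit 0) (XT.nd (nat_lit 78) (nat_lit 228) (nat_lit 0) (XT.lf (nat_lit 0) (nat_lit 20658495722) (nat_lit 76) (nat_lit 32486253615)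 (nat_lit 152) (nat_lit 2941677699) (nat_lit 36) (nat_lit 5) (nat_lit 37) (nat_lit 5) (nat_lit 38) (nat_lit 4) (nat_lit 387) (nat_lit 354) (nat_lit 279)) (XT.nd (nat_lit 78) (nat_lit 0) (nat_lit 0) (XT.lf (nat_lit 0) (nat_lit 10676749720) (nat_lit 152) (nat_lit 6828578059) (nat_lit 228) (nat_lit 41714160336) (nat_lit 33) (nat_lit 5) (nat_lit 35) (nat_lit 5) (nat_lit 36) (nat_lit 5) (nat_lit 388) (nat_lit 354) (nat_lit 278)) (XT.lf (nat_lit 0) (nat_lit 40427238377) (nat_lit 228) (nat_lit 1245661902) (nat_lit 76) (nat_lit 20880774893) (nat_lit 33) (nat_lit 5) (nat_lit 36) (nat_lit 5) (nat_lit 34) (nat_lit 4) (nat_lit 389) (nat_lit 354) (nat_lit 277)))) (XT.nd (nat_lit 78) (nat_lit 304) (nat_lit 0) (XT.lf (nat_lit 0) (nat_lit 51342476985) (nat_lit 76) (nat_lit 14745646945) (nat_lit 152) (nat_lit 21214603) (nat_lit 32) (nat_lit 5) (nat_lit 33) (nat_lit 5) (nat_lit 34) (nat_lit 4) (nat_lit 390)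 (nat_lit 354) (nat_lit 276)) (XT.nd (nat_lit 78) (nat_lit 76) (nat_lit 0) (XT.lf (nat_lit 0) (nat_lit 23950378008) (nat_lit 228) (nat_lit 31048028200) (nat_lit 76) (nat_lit 14889361789) (nat_lit 29) (nat_lit 5) (nat_lit 32) (nat_lit 5) (nat_lit 30) (nat_lit 4) (nat_lit 391) (nat_lit 354) (nat_lit 275)) (XT.lf (nat_lit 0) (nat_lit 23795137749) (nat_lit 76) (nat_lit 26914646370) (nat_lit 152) (nat_lit 23215130839) (nat_lit 28) (nat_lit 5) (nat_lit 29) (nat_lit 5) (nat_lit 30) (nat_lit 4) (nat_lit 392) (nat_lit 354) (nat_lit 274))))) (XT.nd (nat_lit 234) (nat_lit 228) (nat_lit 0) (XT.nd (nat_lit 78) (nat_lit 76) (nat_lit 0) (XT.lf (nat_lit 0) (nat_lit 1979841813) (nat_lit 152) (nat_lit 72296112509) (nat_lit 76) (nat_lit 3973179930) (nat_lit 26) (nat_lit 5) (nat_lit 28) (nat_lit 5) (nat_lit 27) (nat_lit 4) (nat_lit 393) (nat_lit 354) (nat_lit 273)) (XT.nd (nat_lit 78) (nat_lit 76) (nat_lit 0)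 (XT.lf (nat_lit 0) (nat_lit 29719224654) (nat_lit 152) (nat_lit 15441495802) (nat_lit 76) (nat_lit 37672435595) (nat_lit 26) (nat_lit 5) (nat_lit 28) (nat_lit 5) (nat_lit 27) (nat_lit 4) (nat_lit 394) (nat_lit 354) (nat_lit 272)) (XT.lf (nat_lit 0) (nat_lit 47463169100) (nat_lit 76) (nat_lit 12946279677) (nat_lit 152) (nat_lit 27337867791) (nat_lit 25) (nat_lit 5) (nat_lit 26) (nat_lit 5) (nat_lit 27) (nat_lit 4) (nat_lit 395) (nat_lit 354) (nat_lit 271)))) (XT.nd (nat_lit 78) (nat_lit 76) (nat_lit 0) (XT.lf (nat_lit 0) (nat_lit 1469256234) (nat_lit 152) (nat_lit 69736341754) (nat_lit 76) (nat_lit 21799373359) (nat_lit 23) (nat_lit 5) (nat_lit 25) (nat_lit 5) (nat_lit 24) (nat_lit 4) (nat_lit 396) (nat_lit 354) (nat_lit 270)) (XT.nd (nat_lit 78) (nat_lit 76) (nat_lit 0) (XT.lf (nat_lit 0) (nat_lit 32558734937) (nat_lit 152) (nat_lit 6011316051) (nat_lit 76) (nat_lit 60044002141) (nat_lit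 23) (nat_lit 5) (nat_lit 25) (nat_lit 5) (nat_lit 24) (nat_lit 4) (nat_lit 397) (nat_lit 354) (nat_lit 269)) (XT.lf (nat_lit 0) (nat_lit 64872711689) (nat_lit 76) (nat_lit 2267394339) (nat_lit 152) (nat_lit 37481519861) (nat_lit 22) (nat_lit 5) (nat_lit 23) (nat_lit 5) (nat_lit 24) (nat_lit 4) (nat_lit 398) (nat_lit 354) (nat_lit 268))))))) (XT.nd (nat_lit 936) (nat_lit 456) (nat_lit 0) (XT.nd (nat_lit 468) (nat_lit 304) (nat_lit 0) (XT.nd (nat_lit 234) (nat_lit 228) (nat_lit 0) (XT.nd (nat_lit 78) (nat_lit 152) (nat_lit 0) (XT.lf (nat_lit 0) (nat_lit 30934253480) (nat_lit 76) (nat_lit 74712015236) (nat_lit 76) (nat_lit 5405622714) (nat_lit 21) (nat_lit 4) (nat_lit 22) (nat_lit 5) (nat_lit 22) (nat_lit 4) (nat_lit 399) (nat_lit 354) (nat_lit 267)) (XT.nd (nat_lit 78) (nat_lit 76) (nat_lit 0) (XT.lf (nat_lit 0) (nat_lit 29034971502) (nat_lit 152) (nat_lit 9791055861) (nat_lit 76) (nat_lit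 79111010170) (nat_lit 20) (nat_lit 5) (nat_lit 22) (nat_lit 5) (nat_lit 21) (nat_lit 4) (nat_lit 400) (nat_lit 354) (nat_lit 266)) (XT.lf (nat_lit 0) (nat_lit 67120126032) (nat_lit 152) (nat_lit 57092122719) (nat_lit 0) (nat_lit 1102381625) (nat_lit 19) (nat_lit 5) (nat_lit 21) (nat_lit 4) (nat_lit 19) (nat_lit 4) (nat_lit 401) (nat_lit 354) (nat_lit 265)))) (XT.nd (nat_lit 78) (nat_lit 152) (nat_lit 0) (XT.lf (nat_lit 0) (nat_lit 19506622214) (nat_lit 76) (nat_lit 89871227340) (nat_lit 76) (nat_lit 23848294058) (nat_lit 18) (nat_lit 4) (nat_lit 19) (nat_lit 5) (nat_lit 19) (nat_lit 4) (nat_lit 402) (nat_lit 354) (nat_lit 264)) (XT.nd (nat_lit 78) (nat_lit 76) (nat_lit 0) (XT.lf (nat_lit 0) (nat_lit 13825860004) (nat_lit 152) (nat_lit 37684724788) (nat_lit 76) (nat_lit 90199444301) (nat_lit 17) (nat_lit 5) (nat_lit 19) (nat_lit 5) (nat_lit 18) (nat_lit 4) (nat_lit 403) (nat_lit 354) (nat_lit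 263)) (XT.lf (nat_lit 0) (nat_lit 45474363989) (nat_lit 76) (nat_lit 8919075235) (nat_lit 152) (nat_lit 96423888011) (nat_lit 16) (nat_lit 5) (nat_lit 17) (nat_lit 5) (nat_lit 18) (nat_lit 4) (nat_lit 404) (nat_lit 354) (nat_lit 262))))) (XT.nd (nat_lit 234) (nat_lit 152) (nat_lit 0) (XT.nd (nat_lit 78) (nat_lit 152) (nat_lit 0) (XT.lf (nat_lit 0) (nat_lit 99446609358) (nat_lit 152) (nat_lit 24589701428) (nat_lit 0) (nat_lit 36554889818) (nat_lit 16) (nat_lit 5) (nat_lit 18) (nat_lit 4) (nat_lit 16) (nat_lit 4) (nat_lit 405) (nat_lit 354) (nat_lit 261)) (XT.nd (nat_lit 78) (nat_lit 76) (nat_lit 0) (XT.lf (nat_lit 0) (nat_lit 64528060591) (nat_lit 76) (nat_lit 84728328945) (nat_lit 76) (nat_lit 21832977044) (nat_lit 15) (nat_lit 4) (nat_lit 16) (nat_lit 5) (nat_lit 16) (nat_lit 4) (nat_lit 406) (nat_lit 354) (nat_lit 260)) (XT.lf (nat_lit 0) (nat_lit 20393504114) (nat_lit 152) (nat_lit 21092031761)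 (nat_lit 76) (nat_lit 140904249831) (nat_lit 14) (nat_lit 5) (nat_lit 16) (nat_lit 5) (nat_lit 15) (nat_lit 4) (nat_lit 407) (nat_lit 354) (nat_lit 259)))) (XT.nd (nat_lit 78) (nat_lit 76) (nat_lit 0) (XT.lf (nat_lit 0) (nat_lit 66487138260) (nat_lit 152) (nat_lit 121445872788) (nat_lit 0) (nat_lit 6580634107) (nat_lit 13) (nat_lit 5) (nat_lit 15) (nat_lit 4) (nat_lit 13) (nat_lit 4) (nat_lit 408) (nat_lit 354) (nat_lit 258)) (XT.nd (nat_lit 78) (nat_lit 76) (nat_lit 0) (XT.lf (nat_lit 0) (nat_lit 117336427889) (nat_lit 152) (nat_lit 32790400096) (nat_lit 0) (nat_lit 57427177559) (nat_lit 13) (nat_lit 5) (nat_lit 15) (nat_lit 4) (nat_lit 13) (nat_lit 4) (nat_lit 409) (nat_lit 354) (nat_lit 257)) (XT.lf (nat_lit 0) (nat_lit 65030214247) (nat_lit 76) (nat_lit 108234315276) (nat_lit 76) (nat_lit 48322522191) (nat_lit 12) (nat_lit 4) (nat_lit 13) (nat_lit 5) (nat_lit 13) (nat_lit 4) (nat_lit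 410) (nat_lit 354) (nat_lit 256)))))) (XT.nd (nat_lit 468) (nat_lit 228) (nat_lit 0) (XT.nd (nat_lit 234) (nat_lit 76) (nat_lit 0) (XT.nd (nat_lit 78) (nat_lit 152) (nat_lit 0) (XT.lf (nat_lit 0) (nat_lit 171839119959) (nat_lit 76) (nat_lit 62394710944) (nat_lit 76) (nat_lit 2480563456) (nat_lit 12) (nat_lit 4) (nat_lit 13) (nat_lit 5) (nat_lit 13) (nat_lit 4) (nat_lit 411) (nat_lit 354) (nat_lit 255)) (XT.nd (nat_lit 78) (nat_lit 0) (nat_lit 0) (XT.lf (nat_lit 0) (nat_lit 34503066415) (nat_lit 76) (nat_lit 11555174514) (nat_lit 152) (nat_lit 206930236139) (nat_lit 10) (nat_lit 5) (nat_lit 11) (nat_lit 5) (nat_lit 12) (nat_lit 4) (nat_lit 412) (nat_lit 354) (nat_lit 254)) (XT.lf (nat_lit 0) (nat_lit 100215989524) (nat_lit 152) (nat_lit 127104428498) (nat_lit 0) (nat_lit 43150898084) (nat_lit 10) (nat_lit 5) (nat_lit 12) (nat_lit 4) (nat_lit 10) (nat_lit 4) (nat_lit 413) (nat_lit 354) (nat_lit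 253)))) (XT.nd (nat_lit 78) (nat_lit 76) (nat_lit 0) (XT.lf (nat_lit 0) (nat_lit 158897620329) (nat_lit 152) (nat_lit 28614850207) (nat_lit 0) (nat_lit 101830748888) (nat_lit 10) (nat_lit 5) (nat_lit 12) (nat_lit 4) (nat_lit 10) (nat_lit 4) (nat_lit 414) (nat_lit 354) (nat_lit 252)) (XT.nd (nat_lit 78) (nat_lit 0) (nat_lit 0) (XT.lf (nat_lit 0) (nat_lit 80318054148) (nat_lit 76) (nat_lit 143206403452) (nat_lit 76) (nat_lit 86137883862) (nat_lit 9) (nat_lit 4) (nat_lit 10) (nat_lit 5) (nat_lit 10) (nat_lit 4) (nat_lit 415) (nat_lit 354) (nat_lit 251)) (XT.lf (nat_lit 0) (nat_lit 198981181728) (nat_lit 76) (nat_lit 94835546552) (nat_lit 76) (nat_lit 37765500897) (nat_lit 9) (nat_lit 4) (nat_lit 10) (nat_lit 5) (nat_lit 10) (nat_lit 4) (nat_lit 416) (nat_lit 354) (nat_lit 250))))) (XT.nd (nat_lit 234) (nat_lit 76) (nat_lit 0) (XT.nd (nat_lit 78) (nat_lit 76) (nat_lit 0) (XT.lf (nat_lit 0) (nat_lit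 14010349205) (nat_lit 152) (nat_lit 28350242805) (nat_lit 76) (nat_lit 312883964010) (nat_lit 8) (nat_lit 5) (nat_lit 10) (nat_lit 5) (nat_lit 9) (nat_lit 4) (nat_lit 417) (nat_lit 354) (nat_lit 249)) (XT.nd (nat_lit 78) (nat_lit 0) (nat_lit 0) (XT.lf (nat_lit 0) (nat_lit 70224396961) (nat_lit 152) (nat_lit 294594173732) (nat_lit 0) (nat_lit 15869380741) (nat_lit 7) (nat_lit 5) (nat_lit 9) (nat_lit 4) (nat_lit 7) (nat_lit 4) (nat_lit 418) (nat_lit 354) (nat_lit 248)) (XT.lf (nat_lit 0) (nat_lit 132149108455) (nat_lit 152) (nat_lit 198164094724) (nat_lit 0) (nat_lit 77792938484) (nat_lit 7) (nat_lit 5) (nat_lit 9) (nat_lit 4) (nat_lit 7) (nat_lit 4) (nat_lit 419) (nat_lit 354) (nat_lit 247)))) (XT.nd (nat_lit 156) (nat_lit 0) (nat_lit 0) (XT.nd (nat_lit 78) (nat_lit 76) (nat_lit 0) (XT.lf (nat_lit 0) (nat_lit 199025319305) (nat_lit 152) (nat_lit 94024510803) (nat_lit 0) (nat_lit 144668081045)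 (nat_lit 7) (nat_lit 5) (nat_lit 9) (nat_lit 4) (nat_lit 7) (nat_lit 4) (nat_lit 420) (nat_lit 354) (nat_lit 246)) (XT.lf (nat_lit 0) (nat_lit 19051467428) (nat_lit 76) (nat_lit 252495312352) (nat_lit 76) (nat_lit 198137084936) (nat_lit 6) (nat_lit 4) (nat_lit 7) (nat_lit 5) (nat_lit 7) (nat_lit 4) (nat_lit 421) (nat_lit 354) (nat_lit 245))) (XT.nd (nat_lit 78) (nat_lit 0) (nat_lit 0) (XT.lf (nat_lit 0) (nat_lit 144526767759) (nat_lit 76) (nat_lit 206978843763) (nat_lit 76) (nat_lit 152619700462) (nat_lit 6) (nat_lit 4) (nat_lit 7) (nat_lit 5) (nat_lit 7) (nat_lit 4) (nat_lit 422) (nat_lit 354) (nat_lit 244)) (XT.lf (nat_lit 0) (nat_lit 280036072571) (nat_lit 76) (nat_lit 157823047706) (nat_lit 76) (nat_lit 103463056364) (nat_lit 6) (nat_lit 4) (nat_lit 7) (nat_lit 5) (nat_lit 7) (nat_lit 4) (nat_lit 423) (nat_lit 354) (nat_lit 243))))))))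
noncomputable def xc73 : XT := (XT.nd (nat_lit 48828) (nat_lit 0) (nat_lit 1900) (XT.nd (nat_lit 47892) (nat_lit 0) (nat_lit 6004) (XT.nd (nat_lit 468) (nat_lit 76) (nat_lit 0) (XT.nd (nat_lit 234) (nat_lit 0) (nat_lit 0) (XT.nd (nat_lit 78) (nat_lit 152) (nat_lit 0) (XT.lf (nat_lit 0) (nat_lit 426382399966) (nat_lit 76) (nat_lit 104736630575) (nat_lit 76) (nat_lit 50375854009) (nat_lit 6) (nat_lit 4) (nat_lit 7) (nat_lit 5) (nat_lit 7) (nat_lit 4) (nat_lit 424) (nat_lit 354) (nat_lit 242)) (XT.nd (nat_lit 78) (nat_lit 76) (nat_lit 0) (XT.lf (nat_lit 0) (nat_lit 6733846068) (nat_lit 152) (nat_lit 40557119184) (nat_lit 76) (nat_lit 577585100430) (nat_lit 5) (nat_lit 5) (nat_lit 7) (nat_lit 5) (nat_lit 6) (nat_lit 4) (nat_lit 425) (nat_lit 354) (nat_lit 241)) (XT.lf (nat_lit 0) (nat_lit 68262893857) (nat_lit 152) (nat_lit 586853388935) (nat_lit 0) (nat_lit 16489392116) (nat_lit 4) (nat_lit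 5) (nat_lit 6) (nat_lit 4) (nat_lit 4) (nat_lit 4) (nat_lit 426) (nat_lit 354) (nat_lit 240)))) (XT.nd (nat_lit 78) (nat_lit 0) (nat_lit 0) (XT.lf (nat_lit 0) (nat_lit 136228149193) (nat_lit 152) (nat_lit 501315755785) (nat_lit 0) (nat_lit 84454053799) (nat_lit 4) (nat_lit 5) (nat_lit 6) (nat_lit 4) (nat_lit 4) (nat_lit 4) (nat_lit 427) (nat_lit 354) (nat_lit 239)) (XT.nd (nat_lit 78) (nat_lit 0) (nat_lit 0) (XT.lf (nat_lit 0) (nat_lit 209629153840) (nat_lit 152) (nat_lit 408938036390) (nat_lit 0) (nat_lit 157854508767) (nat_lit 4) (nat_lit 5) (nat_lit 6) (nat_lit 4) (nat_lit 4) (nat_lit 4) (nat_lit 428) (nat_lit 354) (nat_lit 238)) (XT.lf (nat_lit 0) (nat_lit 288900876713) (nat_lit 152) (nat_lit 309172807228) (nat_lit 0) (nat_lit 237125722677) (nat_lit 4) (nat_lit 5) (nat_lit 6) (nat_lit 4) (nat_lit 4) (nat_lit 4) (nat_lit 429) (nat_lit 354) (nat_lit 237))))) (XT.nd (nat_lit 234) (nat_lit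 0) (nat_lit 0) (XT.nd (nat_lit 78) (nat_lit 76) (nat_lit 0) (XT.lf (nat_lit 0) (nat_lit 374513076170) (nat_lit 152) (nat_lit 201428866942) (nat_lit 0) (nat_lit 322737450873) (nat_lit 4) (nat_lit 5) (nat_lit 6) (nat_lit 4) (nat_lit 4) (nat_lit 4) (nat_lit 430) (nat_lit 354) (nat_lit 236)) (XT.nd (nat_lit 78) (nat_lit 76) (nat_lit 0) (XT.lf (nat_lit 0) (nat_lit 466973083763) (nat_lit 152) (nat_lit 85067732922) (nat_lit 0) (nat_lit 415197022114) (nat_lit 4) (nat_lit 5) (nat_lit 6) (nat_lit 4) (nat_lit 4) (nat_lit 4) (nat_lit 431) (nat_lit 354) (nat_lit 235)) (XT.lf (nat_lit 0) (nat_lit 41942566351) (nat_lit 76) (nat_lit 525541085303) (nat_lit 76) (nat_lit 473764619623) (nat_lit 3) (nat_lit 4) (nat_lit 4) (nat_lit 5) (nat_lit 4) (nat_lit 4) (nat_lit 432) (nat_lit 354) (nat_lit 234)))) (XT.nd (nat_lit 47034) (nat_lit 0) (nat_lit 8968) (XT.lf (nat_lit 0) (nat_lit 182149374757) (nat_lit 76) (nat_lit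 495366481925) (nat_lit 76) (nat_lit 443589642143) (nat_lit 3) (nat_lit 4) (nat_lit 4) (nat_lit 5) (nat_lit 4) (nat_lit 4) (nat_lit 433) (nat_lit 354) (nat_lit 233)) (XT.nd (nat_lit 78) (nat_lit 0) (nat_lit 0) (XT.lf (nat_lit 0) (nat_lit 2689043997) (nat_lit 0) (nat_lit 2689043997) (nat_lit 684) (nat_lit 1208841125) (nat_lit 121) (nat_lit 5) (nat_lit 121) (nat_lit 3) (nat_lit 130) (nat_lit 3) (nat_lit 355) (nat_lit 355) (nat_lit 310)) (XT.lf (nat_lit 76) (nat_lit 2378282536) (nat_lit 0) (nat_lit 9501761318) (nat_lit 760) (nat_lit 1785642782) (nat_lit 122) (nat_lit 5) (nat_lit 121) (nat_lit 5) (nat_lit 131) (nat_lit 5) (nat_lit 356) (nat_lit 355) (nat_lit 309)))))) (XT.nd (nat_lit 468) (nat_lit 2280) (nat_lit 0) (XT.nd (nat_lit 234) (nat_lit 0) (nat_lit 152) (XT.nd (nat_lit 78) (nat_lit 760) (nat_lit 0) (XT.lf (nat_lit 0) (nat_lit 13263762949) (nat_lit 684) (nat_lit 675720176) (nat_lit 760)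 (nat_lit 248925601) (nat_lit 122) (nat_lit 5) (nat_lit 131) (nat_lit 5) (nat_lit 132) (nat_lit 5) (nat_lit 357) (nat_lit 355) (nat_lit 308)) (XT.nd (nat_lit 78) (nat_lit 0) (nat_lit 76) (XT.lf (nat_lit 0) (nat_lit 286229849) (nat_lit 760) (nat_lit 3803611043) (nat_lit 836) (nat_lit 10649084544) (nat_lit 112) (nat_lit 5) (nat_lit 122) (nat_lit 5) (nat_lit 123) (nat_lit 5) (nat_lit 358) (nat_lit 355) (nat_lit 307)) (XT.lf (nat_lit 0) (nat_lit 1758250478) (nat_lit 760) (nat_lit 7049158057) (nat_lit 836) (nat_lit 6515519882) (nat_lit 113) (nat_lit 5) (nat_lit 123) (nat_lit 5) (nat_lit 124) (nat_lit 5) (nat_lit 359) (nat_lit 355) (nat_lit 306)))) (XT.nd (nat_lit 78) (nat_lit 0) (nat_lit 0) (XT.lf (nat_lit 0) (nat_lit 3555245951) (nat_lit 760) (nat_lit 10401826315) (nat_lit 836) (nat_lit 1986252364) (nat_lit 114) (nat_lit 5) (nat_lit 124) (nat_lit 5) (nat_lit 125) (nat_lit 5) (nat_lit 360) (nat_lit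 355) (nat_lit 305)) (XT.nd (nat_lit 78) (nat_lit 0) (nat_lit 76) (XT.lf (nat_lit 76) (nat_lit 2682275417) (nat_lit 0) (nat_lit 3083941076) (nat_lit 836) (nat_lit 10833656433) (nat_lit 115) (nat_lit 5) (nat_lit 114) (nat_lit 5) (nat_lit 125) (nat_lit 5) (nat_lit 361) (nat_lit 355) (nat_lit 304)) (XT.lf (nat_lit 0) (nat_lit 8431330036) (nat_lit 760) (nat_lit 291104854) (nat_lit 76) (nat_lit 8572675778) (nat_lit 115) (nat_lit 5) (nat_lit 125) (nat_lit 5) (nat_lit 116) (nat_lit 5) (nat_lit 362) (nat_lit 355) (nat_lit 303))))) (XT.nd (nat_lit 234) (nat_lit 988) (nat_lit 0) (XT.nd (nat_lit 78) (nat_lit 760) (nat_lit 0) (XT.lf (nat_lit 0) (nat_lit 11604829946) (nat_lit 836) (nat_lit 3271873337) (nat_lit 76) (nat_lit 3154531997) (nat_lit 105) (nat_lit 5) (nat_lit 116) (nat_lit 5) (nat_lit 106) (nat_lit 5) (nat_lit 363) (nat_lit 355) (nat_lit 302)) (XT.nd (nat_lit 78) (nat_lit 380) (nat_lit 0) (XT.lf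 (nat_lit 0) (nat_lit 12413189672) (nat_lit 380) (nat_lit 2928501038) (nat_lit 456) (nat_lit 3469109842) (nat_lit 100) (nat_lit 5) (nat_lit 105) (nat_lit 5) (nat_lit 106) (nat_lit 5) (nat_lit 364) (nat_lit 355) (nat_lit 301)) (XT.lf (nat_lit 0) (nat_lit 73643312) (nat_lit 380) (nat_lit 9690974203) (nat_lit 76) (nat_lit 9871346952) (nat_lit 95) (nat_lit 5) (nat_lit 100) (nat_lit 5) (nat_lit 96) (nat_lit 5) (nat_lit 365) (nat_lit 355) (nat_lit 300)))) (XT.nd (nat_lit 78) (nat_lit 608) (nat_lit 0) (XT.lf (nat_lit 0) (nat_lit 4077687516) (nat_lit 456) (nat_lit 13170744954) (nat_lit 76) (nat_lit 3260915114) (nat_lit 90) (nat_lit 5) (nat_lit 96) (nat_lit 5) (nat_lit 91) (nat_lit 5) (nat_lit 366) (nat_lit 355) (nat_lit 299)) (XT.nd (nat_lit 78) (nat_lit 304) (nat_lit 0) (XT.lf (nat_lit 0) (nat_lit 4576493308) (nat_lit 304) (nat_lit 4202219744) (nat_lit 380) (nat_lit 12655074109) (nat_lit 86) (nat_lit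 5) (nat_lit 90) (nat_lit 5) (nat_lit 91) (nat_lit 5) (nat_lit 367) (nat_lit 355) (nat_lit 298)) (XT.lf (nat_lit 0) (nat_lit 1652988931) (nat_lit 304) (nat_lit 12586888426) (nat_lit 380) (nat_lit 8173119025) (nat_lit 82) (nat_lit 5) (nat_lit 86) (nat_lit 5) (nat_lit 87) (nat_lit 5) (nat_lit 368) (nat_lit 355) (nat_lit 297))))))) (XT.nd (nat_lit 936) (nat_lit 1672) (nat_lit 0) (XT.nd (nat_lit 468) (nat_lit 1064) (nat_lit 0) (XT.nd (nat_lit 234) (nat_lit 760) (nat_lit 0) (XT.nd (nat_lit 78) (nat_lit 608) (nat_lit 0) (XT.lf (nat_lit 0) (nat_lit 20499638209) (nat_lit 380) (nat_lit 1340306814) (nat_lit 76) (nat_lit 1612528180) (nat_lit 82) (nat_lit 5) (nat_lit 87) (nat_lit 5) (nat_lit 83) (nat_lit 5) (nat_lit 369) (nat_lit 355) (nat_lit 296)) (XT.nd (nat_lit 78) (nat_lit 304) (nat_lit 0) (XT.lf (nat_lit 0) (nat_lit 3106564062) (nat_lit 304) (nat_lit 4570586231) (nat_lit 76) (nat_lit 16870504373)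 (nat_lit 78) (nat_lit 5) (nat_lit 82) (nat_lit 5) (nat_lit 79) (nat_lit 5) (nat_lit 370) (nat_lit 355) (nat_lit 295)) (XT.lf (nat_lit 0) (nat_lit 9950306514) (nat_lit 380) (nat_lit 8032123920) (nat_lit 76) (nat_lit 7725460724) (nat_lit 74) (nat_lit 5) (nat_lit 79) (nat_lit 5) (nat_lit 75) (nat_lit 5) (nat_lit 371) (nat_lit 355) (nat_lit 294)))) (XT.nd (nat_lit 78) (nat_lit 532) (nat_lit 0) (XT.lf (nat_lit 0) (nat_lit 15233632855) (nat_lit 228) (nat_lit 2532693987) (nat_lit 304) (nat_lit 9173392923) (nat_lit 71) (nat_lit 5) (nat_lit 74) (nat_lit 5) (nat_lit 75) (nat_lit 5) (nat_lit 372) (nat_lit 355) (nat_lit 293)) (XT.nd (nat_lit 78) (nat_lit 304) (nat_lit 0) (XT.lf (nat_lit 0) (nat_lit 12531293295) (nat_lit 228) (nat_lit 14212874886) (nat_lit 304) (nat_lit 1499110735) (nat_lit 68) (nat_lit 5) (nat_lit 71) (nat_lit 5) (nat_lit 72) (nat_lit 5) (nat_lit 373) (nat_lit 355) (nat_lit 292)) (XT.lf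 (nat_lit 0) (nat_lit 6991892733) (nat_lit 304) (nat_lit 20058414357) (nat_lit 76) (nat_lit 2574522115) (nat_lit 64) (nat_lit 5) (nat_lit 68) (nat_lit 5) (nat_lit 65) (nat_lit 5) (nat_lit 374) (nat_lit 355) (nat_lit 291))))) (XT.nd (nat_lit 234) (nat_lit 608) (nat_lit 0) (XT.nd (nat_lit 78) (nat_lit 228) (nat_lit 0) (XT.lf (nat_lit 0) (nat_lit 6224904047) (nat_lit 228) (nat_lit 10480025390) (nat_lit 304) (nat_lit 14380990737) (nat_lit 61) (nat_lit 5) (nat_lit 64) (nat_lit 5) (nat_lit 65) (nat_lit 5) (nat_lit 375) (nat_lit 355) (nat_lit 290)) (XT.nd (nat_lit 78) (nat_lit 76) (nat_lit 0) (XT.lf (nat_lit 0) (nat_lit 2613488910) (nat_lit 152) (nat_lit 25073714815) (nat_lit 228) (nat_lit 4952093449) (nat_lit 59) (nat_lit 5) (nat_lit 61) (nat_lit 5) (nat_lit 62) (nat_lit 5) (nat_lit 376) (nat_lit 355) (nat_lit 289)) (XT.lf (nat_lit 0) (nat_lit 5661733612) (nat_lit 228) (nat_lit 1415782689) (nat_lit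 76) (nat_lit 27205449579) (nat_lit 58) (nat_lit 5) (nat_lit 61) (nat_lit 5) (nat_lit 59) (nat_lit 5) (nat_lit 377) (nat_lit 355) (nat_lit 288)))) (XT.nd (nat_lit 78) (nat_lit 380) (nat_lit 0) (XT.lf (nat_lit 0) (nat_lit 17611753481) (nat_lit 304) (nat_lit 5888951049) (nat_lit 76) (nat_lit 12520342193) (nat_lit 55) (nat_lit 5) (nat_lit 59) (nat_lit 5) (nat_lit 56) (nat_lit 5) (nat_lit 378) (nat_lit 355) (nat_lit 287)) (XT.nd (nat_lit 78) (nat_lit 228) (nat_lit 0) (XT.lf (nat_lit 0) (nat_lit 27078198491) (nat_lit 152) (nat_lit 3990070360) (nat_lit 228) (nat_lit 6802386904) (nat_lit 53) (nat_lit 5) (nat_lit 55) (nat_lit 5) (nat_lit 56) (nat_lit 5) (nat_lit 379) (nat_lit 355) (nat_lit 286)) (XT.lf (nat_lit 0) (nat_lit 6283085494) (nat_lit 228) (nat_lit 16445874398) (nat_lit 76) (nat_lit 17098128423) (nat_lit 50) (nat_lit 5) (nat_lit 53) (nat_lit 5) (nat_lit 51) (nat_lit 5) (nat_lit 380) (nat_lit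 355) (nat_lit 285)))))) (XT.nd (nat_lit 468) (nat_lit 836) (nat_lit 0) (XT.nd (nat_lit 234) (nat_lit 304) (nat_lit 0) (XT.nd (nat_lit 78) (nat_lit 380) (nat_lit 0) (XT.lf (nat_lit 0) (nat_lit 19146206844) (nat_lit 152) (nat_lit 1575906719) (nat_lit 228) (nat_lit 21185099410) (nat_lit 48) (nat_lit 5) (nat_lit 50) (nat_lit 5) (nat_lit 51) (nat_lit 5) (nat_lit 381) (nat_lit 355) (nat_lit 284)) (XT.nd (nat_lit 78) (nat_lit 228) (nat_lit 0) (XT.lf (nat_lit 0) (nat_lit 14124229728) (nat_lit 152) (nat_lit 23020992721) (nat_lit 228) (nat_lit 6967082077) (nat_lit 46) (nat_lit 5) (nat_lit 48) (nat_lit 5) (nat_lit 49) (nat_lit 5) (nat_lit 382) (nat_lit 355) (nat_lit 283)) (XT.lf (nat_lit 0) (nat_lit 8379263554) (nat_lit 152) (nat_lit 286697760) (nat_lit 228) (nat_lit 37793994805) (nat_lit 43) (nat_lit 5) (nat_lit 45) (nat_lit 5) (nat_lit 46) (nat_lit 5) (nat_lit 383) (nat_lit 355) (nat_lit 282)))) (XT.nd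 (nat_lit 78) (nat_lit 152) (nat_lit 0) (XT.lf (nat_lit 0) (nat_lit 1435100785) (nat_lit 152) (nat_lit 24792169379) (nat_lit 228) (nat_lit 22716357184) (nat_lit 41) (nat_lit 5) (nat_lit 43) (nat_lit 5) (nat_lit 44) (nat_lit 5) (nat_lit 384) (nat_lit 355) (nat_lit 281)) (XT.nd (nat_lit 78) (nat_lit 152) (nat_lit 0) (XT.lf (nat_lit 0) (nat_lit 45444556186) (nat_lit 152) (nat_lit 403936701) (nat_lit 228) (nat_lit 5744752597) (nat_lit 41) (nat_lit 5) (nat_lit 43) (nat_lit 5) (nat_lit 44) (nat_lit 5) (nat_lit 385) (nat_lit 355) (nat_lit 280)) (XT.lf (nat_lit 0) (nat_lit 13205386149) (nat_lit 152) (nat_lit 15264176753) (nat_lit 76) (nat_lit 25924269825) (nat_lit 39) (nat_lit 5) (nat_lit 41) (nat_lit 5) (nat_lit 40) (nat_lit 5) (nat_lit 386) (nat_lit 355) (nat_lit 279))))) (XT.nd (nat_lit 234) (nat_lit 380) (nat_lit 0) (XT.nd (nat_lit 78) (nat_lit 304) (nat_lit 0) (XT.lf (nat_lit 0) (nat_lit 31725982676)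 (nat_lit 152) (nat_lit 2346122281) (nat_lit 228) (nat_lit 23311564316) (nat_lit 37) (nat_lit 5) (nat_lit 39) (nat_lit 5) (nat_lit 40) (nat_lit 5) (nat_lit 387) (nat_lit 355) (nat_lit 278)) (XT.nd (nat_lit 78) (nat_lit 228) (nat_lit 0) (XT.lf (nat_lit 0) (nat_lit 22719719760) (nat_lit 76) (nat_lit 34905847342) (nat_lit 152) (nat_lit 2936258123) (nat_lit 36) (nat_lit 5) (nat_lit 37) (nat_lit 5) (nat_lit 38) (nat_lit 4) (nat_lit 388) (nat_lit 355) (nat_lit 277)) (XT.lf (nat_lit 0) (nat_lit 11929099254) (nat_lit 152) (nat_lit 7198657254) (nat_lit 228) (nat_lit 44818142838) (nat_lit 33) (nat_lit 5) (nat_lit 35) (nat_lit 5) (nat_lit 36) (nat_lit 5) (nat_lit 389) (nat_lit 355) (nat_lit 276)))) (XT.nd (nat_lit 156) (nat_lit 228) (nat_lit 0) (XT.nd (nat_lit 78) (nat_lit 152) (nat_lit 0) (XT.lf (nat_lit 0) (nat_lit 43869522626) (nat_lit 228) (nat_lit 968827551) (nat_lit 76) (nat_lit 22709169591) (nat_lit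 33) (nat_lit 5) (nat_lit 36) (nat_lit 5) (nat_lit 34) (nat_lit 4) (nat_lit 390) (nat_lit 355) (nat_lit 275)) (XT.lf (nat_lit 0) (nat_lit 179424703) (nat_lit 152) (nat_lit 15581022279) (nat_lit 76) (nat_lit 55627537421) (nat_lit 31) (nat_lit 5) (nat_lit 33) (nat_lit 5) (nat_lit 32) (nat_lit 5) (nat_lit 391) (nat_lit 355) (nat_lit 274))) (XT.nd (nat_lit 78) (nat_lit 76) (nat_lit 0) (XT.lf (nat_lit 0) (nat_lit 26061034574) (nat_lit 228) (nat_lit 33173816916) (nat_lit 76) (nat_lit 16234170574) (nat_lit 29) (nat_lit 5) (nat_lit 32) (nat_lit 5) (nat_lit 30) (nat_lit 4) (nat_lit 392) (nat_lit 355) (nat_lit 273)) (XT.lf (nat_lit 0) (nat_lit 26041241739) (nat_lit 76) (nat_lit 28910881945) (nat_lit 152) (nat_lit 24877473243) (nat_lit 28) (nat_lit 5) (nat_lit 29) (nat_lit 5) (nat_lit 30) (nat_lit 4) (nat_lit 393) (nat_lit 355) (nat_lit 272))))))))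
noncomputable def xc74 : XT := (XT.nd (nat_lit 1872) (nat_lit 456) (nat_lit 0) (XT.nd (nat_lit 936) (nat_lit 532) (nat_lit 0) (XT.nd (nat_lit 468) (nat_lit 456) (nat_lit 0) (XT.nd (nat_lit 234) (nat_lit 228) (nat_lit 0) (XT.nd (nat_lit 78) (nat_lit 76) (nat_lit 0) (XT.lf (nat_lit 0) (nat_lit 2320496346) (nat_lit 152) (nat_lit 77739574007) (nat_lit 76) (nat_lit 4439851839) (nat_lit 26) (nat_lit 5) (nat_lit 28) (nat_lit 5) (nat_lit 27) (nat_lit 4) (nat_lit 394) (nat_lit 355) (nat_lit 271)) (XT.nd (nat_lit 78) (nat_lit 76) (nat_lit 0) (XT.lf (nat_lit 0) (nat_lit 32265528541) (nat_lit 152) (nat_lit 16361790000) (nat_lit 76) (nat_lit 40824024438) (nat_lit 26) (nat_lit 5) (nat_lit 28) (nat_lit 5) (nat_lit 27) (nat_lit 4) (nat_lit 395) (nat_lit 355) (nat_lit 270)) (XT.lf (nat_lit 0) (nat_lit 51561557471) (nat_lit 76) (nat_lit 13841616626) (nat_lit 152) (nat_lit 29355854085) (nat_lit 25) (nat_lit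 5) (nat_lit 26) (nat_lit 5) (nat_lit 27) (nat_lit 4) (nat_lit 396) (nat_lit 355) (nat_lit 269)))) (XT.nd (nat_lit 78) (nat_lit 76) (nat_lit 0) (XT.lf (nat_lit 0) (nat_lit 1745034198) (nat_lit 152) (nat_lit 75016129013) (nat_lit 76) (nat_lit 23676271713) (nat_lit 23) (nat_lit 5) (nat_lit 25) (nat_lit 5) (nat_lit 24) (nat_lit 4) (nat_lit 397) (nat_lit 355) (nat_lit 268)) (XT.nd (nat_lit 78) (nat_lit 76) (nat_lit 0) (XT.lf (nat_lit 0) (nat_lit 35309949903) (nat_lit 152) (nat_lit 6215258296) (nat_lit 76) (nat_lit 64970622761) (nat_lit 23) (nat_lit 5) (nat_lit 25) (nat_lit 5) (nat_lit 24) (nat_lit 4) (nat_lit 398) (nat_lit 355) (nat_lit 267)) (XT.lf (nat_lit 0) (nat_lit 70327455186) (nat_lit 76) (nat_lit 2323658692) (nat_lit 152) (nat_lit 40333233030) (nat_lit 22) (nat_lit 5) (nat_lit 23) (nat_lit 5) (nat_lit 24) (nat_lit 4) (nat_lit 399) (nat_lit 355) (nat_lit 266))))) (XT.nd (nat_lit 234) (nat_lit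 228) (nat_lit 0) (XT.nd (nat_lit 78) (nat_lit 152) (nat_lit 0) (XT.lf (nat_lit 0) (nat_lit 33667242696) (nat_lit 76) (nat_lit 80566012242) (nat_lit 76) (nat_lit 5696005901) (nat_lit 21) (nat_lit 4) (nat_lit 22) (nat_lit 5) (nat_lit 22) (nat_lit 4) (nat_lit 400) (nat_lit 355) (nat_lit 265)) (XT.nd (nat_lit 78) (nat_lit 76) (nat_lit 0) (XT.lf (nat_lit 0) (nat_lit 31485102195) (nat_lit 152) (nat_lit 10330995159) (nat_lit 76) (nat_lit 85549520951) (nat_lit 20) (nat_lit 5) (nat_lit 22) (nat_lit 5) (nat_lit 21) (nat_lit 4) (nat_lit 401) (nat_lit 355) (nat_lit 264)) (XT.lf (nat_lit 0) (nat_lit 72613007886) (nat_lit 152) (nat_lit 61422368352) (nat_lit 0) (nat_lit 1298246552) (nat_lit 19) (nat_lit 5) (nat_lit 21) (nat_lit 4) (nat_lit 19) (nat_lit 4) (nat_lit 402) (nat_lit 355) (nat_lit 263)))) (XT.nd (nat_lit 78) (nat_lit 152) (nat_lit 0) (XT.lf (nat_lit 0) (nat_lit 21293971048) (nat_lit 76) (nat_lit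 96951788282) (nat_lit 76) (nat_lit 25632578323) (nat_lit 18) (nat_lit 4) (nat_lit 19) (nat_lit 5) (nat_lit 19) (nat_lit 4) (nat_lit 403) (nat_lit 355) (nat_lit 262)) (XT.nd (nat_lit 78) (nat_lit 76) (nat_lit 0) (XT.lf (nat_lit 0) (nat_lit 15042691722) (nat_lit 152) (nat_lit 40485811024) (nat_lit 76) (nat_lit 97512778748) (nat_lit 17) (nat_lit 5) (nat_lit 19) (nat_lit 5) (nat_lit 18) (nat_lit 4) (nat_lit 404) (nat_lit 355) (nat_lit 261)) (XT.lf (nat_lit 0) (nat_lit 49316718072) (nat_lit 76) (nat_lit 9533945881) (nat_lit 152) (nat_lit 104026751073) (nat_lit 16) (nat_lit 5) (nat_lit 17) (nat_lit 5) (nat_lit 18) (nat_lit 4) (nat_lit 405) (nat_lit 355) (nat_lit 260)))))) (XT.nd (nat_lit 468) (nat_lit 228) (nat_lit 0) (XT.nd (nat_lit 234) (nat_lit 152) (nat_lit 0) (XT.nd (nat_lit 78) (nat_lit 152) (nat_lit 0) (XT.lf (nat_lit 0) (nat_lit 107501680588) (nat_lit 152) (nat_lit 26364133964) (nat_lit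 0) (nat_lit 39567704878) (nat_lit 16) (nat_lit 5) (nat_lit 18) (nat_lit 4) (nat_lit 16) (nat_lit 4) (nat_lit 406) (nat_lit 355) (nat_lit 259)) (XT.nd (nat_lit 78) (nat_lit 76) (nat_lit 0) (XT.lf (nat_lit 0) (nat_lit 69874672616) (nat_lit 76) (nat_lit 91417090350) (nat_lit 76) (nat_lit 23480000476) (nat_lit 15) (nat_lit 4) (nat_lit 16) (nat_lit 5) (nat_lit 16) (nat_lit 4) (nat_lit 407) (nat_lit 355) (nat_lit 258)) (XT.lf (nat_lit 0) (nat_lit 22114268182) (nat_lit 152) (nat_lit 22605723584) (nat_lit 76) (nat_lit 152256504365) (nat_lit 14) (nat_lit 5) (nat_lit 16) (nat_lit 5) (nat_lit 15) (nat_lit 4) (nat_lit 408) (nat_lit 355) (nat_lit 257)))) (XT.nd (nat_lit 78) (nat_lit 76) (nat_lit 0) (XT.lf (nat_lit 0) (nat_lit 71892635541) (nat_lit 152) (nat_lit 130992411028) (nat_lit 0) (nat_lit 7185356253) (nat_lit 13) (nat_lit 5) (nat_lit 15) (nat_lit 4) (nat_lit 13) (nat_lit 4) (nat_lit 409) (nat_lit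 355) (nat_lit 256)) (XT.nd (nat_lit 78) (nat_lit 76) (nat_lit 0) (XT.lf (nat_lit 0) (nat_lit 126803458989) (nat_lit 152) (nat_lit 35257028786) (nat_lit 0) (nat_lit 62093825299) (nat_lit 13) (nat_lit 5) (nat_lit 15) (nat_lit 4) (nat_lit 13) (nat_lit 4) (nat_lit 410) (nat_lit 355) (nat_lit 255)) (XT.lf (nat_lit 0) (nat_lit 70382428915) (nat_lit 76) (nat_lit 116819784016) (nat_lit 76) (nat_lit 52107970322) (nat_lit 12) (nat_lit 4) (nat_lit 13) (nat_lit 5) (nat_lit 13) (nat_lit 4) (nat_lit 411) (nat_lit 355) (nat_lit 254))))) (XT.nd (nat_lit 234) (nat_lit 76) (nat_lit 0) (XT.nd (nat_lit 78) (nat_lit 152) (nat_lit 0) (XT.lf (nat_lit 0) (nat_lit 185724950971) (nat_lit 76) (nat_lit 67318439225) (nat_lit 76) (nat_lit 2604607010) (nat_lit 12) (nat_lit 4) (nat_lit 13) (nat_lit 5) (nat_lit 13) (nat_lit 4) (nat_lit 412) (nat_lit 355) (nat_lit 253)) (XT.nd (nat_lit 78) (nat_lit 0) (nat_lit 0) (XT.lf (nat_lit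 0) (nat_lit 37398268695) (nat_lit 76) (nat_lit 12413423944) (nat_lit 152) (nat_lit 223412417628) (nat_lit 10) (nat_lit 5) (nat_lit 11) (nat_lit 5) (nat_lit 12) (nat_lit 4) (nat_lit 413) (nat_lit 355) (nat_lit 252)) (XT.lf (nat_lit 0) (nat_lit 108297921880) (nat_lit 152) (nat_lit 137145589333) (nat_lit 0) (nat_lit 46662272573) (nat_lit 10) (nat_lit 5) (nat_lit 12) (nat_lit 4) (nat_lit 10) (nat_lit 4) (nat_lit 414) (nat_lit 355) (nat_lit 251)))) (XT.nd (nat_lit 78) (nat_lit 76) (nat_lit 0) (XT.lf (nat_lit 0) (nat_lit 171669294024) (nat_lit 152) (nat_lit 30786266516) (nat_lit 0) (nat_lit 110032118652) (nat_lit 10) (nat_lit 5) (nat_lit 12) (nat_lit 4) (nat_lit 10) (nat_lit 4) (nat_lit 415) (nat_lit 355) (nat_lit 250)) (XT.nd (nat_lit 78) (nat_lit 0) (nat_lit 0) (XT.lf (nat_lit 0) (nat_lit 86856151973) (nat_lit 76) (nat_lit 154607450765) (nat_lit 76) (nat_lit 92968862371) (nat_lit 9) (nat_lit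 4) (nat_lit 10) (nat_lit 5) (nat_lit 10) (nat_lit 4) (nat_lit 416) (nat_lit 355) (nat_lit 249)) (XT.lf (nat_lit 0) (nat_lit 215003985056) (nat_lit 76) (nat_lit 102371033828) (nat_lit 76) (nat_lit 40731137080) (nat_lit 9) (nat_lit 4) (nat_lit 10) (nat_lit 5) (nat_lit 10) (nat_lit 4) (nat_lit 417) (nat_lit 355) (nat_lit 248))))))) (XT.nd (nat_lit 936) (nat_lit 76) (nat_lit 0) (XT.nd (nat_lit 468) (nat_lit 152) (nat_lit 0) (XT.nd (nat_lit 234) (nat_lit 76) (nat_lit 0) (XT.nd (nat_lit 78) (nat_lit 76) (nat_lit 0) (XT.lf (nat_lit 0) (nat_lit 15181014379) (nat_lit 152) (nat_lit 30520028708) (nat_lit 76) (nat_lit 337960582089) (nat_lit 8) (nat_lit 5) (nat_lit 10) (nat_lit 5) (nat_lit 9) (nat_lit 4) (nat_lit 418) (nat_lit 355) (nat_lit 247)) (XT.nd (nat_lit 78) (nat_lit 0) (nat_lit 0) (XT.lf (nat_lit 0) (nat_lit 75890685037) (nat_lit 152) (nat_lit 318066083060) (nat_lit 0) (nat_lit 17183799429) (nat_lit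 7) (nat_lit 5) (nat_lit 9) (nat_lit 4) (nat_lit 7) (nat_lit 4) (nat_lit 419) (nat_lit 355) (nat_lit 246)) (XT.lf (nat_lit 0) (nat_lit 142765792983) (nat_lit 152) (nat_lit 213928681033) (nat_lit 0) (nat_lit 84057918218) (nat_lit 7) (nat_lit 5) (nat_lit 9) (nat_lit 4) (nat_lit 7) (nat_lit 4) (nat_lit 420) (nat_lit 355) (nat_lit 245)))) (XT.nd (nat_lit 78) (nat_lit 76) (nat_lit 0) (XT.lf (nat_lit 0) (nat_lit 214988785452) (nat_lit 152) (nat_lit 101464489010) (nat_lit 0) (nat_lit 156279994803) (nat_lit 7) (nat_lit 5) (nat_lit 9) (nat_lit 4) (nat_lit 7) (nat_lit 4) (nat_lit 421) (nat_lit 355) (nat_lit 244)) (XT.nd (nat_lit 78) (nat_lit 0) (nat_lit 0) (XT.lf (nat_lit 0) (nat_lit 20654004613) (nat_lit 76) (nat_lit 272656112831) (nat_lit 76) (nat_lit 213946474140) (nat_lit 6) (nat_lit 4) (nat_lit 7) (nat_lit 5) (nat_lit 7) (nat_lit 4) (nat_lit 422) (nat_lit 355) (nat_lit 243)) (XT.lf (nat_lit 0)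 (nat_lit 156161520097) (nat_lit 76) (nat_lit 223501202644) (nat_lit 76) (nat_lit 164790778729) (nat_lit 6) (nat_lit 4) (nat_lit 7) (nat_lit 5) (nat_lit 7) (nat_lit 4) (nat_lit 423) (nat_lit 355) (nat_lit 242))))) (XT.nd (nat_lit 234) (nat_lit 76) (nat_lit 0) (XT.nd (nat_lit 78) (nat_lit 76) (nat_lit 0) (XT.lf (nat_lit 0) (nat_lit 302506190707) (nat_lit 76) (nat_lit 170415605764) (nat_lit 76) (nat_lit 111704454789) (nat_lit 6) (nat_lit 4) (nat_lit 7) (nat_lit 5) (nat_lit 7) (nat_lit 4) (nat_lit 424) (nat_lit 355) (nat_lit 241)) (XT.nd (nat_lit 78) (nat_lit 76) (nat_lit 0) (XT.lf (nat_lit 0) (nat_lit 460555244121) (nat_lit 76) (nat_lit 113084740874) (nat_lit 76) (nat_lit 54372916697) (nat_lit 6) (nat_lit 4) (nat_lit 7) (nat_lit 5) (nat_lit 7) (nat_lit 4) (nat_lit 425) (nat_lit 355) (nat_lit 240)) (XT.lf (nat_lit 0) (nat_lit 7302136389) (nat_lit 152) (nat_lit 43743067913) (nat_lit 76) (nat_lit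 623819465719) (nat_lit 5) (nat_lit 5) (nat_lit 7) (nat_lit 5) (nat_lit 6) (nat_lit 4) (nat_lit 426) (nat_lit 355) (nat_lit 239)))) (XT.nd (nat_lit 78) (nat_lit 0) (nat_lit 0) (XT.lf (nat_lit 0) (nat_lit 73752626291) (nat_lit 152) (nat_lit 633744605980) (nat_lit 0) (nat_lit 17835459933) (nat_lit 4) (nat_lit 5) (nat_lit 6) (nat_lit 4) (nat_lit 4) (nat_lit 4) (nat_lit 427) (nat_lit 355) (nat_lit 238)) (XT.nd (nat_lit 78) (nat_lit 0) (nat_lit 0) (XT.lf (nat_lit 0) (nat_lit 147152976060) (nat_lit 152) (nat_lit 541368188405) (nat_lit 0) (nat_lit 91235300740) (nat_lit 4) (nat_lit 5) (nat_lit 6) (nat_lit 4) (nat_lit 4) (nat_lit 4) (nat_lit 428) (nat_lit 355) (nat_lit 237)) (XT.lf (nat_lit 0) (nat_lit 226424092565) (nat_lit 152) (nat_lit 441604164632) (nat_lit 0) (nat_lit 170505945983) (nat_lit 4) (nat_lit 5) (nat_lit 6) (nat_lit 4) (nat_lit 4) (nat_lit 4) (nat_lit 429) (nat_lit 355) (nat_lit 236))))))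 (XT.nd (nat_lit 47502) (nat_lit 0) (nat_lit 7752) (XT.nd (nat_lit 234) (nat_lit 76) (nat_lit 0) (XT.nd (nat_lit 78) (nat_lit 0) (nat_lit 0) (XT.lf (nat_lit 0) (nat_lit 312035730570) (nat_lit 152) (nat_lit 333861340446) (nat_lit 0) (nat_lit 256117147636) (nat_lit 4) (nat_lit 5) (nat_lit 6) (nat_lit 4) (nat_lit 4) (nat_lit 4) (nat_lit 430) (nat_lit 355) (nat_lit 235)) (XT.nd (nat_lit 78) (nat_lit 0) (nat_lit 0) (XT.lf (nat_lit 0) (nat_lit 404495218300) (nat_lit 152) (nat_lit 217501239853) (nat_lit 0) (nat_lit 348576231336) (nat_lit 4) (nat_lit 5) (nat_lit 6) (nat_lit 4) (nat_lit 4) (nat_lit 4) (nat_lit 431) (nat_lit 355) (nat_lit 234)) (XT.lf (nat_lit 0) (nat_lit 504350463832) (nat_lit 152) (nat_lit 91834321515) (nat_lit 0) (nat_lit 448431102765) (nat_lit 4) (nat_lit 5) (nat_lit 6) (nat_lit 4) (nat_lit 4) (nat_lit 4) (nat_lit 432) (nat_lit 355) (nat_lit 233)))) (XT.nd (nat_lit 47112) (nat_lit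 0) (nat_lit 8968) (XT.lf (nat_lit 0) (nat_lit 45335114194) (nat_lit 76) (nat_lit 567565895943) (nat_lit 76) (nat_lit 511646188485) (nat_lit 3) (nat_lit 4) (nat_lit 4) (nat_lit 5) (nat_lit 4) (nat_lit 4) (nat_lit 433) (nat_lit 355) (nat_lit 232)) (XT.nd (nat_lit 78) (nat_lit 0) (nat_lit 0) (XT.lf (nat_lit 0) (nat_lit 3192037617) (nat_lit 0) (nat_lit 3192037617) (nat_lit 684) (nat_lit 700587013) (nat_lit 121) (nat_lit 5) (nat_lit 121) (nat_lit 3) (nat_lit 130) (nat_lit 3) (nat_lit 356) (nat_lit 356) (nat_lit 308)) (XT.lf (nat_lit 76) (nat_lit 3183765211) (nat_lit 0) (nat_lit 10714149947) (nat_lit 760) (nat_lit 806848962) (nat_lit 122) (nat_lit 5) (nat_lit 121) (nat_lit 5) (nat_lit 131) (nat_lit 5) (nat_lit 357) (nat_lit 356) (nat_lit 307))))) (XT.nd (nat_lit 234) (nat_lit 456) (nat_lit 0) (XT.nd (nat_lit 78) (nat_lit 0) (nat_lit 76) (XT.lf (nat_lit 0) (nat_lit 34257338) (nat_lit 760) (nat_lit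 106181687) (nat_lit 836) (nat_lit 15133067275) (nat_lit 111) (nat_lit 5) (nat_lit 121) (nat_lit 5) (nat_lit 122) (nat_lit 5) (nat_lit 358) (nat_lit 356) (nat_lit 306)) (XT.nd (nat_lit 78) (nat_lit 0) (nat_lit 76) (XT.lf (nat_lit 0) (nat_lit 1243334740) (nat_lit 760) (nat_lit 3477224394) (nat_lit 836) (nat_lit 11150113488) (nat_lit 112) (nat_lit 5) (nat_lit 122) (nat_lit 5) (nat_lit 123) (nat_lit 5) (nat_lit 359) (nat_lit 356) (nat_lit 305)) (XT.lf (nat_lit 0) (nat_lit 2769101700) (nat_lit 760) (nat_lit 6961260901) (nat_lit 836) (nat_lit 6774282639) (nat_lit 113) (nat_lit 5) (nat_lit 123) (nat_lit 5) (nat_lit 124) (nat_lit 5) (nat_lit 360) (nat_lit 356) (nat_lit 304)))) (XT.nd (nat_lit 156) (nat_lit 684) (nat_lit 0) (XT.nd (nat_lit 78) (nat_lit 0) (nat_lit 0) (XT.lf (nat_lit 0) (nat_lit 4652135705) (nat_lit 760) (nat_lit 10566137012) (nat_lit 836) (nat_lit 1959331516) (nat_lit 114) (nat_lit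 5) (nat_lit 124) (nat_lit 5) (nat_lit 125) (nat_lit 5) (nat_lit 361) (nat_lit 356) (nat_lit 303)) (XT.lf (nat_lit 76) (nat_lit 3535669546) (nat_lit 0) (nat_lit 3454105023) (nat_lit 836) (nat_lit 10899453983) (nat_lit 115) (nat_lit 5) (nat_lit 114) (nat_lit 5) (nat_lit 125) (nat_lit 5) (nat_lit 362) (nat_lit 356) (nat_lit 302))) (XT.nd (nat_lit 78) (nat_lit 0) (nat_lit 0) (XT.lf (nat_lit 0) (nat_lit 325060426) (nat_lit 760) (nat_lit 9489863503) (nat_lit 836) (nat_lit 8827858654) (nat_lit 105) (nat_lit 5) (nat_lit 115) (nat_lit 5) (nat_lit 116) (nat_lit 5) (nat_lit 363) (nat_lit 356) (nat_lit 301)) (XT.lf (nat_lit 0) (nat_lit 13193544396) (nat_lit 836) (nat_lit 2897471850) (nat_lit 76) (nat_lit 3349254634) (nat_lit 105) (nat_lit 5) (nat_lit 116) (nat_lit 5) (nat_lit 106) (nat_lit 5) (nat_lit 364) (nat_lit 356) (nat_lit 300))))))))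
noncomputable def xc75 : XT := (XT.nd (nat_lit 1872) (nat_lit 1900) (nat_lit 0) (XT.nd (nat_lit 936) (nat_lit 1824) (nat_lit 0) (XT.nd (nat_lit 468) (nat_lit 1596) (nat_lit 0) (XT.nd (nat_lit 234) (nat_lit 608) (nat_lit 0) (XT.nd (nat_lit 78) (nat_lit 760) (nat_lit 0) (XT.lf (nat_lit 0) (nat_lit 14014749837) (nat_lit 380) (nat_lit 3175191463) (nat_lit 456) (nat_lit 3094263808) (nat_lit 100) (nat_lit 5) (nat_lit 105) (nat_lit 5) (nat_lit 106) (nat_lit 5) (nat_lit 365) (nat_lit 356) (nat_lit 299)) (XT.nd (nat_lit 78) (nat_lit 380) (nat_lit 0) (XT.lf (nat_lit 0) (nat_lit 673786827) (nat_lit 380) (nat_lit 9833900906) (nat_lit 76) (nat_lit 10669076455) (nat_lit 95) (nat_lit 5) (nat_lit 100) (nat_lit 5) (nat_lit 96) (nat_lit 5) (nat_lit 366) (nat_lit 356) (nat_lit 298)) (XT.lf (nat_lit 0) (nat_lit 4964285201) (nat_lit 456) (nat_lit 13591918455) (nat_lit 76) (nat_lit 3565534791) (nat_lit 90) (nat_lit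 5) (nat_lit 96) (nat_lit 5) (nat_lit 91) (nat_lit 5) (nat_lit 367) (nat_lit 356) (nat_lit 297)))) (XT.nd (nat_lit 78) (nat_lit 304) (nat_lit 0) (XT.lf (nat_lit 0) (nat_lit 5547611792) (nat_lit 304) (nat_lit 4461716890) (nat_lit 380) (nat_lit 13112432737) (nat_lit 86) (nat_lit 5) (nat_lit 90) (nat_lit 5) (nat_lit 91) (nat_lit 5) (nat_lit 368) (nat_lit 356) (nat_lit 296)) (XT.nd (nat_lit 78) (nat_lit 0) (nat_lit 0) (XT.lf (nat_lit 0) (nat_lit 2388356496) (nat_lit 304) (nat_lit 13490419967) (nat_lit 380) (nat_lit 8301984568) (nat_lit 82) (nat_lit 5) (nat_lit 86) (nat_lit 5) (nat_lit 87) (nat_lit 5) (nat_lit 369) (nat_lit 356) (nat_lit 295)) (XT.lf (nat_lit 0) (nat_lit 22603797770) (nat_lit 380) (nat_lit 867171319) (nat_lit 76) (nat_lit 1834224382) (nat_lit 82) (nat_lit 5) (nat_lit 87) (nat_lit 5) (nat_lit 83) (nat_lit 5) (nat_lit 370) (nat_lit 356) (nat_lit 294))))) (XT.nd (nat_lit 234) (nat_lit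 760) (nat_lit 0) (XT.nd (nat_lit 78) (nat_lit 532) (nat_lit 0) (XT.lf (nat_lit 0) (nat_lit 3800989031) (nat_lit 304) (nat_lit 4366114891) (nat_lit 76) (nat_lit 18321831649) (nat_lit 78) (nat_lit 5) (nat_lit 82) (nat_lit 5) (nat_lit 79) (nat_lit 5) (nat_lit 371) (nat_lit 356) (nat_lit 293)) (XT.nd (nat_lit 78) (nat_lit 228) (nat_lit 0) (XT.lf (nat_lit 0) (nat_lit 11169650889) (nat_lit 380) (nat_lit 8109999370) (nat_lit 76) (nat_lit 8463487240) (nat_lit 74) (nat_lit 5) (nat_lit 79) (nat_lit 5) (nat_lit 75) (nat_lit 5) (nat_lit 372) (nat_lit 356) (nat_lit 292)) (XT.lf (nat_lit 0) (nat_lit 16992477014) (nat_lit 228) (nat_lit 2595552114) (nat_lit 304) (nat_lit 9486645672) (nat_lit 71) (nat_lit 5) (nat_lit 74) (nat_lit 5) (nat_lit 75) (nat_lit 5) (nat_lit 373) (nat_lit 356) (nat_lit 291)))) (XT.nd (nat_lit 78) (nat_lit 532) (nat_lit 0) (XT.lf (nat_lit 0) (nat_lit 14067732398) (nat_lit 228) (nat_lit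 15197063010) (nat_lit 304) (nat_lit 1218703412) (nat_lit 68) (nat_lit 5) (nat_lit 71) (nat_lit 5) (nat_lit 72) (nat_lit 5) (nat_lit 374) (nat_lit 356) (nat_lit 290)) (XT.nd (nat_lit 78) (nat_lit 228) (nat_lit 0) (XT.lf (nat_lit 0) (nat_lit 7920667953) (nat_lit 304) (nat_lit 21123852125) (nat_lit 76) (nat_lit 2931658731) (nat_lit 64) (nat_lit 5) (nat_lit 68) (nat_lit 5) (nat_lit 65) (nat_lit 5) (nat_lit 375) (nat_lit 356) (nat_lit 289)) (XT.lf (nat_lit 0) (nat_lit 7238697238) (nat_lit 228) (nat_lit 11152738727) (nat_lit 304) (nat_lit 15163698936) (nat_lit 61) (nat_lit 5) (nat_lit 64) (nat_lit 5) (nat_lit 65) (nat_lit 5) (nat_lit 376) (nat_lit 356) (nat_lit 288)))))) (XT.nd (nat_lit 468) (nat_lit 836) (nat_lit 0) (XT.nd (nat_lit 234) (nat_lit 532) (nat_lit 0) (XT.nd (nat_lit 78) (nat_lit 304) (nat_lit 0) (XT.lf (nat_lit 0) (nat_lit 3330369823) (nat_lit 152) (nat_lit 26906311593) (nat_lit 228)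 (nat_lit 4996892539) (nat_lit 59) (nat_lit 5) (nat_lit 61) (nat_lit 5) (nat_lit 62) (nat_lit 5) (nat_lit 377) (nat_lit 356) (nat_lit 287)) (XT.nd (nat_lit 78) (nat_lit 228) (nat_lit 0) (XT.lf (nat_lit 0) (nat_lit 6429600453) (nat_lit 228) (nat_lit 1048320352) (nat_lit 76) (nat_lit 29531810785) (nat_lit 58) (nat_lit 5) (nat_lit 61) (nat_lit 5) (nat_lit 59) (nat_lit 5) (nat_lit 378) (nat_lit 356) (nat_lit 286)) (XT.lf (nat_lit 0) (nat_lit 19321987687) (nat_lit 304) (nat_lit 5887693549) (nat_lit 76) (nat_lit 13677868647) (nat_lit 55) (nat_lit 5) (nat_lit 59) (nat_lit 5) (nat_lit 56) (nat_lit 5) (nat_lit 379) (nat_lit 356) (nat_lit 285)))) (XT.nd (nat_lit 78) (nat_lit 380) (nat_lit 0) (XT.lf (nat_lit 0) (nat_lit 29696299174) (nat_lit 152) (nat_lit 4143461606) (nat_lit 228) (nat_lit 7046138615) (nat_lit 53) (nat_lit 5) (nat_lit 55) (nat_lit 5) (nat_lit 56) (nat_lit 5) (nat_lit 380) (nat_lit 356)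 (nat_lit 284)) (XT.nd (nat_lit 78) (nat_lit 152) (nat_lit 0) (XT.lf (nat_lit 0) (nat_lit 7064487555) (nat_lit 228) (nat_lit 17308718335) (nat_lit 76) (nat_lit 18626017111) (nat_lit 50) (nat_lit 5) (nat_lit 53) (nat_lit 5) (nat_lit 51) (nat_lit 5) (nat_lit 381) (nat_lit 356) (nat_lit 283)) (XT.lf (nat_lit 0) (nat_lit 21111050141) (nat_lit 152) (nat_lit 1533701829) (nat_lit 228) (nat_lit 22601706965) (nat_lit 48) (nat_lit 5) (nat_lit 50) (nat_lit 5) (nat_lit 51) (nat_lit 5) (nat_lit 382) (nat_lit 356) (nat_lit 282))))) (XT.nd (nat_lit 234) (nat_lit 304) (nat_lit 0) (XT.nd (nat_lit 78) (nat_lit 380) (nat_lit 0) (XT.lf (nat_lit 0) (nat_lit 15678729446) (nat_lit 152) (nat_lit 24692421431) (nat_lit 228) (nat_lit 7257341358) (nat_lit 46) (nat_lit 5) (nat_lit 48) (nat_lit 5) (nat_lit 49) (nat_lit 5) (nat_lit 383) (nat_lit 356) (nat_lit 281)) (XT.nd (nat_lit 78) (nat_lit 152) (nat_lit 0) (XT.lf (nat_lit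 0) (nat_lit 9463966528) (nat_lit 152) (nat_lit 141146768) (nat_lit 228) (nat_lit 40559274024) (nat_lit 43) (nat_lit 5) (nat_lit 45) (nat_lit 5) (nat_lit 46) (nat_lit 5) (nat_lit 384) (nat_lit 356) (nat_lit 280)) (XT.lf (nat_lit 0) (nat_lit 1955574753) (nat_lit 152) (nat_lit 26606308409) (nat_lit 228) (nat_lit 24285346568) (nat_lit 41) (nat_lit 5) (nat_lit 43) (nat_lit 5) (nat_lit 44) (nat_lit 5) (nat_lit 385) (nat_lit 356) (nat_lit 279)))) (XT.nd (nat_lit 78) (nat_lit 304) (nat_lit 0) (XT.lf (nat_lit 0) (nat_lit 49455737259) (nat_lit 152) (nat_lit 279553007) (nat_lit 228) (nat_lit 5974407628) (nat_lit 41) (nat_lit 5) (nat_lit 43) (nat_lit 5) (nat_lit 44) (nat_lit 5) (nat_lit 386) (nat_lit 356) (nat_lit 278)) (XT.nd (nat_lit 78) (nat_lit 152) (nat_lit 0) (XT.lf (nat_lit 0) (nat_lit 14476030684) (nat_lit 152) (nat_lit 16110692516) (nat_lit 76) (nat_lit 28147851380) (nat_lit 39) (nat_lit 5)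 (nat_lit 41) (nat_lit 5) (nat_lit 40) (nat_lit 5) (nat_lit 387) (nat_lit 356) (nat_lit 277)) (XT.lf (nat_lit 0) (nat_lit 34622399210) (nat_lit 152) (nat_lit 2379414769) (nat_lit 228) (nat_lit 24962301729) (nat_lit 37) (nat_lit 5) (nat_lit 39) (nat_lit 5) (nat_lit 40) (nat_lit 5) (nat_lit 388) (nat_lit 356) (nat_lit 276))))))) (XT.nd (nat_lit 936) (nat_lit 760) (nat_lit 0) (XT.nd (nat_lit 468) (nat_lit 456) (nat_lit 0) (XT.nd (nat_lit 234) (nat_lit 380) (nat_lit 0) (XT.nd (nat_lit 78) (nat_lit 228) (nat_lit 0) (XT.lf (nat_lit 0) (nat_lit 24887558298) (nat_lit 76) (nat_lit 37544588653) (nat_lit 152) (nat_lit 2964751201) (nat_lit 36) (nat_lit 5) (nat_lit 37) (nat_lit 5) (nat_lit 38) (nat_lit 4) (nat_lit 389) (nat_lit 356) (nat_lit 275)) (XT.nd (nat_lit 78) (nat_lit 0) (nat_lit 0) (XT.lf (nat_lit 0) (nat_lit 13224827706) (nat_lit 152) (nat_lit 7623480691) (nat_lit 228) (nat_lit 48203705441) (nat_lit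 33) (nat_lit 5) (nat_lit 35) (nat_lit 5) (nat_lit 36) (nat_lit 5) (nat_lit 390) (nat_lit 356) (nat_lit 274)) (XT.lf (nat_lit 0) (nat_lit 47557501085) (nat_lit 228) (nat_lit 723556574) (nat_lit 76) (nat_lit 24661304999) (nat_lit 33) (nat_lit 5) (nat_lit 36) (nat_lit 5) (nat_lit 34) (nat_lit 4) (nat_lit 391) (nat_lit 356) (nat_lit 273)))) (XT.nd (nat_lit 78) (nat_lit 228) (nat_lit 0) (XT.lf (nat_lit 0) (nat_lit 366620891) (nat_lit 152) (nat_lit 16513006053) (nat_lit 76) (nat_lit 60210720714) (nat_lit 31) (nat_lit 5) (nat_lit 33) (nat_lit 5) (nat_lit 32) (nat_lit 5) (nat_lit 392) (nat_lit 356) (nat_lit 272)) (XT.nd (nat_lit 78) (nat_lit 76) (nat_lit 0) (XT.lf (nat_lit 0) (nat_lit 28312778044) (nat_lit 228) (nat_lit 35520749069) (nat_lit 76) (nat_lit 17664642768) (nat_lit 29) (nat_lit 5) (nat_lit 32) (nat_lit 5) (nat_lit 30) (nat_lit 4) (nat_lit 393) (nat_lit 356) (nat_lit 271)) (XT.lf (nat_lit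 0) (nat_lit 28418173597) (nat_lit 76) (nat_lit 31089205061) (nat_lit 152) (nat_lit 26700603147) (nat_lit 28) (nat_lit 5) (nat_lit 29) (nat_lit 5) (nat_lit 30) (nat_lit 4) (nat_lit 394) (nat_lit 356) (nat_lit 270))))) (XT.nd (nat_lit 234) (nat_lit 228) (nat_lit 0) (XT.nd (nat_lit 78) (nat_lit 76) (nat_lit 0) (XT.lf (nat_lit 0) (nat_lit 2662400790) (nat_lit 152) (nat_lit 83667049681) (nat_lit 76) (nat_lit 4922627019) (nat_lit 26) (nat_lit 5) (nat_lit 28) (nat_lit 5) (nat_lit 27) (nat_lit 4) (nat_lit 395) (nat_lit 356) (nat_lit 269)) (XT.nd (nat_lit 78) (nat_lit 76) (nat_lit 0) (XT.lf (nat_lit 0) (nat_lit 34991460395) (nat_lit 152) (nat_lit 17400649639) (nat_lit 76) (nat_lit 44208082534) (nat_lit 26) (nat_lit 5) (nat_lit 28) (nat_lit 5) (nat_lit 27) (nat_lit 4) (nat_lit 396) (nat_lit 356) (nat_lit 268)) (XT.lf (nat_lit 0) (nat_lit 55944828128) (nat_lit 76) (nat_lit 14828605228) (nat_lit 152)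 (nat_lit 31559395175) (nat_lit 25) (nat_lit 5) (nat_lit 26) (nat_lit 5) (nat_lit 27) (nat_lit 4) (nat_lit 397) (nat_lit 356) (nat_lit 267)))) (XT.nd (nat_lit 78) (nat_lit 76) (nat_lit 0) (XT.lf (nat_lit 0) (nat_lit 2020300056) (nat_lit 152) (nat_lit 80760972076) (nat_lit 76) (nat_lit 25684355347) (nat_lit 23) (nat_lit 5) (nat_lit 25) (nat_lit 5) (nat_lit 24) (nat_lit 4) (nat_lit 398) (nat_lit 356) (nat_lit 266)) (XT.nd (nat_lit 78) (nat_lit 76) (nat_lit 0) (XT.lf (nat_lit 0) (nat_lit 38260359897) (nat_lit 152) (nat_lit 6475027795) (nat_lit 76) (nat_lit 70273811376) (nat_lit 23) (nat_lit 5) (nat_lit 25) (nat_lit 5) (nat_lit 24) (nat_lit 4) (nat_lit 399) (nat_lit 356) (nat_lit 265)) (XT.lf (nat_lit 0) (nat_lit 76180783428) (nat_lit 76) (nat_lit 2402274986) (nat_lit 152) (nat_lit 43434027116) (nat_lit 22) (nat_lit 5) (nat_lit 23) (nat_lit 5) (nat_lit 24) (nat_lit 4) (nat_lit 400) (nat_lit 356)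 (nat_lit 264)))))) (XT.nd (nat_lit 468) (nat_lit 304) (nat_lit 0) (XT.nd (nat_lit 234) (nat_lit 228) (nat_lit 0) (XT.nd (nat_lit 78) (nat_lit 152) (nat_lit 0) (XT.lf (nat_lit 0) (nat_lit 36582028951) (nat_lit 76) (nat_lit 86905871229) (nat_lit 76) (nat_lit 6029887135) (nat_lit 21) (nat_lit 4) (nat_lit 22) (nat_lit 5) (nat_lit 22) (nat_lit 4) (nat_lit 401) (nat_lit 356) (nat_lit 263)) (XT.nd (nat_lit 78) (nat_lit 76) (nat_lit 0) (XT.lf (nat_lit 0) (nat_lit 34113077872) (nat_lit 152) (nat_lit 10948845510) (nat_lit 76) (nat_lit 92487472655) (nat_lit 20) (nat_lit 5) (nat_lit 22) (nat_lit 5) (nat_lit 21) (nat_lit 4) (nat_lit 402) (nat_lit 356) (nat_lit 262)) (XT.lf (nat_lit 0) (nat_lit 78527734193) (nat_lit 152) (nat_lit 66132862052) (nat_lit 0) (nat_lit 1494419716) (nat_lit 19) (nat_lit 5) (nat_lit 21) (nat_lit 4) (nat_lit 19) (nat_lit 4) (nat_lit 403) (nat_lit 356) (nat_lit 261)))) (XT.nd (nat_lit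 78) (nat_lit 152) (nat_lit 0) (XT.lf (nat_lit 0) (nat_lit 23191949513) (nat_lit 76) (nat_lit 104614363748) (nat_lit 76) (nat_lit 27577235292) (nat_lit 18) (nat_lit 4) (nat_lit 19) (nat_lit 5) (nat_lit 19) (nat_lit 4) (nat_lit 404) (nat_lit 356) (nat_lit 260)) (XT.nd (nat_lit 78) (nat_lit 76) (nat_lit 0) (XT.lf (nat_lit 0) (nat_lit 16341068410) (nat_lit 152) (nat_lit 43541469675) (nat_lit 76) (nat_lit 105397287761) (nat_lit 17) (nat_lit 5) (nat_lit 19) (nat_lit 5) (nat_lit 18) (nat_lit 4) (nat_lit 405) (nat_lit 356) (nat_lit 259)) (XT.lf (nat_lit 0) (nat_lit 53437299829) (nat_lit 76) (nat_lit 10212080472) (nat_lit 152) (nat_lit 112253685416) (nat_lit 16) (nat_lit 5) (nat_lit 17) (nat_lit 5) (nat_lit 18) (nat_lit 4) (nat_lit 406) (nat_lit 356) (nat_lit 258))))) (XT.nd (nat_lit 234) (nat_lit 152) (nat_lit 0) (XT.nd (nat_lit 78) (nat_lit 152) (nat_lit 0) (XT.lf (nat_lit 0) (nat_lit 116186985199)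 (nat_lit 152) (nat_lit 28308018129) (nat_lit 0) (nat_lit 42808930488) (nat_lit 16) (nat_lit 5) (nat_lit 18) (nat_lit 4) (nat_lit 16) (nat_lit 4) (nat_lit 407) (nat_lit 356) (nat_lit 257)) (XT.nd (nat_lit 78) (nat_lit 76) (nat_lit 0) (XT.lf (nat_lit 0) (nat_lit 75622711563) (nat_lit 76) (nat_lit 98653721544) (nat_lit 76) (nat_lit 25272996939) (nat_lit 15) (nat_lit 4) (nat_lit 16) (nat_lit 5) (nat_lit 16) (nat_lit 4) (nat_lit 408) (nat_lit 356) (nat_lit 256)) (XT.lf (nat_lit 0) (nat_lit 23959956052) (nat_lit 152) (nat_lit 24265286821) (nat_lit 76) (nat_lit 164505538558) (nat_lit 14) (nat_lit 5) (nat_lit 16) (nat_lit 5) (nat_lit 15) (nat_lit 4) (nat_lit 409) (nat_lit 356) (nat_lit 255)))) (XT.nd (nat_lit 156) (nat_lit 76) (nat_lit 0) (XT.nd (nat_lit 78) (nat_lit 0) (nat_lit 0) (XT.lf (nat_lit 0) (nat_lit 77718228670) (nat_lit 152) (nat_lit 141326800838) (nat_lit 0) (nat_lit 7827289878) (nat_lit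 13) (nat_lit 5) (nat_lit 15) (nat_lit 4) (nat_lit 13) (nat_lit 4) (nat_lit 410) (nat_lit 356) (nat_lit 254)) (XT.lf (nat_lit 0) (nat_lit 137016423011) (nat_lit 152) (nat_lit 37943328986) (nat_lit 0) (nat_lit 67123465698) (nat_lit 13) (nat_lit 5) (nat_lit 15) (nat_lit 4) (nat_lit 13) (nat_lit 4) (nat_lit 411) (nat_lit 356) (nat_lit 253))) (XT.nd (nat_lit 78) (nat_lit 0) (nat_lit 0) (XT.lf (nat_lit 0) (nat_lit 76141450465) (nat_lit 76) (nat_lit 126102543964) (nat_lit 76) (nat_lit 56207717649) (nat_lit 12) (nat_lit 4) (nat_lit 13) (nat_lit 5) (nat_lit 13) (nat_lit 4) (nat_lit 412) (nat_lit 356) (nat_lit 252)) (XT.lf (nat_lit 0) (nat_lit 200701861157) (nat_lit 76) (nat_lit 72645745128) (nat_lit 76) (nat_lit 2749188257) (nat_lit 12) (nat_lit 4) (nat_lit 13) (nat_lit 5) (nat_lit 13) (nat_lit 4) (nat_lit 413) (nat_lit 356) (nat_lit 251))))))))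
noncomputable def xc76 : XT := (XT.nd (nat_lit 48984) (nat_lit 0) (nat_lit 2964) (XT.nd (nat_lit 936) (nat_lit 152) (nat_lit 0) (XT.nd (nat_lit 468) (nat_lit 152) (nat_lit 0) (XT.nd (nat_lit 234) (nat_lit 152) (nat_lit 0) (XT.nd (nat_lit 78) (nat_lit 0) (nat_lit 0) (XT.lf (nat_lit 0) (nat_lit 40505834038) (nat_lit 76) (nat_lit 13349772438) (nat_lit 152) (nat_lit 241223479109) (nat_lit 10) (nat_lit 5) (nat_lit 11) (nat_lit 5) (nat_lit 12) (nat_lit 4) (nat_lit 414) (nat_lit 356) (nat_lit 250)) (XT.nd (nat_lit 78) (nat_lit 0) (nat_lit 0) (XT.lf (nat_lit 0) (nat_lit 117017185323) (nat_lit 152) (nat_lit 148008188602) (nat_lit 0) (nat_lit 50446096836) (nat_lit 10) (nat_lit 5) (nat_lit 12) (nat_lit 4) (nat_lit 10) (nat_lit 4) (nat_lit 415) (nat_lit 356) (nat_lit 249)) (XT.lf (nat_lit 0) (nat_lit 185454161335) (nat_lit 152) (nat_lit 33148197581) (nat_lit 0) (nat_lit 118881764494) (nat_lit 10) (nat_lit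 5) (nat_lit 12) (nat_lit 4) (nat_lit 10) (nat_lit 4) (nat_lit 416) (nat_lit 356) (nat_lit 248)))) (XT.nd (nat_lit 78) (nat_lit 76) (nat_lit 0) (XT.lf (nat_lit 0) (nat_lit 93901226343) (nat_lit 76) (nat_lit 166928494560) (nat_lit 76) (nat_lit 100354886280) (nat_lit 9) (nat_lit 4) (nat_lit 10) (nat_lit 5) (nat_lit 10) (nat_lit 4) (nat_lit 417) (nat_lit 356) (nat_lit 247)) (XT.nd (nat_lit 78) (nat_lit 76) (nat_lit 0) (XT.lf (nat_lit 0) (nat_lit 232293731835) (nat_lit 76) (nat_lit 110516686658) (nat_lit 76) (nat_lit 43941956675) (nat_lit 9) (nat_lit 4) (nat_lit 10) (nat_lit 5) (nat_lit 10) (nat_lit 4) (nat_lit 418) (nat_lit 356) (nat_lit 246)) (XT.lf (nat_lit 0) (nat_lit 16438222928) (nat_lit 152) (nat_lit 32877411594) (nat_lit 76) (nat_lit 365036781329) (nat_lit 8) (nat_lit 5) (nat_lit 10) (nat_lit 5) (nat_lit 9) (nat_lit 4) (nat_lit 419) (nat_lit 356) (nat_lit 245))))) (XT.nd (nat_lit 234)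 (nat_lit 76) (nat_lit 0) (XT.nd (nat_lit 78) (nat_lit 0) (nat_lit 0) (XT.lf (nat_lit 0) (nat_lit 82003380443) (nat_lit 152) (nat_lit 343429387048) (nat_lit 0) (nat_lit 18596970657) (nat_lit 7) (nat_lit 5) (nat_lit 9) (nat_lit 4) (nat_lit 7) (nat_lit 4) (nat_lit 420) (nat_lit 356) (nat_lit 244)) (XT.nd (nat_lit 78) (nat_lit 0) (nat_lit 0) (XT.lf (nat_lit 0) (nat_lit 154225427350) (nat_lit 152) (nat_lit 230967065648) (nat_lit 0) (nat_lit 90818169522) (nat_lit 7) (nat_lit 5) (nat_lit 9) (nat_lit 4) (nat_lit 7) (nat_lit 4) (nat_lit 421) (nat_lit 356) (nat_lit 243)) (XT.lf (nat_lit 0) (nat_lit 232223416926) (nat_lit 152) (nat_lit 109511361217) (nat_lit 0) (nat_lit 168815373874) (nat_lit 7) (nat_lit 5) (nat_lit 9) (nat_lit 4) (nat_lit 7) (nat_lit 4) (nat_lit 422) (nat_lit 356) (nat_lit 242)))) (XT.nd (nat_lit 78) (nat_lit 0) (nat_lit 0) (XT.lf (nat_lit 0) (nat_lit 22373557312) (nat_lit 76) (nat_lit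 294435316098) (nat_lit 76) (nat_lit 231026545987) (nat_lit 6) (nat_lit 4) (nat_lit 7) (nat_lit 5) (nat_lit 7) (nat_lit 4) (nat_lit 423) (nat_lit 356) (nat_lit 241)) (XT.nd (nat_lit 78) (nat_lit 0) (nat_lit 0) (XT.lf (nat_lit 0) (nat_lit 168716693862) (nat_lit 76) (nat_lit 241350478709) (nat_lit 76) (nat_lit 177941035395) (nat_lit 6) (nat_lit 4) (nat_lit 7) (nat_lit 5) (nat_lit 7) (nat_lit 4) (nat_lit 424) (nat_lit 356) (nat_lit 240)) (XT.lf (nat_lit 0) (nat_lit 326764326851) (nat_lit 76) (nat_lit 184020317051) (nat_lit 76) (nat_lit 120610250401) (nat_lit 6) (nat_lit 4) (nat_lit 7) (nat_lit 5) (nat_lit 7) (nat_lit 4) (nat_lit 425) (nat_lit 356) (nat_lit 239)))))) (XT.nd (nat_lit 468) (nat_lit 0) (nat_lit 0) (XT.nd (nat_lit 234) (nat_lit 0) (nat_lit 0) (XT.nd (nat_lit 78) (nat_lit 152) (nat_lit 0) (XT.lf (nat_lit 0) (nat_lit 497453034842) (nat_lit 76) (nat_lit 122105096835) (nat_lit 76) (nat_lit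 58694453022) (nat_lit 6) (nat_lit 4) (nat_lit 7) (nat_lit 5) (nat_lit 7) (nat_lit 4) (nat_lit 426) (nat_lit 356) (nat_lit 238)) (XT.nd (nat_lit 78) (nat_lit 76) (nat_lit 0) (XT.lf (nat_lit 0) (nat_lit 7911669642) (nat_lit 152) (nat_lit 47192255454) (nat_lit 76) (nat_lit 673748648882) (nat_lit 5) (nat_lit 5) (nat_lit 7) (nat_lit 5) (nat_lit 6) (nat_lit 4) (nat_lit 427) (nat_lit 356) (nat_lit 237)) (XT.lf (nat_lit 0) (nat_lit 79677442812) (nat_lit 152) (nat_lit 684395259789) (nat_lit 0) (nat_lit 19285373243) (nat_lit 4) (nat_lit 5) (nat_lit 6) (nat_lit 4) (nat_lit 4) (nat_lit 4) (nat_lit 428) (nat_lit 356) (nat_lit 236)))) (XT.nd (nat_lit 78) (nat_lit 0) (nat_lit 0) (XT.lf (nat_lit 0) (nat_lit 158947997865) (nat_lit 152) (nat_lit 584632352117) (nat_lit 0) (nat_lit 98555491943) (nat_lit 4) (nat_lit 5) (nat_lit 6) (nat_lit 4) (nat_lit 4) (nat_lit 4) (nat_lit 429) (nat_lit 356) (nat_lit 235))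 (XT.nd (nat_lit 78) (nat_lit 0) (nat_lit 0) (XT.lf (nat_lit 0) (nat_lit 244559116007) (nat_lit 152) (nat_lit 476890561358) (nat_lit 0) (nat_lit 184166206055) (nat_lit 4) (nat_lit 5) (nat_lit 6) (nat_lit 4) (nat_lit 4) (nat_lit 4) (nat_lit 430) (nat_lit 356) (nat_lit 234)) (XT.lf (nat_lit 0) (nat_lit 337018122383) (nat_lit 152) (nat_lit 360531417640) (nat_lit 0) (nat_lit 276624838329) (nat_lit 4) (nat_lit 5) (nat_lit 6) (nat_lit 4) (nat_lit 4) (nat_lit 4) (nat_lit 431) (nat_lit 356) (nat_lit 233))))) (XT.nd (nat_lit 47346) (nat_lit 0) (nat_lit 8132) (XT.nd (nat_lit 78) (nat_lit 0) (nat_lit 0) (XT.lf (nat_lit 0) (nat_lit 436872922216) (nat_lit 152) (nat_lit 234865385299) (nat_lit 0) (nat_lit 376479291771) (nat_lit 4) (nat_lit 5) (nat_lit 6) (nat_lit 4) (nat_lit 4) (nat_lit 4) (nat_lit 432) (nat_lit 356) (nat_lit 232)) (XT.nd (nat_lit 47190) (nat_lit 0) (nat_lit 8892) (XT.lf (nat_lit 0) (nat_lit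 544715247653) (nat_lit 152) (nat_lit 99147776734) (nat_lit 0) (nat_lit 484321296475) (nat_lit 4) (nat_lit 5) (nat_lit 6) (nat_lit 4) (nat_lit 4) (nat_lit 4) (nat_lit 433) (nat_lit 356) (nat_lit 231)) (XT.lf (nat_lit 0) (nat_lit 3694202839) (nat_lit 0) (nat_lit 3694202839) (nat_lit 684) (nat_lit 237977079) (nat_lit 121) (nat_lit 5) (nat_lit 121) (nat_lit 3) (nat_lit 130) (nat_lit 3) (nat_lit 357) (nat_lit 357) (nat_lit 306)))) (XT.nd (nat_lit 78) (nat_lit 0) (nat_lit 0) (XT.lf (nat_lit 0) (nat_lit 87345106) (nat_lit 760) (nat_lit 11870187134) (nat_lit 836) (nat_lit 3877094140) (nat_lit 111) (nat_lit 5) (nat_lit 121) (nat_lit 5) (nat_lit 122) (nat_lit 5) (nat_lit 358) (nat_lit 357) (nat_lit 305)) (XT.nd (nat_lit 78) (nat_lit 0) (nat_lit 76) (XT.lf (nat_lit 76) (nat_lit 416130267) (nat_lit 0) (nat_lit 489264472) (nat_lit 836) (nat_lit 15545964331) (nat_lit 112) (nat_lit 5) (nat_lit 111) (nat_lit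 5) (nat_lit 122) (nat_lit 5) (nat_lit 359) (nat_lit 357) (nat_lit 304)) (XT.lf (nat_lit 0) (nat_lit 2143733022) (nat_lit 760) (nat_lit 3214699728) (nat_lit 836) (nat_lit 11741284244) (nat_lit 112) (nat_lit 5) (nat_lit 122) (nat_lit 5) (nat_lit 123) (nat_lit 5) (nat_lit 360) (nat_lit 357) (nat_lit 303))))))) (XT.nd (nat_lit 936) (nat_lit 2660) (nat_lit 0) (XT.nd (nat_lit 468) (nat_lit 1672) (nat_lit 0) (XT.nd (nat_lit 234) (nat_lit 988) (nat_lit 0) (XT.nd (nat_lit 78) (nat_lit 0) (nat_lit 76) (XT.lf (nat_lit 0) (nat_lit 3736678518) (nat_lit 760) (nat_lit 6959322781) (nat_lit 836) (nat_lit 7091191956) (nat_lit 113) (nat_lit 5) (nat_lit 123) (nat_lit 5) (nat_lit 124) (nat_lit 5) (nat_lit 361) (nat_lit 357) (nat_lit 302)) (XT.nd (nat_lit 78) (nat_lit 0) (nat_lit 0) (XT.lf (nat_lit 0) (nat_lit 5720868700) (nat_lit 760) (nat_lit 10838866752) (nat_lit 836) (nat_lit 1956766449) (nat_lit 114) (nat_lit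 5) (nat_lit 124) (nat_lit 5) (nat_lit 125) (nat_lit 5) (nat_lit 362) (nat_lit 357) (nat_lit 301)) (XT.lf (nat_lit 76) (nat_lit 4366201518) (nat_lit 0) (nat_lit 3836270755) (nat_lit 836) (nat_lit 11084771958) (nat_lit 115) (nat_lit 5) (nat_lit 114) (nat_lit 5) (nat_lit 125) (nat_lit 5) (nat_lit 363) (nat_lit 357) (nat_lit 300)))) (XT.nd (nat_lit 78) (nat_lit 380) (nat_lit 0) (XT.lf (nat_lit 0) (nat_lit 908205975) (nat_lit 760) (nat_lit 10304187545) (nat_lit 836) (nat_lit 8890784165) (nat_lit 105) (nat_lit 5) (nat_lit 115) (nat_lit 5) (nat_lit 116) (nat_lit 5) (nat_lit 364) (nat_lit 357) (nat_lit 299)) (XT.nd (nat_lit 78) (nat_lit 380) (nat_lit 0) (XT.lf (nat_lit 0) (nat_lit 14815152823) (nat_lit 836) (nat_lit 2583872346) (nat_lit 76) (nat_lit 3567778062) (nat_lit 105) (nat_lit 5) (nat_lit 116) (nat_lit 5) (nat_lit 106) (nat_lit 5) (nat_lit 365) (nat_lit 357) (nat_lit 298)) (XT.lf (nat_lit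 0) (nat_lit 15657624776) (nat_lit 380) (nat_lit 3439846648) (nat_lit 456) (nat_lit 2782498652) (nat_lit 100) (nat_lit 5) (nat_lit 105) (nat_lit 5) (nat_lit 106) (nat_lit 5) (nat_lit 366) (nat_lit 357) (nat_lit 297))))) (XT.nd (nat_lit 234) (nat_lit 608) (nat_lit 0) (XT.nd (nat_lit 78) (nat_lit 684) (nat_lit 0) (XT.lf (nat_lit 0) (nat_lit 1237165125) (nat_lit 380) (nat_lit 10078473719) (nat_lit 76) (nat_lit 11529479927) (nat_lit 95) (nat_lit 5) (nat_lit 100) (nat_lit 5) (nat_lit 96) (nat_lit 5) (nat_lit 367) (nat_lit 357) (nat_lit 296)) (XT.nd (nat_lit 78) (nat_lit 304) (nat_lit 0) (XT.lf (nat_lit 0) (nat_lit 5841865847) (nat_lit 456) (nat_lit 14137017050) (nat_lit 76) (nat_lit 3888283119) (nat_lit 90) (nat_lit 5) (nat_lit 96) (nat_lit 5) (nat_lit 91) (nat_lit 5) (nat_lit 368) (nat_lit 357) (nat_lit 295)) (XT.lf (nat_lit 0) (nat_lit 6510109881) (nat_lit 304) (nat_lit 4752913128) (nat_lit 380)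 (nat_lit 13685563757) (nat_lit 86) (nat_lit 5) (nat_lit 90) (nat_lit 5) (nat_lit 91) (nat_lit 5) (nat_lit 369) (nat_lit 357) (nat_lit 294)))) (XT.nd (nat_lit 78) (nat_lit 304) (nat_lit 0) (XT.lf (nat_lit 0) (nat_lit 3096510449) (nat_lit 304) (nat_lit 14480987983) (nat_lit 380) (nat_lit 8516054189) (nat_lit 82) (nat_lit 5) (nat_lit 86) (nat_lit 5) (nat_lit 87) (nat_lit 5) (nat_lit 370) (nat_lit 357) (nat_lit 293)) (XT.nd (nat_lit 78) (nat_lit 304) (nat_lit 0) (XT.lf (nat_lit 0) (nat_lit 24810068417) (nat_lit 380) (nat_lit 438979832) (nat_lit 76) (nat_lit 2060432452) (nat_lit 82) (nat_lit 5) (nat_lit 87) (nat_lit 5) (nat_lit 83) (nat_lit 5) (nat_lit 371) (nat_lit 357) (nat_lit 292)) (XT.lf (nat_lit 0) (nat_lit 4487355400) (nat_lit 304) (nat_lit 4226619584) (nat_lit 76) (nat_lit 19874758330) (nat_lit 78) (nat_lit 5) (nat_lit 82) (nat_lit 5) (nat_lit 79) (nat_lit 5) (nat_lit 372) (nat_lit 357)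 (nat_lit 291)))))) (XT.nd (nat_lit 468) (nat_lit 1216) (nat_lit 0) (XT.nd (nat_lit 234) (nat_lit 684) (nat_lit 0) (XT.nd (nat_lit 78) (nat_lit 456) (nat_lit 0) (XT.lf (nat_lit 0) (nat_lit 12426151504) (nat_lit 380) (nat_lit 8274664834) (nat_lit 76) (nat_lit 9243438011) (nat_lit 74) (nat_lit 5) (nat_lit 79) (nat_lit 5) (nat_lit 75) (nat_lit 5) (nat_lit 373) (nat_lit 357) (nat_lit 290)) (XT.nd (nat_lit 78) (nat_lit 228) (nat_lit 0) (XT.lf (nat_lit 0) (nat_lit 18814969766) (nat_lit 228) (nat_lit 2683376845) (nat_lit 304) (nat_lit 9884964599) (nat_lit 71) (nat_lit 5) (nat_lit 74) (nat_lit 5) (nat_lit 75) (nat_lit 5) (nat_lit 374) (nat_lit 357) (nat_lit 289)) (XT.lf (nat_lit 0) (nat_lit 15650914740) (nat_lit 228) (nat_lit 16281790784) (nat_lit 304) (nat_lit 972975935) (nat_lit 68) (nat_lit 5) (nat_lit 71) (nat_lit 5) (nat_lit 72) (nat_lit 5) (nat_lit 375) (nat_lit 357) (nat_lit 288)))) (XT.nd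 (nat_lit 78) (nat_lit 380) (nat_lit 0) (XT.lf (nat_lit 0) (nat_lit 8871042757) (nat_lit 304) (nat_lit 22351452871) (nat_lit 76) (nat_lit 3295799496) (nat_lit 64) (nat_lit 5) (nat_lit 68) (nat_lit 5) (nat_lit 65) (nat_lit 5) (nat_lit 376) (nat_lit 357) (nat_lit 287)) (XT.nd (nat_lit 78) (nat_lit 152) (nat_lit 0) (XT.lf (nat_lit 0) (nat_lit 8260009125) (nat_lit 228) (nat_lit 11902906475) (nat_lit 304) (nat_lit 16061490445) (nat_lit 61) (nat_lit 5) (nat_lit 64) (nat_lit 5) (nat_lit 65) (nat_lit 5) (nat_lit 377) (nat_lit 357) (nat_lit 286)) (XT.lf (nat_lit 0) (nat_lit 4032157605) (nat_lit 152) (nat_lit 28910239353) (nat_lit 228) (nat_lit 5095402185) (nat_lit 59) (nat_lit 5) (nat_lit 61) (nat_lit 5) (nat_lit 62) (nat_lit 5) (nat_lit 378) (nat_lit 357) (nat_lit 285))))) (XT.nd (nat_lit 234) (nat_lit 760) (nat_lit 0) (XT.nd (nat_lit 78) (nat_lit 380) (nat_lit 0) (XT.lf (nat_lit 0) (nat_lit 7213968619)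 (nat_lit 228) (nat_lit 720041817) (nat_lit 76) (nat_lit 32022892376) (nat_lit 58) (nat_lit 5) (nat_lit 61) (nat_lit 5) (nat_lit 59) (nat_lit 5) (nat_lit 379) (nat_lit 357) (nat_lit 284)) (XT.nd (nat_lit 78) (nat_lit 152) (nat_lit 0) (XT.lf (nat_lit 0) (nat_lit 21126057681) (nat_lit 304) (nat_lit 5953724822) (nat_lit 76) (nat_lit 14905756471) (nat_lit 55) (nat_lit 5) (nat_lit 59) (nat_lit 5) (nat_lit 56) (nat_lit 5) (nat_lit 380) (nat_lit 357) (nat_lit 283)) (XT.lf (nat_lit 0) (nat_lit 32459387199) (nat_lit 152) (nat_lit 4332779428) (nat_lit 228) (nat_lit 7352251479) (nat_lit 53) (nat_lit 5) (nat_lit 55) (nat_lit 5) (nat_lit 56) (nat_lit 5) (nat_lit 381) (nat_lit 357) (nat_lit 282)))) (XT.nd (nat_lit 156) (nat_lit 380) (nat_lit 0) (XT.nd (nat_lit 78) (nat_lit 152) (nat_lit 0) (XT.lf (nat_lit 0) (nat_lit 7868634232) (nat_lit 228) (nat_lit 18305190479) (nat_lit 76) (nat_lit 20253305624) (nat_lit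 50) (nat_lit 5) (nat_lit 53) (nat_lit 5) (nat_lit 51) (nat_lit 5) (nat_lit 382) (nat_lit 357) (nat_lit 281)) (XT.lf (nat_lit 0) (nat_lit 23171287675) (nat_lit 152) (nat_lit 1512127204) (nat_lit 228) (nat_lit 24171331521) (nat_lit 48) (nat_lit 5) (nat_lit 50) (nat_lit 5) (nat_lit 51) (nat_lit 5) (nat_lit 383) (nat_lit 357) (nat_lit 280))) (XT.nd (nat_lit 78) (nat_lit 228) (nat_lit 0) (XT.lf (nat_lit 0) (nat_lit 17297020719) (nat_lit 152) (nat_lit 26521852605) (nat_lit 228) (nat_lit 7608927223) (nat_lit 46) (nat_lit 5) (nat_lit 48) (nat_lit 5) (nat_lit 49) (nat_lit 5) (nat_lit 384) (nat_lit 357) (nat_lit 279)) (XT.lf (nat_lit 0) (nat_lit 10576332384) (nat_lit 152) (nat_lit 7988223) (nat_lit 228) (nat_lit 43582616456) (nat_lit 43) (nat_lit 5) (nat_lit 45) (nat_lit 5) (nat_lit 46) (nat_lit 5) (nat_lit 385) (nat_lit 357) (nat_lit 278))))))))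
noncomputable def xc77 : XT := (XT.nd (nat_lit 1872) (nat_lit 836) (nat_lit 0) (XT.nd (nat_lit 936) (nat_lit 836) (nat_lit 0) (XT.nd (nat_lit 468) (nat_lit 532) (nat_lit 0) (XT.nd (nat_lit 234) (nat_lit 456) (nat_lit 0) (XT.nd (nat_lit 78) (nat_lit 152) (nat_lit 0) (XT.lf (nat_lit 0) (nat_lit 2459813861) (nat_lit 152) (nat_lit 28589721758) (nat_lit 228) (nat_lit 26015280612) (nat_lit 41) (nat_lit 5) (nat_lit 43) (nat_lit 5) (nat_lit 44) (nat_lit 5) (nat_lit 386) (nat_lit 357) (nat_lit 277)) (XT.nd (nat_lit 78) (nat_lit 152) (nat_lit 0) (XT.lf (nat_lit 0) (nat_lit 53734226914) (nat_lit 152) (nat_lit 167573429) (nat_lit 228) (nat_lit 6255236459) (nat_lit 41) (nat_lit 5) (nat_lit 43) (nat_lit 5) (nat_lit 44) (nat_lit 5) (nat_lit 387) (nat_lit 357) (nat_lit 276)) (XT.lf (nat_lit 0) (nat_lit 15817766811) (nat_lit 152) (nat_lit 17078373040) (nat_lit 76) (nat_lit 30527971644) (nat_lit 39) (nat_lit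 5) (nat_lit 41) (nat_lit 5) (nat_lit 40) (nat_lit 5) (nat_lit 388) (nat_lit 357) (nat_lit 275)))) (XT.nd (nat_lit 78) (nat_lit 304) (nat_lit 0) (XT.lf (nat_lit 0) (nat_lit 37699408155) (nat_lit 152) (nat_lit 2437397157) (nat_lit 228) (nat_lit 26775654408) (nat_lit 37) (nat_lit 5) (nat_lit 39) (nat_lit 5) (nat_lit 40) (nat_lit 5) (nat_lit 389) (nat_lit 357) (nat_lit 274)) (XT.nd (nat_lit 78) (nat_lit 228) (nat_lit 0) (XT.lf (nat_lit 0) (nat_lit 27178855278) (nat_lit 76) (nat_lit 40416360069) (nat_lit 152) (nat_lit 3024970073) (nat_lit 36) (nat_lit 5) (nat_lit 37) (nat_lit 5) (nat_lit 38) (nat_lit 4) (nat_lit 390) (nat_lit 357) (nat_lit 273)) (XT.lf (nat_lit 0) (nat_lit 14575509834) (nat_lit 152) (nat_lit 8103841704) (nat_lit 228) (nat_lit 51888629427) (nat_lit 33) (nat_lit 5) (nat_lit 35) (nat_lit 5) (nat_lit 36) (nat_lit 5) (nat_lit 391) (nat_lit 357) (nat_lit 272))))) (XT.nd (nat_lit 234)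 (nat_lit 228) (nat_lit 0) (XT.nd (nat_lit 78) (nat_lit 304) (nat_lit 0) (XT.lf (nat_lit 0) (nat_lit 51515064690) (nat_lit 228) (nat_lit 504711692) (nat_lit 76) (nat_lit 26750294653) (nat_lit 33) (nat_lit 5) (nat_lit 36) (nat_lit 5) (nat_lit 34) (nat_lit 4) (nat_lit 392) (nat_lit 357) (nat_lit 271)) (XT.nd (nat_lit 78) (nat_lit 152) (nat_lit 0) (XT.lf (nat_lit 0) (nat_lit 544134900) (nat_lit 152) (nat_lit 17564415186) (nat_lit 76) (nat_lit 65141587545) (nat_lit 31) (nat_lit 5) (nat_lit 33) (nat_lit 5) (nat_lit 32) (nat_lit 5) (nat_lit 393) (nat_lit 357) (nat_lit 270)) (XT.lf (nat_lit 0) (nat_lit 30720856447) (nat_lit 228) (nat_lit 38099228954) (nat_lit 76) (nat_lit 19190758760) (nat_lit 29) (nat_lit 5) (nat_lit 32) (nat_lit 5) (nat_lit 30) (nat_lit 4) (nat_lit 394) (nat_lit 357) (nat_lit 269)))) (XT.nd (nat_lit 78) (nat_lit 152) (nat_lit 0) (XT.lf (nat_lit 0) (nat_lit 30943370042) (nat_lit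 76) (nat_lit 33460988722) (nat_lit 152) (nat_lit 28693417555) (nat_lit 28) (nat_lit 5) (nat_lit 29) (nat_lit 5) (nat_lit 30) (nat_lit 4) (nat_lit 395) (nat_lit 357) (nat_lit 268)) (XT.nd (nat_lit 78) (nat_lit 0) (nat_lit 0) (XT.lf (nat_lit 0) (nat_lit 3009364678) (nat_lit 152) (nat_lit 90110336284) (nat_lit 76) (nat_lit 5425822497) (nat_lit 26) (nat_lit 5) (nat_lit 28) (nat_lit 5) (nat_lit 27) (nat_lit 4) (nat_lit 396) (nat_lit 357) (nat_lit 267)) (XT.lf (nat_lit 0) (nat_lit 37914825212) (nat_lit 152) (nat_lit 18561148488) (nat_lit 76) (nat_lit 47846011837) (nat_lit 26) (nat_lit 5) (nat_lit 28) (nat_lit 5) (nat_lit 27) (nat_lit 4) (nat_lit 397) (nat_lit 357) (nat_lit 266)))))) (XT.nd (nat_lit 468) (nat_lit 380) (nat_lit 0) (XT.nd (nat_lit 234) (nat_lit 228) (nat_lit 0) (XT.nd (nat_lit 78) (nat_lit 152) (nat_lit 0) (XT.lf (nat_lit 0) (nat_lit 60641904484) (nat_lit 76) (nat_lit 15911720868)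 (nat_lit 152) (nat_lit 33959895043) (nat_lit 25) (nat_lit 5) (nat_lit 26) (nat_lit 5) (nat_lit 27) (nat_lit 4) (nat_lit 398) (nat_lit 357) (nat_lit 265)) (XT.nd (nat_lit 78) (nat_lit 0) (nat_lit 0) (XT.lf (nat_lit 0) (nat_lit 2298233321) (nat_lit 152) (nat_lit 87001987652) (nat_lit 76) (nat_lit 27836824881) (nat_lit 23) (nat_lit 5) (nat_lit 25) (nat_lit 5) (nat_lit 24) (nat_lit 4) (nat_lit 399) (nat_lit 357) (nat_lit 264)) (XT.lf (nat_lit 0) (nat_lit 41428882449) (nat_lit 152) (nat_lit 6789453918) (nat_lit 76) (nat_lit 75986198791) (nat_lit 23) (nat_lit 5) (nat_lit 25) (nat_lit 5) (nat_lit 24) (nat_lit 4) (nat_lit 400) (nat_lit 357) (nat_lit 263)))) (XT.nd (nat_lit 78) (nat_lit 152) (nat_lit 0) (XT.lf (nat_lit 0) (nat_lit 82469975034) (nat_lit 76) (nat_lit 2502484761) (nat_lit 152) (nat_lit 46800840715) (nat_lit 22) (nat_lit 5) (nat_lit 23) (nat_lit 5) (nat_lit 24) (nat_lit 4) (nat_lit 401)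 (nat_lit 357) (nat_lit 262)) (XT.nd (nat_lit 78) (nat_lit 76) (nat_lit 0) (XT.lf (nat_lit 0) (nat_lit 39698411946) (nat_lit 76) (nat_lit 93767958560) (nat_lit 76) (nat_lit 6407854892) (nat_lit 21) (nat_lit 4) (nat_lit 22) (nat_lit 5) (nat_lit 22) (nat_lit 4) (nat_lit 402) (nat_lit 357) (nat_lit 261)) (XT.lf (nat_lit 0) (nat_lit 36935717638) (nat_lit 152) (nat_lit 11645887186) (nat_lit 76) (nat_lit 99967051767) (nat_lit 20) (nat_lit 5) (nat_lit 22) (nat_lit 5) (nat_lit 21) (nat_lit 4) (nat_lit 403) (nat_lit 357) (nat_lit 260))))) (XT.nd (nat_lit 234) (nat_lit 152) (nat_lit 0) (XT.nd (nat_lit 78) (nat_lit 152) (nat_lit 0) (XT.lf (nat_lit 0) (nat_lit 84900561360) (nat_lit 152) (nat_lit 71249197662) (nat_lit 0) (nat_lit 1693117189) (nat_lit 19) (nat_lit 5) (nat_lit 21) (nat_lit 4) (nat_lit 19) (nat_lit 4) (nat_lit 404) (nat_lit 357) (nat_lit 259)) (XT.nd (nat_lit 78) (nat_lit 76) (nat_lit 0)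 (XT.lf (nat_lit 0) (nat_lit 25214024252) (nat_lit 76) (nat_lit 112903293714) (nat_lit 76) (nat_lit 29692579671) (nat_lit 18) (nat_lit 4) (nat_lit 19) (nat_lit 5) (nat_lit 19) (nat_lit 4) (nat_lit 405) (nat_lit 357) (nat_lit 258)) (XT.lf (nat_lit 0) (nat_lit 17729767934) (nat_lit 152) (nat_lit 46867717436) (nat_lit 76) (nat_lit 113900647183) (nat_lit 17) (nat_lit 5) (nat_lit 19) (nat_lit 5) (nat_lit 18) (nat_lit 4) (nat_lit 406) (nat_lit 357) (nat_lit 257)))) (XT.nd (nat_lit 78) (nat_lit 76) (nat_lit 0) (XT.lf (nat_lit 0) (nat_lit 57862527566) (nat_lit 76) (nat_lit 10956532266) (nat_lit 152) (nat_lit 121152356670) (nat_lit 16) (nat_lit 5) (nat_lit 17) (nat_lit 5) (nat_lit 18) (nat_lit 4) (nat_lit 407) (nat_lit 357) (nat_lit 256)) (XT.nd (nat_lit 78) (nat_lit 76) (nat_lit 0) (XT.lf (nat_lit 0) (nat_lit 125554963704) (nat_lit 152) (nat_lit 30430987296) (nat_lit 0) (nat_lit 46298639114) (nat_lit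 16) (nat_lit 5) (nat_lit 18) (nat_lit 4) (nat_lit 16) (nat_lit 4) (nat_lit 408) (nat_lit 357) (nat_lit 255)) (XT.lf (nat_lit 0) (nat_lit 81808043867) (nat_lit 76) (nat_lit 106480230486) (nat_lit 76) (nat_lit 27221616893) (nat_lit 15) (nat_lit 4) (nat_lit 16) (nat_lit 5) (nat_lit 16) (nat_lit 4) (nat_lit 409) (nat_lit 357) (nat_lit 254))))))) (XT.nd (nat_lit 936) (nat_lit 228) (nat_lit 0) (XT.nd (nat_lit 468) (nat_lit 228) (nat_lit 0) (XT.nd (nat_lit 234) (nat_lit 228) (nat_lit 0) (XT.nd (nat_lit 78) (nat_lit 76) (nat_lit 0) (XT.lf (nat_lit 0) (nat_lit 25942378749) (nat_lit 152) (nat_lit 26078856604) (nat_lit 76) (nat_lit 177724721221) (nat_lit 14) (nat_lit 5) (nat_lit 16) (nat_lit 5) (nat_lit 15) (nat_lit 4) (nat_lit 410) (nat_lit 357) (nat_lit 253)) (XT.nd (nat_lit 78) (nat_lit 0) (nat_lit 0) (XT.lf (nat_lit 0) (nat_lit 83999286318) (nat_lit 152) (nat_lit 152508628142) (nat_lit 0) (nat_lit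 8511004897) (nat_lit 13) (nat_lit 5) (nat_lit 15) (nat_lit 4) (nat_lit 13) (nat_lit 4) (nat_lit 411) (nat_lit 357) (nat_lit 252)) (XT.lf (nat_lit 0) (nat_lit 148036625143) (nat_lit 152) (nat_lit 40863687191) (nat_lit 0) (nat_lit 72546613165) (nat_lit 13) (nat_lit 5) (nat_lit 15) (nat_lit 4) (nat_lit 13) (nat_lit 4) (nat_lit 412) (nat_lit 357) (nat_lit 251)))) (XT.nd (nat_lit 78) (nat_lit 152) (nat_lit 0) (XT.lf (nat_lit 0) (nat_lit 82342872157) (nat_lit 76) (nat_lit 136136887079) (nat_lit 76) (nat_lit 60645272734) (nat_lit 12) (nat_lit 4) (nat_lit 13) (nat_lit 5) (nat_lit 13) (nat_lit 4) (nat_lit 413) (nat_lit 357) (nat_lit 250)) (XT.nd (nat_lit 78) (nat_lit 152) (nat_lit 0) (XT.lf (nat_lit 0) (nat_lit 216859959730) (nat_lit 76) (nat_lit 78407533996) (nat_lit 76) (nat_lit 2914435977) (nat_lit 12) (nat_lit 4) (nat_lit 13) (nat_lit 5) (nat_lit 13) (nat_lit 4) (nat_lit 414) (nat_lit 357) (nat_lit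 249)) (XT.lf (nat_lit 0) (nat_lit 43845498160) (nat_lit 76) (nat_lit 14369121327) (nat_lit 152) (nat_lit 260468260791) (nat_lit 10) (nat_lit 5) (nat_lit 11) (nat_lit 5) (nat_lit 12) (nat_lit 4) (nat_lit 415) (nat_lit 357) (nat_lit 248))))) (XT.nd (nat_lit 234) (nat_lit 152) (nat_lit 0) (XT.nd (nat_lit 78) (nat_lit 76) (nat_lit 0) (XT.lf (nat_lit 0) (nat_lit 126426082177) (nat_lit 152) (nat_lit 159755352712) (nat_lit 0) (nat_lit 54525373795) (nat_lit 10) (nat_lit 5) (nat_lit 12) (nat_lit 4) (nat_lit 10) (nat_lit 4) (nat_lit 416) (nat_lit 357) (nat_lit 247)) (XT.nd (nat_lit 78) (nat_lit 76) (nat_lit 0) (XT.lf (nat_lit 0) (nat_lit 200334496120) (nat_lit 152) (nat_lit 35713487666) (nat_lit 0) (nat_lit 128432666035) (nat_lit 10) (nat_lit 5) (nat_lit 12) (nat_lit 4) (nat_lit 10) (nat_lit 4) (nat_lit 417) (nat_lit 357) (nat_lit 246)) (XT.lf (nat_lit 0) (nat_lit 101496128131) (nat_lit 76) (nat_lit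 180242005721) (nat_lit 76) (nat_lit 108339137023) (nat_lit 9) (nat_lit 4) (nat_lit 10) (nat_lit 5) (nat_lit 10) (nat_lit 4) (nat_lit 418) (nat_lit 357) (nat_lit 245)))) (XT.nd (nat_lit 78) (nat_lit 152) (nat_lit 0) (XT.lf (nat_lit 0) (nat_lit 250953900456) (nat_lit 76) (nat_lit 119320273069) (nat_lit 76) (nat_lit 47416442691) (nat_lit 9) (nat_lit 4) (nat_lit 10) (nat_lit 5) (nat_lit 10) (nat_lit 4) (nat_lit 419) (nat_lit 357) (nat_lit 244)) (XT.nd (nat_lit 78) (nat_lit 76) (nat_lit 0) (XT.lf (nat_lit 0) (nat_lit 17789912619) (nat_lit 152) (nat_lit 35435399950) (nat_lit 76) (nat_lit 394273462409) (nat_lit 8) (nat_lit 5) (nat_lit 10) (nat_lit 5) (nat_lit 9) (nat_lit 4) (nat_lit 420) (nat_lit 357) (nat_lit 243)) (XT.lf (nat_lit 0) (nat_lit 88599179516) (nat_lit 152) (nat_lit 370833451097) (nat_lit 0) (nat_lit 20117707796) (nat_lit 7) (nat_lit 5) (nat_lit 9) (nat_lit 4) (nat_lit 7) (nat_lit 4)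 (nat_lit 421) (nat_lit 357) (nat_lit 242)))))) (XT.nd (nat_lit 468) (nat_lit 152) (nat_lit 0) (XT.nd (nat_lit 234) (nat_lit 0) (nat_lit 0) (XT.nd (nat_lit 78) (nat_lit 76) (nat_lit 0) (XT.lf (nat_lit 0) (nat_lit 166596358425) (nat_lit 152) (nat_lit 249379350423) (nat_lit 0) (nat_lit 98114159646) (nat_lit 7) (nat_lit 5) (nat_lit 9) (nat_lit 4) (nat_lit 7) (nat_lit 4) (nat_lit 422) (nat_lit 357) (nat_lit 241)) (XT.nd (nat_lit 78) (nat_lit 76) (nat_lit 0) (XT.lf (nat_lit 0) (nat_lit 250831750360) (nat_lit 152) (nat_lit 118212010414) (nat_lit 0) (nat_lit 182348878378) (nat_lit 7) (nat_lit 5) (nat_lit 9) (nat_lit 4) (nat_lit 7) (nat_lit 4) (nat_lit 423) (nat_lit 357) (nat_lit 240)) (XT.lf (nat_lit 0) (nat_lit 24221082784) (nat_lit 76) (nat_lit 317961604213) (nat_lit 76) (nat_lit 249478108895) (nat_lit 6) (nat_lit 4) (nat_lit 7) (nat_lit 5) (nat_lit 7) (nat_lit 4) (nat_lit 424) (nat_lit 357) (nat_lit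 239)))) (XT.nd (nat_lit 78) (nat_lit 0) (nat_lit 0) (XT.lf (nat_lit 0) (nat_lit 182267400563) (nat_lit 76) (nat_lit 260632093697) (nat_lit 76) (nat_lit 192148021216) (nat_lit 6) (nat_lit 4) (nat_lit 7) (nat_lit 5) (nat_lit 7) (nat_lit 4) (nat_lit 425) (nat_lit 357) (nat_lit 238)) (XT.nd (nat_lit 78) (nat_lit 0) (nat_lit 0) (XT.lf (nat_lit 0) (nat_lit 352954890769) (nat_lit 76) (nat_lit 198717476389) (nat_lit 76) (nat_lit 130232869498) (nat_lit 6) (nat_lit 4) (nat_lit 7) (nat_lit 5) (nat_lit 7) (nat_lit 4) (nat_lit 426) (nat_lit 357) (nat_lit 237)) (XT.lf (nat_lit 0) (nat_lit 537295034824) (nat_lit 76) (nat_lit 131850850854) (nat_lit 76) (nat_lit 63365749139) (nat_lit 6) (nat_lit 4) (nat_lit 7) (nat_lit 5) (nat_lit 7) (nat_lit 4) (nat_lit 427) (nat_lit 357) (nat_lit 236))))) (XT.nd (nat_lit 234) (nat_lit 0) (nat_lit 0) (XT.nd (nat_lit 78) (nat_lit 76) (nat_lit 0) (XT.lf (nat_lit 0) (nat_lit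 8566347334) (nat_lit 152) (nat_lit 50924547849) (nat_lit 76) (nat_lit 727668796197) (nat_lit 5) (nat_lit 5) (nat_lit 7) (nat_lit 5) (nat_lit 6) (nat_lit 4) (nat_lit 428) (nat_lit 357) (nat_lit 235)) (XT.nd (nat_lit 78) (nat_lit 0) (nat_lit 0) (XT.lf (nat_lit 0) (nat_lit 86072734274) (nat_lit 152) (nat_lit 739104944127) (nat_lit 0) (nat_lit 20847987495) (nat_lit 4) (nat_lit 5) (nat_lit 6) (nat_lit 4) (nat_lit 4) (nat_lit 4) (nat_lit 429) (nat_lit 357) (nat_lit 234)) (XT.lf (nat_lit 0) (nat_lit 171683371062) (nat_lit 152) (nat_lit 631364110244) (nat_lit 0) (nat_lit 106458250181) (nat_lit 4) (nat_lit 5) (nat_lit 6) (nat_lit 4) (nat_lit 4) (nat_lit 4) (nat_lit 430) (nat_lit 357) (nat_lit 233)))) (XT.nd (nat_lit 156) (nat_lit 0) (nat_lit 0) (XT.nd (nat_lit 78) (nat_lit 0) (nat_lit 0) (XT.lf (nat_lit 0) (nat_lit 264141931739) (nat_lit 152) (nat_lit 515005852524) (nat_lit 0) (nat_lit 198916464467)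 (nat_lit 4) (nat_lit 5) (nat_lit 6) (nat_lit 4) (nat_lit 4) (nat_lit 4) (nat_lit 431) (nat_lit 357) (nat_lit 232)) (XT.lf (nat_lit 0) (nat_lit 363996318888) (nat_lit 152) (nat_lit 389340640550) (nat_lit 0) (nat_lit 298770530884) (nat_lit 4) (nat_lit 5) (nat_lit 6) (nat_lit 4) (nat_lit 4) (nat_lit 4) (nat_lit 432) (nat_lit 357) (nat_lit 231))) (XT.nd (nat_lit 47268) (nat_lit 0) (nat_lit 8056) (XT.lf (nat_lit 0) (nat_lit 471838262210) (nat_lit 152) (nat_lit 253623791584) (nat_lit 0) (nat_lit 406612177232) (nat_lit 4) (nat_lit 5) (nat_lit 6) (nat_lit 4) (nat_lit 4) (nat_lit 4) (nat_lit 433) (nat_lit 357) (nat_lit 230)) (XT.lf (nat_lit 0) (nat_lit 181643491) (nat_lit 836) (nat_lit 4016612472) (nat_lit 836) (nat_lit 4016612472) (nat_lit 110) (nat_lit 3) (nat_lit 121) (nat_lit 3) (nat_lit 121) (nat_lit 5) (nat_lit 358) (nat_lit 358) (nat_lit 304))))))))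
noncomputable def xc78 : XT := (XT.nd (nat_lit 1872) (nat_lit 2736) (nat_lit 0) (XT.nd (nat_lit 936) (nat_lit 2508) (nat_lit 0) (XT.nd (nat_lit 468) (nat_lit 1900) (nat_lit 0) (XT.nd (nat_lit 234) (nat_lit 0) (nat_lit 152) (XT.nd (nat_lit 78) (nat_lit 0) (nat_lit 0) (XT.lf (nat_lit 0) (nat_lit 892388136) (nat_lit 760) (nat_lit 12340646807) (nat_lit 836) (nat_lit 3827895913) (nat_lit 111) (nat_lit 5) (nat_lit 121) (nat_lit 5) (nat_lit 122) (nat_lit 5) (nat_lit 359) (nat_lit 358) (nat_lit 303)) (XT.nd (nat_lit 78) (nat_lit 0) (nat_lit 76) (XT.lf (nat_lit 76) (nat_lit 907752481) (nat_lit 0) (nat_lit 816169886) (nat_lit 836) (nat_lit 16005719457) (nat_lit 112) (nat_lit 5) (nat_lit 111) (nat_lit 5) (nat_lit 122) (nat_lit 5) (nat_lit 360) (nat_lit 358) (nat_lit 302)) (XT.lf (nat_lit 0) (nat_lit 3001901332) (nat_lit 760) (nat_lit 3008310362) (nat_lit 836) (nat_lit 12422666611) (nat_lit 112) (nat_lit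 5) (nat_lit 122) (nat_lit 5) (nat_lit 123) (nat_lit 5) (nat_lit 361) (nat_lit 358) (nat_lit 301)))) (XT.nd (nat_lit 78) (nat_lit 0) (nat_lit 76) (XT.lf (nat_lit 0) (nat_lit 4675229297) (nat_lit 760) (nat_lit 7036954241) (nat_lit 836) (nat_lit 7465557534) (nat_lit 113) (nat_lit 5) (nat_lit 123) (nat_lit 5) (nat_lit 124) (nat_lit 5) (nat_lit 362) (nat_lit 358) (nat_lit 300)) (XT.nd (nat_lit 78) (nat_lit 0) (nat_lit 0) (XT.lf (nat_lit 0) (nat_lit 6775727957) (nat_lit 760) (nat_lit 11215097130) (nat_lit 836) (nat_lit 1976723755) (nat_lit 114) (nat_lit 5) (nat_lit 124) (nat_lit 5) (nat_lit 125) (nat_lit 5) (nat_lit 363) (nat_lit 358) (nat_lit 299)) (XT.lf (nat_lit 76) (nat_lit 5185043600) (nat_lit 0) (nat_lit 4233910866) (nat_lit 836) (nat_lit 11382872008) (nat_lit 115) (nat_lit 5) (nat_lit 114) (nat_lit 5) (nat_lit 125) (nat_lit 5) (nat_lit 364) (nat_lit 358) (nat_lit 298))))) (XT.nd (nat_lit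 234) (nat_lit 1064) (nat_lit 0) (XT.nd (nat_lit 78) (nat_lit 380) (nat_lit 0) (XT.lf (nat_lit 0) (nat_lit 1458520817) (nat_lit 760) (nat_lit 11175791891) (nat_lit 836) (nat_lit 9050518107) (nat_lit 105) (nat_lit 5) (nat_lit 115) (nat_lit 5) (nat_lit 116) (nat_lit 5) (nat_lit 365) (nat_lit 358) (nat_lit 297)) (XT.nd (nat_lit 78) (nat_lit 380) (nat_lit 0) (XT.lf (nat_lit 0) (nat_lit 16485725882) (nat_lit 836) (nat_lit 2322991898) (nat_lit 76) (nat_lit 3810833244) (nat_lit 105) (nat_lit 5) (nat_lit 116) (nat_lit 5) (nat_lit 106) (nat_lit 5) (nat_lit 366) (nat_lit 358) (nat_lit 296)) (XT.lf (nat_lit 0) (nat_lit 17357504093) (nat_lit 380) (nat_lit 3724156351) (nat_lit 456) (nat_lit 2525583576) (nat_lit 100) (nat_lit 5) (nat_lit 105) (nat_lit 5) (nat_lit 106) (nat_lit 5) (nat_lit 367) (nat_lit 358) (nat_lit 295)))) (XT.nd (nat_lit 78) (nat_lit 684) (nat_lit 0) (XT.lf (nat_lit 0) (nat_lit 1772931331)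 (nat_lit 380) (nat_lit 10419954582) (nat_lit 76) (nat_lit 12457734545) (nat_lit 95) (nat_lit 5) (nat_lit 100) (nat_lit 5) (nat_lit 96) (nat_lit 5) (nat_lit 368) (nat_lit 358) (nat_lit 294)) (XT.nd (nat_lit 78) (nat_lit 304) (nat_lit 0) (XT.lf (nat_lit 0) (nat_lit 6721113116) (nat_lit 456) (nat_lit 14803082253) (nat_lit 76) (nat_lit 4231500728) (nat_lit 90) (nat_lit 5) (nat_lit 96) (nat_lit 5) (nat_lit 91) (nat_lit 5) (nat_lit 369) (nat_lit 358) (nat_lit 293)) (XT.lf (nat_lit 0) (nat_lit 7475611012) (nat_lit 304) (nat_lit 5076783770) (nat_lit 380) (nat_lit 14372432522) (nat_lit 86) (nat_lit 5) (nat_lit 90) (nat_lit 5) (nat_lit 91) (nat_lit 5) (nat_lit 370) (nat_lit 358) (nat_lit 292)))))) (XT.nd (nat_lit 468) (nat_lit 1140) (nat_lit 0) (XT.nd (nat_lit 234) (nat_lit 760) (nat_lit 0) (XT.nd (nat_lit 78) (nat_lit 304) (nat_lit 0) (XT.lf (nat_lit 0) (nat_lit 3787548701) (nat_lit 304) (nat_lit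 15563450577) (nat_lit 380) (nat_lit 8811459627) (nat_lit 82) (nat_lit 5) (nat_lit 86) (nat_lit 5) (nat_lit 87) (nat_lit 5) (nat_lit 371) (nat_lit 358) (nat_lit 291)) (XT.nd (nat_lit 78) (nat_lit 304) (nat_lit 0) (XT.lf (nat_lit 0) (nat_lit 27136066299) (nat_lit 380) (nat_lit 47516264) (nat_lit 76) (nat_lit 2293399866) (nat_lit 82) (nat_lit 5) (nat_lit 87) (nat_lit 5) (nat_lit 83) (nat_lit 5) (nat_lit 372) (nat_lit 358) (nat_lit 290)) (XT.lf (nat_lit 0) (nat_lit 5174093529) (nat_lit 304) (nat_lit 4145695226) (nat_lit 76) (nat_lit 21539481923) (nat_lit 78) (nat_lit 5) (nat_lit 82) (nat_lit 5) (nat_lit 79) (nat_lit 5) (nat_lit 373) (nat_lit 358) (nat_lit 289)))) (XT.nd (nat_lit 78) (nat_lit 456) (nat_lit 0) (XT.lf (nat_lit 0) (nat_lit 13731396354) (nat_lit 380) (nat_lit 8521570733) (nat_lit 76) (nat_lit 10071109032) (nat_lit 74) (nat_lit 5) (nat_lit 79) (nat_lit 5) (nat_lit 75) (nat_lit 5) (nat_lit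 374) (nat_lit 358) (nat_lit 288)) (XT.nd (nat_lit 78) (nat_lit 228) (nat_lit 0) (XT.lf (nat_lit 0) (nat_lit 20717196317) (nat_lit 228) (nat_lit 2795321137) (nat_lit 304) (nat_lit 10366594477) (nat_lit 71) (nat_lit 5) (nat_lit 74) (nat_lit 5) (nat_lit 75) (nat_lit 5) (nat_lit 375) (nat_lit 358) (nat_lit 287)) (XT.lf (nat_lit 0) (nat_lit 17295446553) (nat_lit 228) (nat_lit 17471990711) (nat_lit 304) (nat_lit 756554965) (nat_lit 68) (nat_lit 5) (nat_lit 71) (nat_lit 5) (nat_lit 72) (nat_lit 5) (nat_lit 376) (nat_lit 358) (nat_lit 286))))) (XT.nd (nat_lit 234) (nat_lit 456) (nat_lit 0) (XT.nd (nat_lit 78) (nat_lit 380) (nat_lit 0) (XT.lf (nat_lit 0) (nat_lit 9852263700) (nat_lit 304) (nat_lit 23743214998) (nat_lit 76) (nat_lit 3670581481) (nat_lit 64) (nat_lit 5) (nat_lit 68) (nat_lit 5) (nat_lit 65) (nat_lit 5) (nat_lit 377) (nat_lit 358) (nat_lit 285)) (XT.nd (nat_lit 78) (nat_lit 152) (nat_lit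 0) (XT.lf (nat_lit 0) (nat_lit 9299938890) (nat_lit 228) (nat_lit 12733352857) (nat_lit 304) (nat_lit 17076086973) (nat_lit 61) (nat_lit 5) (nat_lit 64) (nat_lit 5) (nat_lit 65) (nat_lit 5) (nat_lit 378) (nat_lit 358) (nat_lit 284)) (XT.lf (nat_lit 0) (nat_lit 4727979696) (nat_lit 152) (nat_lit 31095677529) (nat_lit 228) (nat_lit 5244768106) (nat_lit 59) (nat_lit 5) (nat_lit 61) (nat_lit 5) (nat_lit 62) (nat_lit 5) (nat_lit 379) (nat_lit 358) (nat_lit 283)))) (XT.nd (nat_lit 78) (nat_lit 380) (nat_lit 0) (XT.lf (nat_lit 0) (nat_lit 8022567701) (nat_lit 228) (nat_lit 424297971) (nat_lit 76) (nat_lit 34694923294) (nat_lit 58) (nat_lit 5) (nat_lit 61) (nat_lit 5) (nat_lit 59) (nat_lit 5) (nat_lit 380) (nat_lit 358) (nat_lit 282)) (XT.nd (nat_lit 78) (nat_lit 152) (nat_lit 0) (XT.lf (nat_lit 0) (nat_lit 23037602327) (nat_lit 304) (nat_lit 6082814122) (nat_lit 76) (nat_lit 16212807465) (nat_lit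 55) (nat_lit 5) (nat_lit 59) (nat_lit 5) (nat_lit 56) (nat_lit 5) (nat_lit 381) (nat_lit 358) (nat_lit 281)) (XT.lf (nat_lit 0) (nat_lit 35388257594) (nat_lit 152) (nat_lit 4557523262) (nat_lit 228) (nat_lit 7719599786) (nat_lit 53) (nat_lit 5) (nat_lit 55) (nat_lit 5) (nat_lit 56) (nat_lit 5) (nat_lit 382) (nat_lit 358) (nat_lit 280))))))) (XT.nd (nat_lit 936) (nat_lit 1064) (nat_lit 0) (XT.nd (nat_lit 468) (nat_lit 760) (nat_lit 0) (XT.nd (nat_lit 234) (nat_lit 380) (nat_lit 0) (XT.nd (nat_lit 78) (nat_lit 304) (nat_lit 0) (XT.lf (nat_lit 0) (nat_lit 8703018379) (nat_lit 228) (nat_lit 19436765078) (nat_lit 76) (nat_lit 21991203086) (nat_lit 50) (nat_lit 5) (nat_lit 53) (nat_lit 5) (nat_lit 51) (nat_lit 5) (nat_lit 383) (nat_lit 358) (nat_lit 279)) (XT.nd (nat_lit 78) (nat_lit 152) (nat_lit 0) (XT.lf (nat_lit 0) (nat_lit 25343366480) (nat_lit 152) (nat_lit 1509408447) (nat_lit 228) (nat_lit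 25900552446) (nat_lit 48) (nat_lit 5) (nat_lit 50) (nat_lit 5) (nat_lit 51) (nat_lit 5) (nat_lit 384) (nat_lit 358) (nat_lit 278)) (XT.lf (nat_lit 0) (nat_lit 18992847636) (nat_lit 152) (nat_lit 28518461461) (nat_lit 228) (nat_lit 8021309572) (nat_lit 46) (nat_lit 5) (nat_lit 48) (nat_lit 5) (nat_lit 49) (nat_lit 5) (nat_lit 385) (nat_lit 358) (nat_lit 277)))) (XT.nd (nat_lit 78) (nat_lit 152) (nat_lit 0) (XT.lf (nat_lit 0) (nat_lit 11613590615) (nat_lit 228) (nat_lit 46765994677) (nat_lit 76) (nat_lit 111527938) (nat_lit 43) (nat_lit 5) (nat_lit 46) (nat_lit 5) (nat_lit 44) (nat_lit 5) (nat_lit 386) (nat_lit 358) (nat_lit 276)) (XT.nd (nat_lit 78) (nat_lit 0) (nat_lit 0) (XT.lf (nat_lit 0) (nat_lit 2954775520) (nat_lit 152) (nat_lit 30752507075) (nat_lit 228) (nat_lit 27913981043) (nat_lit 41) (nat_lit 5) (nat_lit 43) (nat_lit 5) (nat_lit 44) (nat_lit 5) (nat_lit 387) (nat_lit 358) (nat_lit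 275)) (XT.lf (nat_lit 0) (nat_lit 58309054466) (nat_lit 152) (nat_lit 65801133) (nat_lit 228) (nat_lit 6586653507) (nat_lit 41) (nat_lit 5) (nat_lit 43) (nat_lit 5) (nat_lit 44) (nat_lit 5) (nat_lit 388) (nat_lit 358) (nat_lit 274))))) (XT.nd (nat_lit 234) (nat_lit 380) (nat_lit 0) (XT.nd (nat_lit 78) (nat_lit 228) (nat_lit 0) (XT.lf (nat_lit 0) (nat_lit 17240641578) (nat_lit 152) (nat_lit 18169287192) (nat_lit 76) (nat_lit 33080199220) (nat_lit 39) (nat_lit 5) (nat_lit 41) (nat_lit 5) (nat_lit 40) (nat_lit 5) (nat_lit 389) (nat_lit 358) (nat_lit 273)) (XT.nd (nat_lit 78) (nat_lit 76) (nat_lit 0) (XT.lf (nat_lit 0) (nat_lit 40978749876) (nat_lit 152) (nat_lit 2518902309) (nat_lit 228) (nat_lit 28760272383) (nat_lit 37) (nat_lit 5) (nat_lit 39) (nat_lit 5) (nat_lit 40) (nat_lit 5) (nat_lit 390) (nat_lit 358) (nat_lit 272)) (XT.lf (nat_lit 0) (nat_lit 29610615960) (nat_lit 76) (nat_lit 43536675325)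 (nat_lit 152) (nat_lit 3115251951) (nat_lit 36) (nat_lit 5) (nat_lit 37) (nat_lit 5) (nat_lit 38) (nat_lit 4) (nat_lit 391) (nat_lit 358) (nat_lit 271)))) (XT.nd (nat_lit 78) (nat_lit 152) (nat_lit 0) (XT.lf (nat_lit 0) (nat_lit 15992490189) (nat_lit 152) (nat_lit 8641108710) (nat_lit 228) (nat_lit 55892795528) (nat_lit 33) (nat_lit 5) (nat_lit 35) (nat_lit 5) (nat_lit 36) (nat_lit 5) (nat_lit 392) (nat_lit 358) (nat_lit 270)) (XT.nd (nat_lit 78) (nat_lit 152) (nat_lit 0) (XT.lf (nat_lit 0) (nat_lit 55767411428) (nat_lit 228) (nat_lit 307837764) (nat_lit 76) (nat_lit 28989842620) (nat_lit 33) (nat_lit 5) (nat_lit 36) (nat_lit 5) (nat_lit 34) (nat_lit 4) (nat_lit 393) (nat_lit 358) (nat_lit 269)) (XT.lf (nat_lit 0) (nat_lit 714709878) (nat_lit 152) (nat_lit 18738402976) (nat_lit 76) (nat_lit 70450659039) (nat_lit 31) (nat_lit 5) (nat_lit 33) (nat_lit 5) (nat_lit 32) (nat_lit 5) (nat_lit 394)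 (nat_lit 358) (nat_lit 268)))))) (XT.nd (nat_lit 468) (nat_lit 456) (nat_lit 0) (XT.nd (nat_lit 234) (nat_lit 228) (nat_lit 0) (XT.nd (nat_lit 78) (nat_lit 228) (nat_lit 0) (XT.lf (nat_lit 0) (nat_lit 33301172562) (nat_lit 228) (nat_lit 40921532804) (nat_lit 76) (nat_lit 20822851226) (nat_lit 29) (nat_lit 5) (nat_lit 32) (nat_lit 5) (nat_lit 30) (nat_lit 4) (nat_lit 395) (nat_lit 358) (nat_lit 267)) (XT.nd (nat_lit 78) (nat_lit 152) (nat_lit 0) (XT.lf (nat_lit 0) (nat_lit 33634668313) (nat_lit 76) (nat_lit 36038971435) (nat_lit 152) (nat_lit 30866091024) (nat_lit 28) (nat_lit 5) (nat_lit 29) (nat_lit 5) (nat_lit 30) (nat_lit 4) (nat_lit 396) (nat_lit 358) (nat_lit 266)) (XT.lf (nat_lit 0) (nat_lit 3364973098) (nat_lit 152) (nat_lit 97104762148) (nat_lit 76) (nat_lit 5953668575) (nat_lit 26) (nat_lit 5) (nat_lit 28) (nat_lit 5) (nat_lit 27) (nat_lit 4) (nat_lit 397) (nat_lit 358) (nat_lit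 265)))) (XT.nd (nat_lit 78) (nat_lit 228) (nat_lit 0) (XT.lf (nat_lit 0) (nat_lit 41054362383) (nat_lit 152) (nat_lit 19847520887) (nat_lit 76) (nat_lit 51760526375) (nat_lit 26) (nat_lit 5) (nat_lit 28) (nat_lit 5) (nat_lit 27) (nat_lit 4) (nat_lit 398) (nat_lit 358) (nat_lit 264)) (XT.nd (nat_lit 78) (nat_lit 152) (nat_lit 0) (XT.lf (nat_lit 0) (nat_lit 65683148908) (nat_lit 76) (nat_lit 17096204509) (nat_lit 152) (nat_lit 36570160801) (nat_lit 25) (nat_lit 5) (nat_lit 26) (nat_lit 5) (nat_lit 27) (nat_lit 4) (nat_lit 399) (nat_lit 358) (nat_lit 263)) (XT.lf (nat_lit 0) (nat_lit 2581808431) (nat_lit 152) (nat_lit 93773650274) (nat_lit 76) (nat_lit 30147550968) (nat_lit 23) (nat_lit 5) (nat_lit 25) (nat_lit 5) (nat_lit 24) (nat_lit 4) (nat_lit 400) (nat_lit 358) (nat_lit 262))))) (XT.nd (nat_lit 234) (nat_lit 304) (nat_lit 0) (XT.nd (nat_lit 78) (nat_lit 152) (nat_lit 0) (XT.lf (nat_lit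 0) (nat_lit 44835523086) (nat_lit 152) (nat_lit 7158076536) (nat_lit 76) (nat_lit 82142668859) (nat_lit 23) (nat_lit 5) (nat_lit 25) (nat_lit 5) (nat_lit 24) (nat_lit 4) (nat_lit 401) (nat_lit 358) (nat_lit 261)) (XT.nd (nat_lit 78) (nat_lit 76) (nat_lit 0) (XT.lf (nat_lit 0) (nat_lit 89234521710) (nat_lit 76) (nat_lit 2623832184) (nat_lit 152) (nat_lit 50452393766) (nat_lit 22) (nat_lit 5) (nat_lit 23) (nat_lit 5) (nat_lit 24) (nat_lit 4) (nat_lit 402) (nat_lit 358) (nat_lit 260)) (XT.lf (nat_lit 0) (nat_lit 43037025538) (nat_lit 76) (nat_lit 101191906933) (nat_lit 76) (nat_lit 6830957208) (nat_lit 21) (nat_lit 4) (nat_lit 22) (nat_lit 5) (nat_lit 22) (nat_lit 4) (nat_lit 403) (nat_lit 358) (nat_lit 259)))) (XT.nd (nat_lit 156) (nat_lit 152) (nat_lit 0) (XT.nd (nat_lit 78) (nat_lit 76) (nat_lit 0) (XT.lf (nat_lit 0) (nat_lit 39970816421) (nat_lit 152) (nat_lit 12424209425) (nat_lit 76) (nat_lit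 108033501384) (nat_lit 20) (nat_lit 5) (nat_lit 22) (nat_lit 5) (nat_lit 21) (nat_lit 4) (nat_lit 404) (nat_lit 358) (nat_lit 258)) (XT.lf (nat_lit 0) (nat_lit 91770288396) (nat_lit 152) (nat_lit 76799705016) (nat_lit 0) (nat_lit 1896419699) (nat_lit 19) (nat_lit 5) (nat_lit 21) (nat_lit 4) (nat_lit 19) (nat_lit 4) (nat_lit 405) (nat_lit 358) (nat_lit 257))) (XT.nd (nat_lit 78) (nat_lit 76) (nat_lit 0) (XT.lf (nat_lit 0) (nat_lit 27374080672) (nat_lit 76) (nat_lit 121866782234) (nat_lit 76) (nat_lit 31990110149) (nat_lit 18) (nat_lit 4) (nat_lit 19) (nat_lit 5) (nat_lit 19) (nat_lit 4) (nat_lit 406) (nat_lit 358) (nat_lit 256)) (XT.lf (nat_lit 0) (nat_lit 19217948795) (nat_lit 152) (nat_lit 50482472783) (nat_lit 76) (nat_lit 123074064184) (nat_lit 17) (nat_lit 5) (nat_lit 19) (nat_lit 5) (nat_lit 18) (nat_lit 4) (nat_lit 407) (nat_lit 358) (nat_lit 255))))))))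
noncomputable def xc79 : XT := (XT.nd (nat_lit 1872) (nat_lit 0) (nat_lit 0) (XT.nd (nat_lit 936) (nat_lit 380) (nat_lit 0) (XT.nd (nat_lit 468) (nat_lit 304) (nat_lit 0) (XT.nd (nat_lit 234) (nat_lit 152) (nat_lit 0) (XT.nd (nat_lit 78) (nat_lit 76) (nat_lit 0) (XT.lf (nat_lit 0) (nat_lit 62620339571) (nat_lit 76) (nat_lit 11770885228) (nat_lit 152) (nat_lit 130774566140) (nat_lit 16) (nat_lit 5) (nat_lit 17) (nat_lit 5) (nat_lit 18) (nat_lit 4) (nat_lit 408) (nat_lit 358) (nat_lit 254)) (XT.nd (nat_lit 78) (nat_lit 76) (nat_lit 0) (XT.lf (nat_lit 0) (nat_lit 135661963414) (nat_lit 152) (nat_lit 32744005131) (nat_lit 0) (nat_lit 50058252283) (nat_lit 16) (nat_lit 5) (nat_lit 18) (nat_lit 4) (nat_lit 16) (nat_lit 4) (nat_lit 409) (nat_lit 358) (nat_lit 253)) (XT.lf (nat_lit 0) (nat_lit 88468869971) (nat_lit 76) (nat_lit 114942245649) (nat_lit 76) (nat_lit 29336572066) (nat_lit 15) (nat_lit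 4) (nat_lit 16) (nat_lit 5) (nat_lit 16) (nat_lit 4) (nat_lit 410) (nat_lit 358) (nat_lit 252)))) (XT.nd (nat_lit 78) (nat_lit 76) (nat_lit 0) (XT.lf (nat_lit 0) (nat_lit 28074032949) (nat_lit 152) (nat_lit 28055723120) (nat_lit 76) (nat_lit 191993058639) (nat_lit 14) (nat_lit 5) (nat_lit 16) (nat_lit 5) (nat_lit 15) (nat_lit 4) (nat_lit 411) (nat_lit 358) (nat_lit 251)) (XT.nd (nat_lit 78) (nat_lit 0) (nat_lit 0) (XT.lf (nat_lit 0) (nat_lit 90773755419) (nat_lit 152) (nat_lit 164602736807) (nat_lit 0) (nat_lit 9241209559) (nat_lit 13) (nat_lit 5) (nat_lit 15) (nat_lit 4) (nat_lit 13) (nat_lit 4) (nat_lit 412) (nat_lit 358) (nat_lit 250)) (XT.lf (nat_lit 0) (nat_lit 159930042372) (nat_lit 152) (nat_lit 44034095512) (nat_lit 0) (nat_lit 78396012839) (nat_lit 13) (nat_lit 5) (nat_lit 15) (nat_lit 4) (nat_lit 13) (nat_lit 4) (nat_lit 413) (nat_lit 358) (nat_lit 249))))) (XT.nd (nat_lit 234)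 (nat_lit 76) (nat_lit 0) (XT.nd (nat_lit 78) (nat_lit 152) (nat_lit 0) (XT.lf (nat_lit 0) (nat_lit 89024699783) (nat_lit 76) (nat_lit 146981661431) (nat_lit 76) (nat_lit 65446258126) (nat_lit 12) (nat_lit 4) (nat_lit 13) (nat_lit 5) (nat_lit 13) (nat_lit 4) (nat_lit 414) (nat_lit 358) (nat_lit 248)) (XT.nd (nat_lit 78) (nat_lit 152) (nat_lit 0) (XT.lf (nat_lit 0) (nat_lit 234296161928) (nat_lit 76) (nat_lit 84637380592) (nat_lit 76) (nat_lit 3100705276) (nat_lit 12) (nat_lit 4) (nat_lit 13) (nat_lit 5) (nat_lit 13) (nat_lit 4) (nat_lit 415) (nat_lit 358) (nat_lit 247)) (XT.lf (nat_lit 0) (nat_lit 47438183795) (nat_lit 76) (nat_lit 15476956155) (nat_lit 152) (nat_lit 281260199838) (nat_lit 10) (nat_lit 5) (nat_lit 11) (nat_lit 5) (nat_lit 12) (nat_lit 4) (nat_lit 416) (nat_lit 358) (nat_lit 246)))) (XT.nd (nat_lit 78) (nat_lit 76) (nat_lit 0) (XT.lf (nat_lit 0) (nat_lit 136580911230) (nat_lit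 152) (nat_lit 172455627483) (nat_lit 0) (nat_lit 58924774422) (nat_lit 10) (nat_lit 5) (nat_lit 12) (nat_lit 4) (nat_lit 10) (nat_lit 4) (nat_lit 417) (nat_lit 358) (nat_lit 245)) (XT.nd (nat_lit 78) (nat_lit 76) (nat_lit 0) (XT.lf (nat_lit 0) (nat_lit 216398980327) (nat_lit 152) (nat_lit 38496350526) (nat_lit 0) (nat_lit 138741881840) (nat_lit 10) (nat_lit 5) (nat_lit 12) (nat_lit 4) (nat_lit 10) (nat_lit 4) (nat_lit 418) (nat_lit 358) (nat_lit 244)) (XT.lf (nat_lit 0) (nat_lit 109686809191) (nat_lit 76) (nat_lit 194626413844) (nat_lit 76) (nat_lit 116968424913) (nat_lit 9) (nat_lit 4) (nat_lit 10) (nat_lit 5) (nat_lit 10) (nat_lit 4) (nat_lit 419) (nat_lit 358) (nat_lit 243)))))) (XT.nd (nat_lit 468) (nat_lit 152) (nat_lit 0) (XT.nd (nat_lit 234) (nat_lit 76) (nat_lit 0) (XT.nd (nat_lit 78) (nat_lit 152) (nat_lit 0) (XT.lf (nat_lit 0) (nat_lit 271095944724) (nat_lit 76) (nat_lit 128833531641)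 (nat_lit 76) (nat_lit 51174718225) (nat_lit 9) (nat_lit 4) (nat_lit 10) (nat_lit 5) (nat_lit 10) (nat_lit 4) (nat_lit 420) (nat_lit 358) (nat_lit 242)) (XT.nd (nat_lit 78) (nat_lit 76) (nat_lit 0) (XT.lf (nat_lit 0) (nat_lit 19244511542) (nat_lit 152) (nat_lit 38208328165) (nat_lit 76) (nat_lit 425844264791) (nat_lit 8) (nat_lit 5) (nat_lit 10) (nat_lit 5) (nat_lit 9) (nat_lit 4) (nat_lit 421) (nat_lit 358) (nat_lit 241)) (XT.lf (nat_lit 0) (nat_lit 95717573958) (nat_lit 152) (nat_lit 400439867485) (nat_lit 0) (nat_lit 21755399014) (nat_lit 7) (nat_lit 5) (nat_lit 9) (nat_lit 4) (nat_lit 7) (nat_lit 4) (nat_lit 422) (nat_lit 358) (nat_lit 240)))) (XT.nd (nat_lit 78) (nat_lit 76) (nat_lit 0) (XT.lf (nat_lit 0) (nat_lit 179952270877) (nat_lit 152) (nat_lit 269273902439) (nat_lit 0) (nat_lit 105989472597) (nat_lit 7) (nat_lit 5) (nat_lit 9) (nat_lit 4) (nat_lit 7) (nat_lit 4) (nat_lit 423) (nat_lit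 358) (nat_lit 239)) (XT.nd (nat_lit 78) (nat_lit 76) (nat_lit 0) (XT.lf (nat_lit 0) (nat_lit 270924404998) (nat_lit 152) (nat_lit 127617308267) (nat_lit 0) (nat_lit 196961029556) (nat_lit 7) (nat_lit 5) (nat_lit 9) (nat_lit 4) (nat_lit 7) (nat_lit 4) (nat_lit 424) (nat_lit 358) (nat_lit 238)) (XT.lf (nat_lit 0) (nat_lit 26208187177) (nat_lit 76) (nat_lit 343374066524) (nat_lit 76) (nat_lit 269410156671) (nat_lit 6) (nat_lit 4) (nat_lit 7) (nat_lit 5) (nat_lit 7) (nat_lit 4) (nat_lit 425) (nat_lit 358) (nat_lit 237))))) (XT.nd (nat_lit 234) (nat_lit 152) (nat_lit 0) (XT.nd (nat_lit 78) (nat_lit 0) (nat_lit 0) (XT.lf (nat_lit 0) (nat_lit 196894549803) (nat_lit 76) (nat_lit 281460007464) (nat_lit 76) (nat_lit 207495602788) (nat_lit 6) (nat_lit 4) (nat_lit 7) (nat_lit 5) (nat_lit 7) (nat_lit 4) (nat_lit 426) (nat_lit 358) (nat_lit 236)) (XT.nd (nat_lit 78) (nat_lit 0) (nat_lit 0) (XT.lf (nat_lit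 0) (nat_lit 381233649803) (nat_lit 76) (nat_lit 214593898826) (nat_lit 76) (nat_lit 140629035979) (nat_lit 6) (nat_lit 4) (nat_lit 7) (nat_lit 5) (nat_lit 7) (nat_lit 4) (nat_lit 427) (nat_lit 358) (nat_lit 235)) (XT.lf (nat_lit 0) (nat_lit 580317867030) (nat_lit 76) (nat_lit 142379497001) (nat_lit 76) (nat_lit 68414209922) (nat_lit 6) (nat_lit 4) (nat_lit 7) (nat_lit 5) (nat_lit 7) (nat_lit 4) (nat_lit 428) (nat_lit 358) (nat_lit 234)))) (XT.nd (nat_lit 78) (nat_lit 76) (nat_lit 0) (XT.lf (nat_lit 0) (nat_lit 9270297199) (nat_lit 152) (nat_lit 54961570626) (nat_lit 76) (nat_lit 785899665638) (nat_lit 5) (nat_lit 5) (nat_lit 7) (nat_lit 5) (nat_lit 6) (nat_lit 4) (nat_lit 429) (nat_lit 358) (nat_lit 233)) (XT.nd (nat_lit 78) (nat_lit 0) (nat_lit 0) (XT.lf (nat_lit 0) (nat_lit 92976639467) (nat_lit 152) (nat_lit 798197385915) (nat_lit 0) (nat_lit 22532788423) (nat_lit 4) (nat_lit 5) (nat_lit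 6) (nat_lit 4) (nat_lit 4) (nat_lit 4) (nat_lit 430) (nat_lit 358) (nat_lit 232)) (XT.lf (nat_lit 0) (nat_lit 185434787461) (nat_lit 152) (nat_lit 681839948562) (nat_lit 0) (nat_lit 114990615684) (nat_lit 4) (nat_lit 5) (nat_lit 6) (nat_lit 4) (nat_lit 4) (nat_lit 4) (nat_lit 431) (nat_lit 358) (nat_lit 231))))))) (XT.nd (nat_lit 48282) (nat_lit 0) (nat_lit 3876) (XT.nd (nat_lit 47814) (nat_lit 0) (nat_lit 6916) (XT.nd (nat_lit 47580) (nat_lit 0) (nat_lit 8132) (XT.nd (nat_lit 47424) (nat_lit 0) (nat_lit 8056) (XT.lf (nat_lit 0) (nat_lit 285288792495) (nat_lit 152) (nat_lit 556175496187) (nat_lit 0) (nat_lit 214844323744) (nat_lit 4) (nat_lit 5) (nat_lit 6) (nat_lit 4) (nat_lit 4) (nat_lit 4) (nat_lit 432) (nat_lit 358) (nat_lit 230)) (XT.nd (nat_lit 78) (nat_lit 0) (nat_lit 76) (XT.lf (nat_lit 0) (nat_lit 565201585) (nat_lit 836) (nat_lit 4144072205) (nat_lit 836) (nat_lit 4144072205) (nat_lit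 110) (nat_lit 3) (nat_lit 121) (nat_lit 3) (nat_lit 121) (nat_lit 5) (nat_lit 359) (nat_lit 359) (nat_lit 302)) (XT.lf (nat_lit 0) (nat_lit 1647983081) (nat_lit 760) (nat_lit 12917100113) (nat_lit 836) (nat_lit 3826029372) (nat_lit 111) (nat_lit 5) (nat_lit 121) (nat_lit 5) (nat_lit 122) (nat_lit 5) (nat_lit 360) (nat_lit 359) (nat_lit 301)))) (XT.nd (nat_lit 78) (nat_lit 0) (nat_lit 76) (XT.lf (nat_lit 76) (nat_lit 1373318319) (nat_lit 0) (nat_lit 1128174945) (nat_lit 836) (nat_lit 16614090233) (nat_lit 112) (nat_lit 5) (nat_lit 111) (nat_lit 5) (nat_lit 122) (nat_lit 5) (nat_lit 361) (nat_lit 359) (nat_lit 300)) (XT.nd (nat_lit 78) (nat_lit 0) (nat_lit 76) (XT.lf (nat_lit 0) (nat_lit 3830762003) (nat_lit 760) (nat_lit 2851542625) (nat_lit 836) (nat_lit 13195354792) (nat_lit 112) (nat_lit 5) (nat_lit 122) (nat_lit 5) (nat_lit 123) (nat_lit 5) (nat_lit 362) (nat_lit 359) (nat_lit 299)) (XT.lf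 (nat_lit 0) (nat_lit 5597615694) (nat_lit 760) (nat_lit 7189147238) (nat_lit 836) (nat_lit 7897395948) (nat_lit 113) (nat_lit 5) (nat_lit 123) (nat_lit 5) (nat_lit 124) (nat_lit 5) (nat_lit 363) (nat_lit 359) (nat_lit 298))))) (XT.nd (nat_lit 234) (nat_lit 760) (nat_lit 0) (XT.nd (nat_lit 78) (nat_lit 684) (nat_lit 0) (XT.lf (nat_lit 0) (nat_lit 7829780160) (nat_lit 760) (nat_lit 11691455311) (nat_lit 836) (nat_lit 2017762882) (nat_lit 114) (nat_lit 5) (nat_lit 124) (nat_lit 5) (nat_lit 125) (nat_lit 5) (nat_lit 364) (nat_lit 359) (nat_lit 297)) (XT.nd (nat_lit 78) (nat_lit 684) (nat_lit 0) (XT.lf (nat_lit 76) (nat_lit 6002407068) (nat_lit 0) (nat_lit 4650417332) (nat_lit 836) (nat_lit 11788802088) (nat_lit 115) (nat_lit 5) (nat_lit 114) (nat_lit 5) (nat_lit 125) (nat_lit 5) (nat_lit 365) (nat_lit 359) (nat_lit 296)) (XT.lf (nat_lit 0) (nat_lit 1984717540) (nat_lit 760) (nat_lit 12110381085)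 (nat_lit 836) (nat_lit 9301712513) (nat_lit 105) (nat_lit 5) (nat_lit 115) (nat_lit 5) (nat_lit 116) (nat_lit 5) (nat_lit 366) (nat_lit 359) (nat_lit 295)))) (XT.nd (nat_lit 78) (nat_lit 760) (nat_lit 0) (XT.lf (nat_lit 0) (nat_lit 18220702636) (nat_lit 836) (nat_lit 2107947988) (nat_lit 76) (nat_lit 4079376976) (nat_lit 105) (nat_lit 5) (nat_lit 116) (nat_lit 5) (nat_lit 106) (nat_lit 5) (nat_lit 367) (nat_lit 359) (nat_lit 294)) (XT.nd (nat_lit 78) (nat_lit 380) (nat_lit 0) (XT.lf (nat_lit 0) (nat_lit 19129565783) (nat_lit 380) (nat_lit 4029909480) (nat_lit 456) (nat_lit 2316523464) (nat_lit 100) (nat_lit 5) (nat_lit 105) (nat_lit 5) (nat_lit 106) (nat_lit 5) (nat_lit 368) (nat_lit 359) (nat_lit 293)) (XT.lf (nat_lit 0) (nat_lit 2289245430) (nat_lit 380) (nat_lit 10855062408) (nat_lit 76) (nat_lit 13459408369) (nat_lit 95) (nat_lit 5) (nat_lit 100) (nat_lit 5) (nat_lit 96) (nat_lit 5) (nat_lit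 369) (nat_lit 359) (nat_lit 292)))))) (XT.nd (nat_lit 468) (nat_lit 1444) (nat_lit 0) (XT.nd (nat_lit 234) (nat_lit 608) (nat_lit 0) (XT.nd (nat_lit 78) (nat_lit 608) (nat_lit 0) (XT.lf (nat_lit 0) (nat_lit 7611938312) (nat_lit 456) (nat_lit 15588755307) (nat_lit 76) (nat_lit 4597588482) (nat_lit 90) (nat_lit 5) (nat_lit 96) (nat_lit 5) (nat_lit 91) (nat_lit 5) (nat_lit 370) (nat_lit 359) (nat_lit 291)) (XT.nd (nat_lit 78) (nat_lit 304) (nat_lit 0) (XT.lf (nat_lit 0) (nat_lit 8454911900) (nat_lit 304) (nat_lit 5434604791) (nat_lit 380) (nat_lit 15172453173) (nat_lit 86) (nat_lit 5) (nat_lit 90) (nat_lit 5) (nat_lit 91) (nat_lit 5) (nat_lit 371) (nat_lit 359) (nat_lit 290)) (XT.lf (nat_lit 0) (nat_lit 4470625827) (nat_lit 304) (nat_lit 16743354774) (nat_lit 380) (nat_lit 9185547439) (nat_lit 82) (nat_lit 5) (nat_lit 86) (nat_lit 5) (nat_lit 87) (nat_lit 5) (nat_lit 372) (nat_lit 359) (nat_lit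 289)))) (XT.nd (nat_lit 78) (nat_lit 380) (nat_lit 0) (XT.lf (nat_lit 0) (nat_lit 324803443) (nat_lit 228) (nat_lit 29279736748) (nat_lit 304) (nat_lit 2215552414) (nat_lit 79) (nat_lit 5) (nat_lit 82) (nat_lit 5) (nat_lit 83) (nat_lit 5) (nat_lit 373) (nat_lit 359) (nat_lit 288)) (XT.nd (nat_lit 78) (nat_lit 304) (nat_lit 0) (XT.lf (nat_lit 0) (nat_lit 5869013550) (nat_lit 304) (nat_lit 4118079646) (nat_lit 76) (nat_lit 23326720489) (nat_lit 78) (nat_lit 5) (nat_lit 82) (nat_lit 5) (nat_lit 79) (nat_lit 5) (nat_lit 374) (nat_lit 359) (nat_lit 287)) (XT.lf (nat_lit 0) (nat_lit 15096671377) (nat_lit 380) (nat_lit 8847443092) (nat_lit 76) (nat_lit 10952411593) (nat_lit 74) (nat_lit 5) (nat_lit 79) (nat_lit 5) (nat_lit 75) (nat_lit 5) (nat_lit 375) (nat_lit 359) (nat_lit 286))))) (XT.nd (nat_lit 234) (nat_lit 684) (nat_lit 0) (XT.nd (nat_lit 78) (nat_lit 532) (nat_lit 0) (XT.lf (nat_lit 0) (nat_lit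 22714960371) (nat_lit 228) (nat_lit 2930875965) (nat_lit 304) (nat_lit 10930860915) (nat_lit 71) (nat_lit 5) (nat_lit 74) (nat_lit 5) (nat_lit 75) (nat_lit 5) (nat_lit 376) (nat_lit 359) (nat_lit 285)) (XT.nd (nat_lit 78) (nat_lit 304) (nat_lit 0) (XT.lf (nat_lit 0) (nat_lit 19015552300) (nat_lit 228) (nat_lit 18773433666) (nat_lit 304) (nat_lit 564799660) (nat_lit 68) (nat_lit 5) (nat_lit 71) (nat_lit 5) (nat_lit 72) (nat_lit 5) (nat_lit 377) (nat_lit 359) (nat_lit 284)) (XT.lf (nat_lit 0) (nat_lit 10873244456) (nat_lit 304) (nat_lit 25302862440) (nat_lit 76) (nat_lit 4059493797) (nat_lit 64) (nat_lit 5) (nat_lit 68) (nat_lit 5) (nat_lit 65) (nat_lit 5) (nat_lit 378) (nat_lit 359) (nat_lit 283)))) (XT.nd (nat_lit 156) (nat_lit 304) (nat_lit 0) (XT.nd (nat_lit 78) (nat_lit 152) (nat_lit 0) (XT.lf (nat_lit 0) (nat_lit 10368976042) (nat_lit 228) (nat_lit 13647609103) (nat_lit 304) (nat_lit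 18210415779) (nat_lit 61) (nat_lit 5) (nat_lit 64) (nat_lit 5) (nat_lit 65) (nat_lit 5) (nat_lit 379) (nat_lit 359) (nat_lit 282)) (XT.lf (nat_lit 0) (nat_lit 5426219342) (nat_lit 152) (nat_lit 33474123078) (nat_lit 228) (nat_lit 5442927870) (nat_lit 59) (nat_lit 5) (nat_lit 61) (nat_lit 5) (nat_lit 62) (nat_lit 5) (nat_lit 380) (nat_lit 359) (nat_lit 281))) (XT.nd (nat_lit 78) (nat_lit 228) (nat_lit 0) (XT.lf (nat_lit 0) (nat_lit 8862831272) (nat_lit 228) (nat_lit 155303545) (nat_lit 76) (nat_lit 37564995490) (nat_lit 58) (nat_lit 5) (nat_lit 61) (nat_lit 5) (nat_lit 59) (nat_lit 5) (nat_lit 381) (nat_lit 359) (nat_lit 280)) (XT.lf (nat_lit 0) (nat_lit 25070476794) (nat_lit 304) (nat_lit 6271763766) (nat_lit 76) (nat_lit 17608074926) (nat_lit 55) (nat_lit 5) (nat_lit 59) (nat_lit 5) (nat_lit 56) (nat_lit 5) (nat_lit 382) (nat_lit 359) (nat_lit 279))))))))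
noncomputable def xc80 : XT := (XT.nd (nat_lit 1872) (nat_lit 1140) (nat_lit 0) (XT.nd (nat_lit 936) (nat_lit 1064) (nat_lit 0) (XT.nd (nat_lit 468) (nat_lit 608) (nat_lit 0) (XT.nd (nat_lit 234) (nat_lit 532) (nat_lit 0) (XT.nd (nat_lit 78) (nat_lit 380) (nat_lit 0) (XT.lf (nat_lit 0) (nat_lit 38504057073) (nat_lit 152) (nat_lit 4817633935) (nat_lit 228) (nat_lit 8147840084) (nat_lit 53) (nat_lit 5) (nat_lit 55) (nat_lit 5) (nat_lit 56) (nat_lit 5) (nat_lit 383) (nat_lit 359) (nat_lit 278)) (XT.nd (nat_lit 78) (nat_lit 152) (nat_lit 0) (XT.lf (nat_lit 0) (nat_lit 9574922923) (nat_lit 228) (nat_lit 20706349083) (nat_lit 76) (nat_lit 23851350681) (nat_lit 50) (nat_lit 5) (nat_lit 53) (nat_lit 5) (nat_lit 51) (nat_lit 5) (nat_lit 384) (nat_lit 359) (nat_lit 277)) (XT.lf (nat_lit 0) (nat_lit 27643791723) (nat_lit 152) (nat_lit 1524117799) (nat_lit 228) (nat_lit 27797283201) (nat_lit 48) (nat_lit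 5) (nat_lit 50) (nat_lit 5) (nat_lit 51) (nat_lit 5) (nat_lit 385) (nat_lit 359) (nat_lit 276)))) (XT.nd (nat_lit 78) (nat_lit 380) (nat_lit 0) (XT.lf (nat_lit 0) (nat_lit 20779821108) (nat_lit 152) (nat_lit 30692651553) (nat_lit 228) (nat_lit 8494691440) (nat_lit 46) (nat_lit 5) (nat_lit 48) (nat_lit 5) (nat_lit 49) (nat_lit 5) (nat_lit 386) (nat_lit 359) (nat_lit 275)) (XT.nd (nat_lit 78) (nat_lit 152) (nat_lit 0) (XT.lf (nat_lit 0) (nat_lit 12699278563) (nat_lit 228) (nat_lit 50240021437) (nat_lit 76) (nat_lit 223227174) (nat_lit 43) (nat_lit 5) (nat_lit 46) (nat_lit 5) (nat_lit 44) (nat_lit 5) (nat_lit 387) (nat_lit 359) (nat_lit 274)) (XT.lf (nat_lit 0) (nat_lit 3446795894) (nat_lit 152) (nat_lit 33106061186) (nat_lit 228) (nat_lit 29990616315) (nat_lit 41) (nat_lit 5) (nat_lit 43) (nat_lit 5) (nat_lit 44) (nat_lit 5) (nat_lit 388) (nat_lit 359) (nat_lit 273))))) (XT.nd (nat_lit 234)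 (nat_lit 304) (nat_lit 0) (XT.nd (nat_lit 78) (nat_lit 304) (nat_lit 0) (XT.lf (nat_lit 0) (nat_lit 63183231675) (nat_lit 228) (nat_lit 6941444619) (nat_lit 76) (nat_lit 26795511) (nat_lit 41) (nat_lit 5) (nat_lit 44) (nat_lit 5) (nat_lit 42) (nat_lit 4) (nat_lit 389) (nat_lit 359) (nat_lit 272)) (XT.nd (nat_lit 78) (nat_lit 152) (nat_lit 0) (XT.lf (nat_lit 0) (nat_lit 18754883836) (nat_lit 152) (nat_lit 19386757044) (nat_lit 76) (nat_lit 35820913721) (nat_lit 39) (nat_lit 5) (nat_lit 41) (nat_lit 5) (nat_lit 40) (nat_lit 5) (nat_lit 390) (nat_lit 359) (nat_lit 271)) (XT.lf (nat_lit 0) (nat_lit 44482863539) (nat_lit 152) (nat_lit 2623118009) (nat_lit 228) (nat_lit 30926119570) (nat_lit 37) (nat_lit 5) (nat_lit 39) (nat_lit 5) (nat_lit 40) (nat_lit 5) (nat_lit 391) (nat_lit 359) (nat_lit 270)))) (XT.nd (nat_lit 78) (nat_lit 228) (nat_lit 0) (XT.lf (nat_lit 0) (nat_lit 32200189054) (nat_lit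 76) (nat_lit 46922735595) (nat_lit 152) (nat_lit 3234400324) (nat_lit 36) (nat_lit 5) (nat_lit 37) (nat_lit 5) (nat_lit 38) (nat_lit 4) (nat_lit 392) (nat_lit 359) (nat_lit 269)) (XT.nd (nat_lit 78) (nat_lit 0) (nat_lit 0) (XT.lf (nat_lit 0) (nat_lit 17487029637) (nat_lit 152) (nat_lit 9237198221) (nat_lit 228) (nat_lit 60238255305) (nat_lit 33) (nat_lit 5) (nat_lit 35) (nat_lit 5) (nat_lit 36) (nat_lit 5) (nat_lit 393) (nat_lit 359) (nat_lit 268)) (XT.lf (nat_lit 0) (nat_lit 60341237096) (nat_lit 228) (nat_lit 129060409) (nat_lit 76) (nat_lit 31394356157) (nat_lit 33) (nat_lit 5) (nat_lit 36) (nat_lit 5) (nat_lit 34) (nat_lit 4) (nat_lit 394) (nat_lit 359) (nat_lit 267)))))) (XT.nd (nat_lit 468) (nat_lit 456) (nat_lit 0) (XT.nd (nat_lit 234) (nat_lit 228) (nat_lit 0) (XT.nd (nat_lit 78) (nat_lit 228) (nat_lit 0) (XT.lf (nat_lit 0) (nat_lit 880806580) (nat_lit 152) (nat_lit 20039288122) (nat_lit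 76) (nat_lit 76170511908) (nat_lit 31) (nat_lit 5) (nat_lit 33) (nat_lit 5) (nat_lit 32) (nat_lit 5) (nat_lit 395) (nat_lit 359) (nat_lit 266)) (XT.nd (nat_lit 78) (nat_lit 76) (nat_lit 0) (XT.lf (nat_lit 0) (nat_lit 36070416915) (nat_lit 228) (nat_lit 44001810242) (nat_lit 76) (nat_lit 22571696956) (nat_lit 29) (nat_lit 5) (nat_lit 32) (nat_lit 5) (nat_lit 30) (nat_lit 4) (nat_lit 396) (nat_lit 359) (nat_lit 265)) (XT.lf (nat_lit 0) (nat_lit 36510480072) (nat_lit 76) (nat_lit 38837301440) (nat_lit 152) (nat_lit 33230097155) (nat_lit 28) (nat_lit 5) (nat_lit 29) (nat_lit 5) (nat_lit 30) (nat_lit 4) (nat_lit 397) (nat_lit 359) (nat_lit 264)))) (XT.nd (nat_lit 78) (nat_lit 76) (nat_lit 0) (XT.lf (nat_lit 0) (nat_lit 3732644237) (nat_lit 152) (nat_lit 104689328786) (nat_lit 76) (nat_lit 6510363533) (nat_lit 26) (nat_lit 5) (nat_lit 28) (nat_lit 5) (nat_lit 27) (nat_lit 4) (nat_lit 398) (nat_lit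 359) (nat_lit 263)) (XT.nd (nat_lit 78) (nat_lit 76) (nat_lit 0) (XT.lf (nat_lit 0) (nat_lit 44429890346) (nat_lit 152) (nat_lit 21265124100) (nat_lit 76) (nat_lit 55975814293) (nat_lit 26) (nat_lit 5) (nat_lit 28) (nat_lit 5) (nat_lit 27) (nat_lit 4) (nat_lit 399) (nat_lit 359) (nat_lit 262)) (XT.lf (nat_lit 0) (nat_lit 71100602661) (nat_lit 76) (nat_lit 18388065798) (nat_lit 152) (nat_lit 39404444922) (nat_lit 25) (nat_lit 5) (nat_lit 26) (nat_lit 5) (nat_lit 27) (nat_lit 4) (nat_lit 400) (nat_lit 359) (nat_lit 261))))) (XT.nd (nat_lit 234) (nat_lit 228) (nat_lit 0) (XT.nd (nat_lit 78) (nat_lit 76) (nat_lit 0) (XT.lf (nat_lit 0) (nat_lit 2873843884) (nat_lit 152) (nat_lit 101113937024) (nat_lit 76) (nat_lit 32631182976) (nat_lit 23) (nat_lit 5) (nat_lit 25) (nat_lit 5) (nat_lit 24) (nat_lit 4) (nat_lit 401) (nat_lit 359) (nat_lit 260)) (XT.nd (nat_lit 78) (nat_lit 76) (nat_lit 0) (XT.lf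 (nat_lit 0) (nat_lit 48501523061) (nat_lit 152) (nat_lit 7581088147) (nat_lit 76) (nat_lit 88780589710) (nat_lit 23) (nat_lit 5) (nat_lit 25) (nat_lit 5) (nat_lit 24) (nat_lit 4) (nat_lit 402) (nat_lit 359) (nat_lit 259)) (XT.lf (nat_lit 0) (nat_lit 96516415025) (nat_lit 76) (nat_lit 2766136429) (nat_lit 152) (nat_lit 54409269246) (nat_lit 22) (nat_lit 5) (nat_lit 23) (nat_lit 5) (nat_lit 24) (nat_lit 4) (nat_lit 403) (nat_lit 359) (nat_lit 258)))) (XT.nd (nat_lit 78) (nat_lit 152) (nat_lit 0) (XT.lf (nat_lit 0) (nat_lit 46619511446) (nat_lit 76) (nat_lit 109220825749) (nat_lit 76) (nat_lit 7300679605) (nat_lit 21) (nat_lit 4) (nat_lit 22) (nat_lit 5) (nat_lit 22) (nat_lit 4) (nat_lit 404) (nat_lit 359) (nat_lit 257)) (XT.nd (nat_lit 78) (nat_lit 76) (nat_lit 0) (XT.lf (nat_lit 0) (nat_lit 43237275778) (nat_lit 152) (nat_lit 13286674355) (nat_lit 76) (nat_lit 116735411155) (nat_lit 20) (nat_lit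 5) (nat_lit 22) (nat_lit 5) (nat_lit 21) (nat_lit 4) (nat_lit 405) (nat_lit 359) (nat_lit 256)) (XT.lf (nat_lit 0) (nat_lit 99178511370) (nat_lit 152) (nat_lit 82815570599) (nat_lit 0) (nat_lit 2106306401) (nat_lit 19) (nat_lit 5) (nat_lit 21) (nat_lit 4) (nat_lit 19) (nat_lit 4) (nat_lit 406) (nat_lit 359) (nat_lit 255))))))) (XT.nd (nat_lit 936) (nat_lit 456) (nat_lit 0) (XT.nd (nat_lit 468) (nat_lit 304) (nat_lit 0) (XT.nd (nat_lit 234) (nat_lit 152) (nat_lit 0) (XT.nd (nat_lit 78) (nat_lit 152) (nat_lit 0) (XT.lf (nat_lit 0) (nat_lit 29686550404) (nat_lit 76) (nat_lit 131557161355) (nat_lit 76) (nat_lit 34482552932) (nat_lit 18) (nat_lit 4) (nat_lit 19) (nat_lit 5) (nat_lit 19) (nat_lit 4) (nat_lit 407) (nat_lit 359) (nat_lit 254)) (XT.nd (nat_lit 78) (nat_lit 76) (nat_lit 0) (XT.lf (nat_lit 0) (nat_lit 20815226457) (nat_lit 152) (nat_lit 54405619604) (nat_lit 76) (nat_lit 132972600110)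 (nat_lit 17) (nat_lit 5) (nat_lit 19) (nat_lit 5) (nat_lit 18) (nat_lit 4) (nat_lit 408) (nat_lit 359) (nat_lit 253)) (XT.lf (nat_lit 0) (nat_lit 67740400378) (nat_lit 76) (nat_lit 12659255618) (nat_lit 152) (nat_lit 141176535663) (nat_lit 16) (nat_lit 5) (nat_lit 17) (nat_lit 5) (nat_lit 18) (nat_lit 4) (nat_lit 409) (nat_lit 359) (nat_lit 252)))) (XT.nd (nat_lit 78) (nat_lit 152) (nat_lit 0) (XT.lf (nat_lit 0) (nat_lit 146568592138) (nat_lit 152) (nat_lit 35259392184) (nat_lit 0) (nat_lit 54110685133) (nat_lit 16) (nat_lit 5) (nat_lit 18) (nat_lit 4) (nat_lit 16) (nat_lit 4) (nat_lit 410) (nat_lit 359) (nat_lit 251)) (XT.nd (nat_lit 78) (nat_lit 76) (nat_lit 0) (XT.lf (nat_lit 0) (nat_lit 95645987418) (nat_lit 76) (nat_lit 124089268583) (nat_lit 76) (nat_lit 31629679092) (nat_lit 15) (nat_lit 4) (nat_lit 16) (nat_lit 5) (nat_lit 16) (nat_lit 4) (nat_lit 411) (nat_lit 359) (nat_lit 250))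 (XT.lf (nat_lit 0) (nat_lit 30368192811) (nat_lit 152) (nat_lit 30206352084) (nat_lit 76) (nat_lit 207395678673) (nat_lit 14) (nat_lit 5) (nat_lit 16) (nat_lit 5) (nat_lit 15) (nat_lit 4) (nat_lit 412) (nat_lit 359) (nat_lit 249))))) (XT.nd (nat_lit 234) (nat_lit 152) (nat_lit 0) (XT.nd (nat_lit 78) (nat_lit 76) (nat_lit 0) (XT.lf (nat_lit 0) (nat_lit 98082403277) (nat_lit 152) (nat_lit 177679579220) (nat_lit 0) (nat_lit 10022793935) (nat_lit 13) (nat_lit 5) (nat_lit 15) (nat_lit 4) (nat_lit 13) (nat_lit 4) (nat_lit 413) (nat_lit 359) (nat_lit 248)) (XT.nd (nat_lit 78) (nat_lit 76) (nat_lit 0) (XT.lf (nat_lit 0) (nat_lit 172767730414) (nat_lit 152) (nat_lit 47472215253) (nat_lit 0) (nat_lit 84706849062) (nat_lit 13) (nat_lit 5) (nat_lit 15) (nat_lit 4) (nat_lit 13) (nat_lit 4) (nat_lit 414) (nat_lit 359) (nat_lit 247)) (XT.lf (nat_lit 0) (nat_lit 96227606709) (nat_lit 76) (nat_lit 158700605342)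 (nat_lit 76) (nat_lit 70638546203) (nat_lit 12) (nat_lit 4) (nat_lit 13) (nat_lit 5) (nat_lit 13) (nat_lit 4) (nat_lit 415) (nat_lit 359) (nat_lit 246)))) (XT.nd (nat_lit 78) (nat_lit 152) (nat_lit 0) (XT.lf (nat_lit 0) (nat_lit 253114790941) (nat_lit 76) (nat_lit 91371714554) (nat_lit 76) (nat_lit 3308564870) (nat_lit 12) (nat_lit 4) (nat_lit 13) (nat_lit 5) (nat_lit 13) (nat_lit 4) (nat_lit 416) (nat_lit 359) (nat_lit 245)) (XT.nd (nat_lit 78) (nat_lit 0) (nat_lit 0) (XT.lf (nat_lit 0) (nat_lit 51306151548) (nat_lit 76) (nat_lit 16679366010) (nat_lit 152) (nat_lit 303721988204) (nat_lit 10) (nat_lit 5) (nat_lit 11) (nat_lit 5) (nat_lit 12) (nat_lit 4) (nat_lit 417) (nat_lit 359) (nat_lit 244)) (XT.lf (nat_lit 0) (nat_lit 147542314237) (nat_lit 152) (nat_lit 186183359022) (nat_lit 0) (nat_lit 63670795748) (nat_lit 10) (nat_lit 5) (nat_lit 12) (nat_lit 4) (nat_lit 10) (nat_lit 4) (nat_lit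 418) (nat_lit 359) (nat_lit 243)))))) (XT.nd (nat_lit 468) (nat_lit 228) (nat_lit 0) (XT.nd (nat_lit 234) (nat_lit 152) (nat_lit 0) (XT.nd (nat_lit 78) (nat_lit 76) (nat_lit 0) (XT.lf (nat_lit 0) (nat_lit 233743241446) (nat_lit 152) (nat_lit 41512430179) (nat_lit 0) (nat_lit 149870898473) (nat_lit 10) (nat_lit 5) (nat_lit 12) (nat_lit 4) (nat_lit 10) (nat_lit 4) (nat_lit 419) (nat_lit 359) (nat_lit 242)) (XT.nd (nat_lit 78) (nat_lit 0) (nat_lit 0) (XT.lf (nat_lit 0) (nat_lit 118522617103) (nat_lit 76) (nat_lit 210166560957) (nat_lit 76) (nat_lit 126293454572) (nat_lit 9) (nat_lit 4) (nat_lit 10) (nat_lit 5) (nat_lit 10) (nat_lit 4) (nat_lit 420) (nat_lit 359) (nat_lit 241)) (XT.lf (nat_lit 0) (nat_lit 292839975095) (nat_lit 76) (nat_lit 139112467882) (nat_lit 76) (nat_lit 55238654633) (nat_lit 9) (nat_lit 4) (nat_lit 10) (nat_lit 5) (nat_lit 10) (nat_lit 4) (nat_lit 421) (nat_lit 359) (nat_lit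 240)))) (XT.nd (nat_lit 78) (nat_lit 76) (nat_lit 0) (XT.lf (nat_lit 0) (nat_lit 20810997974) (nat_lit 152) (nat_lit 41211921903) (nat_lit 76) (nat_lit 459936604834) (nat_lit 8) (nat_lit 5) (nat_lit 10) (nat_lit 5) (nat_lit 9) (nat_lit 4) (nat_lit 422) (nat_lit 359) (nat_lit 239)) (XT.nd (nat_lit 78) (nat_lit 0) (nat_lit 0) (XT.lf (nat_lit 0) (nat_lit 103401094483) (nat_lit 152) (nat_lit 432423393904) (nat_lit 0) (nat_lit 23520071843) (nat_lit 7) (nat_lit 5) (nat_lit 9) (nat_lit 4) (nat_lit 7) (nat_lit 4) (nat_lit 423) (nat_lit 359) (nat_lit 238)) (XT.lf (nat_lit 0) (nat_lit 194372632740) (nat_lit 152) (nat_lit 290767978541) (nat_lit 0) (nat_lit 114491075690) (nat_lit 7) (nat_lit 5) (nat_lit 9) (nat_lit 4) (nat_lit 7) (nat_lit 4) (nat_lit 424) (nat_lit 359) (nat_lit 237))))) (XT.nd (nat_lit 234) (nat_lit 152) (nat_lit 0) (XT.nd (nat_lit 78) (nat_lit 76) (nat_lit 0) (XT.lf (nat_lit 0) (nat_lit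 292620746467) (nat_lit 152) (nat_lit 137782400249) (nat_lit 0) (nat_lit 212738694592) (nat_lit 7) (nat_lit 5) (nat_lit 9) (nat_lit 4) (nat_lit 7) (nat_lit 4) (nat_lit 425) (nat_lit 359) (nat_lit 236)) (XT.nd (nat_lit 78) (nat_lit 0) (nat_lit 0) (XT.lf (nat_lit 0) (nat_lit 28347209924) (nat_lit 76) (nat_lit 370823016171) (nat_lit 76) (nat_lit 290940506126) (nat_lit 6) (nat_lit 4) (nat_lit 7) (nat_lit 5) (nat_lit 7) (nat_lit 4) (nat_lit 426) (nat_lit 359) (nat_lit 235)) (XT.lf (nat_lit 0) (nat_lit 212685343206) (nat_lit 76) (nat_lit 303957386141) (nat_lit 76) (nat_lit 224074451864) (nat_lit 6) (nat_lit 4) (nat_lit 7) (nat_lit 5) (nat_lit 7) (nat_lit 4) (nat_lit 427) (nat_lit 359) (nat_lit 234)))) (XT.nd (nat_lit 156) (nat_lit 152) (nat_lit 0) (XT.nd (nat_lit 78) (nat_lit 0) (nat_lit 0) (XT.lf (nat_lit 0) (nat_lit 411768665324) (nat_lit 76) (nat_lit 231743427472) (nat_lit 76) (nat_lit 151860100388)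 (nat_lit 6) (nat_lit 4) (nat_lit 7) (nat_lit 5) (nat_lit 7) (nat_lit 4) (nat_lit 428) (nat_lit 359) (nat_lit 233)) (XT.lf (nat_lit 0) (nat_lit 626776929296) (nat_lit 76) (nat_lit 153753205595) (nat_lit 76) (nat_lit 73869514800) (nat_lit 6) (nat_lit 4) (nat_lit 7) (nat_lit 5) (nat_lit 7) (nat_lit 4) (nat_lit 429) (nat_lit 359) (nat_lit 232))) (XT.nd (nat_lit 78) (nat_lit 76) (nat_lit 0) (XT.lf (nat_lit 0) (nat_lit 10027903553) (nat_lit 152) (nat_lit 59326825279) (nat_lit 76) (nat_lit 848786527217) (nat_lit 5) (nat_lit 5) (nat_lit 7) (nat_lit 5) (nat_lit 6) (nat_lit 4) (nat_lit 430) (nat_lit 359) (nat_lit 231)) (XT.lf (nat_lit 0) (nat_lit 100430276842) (nat_lit 152) (nat_lit 862022352250) (nat_lit 0) (nat_lit 24349953616) (nat_lit 4) (nat_lit 5) (nat_lit 6) (nat_lit 4) (nat_lit 4) (nat_lit 4) (nat_lit 431) (nat_lit 359) (nat_lit 230))))))))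
noncomputable def xc81 : XT := (XT.nd (nat_lit 49296) (nat_lit 0) (nat_lit 1140) (XT.nd (nat_lit 48360) (nat_lit 0) (nat_lit 3876) (XT.nd (nat_lit 47892) (nat_lit 0) (nat_lit 6916) (XT.nd (nat_lit 47658) (nat_lit 0) (nat_lit 8132) (XT.nd (nat_lit 47502) (nat_lit 0) (nat_lit 8056) (XT.lf (nat_lit 0) (nat_lit 200283928066) (nat_lit 152) (nat_lit 736358603207) (nat_lit 0) (nat_lit 124203329864) (nat_lit 4) (nat_lit 5) (nat_lit 6) (nat_lit 4) (nat_lit 4) (nat_lit 4) (nat_lit 432) (nat_lit 359) (nat_lit 229)) (XT.nd (nat_lit 78) (nat_lit 0) (nat_lit 76) (XT.lf (nat_lit 0) (nat_lit 926798555) (nat_lit 836) (nat_lit 4309386334) (nat_lit 836) (nat_lit 4309386334) (nat_lit 110) (nat_lit 3) (nat_lit 121) (nat_lit 3) (nat_lit 121) (nat_lit 5) (nat_lit 360) (nat_lit 360) (nat_lit 300)) (XT.lf (nat_lit 0) (nat_lit 2366416286) (nat_lit 760) (nat_lit 13598274674) (nat_lit 836) (nat_lit 3867967162) (nat_lit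 111) (nat_lit 5) (nat_lit 121) (nat_lit 5) (nat_lit 122) (nat_lit 5) (nat_lit 361) (nat_lit 360) (nat_lit 299)))) (XT.nd (nat_lit 78) (nat_lit 0) (nat_lit 76) (XT.lf (nat_lit 76) (nat_lit 1820071335) (nat_lit 0) (nat_lit 1429944259) (nat_lit 836) (nat_lit 17367011363) (nat_lit 112) (nat_lit 5) (nat_lit 111) (nat_lit 5) (nat_lit 122) (nat_lit 5) (nat_lit 362) (nat_lit 360) (nat_lit 298)) (XT.nd (nat_lit 78) (nat_lit 0) (nat_lit 76) (XT.lf (nat_lit 0) (nat_lit 4641945668) (nat_lit 760) (nat_lit 2738931669) (nat_lit 836) (nat_lit 14061404001) (nat_lit 112) (nat_lit 5) (nat_lit 122) (nat_lit 5) (nat_lit 123) (nat_lit 5) (nat_lit 363) (nat_lit 360) (nat_lit 297)) (XT.lf (nat_lit 0) (nat_lit 6515562169) (nat_lit 760) (nat_lit 7412115657) (nat_lit 836) (nat_lit 8387378477) (nat_lit 113) (nat_lit 5) (nat_lit 123) (nat_lit 5) (nat_lit 124) (nat_lit 5) (nat_lit 364) (nat_lit 360) (nat_lit 296)))))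 (XT.nd (nat_lit 234) (nat_lit 760) (nat_lit 0) (XT.nd (nat_lit 78) (nat_lit 684) (nat_lit 0) (XT.lf (nat_lit 0) (nat_lit 8895114876) (nat_lit 760) (nat_lit 12265961045) (nat_lit 836) (nat_lit 2078790588) (nat_lit 114) (nat_lit 5) (nat_lit 124) (nat_lit 5) (nat_lit 125) (nat_lit 5) (nat_lit 365) (nat_lit 360) (nat_lit 295)) (XT.nd (nat_lit 78) (nat_lit 684) (nat_lit 0) (XT.lf (nat_lit 76) (nat_lit 6827729931) (nat_lit 0) (nat_lit 5089146189) (nat_lit 836) (nat_lit 12299207626) (nat_lit 115) (nat_lit 5) (nat_lit 114) (nat_lit 5) (nat_lit 125) (nat_lit 5) (nat_lit 366) (nat_lit 360) (nat_lit 294)) (XT.lf (nat_lit 0) (nat_lit 2494588100) (nat_lit 760) (nat_lit 13113955949) (nat_lit 836) (nat_lit 9640459388) (nat_lit 105) (nat_lit 5) (nat_lit 115) (nat_lit 5) (nat_lit 116) (nat_lit 5) (nat_lit 367) (nat_lit 360) (nat_lit 293)))) (XT.nd (nat_lit 78) (nat_lit 760) (nat_lit 0) (XT.lf (nat_lit 0)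 (nat_lit 20035113548) (nat_lit 836) (nat_lit 1932891044) (nat_lit 76) (nat_lit 4374586077) (nat_lit 105) (nat_lit 5) (nat_lit 116) (nat_lit 5) (nat_lit 106) (nat_lit 5) (nat_lit 368) (nat_lit 360) (nat_lit 292)) (XT.nd (nat_lit 78) (nat_lit 380) (nat_lit 0) (XT.lf (nat_lit 0) (nat_lit 20988687359) (nat_lit 380) (nat_lit 4359007160) (nat_lit 456) (nat_lit 2149387524) (nat_lit 100) (nat_lit 5) (nat_lit 105) (nat_lit 5) (nat_lit 106) (nat_lit 5) (nat_lit 369) (nat_lit 360) (nat_lit 291)) (XT.lf (nat_lit 0) (nat_lit 2793440957) (nat_lit 380) (nat_lit 11381827706) (nat_lit 76) (nat_lit 14540494939) (nat_lit 95) (nat_lit 5) (nat_lit 100) (nat_lit 5) (nat_lit 96) (nat_lit 5) (nat_lit 370) (nat_lit 360) (nat_lit 290)))))) (XT.nd (nat_lit 468) (nat_lit 1444) (nat_lit 0) (XT.nd (nat_lit 234) (nat_lit 608) (nat_lit 0) (XT.nd (nat_lit 78) (nat_lit 608) (nat_lit 0) (XT.lf (nat_lit 0) (nat_lit 8523650705)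 (nat_lit 456) (nat_lit 16494143174) (nat_lit 76) (nat_lit 4989030416) (nat_lit 90) (nat_lit 5) (nat_lit 96) (nat_lit 5) (nat_lit 91) (nat_lit 5) (nat_lit 371) (nat_lit 360) (nat_lit 289)) (XT.nd (nat_lit 78) (nat_lit 304) (nat_lit 0) (XT.lf (nat_lit 0) (nat_lit 9458166997) (nat_lit 304) (nat_lit 5827945122) (nat_lit 380) (nat_lit 16086374641) (nat_lit 86) (nat_lit 5) (nat_lit 90) (nat_lit 5) (nat_lit 91) (nat_lit 5) (nat_lit 372) (nat_lit 360) (nat_lit 288)) (XT.lf (nat_lit 0) (nat_lit 5154127428) (nat_lit 304) (nat_lit 18026948800) (nat_lit 380) (nat_lit 9636758726) (nat_lit 82) (nat_lit 5) (nat_lit 86) (nat_lit 5) (nat_lit 87) (nat_lit 5) (nat_lit 373) (nat_lit 360) (nat_lit 287)))) (XT.nd (nat_lit 78) (nat_lit 380) (nat_lit 0) (XT.lf (nat_lit 0) (nat_lit 674705584) (nat_lit 228) (nat_lit 31554041693) (nat_lit 304) (nat_lit 2124015662) (nat_lit 79) (nat_lit 5) (nat_lit 82) (nat_lit 5) (nat_lit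 83) (nat_lit 5) (nat_lit 374) (nat_lit 360) (nat_lit 286)) (XT.nd (nat_lit 78) (nat_lit 304) (nat_lit 0) (XT.lf (nat_lit 0) (nat_lit 6579440446) (nat_lit 304) (nat_lit 4139508873) (nat_lit 76) (nat_lit 25247796411) (nat_lit 78) (nat_lit 5) (nat_lit 82) (nat_lit 5) (nat_lit 79) (nat_lit 5) (nat_lit 375) (nat_lit 360) (nat_lit 285)) (XT.lf (nat_lit 0) (nat_lit 16533111633) (nat_lit 380) (nat_lit 9250151691) (nat_lit 76) (nat_lit 11893431199) (nat_lit 74) (nat_lit 5) (nat_lit 79) (nat_lit 5) (nat_lit 75) (nat_lit 5) (nat_lit 376) (nat_lit 360) (nat_lit 284))))) (XT.nd (nat_lit 234) (nat_lit 684) (nat_lit 0) (XT.nd (nat_lit 78) (nat_lit 532) (nat_lit 0) (XT.lf (nat_lit 0) (nat_lit 24823985346) (nat_lit 228) (nat_lit 3089839471) (nat_lit 304) (nat_lit 11578082601) (nat_lit 71) (nat_lit 5) (nat_lit 74) (nat_lit 5) (nat_lit 75) (nat_lit 5) (nat_lit 377) (nat_lit 360) (nat_lit 283)) (XT.nd (nat_lit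 78) (nat_lit 304) (nat_lit 0) (XT.lf (nat_lit 0) (nat_lit 20825265296) (nat_lit 228) (nat_lit 20192732654) (nat_lit 304) (nat_lit 393694450) (nat_lit 68) (nat_lit 5) (nat_lit 71) (nat_lit 5) (nat_lit 72) (nat_lit 5) (nat_lit 378) (nat_lit 360) (nat_lit 282)) (XT.lf (nat_lit 0) (nat_lit 11942692198) (nat_lit 304) (nat_lit 27035759338) (nat_lit 76) (nat_lit 4465928367) (nat_lit 64) (nat_lit 5) (nat_lit 68) (nat_lit 5) (nat_lit 65) (nat_lit 5) (nat_lit 379) (nat_lit 360) (nat_lit 281)))) (XT.nd (nat_lit 78) (nat_lit 456) (nat_lit 0) (XT.lf (nat_lit 0) (nat_lit 11477165285) (nat_lit 228) (nat_lit 14649901385) (nat_lit 304) (nat_lit 19468553781) (nat_lit 61) (nat_lit 5) (nat_lit 64) (nat_lit 5) (nat_lit 65) (nat_lit 5) (nat_lit 380) (nat_lit 360) (nat_lit 280)) (XT.nd (nat_lit 78) (nat_lit 304) (nat_lit 0) (XT.lf (nat_lit 0) (nat_lit 6134666402) (nat_lit 152) (nat_lit 36058424106) (nat_lit 228)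 (nat_lit 5688528694) (nat_lit 59) (nat_lit 5) (nat_lit 61) (nat_lit 5) (nat_lit 62) (nat_lit 5) (nat_lit 381) (nat_lit 360) (nat_lit 279)) (XT.lf (nat_lit 0) (nat_lit 95034604) (nat_lit 228) (nat_lit 9648452807) (nat_lit 304) (nat_lit 40557644223) (nat_lit 55) (nat_lit 5) (nat_lit 58) (nat_lit 5) (nat_lit 59) (nat_lit 5) (nat_lit 382) (nat_lit 360) (nat_lit 278))))))) (XT.nd (nat_lit 936) (nat_lit 1064) (nat_lit 0) (XT.nd (nat_lit 468) (nat_lit 760) (nat_lit 0) (XT.nd (nat_lit 234) (nat_lit 532) (nat_lit 0) (XT.nd (nat_lit 78) (nat_lit 380) (nat_lit 0) (XT.lf (nat_lit 0) (nat_lit 27238894671) (nat_lit 304) (nat_lit 6518296118) (nat_lit 76) (nat_lit 19100948342) (nat_lit 55) (nat_lit 5) (nat_lit 59) (nat_lit 5) (nat_lit 56) (nat_lit 5) (nat_lit 383) (nat_lit 360) (nat_lit 277)) (XT.nd (nat_lit 78) (nat_lit 228) (nat_lit 0) (XT.lf (nat_lit 0) (nat_lit 41828499328) (nat_lit 152) (nat_lit 5113460299)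 (nat_lit 228) (nat_lit 8637349317) (nat_lit 53) (nat_lit 5) (nat_lit 55) (nat_lit 5) (nat_lit 56) (nat_lit 5) (nat_lit 384) (nat_lit 360) (nat_lit 276)) (XT.lf (nat_lit 0) (nat_lit 10491519530) (nat_lit 228) (nat_lit 22118209204) (nat_lit 76) (nat_lit 25845922510) (nat_lit 50) (nat_lit 5) (nat_lit 53) (nat_lit 5) (nat_lit 51) (nat_lit 5) (nat_lit 385) (nat_lit 360) (nat_lit 275)))) (XT.nd (nat_lit 78) (nat_lit 380) (nat_lit 0) (XT.lf (nat_lit 0) (nat_lit 30089310772) (nat_lit 152) (nat_lit 1555132165) (nat_lit 228) (nat_lit 29870762838) (nat_lit 48) (nat_lit 5) (nat_lit 50) (nat_lit 5) (nat_lit 51) (nat_lit 5) (nat_lit 386) (nat_lit 360) (nat_lit 274)) (XT.nd (nat_lit 78) (nat_lit 228) (nat_lit 0) (XT.lf (nat_lit 0) (nat_lit 22671584078) (nat_lit 152) (nat_lit 33056082518) (nat_lit 228) (nat_lit 9029957000) (nat_lit 46) (nat_lit 5) (nat_lit 48) (nat_lit 5) (nat_lit 49) (nat_lit 5) (nat_lit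 387) (nat_lit 360) (nat_lit 273)) (XT.lf (nat_lit 0) (nat_lit 13849480706) (nat_lit 228) (nat_lit 54030096941) (nat_lit 76) (nat_lit 329200061) (nat_lit 43) (nat_lit 5) (nat_lit 46) (nat_lit 5) (nat_lit 44) (nat_lit 5) (nat_lit 388) (nat_lit 360) (nat_lit 272))))) (XT.nd (nat_lit 234) (nat_lit 456) (nat_lit 0) (XT.nd (nat_lit 78) (nat_lit 152) (nat_lit 0) (XT.lf (nat_lit 0) (nat_lit 3941708231) (nat_lit 152) (nat_lit 35663113936) (nat_lit 228) (nat_lit 32255706488) (nat_lit 41) (nat_lit 5) (nat_lit 43) (nat_lit 5) (nat_lit 44) (nat_lit 5) (nat_lit 389) (nat_lit 360) (nat_lit 271)) (XT.nd (nat_lit 78) (nat_lit 152) (nat_lit 0) (XT.lf (nat_lit 0) (nat_lit 68357486536) (nat_lit 228) (nat_lit 7289201146) (nat_lit 76) (nat_lit 110888917) (nat_lit 41) (nat_lit 5) (nat_lit 44) (nat_lit 5) (nat_lit 42) (nat_lit 4) (nat_lit 390) (nat_lit 360) (nat_lit 270)) (XT.lf (nat_lit 0) (nat_lit 20371007509)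 (nat_lit 152) (nat_lit 20735302955) (nat_lit 76) (nat_lit 38767432638) (nat_lit 39) (nat_lit 5) (nat_lit 41) (nat_lit 5) (nat_lit 40) (nat_lit 5) (nat_lit 391) (nat_lit 360) (nat_lit 269)))) (XT.nd (nat_lit 78) (nat_lit 304) (nat_lit 0) (XT.lf (nat_lit 0) (nat_lit 48235091449) (nat_lit 152) (nat_lit 2749551396) (nat_lit 228) (nat_lit 33284490168) (nat_lit 37) (nat_lit 5) (nat_lit 39) (nat_lit 5) (nat_lit 40) (nat_lit 5) (nat_lit 392) (nat_lit 360) (nat_lit 268)) (XT.nd (nat_lit 78) (nat_lit 228) (nat_lit 0) (XT.lf (nat_lit 0) (nat_lit 34965439275) (nat_lit 76) (nat_lit 50593500810) (nat_lit 152) (nat_lit 3381636762) (nat_lit 36) (nat_lit 5) (nat_lit 37) (nat_lit 5) (nat_lit 38) (nat_lit 4) (nat_lit 393) (nat_lit 360) (nat_lit 267)) (XT.lf (nat_lit 0) (nat_lit 19070440081) (nat_lit 152) (nat_lit 9894556121) (nat_lit 228) (nat_lit 64949322017) (nat_lit 33) (nat_lit 5) (nat_lit 35) (nat_lit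 5) (nat_lit 36) (nat_lit 5) (nat_lit 394) (nat_lit 360) (nat_lit 266)))))) (XT.nd (nat_lit 468) (nat_lit 532) (nat_lit 0) (XT.nd (nat_lit 234) (nat_lit 228) (nat_lit 0) (XT.nd (nat_lit 78) (nat_lit 228) (nat_lit 0) (XT.lf (nat_lit 0) (nat_lit 36158523) (nat_lit 76) (nat_lit 65229335039) (nat_lit 152) (nat_lit 33943464063) (nat_lit 32) (nat_lit 5) (nat_lit 33) (nat_lit 5) (nat_lit 34) (nat_lit 4) (nat_lit 395) (nat_lit 360) (nat_lit 265)) (XT.nd (nat_lit 78) (nat_lit 152) (nat_lit 0) (XT.lf (nat_lit 0) (nat_lit 1044652376) (nat_lit 152) (nat_lit 21472517684) (nat_lit 76) (nat_lit 82335997979) (nat_lit 31) (nat_lit 5) (nat_lit 33) (nat_lit 5) (nat_lit 32) (nat_lit 5) (nat_lit 396) (nat_lit 360) (nat_lit 264)) (XT.lf (nat_lit 0) (nat_lit 39046199914) (nat_lit 228) (nat_lit 47356106993) (nat_lit 76) (nat_lit 24448606950) (nat_lit 29) (nat_lit 5) (nat_lit 32) (nat_lit 5) (nat_lit 30) (nat_lit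 4) (nat_lit 397) (nat_lit 360) (nat_lit 263)))) (XT.nd (nat_lit 78) (nat_lit 152) (nat_lit 0) (XT.lf (nat_lit 0) (nat_lit 39589958992) (nat_lit 76) (nat_lit 41871593760) (nat_lit 152) (nat_lit 35798243309) (nat_lit 28) (nat_lit 5) (nat_lit 29) (nat_lit 5) (nat_lit 30) (nat_lit 4) (nat_lit 398) (nat_lit 360) (nat_lit 262)) (XT.nd (nat_lit 78) (nat_lit 0) (nat_lit 0) (XT.lf (nat_lit 0) (nat_lit 4115680750) (nat_lit 152) (nat_lit 112906883925) (nat_lit 76) (nat_lit 7100123920) (nat_lit 26) (nat_lit 5) (nat_lit 28) (nat_lit 5) (nat_lit 27) (nat_lit 4) (nat_lit 399) (nat_lit 360) (nat_lit 261)) (XT.lf (nat_lit 0) (nat_lit 48062452847) (nat_lit 152) (nat_lit 22820416284) (nat_lit 76) (nat_lit 60517704718) (nat_lit 26) (nat_lit 5) (nat_lit 28) (nat_lit 5) (nat_lit 27) (nat_lit 4) (nat_lit 400) (nat_lit 360) (nat_lit 260))))) (XT.nd (nat_lit 234) (nat_lit 304) (nat_lit 0) (XT.nd (nat_lit 78) (nat_lit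 152) (nat_lit 0) (XT.lf (nat_lit 0) (nat_lit 76928227211) (nat_lit 76) (nat_lit 19794094710) (nat_lit 152) (nat_lit 42478500840) (nat_lit 25) (nat_lit 5) (nat_lit 26) (nat_lit 5) (nat_lit 27) (nat_lit 4) (nat_lit 401) (nat_lit 360) (nat_lit 259)) (XT.nd (nat_lit 78) (nat_lit 0) (nat_lit 0) (XT.lf (nat_lit 0) (nat_lit 3177045959) (nat_lit 152) (nat_lit 109064501512) (nat_lit 76) (nat_lit 35303258486) (nat_lit 23) (nat_lit 5) (nat_lit 25) (nat_lit 5) (nat_lit 24) (nat_lit 4) (nat_lit 402) (nat_lit 360) (nat_lit 258)) (XT.lf (nat_lit 0) (nat_lit 52449510243) (nat_lit 152) (nat_lit 8059287723) (nat_lit 76) (nat_lit 95940056213) (nat_lit 23) (nat_lit 5) (nat_lit 25) (nat_lit 5) (nat_lit 24) (nat_lit 4) (nat_lit 403) (nat_lit 360) (nat_lit 257)))) (XT.nd (nat_lit 156) (nat_lit 152) (nat_lit 0) (XT.nd (nat_lit 78) (nat_lit 76) (nat_lit 0) (XT.lf (nat_lit 0) (nat_lit 104360440485) (nat_lit 76) (nat_lit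 2929469242) (nat_lit 152) (nat_lit 58694010082) (nat_lit 22) (nat_lit 5) (nat_lit 23) (nat_lit 5) (nat_lit 24) (nat_lit 4) (nat_lit 404) (nat_lit 360) (nat_lit 256)) (XT.lf (nat_lit 0) (nat_lit 50468691588) (nat_lit 76) (nat_lit 117901535587) (nat_lit 76) (nat_lit 7818929635) (nat_lit 21) (nat_lit 4) (nat_lit 22) (nat_lit 5) (nat_lit 22) (nat_lit 4) (nat_lit 405) (nat_lit 360) (nat_lit 255))) (XT.nd (nat_lit 78) (nat_lit 76) (nat_lit 0) (XT.lf (nat_lit 0) (nat_lit 46755237645) (nat_lit 152) (nat_lit 14236892405) (nat_lit 76) (nat_lit 126125023935) (nat_lit 20) (nat_lit 5) (nat_lit 22) (nat_lit 5) (nat_lit 21) (nat_lit 4) (nat_lit 406) (nat_lit 360) (nat_lit 254)) (XT.lf (nat_lit 0) (nat_lit 107169890962) (nat_lit 152) (nat_lit 89330981869) (nat_lit 0) (nat_lit 2324684992) (nat_lit 19) (nat_lit 5) (nat_lit 21) (nat_lit 4) (nat_lit 19) (nat_lit 4) (nat_lit 407) (nat_lit 360) (nat_lit 253))))))))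
noncomputable def xc82 : XT := (XT.nd (nat_lit 1872) (nat_lit 76) (nat_lit 0) (XT.nd (nat_lit 936) (nat_lit 380) (nat_lit 0) (XT.nd (nat_lit 468) (nat_lit 304) (nat_lit 0) (XT.nd (nat_lit 234) (nat_lit 152) (nat_lit 0) (XT.nd (nat_lit 78) (nat_lit 152) (nat_lit 0) (XT.lf (nat_lit 0) (nat_lit 32166535547) (nat_lit 76) (nat_lit 142031182602) (nat_lit 76) (nat_lit 37183916058) (nat_lit 18) (nat_lit 4) (nat_lit 19) (nat_lit 5) (nat_lit 19) (nat_lit 4) (nat_lit 408) (nat_lit 360) (nat_lit 252)) (XT.nd (nat_lit 78) (nat_lit 76) (nat_lit 0) (XT.lf (nat_lit 0) (nat_lit 22531749236) (nat_lit 152) (nat_lit 58659088547) (nat_lit 76) (nat_lit 143655513392) (nat_lit 17) (nat_lit 5) (nat_lit 19) (nat_lit 5) (nat_lit 18) (nat_lit 4) (nat_lit 409) (nat_lit 360) (nat_lit 251)) (XT.lf (nat_lit 0) (nat_lit 73254311457) (nat_lit 76) (nat_lit 13626299542) (nat_lit 152) (nat_lit 152419221816) (nat_lit 16) (nat_lit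 5) (nat_lit 17) (nat_lit 5) (nat_lit 18) (nat_lit 4) (nat_lit 410) (nat_lit 360) (nat_lit 250)))) (XT.nd (nat_lit 78) (nat_lit 152) (nat_lit 0) (XT.lf (nat_lit 0) (nat_lit 158340094300) (nat_lit 152) (nat_lit 37990865988) (nat_lit 0) (nat_lit 58480497307) (nat_lit 16) (nat_lit 5) (nat_lit 18) (nat_lit 4) (nat_lit 16) (nat_lit 4) (nat_lit 411) (nat_lit 360) (nat_lit 249)) (XT.nd (nat_lit 78) (nat_lit 76) (nat_lit 0) (XT.lf (nat_lit 0) (nat_lit 103383064087) (nat_lit 76) (nat_lit 133974951978) (nat_lit 76) (nat_lit 34113912525) (nat_lit 15) (nat_lit 4) (nat_lit 16) (nat_lit 5) (nat_lit 16) (nat_lit 4) (nat_lit 412) (nat_lit 360) (nat_lit 248)) (XT.lf (nat_lit 0) (nat_lit 32839003882) (nat_lit 152) (nat_lit 32542417105) (nat_lit 76) (nat_lit 224024348865) (nat_lit 14) (nat_lit 5) (nat_lit 16) (nat_lit 5) (nat_lit 15) (nat_lit 4) (nat_lit 413) (nat_lit 360) (nat_lit 247))))) (XT.nd (nat_lit 234)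 (nat_lit 152) (nat_lit 0) (XT.nd (nat_lit 78) (nat_lit 76) (nat_lit 0) (XT.lf (nat_lit 0) (nat_lit 105969073920) (nat_lit 152) (nat_lit 191815604909) (nat_lit 0) (nat_lit 10860872261) (nat_lit 13) (nat_lit 5) (nat_lit 15) (nat_lit 4) (nat_lit 13) (nat_lit 4) (nat_lit 414) (nat_lit 360) (nat_lit 246)) (XT.nd (nat_lit 78) (nat_lit 76) (nat_lit 0) (XT.lf (nat_lit 0) (nat_lit 186626258459) (nat_lit 152) (nat_lit 51197454836) (nat_lit 0) (nat_lit 91516966256) (nat_lit 13) (nat_lit 5) (nat_lit 15) (nat_lit 4) (nat_lit 13) (nat_lit 4) (nat_lit 415) (nat_lit 360) (nat_lit 245)) (XT.lf (nat_lit 0) (nat_lit 103995200485) (nat_lit 76) (nat_lit 171362712580) (nat_lit 76) (nat_lit 76252410614) (nat_lit 12) (nat_lit 4) (nat_lit 13) (nat_lit 5) (nat_lit 13) (nat_lit 4) (nat_lit 416) (nat_lit 360) (nat_lit 244)))) (XT.nd (nat_lit 78) (nat_lit 152) (nat_lit 0) (XT.lf (nat_lit 0) (nat_lit 273428219809) (nat_lit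 76) (nat_lit 98650024691) (nat_lit 76) (nat_lit 3538787759) (nat_lit 12) (nat_lit 4) (nat_lit 13) (nat_lit 5) (nat_lit 13) (nat_lit 4) (nat_lit 417) (nat_lit 360) (nat_lit 243)) (XT.nd (nat_lit 78) (nat_lit 0) (nat_lit 0) (XT.lf (nat_lit 0) (nat_lit 55473154861) (nat_lit 76) (nat_lit 17983068310) (nat_lit 152) (nat_lit 327986287366) (nat_lit 10) (nat_lit 5) (nat_lit 11) (nat_lit 5) (nat_lit 12) (nat_lit 4) (nat_lit 418) (nat_lit 360) (nat_lit 242)) (XT.lf (nat_lit 0) (nat_lit 159375646314) (nat_lit 152) (nat_lit 201019112568) (nat_lit 0) (nat_lit 68791928006) (nat_lit 10) (nat_lit 5) (nat_lit 12) (nat_lit 4) (nat_lit 10) (nat_lit 4) (nat_lit 419) (nat_lit 360) (nat_lit 241)))))) (XT.nd (nat_lit 468) (nat_lit 152) (nat_lit 0) (XT.nd (nat_lit 234) (nat_lit 152) (nat_lit 0) (XT.nd (nat_lit 78) (nat_lit 76) (nat_lit 0) (XT.lf (nat_lit 0) (nat_lit 252470429408) (nat_lit 152) (nat_lit 44778873505)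 (nat_lit 0) (nat_lit 161886004237) (nat_lit 10) (nat_lit 5) (nat_lit 12) (nat_lit 4) (nat_lit 10) (nat_lit 4) (nat_lit 420) (nat_lit 360) (nat_lit 240)) (XT.nd (nat_lit 78) (nat_lit 0) (nat_lit 0) (XT.lf (nat_lit 0) (nat_lit 128056606836) (nat_lit 76) (nat_lit 226954194824) (nat_lit 76) (nat_lit 136369115150) (nat_lit 9) (nat_lit 4) (nat_lit 10) (nat_lit 5) (nat_lit 10) (nat_lit 4) (nat_lit 421) (nat_lit 360) (nat_lit 239)) (XT.lf (nat_lit 0) (nat_lit 316315488255) (nat_lit 76) (nat_lit 150217677340) (nat_lit 76) (nat_lit 59631991645) (nat_lit 9) (nat_lit 4) (nat_lit 10) (nat_lit 5) (nat_lit 10) (nat_lit 4) (nat_lit 422) (nat_lit 360) (nat_lit 238)))) (XT.nd (nat_lit 78) (nat_lit 76) (nat_lit 0) (XT.lf (nat_lit 0) (nat_lit 22498962096) (nat_lit 152) (nat_lit 44463374528) (nat_lit 76) (nat_lit 496752794245) (nat_lit 8) (nat_lit 5) (nat_lit 10) (nat_lit 5) (nat_lit 9) (nat_lit 4) (nat_lit 423)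 (nat_lit 360) (nat_lit 237)) (XT.nd (nat_lit 78) (nat_lit 0) (nat_lit 0) (XT.lf (nat_lit 0) (nat_lit 111695571110) (nat_lit 152) (nat_lit 466972972737) (nat_lit 0) (nat_lit 25422460262) (nat_lit 7) (nat_lit 5) (nat_lit 9) (nat_lit 4) (nat_lit 7) (nat_lit 4) (nat_lit 424) (nat_lit 360) (nat_lit 236)) (XT.lf (nat_lit 0) (nat_lit 209943173978) (nat_lit 152) (nat_lit 313988405085) (nat_lit 0) (nat_lit 123669604959) (nat_lit 7) (nat_lit 5) (nat_lit 9) (nat_lit 4) (nat_lit 7) (nat_lit 4) (nat_lit 425) (nat_lit 360) (nat_lit 235))))) (XT.nd (nat_lit 234) (nat_lit 76) (nat_lit 0) (XT.nd (nat_lit 78) (nat_lit 76) (nat_lit 0) (XT.lf (nat_lit 0) (nat_lit 316049601201) (nat_lit 152) (nat_lit 148767018437) (nat_lit 0) (nat_lit 229775607950) (nat_lit 7) (nat_lit 5) (nat_lit 9) (nat_lit 4) (nat_lit 7) (nat_lit 4) (nat_lit 426) (nat_lit 360) (nat_lit 234)) (XT.nd (nat_lit 78) (nat_lit 0) (nat_lit 0) (XT.lf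 (nat_lit 0) (nat_lit 30651310255) (nat_lit 76) (nat_lit 400470874205) (nat_lit 76) (nat_lit 314196488146) (nat_lit 6) (nat_lit 4) (nat_lit 7) (nat_lit 5) (nat_lit 7) (nat_lit 4) (nat_lit 427) (nat_lit 360) (nat_lit 233)) (XT.lf (nat_lit 0) (nat_lit 229733803567) (nat_lit 76) (nat_lit 328257325866) (nat_lit 76) (nat_lit 241982576096) (nat_lit 6) (nat_lit 4) (nat_lit 7) (nat_lit 5) (nat_lit 7) (nat_lit 4) (nat_lit 428) (nat_lit 360) (nat_lit 232)))) (XT.nd (nat_lit 78) (nat_lit 76) (nat_lit 0) (XT.lf (nat_lit 0) (nat_lit 444741300127) (nat_lit 76) (nat_lit 250267483923) (nat_lit 76) (nat_lit 163992397385) (nat_lit 6) (nat_lit 4) (nat_lit 7) (nat_lit 5) (nat_lit 7) (nat_lit 4) (nat_lit 429) (nat_lit 360) (nat_lit 231)) (XT.nd (nat_lit 78) (nat_lit 76) (nat_lit 0) (XT.lf (nat_lit 0) (nat_lit 676947918434) (nat_lit 76) (nat_lit 166039186351) (nat_lit 76) (nat_lit 79763787990) (nat_lit 6) (nat_lit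 4) (nat_lit 7) (nat_lit 5) (nat_lit 7) (nat_lit 4) (nat_lit 430) (nat_lit 360) (nat_lit 230)) (XT.lf (nat_lit 0) (nat_lit 10843838321) (nat_lit 152) (nat_lit 64045818526) (nat_lit 76) (nat_lit 916702213735) (nat_lit 5) (nat_lit 5) (nat_lit 7) (nat_lit 5) (nat_lit 6) (nat_lit 4) (nat_lit 431) (nat_lit 360) (nat_lit 229))))))) (XT.nd (nat_lit 48438) (nat_lit 0) (nat_lit 3876) (XT.nd (nat_lit 47970) (nat_lit 0) (nat_lit 6916) (XT.nd (nat_lit 47736) (nat_lit 0) (nat_lit 8132) (XT.nd (nat_lit 47580) (nat_lit 0) (nat_lit 8056) (XT.lf (nat_lit 0) (nat_lit 108477993071) (nat_lit 152) (nat_lit 930957713356) (nat_lit 0) (nat_lit 26310417429) (nat_lit 4) (nat_lit 5) (nat_lit 6) (nat_lit 4) (nat_lit 4) (nat_lit 4) (nat_lit 432) (nat_lit 360) (nat_lit 228)) (XT.nd (nat_lit 78) (nat_lit 0) (nat_lit 76) (XT.lf (nat_lit 0) (nat_lit 1272188018) (nat_lit 836) (nat_lit 4511637543) (nat_lit 836) (nat_lit 4511637543)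 (nat_lit 110) (nat_lit 3) (nat_lit 121) (nat_lit 3) (nat_lit 121) (nat_lit 5) (nat_lit 361) (nat_lit 361) (nat_lit 298)) (XT.lf (nat_lit 0) (nat_lit 3058639877) (nat_lit 760) (nat_lit 14384187532) (nat_lit 836) (nat_lit 3950943149) (nat_lit 111) (nat_lit 5) (nat_lit 121) (nat_lit 5) (nat_lit 122) (nat_lit 5) (nat_lit 362) (nat_lit 361) (nat_lit 297)))) (XT.nd (nat_lit 78) (nat_lit 0) (nat_lit 76) (XT.lf (nat_lit 76) (nat_lit 2254503816) (nat_lit 0) (nat_lit 1725680093) (nat_lit 836) (nat_lit 18262368425) (nat_lit 112) (nat_lit 5) (nat_lit 111) (nat_lit 5) (nat_lit 122) (nat_lit 5) (nat_lit 363) (nat_lit 361) (nat_lit 296)) (XT.nd (nat_lit 78) (nat_lit 0) (nat_lit 76) (XT.lf (nat_lit 0) (nat_lit 5446019691) (nat_lit 760) (nat_lit 2665921402) (nat_lit 836) (nat_lit 15023782737) (nat_lit 112) (nat_lit 5) (nat_lit 122) (nat_lit 5) (nat_lit 123) (nat_lit 5) (nat_lit 364) (nat_lit 361) (nat_lit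 295)) (XT.lf (nat_lit 0) (nat_lit 7439874032) (nat_lit 760) (nat_lit 7703161591) (nat_lit 836) (nat_lit 8936790268) (nat_lit 113) (nat_lit 5) (nat_lit 123) (nat_lit 5) (nat_lit 124) (nat_lit 5) (nat_lit 365) (nat_lit 361) (nat_lit 294))))) (XT.nd (nat_lit 234) (nat_lit 760) (nat_lit 0) (XT.nd (nat_lit 78) (nat_lit 684) (nat_lit 0) (XT.lf (nat_lit 0) (nat_lit 9983054915) (nat_lit 760) (nat_lit 12937900916) (nat_lit 836) (nat_lit 2159022741) (nat_lit 114) (nat_lit 5) (nat_lit 124) (nat_lit 5) (nat_lit 125) (nat_lit 5) (nat_lit 366) (nat_lit 361) (nat_lit 293)) (XT.nd (nat_lit 78) (nat_lit 684) (nat_lit 0) (XT.lf (nat_lit 76) (nat_lit 7669841928) (nat_lit 0) (nat_lit 5553458500) (nat_lit 836) (nat_lit 12912174904) (nat_lit 115) (nat_lit 5) (nat_lit 114) (nat_lit 5) (nat_lit 125) (nat_lit 5) (nat_lit 367) (nat_lit 361) (nat_lit 292)) (XT.lf (nat_lit 0) (nat_lit 2995160941) (nat_lit 760) (nat_lit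 14192860129) (nat_lit 836) (nat_lit 10064139447) (nat_lit 105) (nat_lit 5) (nat_lit 115) (nat_lit 5) (nat_lit 116) (nat_lit 5) (nat_lit 368) (nat_lit 361) (nat_lit 291)))) (XT.nd (nat_lit 78) (nat_lit 760) (nat_lit 0) (XT.lf (nat_lit 0) (nat_lit 21943782287) (nat_lit 836) (nat_lit 1792861163) (nat_lit 76) (nat_lit 4697854527) (nat_lit 105) (nat_lit 5) (nat_lit 116) (nat_lit 5) (nat_lit 106) (nat_lit 5) (nat_lit 369) (nat_lit 361) (nat_lit 290)) (XT.nd (nat_lit 78) (nat_lit 380) (nat_lit 0) (XT.lf (nat_lit 0) (nat_lit 22949637898) (nat_lit 380) (nat_lit 4713476122) (nat_lit 456) (nat_lit 2019162757) (nat_lit 100) (nat_lit 5) (nat_lit 105) (nat_lit 5) (nat_lit 106) (nat_lit 5) (nat_lit 370) (nat_lit 361) (nat_lit 289)) (XT.lf (nat_lit 0) (nat_lit 3292169913) (nat_lit 380) (nat_lit 11999472949) (nat_lit 76) (nat_lit 15707450156) (nat_lit 95) (nat_lit 5) (nat_lit 100) (nat_lit 5) (nat_lit 96)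 (nat_lit 5) (nat_lit 371) (nat_lit 361) (nat_lit 288)))))) (XT.nd (nat_lit 468) (nat_lit 1444) (nat_lit 0) (XT.nd (nat_lit 234) (nat_lit 608) (nat_lit 0) (XT.nd (nat_lit 78) (nat_lit 608) (nat_lit 0) (XT.lf (nat_lit 0) (nat_lit 9465108371) (nat_lit 456) (nat_lit 17520711188) (nat_lit 76) (nat_lit 5408415928) (nat_lit 90) (nat_lit 5) (nat_lit 96) (nat_lit 5) (nat_lit 91) (nat_lit 5) (nat_lit 372) (nat_lit 361) (nat_lit 287)) (XT.nd (nat_lit 78) (nat_lit 304) (nat_lit 0) (XT.lf (nat_lit 0) (nat_lit 10495051963) (nat_lit 304) (nat_lit 6258662854) (nat_lit 380) (nat_lit 17116190317) (nat_lit 86) (nat_lit 5) (nat_lit 90) (nat_lit 5) (nat_lit 91) (nat_lit 5) (nat_lit 373) (nat_lit 361) (nat_lit 286)) (XT.lf (nat_lit 0) (nat_lit 5845822793) (nat_lit 304) (nat_lit 19421201450) (nat_lit 380) (nat_lit 10164530264) (nat_lit 82) (nat_lit 5) (nat_lit 86) (nat_lit 5) (nat_lit 87) (nat_lit 5) (nat_lit 374)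 (nat_lit 361) (nat_lit 285)))) (XT.nd (nat_lit 78) (nat_lit 380) (nat_lit 0) (XT.lf (nat_lit 0) (nat_lit 1006389392) (nat_lit 228) (nat_lit 34020002550) (nat_lit 304) (nat_lit 2063500576) (nat_lit 79) (nat_lit 5) (nat_lit 82) (nat_lit 5) (nat_lit 83) (nat_lit 5) (nat_lit 375) (nat_lit 361) (nat_lit 284)) (XT.nd (nat_lit 78) (nat_lit 304) (nat_lit 0) (XT.lf (nat_lit 0) (nat_lit 7312333586) (nat_lit 304) (nat_lit 4206594527) (nat_lit 76) (nat_lit 27314720846) (nat_lit 78) (nat_lit 5) (nat_lit 82) (nat_lit 5) (nat_lit 79) (nat_lit 5) (nat_lit 376) (nat_lit 361) (nat_lit 283)) (XT.lf (nat_lit 0) (nat_lit 18051839563) (nat_lit 380) (nat_lit 9728601028) (nat_lit 76) (nat_lit 12900484123) (nat_lit 74) (nat_lit 5) (nat_lit 79) (nat_lit 5) (nat_lit 75) (nat_lit 5) (nat_lit 377) (nat_lit 361) (nat_lit 282))))) (XT.nd (nat_lit 234) (nat_lit 684) (nat_lit 0) (XT.nd (nat_lit 78) (nat_lit 532) (nat_lit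 0) (XT.lf (nat_lit 0) (nat_lit 27060099772) (nat_lit 228) (nat_lit 3272291915) (nat_lit 304) (nat_lit 12309501373) (nat_lit 71) (nat_lit 5) (nat_lit 74) (nat_lit 5) (nat_lit 75) (nat_lit 5) (nat_lit 378) (nat_lit 361) (nat_lit 281)) (XT.nd (nat_lit 78) (nat_lit 304) (nat_lit 0) (XT.lf (nat_lit 0) (nat_lit 22738602030) (nat_lit 228) (nat_lit 21737355909) (nat_lit 304) (nat_lit 239756893) (nat_lit 68) (nat_lit 5) (nat_lit 71) (nat_lit 5) (nat_lit 72) (nat_lit 5) (nat_lit 379) (nat_lit 361) (nat_lit 280)) (XT.lf (nat_lit 0) (nat_lit 13069222273) (nat_lit 304) (nat_lit 28948849769) (nat_lit 76) (nat_lit 4893225842) (nat_lit 64) (nat_lit 5) (nat_lit 68) (nat_lit 5) (nat_lit 65) (nat_lit 5) (nat_lit 380) (nat_lit 361) (nat_lit 279)))) (XT.nd (nat_lit 156) (nat_lit 304) (nat_lit 0) (XT.nd (nat_lit 78) (nat_lit 152) (nat_lit 0) (XT.lf (nat_lit 0) (nat_lit 12634254110) (nat_lit 228) (nat_lit 15745147572)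 (nat_lit 304) (nat_lit 20855688924) (nat_lit 61) (nat_lit 5) (nat_lit 64) (nat_lit 5) (nat_lit 65) (nat_lit 5) (nat_lit 381) (nat_lit 361) (nat_lit 278)) (XT.lf (nat_lit 0) (nat_lit 6860650201) (nat_lit 152) (nat_lit 38862826415) (nat_lit 228) (nat_lit 5980859441) (nat_lit 59) (nat_lit 5) (nat_lit 61) (nat_lit 5) (nat_lit 62) (nat_lit 5) (nat_lit 382) (nat_lit 361) (nat_lit 277))) (XT.nd (nat_lit 78) (nat_lit 0) (nat_lit 0) (XT.lf (nat_lit 0) (nat_lit 332668472) (nat_lit 228) (nat_lit 10339762031) (nat_lit 304) (nat_lit 43645260487) (nat_lit 55) (nat_lit 5) (nat_lit 58) (nat_lit 5) (nat_lit 59) (nat_lit 5) (nat_lit 383) (nat_lit 361) (nat_lit 276)) (XT.lf (nat_lit 0) (nat_lit 29557563630) (nat_lit 304) (nat_lit 6820959439) (nat_lit 76) (nat_lit 20701235647) (nat_lit 55) (nat_lit 5) (nat_lit 59) (nat_lit 5) (nat_lit 56) (nat_lit 5) (nat_lit 384) (nat_lit 361) (nat_lit 275))))))))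
noncomputable def xc83 : XT := (XT.nd (nat_lit 1872) (nat_lit 1064) (nat_lit 0) (XT.nd (nat_lit 936) (nat_lit 988) (nat_lit 0) (XT.nd (nat_lit 468) (nat_lit 684) (nat_lit 0) (XT.nd (nat_lit 234) (nat_lit 532) (nat_lit 0) (XT.nd (nat_lit 78) (nat_lit 380) (nat_lit 0) (XT.lf (nat_lit 0) (nat_lit 45384070845) (nat_lit 152) (nat_lit 5445732981) (nat_lit 228) (nat_lit 9189175762) (nat_lit 53) (nat_lit 5) (nat_lit 55) (nat_lit 5) (nat_lit 56) (nat_lit 5) (nat_lit 385) (nat_lit 361) (nat_lit 274)) (XT.nd (nat_lit 78) (nat_lit 152) (nat_lit 0) (XT.lf (nat_lit 0) (nat_lit 11459958695) (nat_lit 228) (nat_lit 23677919879) (nat_lit 76) (nat_lit 27987725062) (nat_lit 50) (nat_lit 5) (nat_lit 53) (nat_lit 5) (nat_lit 51) (nat_lit 5) (nat_lit 386) (nat_lit 361) (nat_lit 273)) (XT.lf (nat_lit 0) (nat_lit 32697086387) (nat_lit 152) (nat_lit 1601597729) (nat_lit 228) (nat_lit 32131563253) (nat_lit 48) (nat_lit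 5) (nat_lit 50) (nat_lit 5) (nat_lit 51) (nat_lit 5) (nat_lit 387) (nat_lit 361) (nat_lit 272)))) (XT.nd (nat_lit 78) (nat_lit 380) (nat_lit 0) (XT.lf (nat_lit 0) (nat_lit 24681964852) (nat_lit 152) (nat_lit 35621710100) (nat_lit 228) (nat_lit 9628631205) (nat_lit 46) (nat_lit 5) (nat_lit 48) (nat_lit 5) (nat_lit 49) (nat_lit 5) (nat_lit 388) (nat_lit 361) (nat_lit 271)) (XT.nd (nat_lit 78) (nat_lit 152) (nat_lit 0) (XT.lf (nat_lit 0) (nat_lit 15072545351) (nat_lit 228) (nat_lit 58156065900) (nat_lit 76) (nat_lit 431080229) (nat_lit 43) (nat_lit 5) (nat_lit 46) (nat_lit 5) (nat_lit 44) (nat_lit 5) (nat_lit 389) (nat_lit 361) (nat_lit 270)) (XT.lf (nat_lit 0) (nat_lit 4444946695) (nat_lit 152) (nat_lit 38437774723) (nat_lit 228) (nat_lit 34721143175) (nat_lit 41) (nat_lit 5) (nat_lit 43) (nat_lit 5) (nat_lit 44) (nat_lit 5) (nat_lit 390) (nat_lit 361) (nat_lit 269))))) (XT.nd (nat_lit 234)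 (nat_lit 380) (nat_lit 0) (XT.nd (nat_lit 78) (nat_lit 304) (nat_lit 0) (XT.lf (nat_lit 0) (nat_lit 73928620032) (nat_lit 228) (nat_lit 7694388814) (nat_lit 76) (nat_lit 190018745) (nat_lit 41) (nat_lit 5) (nat_lit 44) (nat_lit 5) (nat_lit 42) (nat_lit 4) (nat_lit 391) (nat_lit 361) (nat_lit 268)) (XT.nd (nat_lit 78) (nat_lit 152) (nat_lit 0) (XT.lf (nat_lit 0) (nat_lit 22099910475) (nat_lit 152) (nat_lit 22220606399) (nat_lit 76) (nat_lit 41938139509) (nat_lit 39) (nat_lit 5) (nat_lit 41) (nat_lit 5) (nat_lit 40) (nat_lit 5) (nat_lit 392) (nat_lit 361) (nat_lit 267)) (XT.lf (nat_lit 0) (nat_lit 52259878556) (nat_lit 152) (nat_lit 2897999687) (nat_lit 228) (nat_lit 35848039018) (nat_lit 37) (nat_lit 5) (nat_lit 39) (nat_lit 5) (nat_lit 40) (nat_lit 5) (nat_lit 393) (nat_lit 361) (nat_lit 266)))) (XT.nd (nat_lit 78) (nat_lit 304) (nat_lit 0) (XT.lf (nat_lit 0) (nat_lit 37924913011) (nat_lit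 76) (nat_lit 54569775772) (nat_lit 152) (nat_lit 3556561059) (nat_lit 36) (nat_lit 5) (nat_lit 37) (nat_lit 5) (nat_lit 38) (nat_lit 4) (nat_lit 394) (nat_lit 361) (nat_lit 265)) (XT.nd (nat_lit 78) (nat_lit 76) (nat_lit 0) (XT.lf (nat_lit 0) (nat_lit 20754209782) (nat_lit 152) (nat_lit 10616146367) (nat_lit 228) (nat_lit 70052680577) (nat_lit 33) (nat_lit 5) (nat_lit 35) (nat_lit 5) (nat_lit 36) (nat_lit 5) (nat_lit 395) (nat_lit 361) (nat_lit 264)) (XT.lf (nat_lit 0) (nat_lit 193502913) (nat_lit 76) (nat_lit 70378282988) (nat_lit 152) (nat_lit 36569618156) (nat_lit 32) (nat_lit 5) (nat_lit 33) (nat_lit 5) (nat_lit 34) (nat_lit 4) (nat_lit 396) (nat_lit 361) (nat_lit 263)))))) (XT.nd (nat_lit 468) (nat_lit 456) (nat_lit 0) (XT.nd (nat_lit 234) (nat_lit 228) (nat_lit 0) (XT.nd (nat_lit 78) (nat_lit 228) (nat_lit 0) (XT.lf (nat_lit 0) (nat_lit 1208283953) (nat_lit 152) (nat_lit 23044645669)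 (nat_lit 76) (nat_lit 88984473426) (nat_lit 31) (nat_lit 5) (nat_lit 33) (nat_lit 5) (nat_lit 32) (nat_lit 5) (nat_lit 397) (nat_lit 361) (nat_lit 262)) (XT.nd (nat_lit 78) (nat_lit 76) (nat_lit 0) (XT.lf (nat_lit 0) (nat_lit 42247184699) (nat_lit 228) (nat_lit 51002407565) (nat_lit 76) (nat_lit 26465515944) (nat_lit 29) (nat_lit 5) (nat_lit 32) (nat_lit 5) (nat_lit 30) (nat_lit 4) (nat_lit 398) (nat_lit 361) (nat_lit 261)) (XT.lf (nat_lit 0) (nat_lit 42893164381) (nat_lit 76) (nat_lit 45158999762) (nat_lit 152) (nat_lit 38584717985) (nat_lit 28) (nat_lit 5) (nat_lit 29) (nat_lit 5) (nat_lit 30) (nat_lit 4) (nat_lit 399) (nat_lit 361) (nat_lit 260)))) (XT.nd (nat_lit 78) (nat_lit 76) (nat_lit 0) (XT.lf (nat_lit 0) (nat_lit 4517316019) (nat_lit 152) (nat_lit 121804325616) (nat_lit 76) (nat_lit 7727231316) (nat_lit 26) (nat_lit 5) (nat_lit 28) (nat_lit 5) (nat_lit 27) (nat_lit 4) (nat_lit 400)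 (nat_lit 361) (nat_lit 259)) (XT.nd (nat_lit 78) (nat_lit 76) (nat_lit 0) (XT.lf (nat_lit 0) (nat_lit 51974468341) (nat_lit 152) (nat_lit 24520948640) (nat_lit 76) (nat_lit 65413840987) (nat_lit 26) (nat_lit 5) (nat_lit 28) (nat_lit 5) (nat_lit 27) (nat_lit 4) (nat_lit 401) (nat_lit 361) (nat_lit 258)) (XT.lf (nat_lit 0) (nat_lit 83202149600) (nat_lit 76) (nat_lit 21321881246) (nat_lit 152) (nat_lit 45809651554) (nat_lit 25) (nat_lit 5) (nat_lit 26) (nat_lit 5) (nat_lit 27) (nat_lit 4) (nat_lit 402) (nat_lit 361) (nat_lit 257))))) (XT.nd (nat_lit 234) (nat_lit 228) (nat_lit 0) (XT.nd (nat_lit 78) (nat_lit 76) (nat_lit 0) (XT.lf (nat_lit 0) (nat_lit 3494047910) (nat_lit 152) (nat_lit 117670876933) (nat_lit 76) (nat_lit 38180314838) (nat_lit 23) (nat_lit 5) (nat_lit 25) (nat_lit 5) (nat_lit 24) (nat_lit 4) (nat_lit 403) (nat_lit 361) (nat_lit 256)) (XT.nd (nat_lit 78) (nat_lit 76) (nat_lit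 0) (XT.lf (nat_lit 0) (nat_lit 56703654650) (nat_lit 152) (nat_lit 8594044908) (nat_lit 76) (nat_lit 103664145592) (nat_lit 23) (nat_lit 5) (nat_lit 25) (nat_lit 5) (nat_lit 24) (nat_lit 4) (nat_lit 404) (nat_lit 361) (nat_lit 255)) (XT.lf (nat_lit 0) (nat_lit 112814481707) (nat_lit 76) (nat_lit 3114137051) (nat_lit 152) (nat_lit 63331231246) (nat_lit 22) (nat_lit 5) (nat_lit 23) (nat_lit 5) (nat_lit 24) (nat_lit 4) (nat_lit 405) (nat_lit 361) (nat_lit 254)))) (XT.nd (nat_lit 78) (nat_lit 152) (nat_lit 0) (XT.lf (nat_lit 0) (nat_lit 54608741122) (nat_lit 76) (nat_lit 127284827653) (nat_lit 76) (nat_lit 8388027392) (nat_lit 21) (nat_lit 4) (nat_lit 22) (nat_lit 5) (nat_lit 22) (nat_lit 4) (nat_lit 406) (nat_lit 361) (nat_lit 253)) (XT.nd (nat_lit 78) (nat_lit 76) (nat_lit 0) (XT.lf (nat_lit 0) (nat_lit 50546222332) (nat_lit 152) (nat_lit 15279208081) (nat_lit 76) (nat_lit 136258561419) (nat_lit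 20) (nat_lit 5) (nat_lit 22) (nat_lit 5) (nat_lit 21) (nat_lit 4) (nat_lit 407) (nat_lit 361) (nat_lit 252)) (XT.lf (nat_lit 0) (nat_lit 115792435156) (nat_lit 152) (nat_lit 96383295143) (nat_lit 0) (nat_lit 2553418776) (nat_lit 19) (nat_lit 5) (nat_lit 21) (nat_lit 4) (nat_lit 19) (nat_lit 4) (nat_lit 408) (nat_lit 361) (nat_lit 251))))))) (XT.nd (nat_lit 936) (nat_lit 380) (nat_lit 0) (XT.nd (nat_lit 468) (nat_lit 304) (nat_lit 0) (XT.nd (nat_lit 234) (nat_lit 152) (nat_lit 0) (XT.nd (nat_lit 78) (nat_lit 152) (nat_lit 0) (XT.lf (nat_lit 0) (nat_lit 34829931358) (nat_lit 76) (nat_lit 153350337308) (nat_lit 76) (nat_lit 40109554318) (nat_lit 18) (nat_lit 4) (nat_lit 19) (nat_lit 5) (nat_lit 19) (nat_lit 4) (nat_lit 409) (nat_lit 361) (nat_lit 250)) (XT.nd (nat_lit 78) (nat_lit 76) (nat_lit 0) (XT.lf (nat_lit 0) (nat_lit 24378274654) (nat_lit 152) (nat_lit 63266955697) (nat_lit 76) (nat_lit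 155186624966) (nat_lit 17) (nat_lit 5) (nat_lit 19) (nat_lit 5) (nat_lit 18) (nat_lit 4) (nat_lit 410) (nat_lit 361) (nat_lit 249)) (XT.lf (nat_lit 0) (nat_lit 79195828397) (nat_lit 76) (nat_lit 14677226100) (nat_lit 152) (nat_lit 164568660881) (nat_lit 16) (nat_lit 5) (nat_lit 17) (nat_lit 5) (nat_lit 18) (nat_lit 4) (nat_lit 411) (nat_lit 361) (nat_lit 248)))) (XT.nd (nat_lit 78) (nat_lit 152) (nat_lit 0) (XT.lf (nat_lit 0) (nat_lit 171046752109) (nat_lit 152) (nat_lit 40953594141) (nat_lit 0) (nat_lit 63194051428) (nat_lit 16) (nat_lit 5) (nat_lit 18) (nat_lit 4) (nat_lit 16) (nat_lit 4) (nat_lit 412) (nat_lit 361) (nat_lit 247)) (XT.nd (nat_lit 78) (nat_lit 76) (nat_lit 0) (XT.lf (nat_lit 0) (nat_lit 111726923957) (nat_lit 76) (nat_lit 144657404504) (nat_lit 76) (nat_lit 36803467146) (nat_lit 15) (nat_lit 4) (nat_lit 16) (nat_lit 5) (nat_lit 16) (nat_lit 4) (nat_lit 413) (nat_lit 361)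 (nat_lit 246)) (XT.lf (nat_lit 0) (nat_lit 35501579994) (nat_lit 152) (nat_lit 35076843441) (nat_lit 76) (nat_lit 241978031940) (nat_lit 14) (nat_lit 5) (nat_lit 16) (nat_lit 5) (nat_lit 15) (nat_lit 4) (nat_lit 414) (nat_lit 361) (nat_lit 245))))) (XT.nd (nat_lit 234) (nat_lit 152) (nat_lit 0) (XT.nd (nat_lit 78) (nat_lit 76) (nat_lit 0) (XT.lf (nat_lit 0) (nat_lit 114480960586) (nat_lit 152) (nat_lit 207093688823) (nat_lit 0) (nat_lit 11760824699) (nat_lit 13) (nat_lit 5) (nat_lit 15) (nat_lit 4) (nat_lit 13) (nat_lit 4) (nat_lit 415) (nat_lit 361) (nat_lit 244)) (XT.nd (nat_lit 78) (nat_lit 76) (nat_lit 0) (XT.lf (nat_lit 0) (nat_lit 201588174647) (nat_lit 152) (nat_lit 55231061891) (nat_lit 0) (nat_lit 98867103795) (nat_lit 13) (nat_lit 5) (nat_lit 15) (nat_lit 4) (nat_lit 13) (nat_lit 4) (nat_lit 416) (nat_lit 361) (nat_lit 243)) (XT.lf (nat_lit 0) (nat_lit 112374303184) (nat_lit 76)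 (nat_lit 185042630487) (nat_lit 76) (nat_lit 82320693926) (nat_lit 12) (nat_lit 4) (nat_lit 13) (nat_lit 5) (nat_lit 13) (nat_lit 4) (nat_lit 417) (nat_lit 361) (nat_lit 242)))) (XT.nd (nat_lit 78) (nat_lit 152) (nat_lit 0) (XT.lf (nat_lit 0) (nat_lit 295357557634) (nat_lit 76) (nat_lit 106515083056) (nat_lit 76) (nat_lit 3792344912) (nat_lit 12) (nat_lit 4) (nat_lit 13) (nat_lit 5) (nat_lit 13) (nat_lit 4) (nat_lit 418) (nat_lit 361) (nat_lit 241)) (XT.nd (nat_lit 78) (nat_lit 0) (nat_lit 0) (XT.lf (nat_lit 0) (nat_lit 59964600518) (nat_lit 76) (nat_lit 19395438929) (nat_lit 152) (nat_lit 354196503889) (nat_lit 10) (nat_lit 5) (nat_lit 11) (nat_lit 5) (nat_lit 12) (nat_lit 4) (nat_lit 419) (nat_lit 361) (nat_lit 240)) (XT.lf (nat_lit 0) (nat_lit 172151372692) (nat_lit 152) (nat_lit 217050131307) (nat_lit 0) (nat_lit 74318832141) (nat_lit 10) (nat_lit 5) (nat_lit 12) (nat_lit 4) (nat_lit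 10) (nat_lit 4) (nat_lit 420) (nat_lit 361) (nat_lit 239)))))) (XT.nd (nat_lit 468) (nat_lit 152) (nat_lit 0) (XT.nd (nat_lit 234) (nat_lit 152) (nat_lit 0) (XT.nd (nat_lit 78) (nat_lit 76) (nat_lit 0) (XT.lf (nat_lit 0) (nat_lit 272691836606) (nat_lit 152) (nat_lit 48314414620) (nat_lit 0) (nat_lit 174858690034) (nat_lit 10) (nat_lit 5) (nat_lit 12) (nat_lit 4) (nat_lit 10) (nat_lit 4) (nat_lit 421) (nat_lit 361) (nat_lit 238)) (XT.nd (nat_lit 78) (nat_lit 0) (nat_lit 0) (XT.lf (nat_lit 0) (nat_lit 138345871635) (nat_lit 76) (nat_lit 245088504510) (nat_lit 76) (nat_lit 147254796807) (nat_lit 9) (nat_lit 4) (nat_lit 10) (nat_lit 5) (nat_lit 10) (nat_lit 4) (nat_lit 422) (nat_lit 361) (nat_lit 237)) (XT.lf (nat_lit 0) (nat_lit 341662149771) (nat_lit 76) (nat_lit 162214697175) (nat_lit 76) (nat_lit 64380469907) (nat_lit 9) (nat_lit 4) (nat_lit 10) (nat_lit 5) (nat_lit 10) (nat_lit 4) (nat_lit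 423) (nat_lit 361) (nat_lit 236)))) (XT.nd (nat_lit 78) (nat_lit 76) (nat_lit 0) (XT.lf (nat_lit 0) (nat_lit 24318670116) (nat_lit 152) (nat_lit 47981434607) (nat_lit 76) (nat_lit 536511245687) (nat_lit 8) (nat_lit 5) (nat_lit 10) (nat_lit 5) (nat_lit 9) (nat_lit 4) (nat_lit 424) (nat_lit 361) (nat_lit 235)) (XT.nd (nat_lit 78) (nat_lit 0) (nat_lit 0) (XT.lf (nat_lit 0) (nat_lit 120650411817) (nat_lit 152) (nat_lit 504292836724) (nat_lit 0) (nat_lit 27474074873) (nat_lit 7) (nat_lit 5) (nat_lit 9) (nat_lit 4) (nat_lit 7) (nat_lit 4) (nat_lit 425) (nat_lit 361) (nat_lit 234)) (XT.lf (nat_lit 0) (nat_lit 226756401061) (nat_lit 152) (nat_lit 339072316535) (nat_lit 0) (nat_lit 133579671310) (nat_lit 7) (nat_lit 5) (nat_lit 9) (nat_lit 4) (nat_lit 7) (nat_lit 4) (nat_lit 426) (nat_lit 361) (nat_lit 233))))) (XT.nd (nat_lit 234) (nat_lit 76) (nat_lit 0) (XT.nd (nat_lit 78) (nat_lit 76) (nat_lit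 0) (XT.lf (nat_lit 0) (nat_lit 341350025931) (nat_lit 152) (nat_lit 160635823471) (nat_lit 0) (nat_lit 248172932470) (nat_lit 7) (nat_lit 5) (nat_lit 9) (nat_lit 4) (nat_lit 7) (nat_lit 4) (nat_lit 427) (nat_lit 361) (nat_lit 232)) (XT.nd (nat_lit 78) (nat_lit 0) (nat_lit 0) (XT.lf (nat_lit 0) (nat_lit 33134556653) (nat_lit 76) (nat_lit 432493126395) (nat_lit 76) (nat_lit 339315696164) (nat_lit 6) (nat_lit 4) (nat_lit 7) (nat_lit 5) (nat_lit 7) (nat_lit 4) (nat_lit 428) (nat_lit 361) (nat_lit 231)) (XT.lf (nat_lit 0) (nat_lit 248141342646) (nat_lit 76) (nat_lit 354503636243) (nat_lit 76) (nat_lit 261325894190) (nat_lit 6) (nat_lit 4) (nat_lit 7) (nat_lit 5) (nat_lit 7) (nat_lit 4) (nat_lit 429) (nat_lit 361) (nat_lit 230)))) (XT.nd (nat_lit 156) (nat_lit 76) (nat_lit 0) (XT.nd (nat_lit 78) (nat_lit 0) (nat_lit 0) (XT.lf (nat_lit 0) (nat_lit 480347303021) (nat_lit 76) (nat_lit 270275664404)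 (nat_lit 76) (nat_lit 177097633625) (nat_lit 6) (nat_lit 4) (nat_lit 7) (nat_lit 5) (nat_lit 7) (nat_lit 4) (nat_lit 430) (nat_lit 361) (nat_lit 229)) (XT.lf (nat_lit 0) (nat_lit 731128473097) (nat_lit 76) (nat_lit 179310082154) (nat_lit 76) (nat_lit 86131784038) (nat_lit 6) (nat_lit 4) (nat_lit 7) (nat_lit 5) (nat_lit 7) (nat_lit 4) (nat_lit 431) (nat_lit 361) (nat_lit 228))) (XT.nd (nat_lit 47658) (nat_lit 0) (nat_lit 7980) (XT.lf (nat_lit 0) (nat_lit 11723093059) (nat_lit 152) (nat_lit 69146204880) (nat_lit 76) (nat_lit 990049334200) (nat_lit 5) (nat_lit 5) (nat_lit 7) (nat_lit 5) (nat_lit 6) (nat_lit 4) (nat_lit 432) (nat_lit 361) (nat_lit 227)) (XT.lf (nat_lit 0) (nat_lit 1606512423) (nat_lit 836) (nat_lit 4750398024) (nat_lit 836) (nat_lit 4750398024) (nat_lit 110) (nat_lit 3) (nat_lit 121) (nat_lit 3) (nat_lit 121) (nat_lit 5) (nat_lit 362) (nat_lit 362) (nat_lit 296))))))))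
noncomputable def xc84 : XT := (XT.nd (nat_lit 1872) (nat_lit 2736) (nat_lit 0) (XT.nd (nat_lit 936) (nat_lit 2508) (nat_lit 0) (XT.nd (nat_lit 468) (nat_lit 1900) (nat_lit 0) (XT.nd (nat_lit 234) (nat_lit 0) (nat_lit 152) (XT.nd (nat_lit 78) (nat_lit 0) (nat_lit 0) (XT.lf (nat_lit 0) (nat_lit 3734495579) (nat_lit 760) (nat_lit 15276049836) (nat_lit 836) (nat_lit 4072864464) (nat_lit 111) (nat_lit 5) (nat_lit 121) (nat_lit 5) (nat_lit 122) (nat_lit 5) (nat_lit 363) (nat_lit 362) (nat_lit 295)) (XT.nd (nat_lit 78) (nat_lit 0) (nat_lit 76) (XT.lf (nat_lit 76) (nat_lit 2682486528) (nat_lit 0) (nat_lit 2019204574) (nat_lit 836) (nat_lit 19299829223) (nat_lit 112) (nat_lit 5) (nat_lit 111) (nat_lit 5) (nat_lit 122) (nat_lit 5) (nat_lit 364) (nat_lit 362) (nat_lit 294)) (XT.lf (nat_lit 0) (nat_lit 6252687522) (nat_lit 760) (nat_lit 2628745183) (nat_lit 836) (nat_lit 16086339003) (nat_lit 112) (nat_lit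 5) (nat_lit 122) (nat_lit 5) (nat_lit 123) (nat_lit 5) (nat_lit 365) (nat_lit 362) (nat_lit 293)))) (XT.nd (nat_lit 78) (nat_lit 0) (nat_lit 76) (XT.lf (nat_lit 0) (nat_lit 8380628846) (nat_lit 760) (nat_lit 8060563936) (nat_lit 836) (nat_lit 9547499534) (nat_lit 113) (nat_lit 5) (nat_lit 123) (nat_lit 5) (nat_lit 124) (nat_lit 5) (nat_lit 366) (nat_lit 362) (nat_lit 292)) (XT.nd (nat_lit 78) (nat_lit 0) (nat_lit 0) (XT.lf (nat_lit 0) (nat_lit 11104342355) (nat_lit 760) (nat_lit 13707726360) (nat_lit 836) (nat_lit 2257952470) (nat_lit 114) (nat_lit 5) (nat_lit 124) (nat_lit 5) (nat_lit 125) (nat_lit 5) (nat_lit 367) (nat_lit 362) (nat_lit 291)) (XT.lf (nat_lit 76) (nat_lit 8537110355) (nat_lit 0) (nat_lit 6046758342) (nat_lit 836) (nat_lit 13627102487) (nat_lit 115) (nat_lit 5) (nat_lit 114) (nat_lit 5) (nat_lit 125) (nat_lit 5) (nat_lit 368) (nat_lit 362) (nat_lit 290))))) (XT.nd (nat_lit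 234) (nat_lit 1064) (nat_lit 0) (XT.nd (nat_lit 78) (nat_lit 380) (nat_lit 0) (XT.lf (nat_lit 0) (nat_lit 3492837767) (nat_lit 760) (nat_lit 15353827095) (nat_lit 836) (nat_lit 10571296758) (nat_lit 105) (nat_lit 5) (nat_lit 115) (nat_lit 5) (nat_lit 116) (nat_lit 5) (nat_lit 369) (nat_lit 362) (nat_lit 289)) (XT.nd (nat_lit 78) (nat_lit 380) (nat_lit 0) (XT.lf (nat_lit 0) (nat_lit 23961510226) (nat_lit 836) (nat_lit 1683665601) (nat_lit 76) (nat_lit 5050793283) (nat_lit 105) (nat_lit 5) (nat_lit 116) (nat_lit 5) (nat_lit 106) (nat_lit 5) (nat_lit 370) (nat_lit 362) (nat_lit 288)) (XT.lf (nat_lit 0) (nat_lit 25027254634) (nat_lit 380) (nat_lit 5095482530) (nat_lit 456) (nat_lit 1921628760) (nat_lit 100) (nat_lit 5) (nat_lit 105) (nat_lit 5) (nat_lit 106) (nat_lit 5) (nat_lit 371) (nat_lit 362) (nat_lit 287)))) (XT.nd (nat_lit 78) (nat_lit 684) (nat_lit 0) (XT.lf (nat_lit 0) (nat_lit 3791529171)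 (nat_lit 380) (nat_lit 12708315410) (nat_lit 76) (nat_lit 16967231714) (nat_lit 95) (nat_lit 5) (nat_lit 100) (nat_lit 5) (nat_lit 96) (nat_lit 5) (nat_lit 372) (nat_lit 362) (nat_lit 286)) (XT.nd (nat_lit 78) (nat_lit 304) (nat_lit 0) (XT.lf (nat_lit 0) (nat_lit 10444852715) (nat_lit 456) (nat_lit 18671199153) (nat_lit 76) (nat_lit 5858461527) (nat_lit 90) (nat_lit 5) (nat_lit 96) (nat_lit 5) (nat_lit 91) (nat_lit 5) (nat_lit 373) (nat_lit 362) (nat_lit 285)) (XT.lf (nat_lit 0) (nat_lit 11574909555) (nat_lit 304) (nat_lit 6728905027) (nat_lit 380) (nat_lit 18265068623) (nat_lit 86) (nat_lit 5) (nat_lit 90) (nat_lit 5) (nat_lit 91) (nat_lit 5) (nat_lit 374) (nat_lit 362) (nat_lit 284)))))) (XT.nd (nat_lit 468) (nat_lit 1140) (nat_lit 0) (XT.nd (nat_lit 234) (nat_lit 760) (nat_lit 0) (XT.nd (nat_lit 78) (nat_lit 304) (nat_lit 0) (XT.lf (nat_lit 0) (nat_lit 6552999222) (nat_lit 304) (nat_lit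 20933828246) (nat_lit 380) (nat_lit 10769214324) (nat_lit 82) (nat_lit 5) (nat_lit 86) (nat_lit 5) (nat_lit 87) (nat_lit 5) (nat_lit 375) (nat_lit 362) (nat_lit 283)) (XT.nd (nat_lit 78) (nat_lit 76) (nat_lit 0) (XT.lf (nat_lit 0) (nat_lit 1324989845) (nat_lit 228) (nat_lit 36691566335) (nat_lit 304) (nat_lit 2031018604) (nat_lit 79) (nat_lit 5) (nat_lit 82) (nat_lit 5) (nat_lit 83) (nat_lit 5) (nat_lit 376) (nat_lit 362) (nat_lit 282)) (XT.lf (nat_lit 0) (nat_lit 8074393236) (nat_lit 304) (nat_lit 4316720293) (nat_lit 76) (nat_lit 29540279791) (nat_lit 78) (nat_lit 5) (nat_lit 82) (nat_lit 5) (nat_lit 79) (nat_lit 5) (nat_lit 377) (nat_lit 362) (nat_lit 281)))) (XT.nd (nat_lit 78) (nat_lit 456) (nat_lit 0) (XT.lf (nat_lit 0) (nat_lit 19664092866) (nat_lit 380) (nat_lit 10282641169) (nat_lit 76) (nat_lit 13980172397) (nat_lit 74) (nat_lit 5) (nat_lit 79) (nat_lit 5) (nat_lit 75) (nat_lit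 5) (nat_lit 378) (nat_lit 362) (nat_lit 280)) (XT.nd (nat_lit 78) (nat_lit 228) (nat_lit 0) (XT.lf (nat_lit 0) (nat_lit 29439410152) (nat_lit 228) (nat_lit 3478575685) (nat_lit 304) (nat_lit 13127228016) (nat_lit 71) (nat_lit 5) (nat_lit 74) (nat_lit 5) (nat_lit 75) (nat_lit 5) (nat_lit 379) (nat_lit 362) (nat_lit 279)) (XT.lf (nat_lit 0) (nat_lit 24769723381) (nat_lit 228) (nat_lit 23415648773) (nat_lit 304) (nat_lit 99958439) (nat_lit 68) (nat_lit 5) (nat_lit 71) (nat_lit 5) (nat_lit 72) (nat_lit 5) (nat_lit 380) (nat_lit 362) (nat_lit 278))))) (XT.nd (nat_lit 234) (nat_lit 456) (nat_lit 0) (XT.nd (nat_lit 78) (nat_lit 380) (nat_lit 0) (XT.lf (nat_lit 0) (nat_lit 14261463330) (nat_lit 304) (nat_lit 31050619962) (nat_lit 76) (nat_lit 5344717521) (nat_lit 64) (nat_lit 5) (nat_lit 68) (nat_lit 5) (nat_lit 65) (nat_lit 5) (nat_lit 381) (nat_lit 362) (nat_lit 277)) (XT.nd (nat_lit 78) (nat_lit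 152) (nat_lit 0) (XT.lf (nat_lit 0) (nat_lit 13849826060) (nat_lit 228) (nat_lit 16938962117) (nat_lit 304) (nat_lit 22378097090) (nat_lit 61) (nat_lit 5) (nat_lit 64) (nat_lit 5) (nat_lit 65) (nat_lit 5) (nat_lit 382) (nat_lit 362) (nat_lit 276)) (XT.lf (nat_lit 0) (nat_lit 7611157299) (nat_lit 152) (nat_lit 41903032552) (nat_lit 228) (nat_lit 6319794976) (nat_lit 59) (nat_lit 5) (nat_lit 61) (nat_lit 5) (nat_lit 62) (nat_lit 5) (nat_lit 383) (nat_lit 362) (nat_lit 275)))) (XT.nd (nat_lit 78) (nat_lit 152) (nat_lit 0) (XT.lf (nat_lit 0) (nat_lit 556496541) (nat_lit 228) (nat_lit 11097869777) (nat_lit 304) (nat_lit 47002283183) (nat_lit 55) (nat_lit 5) (nat_lit 58) (nat_lit 5) (nat_lit 59) (nat_lit 5) (nat_lit 384) (nat_lit 362) (nat_lit 274)) (XT.nd (nat_lit 78) (nat_lit 152) (nat_lit 0) (XT.lf (nat_lit 0) (nat_lit 32041816684) (nat_lit 304) (nat_lit 7179050145) (nat_lit 76) (nat_lit 22419244168)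 (nat_lit 55) (nat_lit 5) (nat_lit 59) (nat_lit 5) (nat_lit 56) (nat_lit 5) (nat_lit 385) (nat_lit 362) (nat_lit 273)) (XT.lf (nat_lit 0) (nat_lit 49194230300) (nat_lit 152) (nat_lit 5815544447) (nat_lit 228) (nat_lit 9805001267) (nat_lit 53) (nat_lit 5) (nat_lit 55) (nat_lit 5) (nat_lit 56) (nat_lit 5) (nat_lit 386) (nat_lit 362) (nat_lit 272))))))) (XT.nd (nat_lit 936) (nat_lit 1064) (nat_lit 0) (XT.nd (nat_lit 468) (nat_lit 760) (nat_lit 0) (XT.nd (nat_lit 234) (nat_lit 380) (nat_lit 0) (XT.nd (nat_lit 78) (nat_lit 304) (nat_lit 0) (XT.lf (nat_lit 0) (nat_lit 12487452925) (nat_lit 228) (nat_lit 25392330028) (nat_lit 76) (nat_lit 30290296523) (nat_lit 50) (nat_lit 5) (nat_lit 53) (nat_lit 5) (nat_lit 51) (nat_lit 5) (nat_lit 387) (nat_lit 362) (nat_lit 271)) (XT.nd (nat_lit 78) (nat_lit 152) (nat_lit 0) (XT.lf (nat_lit 0) (nat_lit 35484861831) (nat_lit 152) (nat_lit 1662900266) (nat_lit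 228) (nat_lit 34591611108) (nat_lit 48) (nat_lit 5) (nat_lit 50) (nat_lit 5) (nat_lit 51) (nat_lit 5) (nat_lit 388) (nat_lit 362) (nat_lit 270)) (XT.lf (nat_lit 0) (nat_lit 26825121189) (nat_lit 152) (nat_lit 38403838010) (nat_lit 228) (nat_lit 10292849724) (nat_lit 46) (nat_lit 5) (nat_lit 48) (nat_lit 5) (nat_lit 49) (nat_lit 5) (nat_lit 389) (nat_lit 362) (nat_lit 269)))) (XT.nd (nat_lit 78) (nat_lit 152) (nat_lit 0) (XT.lf (nat_lit 0) (nat_lit 16377033982) (nat_lit 228) (nat_lit 62640136566) (nat_lit 76) (nat_lit 530333592) (nat_lit 43) (nat_lit 5) (nat_lit 46) (nat_lit 5) (nat_lit 44) (nat_lit 5) (nat_lit 390) (nat_lit 362) (nat_lit 268)) (XT.nd (nat_lit 78) (nat_lit 0) (nat_lit 0) (XT.lf (nat_lit 0) (nat_lit 4961637943) (nat_lit 152) (nat_lit 41445591345) (nat_lit 228) (nat_lit 37400223662) (nat_lit 41) (nat_lit 5) (nat_lit 43) (nat_lit 5) (nat_lit 44) (nat_lit 5) (nat_lit 391) (nat_lit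 362) (nat_lit 267)) (XT.lf (nat_lit 0) (nat_lit 79930816505) (nat_lit 228) (nat_lit 8157377827) (nat_lit 76) (nat_lit 265455768) (nat_lit 41) (nat_lit 5) (nat_lit 44) (nat_lit 5) (nat_lit 42) (nat_lit 4) (nat_lit 392) (nat_lit 362) (nat_lit 266))))) (XT.nd (nat_lit 234) (nat_lit 380) (nat_lit 0) (XT.nd (nat_lit 78) (nat_lit 228) (nat_lit 0) (XT.lf (nat_lit 0) (nat_lit 23952970498) (nat_lit 152) (nat_lit 23849488799) (nat_lit 76) (nat_lit 45352614760) (nat_lit 39) (nat_lit 5) (nat_lit 41) (nat_lit 5) (nat_lit 40) (nat_lit 5) (nat_lit 393) (nat_lit 362) (nat_lit 265)) (XT.nd (nat_lit 78) (nat_lit 76) (nat_lit 0) (XT.lf (nat_lit 0) (nat_lit 56582969759) (nat_lit 152) (nat_lit 3068526372) (nat_lit 228) (nat_lit 38630825244) (nat_lit 37) (nat_lit 5) (nat_lit 39) (nat_lit 5) (nat_lit 40) (nat_lit 5) (nat_lit 394) (nat_lit 362) (nat_lit 264)) (XT.lf (nat_lit 0) (nat_lit 41097999497) (nat_lit 76)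 (nat_lit 58874310935) (nat_lit 152) (nat_lit 3759118657) (nat_lit 36) (nat_lit 5) (nat_lit 37) (nat_lit 5) (nat_lit 38) (nat_lit 4) (nat_lit 395) (nat_lit 362) (nat_lit 263)))) (XT.nd (nat_lit 78) (nat_lit 152) (nat_lit 0) (XT.lf (nat_lit 0) (nat_lit 22550121405) (nat_lit 152) (nat_lit 11405446441) (nat_lit 228) (nat_lit 75577516421) (nat_lit 33) (nat_lit 5) (nat_lit 35) (nat_lit 5) (nat_lit 36) (nat_lit 5) (nat_lit 396) (nat_lit 362) (nat_lit 262)) (XT.nd (nat_lit 78) (nat_lit 76) (nat_lit 0) (XT.lf (nat_lit 0) (nat_lit 341400591) (nat_lit 76) (nat_lit 75949047296) (nat_lit 152) (nat_lit 39418607505) (nat_lit 32) (nat_lit 5) (nat_lit 33) (nat_lit 5) (nat_lit 34) (nat_lit 4) (nat_lit 397) (nat_lit 362) (nat_lit 261)) (XT.lf (nat_lit 0) (nat_lit 1373584689) (nat_lit 152) (nat_lit 24763325837) (nat_lit 76) (nat_lit 96156039607) (nat_lit 31) (nat_lit 5) (nat_lit 33) (nat_lit 5) (nat_lit 32)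 (nat_lit 5) (nat_lit 398) (nat_lit 362) (nat_lit 260)))))) (XT.nd (nat_lit 468) (nat_lit 456) (nat_lit 0) (XT.nd (nat_lit 234) (nat_lit 228) (nat_lit 0) (XT.nd (nat_lit 78) (nat_lit 228) (nat_lit 0) (XT.lf (nat_lit 0) (nat_lit 45693222157) (nat_lit 228) (nat_lit 54960696889) (nat_lit 76) (nat_lit 28635072409) (nat_lit 29) (nat_lit 5) (nat_lit 32) (nat_lit 5) (nat_lit 30) (nat_lit 4) (nat_lit 399) (nat_lit 362) (nat_lit 259)) (XT.nd (nat_lit 78) (nat_lit 152) (nat_lit 0) (XT.lf (nat_lit 0) (nat_lit 46441223045) (nat_lit 76) (nat_lit 48718289104) (nat_lit 152) (nat_lit 41605150440) (nat_lit 28) (nat_lit 5) (nat_lit 29) (nat_lit 5) (nat_lit 30) (nat_lit 4) (nat_lit 400) (nat_lit 362) (nat_lit 258)) (XT.lf (nat_lit 0) (nat_lit 4940756177) (nat_lit 152) (nat_lit 131432837455) (nat_lit 76) (nat_lit 8396076388) (nat_lit 26) (nat_lit 5) (nat_lit 28) (nat_lit 5) (nat_lit 27) (nat_lit 4) (nat_lit 401)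 (nat_lit 362) (nat_lit 257)))) (XT.nd (nat_lit 78) (nat_lit 228) (nat_lit 0) (XT.lf (nat_lit 0) (nat_lit 56189884028) (nat_lit 152) (nat_lit 26375370633) (nat_lit 76) (nat_lit 70693861753) (nat_lit 26) (nat_lit 5) (nat_lit 28) (nat_lit 5) (nat_lit 27) (nat_lit 4) (nat_lit 402) (nat_lit 362) (nat_lit 256)) (XT.nd (nat_lit 78) (nat_lit 152) (nat_lit 0) (XT.lf (nat_lit 0) (nat_lit 89960914342) (nat_lit 76) (nat_lit 22979842786) (nat_lit 152) (nat_lit 49416871079) (nat_lit 25) (nat_lit 5) (nat_lit 26) (nat_lit 5) (nat_lit 27) (nat_lit 4) (nat_lit 403) (nat_lit 362) (nat_lit 255)) (XT.lf (nat_lit 0) (nat_lit 3827445435) (nat_lit 152) (nat_lit 126982708353) (nat_lit 76) (nat_lit 41280003804) (nat_lit 23) (nat_lit 5) (nat_lit 25) (nat_lit 5) (nat_lit 24) (nat_lit 4) (nat_lit 404) (nat_lit 362) (nat_lit 254))))) (XT.nd (nat_lit 234) (nat_lit 304) (nat_lit 0) (XT.nd (nat_lit 78) (nat_lit 152) (nat_lit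 0) (XT.lf (nat_lit 0) (nat_lit 61289830070) (nat_lit 152) (nat_lit 9187273376) (nat_lit 76) (nat_lit 111999188147) (nat_lit 23) (nat_lit 5) (nat_lit 25) (nat_lit 5) (nat_lit 24) (nat_lit 4) (nat_lit 405) (nat_lit 362) (nat_lit 253)) (XT.nd (nat_lit 78) (nat_lit 76) (nat_lit 0) (XT.lf (nat_lit 0) (nat_lit 121929837417) (nat_lit 76) (nat_lit 3320667080) (nat_lit 152) (nat_lit 68347747198) (nat_lit 22) (nat_lit 5) (nat_lit 23) (nat_lit 5) (nat_lit 24) (nat_lit 4) (nat_lit 406) (nat_lit 362) (nat_lit 252)) (XT.lf (nat_lit 0) (nat_lit 59065364114) (nat_lit 76) (nat_lit 137425749341) (nat_lit 76) (nat_lit 9010701431) (nat_lit 21) (nat_lit 4) (nat_lit 22) (nat_lit 5) (nat_lit 22) (nat_lit 4) (nat_lit 407) (nat_lit 362) (nat_lit 251)))) (XT.nd (nat_lit 156) (nat_lit 152) (nat_lit 0) (XT.nd (nat_lit 78) (nat_lit 76) (nat_lit 0) (XT.lf (nat_lit 0) (nat_lit 54633272035) (nat_lit 152) (nat_lit 16418695178)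 (nat_lit 76) (nat_lit 147196571065) (nat_lit 20) (nat_lit 5) (nat_lit 22) (nat_lit 5) (nat_lit 21) (nat_lit 4) (nat_lit 408) (nat_lit 362) (nat_lit 250)) (XT.lf (nat_lit 0) (nat_lit 125097799204) (nat_lit 152) (nat_lit 104013227208) (nat_lit 0) (nat_lit 2794351215) (nat_lit 19) (nat_lit 5) (nat_lit 21) (nat_lit 4) (nat_lit 19) (nat_lit 4) (nat_lit 409) (nat_lit 362) (nat_lit 249))) (XT.nd (nat_lit 78) (nat_lit 76) (nat_lit 0) (XT.lf (nat_lit 0) (nat_lit 37693548919) (nat_lit 76) (nat_lit 165581207313) (nat_lit 76) (nat_lit 43276244740) (nat_lit 18) (nat_lit 4) (nat_lit 19) (nat_lit 5) (nat_lit 19) (nat_lit 4) (nat_lit 410) (nat_lit 362) (nat_lit 248)) (XT.lf (nat_lit 0) (nat_lit 26366247085) (nat_lit 152) (nat_lit 68255558439) (nat_lit 76) (nat_lit 167634708686) (nat_lit 17) (nat_lit 5) (nat_lit 19) (nat_lit 5) (nat_lit 18) (nat_lit 4) (nat_lit 411) (nat_lit 362) (nat_lit 247))))))))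
noncomputable def xc85 : XT := (XT.nd (nat_lit 49530) (nat_lit 0) (nat_lit 3040) (XT.nd (nat_lit 936) (nat_lit 228) (nat_lit 0) (XT.nd (nat_lit 468) (nat_lit 304) (nat_lit 0) (XT.nd (nat_lit 234) (nat_lit 152) (nat_lit 0) (XT.nd (nat_lit 78) (nat_lit 76) (nat_lit 0) (XT.lf (nat_lit 0) (nat_lit 85601086596) (nat_lit 76) (nat_lit 15817815877) (nat_lit 152) (nat_lit 177696346241) (nat_lit 16) (nat_lit 5) (nat_lit 17) (nat_lit 5) (nat_lit 18) (nat_lit 4) (nat_lit 412) (nat_lit 362) (nat_lit 246)) (XT.nd (nat_lit 78) (nat_lit 76) (nat_lit 0) (XT.lf (nat_lit 0) (nat_lit 184764314522) (nat_lit 152) (nat_lit 44164259993) (nat_lit 0) (nat_lit 68279680427) (nat_lit 16) (nat_lit 5) (nat_lit 18) (nat_lit 4) (nat_lit 16) (nat_lit 4) (nat_lit 413) (nat_lit 362) (nat_lit 245)) (XT.lf (nat_lit 0) (nat_lit 120727847715) (nat_lit 76) (nat_lit 156199523930) (nat_lit 76) (nat_lit 39713829583) (nat_lit 15) (nat_lit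 4) (nat_lit 16) (nat_lit 5) (nat_lit 16) (nat_lit 4) (nat_lit 414) (nat_lit 362) (nat_lit 244)))) (XT.nd (nat_lit 78) (nat_lit 76) (nat_lit 0) (XT.lf (nat_lit 0) (nat_lit 38372104028) (nat_lit 152) (nat_lit 37823862803) (nat_lit 76) (nat_lit 261363482285) (nat_lit 14) (nat_lit 5) (nat_lit 16) (nat_lit 5) (nat_lit 15) (nat_lit 4) (nat_lit 415) (nat_lit 362) (nat_lit 243)) (XT.nd (nat_lit 78) (nat_lit 0) (nat_lit 0) (XT.lf (nat_lit 0) (nat_lit 123668896239) (nat_lit 152) (nat_lit 223603601214) (nat_lit 0) (nat_lit 12728339043) (nat_lit 13) (nat_lit 5) (nat_lit 15) (nat_lit 4) (nat_lit 13) (nat_lit 4) (nat_lit 416) (nat_lit 362) (nat_lit 242)) (XT.lf (nat_lit 0) (nat_lit 217742505292) (nat_lit 152) (nat_lit 59596229514) (nat_lit 0) (nat_lit 106801146513) (nat_lit 13) (nat_lit 5) (nat_lit 15) (nat_lit 4) (nat_lit 13) (nat_lit 4) (nat_lit 417) (nat_lit 362) (nat_lit 241))))) (XT.nd (nat_lit 234)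 (nat_lit 76) (nat_lit 0) (XT.nd (nat_lit 78) (nat_lit 152) (nat_lit 0) (XT.lf (nat_lit 0) (nat_lit 121415247661) (nat_lit 76) (nat_lit 199821093139) (nat_lit 76) (nat_lit 88878992154) (nat_lit 12) (nat_lit 4) (nat_lit 13) (nat_lit 5) (nat_lit 13) (nat_lit 4) (nat_lit 418) (nat_lit 362) (nat_lit 240)) (XT.nd (nat_lit 78) (nat_lit 152) (nat_lit 0) (XT.lf (nat_lit 0) (nat_lit 319033384673) (nat_lit 76) (nat_lit 115013189897) (nat_lit 76) (nat_lit 4070401685) (nat_lit 12) (nat_lit 4) (nat_lit 13) (nat_lit 5) (nat_lit 13) (nat_lit 4) (nat_lit 419) (nat_lit 362) (nat_lit 239)) (XT.lf (nat_lit 0) (nat_lit 64807716149) (nat_lit 76) (nat_lit 20924547598) (nat_lit 152) (nat_lit 382507630179) (nat_lit 10) (nat_lit 5) (nat_lit 11) (nat_lit 5) (nat_lit 12) (nat_lit 4) (nat_lit 420) (nat_lit 362) (nat_lit 238)))) (XT.nd (nat_lit 78) (nat_lit 76) (nat_lit 0) (XT.lf (nat_lit 0) (nat_lit 185945494401) (nat_lit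 152) (nat_lit 234370837399) (nat_lit 0) (nat_lit 80284528952) (nat_lit 10) (nat_lit 5) (nat_lit 12) (nat_lit 4) (nat_lit 10) (nat_lit 4) (nat_lit 421) (nat_lit 362) (nat_lit 237)) (XT.nd (nat_lit 78) (nat_lit 76) (nat_lit 0) (XT.lf (nat_lit 0) (nat_lit 294527564918) (nat_lit 152) (nat_lit 52139471112) (nat_lit 0) (nat_lit 188866079903) (nat_lit 10) (nat_lit 5) (nat_lit 12) (nat_lit 4) (nat_lit 10) (nat_lit 4) (nat_lit 422) (nat_lit 362) (nat_lit 236)) (XT.lf (nat_lit 0) (nat_lit 149451895491) (nat_lit 76) (nat_lit 264676701211) (nat_lit 76) (nat_lit 159014735118) (nat_lit 9) (nat_lit 4) (nat_lit 10) (nat_lit 5) (nat_lit 10) (nat_lit 4) (nat_lit 423) (nat_lit 362) (nat_lit 235)))))) (XT.nd (nat_lit 468) (nat_lit 0) (nat_lit 0) (XT.nd (nat_lit 234) (nat_lit 76) (nat_lit 0) (XT.nd (nat_lit 78) (nat_lit 152) (nat_lit 0) (XT.lf (nat_lit 0) (nat_lit 369030634832) (nat_lit 76) (nat_lit 175174388080)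 (nat_lit 76) (nat_lit 69511976542) (nat_lit 9) (nat_lit 4) (nat_lit 10) (nat_lit 5) (nat_lit 10) (nat_lit 4) (nat_lit 424) (nat_lit 362) (nat_lit 234)) (XT.nd (nat_lit 78) (nat_lit 76) (nat_lit 0) (XT.lf (nat_lit 0) (nat_lit 26281131363) (nat_lit 152) (nat_lit 51786504689) (nat_lit 76) (nat_lit 579447772830) (nat_lit 8) (nat_lit 5) (nat_lit 10) (nat_lit 5) (nat_lit 9) (nat_lit 4) (nat_lit 425) (nat_lit 362) (nat_lit 233)) (XT.lf (nat_lit 0) (nat_lit 130318901395) (nat_lit 152) (nat_lit 544603707220) (nat_lit 0) (nat_lit 29687276747) (nat_lit 7) (nat_lit 5) (nat_lit 9) (nat_lit 4) (nat_lit 7) (nat_lit 4) (nat_lit 426) (nat_lit 362) (nat_lit 232)))) (XT.nd (nat_lit 78) (nat_lit 76) (nat_lit 0) (XT.lf (nat_lit 0) (nat_lit 244912150769) (nat_lit 152) (nat_lit 366167957006) (nat_lit 0) (nat_lit 144280189352) (nat_lit 7) (nat_lit 5) (nat_lit 9) (nat_lit 4) (nat_lit 7) (nat_lit 4) (nat_lit 427)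 (nat_lit 362) (nat_lit 231)) (XT.nd (nat_lit 78) (nat_lit 76) (nat_lit 0) (XT.lf (nat_lit 0) (nat_lit 368672136916) (nat_lit 152) (nat_lit 173458777448) (nat_lit 0) (nat_lit 268039863675) (nat_lit 7) (nat_lit 5) (nat_lit 9) (nat_lit 4) (nat_lit 7) (nat_lit 4) (nat_lit 428) (nat_lit 362) (nat_lit 230)) (XT.lf (nat_lit 0) (nat_lit 35812020068) (nat_lit 76) (nat_lit 467079358273) (nat_lit 76) (nat_lit 366446796307) (nat_lit 6) (nat_lit 4) (nat_lit 7) (nat_lit 5) (nat_lit 7) (nat_lit 4) (nat_lit 429) (nat_lit 362) (nat_lit 229))))) (XT.nd (nat_lit 47892) (nat_lit 0) (nat_lit 7904) (XT.nd (nat_lit 78) (nat_lit 0) (nat_lit 0) (XT.lf (nat_lit 0) (nat_lit 268017371247) (nat_lit 76) (nat_lit 382851688038) (nat_lit 76) (nat_lit 282218858734) (nat_lit 6) (nat_lit 4) (nat_lit 7) (nat_lit 5) (nat_lit 7) (nat_lit 4) (nat_lit 430) (nat_lit 362) (nat_lit 228)) (XT.nd (nat_lit 78) (nat_lit 0) (nat_lit 0)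 (XT.lf (nat_lit 0) (nat_lit 518797977252) (nat_lit 76) (nat_lit 291886385052) (nat_lit 76) (nat_lit 191253308213) (nat_lit 6) (nat_lit 4) (nat_lit 7) (nat_lit 5) (nat_lit 7) (nat_lit 4) (nat_lit 431) (nat_lit 362) (nat_lit 227)) (XT.lf (nat_lit 0) (nat_lit 789639945379) (nat_lit 76) (nat_lit 193644395667) (nat_lit 76) (nat_lit 93011089629) (nat_lit 6) (nat_lit 4) (nat_lit 7) (nat_lit 5) (nat_lit 7) (nat_lit 4) (nat_lit 432) (nat_lit 362) (nat_lit 226)))) (XT.nd (nat_lit 78) (nat_lit 0) (nat_lit 76) (XT.lf (nat_lit 0) (nat_lit 1934407015) (nat_lit 836) (nat_lit 5025688334) (nat_lit 836) (nat_lit 5025688334) (nat_lit 110) (nat_lit 3) (nat_lit 121) (nat_lit 3) (nat_lit 121) (nat_lit 5) (nat_lit 363) (nat_lit 363) (nat_lit 294)) (XT.nd (nat_lit 78) (nat_lit 0) (nat_lit 0) (XT.lf (nat_lit 0) (nat_lit 4402909300) (nat_lit 760) (nat_lit 16276192209) (nat_lit 836) (nat_lit 4232237743) (nat_lit 111)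 (nat_lit 5) (nat_lit 121) (nat_lit 5) (nat_lit 122) (nat_lit 5) (nat_lit 364) (nat_lit 363) (nat_lit 293)) (XT.lf (nat_lit 76) (nat_lit 3109381753) (nat_lit 0) (nat_lit 2314031470) (nat_lit 836) (nat_lit 20480707986) (nat_lit 112) (nat_lit 5) (nat_lit 111) (nat_lit 5) (nat_lit 122) (nat_lit 5) (nat_lit 365) (nat_lit 363) (nat_lit 292))))))) (XT.nd (nat_lit 936) (nat_lit 2508) (nat_lit 0) (XT.nd (nat_lit 468) (nat_lit 1976) (nat_lit 0) (XT.nd (nat_lit 234) (nat_lit 532) (nat_lit 0) (XT.nd (nat_lit 78) (nat_lit 0) (nat_lit 76) (XT.lf (nat_lit 0) (nat_lit 7070963443) (nat_lit 760) (nat_lit 2624324349) (nat_lit 836) (nat_lit 17253779087) (nat_lit 112) (nat_lit 5) (nat_lit 122) (nat_lit 5) (nat_lit 123) (nat_lit 5) (nat_lit 366) (nat_lit 363) (nat_lit 291)) (XT.nd (nat_lit 78) (nat_lit 0) (nat_lit 76) (XT.lf (nat_lit 0) (nat_lit 9347345350) (nat_lit 760) (nat_lit 8483486398) (nat_lit 836) (nat_lit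 10221935679) (nat_lit 113) (nat_lit 5) (nat_lit 123) (nat_lit 5) (nat_lit 124) (nat_lit 5) (nat_lit 367) (nat_lit 363) (nat_lit 290)) (XT.lf (nat_lit 0) (nat_lit 12269304152) (nat_lit 760) (nat_lit 14576972530) (nat_lit 836) (nat_lit 2375323843) (nat_lit 114) (nat_lit 5) (nat_lit 124) (nat_lit 5) (nat_lit 125) (nat_lit 5) (nat_lit 368) (nat_lit 363) (nat_lit 289)))) (XT.nd (nat_lit 78) (nat_lit 684) (nat_lit 0) (XT.lf (nat_lit 76) (nat_lit 9437569815) (nat_lit 0) (nat_lit 6572528469) (nat_lit 836) (nat_lit 14444597152) (nat_lit 115) (nat_lit 5) (nat_lit 114) (nat_lit 5) (nat_lit 125) (nat_lit 5) (nat_lit 369) (nat_lit 363) (nat_lit 288)) (XT.nd (nat_lit 78) (nat_lit 0) (nat_lit 0) (XT.lf (nat_lit 0) (nat_lit 3993513032) (nat_lit 760) (nat_lit 16604028114) (nat_lit 836) (nat_lit 11161535954) (nat_lit 105) (nat_lit 5) (nat_lit 115) (nat_lit 5) (nat_lit 116) (nat_lit 5) (nat_lit 370) (nat_lit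 363) (nat_lit 287)) (XT.lf (nat_lit 0) (nat_lit 26103247021) (nat_lit 836) (nat_lit 1601774097) (nat_lit 76) (nat_lit 5435232598) (nat_lit 105) (nat_lit 5) (nat_lit 116) (nat_lit 5) (nat_lit 106) (nat_lit 5) (nat_lit 371) (nat_lit 363) (nat_lit 286))))) (XT.nd (nat_lit 234) (nat_lit 836) (nat_lit 0) (XT.nd (nat_lit 78) (nat_lit 760) (nat_lit 0) (XT.lf (nat_lit 0) (nat_lit 27236607248) (nat_lit 380) (nat_lit 5507346370) (nat_lit 456) (nat_lit 1853250850) (nat_lit 100) (nat_lit 5) (nat_lit 105) (nat_lit 5) (nat_lit 106) (nat_lit 5) (nat_lit 372) (nat_lit 363) (nat_lit 285)) (XT.nd (nat_lit 78) (nat_lit 380) (nat_lit 0) (XT.lf (nat_lit 0) (nat_lit 4297171177) (nat_lit 380) (nat_lit 13509689684) (nat_lit 76) (nat_lit 18327341344) (nat_lit 95) (nat_lit 5) (nat_lit 100) (nat_lit 5) (nat_lit 96) (nat_lit 5) (nat_lit 373) (nat_lit 363) (nat_lit 284)) (XT.lf (nat_lit 0) (nat_lit 11471229404) (nat_lit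 456) (nat_lit 19949558210) (nat_lit 76) (nat_lit 6342032417) (nat_lit 90) (nat_lit 5) (nat_lit 96) (nat_lit 5) (nat_lit 91) (nat_lit 5) (nat_lit 374) (nat_lit 363) (nat_lit 283)))) (XT.nd (nat_lit 78) (nat_lit 532) (nat_lit 0) (XT.lf (nat_lit 0) (nat_lit 12706880916) (nat_lit 304) (nat_lit 7241110728) (nat_lit 380) (nat_lit 19537302131) (nat_lit 86) (nat_lit 5) (nat_lit 90) (nat_lit 5) (nat_lit 91) (nat_lit 5) (nat_lit 375) (nat_lit 363) (nat_lit 282)) (XT.nd (nat_lit 78) (nat_lit 228) (nat_lit 0) (XT.lf (nat_lit 0) (nat_lit 7282580900) (nat_lit 304) (nat_lit 22573324184) (nat_lit 380) (nat_lit 11452014878) (nat_lit 82) (nat_lit 5) (nat_lit 86) (nat_lit 5) (nat_lit 87) (nat_lit 5) (nat_lit 376) (nat_lit 363) (nat_lit 281)) (XT.lf (nat_lit 0) (nat_lit 1635112234) (nat_lit 228) (nat_lit 39583993478) (nat_lit 304) (nat_lit 2024122504) (nat_lit 79) (nat_lit 5) (nat_lit 82) (nat_lit 5) (nat_lit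 83) (nat_lit 5) (nat_lit 377) (nat_lit 363) (nat_lit 280)))))) (XT.nd (nat_lit 468) (nat_lit 1140) (nat_lit 0) (XT.nd (nat_lit 234) (nat_lit 760) (nat_lit 0) (XT.nd (nat_lit 78) (nat_lit 532) (nat_lit 0) (XT.lf (nat_lit 0) (nat_lit 8872156220) (nat_lit 304) (nat_lit 4467954867) (nat_lit 76) (nat_lit 31938122611) (nat_lit 78) (nat_lit 5) (nat_lit 82) (nat_lit 5) (nat_lit 79) (nat_lit 5) (nat_lit 378) (nat_lit 363) (nat_lit 279)) (XT.nd (nat_lit 78) (nat_lit 228) (nat_lit 0) (XT.lf (nat_lit 0) (nat_lit 21381344214) (nat_lit 380) (nat_lit 10912995998) (nat_lit 76) (nat_lit 15139437993) (nat_lit 74) (nat_lit 5) (nat_lit 79) (nat_lit 5) (nat_lit 75) (nat_lit 5) (nat_lit 379) (nat_lit 363) (nat_lit 278)) (XT.lf (nat_lit 0) (nat_lit 31978464198) (nat_lit 228) (nat_lit 3709279792) (nat_lit 304) (nat_lit 14034201982) (nat_lit 71) (nat_lit 5) (nat_lit 74) (nat_lit 5) (nat_lit 75) (nat_lit 5) (nat_lit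 380) (nat_lit 363) (nat_lit 277)))) (XT.nd (nat_lit 78) (nat_lit 456) (nat_lit 0) (XT.lf (nat_lit 0) (nat_lit 27436581) (nat_lit 304) (nat_lit 25208962740) (nat_lit 76) (nat_lit 26905184302) (nat_lit 67) (nat_lit 5) (nat_lit 71) (nat_lit 5) (nat_lit 68) (nat_lit 5) (nat_lit 381) (nat_lit 363) (nat_lit 276)) (XT.nd (nat_lit 78) (nat_lit 228) (nat_lit 0) (XT.lf (nat_lit 0) (nat_lit 15528154809) (nat_lit 304) (nat_lit 33351080920) (nat_lit 76) (nat_lit 5823764069) (nat_lit 64) (nat_lit 5) (nat_lit 68) (nat_lit 5) (nat_lit 65) (nat_lit 5) (nat_lit 382) (nat_lit 363) (nat_lit 275)) (XT.lf (nat_lit 0) (nat_lit 15133422246) (nat_lit 228) (nat_lit 18237668541) (nat_lit 304) (nat_lit 24043133140) (nat_lit 61) (nat_lit 5) (nat_lit 64) (nat_lit 5) (nat_lit 65) (nat_lit 5) (nat_lit 383) (nat_lit 363) (nat_lit 274))))) (XT.nd (nat_lit 234) (nat_lit 684) (nat_lit 0) (XT.nd (nat_lit 78) (nat_lit 304) (nat_lit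 0) (XT.lf (nat_lit 0) (nat_lit 8392936612) (nat_lit 152) (nat_lit 45196273119) (nat_lit 228) (nat_lit 6705751327) (nat_lit 59) (nat_lit 5) (nat_lit 61) (nat_lit 5) (nat_lit 62) (nat_lit 5) (nat_lit 384) (nat_lit 363) (nat_lit 273)) (XT.nd (nat_lit 78) (nat_lit 0) (nat_lit 0) (XT.lf (nat_lit 0) (nat_lit 770095989) (nat_lit 228) (nat_lit 11926480209) (nat_lit 304) (nat_lit 50647069624) (nat_lit 55) (nat_lit 5) (nat_lit 58) (nat_lit 5) (nat_lit 59) (nat_lit 5) (nat_lit 385) (nat_lit 363) (nat_lit 272)) (XT.lf (nat_lit 0) (nat_lit 34707740863) (nat_lit 304) (nat_lit 7592549354) (nat_lit 76) (nat_lit 24265861264) (nat_lit 55) (nat_lit 5) (nat_lit 59) (nat_lit 5) (nat_lit 56) (nat_lit 5) (nat_lit 386) (nat_lit 363) (nat_lit 271)))) (XT.nd (nat_lit 156) (nat_lit 304) (nat_lit 0) (XT.nd (nat_lit 78) (nat_lit 228) (nat_lit 0) (XT.lf (nat_lit 0) (nat_lit 53283604277) (nat_lit 152) (nat_lit 6224334666)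 (nat_lit 228) (nat_lit 10487113511) (nat_lit 53) (nat_lit 5) (nat_lit 55) (nat_lit 5) (nat_lit 56) (nat_lit 5) (nat_lit 387) (nat_lit 363) (nat_lit 270)) (XT.lf (nat_lit 0) (nat_lit 13581354451) (nat_lit 228) (nat_lit 27269546813) (nat_lit 76) (nat_lit 32768007090) (nat_lit 50) (nat_lit 5) (nat_lit 53) (nat_lit 5) (nat_lit 51) (nat_lit 5) (nat_lit 388) (nat_lit 363) (nat_lit 269))) (XT.nd (nat_lit 78) (nat_lit 152) (nat_lit 0) (XT.lf (nat_lit 0) (nat_lit 38471120371) (nat_lit 152) (nat_lit 1738640379) (nat_lit 228) (nat_lit 37264223599) (nat_lit 48) (nat_lit 5) (nat_lit 50) (nat_lit 5) (nat_lit 51) (nat_lit 5) (nat_lit 389) (nat_lit 363) (nat_lit 268)) (XT.lf (nat_lit 0) (nat_lit 29115677480) (nat_lit 152) (nat_lit 41418181318) (nat_lit 228) (nat_lit 11025338077) (nat_lit 46) (nat_lit 5) (nat_lit 48) (nat_lit 5) (nat_lit 49) (nat_lit 5) (nat_lit 390) (nat_lit 363) (nat_lit 267))))))))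
noncomputable def xc86 : XT := (XT.nd (nat_lit 1872) (nat_lit 760) (nat_lit 0) (XT.nd (nat_lit 936) (nat_lit 760) (nat_lit 0) (XT.nd (nat_lit 468) (nat_lit 760) (nat_lit 0) (XT.nd (nat_lit 234) (nat_lit 380) (nat_lit 0) (XT.nd (nat_lit 78) (nat_lit 152) (nat_lit 0) (XT.lf (nat_lit 0) (nat_lit 17771803186) (nat_lit 228) (nat_lit 67506959112) (nat_lit 76) (nat_lit 628287494) (nat_lit 43) (nat_lit 5) (nat_lit 46) (nat_lit 5) (nat_lit 44) (nat_lit 5) (nat_lit 391) (nat_lit 363) (nat_lit 266)) (XT.nd (nat_lit 78) (nat_lit 0) (nat_lit 0) (XT.lf (nat_lit 0) (nat_lit 5496682415) (nat_lit 152) (nat_lit 44703620892) (nat_lit 228) (nat_lit 40307698545) (nat_lit 41) (nat_lit 5) (nat_lit 43) (nat_lit 5) (nat_lit 44) (nat_lit 5) (nat_lit 392) (nat_lit 363) (nat_lit 265)) (XT.lf (nat_lit 0) (nat_lit 86400647797) (nat_lit 228) (nat_lit 8679170649) (nat_lit 76) (nat_lit 338334482) (nat_lit 41) (nat_lit 5)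 (nat_lit 44) (nat_lit 5) (nat_lit 42) (nat_lit 4) (nat_lit 393) (nat_lit 363) (nat_lit 264)))) (XT.nd (nat_lit 78) (nat_lit 228) (nat_lit 0) (XT.lf (nat_lit 0) (nat_lit 25942139538) (nat_lit 152) (nat_lit 25629904940) (nat_lit 76) (nat_lit 49031770520) (nat_lit 39) (nat_lit 5) (nat_lit 41) (nat_lit 5) (nat_lit 40) (nat_lit 5) (nat_lit 394) (nat_lit 363) (nat_lit 263)) (XT.nd (nat_lit 78) (nat_lit 76) (nat_lit 0) (XT.lf (nat_lit 0) (nat_lit 61231607440) (nat_lit 152) (nat_lit 3261442218) (nat_lit 228) (nat_lit 41648368685) (nat_lit 37) (nat_lit 5) (nat_lit 39) (nat_lit 5) (nat_lit 40) (nat_lit 5) (nat_lit 395) (nat_lit 363) (nat_lit 262)) (XT.lf (nat_lit 0) (nat_lit 44505089668) (nat_lit 76) (nat_lit 63531917934) (nat_lit 152) (nat_lit 3989574413) (nat_lit 36) (nat_lit 5) (nat_lit 37) (nat_lit 5) (nat_lit 38) (nat_lit 4) (nat_lit 396) (nat_lit 363) (nat_lit 261))))) (XT.nd (nat_lit 234) (nat_lit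 380) (nat_lit 0) (XT.nd (nat_lit 78) (nat_lit 152) (nat_lit 0) (XT.lf (nat_lit 0) (nat_lit 24470364691) (nat_lit 152) (nat_lit 12266448998) (nat_lit 228) (nat_lit 81555663377) (nat_lit 33) (nat_lit 5) (nat_lit 35) (nat_lit 5) (nat_lit 36) (nat_lit 5) (nat_lit 397) (nat_lit 363) (nat_lit 260)) (XT.nd (nat_lit 78) (nat_lit 76) (nat_lit 0) (XT.lf (nat_lit 0) (nat_lit 482239254) (nat_lit 76) (nat_lit 81973960850) (nat_lit 152) (nat_lit 42506441009) (nat_lit 32) (nat_lit 5) (nat_lit 33) (nat_lit 5) (nat_lit 34) (nat_lit 4) (nat_lit 398) (nat_lit 363) (nat_lit 259)) (XT.lf (nat_lit 0) (nat_lit 1542317504) (nat_lit 152) (nat_lit 26637317585) (nat_lit 76) (nat_lit 103893797387) (nat_lit 31) (nat_lit 5) (nat_lit 33) (nat_lit 5) (nat_lit 32) (nat_lit 5) (nat_lit 399) (nat_lit 363) (nat_lit 258)))) (XT.nd (nat_lit 78) (nat_lit 228) (nat_lit 0) (XT.lf (nat_lit 0) (nat_lit 49405489498) (nat_lit 228) (nat_lit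 59253040225) (nat_lit 76) (nat_lit 30970730045) (nat_lit 29) (nat_lit 5) (nat_lit 32) (nat_lit 5) (nat_lit 30) (nat_lit 4) (nat_lit 400) (nat_lit 363) (nat_lit 257)) (XT.nd (nat_lit 78) (nat_lit 152) (nat_lit 0) (XT.lf (nat_lit 0) (nat_lit 50256491322) (nat_lit 76) (nat_lit 52569944071) (nat_lit 152) (nat_lit 44876682345) (nat_lit 28) (nat_lit 5) (nat_lit 29) (nat_lit 5) (nat_lit 30) (nat_lit 4) (nat_lit 401) (nat_lit 363) (nat_lit 256)) (XT.lf (nat_lit 0) (nat_lit 5389218726) (nat_lit 152) (nat_lit 141848155287) (nat_lit 76) (nat_lit 9111200913) (nat_lit 26) (nat_lit 5) (nat_lit 28) (nat_lit 5) (nat_lit 27) (nat_lit 4) (nat_lit 402) (nat_lit 363) (nat_lit 255)))))) (XT.nd (nat_lit 468) (nat_lit 380) (nat_lit 0) (XT.nd (nat_lit 234) (nat_lit 152) (nat_lit 0) (XT.nd (nat_lit 78) (nat_lit 228) (nat_lit 0) (XT.lf (nat_lit 0) (nat_lit 60734335912) (nat_lit 152) (nat_lit 28393447353) (nat_lit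 76) (nat_lit 76389591447) (nat_lit 26) (nat_lit 5) (nat_lit 28) (nat_lit 5) (nat_lit 27) (nat_lit 4) (nat_lit 403) (nat_lit 363) (nat_lit 254)) (XT.nd (nat_lit 78) (nat_lit 152) (nat_lit 0) (XT.lf (nat_lit 0) (nat_lit 97245744258) (nat_lit 76) (nat_lit 24777258879) (nat_lit 152) (nat_lit 53320878687) (nat_lit 25) (nat_lit 5) (nat_lit 26) (nat_lit 5) (nat_lit 27) (nat_lit 4) (nat_lit 404) (nat_lit 363) (nat_lit 253)) (XT.lf (nat_lit 0) (nat_lit 4179829077) (nat_lit 152) (nat_lit 137054014720) (nat_lit 76) (nat_lit 44621210504) (nat_lit 23) (nat_lit 5) (nat_lit 25) (nat_lit 5) (nat_lit 24) (nat_lit 4) (nat_lit 405) (nat_lit 363) (nat_lit 252)))) (XT.nd (nat_lit 78) (nat_lit 152) (nat_lit 0) (XT.lf (nat_lit 0) (nat_lit 66235783149) (nat_lit 152) (nat_lit 9841412375) (nat_lit 76) (nat_lit 120995055046) (nat_lit 23) (nat_lit 5) (nat_lit 25) (nat_lit 5) (nat_lit 24) (nat_lit 4) (nat_lit 406) (nat_lit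 363) (nat_lit 251)) (XT.nd (nat_lit 78) (nat_lit 76) (nat_lit 0) (XT.lf (nat_lit 0) (nat_lit 131761553949) (nat_lit 76) (nat_lit 3549797011) (nat_lit 152) (nat_lit 73772714996) (nat_lit 22) (nat_lit 5) (nat_lit 23) (nat_lit 5) (nat_lit 24) (nat_lit 4) (nat_lit 407) (nat_lit 363) (nat_lit 250)) (XT.lf (nat_lit 0) (nat_lit 63865973646) (nat_lit 76) (nat_lit 148383917207) (nat_lit 76) (nat_lit 9690089650) (nat_lit 21) (nat_lit 4) (nat_lit 22) (nat_lit 5) (nat_lit 22) (nat_lit 4) (nat_lit 408) (nat_lit 363) (nat_lit 249))))) (XT.nd (nat_lit 234) (nat_lit 152) (nat_lit 0) (XT.nd (nat_lit 78) (nat_lit 152) (nat_lit 0) (XT.lf (nat_lit 0) (nat_lit 59041101079) (nat_lit 152) (nat_lit 17661160656) (nat_lit 76) (nat_lit 159004296693) (nat_lit 20) (nat_lit 5) (nat_lit 22) (nat_lit 5) (nat_lit 21) (nat_lit 4) (nat_lit 409) (nat_lit 363) (nat_lit 248)) (XT.nd (nat_lit 78) (nat_lit 76) (nat_lit 0) (XT.lf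 (nat_lit 0) (nat_lit 135141604995) (nat_lit 152) (nat_lit 112265071095) (nat_lit 0) (nat_lit 3049328442) (nat_lit 19) (nat_lit 5) (nat_lit 21) (nat_lit 4) (nat_lit 19) (nat_lit 4) (nat_lit 410) (nat_lit 363) (nat_lit 247)) (XT.lf (nat_lit 0) (nat_lit 40775239153) (nat_lit 76) (nat_lit 178795847776) (nat_lit 76) (nat_lit 46702272712) (nat_lit 18) (nat_lit 4) (nat_lit 19) (nat_lit 5) (nat_lit 19) (nat_lit 4) (nat_lit 411) (nat_lit 363) (nat_lit 246)))) (XT.nd (nat_lit 78) (nat_lit 76) (nat_lit 0) (XT.lf (nat_lit 0) (nat_lit 28507877492) (nat_lit 152) (nat_lit 73653628530) (nat_lit 76) (nat_lit 181073909354) (nat_lit 17) (nat_lit 5) (nat_lit 19) (nat_lit 5) (nat_lit 18) (nat_lit 4) (nat_lit 412) (nat_lit 363) (nat_lit 245)) (XT.nd (nat_lit 78) (nat_lit 0) (nat_lit 0) (XT.lf (nat_lit 0) (nat_lit 92508837384) (nat_lit 76) (nat_lit 17054444585) (nat_lit 152) (nat_lit 191879640093) (nat_lit 16)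 (nat_lit 5) (nat_lit 17) (nat_lit 5) (nat_lit 18) (nat_lit 4) (nat_lit 413) (nat_lit 363) (nat_lit 244)) (XT.lf (nat_lit 0) (nat_lit 199574456807) (nat_lit 152) (nat_lit 47641140779) (nat_lit 0) (nat_lit 73767864947) (nat_lit 16) (nat_lit 5) (nat_lit 18) (nat_lit 4) (nat_lit 16) (nat_lit 4) (nat_lit 414) (nat_lit 363) (nat_lit 243))))))) (XT.nd (nat_lit 936) (nat_lit 152) (nat_lit 0) (XT.nd (nat_lit 468) (nat_lit 304) (nat_lit 0) (XT.nd (nat_lit 234) (nat_lit 76) (nat_lit 0) (XT.nd (nat_lit 78) (nat_lit 152) (nat_lit 0) (XT.lf (nat_lit 0) (nat_lit 130439890553) (nat_lit 76) (nat_lit 168669360214) (nat_lit 76) (nat_lit 42861859359) (nat_lit 15) (nat_lit 4) (nat_lit 16) (nat_lit 5) (nat_lit 16) (nat_lit 4) (nat_lit 415) (nat_lit 363) (nat_lit 242)) (XT.nd (nat_lit 78) (nat_lit 76) (nat_lit 0) (XT.lf (nat_lit 0) (nat_lit 41467933422) (nat_lit 152) (nat_lit 40799079000) (nat_lit 76) (nat_lit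 282295887163) (nat_lit 14) (nat_lit 5) (nat_lit 16) (nat_lit 5) (nat_lit 15) (nat_lit 4) (nat_lit 416) (nat_lit 363) (nat_lit 241)) (XT.lf (nat_lit 0) (nat_lit 133587664117) (nat_lit 152) (nat_lit 241442521415) (nat_lit 0) (nat_lit 13769452848) (nat_lit 13) (nat_lit 5) (nat_lit 15) (nat_lit 4) (nat_lit 13) (nat_lit 4) (nat_lit 417) (nat_lit 363) (nat_lit 240)))) (XT.nd (nat_lit 78) (nat_lit 76) (nat_lit 0) (XT.lf (nat_lit 0) (nat_lit 235185291066) (nat_lit 152) (nat_lit 64318216859) (nat_lit 0) (nat_lit 115366392568) (nat_lit 13) (nat_lit 5) (nat_lit 15) (nat_lit 4) (nat_lit 13) (nat_lit 4) (nat_lit 418) (nat_lit 363) (nat_lit 239)) (XT.nd (nat_lit 78) (nat_lit 0) (nat_lit 0) (XT.lf (nat_lit 0) (nat_lit 131172191944) (nat_lit 76) (nat_lit 215785391883) (nat_lit 76) (nat_lit 95965857064) (nat_lit 12) (nat_lit 4) (nat_lit 13) (nat_lit 5) (nat_lit 13) (nat_lit 4) (nat_lit 419) (nat_lit 363)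 (nat_lit 238)) (XT.lf (nat_lit 0) (nat_lit 344596541067) (nat_lit 76) (nat_lit 124194440731) (nat_lit 76) (nat_lit 4374316724) (nat_lit 12) (nat_lit 4) (nat_lit 13) (nat_lit 5) (nat_lit 13) (nat_lit 4) (nat_lit 420) (nat_lit 363) (nat_lit 237))))) (XT.nd (nat_lit 234) (nat_lit 152) (nat_lit 0) (XT.nd (nat_lit 78) (nat_lit 0) (nat_lit 0) (XT.lf (nat_lit 0) (nat_lit 70031726093) (nat_lit 76) (nat_lit 22579198610) (nat_lit 152) (nat_lit 413087155185) (nat_lit 10) (nat_lit 5) (nat_lit 11) (nat_lit 5) (nat_lit 12) (nat_lit 4) (nat_lit 421) (nat_lit 363) (nat_lit 236)) (XT.nd (nat_lit 78) (nat_lit 0) (nat_lit 0) (XT.lf (nat_lit 0) (nat_lit 200840005604) (nat_lit 152) (nat_lit 253083377837) (nat_lit 0) (nat_lit 86724601144) (nat_lit 10) (nat_lit 5) (nat_lit 12) (nat_lit 4) (nat_lit 10) (nat_lit 4) (nat_lit 422) (nat_lit 363) (nat_lit 235)) (XT.lf (nat_lit 0) (nat_lit 318107243862) (nat_lit 152)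 (nat_lit 56276252362) (nat_lit 0) (nat_lit 203991393958) (nat_lit 10) (nat_lit 5) (nat_lit 12) (nat_lit 4) (nat_lit 10) (nat_lit 4) (nat_lit 423) (nat_lit 363) (nat_lit 234)))) (XT.nd (nat_lit 78) (nat_lit 76) (nat_lit 0) (XT.lf (nat_lit 0) (nat_lit 161440929611) (nat_lit 76) (nat_lit 285834647614) (nat_lit 76) (nat_lit 171718385263) (nat_lit 9) (nat_lit 4) (nat_lit 10) (nat_lit 5) (nat_lit 10) (nat_lit 4) (nat_lit 424) (nat_lit 363) (nat_lit 233)) (XT.nd (nat_lit 78) (nat_lit 76) (nat_lit 0) (XT.lf (nat_lit 0) (nat_lit 398583532360) (nat_lit 76) (nat_lit 189173348669) (nat_lit 76) (nat_lit 75056704421) (nat_lit 9) (nat_lit 4) (nat_lit 10) (nat_lit 5) (nat_lit 10) (nat_lit 4) (nat_lit 425) (nat_lit 363) (nat_lit 232)) (XT.lf (nat_lit 0) (nat_lit 28398168887) (nat_lit 152) (nat_lit 55900751636) (nat_lit 76) (nat_lit 625816992708) (nat_lit 8) (nat_lit 5) (nat_lit 10) (nat_lit 5) (nat_lit 9)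 (nat_lit 4) (nat_lit 426) (nat_lit 363) (nat_lit 231)))))) (XT.nd (nat_lit 48204) (nat_lit 0) (nat_lit 7904) (XT.nd (nat_lit 234) (nat_lit 76) (nat_lit 0) (XT.nd (nat_lit 78) (nat_lit 0) (nat_lit 0) (XT.lf (nat_lit 0) (nat_lit 140758522418) (nat_lit 152) (nat_lit 588144091897) (nat_lit 0) (nat_lit 32075355495) (nat_lit 7) (nat_lit 5) (nat_lit 9) (nat_lit 4) (nat_lit 7) (nat_lit 4) (nat_lit 427) (nat_lit 363) (nat_lit 230)) (XT.nd (nat_lit 78) (nat_lit 0) (nat_lit 0) (XT.lf (nat_lit 0) (nat_lit 264518186637) (nat_lit 152) (nat_lit 395435549214) (nat_lit 0) (nat_lit 155834730989) (nat_lit 7) (nat_lit 5) (nat_lit 9) (nat_lit 4) (nat_lit 7) (nat_lit 4) (nat_lit 428) (nat_lit 363) (nat_lit 229)) (XT.lf (nat_lit 0) (nat_lit 398178003986) (nat_lit 152) (nat_lit 187311549687) (nat_lit 0) (nat_lit 289494281000) (nat_lit 7) (nat_lit 5) (nat_lit 9) (nat_lit 4) (nat_lit 7) (nat_lit 4) (nat_lit 429) (nat_lit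 363) (nat_lit 228)))) (XT.nd (nat_lit 78) (nat_lit 0) (nat_lit 0) (XT.lf (nat_lit 0) (nat_lit 38699871663) (nat_lit 76) (nat_lit 504434374431) (nat_lit 76) (nat_lit 395750403909) (nat_lit 6) (nat_lit 4) (nat_lit 7) (nat_lit 5) (nat_lit 7) (nat_lit 4) (nat_lit 430) (nat_lit 363) (nat_lit 227)) (XT.nd (nat_lit 78) (nat_lit 0) (nat_lit 0) (XT.lf (nat_lit 0) (nat_lit 289479955381) (nat_lit 76) (nat_lit 413469330022) (nat_lit 76) (nat_lit 304785130301) (nat_lit 6) (nat_lit 4) (nat_lit 7) (nat_lit 5) (nat_lit 7) (nat_lit 4) (nat_lit 431) (nat_lit 363) (nat_lit 226)) (XT.lf (nat_lit 0) (nat_lit 560321439909) (nat_lit 76) (nat_lit 315227580061) (nat_lit 76) (nat_lit 206543168118) (nat_lit 6) (nat_lit 4) (nat_lit 7) (nat_lit 5) (nat_lit 7) (nat_lit 4) (nat_lit 432) (nat_lit 363) (nat_lit 225))))) (XT.nd (nat_lit 234) (nat_lit 0) (nat_lit 152) (XT.nd (nat_lit 78) (nat_lit 0) (nat_lit 76) (XT.lf (nat_lit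 0) (nat_lit 2260090301) (nat_lit 836) (nat_lit 5337944420) (nat_lit 836) (nat_lit 5337944420) (nat_lit 110) (nat_lit 3) (nat_lit 121) (nat_lit 3) (nat_lit 121) (nat_lit 5) (nat_lit 364) (nat_lit 364) (nat_lit 292)) (XT.nd (nat_lit 78) (nat_lit 0) (nat_lit 0) (XT.lf (nat_lit 0) (nat_lit 5072060832) (nat_lit 760) (nat_lit 17388008424) (nat_lit 836) (nat_lit 4428107676) (nat_lit 111) (nat_lit 5) (nat_lit 121) (nat_lit 5) (nat_lit 122) (nat_lit 5) (nat_lit 365) (nat_lit 364) (nat_lit 291)) (XT.lf (nat_lit 76) (nat_lit 3540142154) (nat_lit 0) (nat_lit 2613429133) (nat_lit 836) (nat_lit 21807858404) (nat_lit 112) (nat_lit 5) (nat_lit 111) (nat_lit 5) (nat_lit 122) (nat_lit 5) (nat_lit 366) (nat_lit 364) (nat_lit 290)))) (XT.nd (nat_lit 156) (nat_lit 0) (nat_lit 152) (XT.nd (nat_lit 78) (nat_lit 0) (nat_lit 76) (XT.lf (nat_lit 0) (nat_lit 7909326492) (nat_lit 760) (nat_lit 2650182121) (nat_lit 836)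 (nat_lit 18531657685) (nat_lit 112) (nat_lit 5) (nat_lit 122) (nat_lit 5) (nat_lit 123) (nat_lit 5) (nat_lit 367) (nat_lit 364) (nat_lit 289)) (XT.lf (nat_lit 0) (nat_lit 10349133490) (nat_lit 760) (nat_lit 8971902405) (nat_lit 836) (nat_lit 10963075464) (nat_lit 113) (nat_lit 5) (nat_lit 123) (nat_lit 5) (nat_lit 124) (nat_lit 5) (nat_lit 368) (nat_lit 364) (nat_lit 288))) (XT.nd (nat_lit 78) (nat_lit 0) (nat_lit 0) (XT.lf (nat_lit 0) (nat_lit 13488000756) (nat_lit 760) (nat_lit 15548195543) (nat_lit 836) (nat_lit 2511110362) (nat_lit 114) (nat_lit 5) (nat_lit 124) (nat_lit 5) (nat_lit 125) (nat_lit 5) (nat_lit 369) (nat_lit 364) (nat_lit 287)) (XT.lf (nat_lit 76) (nat_lit 10379038561) (nat_lit 0) (nat_lit 7134364234) (nat_lit 836) (nat_lit 15366391319) (nat_lit 115) (nat_lit 5) (nat_lit 114) (nat_lit 5) (nat_lit 125) (nat_lit 5) (nat_lit 370) (nat_lit 364) (nat_lit 286))))))))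
noncomputable def xc87 : XT := (XT.nd (nat_lit 1872) (nat_lit 2128) (nat_lit 0) (XT.nd (nat_lit 936) (nat_lit 1976) (nat_lit 0) (XT.nd (nat_lit 468) (nat_lit 1444) (nat_lit 0) (XT.nd (nat_lit 234) (nat_lit 1064) (nat_lit 0) (XT.nd (nat_lit 78) (nat_lit 380) (nat_lit 0) (XT.lf (nat_lit 0) (nat_lit 4502678783) (nat_lit 760) (nat_lit 17951121670) (nat_lit 836) (nat_lit 11835439159) (nat_lit 105) (nat_lit 5) (nat_lit 115) (nat_lit 5) (nat_lit 116) (nat_lit 5) (nat_lit 371) (nat_lit 364) (nat_lit 285)) (XT.nd (nat_lit 78) (nat_lit 380) (nat_lit 0) (XT.lf (nat_lit 0) (nat_lit 28384250247) (nat_lit 836) (nat_lit 1544229508) (nat_lit 76) (nat_lit 5853226662) (nat_lit 105) (nat_lit 5) (nat_lit 116) (nat_lit 5) (nat_lit 106) (nat_lit 5) (nat_lit 372) (nat_lit 364) (nat_lit 284)) (XT.lf (nat_lit 0) (nat_lit 29593152634) (nat_lit 380) (nat_lit 5951556540) (nat_lit 456) (nat_lit 1811088926) (nat_lit 100)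 (nat_lit 5) (nat_lit 105) (nat_lit 5) (nat_lit 106) (nat_lit 5) (nat_lit 373) (nat_lit 364) (nat_lit 283)))) (XT.nd (nat_lit 78) (nat_lit 684) (nat_lit 0) (XT.lf (nat_lit 0) (nat_lit 4814401380) (nat_lit 380) (nat_lit 14405887561) (nat_lit 76) (nat_lit 19795870123) (nat_lit 95) (nat_lit 5) (nat_lit 100) (nat_lit 5) (nat_lit 96) (nat_lit 5) (nat_lit 374) (nat_lit 364) (nat_lit 282)) (XT.nd (nat_lit 78) (nat_lit 304) (nat_lit 0) (XT.lf (nat_lit 0) (nat_lit 12552498120) (nat_lit 456) (nat_lit 21360906205) (nat_lit 76) (nat_lit 6862164187) (nat_lit 90) (nat_lit 5) (nat_lit 96) (nat_lit 5) (nat_lit 91) (nat_lit 5) (nat_lit 375) (nat_lit 364) (nat_lit 281)) (XT.lf (nat_lit 0) (nat_lit 13900024836) (nat_lit 304) (nat_lit 7798017299) (nat_lit 380) (nat_lit 20938273285) (nat_lit 86) (nat_lit 5) (nat_lit 90) (nat_lit 5) (nat_lit 91) (nat_lit 5) (nat_lit 376) (nat_lit 364) (nat_lit 280))))) (XT.nd (nat_lit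 234) (nat_lit 836) (nat_lit 0) (XT.nd (nat_lit 78) (nat_lit 304) (nat_lit 0) (XT.lf (nat_lit 0) (nat_lit 8041234817) (nat_lit 304) (nat_lit 24349002942) (nat_lit 380) (nat_lit 12214938249) (nat_lit 82) (nat_lit 5) (nat_lit 86) (nat_lit 5) (nat_lit 87) (nat_lit 5) (nat_lit 377) (nat_lit 364) (nat_lit 279)) (XT.nd (nat_lit 78) (nat_lit 76) (nat_lit 0) (XT.lf (nat_lit 0) (nat_lit 1940923957) (nat_lit 228) (nat_lit 42713934695) (nat_lit 304) (nat_lit 2040838323) (nat_lit 79) (nat_lit 5) (nat_lit 82) (nat_lit 5) (nat_lit 83) (nat_lit 5) (nat_lit 378) (nat_lit 364) (nat_lit 278)) (XT.lf (nat_lit 0) (nat_lit 9712082632) (nat_lit 304) (nat_lit 4658979177) (nat_lit 76) (nat_lit 34522853864) (nat_lit 78) (nat_lit 5) (nat_lit 82) (nat_lit 5) (nat_lit 79) (nat_lit 5) (nat_lit 379) (nat_lit 364) (nat_lit 277)))) (XT.nd (nat_lit 78) (nat_lit 532) (nat_lit 0) (XT.lf (nat_lit 0) (nat_lit 23215414781) (nat_lit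 380) (nat_lit 11621206747) (nat_lit 76) (nat_lit 16385616869) (nat_lit 74) (nat_lit 5) (nat_lit 79) (nat_lit 5) (nat_lit 75) (nat_lit 5) (nat_lit 380) (nat_lit 364) (nat_lit 276)) (XT.nd (nat_lit 78) (nat_lit 304) (nat_lit 0) (XT.lf (nat_lit 0) (nat_lit 34694407001) (nat_lit 228) (nat_lit 3965228325) (nat_lit 304) (nat_lit 15034163556) (nat_lit 71) (nat_lit 5) (nat_lit 74) (nat_lit 5) (nat_lit 75) (nat_lit 5) (nat_lit 381) (nat_lit 364) (nat_lit 275)) (XT.lf (nat_lit 0) (nat_lit 142745755) (nat_lit 304) (nat_lit 27066036783) (nat_lit 76) (nat_lit 29098419877) (nat_lit 67) (nat_lit 5) (nat_lit 71) (nat_lit 5) (nat_lit 68) (nat_lit 5) (nat_lit 382) (nat_lit 364) (nat_lit 274)))))) (XT.nd (nat_lit 468) (nat_lit 912) (nat_lit 0) (XT.nd (nat_lit 234) (nat_lit 456) (nat_lit 0) (XT.nd (nat_lit 78) (nat_lit 380) (nat_lit 0) (XT.lf (nat_lit 0) (nat_lit 16878238480) (nat_lit 304) (nat_lit 35861769726)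 (nat_lit 76) (nat_lit 6333791692) (nat_lit 64) (nat_lit 5) (nat_lit 68) (nat_lit 5) (nat_lit 65) (nat_lit 5) (nat_lit 383) (nat_lit 364) (nat_lit 273)) (XT.nd (nat_lit 78) (nat_lit 152) (nat_lit 0) (XT.lf (nat_lit 0) (nat_lit 16494653382) (nat_lit 228) (nat_lit 19648319074) (nat_lit 304) (nat_lit 25859234924) (nat_lit 61) (nat_lit 5) (nat_lit 64) (nat_lit 5) (nat_lit 65) (nat_lit 5) (nat_lit 384) (nat_lit 364) (nat_lit 272)) (XT.lf (nat_lit 0) (nat_lit 9212594046) (nat_lit 152) (nat_lit 48761390231) (nat_lit 228) (nat_lit 7139650351) (nat_lit 59) (nat_lit 5) (nat_lit 61) (nat_lit 5) (nat_lit 62) (nat_lit 5) (nat_lit 385) (nat_lit 364) (nat_lit 271)))) (XT.nd (nat_lit 78) (nat_lit 152) (nat_lit 0) (XT.lf (nat_lit 0) (nat_lit 976662280) (nat_lit 228) (nat_lit 12829827749) (nat_lit 304) (nat_lit 54599901541) (nat_lit 55) (nat_lit 5) (nat_lit 58) (nat_lit 5) (nat_lit 59) (nat_lit 5) (nat_lit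 386) (nat_lit 364) (nat_lit 270)) (XT.nd (nat_lit 78) (nat_lit 152) (nat_lit 0) (XT.lf (nat_lit 0) (nat_lit 37572304957) (nat_lit 304) (nat_lit 8062071957) (nat_lit 76) (nat_lit 26252635620) (nat_lit 55) (nat_lit 5) (nat_lit 59) (nat_lit 5) (nat_lit 56) (nat_lit 5) (nat_lit 387) (nat_lit 364) (nat_lit 269)) (XT.lf (nat_lit 0) (nat_lit 57678181810) (nat_lit 152) (nat_lit 6673881802) (nat_lit 228) (nat_lit 11238387241) (nat_lit 53) (nat_lit 5) (nat_lit 55) (nat_lit 5) (nat_lit 56) (nat_lit 5) (nat_lit 388) (nat_lit 364) (nat_lit 268))))) (XT.nd (nat_lit 234) (nat_lit 380) (nat_lit 0) (XT.nd (nat_lit 78) (nat_lit 304) (nat_lit 0) (XT.lf (nat_lit 0) (nat_lit 14749228799) (nat_lit 228) (nat_lit 29318934961) (nat_lit 76) (nat_lit 35436161345) (nat_lit 50) (nat_lit 5) (nat_lit 53) (nat_lit 5) (nat_lit 51) (nat_lit 5) (nat_lit 389) (nat_lit 364) (nat_lit 267)) (XT.nd (nat_lit 78) (nat_lit 152) (nat_lit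 0) (XT.lf (nat_lit 0) (nat_lit 41675241408) (nat_lit 152) (nat_lit 1828613032) (nat_lit 228) (nat_lit 40164157443) (nat_lit 48) (nat_lit 5) (nat_lit 50) (nat_lit 5) (nat_lit 51) (nat_lit 5) (nat_lit 390) (nat_lit 364) (nat_lit 266)) (XT.lf (nat_lit 0) (nat_lit 31568857087) (nat_lit 152) (nat_lit 44681941265) (nat_lit 228) (nat_lit 11829399053) (nat_lit 46) (nat_lit 5) (nat_lit 48) (nat_lit 5) (nat_lit 49) (nat_lit 5) (nat_lit 391) (nat_lit 364) (nat_lit 265)))) (XT.nd (nat_lit 78) (nat_lit 152) (nat_lit 0) (XT.lf (nat_lit 0) (nat_lit 19266083864) (nat_lit 228) (nat_lit 72783726078) (nat_lit 76) (nat_lit 726156131) (nat_lit 43) (nat_lit 5) (nat_lit 46) (nat_lit 5) (nat_lit 44) (nat_lit 5) (nat_lit 392) (nat_lit 364) (nat_lit 264)) (XT.nd (nat_lit 78) (nat_lit 0) (nat_lit 0) (XT.lf (nat_lit 0) (nat_lit 6054827019) (nat_lit 152) (nat_lit 48230512620) (nat_lit 228) (nat_lit 43459832424) (nat_lit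 41) (nat_lit 5) (nat_lit 43) (nat_lit 5) (nat_lit 44) (nat_lit 5) (nat_lit 393) (nat_lit 364) (nat_lit 263)) (XT.lf (nat_lit 0) (nat_lit 93377313795) (nat_lit 228) (nat_lit 9261366609) (nat_lit 76) (nat_lit 409676148) (nat_lit 41) (nat_lit 5) (nat_lit 44) (nat_lit 5) (nat_lit 42) (nat_lit 4) (nat_lit 394) (nat_lit 364) (nat_lit 262))))))) (XT.nd (nat_lit 936) (nat_lit 760) (nat_lit 0) (XT.nd (nat_lit 468) (nat_lit 608) (nat_lit 0) (XT.nd (nat_lit 234) (nat_lit 380) (nat_lit 0) (XT.nd (nat_lit 78) (nat_lit 228) (nat_lit 0) (XT.lf (nat_lit 0) (nat_lit 28080037621) (nat_lit 152) (nat_lit 27570949802) (nat_lit 76) (nat_lit 52997990642) (nat_lit 39) (nat_lit 5) (nat_lit 41) (nat_lit 5) (nat_lit 40) (nat_lit 5) (nat_lit 395) (nat_lit 364) (nat_lit 261)) (XT.nd (nat_lit 78) (nat_lit 76) (nat_lit 0) (XT.lf (nat_lit 0) (nat_lit 66234731458) (nat_lit 152) (nat_lit 3477290497) (nat_lit 228) (nat_lit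 44917718822) (nat_lit 37) (nat_lit 5) (nat_lit 39) (nat_lit 5) (nat_lit 40) (nat_lit 5) (nat_lit 396) (nat_lit 364) (nat_lit 260)) (XT.lf (nat_lit 0) (nat_lit 48167734676) (nat_lit 76) (nat_lit 68569600076) (nat_lit 152) (nat_lit 4248491963) (nat_lit 36) (nat_lit 5) (nat_lit 37) (nat_lit 5) (nat_lit 38) (nat_lit 4) (nat_lit 397) (nat_lit 364) (nat_lit 259)))) (XT.nd (nat_lit 78) (nat_lit 152) (nat_lit 0) (XT.lf (nat_lit 0) (nat_lit 26527645421) (nat_lit 152) (nat_lit 13203669275) (nat_lit 228) (nat_lit 88021770805) (nat_lit 33) (nat_lit 5) (nat_lit 35) (nat_lit 5) (nat_lit 36) (nat_lit 5) (nat_lit 398) (nat_lit 364) (nat_lit 258)) (XT.nd (nat_lit 78) (nat_lit 76) (nat_lit 0) (XT.lf (nat_lit 0) (nat_lit 618149169) (nat_lit 76) (nat_lit 88488144669) (nat_lit 152) (nat_lit 45850667628) (nat_lit 32) (nat_lit 5) (nat_lit 33) (nat_lit 5) (nat_lit 34) (nat_lit 4) (nat_lit 399) (nat_lit 364) (nat_lit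 257)) (XT.lf (nat_lit 0) (nat_lit 1716153898) (nat_lit 152) (nat_lit 28676504021) (nat_lit 76) (nat_lit 112244116860) (nat_lit 31) (nat_lit 5) (nat_lit 33) (nat_lit 5) (nat_lit 32) (nat_lit 5) (nat_lit 400) (nat_lit 364) (nat_lit 256))))) (XT.nd (nat_lit 234) (nat_lit 228) (nat_lit 0) (XT.nd (nat_lit 78) (nat_lit 228) (nat_lit 0) (XT.lf (nat_lit 0) (nat_lit 53406633707) (nat_lit 228) (nat_lit 63903680892) (nat_lit 76) (nat_lit 33486841675) (nat_lit 29) (nat_lit 5) (nat_lit 32) (nat_lit 5) (nat_lit 30) (nat_lit 4) (nat_lit 401) (nat_lit 364) (nat_lit 255)) (XT.nd (nat_lit 78) (nat_lit 152) (nat_lit 0) (XT.lf (nat_lit 0) (nat_lit 54362719161) (nat_lit 76) (nat_lit 56736266481) (nat_lit 152) (nat_lit 48418051389) (nat_lit 28) (nat_lit 5) (nat_lit 29) (nat_lit 5) (nat_lit 30) (nat_lit 4) (nat_lit 402) (nat_lit 364) (nat_lit 254)) (XT.lf (nat_lit 0) (nat_lit 5865968411) (nat_lit 152) (nat_lit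 153110866107) (nat_lit 76) (nat_lit 9877338425) (nat_lit 26) (nat_lit 5) (nat_lit 28) (nat_lit 5) (nat_lit 27) (nat_lit 4) (nat_lit 403) (nat_lit 364) (nat_lit 253)))) (XT.nd (nat_lit 78) (nat_lit 228) (nat_lit 0) (XT.lf (nat_lit 0) (nat_lit 65635316291) (nat_lit 152) (nat_lit 30586088324) (nat_lit 76) (nat_lit 82535241576) (nat_lit 26) (nat_lit 5) (nat_lit 28) (nat_lit 5) (nat_lit 27) (nat_lit 4) (nat_lit 404) (nat_lit 364) (nat_lit 252)) (XT.nd (nat_lit 78) (nat_lit 152) (nat_lit 0) (XT.lf (nat_lit 0) (nat_lit 105100812551) (nat_lit 76) (nat_lit 26724313278) (nat_lit 152) (nat_lit 57544246103) (nat_lit 25) (nat_lit 5) (nat_lit 26) (nat_lit 5) (nat_lit 27) (nat_lit 4) (nat_lit 405) (nat_lit 364) (nat_lit 251)) (XT.lf (nat_lit 0) (nat_lit 4553814176) (nat_lit 152) (nat_lit 147943481388) (nat_lit 76) (nat_lit 48224177574) (nat_lit 23) (nat_lit 5) (nat_lit 25) (nat_lit 5) (nat_lit 24) (nat_lit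 4) (nat_lit 406) (nat_lit 364) (nat_lit 250)))))) (XT.nd (nat_lit 468) (nat_lit 380) (nat_lit 0) (XT.nd (nat_lit 234) (nat_lit 228) (nat_lit 0) (XT.nd (nat_lit 78) (nat_lit 152) (nat_lit 0) (XT.lf (nat_lit 0) (nat_lit 71571311331) (nat_lit 152) (nat_lit 10559415634) (nat_lit 76) (nat_lit 130705465218) (nat_lit 23) (nat_lit 5) (nat_lit 25) (nat_lit 5) (nat_lit 24) (nat_lit 4) (nat_lit 407) (nat_lit 364) (nat_lit 249)) (XT.nd (nat_lit 78) (nat_lit 76) (nat_lit 0) (XT.lf (nat_lit 0) (nat_lit 142368775880) (nat_lit 76) (nat_lit 3802467813) (nat_lit 152) (nat_lit 79637793532) (nat_lit 22) (nat_lit 5) (nat_lit 23) (nat_lit 5) (nat_lit 24) (nat_lit 4) (nat_lit 408) (nat_lit 364) (nat_lit 248)) (XT.lf (nat_lit 0) (nat_lit 69039878083) (nat_lit 76) (nat_lit 160223858909) (nat_lit 76) (nat_lit 10429744786) (nat_lit 21) (nat_lit 4) (nat_lit 22) (nat_lit 5) (nat_lit 22) (nat_lit 4) (nat_lit 409) (nat_lit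 364) (nat_lit 247)))) (XT.nd (nat_lit 78) (nat_lit 152) (nat_lit 0) (XT.lf (nat_lit 0) (nat_lit 63796254118) (nat_lit 152) (nat_lit 19013156616) (nat_lit 76) (nat_lit 171752075222) (nat_lit 20) (nat_lit 5) (nat_lit 22) (nat_lit 5) (nat_lit 21) (nat_lit 4) (nat_lit 410) (nat_lit 364) (nat_lit 246)) (XT.nd (nat_lit 78) (nat_lit 76) (nat_lit 0) (XT.lf (nat_lit 0) (nat_lit 145983782036) (nat_lit 152) (nat_lit 121186936686) (nat_lit 0) (nat_lit 3320220131) (nat_lit 19) (nat_lit 5) (nat_lit 21) (nat_lit 4) (nat_lit 19) (nat_lit 4) (nat_lit 411) (nat_lit 364) (nat_lit 245)) (XT.lf (nat_lit 0) (nat_lit 44094019534) (nat_lit 76) (nat_lit 193072204108) (nat_lit 76) (nat_lit 50407528939) (nat_lit 18) (nat_lit 4) (nat_lit 19) (nat_lit 5) (nat_lit 19) (nat_lit 4) (nat_lit 412) (nat_lit 364) (nat_lit 244))))) (XT.nd (nat_lit 234) (nat_lit 228) (nat_lit 0) (XT.nd (nat_lit 78) (nat_lit 76) (nat_lit 0) (XT.lf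 (nat_lit 0) (nat_lit 30816226004) (nat_lit 152) (nat_lit 79492442660) (nat_lit 76) (nat_lit 195584191079) (nat_lit 17) (nat_lit 5) (nat_lit 19) (nat_lit 5) (nat_lit 18) (nat_lit 4) (nat_lit 413) (nat_lit 364) (nat_lit 243)) (XT.nd (nat_lit 78) (nat_lit 0) (nat_lit 0) (XT.lf (nat_lit 0) (nat_lit 99960696518) (nat_lit 76) (nat_lit 18394111740) (nat_lit 152) (nat_lit 207202221652) (nat_lit 16) (nat_lit 5) (nat_lit 17) (nat_lit 5) (nat_lit 18) (nat_lit 4) (nat_lit 414) (nat_lit 364) (nat_lit 242)) (XT.lf (nat_lit 0) (nat_lit 215565273711) (nat_lit 152) (nat_lit 51404198149) (nat_lit 0) (nat_lit 79691422132) (nat_lit 16) (nat_lit 5) (nat_lit 18) (nat_lit 4) (nat_lit 16) (nat_lit 4) (nat_lit 415) (nat_lit 364) (nat_lit 241)))) (XT.nd (nat_lit 156) (nat_lit 76) (nat_lit 0) (XT.nd (nat_lit 78) (nat_lit 76) (nat_lit 0) (XT.lf (nat_lit 0) (nat_lit 140921219505) (nat_lit 76) (nat_lit 182140510514) (nat_lit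 76) (nat_lit 46265879618) (nat_lit 15) (nat_lit 4) (nat_lit 16) (nat_lit 5) (nat_lit 16) (nat_lit 4) (nat_lit 416) (nat_lit 364) (nat_lit 240)) (XT.lf (nat_lit 0) (nat_lit 44807711265) (nat_lit 152) (nat_lit 44019544391) (nat_lit 76) (nat_lit 304899556674) (nat_lit 14) (nat_lit 5) (nat_lit 16) (nat_lit 5) (nat_lit 15) (nat_lit 4) (nat_lit 417) (nat_lit 364) (nat_lit 239))) (XT.nd (nat_lit 78) (nat_lit 0) (nat_lit 0) (XT.lf (nat_lit 0) (nat_lit 144296330349) (nat_lit 152) (nat_lit 260715598113) (nat_lit 0) (nat_lit 14890596422) (nat_lit 13) (nat_lit 5) (nat_lit 15) (nat_lit 4) (nat_lit 13) (nat_lit 4) (nat_lit 418) (nat_lit 364) (nat_lit 238)) (XT.lf (nat_lit 0) (nat_lit 254020163520) (nat_lit 152) (nat_lit 69424484380) (nat_lit 0) (nat_lit 124613840406) (nat_lit 13) (nat_lit 5) (nat_lit 15) (nat_lit 4) (nat_lit 13) (nat_lit 4) (nat_lit 419) (nat_lit 364) (nat_lit 237))))))))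
noncomputable def xc88 : XT := (XT.nd (nat_lit 49686) (nat_lit 0) (nat_lit 1976) (XT.nd (nat_lit 936) (nat_lit 0) (nat_lit 0) (XT.nd (nat_lit 468) (nat_lit 228) (nat_lit 0) (XT.nd (nat_lit 234) (nat_lit 76) (nat_lit 0) (XT.nd (nat_lit 78) (nat_lit 152) (nat_lit 0) (XT.lf (nat_lit 0) (nat_lit 141703453986) (nat_lit 76) (nat_lit 233029885865) (nat_lit 76) (nat_lit 103623017207) (nat_lit 12) (nat_lit 4) (nat_lit 13) (nat_lit 5) (nat_lit 13) (nat_lit 4) (nat_lit 420) (nat_lit 364) (nat_lit 236)) (XT.nd (nat_lit 78) (nat_lit 152) (nat_lit 0) (XT.lf (nat_lit 0) (nat_lit 372198974247) (nat_lit 76) (nat_lit 134113016945) (nat_lit 76) (nat_lit 4705643154) (nat_lit 12) (nat_lit 4) (nat_lit 13) (nat_lit 5) (nat_lit 13) (nat_lit 4) (nat_lit 421) (nat_lit 364) (nat_lit 235)) (XT.lf (nat_lit 0) (nat_lit 75668037030) (nat_lit 76) (nat_lit 24368976889) (nat_lit 152) (nat_lit 446116050260) (nat_lit 10) (nat_lit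 5) (nat_lit 11) (nat_lit 5) (nat_lit 12) (nat_lit 4) (nat_lit 422) (nat_lit 364) (nat_lit 234)))) (XT.nd (nat_lit 78) (nat_lit 76) (nat_lit 0) (XT.lf (nat_lit 0) (nat_lit 216923385451) (nat_lit 152) (nat_lit 273298218028) (nat_lit 0) (nat_lit 93677409664) (nat_lit 10) (nat_lit 5) (nat_lit 12) (nat_lit 4) (nat_lit 10) (nat_lit 4) (nat_lit 423) (nat_lit 364) (nat_lit 233)) (XT.nd (nat_lit 78) (nat_lit 76) (nat_lit 0) (XT.lf (nat_lit 0) (nat_lit 343570804296) (nat_lit 152) (nat_lit 60748880295) (nat_lit 0) (nat_lit 220324446613) (nat_lit 10) (nat_lit 5) (nat_lit 12) (nat_lit 4) (nat_lit 10) (nat_lit 4) (nat_lit 424) (nat_lit 364) (nat_lit 232)) (XT.lf (nat_lit 0) (nat_lit 174384395408) (nat_lit 76) (nat_lit 308687539370) (nat_lit 76) (nat_lit 185440828079) (nat_lit 9) (nat_lit 4) (nat_lit 10) (nat_lit 5) (nat_lit 10) (nat_lit 4) (nat_lit 425) (nat_lit 364) (nat_lit 231))))) (XT.nd (nat_lit 234)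 (nat_lit 76) (nat_lit 0) (XT.nd (nat_lit 78) (nat_lit 152) (nat_lit 0) (XT.lf (nat_lit 0) (nat_lit 430496318122) (nat_lit 76) (nat_lit 204294364661) (nat_lit 76) (nat_lit 81047325956) (nat_lit 9) (nat_lit 4) (nat_lit 10) (nat_lit 5) (nat_lit 10) (nat_lit 4) (nat_lit 426) (nat_lit 364) (nat_lit 230)) (XT.nd (nat_lit 78) (nat_lit 76) (nat_lit 0) (XT.lf (nat_lit 0) (nat_lit 30682494118) (nat_lit 152) (nat_lit 60348228923) (nat_lit 76) (nat_lit 675893838795) (nat_lit 8) (nat_lit 5) (nat_lit 10) (nat_lit 5) (nat_lit 9) (nat_lit 4) (nat_lit 427) (nat_lit 364) (nat_lit 229)) (XT.lf (nat_lit 0) (nat_lit 152031300328) (nat_lit 152) (nat_lit 635171689293) (nat_lit 0) (nat_lit 34652612165) (nat_lit 7) (nat_lit 5) (nat_lit 9) (nat_lit 4) (nat_lit 7) (nat_lit 4) (nat_lit 428) (nat_lit 364) (nat_lit 228)))) (XT.nd (nat_lit 78) (nat_lit 76) (nat_lit 0) (XT.lf (nat_lit 0) (nat_lit 285690841677) (nat_lit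 152) (nat_lit 427048235784) (nat_lit 0) (nat_lit 168311905978) (nat_lit 7) (nat_lit 5) (nat_lit 9) (nat_lit 4) (nat_lit 7) (nat_lit 4) (nat_lit 429) (nat_lit 364) (nat_lit 227)) (XT.nd (nat_lit 78) (nat_lit 76) (nat_lit 0) (XT.lf (nat_lit 0) (nat_lit 430042614776) (nat_lit 152) (nat_lit 202275957582) (nat_lit 0) (nat_lit 312663449878) (nat_lit 7) (nat_lit 5) (nat_lit 9) (nat_lit 4) (nat_lit 7) (nat_lit 4) (nat_lit 430) (nat_lit 364) (nat_lit 226)) (XT.lf (nat_lit 0) (nat_lit 41815485873) (nat_lit 76) (nat_lit 544779408590) (nat_lit 76) (nat_lit 427400031470) (nat_lit 6) (nat_lit 4) (nat_lit 7) (nat_lit 5) (nat_lit 7) (nat_lit 4) (nat_lit 431) (nat_lit 364) (nat_lit 225)))))) (XT.nd (nat_lit 48282) (nat_lit 0) (nat_lit 6764) (XT.nd (nat_lit 48048) (nat_lit 0) (nat_lit 7980) (XT.nd (nat_lit 47892) (nat_lit 0) (nat_lit 7904) (XT.lf (nat_lit 0) (nat_lit 312656522623) (nat_lit 76) (nat_lit 446537880317)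 (nat_lit 76) (nat_lit 329158306695) (nat_lit 6) (nat_lit 4) (nat_lit 7) (nat_lit 5) (nat_lit 7) (nat_lit 4) (nat_lit 432) (nat_lit 364) (nat_lit 224)) (XT.nd (nat_lit 78) (nat_lit 0) (nat_lit 76) (XT.lf (nat_lit 0) (nat_lit 2587443071) (nat_lit 836) (nat_lit 5687991821) (nat_lit 836) (nat_lit 5687991821) (nat_lit 110) (nat_lit 3) (nat_lit 121) (nat_lit 3) (nat_lit 121) (nat_lit 5) (nat_lit 365) (nat_lit 365) (nat_lit 290)) (XT.lf (nat_lit 0) (nat_lit 5749532478) (nat_lit 760) (nat_lit 18615915387) (nat_lit 836) (nat_lit 4660006250) (nat_lit 111) (nat_lit 5) (nat_lit 121) (nat_lit 5) (nat_lit 122) (nat_lit 5) (nat_lit 366) (nat_lit 365) (nat_lit 289)))) (XT.nd (nat_lit 78) (nat_lit 0) (nat_lit 76) (XT.lf (nat_lit 76) (nat_lit 3979397646) (nat_lit 0) (nat_lit 2920475982) (nat_lit 836) (nat_lit 23285592169) (nat_lit 112) (nat_lit 5) (nat_lit 111) (nat_lit 5) (nat_lit 122) (nat_lit 5) (nat_lit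 367) (nat_lit 365) (nat_lit 288)) (XT.nd (nat_lit 78) (nat_lit 0) (nat_lit 76) (XT.lf (nat_lit 0) (nat_lit 8775856882) (nat_lit 760) (nat_lit 2704370750) (nat_lit 836) (nat_lit 19926378461) (nat_lit 112) (nat_lit 5) (nat_lit 122) (nat_lit 5) (nat_lit 123) (nat_lit 5) (nat_lit 368) (nat_lit 365) (nat_lit 287)) (XT.lf (nat_lit 0) (nat_lit 11394828668) (nat_lit 760) (nat_lit 9526534823) (nat_lit 836) (nat_lit 11774436428) (nat_lit 113) (nat_lit 5) (nat_lit 123) (nat_lit 5) (nat_lit 124) (nat_lit 5) (nat_lit 369) (nat_lit 365) (nat_lit 286))))) (XT.nd (nat_lit 234) (nat_lit 760) (nat_lit 0) (XT.nd (nat_lit 78) (nat_lit 684) (nat_lit 0) (XT.lf (nat_lit 0) (nat_lit 14770360664) (nat_lit 760) (nat_lit 16624926024) (nat_lit 836) (nat_lit 2665497656) (nat_lit 114) (nat_lit 5) (nat_lit 124) (nat_lit 5) (nat_lit 125) (nat_lit 5) (nat_lit 370) (nat_lit 365) (nat_lit 285)) (XT.nd (nat_lit 78) (nat_lit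 684) (nat_lit 0) (XT.lf (nat_lit 76) (nat_lit 11369223753) (nat_lit 0) (nat_lit 7736006281) (nat_lit 836) (nat_lit 16395279437) (nat_lit 115) (nat_lit 5) (nat_lit 114) (nat_lit 5) (nat_lit 125) (nat_lit 5) (nat_lit 371) (nat_lit 365) (nat_lit 284)) (XT.lf (nat_lit 0) (nat_lit 5025517149) (nat_lit 760) (nat_lit 19403304773) (nat_lit 836) (nat_lit 12594500226) (nat_lit 105) (nat_lit 5) (nat_lit 115) (nat_lit 5) (nat_lit 116) (nat_lit 5) (nat_lit 372) (nat_lit 365) (nat_lit 283)))) (XT.nd (nat_lit 78) (nat_lit 760) (nat_lit 0) (XT.lf (nat_lit 0) (nat_lit 30820236722) (nat_lit 836) (nat_lit 1508571610) (nat_lit 76) (nat_lit 6307060460) (nat_lit 105) (nat_lit 5) (nat_lit 116) (nat_lit 5) (nat_lit 106) (nat_lit 5) (nat_lit 373) (nat_lit 365) (nat_lit 282)) (XT.nd (nat_lit 78) (nat_lit 380) (nat_lit 0) (XT.lf (nat_lit 0) (nat_lit 32112882628) (nat_lit 380) (nat_lit 6430786739) (nat_lit 456) (nat_lit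 1792719874) (nat_lit 100) (nat_lit 5) (nat_lit 105) (nat_lit 5) (nat_lit 106) (nat_lit 5) (nat_lit 374) (nat_lit 365) (nat_lit 281)) (XT.lf (nat_lit 0) (nat_lit 5348264489) (nat_lit 380) (nat_lit 15400113284) (nat_lit 76) (nat_lit 21381547167) (nat_lit 95) (nat_lit 5) (nat_lit 100) (nat_lit 5) (nat_lit 96) (nat_lit 5) (nat_lit 375) (nat_lit 365) (nat_lit 280))))))) (XT.nd (nat_lit 936) (nat_lit 1748) (nat_lit 0) (XT.nd (nat_lit 468) (nat_lit 1444) (nat_lit 0) (XT.nd (nat_lit 234) (nat_lit 608) (nat_lit 0) (XT.nd (nat_lit 78) (nat_lit 608) (nat_lit 0) (XT.lf (nat_lit 0) (nat_lit 13696933192) (nat_lit 456) (nat_lit 22911499671) (nat_lit 76) (nat_lit 7422084833) (nat_lit 90) (nat_lit 5) (nat_lit 96) (nat_lit 5) (nat_lit 91) (nat_lit 5) (nat_lit 376) (nat_lit 365) (nat_lit 279)) (XT.nd (nat_lit 78) (nat_lit 304) (nat_lit 0) (XT.lf (nat_lit 0) (nat_lit 15163427240) (nat_lit 304) (nat_lit 8402669478)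 (nat_lit 380) (nat_lit 22474435099) (nat_lit 86) (nat_lit 5) (nat_lit 90) (nat_lit 5) (nat_lit 91) (nat_lit 5) (nat_lit 377) (nat_lit 365) (nat_lit 278)) (XT.lf (nat_lit 0) (nat_lit 8835465911) (nat_lit 304) (nat_lit 26271042540) (nat_lit 380) (nat_lit 13060756578) (nat_lit 82) (nat_lit 5) (nat_lit 86) (nat_lit 5) (nat_lit 87) (nat_lit 5) (nat_lit 378) (nat_lit 365) (nat_lit 277)))) (XT.nd (nat_lit 78) (nat_lit 380) (nat_lit 0) (XT.lf (nat_lit 0) (nat_lit 2246234520) (nat_lit 228) (nat_lit 46099518039) (nat_lit 304) (nat_lit 2079607806) (nat_lit 79) (nat_lit 5) (nat_lit 82) (nat_lit 5) (nat_lit 83) (nat_lit 5) (nat_lit 379) (nat_lit 365) (nat_lit 276)) (XT.nd (nat_lit 78) (nat_lit 304) (nat_lit 0) (XT.lf (nat_lit 0) (nat_lit 10600635246) (nat_lit 304) (nat_lit 4889025976) (nat_lit 76) (nat_lit 37310129228) (nat_lit 78) (nat_lit 5) (nat_lit 82) (nat_lit 5) (nat_lit 79) (nat_lit 5) (nat_lit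 380) (nat_lit 365) (nat_lit 275)) (XT.lf (nat_lit 0) (nat_lit 25178583346) (nat_lit 380) (nat_lit 12409589045) (nat_lit 76) (nat_lit 17726493514) (nat_lit 74) (nat_lit 5) (nat_lit 79) (nat_lit 5) (nat_lit 75) (nat_lit 5) (nat_lit 381) (nat_lit 365) (nat_lit 274))))) (XT.nd (nat_lit 234) (nat_lit 684) (nat_lit 0) (XT.nd (nat_lit 78) (nat_lit 532) (nat_lit 0) (XT.lf (nat_lit 0) (nat_lit 37605132457) (nat_lit 228) (nat_lit 4247472439) (nat_lit 304) (nat_lit 16131637223) (nat_lit 71) (nat_lit 5) (nat_lit 74) (nat_lit 5) (nat_lit 75) (nat_lit 5) (nat_lit 382) (nat_lit 365) (nat_lit 273)) (XT.nd (nat_lit 78) (nat_lit 228) (nat_lit 0) (XT.lf (nat_lit 0) (nat_lit 251142651) (nat_lit 304) (nat_lit 29094451605) (nat_lit 76) (nat_lit 31461290751) (nat_lit 67) (nat_lit 5) (nat_lit 71) (nat_lit 5) (nat_lit 68) (nat_lit 5) (nat_lit 383) (nat_lit 365) (nat_lit 272)) (XT.lf (nat_lit 0) (nat_lit 18320945506)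 (nat_lit 304) (nat_lit 38595768174) (nat_lit 76) (nat_lit 6878326386) (nat_lit 64) (nat_lit 5) (nat_lit 68) (nat_lit 5) (nat_lit 65) (nat_lit 5) (nat_lit 384) (nat_lit 365) (nat_lit 271)))) (XT.nd (nat_lit 78) (nat_lit 456) (nat_lit 0) (XT.lf (nat_lit 0) (nat_lit 17943304319) (nat_lit 228) (nat_lit 21178721165) (nat_lit 304) (nat_lit 27835939368) (nat_lit 61) (nat_lit 5) (nat_lit 64) (nat_lit 5) (nat_lit 65) (nat_lit 5) (nat_lit 385) (nat_lit 365) (nat_lit 270)) (XT.nd (nat_lit 78) (nat_lit 304) (nat_lit 0) (XT.lf (nat_lit 0) (nat_lit 10076678477) (nat_lit 152) (nat_lit 52618933191) (nat_lit 228) (nat_lit 7622892782) (nat_lit 59) (nat_lit 5) (nat_lit 61) (nat_lit 5) (nat_lit 62) (nat_lit 5) (nat_lit 386) (nat_lit 365) (nat_lit 269)) (XT.lf (nat_lit 0) (nat_lit 1179073908) (nat_lit 228) (nat_lit 13812686126) (nat_lit 304) (nat_lit 58883074002) (nat_lit 55) (nat_lit 5) (nat_lit 58) (nat_lit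 5) (nat_lit 59) (nat_lit 5) (nat_lit 387) (nat_lit 365) (nat_lit 268)))))) (XT.nd (nat_lit 468) (nat_lit 836) (nat_lit 0) (XT.nd (nat_lit 234) (nat_lit 532) (nat_lit 0) (XT.nd (nat_lit 78) (nat_lit 380) (nat_lit 0) (XT.lf (nat_lit 0) (nat_lit 40653487866) (nat_lit 304) (nat_lit 8588826682) (nat_lit 76) (nat_lit 28391860063) (nat_lit 55) (nat_lit 5) (nat_lit 59) (nat_lit 5) (nat_lit 56) (nat_lit 5) (nat_lit 388) (nat_lit 365) (nat_lit 267)) (XT.nd (nat_lit 78) (nat_lit 228) (nat_lit 0) (XT.lf (nat_lit 0) (nat_lit 62405510079) (nat_lit 152) (nat_lit 7166297458) (nat_lit 228) (nat_lit 12062273592) (nat_lit 53) (nat_lit 5) (nat_lit 55) (nat_lit 5) (nat_lit 56) (nat_lit 5) (nat_lit 389) (nat_lit 365) (nat_lit 266)) (XT.lf (nat_lit 0) (nat_lit 15998925327) (nat_lit 228) (nat_lit 31551130487) (nat_lit 76) (nat_lit 38311103710) (nat_lit 50) (nat_lit 5) (nat_lit 53) (nat_lit 5) (nat_lit 51) (nat_lit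 5) (nat_lit 390) (nat_lit 365) (nat_lit 265)))) (XT.nd (nat_lit 78) (nat_lit 380) (nat_lit 0) (XT.lf (nat_lit 0) (nat_lit 45117655274) (nat_lit 152) (nat_lit 1932790811) (nat_lit 228) (nat_lit 43307670659) (nat_lit 48) (nat_lit 5) (nat_lit 50) (nat_lit 5) (nat_lit 51) (nat_lit 5) (nat_lit 391) (nat_lit 365) (nat_lit 264)) (XT.nd (nat_lit 78) (nat_lit 228) (nat_lit 0) (XT.lf (nat_lit 0) (nat_lit 34200611717) (nat_lit 152) (nat_lit 48213891492) (nat_lit 228) (nat_lit 12708907639) (nat_lit 46) (nat_lit 5) (nat_lit 48) (nat_lit 5) (nat_lit 49) (nat_lit 5) (nat_lit 392) (nat_lit 365) (nat_lit 263)) (XT.lf (nat_lit 0) (nat_lit 20869558866) (nat_lit 228) (nat_lit 78500294395) (nat_lit 76) (nat_lit 825062783) (nat_lit 43) (nat_lit 5) (nat_lit 46) (nat_lit 5) (nat_lit 44) (nat_lit 5) (nat_lit 393) (nat_lit 365) (nat_lit 262))))) (XT.nd (nat_lit 234) (nat_lit 532) (nat_lit 0) (XT.nd (nat_lit 78) (nat_lit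 152) (nat_lit 0) (XT.lf (nat_lit 0) (nat_lit 6640730679) (nat_lit 152) (nat_lit 52046602855) (nat_lit 228) (nat_lit 46874477382) (nat_lit 41) (nat_lit 5) (nat_lit 43) (nat_lit 5) (nat_lit 44) (nat_lit 5) (nat_lit 394) (nat_lit 365) (nat_lit 261)) (XT.nd (nat_lit 78) (nat_lit 152) (nat_lit 0) (XT.lf (nat_lit 0) (nat_lit 100902895138) (nat_lit 228) (nat_lit 9906135941) (nat_lit 76) (nat_lit 480408837) (nat_lit 41) (nat_lit 5) (nat_lit 44) (nat_lit 5) (nat_lit 42) (nat_lit 4) (nat_lit 395) (nat_lit 365) (nat_lit 260)) (XT.lf (nat_lit 0) (nat_lit 30380047387) (nat_lit 152) (nat_lit 29682877901) (nat_lit 76) (nat_lit 57275277151) (nat_lit 39) (nat_lit 5) (nat_lit 41) (nat_lit 5) (nat_lit 40) (nat_lit 5) (nat_lit 396) (nat_lit 365) (nat_lit 259)))) (XT.nd (nat_lit 156) (nat_lit 304) (nat_lit 0) (XT.nd (nat_lit 78) (nat_lit 76) (nat_lit 0) (XT.lf (nat_lit 0) (nat_lit 71623183692) (nat_lit 152) (nat_lit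 3716835964) (nat_lit 228) (nat_lit 48457536055) (nat_lit 37) (nat_lit 5) (nat_lit 39) (nat_lit 5) (nat_lit 40) (nat_lit 5) (nat_lit 397) (nat_lit 365) (nat_lit 258)) (XT.lf (nat_lit 0) (nat_lit 52108805914) (nat_lit 76) (nat_lit 74016698180) (nat_lit 152) (nat_lit 4536718026) (nat_lit 36) (nat_lit 5) (nat_lit 37) (nat_lit 5) (nat_lit 38) (nat_lit 4) (nat_lit 398) (nat_lit 365) (nat_lit 257))) (XT.nd (nat_lit 78) (nat_lit 76) (nat_lit 0) (XT.lf (nat_lit 0) (nat_lit 28735292201) (nat_lit 152) (nat_lit 14222157911) (nat_lit 228) (nat_lit 95013490485) (nat_lit 33) (nat_lit 5) (nat_lit 35) (nat_lit 5) (nat_lit 36) (nat_lit 5) (nat_lit 399) (nat_lit 365) (nat_lit 256)) (XT.lf (nat_lit 0) (nat_lit 751046554) (nat_lit 76) (nat_lit 95529702201) (nat_lit 152) (nat_lit 49470462583) (nat_lit 32) (nat_lit 5) (nat_lit 33) (nat_lit 5) (nat_lit 34) (nat_lit 4) (nat_lit 400) (nat_lit 365) (nat_lit 255))))))))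
noncomputable def xc89 : XT := (XT.nd (nat_lit 1872) (nat_lit 304) (nat_lit 0) (XT.nd (nat_lit 936) (nat_lit 684) (nat_lit 0) (XT.nd (nat_lit 468) (nat_lit 456) (nat_lit 0) (XT.nd (nat_lit 234) (nat_lit 228) (nat_lit 0) (XT.nd (nat_lit 78) (nat_lit 228) (nat_lit 0) (XT.lf (nat_lit 0) (nat_lit 1896699806) (nat_lit 152) (nat_lit 30891921521) (nat_lit 76) (nat_lit 121256924399) (nat_lit 31) (nat_lit 5) (nat_lit 33) (nat_lit 5) (nat_lit 32) (nat_lit 5) (nat_lit 401) (nat_lit 365) (nat_lit 254)) (XT.nd (nat_lit 78) (nat_lit 76) (nat_lit 0) (XT.lf (nat_lit 0) (nat_lit 57720921133) (nat_lit 228) (nat_lit 68939155619) (nat_lit 76) (nat_lit 36198756452) (nat_lit 29) (nat_lit 5) (nat_lit 32) (nat_lit 5) (nat_lit 30) (nat_lit 4) (nat_lit 402) (nat_lit 365) (nat_lit 253)) (XT.lf (nat_lit 0) (nat_lit 58785217947) (nat_lit 76) (nat_lit 61241497433) (nat_lit 152) (nat_lit 52249686907) (nat_lit 28) (nat_lit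 5) (nat_lit 29) (nat_lit 5) (nat_lit 30) (nat_lit 4) (nat_lit 403) (nat_lit 365) (nat_lit 252)))) (XT.nd (nat_lit 78) (nat_lit 76) (nat_lit 0) (XT.lf (nat_lit 0) (nat_lit 6374350982) (nat_lit 152) (nat_lit 165286740195) (nat_lit 76) (nat_lit 10699454030) (nat_lit 26) (nat_lit 5) (nat_lit 28) (nat_lit 5) (nat_lit 27) (nat_lit 4) (nat_lit 404) (nat_lit 365) (nat_lit 251)) (XT.nd (nat_lit 78) (nat_lit 76) (nat_lit 0) (XT.lf (nat_lit 0) (nat_lit 70922350019) (nat_lit 152) (nat_lit 32965387241) (nat_lit 76) (nat_lit 89167624357) (nat_lit 26) (nat_lit 5) (nat_lit 28) (nat_lit 5) (nat_lit 27) (nat_lit 4) (nat_lit 405) (nat_lit 365) (nat_lit 250)) (XT.lf (nat_lit 0) (nat_lit 113573528405) (nat_lit 76) (nat_lit 28832143190) (nat_lit 152) (nat_lit 62111517891) (nat_lit 25) (nat_lit 5) (nat_lit 26) (nat_lit 5) (nat_lit 27) (nat_lit 4) (nat_lit 406) (nat_lit 365) (nat_lit 249))))) (XT.nd (nat_lit 234)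 (nat_lit 228) (nat_lit 0) (XT.nd (nat_lit 78) (nat_lit 76) (nat_lit 0) (XT.lf (nat_lit 0) (nat_lit 4952068874) (nat_lit 152) (nat_lit 159714784222) (nat_lit 76) (nat_lit 52110635639) (nat_lit 23) (nat_lit 5) (nat_lit 25) (nat_lit 5) (nat_lit 24) (nat_lit 4) (nat_lit 407) (nat_lit 365) (nat_lit 248)) (XT.nd (nat_lit 78) (nat_lit 76) (nat_lit 0) (XT.lf (nat_lit 0) (nat_lit 77328451019) (nat_lit 152) (nat_lit 11344746961) (nat_lit 76) (nat_lit 141188313416) (nat_lit 23) (nat_lit 5) (nat_lit 25) (nat_lit 5) (nat_lit 24) (nat_lit 4) (nat_lit 408) (nat_lit 365) (nat_lit 247)) (XT.lf (nat_lit 0) (nat_lit 153815117469) (nat_lit 76) (nat_lit 4079819423) (nat_lit 152) (nat_lit 85977319531) (nat_lit 22) (nat_lit 5) (nat_lit 23) (nat_lit 5) (nat_lit 24) (nat_lit 4) (nat_lit 409) (nat_lit 365) (nat_lit 246)))) (XT.nd (nat_lit 78) (nat_lit 152) (nat_lit 0) (XT.lf (nat_lit 0) (nat_lit 74618475177) (nat_lit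 76) (nat_lit 173015385870) (nat_lit 76) (nat_lit 11233644228) (nat_lit 21) (nat_lit 4) (nat_lit 22) (nat_lit 5) (nat_lit 22) (nat_lit 4) (nat_lit 410) (nat_lit 365) (nat_lit 245)) (XT.nd (nat_lit 78) (nat_lit 76) (nat_lit 0) (XT.lf (nat_lit 0) (nat_lit 68927273509) (nat_lit 152) (nat_lit 20481999875) (nat_lit 76) (nat_lit 185515762153) (nat_lit 20) (nat_lit 5) (nat_lit 22) (nat_lit 5) (nat_lit 21) (nat_lit 4) (nat_lit 411) (nat_lit 365) (nat_lit 244)) (XT.lf (nat_lit 0) (nat_lit 157688932337) (nat_lit 152) (nat_lit 130831017052) (nat_lit 0) (nat_lit 3608939090) (nat_lit 19) (nat_lit 5) (nat_lit 21) (nat_lit 4) (nat_lit 19) (nat_lit 4) (nat_lit 412) (nat_lit 365) (nat_lit 243)))))) (XT.nd (nat_lit 468) (nat_lit 304) (nat_lit 0) (XT.nd (nat_lit 234) (nat_lit 152) (nat_lit 0) (XT.nd (nat_lit 78) (nat_lit 152) (nat_lit 0) (XT.lf (nat_lit 0) (nat_lit 47670204719) (nat_lit 76) (nat_lit 208494565237)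 (nat_lit 76) (nat_lit 54413617545) (nat_lit 18) (nat_lit 4) (nat_lit 19) (nat_lit 5) (nat_lit 19) (nat_lit 4) (nat_lit 413) (nat_lit 365) (nat_lit 242)) (XT.nd (nat_lit 78) (nat_lit 76) (nat_lit 0) (XT.lf (nat_lit 0) (nat_lit 33305288070) (nat_lit 152) (nat_lit 85805990892) (nat_lit 76) (nat_lit 211251818834) (nat_lit 17) (nat_lit 5) (nat_lit 19) (nat_lit 5) (nat_lit 18) (nat_lit 4) (nat_lit 414) (nat_lit 365) (nat_lit 241)) (XT.lf (nat_lit 0) (nat_lit 108001406959) (nat_lit 76) (nat_lit 19844474346) (nat_lit 152) (nat_lit 223754574239) (nat_lit 16) (nat_lit 5) (nat_lit 17) (nat_lit 5) (nat_lit 18) (nat_lit 4) (nat_lit 415) (nat_lit 365) (nat_lit 240)))) (XT.nd (nat_lit 78) (nat_lit 152) (nat_lit 0) (XT.lf (nat_lit 0) (nat_lit 232831809359) (nat_lit 152) (nat_lit 55475181211) (nat_lit 0) (nat_lit 86085707086) (nat_lit 16) (nat_lit 5) (nat_lit 18) (nat_lit 4) (nat_lit 16) (nat_lit 4) (nat_lit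 416) (nat_lit 365) (nat_lit 239)) (XT.nd (nat_lit 78) (nat_lit 76) (nat_lit 0) (XT.lf (nat_lit 0) (nat_lit 152234472712) (nat_lit 76) (nat_lit 196692548237) (nat_lit 76) (nat_lit 49945777826) (nat_lit 15) (nat_lit 4) (nat_lit 16) (nat_lit 5) (nat_lit 16) (nat_lit 4) (nat_lit 417) (nat_lit 365) (nat_lit 238)) (XT.lf (nat_lit 0) (nat_lit 48411483832) (nat_lit 152) (nat_lit 47503847201) (nat_lit 76) (nat_lit 329308666730) (nat_lit 14) (nat_lit 5) (nat_lit 16) (nat_lit 5) (nat_lit 15) (nat_lit 4) (nat_lit 418) (nat_lit 365) (nat_lit 237))))) (XT.nd (nat_lit 234) (nat_lit 152) (nat_lit 0) (XT.nd (nat_lit 78) (nat_lit 76) (nat_lit 0) (XT.lf (nat_lit 0) (nat_lit 155858600822) (nat_lit 152) (nat_lit 281536559085) (nat_lit 0) (nat_lit 16098637128) (nat_lit 13) (nat_lit 5) (nat_lit 15) (nat_lit 4) (nat_lit 13) (nat_lit 4) (nat_lit 419) (nat_lit 365) (nat_lit 236)) (XT.nd (nat_lit 78) (nat_lit 76) (nat_lit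 0) (XT.lf (nat_lit 0) (nat_lit 274358965532) (nat_lit 152) (nat_lit 74944844169) (nat_lit 0) (nat_lit 134598496705) (nat_lit 13) (nat_lit 5) (nat_lit 15) (nat_lit 4) (nat_lit 13) (nat_lit 4) (nat_lit 420) (nat_lit 365) (nat_lit 235)) (XT.lf (nat_lit 0) (nat_lit 153071869096) (nat_lit 76) (nat_lit 251656555397) (nat_lit 76) (nat_lit 111895618854) (nat_lit 12) (nat_lit 4) (nat_lit 13) (nat_lit 5) (nat_lit 13) (nat_lit 4) (nat_lit 421) (nat_lit 365) (nat_lit 234)))) (XT.nd (nat_lit 78) (nat_lit 152) (nat_lit 0) (XT.lf (nat_lit 0) (nat_lit 402004650327) (nat_lit 76) (nat_lit 144827501506) (nat_lit 76) (nat_lit 5066131893) (nat_lit 12) (nat_lit 4) (nat_lit 13) (nat_lit 5) (nat_lit 13) (nat_lit 4) (nat_lit 422) (nat_lit 365) (nat_lit 233)) (XT.nd (nat_lit 78) (nat_lit 0) (nat_lit 0) (XT.lf (nat_lit 0) (nat_lit 81750434768) (nat_lit 76) (nat_lit 26304299559) (nat_lit 152) (nat_lit 481789835875)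 (nat_lit 10) (nat_lit 5) (nat_lit 11) (nat_lit 5) (nat_lit 12) (nat_lit 4) (nat_lit 423) (nat_lit 365) (nat_lit 232)) (XT.lf (nat_lit 0) (nat_lit 234291127514) (nat_lit 152) (nat_lit 295134786345) (nat_lit 0) (nat_lit 101184325713) (nat_lit 10) (nat_lit 5) (nat_lit 12) (nat_lit 4) (nat_lit 10) (nat_lit 4) (nat_lit 424) (nat_lit 365) (nat_lit 231))))))) (XT.nd (nat_lit 48828) (nat_lit 0) (nat_lit 5168) (XT.nd (nat_lit 468) (nat_lit 76) (nat_lit 0) (XT.nd (nat_lit 234) (nat_lit 152) (nat_lit 0) (XT.nd (nat_lit 78) (nat_lit 76) (nat_lit 0) (XT.lf (nat_lit 0) (nat_lit 371069312368) (nat_lit 152) (nat_lit 65583523010) (nat_lit 0) (nat_lit 237962183152) (nat_lit 10) (nat_lit 5) (nat_lit 12) (nat_lit 4) (nat_lit 10) (nat_lit 4) (nat_lit 425) (nat_lit 365) (nat_lit 230)) (XT.nd (nat_lit 78) (nat_lit 0) (nat_lit 0) (XT.lf (nat_lit 0) (nat_lit 188359316645) (nat_lit 76) (nat_lit 333370642611) (nat_lit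 76) (nat_lit 200263210234) (nat_lit 9) (nat_lit 4) (nat_lit 10) (nat_lit 5) (nat_lit 10) (nat_lit 4) (nat_lit 426) (nat_lit 365) (nat_lit 229)) (XT.lf (nat_lit 0) (nat_lit 464958402836) (nat_lit 76) (nat_lit 220626895400) (nat_lit 76) (nat_lit 87519182318) (nat_lit 9) (nat_lit 4) (nat_lit 10) (nat_lit 5) (nat_lit 10) (nat_lit 4) (nat_lit 427) (nat_lit 365) (nat_lit 228)))) (XT.nd (nat_lit 78) (nat_lit 76) (nat_lit 0) (XT.lf (nat_lit 0) (nat_lit 33147786137) (nat_lit 152) (nat_lit 65155011411) (nat_lit 76) (nat_lit 729975193867) (nat_lit 8) (nat_lit 5) (nat_lit 10) (nat_lit 5) (nat_lit 9) (nat_lit 4) (nat_lit 428) (nat_lit 365) (nat_lit 227)) (XT.nd (nat_lit 78) (nat_lit 0) (nat_lit 0) (XT.lf (nat_lit 0) (nat_lit 164204174825) (nat_lit 152) (nat_lit 685964908356) (nat_lit 0) (nat_lit 37434447536) (nat_lit 7) (nat_lit 5) (nat_lit 9) (nat_lit 4) (nat_lit 7) (nat_lit 4) (nat_lit 429) (nat_lit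 365) (nat_lit 226)) (XT.lf (nat_lit 0) (nat_lit 308555711298) (nat_lit 152) (nat_lit 461193098276) (nat_lit 0) (nat_lit 181785771788) (nat_lit 7) (nat_lit 5) (nat_lit 9) (nat_lit 4) (nat_lit 7) (nat_lit 4) (nat_lit 430) (nat_lit 365) (nat_lit 225))))) (XT.nd (nat_lit 48126) (nat_lit 0) (nat_lit 7980) (XT.nd (nat_lit 78) (nat_lit 76) (nat_lit 0) (XT.lf (nat_lit 0) (nat_lit 464454914965) (nat_lit 152) (nat_lit 218440444957) (nat_lit 0) (nat_lit 337684778953) (nat_lit 7) (nat_lit 5) (nat_lit 9) (nat_lit 4) (nat_lit 7) (nat_lit 4) (nat_lit 431) (nat_lit 365) (nat_lit 224)) (XT.nd (nat_lit 47970) (nat_lit 0) (nat_lit 7904) (XT.lf (nat_lit 0) (nat_lit 45177549568) (nat_lit 76) (nat_lit 588353431548) (nat_lit 76) (nat_lit 461583113590) (nat_lit 6) (nat_lit 4) (nat_lit 7) (nat_lit 5) (nat_lit 7) (nat_lit 4) (nat_lit 432) (nat_lit 365) (nat_lit 223)) (XT.lf (nat_lit 0) (nat_lit 2920077703) (nat_lit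 836) (nat_lit 6077026234) (nat_lit 836) (nat_lit 6077026234) (nat_lit 110) (nat_lit 3) (nat_lit 121) (nat_lit 3) (nat_lit 121) (nat_lit 5) (nat_lit 366) (nat_lit 366) (nat_lit 288)))) (XT.nd (nat_lit 78) (nat_lit 0) (nat_lit 0) (XT.lf (nat_lit 0) (nat_lit 6442439847) (nat_lit 760) (nat_lit 19965327754) (nat_lit 836) (nat_lit 4927911311) (nat_lit 111) (nat_lit 5) (nat_lit 121) (nat_lit 5) (nat_lit 122) (nat_lit 5) (nat_lit 367) (nat_lit 366) (nat_lit 287)) (XT.nd (nat_lit 78) (nat_lit 0) (nat_lit 76) (XT.lf (nat_lit 76) (nat_lit 4431532139) (nat_lit 0) (nat_lit 3238109703) (nat_lit 836) (nat_lit 24919620177) (nat_lit 112) (nat_lit 5) (nat_lit 111) (nat_lit 5) (nat_lit 122) (nat_lit 5) (nat_lit 368) (nat_lit 366) (nat_lit 286)) (XT.lf (nat_lit 0) (nat_lit 9678357763) (nat_lit 760) (nat_lit 2785410105) (nat_lit 836) (nat_lit 21445204240) (nat_lit 112) (nat_lit 5) (nat_lit 122) (nat_lit 5) (nat_lit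 123) (nat_lit 5) (nat_lit 369) (nat_lit 366) (nat_lit 285)))))) (XT.nd (nat_lit 468) (nat_lit 1976) (nat_lit 0) (XT.nd (nat_lit 234) (nat_lit 988) (nat_lit 0) (XT.nd (nat_lit 78) (nat_lit 0) (nat_lit 76) (XT.lf (nat_lit 0) (nat_lit 12493112919) (nat_lit 760) (nat_lit 10148808693) (nat_lit 836) (nat_lit 12660076979) (nat_lit 113) (nat_lit 5) (nat_lit 123) (nat_lit 5) (nat_lit 124) (nat_lit 5) (nat_lit 370) (nat_lit 366) (nat_lit 284)) (XT.nd (nat_lit 78) (nat_lit 0) (nat_lit 0) (XT.lf (nat_lit 0) (nat_lit 16126303516) (nat_lit 760) (nat_lit 17811637217) (nat_lit 836) (nat_lit 2838869899) (nat_lit 114) (nat_lit 5) (nat_lit 124) (nat_lit 5) (nat_lit 125) (nat_lit 5) (nat_lit 371) (nat_lit 366) (nat_lit 283)) (XT.lf (nat_lit 76) (nat_lit 12415817643) (nat_lit 0) (nat_lit 8381372472) (nat_lit 836) (nat_lit 17535071213) (nat_lit 115) (nat_lit 5) (nat_lit 114) (nat_lit 5) (nat_lit 125) (nat_lit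 5) (nat_lit 372) (nat_lit 366) (nat_lit 282)))) (XT.nd (nat_lit 78) (nat_lit 380) (nat_lit 0) (XT.lf (nat_lit 0) (nat_lit 5566982444) (nat_lit 760) (nat_lit 20969366625) (nat_lit 836) (nat_lit 13441074247) (nat_lit 105) (nat_lit 5) (nat_lit 115) (nat_lit 5) (nat_lit 116) (nat_lit 5) (nat_lit 373) (nat_lit 366) (nat_lit 281)) (XT.nd (nat_lit 78) (nat_lit 380) (nat_lit 0) (XT.lf (nat_lit 0) (nat_lit 33427527860) (nat_lit 836) (nat_lit 1492772206) (nat_lit 76) (nat_lit 6799258755) (nat_lit 105) (nat_lit 5) (nat_lit 116) (nat_lit 5) (nat_lit 106) (nat_lit 5) (nat_lit 374) (nat_lit 366) (nat_lit 280)) (XT.lf (nat_lit 0) (nat_lit 34812466894) (nat_lit 380) (nat_lit 6947912295) (nat_lit 456) (nat_lit 1796171616) (nat_lit 100) (nat_lit 5) (nat_lit 105) (nat_lit 5) (nat_lit 106) (nat_lit 5) (nat_lit 375) (nat_lit 366) (nat_lit 279))))) (XT.nd (nat_lit 234) (nat_lit 912) (nat_lit 0) (XT.nd (nat_lit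 78) (nat_lit 684) (nat_lit 0) (XT.lf (nat_lit 0) (nat_lit 5903621360) (nat_lit 380) (nat_lit 16496452523) (nat_lit 76) (nat_lit 23093791992) (nat_lit 95) (nat_lit 5) (nat_lit 100) (nat_lit 5) (nat_lit 96) (nat_lit 5) (nat_lit 376) (nat_lit 366) (nat_lit 278)) (XT.nd (nat_lit 78) (nat_lit 304) (nat_lit 0) (XT.lf (nat_lit 0) (nat_lit 14912916948) (nat_lit 456) (nat_lit 24608720887) (nat_lit 76) (nat_lit 8025237346) (nat_lit 90) (nat_lit 5) (nat_lit 96) (nat_lit 5) (nat_lit 91) (nat_lit 5) (nat_lit 377) (nat_lit 366) (nat_lit 277)) (XT.lf (nat_lit 0) (nat_lit 16506302875) (nat_lit 304) (nat_lit 9058431387) (nat_lit 380) (nat_lit 24153305504) (nat_lit 86) (nat_lit 5) (nat_lit 90) (nat_lit 5) (nat_lit 91) (nat_lit 5) (nat_lit 378) (nat_lit 366) (nat_lit 276)))) (XT.nd (nat_lit 156) (nat_lit 380) (nat_lit 0) (XT.nd (nat_lit 78) (nat_lit 228) (nat_lit 0) (XT.lf (nat_lit 0) (nat_lit 9671703312) (nat_lit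 304) (nat_lit 28350537468) (nat_lit 380) (nat_lit 13992982733) (nat_lit 82) (nat_lit 5) (nat_lit 86) (nat_lit 5) (nat_lit 87) (nat_lit 5) (nat_lit 379) (nat_lit 366) (nat_lit 275)) (XT.lf (nat_lit 0) (nat_lit 2554565523) (nat_lit 228) (nat_lit 49760446363) (nat_lit 304) (nat_lit 2139239819) (nat_lit 79) (nat_lit 5) (nat_lit 82) (nat_lit 5) (nat_lit 83) (nat_lit 5) (nat_lit 380) (nat_lit 366) (nat_lit 274))) (XT.nd (nat_lit 78) (nat_lit 304) (nat_lit 0) (XT.lf (nat_lit 0) (nat_lit 11544353078) (nat_lit 304) (nat_lit 5157830208) (nat_lit 76) (nat_lit 40316756314) (nat_lit 78) (nat_lit 5) (nat_lit 82) (nat_lit 5) (nat_lit 79) (nat_lit 5) (nat_lit 381) (nat_lit 366) (nat_lit 273)) (XT.lf (nat_lit 0) (nat_lit 27283692530) (nat_lit 380) (nat_lit 13281201984) (nat_lit 76) (nat_lit 19170356562) (nat_lit 74) (nat_lit 5) (nat_lit 79) (nat_lit 5) (nat_lit 75) (nat_lit 5) (nat_lit 382) (nat_lit 366)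 (nat_lit 272))))))))
noncomputable def xc90 : XT := (XT.nd (nat_lit 1872) (nat_lit 1444) (nat_lit 0) (XT.nd (nat_lit 936) (nat_lit 1292) (nat_lit 0) (XT.nd (nat_lit 468) (nat_lit 912) (nat_lit 0) (XT.nd (nat_lit 234) (nat_lit 684) (nat_lit 0) (XT.nd (nat_lit 78) (nat_lit 532) (nat_lit 0) (XT.lf (nat_lit 0) (nat_lit 40729432026) (nat_lit 228) (nat_lit 4557285536) (nat_lit 304) (nat_lit 17331925216) (nat_lit 71) (nat_lit 5) (nat_lit 74) (nat_lit 5) (nat_lit 75) (nat_lit 5) (nat_lit 383) (nat_lit 366) (nat_lit 271)) (XT.nd (nat_lit 78) (nat_lit 228) (nat_lit 0) (XT.lf (nat_lit 0) (nat_lit 354376412) (nat_lit 304) (nat_lit 31304665380) (nat_lit 76) (nat_lit 34008198541) (nat_lit 67) (nat_lit 5) (nat_lit 71) (nat_lit 5) (nat_lit 68) (nat_lit 5) (nat_lit 384) (nat_lit 366) (nat_lit 270)) (XT.lf (nat_lit 0) (nat_lit 19865880361) (nat_lit 304) (nat_lit 41567737644) (nat_lit 76) (nat_lit 7461026789)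 (nat_lit 64) (nat_lit 5) (nat_lit 68) (nat_lit 5) (nat_lit 65) (nat_lit 5) (nat_lit 385) (nat_lit 366) (nat_lit 269)))) (XT.nd (nat_lit 78) (nat_lit 456) (nat_lit 0) (XT.lf (nat_lit 0) (nat_lit 19489432816) (nat_lit 228) (nat_lit 22837470646) (nat_lit 304) (nat_lit 29983909896) (nat_lit 61) (nat_lit 5) (nat_lit 64) (nat_lit 5) (nat_lit 65) (nat_lit 5) (nat_lit 386) (nat_lit 366) (nat_lit 268)) (XT.nd (nat_lit 78) (nat_lit 304) (nat_lit 0) (XT.lf (nat_lit 0) (nat_lit 10991760721) (nat_lit 152) (nat_lit 56791266555) (nat_lit 228) (nat_lit 8157338747) (nat_lit 59) (nat_lit 5) (nat_lit 61) (nat_lit 5) (nat_lit 62) (nat_lit 5) (nat_lit 387) (nat_lit 366) (nat_lit 267)) (XT.lf (nat_lit 0) (nat_lit 1379948728) (nat_lit 228) (nat_lit 14880382906) (nat_lit 304) (nat_lit 63521000734) (nat_lit 55) (nat_lit 5) (nat_lit 58) (nat_lit 5) (nat_lit 59) (nat_lit 5) (nat_lit 388) (nat_lit 366) (nat_lit 266)))))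 (XT.nd (nat_lit 234) (nat_lit 532) (nat_lit 0) (XT.nd (nat_lit 78) (nat_lit 380) (nat_lit 0) (XT.lf (nat_lit 0) (nat_lit 43970408968) (nat_lit 304) (nat_lit 9174585911) (nat_lit 76) (nat_lit 30696656735) (nat_lit 55) (nat_lit 5) (nat_lit 59) (nat_lit 5) (nat_lit 56) (nat_lit 5) (nat_lit 389) (nat_lit 366) (nat_lit 265)) (XT.nd (nat_lit 78) (nat_lit 228) (nat_lit 0) (XT.lf (nat_lit 0) (nat_lit 67494893378) (nat_lit 152) (nat_lit 7704026076) (nat_lit 228) (nat_lit 12962796779) (nat_lit 53) (nat_lit 5) (nat_lit 55) (nat_lit 5) (nat_lit 56) (nat_lit 5) (nat_lit 390) (nat_lit 366) (nat_lit 264)) (XT.lf (nat_lit 0) (nat_lit 17338645786) (nat_lit 228) (nat_lit 33978067916) (nat_lit 76) (nat_lit 41410327962) (nat_lit 50) (nat_lit 5) (nat_lit 53) (nat_lit 5) (nat_lit 51) (nat_lit 5) (nat_lit 391) (nat_lit 366) (nat_lit 263)))) (XT.nd (nat_lit 78) (nat_lit 380) (nat_lit 0) (XT.lf (nat_lit 0) (nat_lit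 48819998554) (nat_lit 152) (nat_lit 2051310456) (nat_lit 228) (nat_lit 46712596915) (nat_lit 48) (nat_lit 5) (nat_lit 50) (nat_lit 5) (nat_lit 51) (nat_lit 5) (nat_lit 392) (nat_lit 366) (nat_lit 262)) (XT.nd (nat_lit 78) (nat_lit 228) (nat_lit 0) (XT.lf (nat_lit 0) (nat_lit 37027749528) (nat_lit 152) (nat_lit 52034475827) (nat_lit 228) (nat_lit 13668312861) (nat_lit 46) (nat_lit 5) (nat_lit 48) (nat_lit 5) (nat_lit 49) (nat_lit 5) (nat_lit 393) (nat_lit 366) (nat_lit 261)) (XT.lf (nat_lit 0) (nat_lit 22592440012) (nat_lit 228) (nat_lit 84689328776) (nat_lit 76) (nat_lit 926059370) (nat_lit 43) (nat_lit 5) (nat_lit 46) (nat_lit 5) (nat_lit 44) (nat_lit 5) (nat_lit 394) (nat_lit 366) (nat_lit 260)))))) (XT.nd (nat_lit 468) (nat_lit 532) (nat_lit 0) (XT.nd (nat_lit 234) (nat_lit 456) (nat_lit 0) (XT.nd (nat_lit 78) (nat_lit 152) (nat_lit 0) (XT.lf (nat_lit 0) (nat_lit 7259024026) (nat_lit 152)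 (nat_lit 56174022121) (nat_lit 228) (nat_lit 50571159135) (nat_lit 41) (nat_lit 5) (nat_lit 43) (nat_lit 5) (nat_lit 44) (nat_lit 5) (nat_lit 395) (nat_lit 366) (nat_lit 259)) (XT.nd (nat_lit 78) (nat_lit 152) (nat_lit 0) (XT.lf (nat_lit 0) (nat_lit 109022620096) (nat_lit 228) (nat_lit 10616202265) (nat_lit 76) (nat_lit 551384923) (nat_lit 41) (nat_lit 5) (nat_lit 44) (nat_lit 5) (nat_lit 42) (nat_lit 4) (nat_lit 396) (nat_lit 366) (nat_lit 258)) (XT.lf (nat_lit 0) (nat_lit 32856410332) (nat_lit 152) (nat_lit 31977134432) (nat_lit 76) (nat_lit 61889404310) (nat_lit 39) (nat_lit 5) (nat_lit 41) (nat_lit 5) (nat_lit 40) (nat_lit 5) (nat_lit 397) (nat_lit 366) (nat_lit 257)))) (XT.nd (nat_lit 78) (nat_lit 304) (nat_lit 0) (XT.lf (nat_lit 0) (nat_lit 77429919145) (nat_lit 152) (nat_lit 3981057179) (nat_lit 228) (nat_lit 52288185346) (nat_lit 37) (nat_lit 5) (nat_lit 39) (nat_lit 5) (nat_lit 40)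 (nat_lit 5) (nat_lit 398) (nat_lit 366) (nat_lit 256)) (XT.nd (nat_lit 78) (nat_lit 228) (nat_lit 0) (XT.lf (nat_lit 0) (nat_lit 56352658248) (nat_lit 76) (nat_lit 79905052295) (nat_lit 152) (nat_lit 4855371094) (nat_lit 36) (nat_lit 5) (nat_lit 37) (nat_lit 5) (nat_lit 38) (nat_lit 4) (nat_lit 399) (nat_lit 366) (nat_lit 255)) (XT.lf (nat_lit 0) (nat_lit 31107362445) (nat_lit 152) (nat_lit 15327518930) (nat_lit 228) (nat_lit 102571683935) (nat_lit 33) (nat_lit 5) (nat_lit 35) (nat_lit 5) (nat_lit 36) (nat_lit 5) (nat_lit 400) (nat_lit 366) (nat_lit 254))))) (XT.nd (nat_lit 234) (nat_lit 228) (nat_lit 0) (XT.nd (nat_lit 78) (nat_lit 228) (nat_lit 0) (XT.lf (nat_lit 0) (nat_lit 882671304) (nat_lit 76) (nat_lit 103139933280) (nat_lit 152) (nat_lit 53386725742) (nat_lit 32) (nat_lit 5) (nat_lit 33) (nat_lit 5) (nat_lit 34) (nat_lit 4) (nat_lit 401) (nat_lit 366) (nat_lit 253)) (XT.nd (nat_lit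 78) (nat_lit 152) (nat_lit 0) (XT.lf (nat_lit 0) (nat_lit 2085518777) (nat_lit 152) (nat_lit 33295800259) (nat_lit 76) (nat_lit 130986009036) (nat_lit 31) (nat_lit 5) (nat_lit 33) (nat_lit 5) (nat_lit 32) (nat_lit 5) (nat_lit 402) (nat_lit 366) (nat_lit 252)) (XT.lf (nat_lit 0) (nat_lit 62374394489) (nat_lit 228) (nat_lit 74388427518) (nat_lit 76) (nat_lit 39122921238) (nat_lit 29) (nat_lit 5) (nat_lit 32) (nat_lit 5) (nat_lit 30) (nat_lit 4) (nat_lit 403) (nat_lit 366) (nat_lit 251)))) (XT.nd (nat_lit 78) (nat_lit 152) (nat_lit 0) (XT.lf (nat_lit 0) (nat_lit 63551033713) (nat_lit 76) (nat_lit 66111950316) (nat_lit 152) (nat_lit 56393817729) (nat_lit 28) (nat_lit 5) (nat_lit 29) (nat_lit 5) (nat_lit 30) (nat_lit 4) (nat_lit 404) (nat_lit 366) (nat_lit 250)) (XT.nd (nat_lit 78) (nat_lit 0) (nat_lit 0) (XT.lf (nat_lit 0) (nat_lit 6917825380) (nat_lit 152) (nat_lit 178447097791) (nat_lit 76)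 (nat_lit 11582783921) (nat_lit 26) (nat_lit 5) (nat_lit 28) (nat_lit 5) (nat_lit 27) (nat_lit 4) (nat_lit 405) (nat_lit 366) (nat_lit 249)) (XT.lf (nat_lit 0) (nat_lit 76627180909) (nat_lit 152) (nat_lit 35544672276) (nat_lit 76) (nat_lit 96326380203) (nat_lit 26) (nat_lit 5) (nat_lit 28) (nat_lit 5) (nat_lit 27) (nat_lit 4) (nat_lit 406) (nat_lit 366) (nat_lit 248))))))) (XT.nd (nat_lit 936) (nat_lit 608) (nat_lit 0) (XT.nd (nat_lit 468) (nat_lit 380) (nat_lit 0) (XT.nd (nat_lit 234) (nat_lit 228) (nat_lit 0) (XT.nd (nat_lit 78) (nat_lit 152) (nat_lit 0) (XT.lf (nat_lit 0) (nat_lit 122714838361) (nat_lit 76) (nat_lit 31112895758) (nat_lit 152) (nat_lit 67049345444) (nat_lit 25) (nat_lit 5) (nat_lit 26) (nat_lit 5) (nat_lit 27) (nat_lit 4) (nat_lit 407) (nat_lit 366) (nat_lit 247)) (XT.nd (nat_lit 78) (nat_lit 0) (nat_lit 0) (XT.lf (nat_lit 0) (nat_lit 5377340664) (nat_lit 152) (nat_lit 172436946660)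 (nat_lit 76) (nat_lit 56303941102) (nat_lit 23) (nat_lit 5) (nat_lit 25) (nat_lit 5) (nat_lit 24) (nat_lit 4) (nat_lit 408) (nat_lit 366) (nat_lit 246)) (XT.lf (nat_lit 0) (nat_lit 83541677360) (nat_lit 152) (nat_lit 12201381996) (nat_lit 76) (nat_lit 152506021648) (nat_lit 23) (nat_lit 5) (nat_lit 25) (nat_lit 5) (nat_lit 24) (nat_lit 4) (nat_lit 409) (nat_lit 366) (nat_lit 245)))) (XT.nd (nat_lit 78) (nat_lit 152) (nat_lit 0) (XT.lf (nat_lit 0) (nat_lit 166169057593) (nat_lit 76) (nat_lit 4383189017) (nat_lit 152) (nat_lit 92828501078) (nat_lit 22) (nat_lit 5) (nat_lit 23) (nat_lit 5) (nat_lit 24) (nat_lit 4) (nat_lit 410) (nat_lit 366) (nat_lit 244)) (XT.nd (nat_lit 78) (nat_lit 76) (nat_lit 0) (XT.lf (nat_lit 0) (nat_lit 80635455631) (nat_lit 76) (nat_lit 186833998640) (nat_lit 76) (nat_lit 12106203958) (nat_lit 21) (nat_lit 4) (nat_lit 22) (nat_lit 5) (nat_lit 22) (nat_lit 4) (nat_lit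 411) (nat_lit 366) (nat_lit 243)) (XT.lf (nat_lit 0) (nat_lit 74464877081) (nat_lit 152) (nat_lit 22075798831) (nat_lit 76) (nat_lit 200377188517) (nat_lit 20) (nat_lit 5) (nat_lit 22) (nat_lit 5) (nat_lit 21) (nat_lit 4) (nat_lit 412) (nat_lit 366) (nat_lit 242))))) (XT.nd (nat_lit 234) (nat_lit 152) (nat_lit 0) (XT.nd (nat_lit 78) (nat_lit 152) (nat_lit 0) (XT.lf (nat_lit 0) (nat_lit 170326721596) (nat_lit 152) (nat_lit 141253881674) (nat_lit 0) (nat_lit 3917459901) (nat_lit 19) (nat_lit 5) (nat_lit 21) (nat_lit 4) (nat_lit 19) (nat_lit 4) (nat_lit 413) (nat_lit 366) (nat_lit 241)) (XT.nd (nat_lit 78) (nat_lit 76) (nat_lit 0) (XT.lf (nat_lit 0) (nat_lit 51525542308) (nat_lit 76) (nat_lit 225154055695) (nat_lit 76) (nat_lit 58743975717) (nat_lit 18) (nat_lit 4) (nat_lit 19) (nat_lit 5) (nat_lit 19) (nat_lit 4) (nat_lit 414) (nat_lit 366) (nat_lit 240)) (XT.lf (nat_lit 0) (nat_lit 35990084903)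 (nat_lit 152) (nat_lit 92631163595) (nat_lit 76) (nat_lit 228169876266) (nat_lit 17) (nat_lit 5) (nat_lit 19) (nat_lit 5) (nat_lit 18) (nat_lit 4) (nat_lit 415) (nat_lit 366) (nat_lit 239)))) (XT.nd (nat_lit 78) (nat_lit 76) (nat_lit 0) (XT.lf (nat_lit 0) (nat_lit 116679117868) (nat_lit 76) (nat_lit 21413885575) (nat_lit 152) (nat_lit 241634513957) (nat_lit 16) (nat_lit 5) (nat_lit 17) (nat_lit 5) (nat_lit 18) (nat_lit 4) (nat_lit 416) (nat_lit 366) (nat_lit 238)) (XT.nd (nat_lit 78) (nat_lit 76) (nat_lit 0) (XT.lf (nat_lit 0) (nat_lit 251476627214) (nat_lit 152) (nat_lit 59877742357) (nat_lit 0) (nat_lit 92988828385) (nat_lit 16) (nat_lit 5) (nat_lit 18) (nat_lit 4) (nat_lit 16) (nat_lit 4) (nat_lit 417) (nat_lit 366) (nat_lit 237)) (XT.lf (nat_lit 0) (nat_lit 164447143121) (nat_lit 76) (nat_lit 212411488518) (nat_lit 76) (nat_lit 53923116868) (nat_lit 15) (nat_lit 4) (nat_lit 16) (nat_lit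 5) (nat_lit 16) (nat_lit 4) (nat_lit 418) (nat_lit 366) (nat_lit 236)))))) (XT.nd (nat_lit 468) (nat_lit 228) (nat_lit 0) (XT.nd (nat_lit 234) (nat_lit 228) (nat_lit 0) (XT.nd (nat_lit 78) (nat_lit 76) (nat_lit 0) (XT.lf (nat_lit 0) (nat_lit 52300825435) (nat_lit 152) (nat_lit 51272209897) (nat_lit 76) (nat_lit 355668059591) (nat_lit 14) (nat_lit 5) (nat_lit 16) (nat_lit 5) (nat_lit 15) (nat_lit 4) (nat_lit 419) (nat_lit 366) (nat_lit 235)) (XT.nd (nat_lit 78) (nat_lit 0) (nat_lit 0) (XT.lf (nat_lit 0) (nat_lit 168343204564) (nat_lit 152) (nat_lit 304028373662) (nat_lit 0) (nat_lit 17400925382) (nat_lit 13) (nat_lit 5) (nat_lit 15) (nat_lit 4) (nat_lit 13) (nat_lit 4) (nat_lit 420) (nat_lit 366) (nat_lit 234)) (XT.lf (nat_lit 0) (nat_lit 296322419512) (nat_lit 152) (nat_lit 80911626009) (nat_lit 0) (nat_lit 145379707260) (nat_lit 13) (nat_lit 5) (nat_lit 15) (nat_lit 4) (nat_lit 13) (nat_lit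 4) (nat_lit 421) (nat_lit 366) (nat_lit 233)))) (XT.nd (nat_lit 78) (nat_lit 152) (nat_lit 0) (XT.lf (nat_lit 0) (nat_lit 165345172457) (nat_lit 76) (nat_lit 271775601315) (nat_lit 76) (nat_lit 120832488072) (nat_lit 12) (nat_lit 4) (nat_lit 13) (nat_lit 5) (nat_lit 13) (nat_lit 4) (nat_lit 422) (nat_lit 366) (nat_lit 232)) (XT.nd (nat_lit 78) (nat_lit 152) (nat_lit 0) (XT.lf (nat_lit 0) (nat_lit 434190535162) (nat_lit 76) (nat_lit 156401221521) (nat_lit 76) (nat_lit 5457736990) (nat_lit 12) (nat_lit 4) (nat_lit 13) (nat_lit 5) (nat_lit 13) (nat_lit 4) (nat_lit 423) (nat_lit 366) (nat_lit 231)) (XT.lf (nat_lit 0) (nat_lit 88315293602) (nat_lit 76) (nat_lit 28396473186) (nat_lit 152) (nat_lit 520319735361) (nat_lit 10) (nat_lit 5) (nat_lit 11) (nat_lit 5) (nat_lit 12) (nat_lit 4) (nat_lit 424) (nat_lit 366) (nat_lit 230))))) (XT.nd (nat_lit 234) (nat_lit 152) (nat_lit 0) (XT.nd (nat_lit 78)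 (nat_lit 76) (nat_lit 0) (XT.lf (nat_lit 0) (nat_lit 253046310057) (nat_lit 152) (nat_lit 318722173226) (nat_lit 0) (nat_lit 109289979928) (nat_lit 10) (nat_lit 5) (nat_lit 12) (nat_lit 4) (nat_lit 10) (nat_lit 4) (nat_lit 425) (nat_lit 366) (nat_lit 229)) (XT.nd (nat_lit 78) (nat_lit 76) (nat_lit 0) (XT.lf (nat_lit 0) (nat_lit 400765868785) (nat_lit 152) (nat_lit 70808541863) (nat_lit 0) (nat_lit 257009257951) (nat_lit 10) (nat_lit 5) (nat_lit 12) (nat_lit 4) (nat_lit 10) (nat_lit 4) (nat_lit 426) (nat_lit 366) (nat_lit 228)) (XT.lf (nat_lit 0) (nat_lit 203448783517) (nat_lit 76) (nat_lit 360030091767) (nat_lit 76) (nat_lit 216273221021) (nat_lit 9) (nat_lit 4) (nat_lit 10) (nat_lit 5) (nat_lit 10) (nat_lit 4) (nat_lit 427) (nat_lit 366) (nat_lit 227)))) (XT.nd (nat_lit 156) (nat_lit 76) (nat_lit 0) (XT.nd (nat_lit 78) (nat_lit 76) (nat_lit 0) (XT.lf (nat_lit 0) (nat_lit 502174261674) (nat_lit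 76) (nat_lit 238267600501) (nat_lit 76) (nat_lit 94510489096) (nat_lit 9) (nat_lit 4) (nat_lit 10) (nat_lit 5) (nat_lit 10) (nat_lit 4) (nat_lit 428) (nat_lit 366) (nat_lit 226)) (XT.lf (nat_lit 0) (nat_lit 35808776115) (nat_lit 152) (nat_lit 70349343201) (nat_lit 76) (nat_lit 788381652421) (nat_lit 8) (nat_lit 5) (nat_lit 10) (nat_lit 5) (nat_lit 9) (nat_lit 4) (nat_lit 429) (nat_lit 366) (nat_lit 225))) (XT.nd (nat_lit 78) (nat_lit 0) (nat_lit 0) (XT.lf (nat_lit 0) (nat_lit 177349399818) (nat_lit 152) (nat_lit 740824511793) (nat_lit 0) (nat_lit 40437456423) (nat_lit 7) (nat_lit 5) (nat_lit 9) (nat_lit 4) (nat_lit 7) (nat_lit 4) (nat_lit 430) (nat_lit 366) (nat_lit 224)) (XT.lf (nat_lit 0) (nat_lit 333248400616) (nat_lit 152) (nat_lit 498072259812) (nat_lit 0) (nat_lit 196336275276) (nat_lit 7) (nat_lit 5) (nat_lit 9) (nat_lit 4) (nat_lit 7) (nat_lit 4) (nat_lit 431) (nat_lit 366) (nat_lit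 223))))))))
noncomputable def xc91 : XT := (XT.nd (nat_lit 49842) (nat_lit 0) (nat_lit 912) (XT.nd (nat_lit 48906) (nat_lit 0) (nat_lit 3648) (XT.nd (nat_lit 48438) (nat_lit 0) (nat_lit 6688) (XT.nd (nat_lit 48204) (nat_lit 0) (nat_lit 7904) (XT.nd (nat_lit 48048) (nat_lit 0) (nat_lit 7828) (XT.lf (nat_lit 0) (nat_lit 501618930768) (nat_lit 152) (nat_lit 235900600622) (nat_lit 0) (nat_lit 364706636959) (nat_lit 7) (nat_lit 5) (nat_lit 9) (nat_lit 4) (nat_lit 7) (nat_lit 4) (nat_lit 432) (nat_lit 366) (nat_lit 222)) (XT.nd (nat_lit 78) (nat_lit 0) (nat_lit 76) (XT.lf (nat_lit 0) (nat_lit 3261399270) (nat_lit 836) (nat_lit 6506599743) (nat_lit 836) (nat_lit 6506599743) (nat_lit 110) (nat_lit 3) (nat_lit 121) (nat_lit 3) (nat_lit 121) (nat_lit 5) (nat_lit 367) (nat_lit 367) (nat_lit 286)) (XT.lf (nat_lit 0) (nat_lit 7157547629) (nat_lit 760) (nat_lit 21442645826) (nat_lit 836) (nat_lit 5232213283)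 (nat_lit 111) (nat_lit 5) (nat_lit 121) (nat_lit 5) (nat_lit 122) (nat_lit 5) (nat_lit 368) (nat_lit 367) (nat_lit 285)))) (XT.nd (nat_lit 78) (nat_lit 0) (nat_lit 76) (XT.lf (nat_lit 76) (nat_lit 4900751796) (nat_lit 0) (nat_lit 3569171205) (nat_lit 836) (nat_lit 26717014067) (nat_lit 112) (nat_lit 5) (nat_lit 111) (nat_lit 5) (nat_lit 122) (nat_lit 5) (nat_lit 369) (nat_lit 367) (nat_lit 284)) (XT.nd (nat_lit 78) (nat_lit 0) (nat_lit 76) (XT.lf (nat_lit 0) (nat_lit 10624464802) (nat_lit 760) (nat_lit 2892236137) (nat_lit 836) (nat_lit 23096276256) (nat_lit 112) (nat_lit 5) (nat_lit 122) (nat_lit 5) (nat_lit 123) (nat_lit 5) (nat_lit 370) (nat_lit 367) (nat_lit 283)) (XT.lf (nat_lit 0) (nat_lit 13652625361) (nat_lit 760) (nat_lit 10840815485) (nat_lit 836) (nat_lit 13624602647) (nat_lit 113) (nat_lit 5) (nat_lit 123) (nat_lit 5) (nat_lit 124) (nat_lit 5) (nat_lit 371) (nat_lit 367) (nat_lit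 282))))) (XT.nd (nat_lit 234) (nat_lit 760) (nat_lit 0) (XT.nd (nat_lit 78) (nat_lit 684) (nat_lit 0) (XT.lf (nat_lit 0) (nat_lit 17565853956) (nat_lit 760) (nat_lit 19113726210) (nat_lit 836) (nat_lit 3031799475) (nat_lit 114) (nat_lit 5) (nat_lit 124) (nat_lit 5) (nat_lit 125) (nat_lit 5) (nat_lit 372) (nat_lit 367) (nat_lit 281)) (XT.nd (nat_lit 78) (nat_lit 684) (nat_lit 0) (XT.lf (nat_lit 76) (nat_lit 13526586475) (nat_lit 0) (nat_lit 9074589479) (nat_lit 836) (nat_lit 18790559885) (nat_lit 115) (nat_lit 5) (nat_lit 114) (nat_lit 5) (nat_lit 125) (nat_lit 5) (nat_lit 373) (nat_lit 367) (nat_lit 280)) (XT.lf (nat_lit 0) (nat_lit 6131874582) (nat_lit 760) (nat_lit 22658745062) (nat_lit 836) (nat_lit 14378340642) (nat_lit 105) (nat_lit 5) (nat_lit 115) (nat_lit 5) (nat_lit 116) (nat_lit 5) (nat_lit 374) (nat_lit 367) (nat_lit 279)))) (XT.nd (nat_lit 78) (nat_lit 760) (nat_lit 0) (XT.lf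 (nat_lit 0) (nat_lit 36223191166) (nat_lit 836) (nat_lit 1495179980) (nat_lit 76) (nat_lit 7332597139) (nat_lit 105) (nat_lit 5) (nat_lit 116) (nat_lit 5) (nat_lit 106) (nat_lit 5) (nat_lit 375) (nat_lit 367) (nat_lit 278)) (XT.nd (nat_lit 78) (nat_lit 380) (nat_lit 0) (XT.lf (nat_lit 0) (nat_lit 37709392962) (nat_lit 380) (nat_lit 7506028043) (nat_lit 456) (nat_lit 1819867190) (nat_lit 100) (nat_lit 5) (nat_lit 105) (nat_lit 5) (nat_lit 106) (nat_lit 5) (nat_lit 376) (nat_lit 367) (nat_lit 277)) (XT.lf (nat_lit 0) (nat_lit 6485218092) (nat_lit 380) (nat_lit 17699853719) (nat_lit 76) (nat_lit 24942770875) (nat_lit 95) (nat_lit 5) (nat_lit 100) (nat_lit 5) (nat_lit 96) (nat_lit 5) (nat_lit 377) (nat_lit 367) (nat_lit 276)))))) (XT.nd (nat_lit 468) (nat_lit 1444) (nat_lit 0) (XT.nd (nat_lit 234) (nat_lit 608) (nat_lit 0) (XT.nd (nat_lit 78) (nat_lit 608) (nat_lit 0) (XT.lf (nat_lit 0) (nat_lit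 16209027378) (nat_lit 456) (nat_lit 26461078745) (nat_lit 76) (nat_lit 8675303081) (nat_lit 90) (nat_lit 5) (nat_lit 96) (nat_lit 5) (nat_lit 91) (nat_lit 5) (nat_lit 378) (nat_lit 367) (nat_lit 275)) (XT.nd (nat_lit 78) (nat_lit 304) (nat_lit 0) (XT.lf (nat_lit 0) (nat_lit 17938090931) (nat_lit 304) (nat_lit 9769001260) (nat_lit 380) (nat_lit 25983474262) (nat_lit 86) (nat_lit 5) (nat_lit 90) (nat_lit 5) (nat_lit 91) (nat_lit 5) (nat_lit 379) (nat_lit 367) (nat_lit 274)) (XT.lf (nat_lit 0) (nat_lit 10556379330) (nat_lit 304) (nat_lit 30599557424) (nat_lit 380) (nat_lit 15015855532) (nat_lit 82) (nat_lit 5) (nat_lit 86) (nat_lit 5) (nat_lit 87) (nat_lit 5) (nat_lit 380) (nat_lit 367) (nat_lit 273)))) (XT.nd (nat_lit 78) (nat_lit 380) (nat_lit 0) (XT.lf (nat_lit 0) (nat_lit 2869212179) (nat_lit 228) (nat_lit 53718105528) (nat_lit 304) (nat_lit 2218869564) (nat_lit 79) (nat_lit 5) (nat_lit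 82) (nat_lit 5) (nat_lit 83) (nat_lit 5) (nat_lit 381) (nat_lit 367) (nat_lit 272)) (XT.nd (nat_lit 78) (nat_lit 304) (nat_lit 0) (XT.lf (nat_lit 0) (nat_lit 12549920367) (nat_lit 304) (nat_lit 5465588786) (nat_lit 76) (nat_lit 43560801164) (nat_lit 78) (nat_lit 5) (nat_lit 82) (nat_lit 5) (nat_lit 79) (nat_lit 5) (nat_lit 382) (nat_lit 367) (nat_lit 271)) (XT.lf (nat_lit 0) (nat_lit 29544253601) (nat_lit 380) (nat_lit 14239827957) (nat_lit 76) (nat_lit 20726056045) (nat_lit 74) (nat_lit 5) (nat_lit 79) (nat_lit 5) (nat_lit 75) (nat_lit 5) (nat_lit 383) (nat_lit 367) (nat_lit 270))))) (XT.nd (nat_lit 234) (nat_lit 684) (nat_lit 0) (XT.nd (nat_lit 78) (nat_lit 532) (nat_lit 0) (XT.lf (nat_lit 0) (nat_lit 44087142702) (nat_lit 228) (nat_lit 4896161334) (nat_lit 304) (nat_lit 18641110419) (nat_lit 71) (nat_lit 5) (nat_lit 74) (nat_lit 5) (nat_lit 75) (nat_lit 5) (nat_lit 384) (nat_lit 367) (nat_lit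 269)) (XT.nd (nat_lit 78) (nat_lit 228) (nat_lit 0) (XT.lf (nat_lit 0) (nat_lit 454007688) (nat_lit 304) (nat_lit 33708436456) (nat_lit 76) (nat_lit 36754578472) (nat_lit 67) (nat_lit 5) (nat_lit 71) (nat_lit 5) (nat_lit 68) (nat_lit 5) (nat_lit 385) (nat_lit 367) (nat_lit 268)) (XT.lf (nat_lit 0) (nat_lit 21523102792) (nat_lit 304) (nat_lit 44793969426) (nat_lit 76) (nat_lit 8085716111) (nat_lit 64) (nat_lit 5) (nat_lit 68) (nat_lit 5) (nat_lit 65) (nat_lit 5) (nat_lit 386) (nat_lit 367) (nat_lit 267)))) (XT.nd (nat_lit 78) (nat_lit 456) (nat_lit 0) (XT.lf (nat_lit 0) (nat_lit 21143464114) (nat_lit 228) (nat_lit 24633991436) (nat_lit 304) (nat_lit 32314974692) (nat_lit 61) (nat_lit 5) (nat_lit 64) (nat_lit 5) (nat_lit 65) (nat_lit 5) (nat_lit 387) (nat_lit 367) (nat_lit 266)) (XT.nd (nat_lit 78) (nat_lit 304) (nat_lit 0) (XT.lf (nat_lit 0) (nat_lit 11964506900) (nat_lit 152) (nat_lit 61302690915)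 (nat_lit 228) (nat_lit 8745294968) (nat_lit 59) (nat_lit 5) (nat_lit 61) (nat_lit 5) (nat_lit 62) (nat_lit 5) (nat_lit 388) (nat_lit 367) (nat_lit 265)) (XT.lf (nat_lit 0) (nat_lit 1581693140) (nat_lit 228) (nat_lit 16038819274) (nat_lit 304) (nat_lit 68540335809) (nat_lit 55) (nat_lit 5) (nat_lit 58) (nat_lit 5) (nat_lit 59) (nat_lit 5) (nat_lit 389) (nat_lit 367) (nat_lit 264))))))) (XT.nd (nat_lit 936) (nat_lit 1064) (nat_lit 0) (XT.nd (nat_lit 468) (nat_lit 760) (nat_lit 0) (XT.nd (nat_lit 234) (nat_lit 532) (nat_lit 0) (XT.nd (nat_lit 78) (nat_lit 380) (nat_lit 0) (XT.lf (nat_lit 0) (nat_lit 47543461843) (nat_lit 304) (nat_lit 9821664148) (nat_lit 76) (nat_lit 33181065430) (nat_lit 55) (nat_lit 5) (nat_lit 59) (nat_lit 5) (nat_lit 56) (nat_lit 5) (nat_lit 390) (nat_lit 367) (nat_lit 263)) (XT.nd (nat_lit 78) (nat_lit 228) (nat_lit 0) (XT.lf (nat_lit 0) (nat_lit 72977597410) (nat_lit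 152) (nat_lit 8289848180) (nat_lit 228) (nat_lit 13944557575) (nat_lit 53) (nat_lit 5) (nat_lit 55) (nat_lit 5) (nat_lit 56) (nat_lit 5) (nat_lit 391) (nat_lit 367) (nat_lit 262)) (XT.lf (nat_lit 0) (nat_lit 18777011826) (nat_lit 228) (nat_lit 36613020303) (nat_lit 76) (nat_lit 44752591746) (nat_lit 50) (nat_lit 5) (nat_lit 53) (nat_lit 5) (nat_lit 51) (nat_lit 5) (nat_lit 392) (nat_lit 367) (nat_lit 261)))) (XT.nd (nat_lit 78) (nat_lit 380) (nat_lit 0) (XT.lf (nat_lit 0) (nat_lit 52805271671) (nat_lit 152) (nat_lit 2184462257) (nat_lit 228) (nat_lit 50398432346) (nat_lit 48) (nat_lit 5) (nat_lit 50) (nat_lit 5) (nat_lit 51) (nat_lit 5) (nat_lit 393) (nat_lit 367) (nat_lit 260)) (XT.nd (nat_lit 78) (nat_lit 228) (nat_lit 0) (XT.lf (nat_lit 0) (nat_lit 40068063519) (nat_lit 152) (nat_lit 56165917892) (nat_lit 228) (nat_lit 14712646040) (nat_lit 46) (nat_lit 5) (nat_lit 48) (nat_lit 5) (nat_lit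 49) (nat_lit 5) (nat_lit 394) (nat_lit 367) (nat_lit 259)) (XT.lf (nat_lit 0) (nat_lit 24445545464) (nat_lit 228) (nat_lit 91386466529) (nat_lit 76) (nat_lit 1030143747) (nat_lit 43) (nat_lit 5) (nat_lit 46) (nat_lit 5) (nat_lit 44) (nat_lit 5) (nat_lit 395) (nat_lit 367) (nat_lit 258))))) (XT.nd (nat_lit 234) (nat_lit 456) (nat_lit 0) (XT.nd (nat_lit 78) (nat_lit 152) (nat_lit 0) (XT.lf (nat_lit 0) (nat_lit 7914364340) (nat_lit 152) (nat_lit 60636814807) (nat_lit 228) (nat_lit 54571175908) (nat_lit 41) (nat_lit 5) (nat_lit 43) (nat_lit 5) (nat_lit 44) (nat_lit 5) (nat_lit 396) (nat_lit 367) (nat_lit 257)) (XT.nd (nat_lit 78) (nat_lit 152) (nat_lit 0) (XT.lf (nat_lit 0) (nat_lit 117785147594) (nat_lit 228) (nat_lit 11394832678) (nat_lit 76) (nat_lit 623396419) (nat_lit 41) (nat_lit 5) (nat_lit 44) (nat_lit 5) (nat_lit 42) (nat_lit 4) (nat_lit 397) (nat_lit 367) (nat_lit 256)) (XT.lf (nat_lit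 0) (nat_lit 35524325724) (nat_lit 152) (nat_lit 34466397692) (nat_lit 76) (nat_lit 66868081507) (nat_lit 39) (nat_lit 5) (nat_lit 41) (nat_lit 5) (nat_lit 40) (nat_lit 5) (nat_lit 398) (nat_lit 367) (nat_lit 255)))) (XT.nd (nat_lit 78) (nat_lit 304) (nat_lit 0) (XT.lf (nat_lit 0) (nat_lit 83690225535) (nat_lit 152) (nat_lit 4271141837) (nat_lit 228) (nat_lit 56431842373) (nat_lit 37) (nat_lit 5) (nat_lit 39) (nat_lit 5) (nat_lit 40) (nat_lit 5) (nat_lit 399) (nat_lit 367) (nat_lit 254)) (XT.nd (nat_lit 78) (nat_lit 228) (nat_lit 0) (XT.lf (nat_lit 0) (nat_lit 60925298086) (nat_lit 76) (nat_lit 86269179952) (nat_lit 152) (nat_lit 5205834068) (nat_lit 36) (nat_lit 5) (nat_lit 37) (nat_lit 5) (nat_lit 38) (nat_lit 4) (nat_lit 400) (nat_lit 367) (nat_lit 253)) (XT.lf (nat_lit 0) (nat_lit 33658748824) (nat_lit 152) (nat_lit 16525932709) (nat_lit 228) (nat_lit 110740650998) (nat_lit 33) (nat_lit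 5) (nat_lit 35) (nat_lit 5) (nat_lit 36) (nat_lit 5) (nat_lit 401) (nat_lit 367) (nat_lit 252)))))) (XT.nd (nat_lit 468) (nat_lit 532) (nat_lit 0) (XT.nd (nat_lit 234) (nat_lit 228) (nat_lit 0) (XT.nd (nat_lit 78) (nat_lit 228) (nat_lit 0) (XT.lf (nat_lit 0) (nat_lit 1014619906) (nat_lit 76) (nat_lit 111363568702) (nat_lit 152) (nat_lit 57622192397) (nat_lit 32) (nat_lit 5) (nat_lit 33) (nat_lit 5) (nat_lit 34) (nat_lit 4) (nat_lit 402) (nat_lit 367) (nat_lit 251)) (XT.nd (nat_lit 78) (nat_lit 152) (nat_lit 0) (XT.lf (nat_lit 0) (nat_lit 2284152963) (nat_lit 152) (nat_lit 35901615357) (nat_lit 76) (nat_lit 141489350223) (nat_lit 31) (nat_lit 5) (nat_lit 33) (nat_lit 5) (nat_lit 32) (nat_lit 5) (nat_lit 403) (nat_lit 367) (nat_lit 250)) (XT.lf (nat_lit 0) (nat_lit 67395038491) (nat_lit 228) (nat_lit 80283036914) (nat_lit 76) (nat_lit 42276986992) (nat_lit 29) (nat_lit 5) (nat_lit 32) (nat_lit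 5) (nat_lit 30) (nat_lit 4) (nat_lit 404) (nat_lit 367) (nat_lit 249)))) (XT.nd (nat_lit 78) (nat_lit 152) (nat_lit 0) (XT.lf (nat_lit 0) (nat_lit 68689127324) (nat_lit 76) (nat_lit 71376157617) (nat_lit 152) (nat_lit 60874592583) (nat_lit 28) (nat_lit 5) (nat_lit 29) (nat_lit 5) (nat_lit 30) (nat_lit 4) (nat_lit 405) (nat_lit 367) (nat_lit 248)) (XT.nd (nat_lit 78) (nat_lit 0) (nat_lit 0) (XT.lf (nat_lit 0) (nat_lit 7499994825) (nat_lit 152) (nat_lit 192669211962) (nat_lit 76) (nat_lit 12532875059) (nat_lit 26) (nat_lit 5) (nat_lit 28) (nat_lit 5) (nat_lit 27) (nat_lit 4) (nat_lit 406) (nat_lit 367) (nat_lit 247)) (XT.lf (nat_lit 0) (nat_lit 82783969654) (nat_lit 152) (nat_lit 38338566751) (nat_lit 76) (nat_lit 104054220641) (nat_lit 26) (nat_lit 5) (nat_lit 28) (nat_lit 5) (nat_lit 27) (nat_lit 4) (nat_lit 407) (nat_lit 367) (nat_lit 246))))) (XT.nd (nat_lit 234) (nat_lit 304) (nat_lit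 0) (XT.nd (nat_lit 78) (nat_lit 152) (nat_lit 0) (XT.lf (nat_lit 0) (nat_lit 132579545736) (nat_lit 76) (nat_lit 33579791884) (nat_lit 152) (nat_lit 72386635090) (nat_lit 25) (nat_lit 5) (nat_lit 26) (nat_lit 5) (nat_lit 27) (nat_lit 4) (nat_lit 408) (nat_lit 367) (nat_lit 245)) (XT.nd (nat_lit 78) (nat_lit 0) (nat_lit 0) (XT.lf (nat_lit 0) (nat_lit 5832481860) (nat_lit 152) (nat_lit 186184731354) (nat_lit 76) (nat_lit 60829222278) (nat_lit 23) (nat_lit 5) (nat_lit 25) (nat_lit 5) (nat_lit 24) (nat_lit 4) (nat_lit 409) (nat_lit 367) (nat_lit 244)) (XT.lf (nat_lit 0) (nat_lit 90248117052) (nat_lit 152) (nat_lit 13133815668) (nat_lit 76) (nat_lit 164725916240) (nat_lit 23) (nat_lit 5) (nat_lit 25) (nat_lit 5) (nat_lit 24) (nat_lit 4) (nat_lit 410) (nat_lit 367) (nat_lit 243)))) (XT.nd (nat_lit 156) (nat_lit 152) (nat_lit 0) (XT.nd (nat_lit 78) (nat_lit 76) (nat_lit 0) (XT.lf (nat_lit 0) (nat_lit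 179504360944) (nat_lit 76) (nat_lit 4714111663) (nat_lit 152) (nat_lit 100231629574) (nat_lit 22) (nat_lit 5) (nat_lit 23) (nat_lit 5) (nat_lit 24) (nat_lit 4) (nat_lit 411) (nat_lit 367) (nat_lit 242)) (XT.lf (nat_lit 0) (nat_lit 87127017768) (nat_lit 76) (nat_lit 201761327157) (nat_lit 76) (nat_lit 13052296462) (nat_lit 21) (nat_lit 4) (nat_lit 22) (nat_lit 5) (nat_lit 22) (nat_lit 4) (nat_lit 412) (nat_lit 367) (nat_lit 241))) (XT.nd (nat_lit 78) (nat_lit 76) (nat_lit 0) (XT.lf (nat_lit 0) (nat_lit 80442147573) (nat_lit 152) (nat_lit 23803487365) (nat_lit 76) (nat_lit 216424652171) (nat_lit 20) (nat_lit 5) (nat_lit 22) (nat_lit 5) (nat_lit 21) (nat_lit 4) (nat_lit 413) (nat_lit 367) (nat_lit 240)) (XT.lf (nat_lit 0) (nat_lit 183972299201) (nat_lit 152) (nat_lit 152516797881) (nat_lit 0) (nat_lit 4247836874) (nat_lit 19) (nat_lit 5) (nat_lit 21) (nat_lit 4) (nat_lit 19) (nat_lit 4) (nat_lit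 414) (nat_lit 367) (nat_lit 239))))))))
noncomputable def xc92 : XT := (XT.nd (nat_lit 49998) (nat_lit 0) (nat_lit 2432) (XT.nd (nat_lit 936) (nat_lit 228) (nat_lit 0) (XT.nd (nat_lit 468) (nat_lit 304) (nat_lit 0) (XT.nd (nat_lit 234) (nat_lit 152) (nat_lit 0) (XT.nd (nat_lit 78) (nat_lit 152) (nat_lit 0) (XT.lf (nat_lit 0) (nat_lit 55683354908) (nat_lit 76) (nat_lit 243149169280) (nat_lit 76) (nat_lit 63424005407) (nat_lit 18) (nat_lit 4) (nat_lit 19) (nat_lit 5) (nat_lit 19) (nat_lit 4) (nat_lit 415) (nat_lit 367) (nat_lit 238)) (XT.nd (nat_lit 78) (nat_lit 76) (nat_lit 0) (XT.lf (nat_lit 0) (nat_lit 38886758934) (nat_lit 152) (nat_lit 100007957636) (nat_lit 76) (nat_lit 246438822955) (nat_lit 17) (nat_lit 5) (nat_lit 19) (nat_lit 5) (nat_lit 18) (nat_lit 4) (nat_lit 416) (nat_lit 367) (nat_lit 237)) (XT.lf (nat_lit 0) (nat_lit 126045681825) (nat_lit 76) (nat_lit 23111438534) (nat_lit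 152) (nat_lit 260947762881) (nat_lit 16) (nat_lit 5) (nat_lit 17) (nat_lit 5) (nat_lit 18) (nat_lit 4) (nat_lit 417) (nat_lit 367) (nat_lit 236)))) (XT.nd (nat_lit 78) (nat_lit 152) (nat_lit 0) (XT.lf (nat_lit 0) (nat_lit 271610423635) (nat_lit 152) (nat_lit 64637566211) (nat_lit 0) (nat_lit 100441879042) (nat_lit 16) (nat_lit 5) (nat_lit 18) (nat_lit 4) (nat_lit 16) (nat_lit 4) (nat_lit 418) (nat_lit 367) (nat_lit 235)) (XT.nd (nat_lit 78) (nat_lit 76) (nat_lit 0) (XT.lf (nat_lit 0) (nat_lit 177631989153) (nat_lit 76) (nat_lit 229390292734) (nat_lit 76) (nat_lit 58221257040) (nat_lit 15) (nat_lit 4) (nat_lit 16) (nat_lit 5) (nat_lit 16) (nat_lit 4) (nat_lit 419) (nat_lit 367) (nat_lit 234)) (XT.lf (nat_lit 0) (nat_lit 56498971456) (nat_lit 152) (nat_lit 55346598931) (nat_lit 76) (nat_lit 384134106830) (nat_lit 14) (nat_lit 5) (nat_lit 16) (nat_lit 5) (nat_lit 15) (nat_lit 4) (nat_lit 420)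 (nat_lit 367) (nat_lit 233))))) (XT.nd (nat_lit 234) (nat_lit 152) (nat_lit 0) (XT.nd (nat_lit 78) (nat_lit 76) (nat_lit 0) (XT.lf (nat_lit 0) (nat_lit 181824306057) (nat_lit 152) (nat_lit 328323971617) (nat_lit 0) (nat_lit 18805342764) (nat_lit 13) (nat_lit 5) (nat_lit 15) (nat_lit 4) (nat_lit 13) (nat_lit 4) (nat_lit 421) (nat_lit 367) (nat_lit 232)) (XT.nd (nat_lit 78) (nat_lit 76) (nat_lit 0) (XT.lf (nat_lit 0) (nat_lit 320040847451) (nat_lit 152) (nat_lit 87359859850) (nat_lit 0) (nat_lit 157021512870) (nat_lit 13) (nat_lit 5) (nat_lit 15) (nat_lit 4) (nat_lit 13) (nat_lit 4) (nat_lit 422) (nat_lit 367) (nat_lit 231)) (XT.lf (nat_lit 0) (nat_lit 178596409225) (nat_lit 76) (nat_lit 293506093768) (nat_lit 76) (nat_lit 130486415401) (nat_lit 12) (nat_lit 4) (nat_lit 13) (nat_lit 5) (nat_lit 13) (nat_lit 4) (nat_lit 423) (nat_lit 367) (nat_lit 230)))) (XT.nd (nat_lit 78) (nat_lit 152) (nat_lit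 0) (XT.lf (nat_lit 0) (nat_lit 468947651096) (nat_lit 76) (nat_lit 168902619565) (nat_lit 76) (nat_lit 5882622879) (nat_lit 12) (nat_lit 4) (nat_lit 13) (nat_lit 5) (nat_lit 13) (nat_lit 4) (nat_lit 424) (nat_lit 367) (nat_lit 229)) (XT.nd (nat_lit 78) (nat_lit 0) (nat_lit 0) (XT.lf (nat_lit 0) (nat_lit 95401799715) (nat_lit 76) (nat_lit 30657756938) (nat_lit 152) (nat_lit 561933922399) (nat_lit 10) (nat_lit 5) (nat_lit 11) (nat_lit 5) (nat_lit 12) (nat_lit 4) (nat_lit 425) (nat_lit 367) (nat_lit 228)) (XT.lf (nat_lit 0) (nat_lit 273300210627) (nat_lit 152) (nat_lit 344199888762) (nat_lit 0) (nat_lit 118042530309) (nat_lit 10) (nat_lit 5) (nat_lit 12) (nat_lit 4) (nat_lit 10) (nat_lit 4) (nat_lit 426) (nat_lit 367) (nat_lit 227)))))) (XT.nd (nat_lit 48594) (nat_lit 0) (nat_lit 7904) (XT.nd (nat_lit 234) (nat_lit 152) (nat_lit 0) (XT.nd (nat_lit 78) (nat_lit 76) (nat_lit 0) (XT.lf (nat_lit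 0) (nat_lit 432836578812) (nat_lit 152) (nat_lit 76454652692) (nat_lit 0) (nat_lit 277578657835) (nat_lit 10) (nat_lit 5) (nat_lit 12) (nat_lit 4) (nat_lit 10) (nat_lit 4) (nat_lit 427) (nat_lit 367) (nat_lit 226)) (XT.nd (nat_lit 78) (nat_lit 0) (nat_lit 0) (XT.lf (nat_lit 0) (nat_lit 219742451580) (nat_lit 76) (nat_lit 388823752320) (nat_lit 76) (nat_lit 233565608511) (nat_lit 9) (nat_lit 4) (nat_lit 10) (nat_lit 5) (nat_lit 10) (nat_lit 4) (nat_lit 428) (nat_lit 367) (nat_lit 225)) (XT.lf (nat_lit 0) (nat_lit 542364652035) (nat_lit 76) (nat_lit 257320909664) (nat_lit 76) (nat_lit 102062559527) (nat_lit 9) (nat_lit 4) (nat_lit 10) (nat_lit 5) (nat_lit 10) (nat_lit 4) (nat_lit 429) (nat_lit 367) (nat_lit 224)))) (XT.nd (nat_lit 78) (nat_lit 76) (nat_lit 0) (XT.lf (nat_lit 0) (nat_lit 38681337504) (nat_lit 152) (nat_lit 75961799295) (nat_lit 76) (nat_lit 851459423166) (nat_lit 8) (nat_lit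 5) (nat_lit 10) (nat_lit 5) (nat_lit 9) (nat_lit 4) (nat_lit 430) (nat_lit 367) (nat_lit 223)) (XT.nd (nat_lit 48204) (nat_lit 0) (nat_lit 7828) (XT.lf (nat_lit 0) (nat_lit 191544974409) (nat_lit 152) (nat_lit 800075392805) (nat_lit 0) (nat_lit 43679528627) (nat_lit 7) (nat_lit 5) (nat_lit 9) (nat_lit 4) (nat_lit 7) (nat_lit 4) (nat_lit 431) (nat_lit 367) (nat_lit 222)) (XT.lf (nat_lit 0) (nat_lit 3614659764) (nat_lit 836) (nat_lit 6978612127) (nat_lit 836) (nat_lit 6978612127) (nat_lit 110) (nat_lit 3) (nat_lit 121) (nat_lit 3) (nat_lit 121) (nat_lit 5) (nat_lit 368) (nat_lit 368) (nat_lit 284))))) (XT.nd (nat_lit 234) (nat_lit 0) (nat_lit 152) (XT.nd (nat_lit 78) (nat_lit 0) (nat_lit 0) (XT.lf (nat_lit 0) (nat_lit 7901372799) (nat_lit 760) (nat_lit 23055255581) (nat_lit 836) (nat_lit 5573689067) (nat_lit 111) (nat_lit 5) (nat_lit 121) (nat_lit 5) (nat_lit 122) (nat_lit 5) (nat_lit 369)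 (nat_lit 368) (nat_lit 283)) (XT.nd (nat_lit 78) (nat_lit 0) (nat_lit 76) (XT.lf (nat_lit 76) (nat_lit 5391146205) (nat_lit 0) (nat_lit 3916444207) (nat_lit 836) (nat_lit 28686186128) (nat_lit 112) (nat_lit 5) (nat_lit 111) (nat_lit 5) (nat_lit 122) (nat_lit 5) (nat_lit 370) (nat_lit 368) (nat_lit 282)) (XT.lf (nat_lit 0) (nat_lit 11621745733) (nat_lit 760) (nat_lit 3024157914) (nat_lit 836) (nat_lit 24888642003) (nat_lit 112) (nat_lit 5) (nat_lit 122) (nat_lit 5) (nat_lit 123) (nat_lit 5) (nat_lit 371) (nat_lit 368) (nat_lit 281)))) (XT.nd (nat_lit 78) (nat_lit 0) (nat_lit 76) (XT.lf (nat_lit 0) (nat_lit 14882063962) (nat_lit 760) (nat_lit 11605287596) (nat_lit 836) (nat_lit 14673178121) (nat_lit 113) (nat_lit 5) (nat_lit 123) (nat_lit 5) (nat_lit 124) (nat_lit 5) (nat_lit 372) (nat_lit 368) (nat_lit 280)) (XT.nd (nat_lit 78) (nat_lit 0) (nat_lit 0) (XT.lf (nat_lit 0) (nat_lit 19099248265)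 (nat_lit 760) (nat_lit 20537507106) (nat_lit 836) (nat_lit 3245039578) (nat_lit 114) (nat_lit 5) (nat_lit 124) (nat_lit 5) (nat_lit 125) (nat_lit 5) (nat_lit 373) (nat_lit 368) (nat_lit 279)) (XT.lf (nat_lit 76) (nat_lit 14709453637) (nat_lit 0) (nat_lit 9820024410) (nat_lit 836) (nat_lit 20167504070) (nat_lit 115) (nat_lit 5) (nat_lit 114) (nat_lit 5) (nat_lit 125) (nat_lit 5) (nat_lit 374) (nat_lit 368) (nat_lit 278))))))) (XT.nd (nat_lit 936) (nat_lit 2128) (nat_lit 0) (XT.nd (nat_lit 468) (nat_lit 1444) (nat_lit 0) (XT.nd (nat_lit 234) (nat_lit 1064) (nat_lit 0) (XT.nd (nat_lit 78) (nat_lit 380) (nat_lit 0) (XT.lf (nat_lit 0) (nat_lit 6724905294) (nat_lit 760) (nat_lit 24481586220) (nat_lit 836) (nat_lit 15410278380) (nat_lit 105) (nat_lit 5) (nat_lit 115) (nat_lit 5) (nat_lit 116) (nat_lit 5) (nat_lit 375) (nat_lit 368) (nat_lit 277)) (XT.nd (nat_lit 78) (nat_lit 380) (nat_lit 0) (XT.lf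 (nat_lit 0) (nat_lit 39225179756) (nat_lit 836) (nat_lit 1514473732) (nat_lit 76) (nat_lit 7910115133) (nat_lit 105) (nat_lit 5) (nat_lit 116) (nat_lit 5) (nat_lit 106) (nat_lit 5) (nat_lit 376) (nat_lit 368) (nat_lit 276)) (XT.lf (nat_lit 0) (nat_lit 40822105233) (nat_lit 380) (nat_lit 8108467390) (nat_lit 456) (nat_lit 1862577488) (nat_lit 100) (nat_lit 5) (nat_lit 105) (nat_lit 5) (nat_lit 106) (nat_lit 5) (nat_lit 377) (nat_lit 368) (nat_lit 275)))) (XT.nd (nat_lit 78) (nat_lit 684) (nat_lit 0) (XT.lf (nat_lit 0) (nat_lit 7097748694) (nat_lit 380) (nat_lit 19016120646) (nat_lit 76) (nat_lit 26939457570) (nat_lit 95) (nat_lit 5) (nat_lit 100) (nat_lit 5) (nat_lit 96) (nat_lit 5) (nat_lit 378) (nat_lit 368) (nat_lit 274)) (XT.nd (nat_lit 78) (nat_lit 304) (nat_lit 0) (XT.lf (nat_lit 0) (nat_lit 17594121547) (nat_lit 456) (nat_lit 28478222406) (nat_lit 76) (nat_lit 9376226117) (nat_lit 90)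 (nat_lit 5) (nat_lit 96) (nat_lit 5) (nat_lit 91) (nat_lit 5) (nat_lit 379) (nat_lit 368) (nat_lit 273)) (XT.lf (nat_lit 0) (nat_lit 19468546150) (nat_lit 304) (nat_lit 10538428907) (nat_lit 380) (nat_lit 27974621612) (nat_lit 86) (nat_lit 5) (nat_lit 90) (nat_lit 5) (nat_lit 91) (nat_lit 5) (nat_lit 380) (nat_lit 368) (nat_lit 272))))) (XT.nd (nat_lit 234) (nat_lit 836) (nat_lit 0) (XT.nd (nat_lit 78) (nat_lit 304) (nat_lit 0) (XT.lf (nat_lit 0) (nat_lit 11496002633) (nat_lit 304) (nat_lit 33031212826) (nat_lit 380) (nat_lit 16134334349) (nat_lit 82) (nat_lit 5) (nat_lit 86) (nat_lit 5) (nat_lit 87) (nat_lit 5) (nat_lit 381) (nat_lit 368) (nat_lit 271)) (XT.nd (nat_lit 78) (nat_lit 76) (nat_lit 0) (XT.lf (nat_lit 0) (nat_lit 3193297691) (nat_lit 228) (nat_lit 57995683821) (nat_lit 304) (nat_lit 2317924533) (nat_lit 79) (nat_lit 5) (nat_lit 82) (nat_lit 5) (nat_lit 83) (nat_lit 5) (nat_lit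 382) (nat_lit 368) (nat_lit 270)) (XT.lf (nat_lit 0) (nat_lit 13624232107) (nat_lit 304) (nat_lit 5812928621) (nat_lit 76) (nat_lit 47061701218) (nat_lit 78) (nat_lit 5) (nat_lit 82) (nat_lit 5) (nat_lit 79) (nat_lit 5) (nat_lit 383) (nat_lit 368) (nat_lit 269)))) (XT.nd (nat_lit 78) (nat_lit 532) (nat_lit 0) (XT.lf (nat_lit 0) (nat_lit 31974551149) (nat_lit 380) (nat_lit 15289962250) (nat_lit 76) (nat_lit 22403062818) (nat_lit 74) (nat_lit 5) (nat_lit 79) (nat_lit 5) (nat_lit 75) (nat_lit 5) (nat_lit 384) (nat_lit 368) (nat_lit 268)) (XT.nd (nat_lit 78) (nat_lit 304) (nat_lit 0) (XT.lf (nat_lit 0) (nat_lit 47699295972) (nat_lit 228) (nat_lit 5265814592) (nat_lit 304) (nat_lit 20066067965) (nat_lit 71) (nat_lit 5) (nat_lit 74) (nat_lit 5) (nat_lit 75) (nat_lit 5) (nat_lit 385) (nat_lit 368) (nat_lit 267)) (XT.lf (nat_lit 0) (nat_lit 551440411) (nat_lit 304) (nat_lit 36318861240) (nat_lit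 76) (nat_lit 39716998975) (nat_lit 67) (nat_lit 5) (nat_lit 71) (nat_lit 5) (nat_lit 68) (nat_lit 5) (nat_lit 386) (nat_lit 368) (nat_lit 266)))))) (XT.nd (nat_lit 468) (nat_lit 1064) (nat_lit 0) (XT.nd (nat_lit 234) (nat_lit 456) (nat_lit 0) (XT.nd (nat_lit 78) (nat_lit 380) (nat_lit 0) (XT.lf (nat_lit 0) (nat_lit 23303208904) (nat_lit 304) (nat_lit 48292449918) (nat_lit 76) (nat_lit 8756413573) (nat_lit 64) (nat_lit 5) (nat_lit 68) (nat_lit 5) (nat_lit 65) (nat_lit 5) (nat_lit 387) (nat_lit 368) (nat_lit 265)) (XT.nd (nat_lit 78) (nat_lit 152) (nat_lit 0) (XT.lf (nat_lit 0) (nat_lit 22916282698) (nat_lit 228) (nat_lit 26578581753) (nat_lit 304) (nat_lit 34842175415) (nat_lit 61) (nat_lit 5) (nat_lit 64) (nat_lit 5) (nat_lit 65) (nat_lit 5) (nat_lit 388) (nat_lit 368) (nat_lit 264)) (XT.lf (nat_lit 0) (nat_lit 13001747459) (nat_lit 152) (nat_lit 66179576828) (nat_lit 228) (nat_lit 9389508003)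 (nat_lit 59) (nat_lit 5) (nat_lit 61) (nat_lit 5) (nat_lit 62) (nat_lit 5) (nat_lit 389) (nat_lit 368) (nat_lit 263)))) (XT.nd (nat_lit 78) (nat_lit 152) (nat_lit 0) (XT.lf (nat_lit 0) (nat_lit 1786545219) (nat_lit 228) (nat_lit 17294494892) (nat_lit 304) (nat_lit 73970111900) (nat_lit 55) (nat_lit 5) (nat_lit 58) (nat_lit 5) (nat_lit 59) (nat_lit 5) (nat_lit 390) (nat_lit 368) (nat_lit 262)) (XT.nd (nat_lit 78) (nat_lit 152) (nat_lit 0) (XT.lf (nat_lit 0) (nat_lit 51394452643) (nat_lit 304) (nat_lit 10532904278) (nat_lit 76) (nat_lit 35860135846) (nat_lit 55) (nat_lit 5) (nat_lit 59) (nat_lit 5) (nat_lit 56) (nat_lit 5) (nat_lit 391) (nat_lit 368) (nat_lit 261)) (XT.lf (nat_lit 0) (nat_lit 78887060829) (nat_lit 152) (nat_lit 8926887217) (nat_lit 228) (nat_lit 15012743112) (nat_lit 53) (nat_lit 5) (nat_lit 55) (nat_lit 5) (nat_lit 56) (nat_lit 5) (nat_lit 392) (nat_lit 368) (nat_lit 260)))))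 (XT.nd (nat_lit 234) (nat_lit 532) (nat_lit 0) (XT.nd (nat_lit 78) (nat_lit 304) (nat_lit 0) (XT.lf (nat_lit 0) (nat_lit 20323132285) (nat_lit 228) (nat_lit 39470651564) (nat_lit 76) (nat_lit 48358037037) (nat_lit 50) (nat_lit 5) (nat_lit 53) (nat_lit 5) (nat_lit 51) (nat_lit 5) (nat_lit 393) (nat_lit 368) (nat_lit 259)) (XT.nd (nat_lit 78) (nat_lit 152) (nat_lit 0) (XT.lf (nat_lit 0) (nat_lit 57098000360) (nat_lit 152) (nat_lit 2332681999) (nat_lit 228) (nat_lit 54386434916) (nat_lit 48) (nat_lit 5) (nat_lit 50) (nat_lit 5) (nat_lit 51) (nat_lit 5) (nat_lit 394) (nat_lit 368) (nat_lit 258)) (XT.lf (nat_lit 0) (nat_lit 43340461642) (nat_lit 152) (nat_lit 60632342899) (nat_lit 228) (nat_lit 15847535082) (nat_lit 46) (nat_lit 5) (nat_lit 48) (nat_lit 5) (nat_lit 49) (nat_lit 5) (nat_lit 395) (nat_lit 368) (nat_lit 257)))) (XT.nd (nat_lit 156) (nat_lit 152) (nat_lit 0) (XT.nd (nat_lit 78) (nat_lit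 152) (nat_lit 0) (XT.lf (nat_lit 0) (nat_lit 26440378274) (nat_lit 228) (nat_lit 98630504095) (nat_lit 76) (nat_lit 1138275091) (nat_lit 43) (nat_lit 5) (nat_lit 46) (nat_lit 5) (nat_lit 44) (nat_lit 5) (nat_lit 396) (nat_lit 368) (nat_lit 256)) (XT.lf (nat_lit 0) (nat_lit 8611486732) (nat_lit 152) (nat_lit 65461071820) (nat_lit 228) (nat_lit 58897710209) (nat_lit 41) (nat_lit 5) (nat_lit 43) (nat_lit 5) (nat_lit 44) (nat_lit 5) (nat_lit 397) (nat_lit 368) (nat_lit 255))) (XT.nd (nat_lit 78) (nat_lit 152) (nat_lit 0) (XT.lf (nat_lit 0) (nat_lit 127242868429) (nat_lit 228) (nat_lit 12245834787) (nat_lit 76) (nat_lit 697188488) (nat_lit 41) (nat_lit 5) (nat_lit 44) (nat_lit 5) (nat_lit 42) (nat_lit 4) (nat_lit 398) (nat_lit 368) (nat_lit 254)) (XT.lf (nat_lit 0) (nat_lit 38400053132) (nat_lit 152) (nat_lit 37164632438) (nat_lit 76) (nat_lit 72241126151) (nat_lit 39) (nat_lit 5) (nat_lit 41)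 (nat_lit 5) (nat_lit 40) (nat_lit 5) (nat_lit 399) (nat_lit 368) (nat_lit 253))))))))
noncomputable def xc93 : XT := (XT.nd (nat_lit 1872) (nat_lit 380) (nat_lit 0) (XT.nd (nat_lit 936) (nat_lit 760) (nat_lit 0) (XT.nd (nat_lit 468) (nat_lit 456) (nat_lit 0) (XT.nd (nat_lit 234) (nat_lit 304) (nat_lit 0) (XT.nd (nat_lit 78) (nat_lit 304) (nat_lit 0) (XT.lf (nat_lit 0) (nat_lit 90441953230) (nat_lit 152) (nat_lit 4588484833) (nat_lit 228) (nat_lit 60912612499) (nat_lit 37) (nat_lit 5) (nat_lit 39) (nat_lit 5) (nat_lit 40) (nat_lit 5) (nat_lit 400) (nat_lit 368) (nat_lit 252)) (XT.nd (nat_lit 78) (nat_lit 228) (nat_lit 0) (XT.lf (nat_lit 0) (nat_lit 65854557854) (nat_lit 76) (nat_lit 93146471785) (nat_lit 152) (nat_lit 5589750456) (nat_lit 36) (nat_lit 5) (nat_lit 37) (nat_lit 5) (nat_lit 38) (nat_lit 4) (nat_lit 401) (nat_lit 368) (nat_lit 251)) (XT.lf (nat_lit 0) (nat_lit 36405287364) (nat_lit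 152) (nat_lit 17824183822) (nat_lit 228) (nat_lit 119568380743) (nat_lit 33) (nat_lit 5) (nat_lit 35) (nat_lit 5) (nat_lit 36) (nat_lit 5) (nat_lit 402) (nat_lit 368) (nat_lit 250)))) (XT.nd (nat_lit 78) (nat_lit 228) (nat_lit 0) (XT.lf (nat_lit 0) (nat_lit 1148374288) (nat_lit 76) (nat_lit 120249026593) (nat_lit 152) (nat_lit 62201556776) (nat_lit 32) (nat_lit 5) (nat_lit 33) (nat_lit 5) (nat_lit 34) (nat_lit 4) (nat_lit 403) (nat_lit 368) (nat_lit 249)) (XT.nd (nat_lit 78) (nat_lit 152) (nat_lit 0) (XT.lf (nat_lit 0) (nat_lit 2494142302) (nat_lit 152) (nat_lit 38724148458) (nat_lit 76) (nat_lit 152829469146) (nat_lit 31) (nat_lit 5) (nat_lit 33) (nat_lit 5) (nat_lit 32) (nat_lit 5) (nat_lit 404) (nat_lit 368) (nat_lit 248)) (XT.lf (nat_lit 0) (nat_lit 72812955393) (nat_lit 228) (nat_lit 86657270397) (nat_lit 76) (nat_lit 45679921033) (nat_lit 29) (nat_lit 5) (nat_lit 32) (nat_lit 5) (nat_lit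 30) (nat_lit 4) (nat_lit 405) (nat_lit 368) (nat_lit 247))))) (XT.nd (nat_lit 234) (nat_lit 228) (nat_lit 0) (XT.nd (nat_lit 78) (nat_lit 152) (nat_lit 0) (XT.lf (nat_lit 0) (nat_lit 74230563164) (nat_lit 76) (nat_lit 77065032184) (nat_lit 152) (nat_lit 65718213483) (nat_lit 28) (nat_lit 5) (nat_lit 29) (nat_lit 5) (nat_lit 30) (nat_lit 4) (nat_lit 406) (nat_lit 368) (nat_lit 246)) (XT.nd (nat_lit 78) (nat_lit 0) (nat_lit 0) (XT.lf (nat_lit 0) (nat_lit 8124637256) (nat_lit 152) (nat_lit 208036749561) (nat_lit 76) (nat_lit 13555625454) (nat_lit 26) (nat_lit 5) (nat_lit 28) (nat_lit 5) (nat_lit 27) (nat_lit 4) (nat_lit 407) (nat_lit 368) (nat_lit 245)) (XT.lf (nat_lit 0) (nat_lit 89429504676) (nat_lit 152) (nat_lit 41363060093) (nat_lit 76) (nat_lit 112397188283) (nat_lit 26) (nat_lit 5) (nat_lit 28) (nat_lit 5) (nat_lit 27) (nat_lit 4) (nat_lit 408) (nat_lit 368) (nat_lit 244)))) (XT.nd (nat_lit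 78) (nat_lit 152) (nat_lit 0) (XT.lf (nat_lit 0) (nat_lit 143226650397) (nat_lit 76) (nat_lit 36247197581) (nat_lit 152) (nat_lit 78154710968) (nat_lit 25) (nat_lit 5) (nat_lit 26) (nat_lit 5) (nat_lit 27) (nat_lit 4) (nat_lit 409) (nat_lit 368) (nat_lit 243)) (XT.nd (nat_lit 78) (nat_lit 0) (nat_lit 0) (XT.lf (nat_lit 0) (nat_lit 6320474393) (nat_lit 152) (nat_lit 201039068300) (nat_lit 76) (nat_lit 65713534930) (nat_lit 23) (nat_lit 5) (nat_lit 25) (nat_lit 5) (nat_lit 24) (nat_lit 4) (nat_lit 410) (nat_lit 368) (nat_lit 242)) (XT.lf (nat_lit 0) (nat_lit 97487775661) (nat_lit 152) (nat_lit 14147075031) (nat_lit 76) (nat_lit 177920632937) (nat_lit 23) (nat_lit 5) (nat_lit 25) (nat_lit 5) (nat_lit 24) (nat_lit 4) (nat_lit 411) (nat_lit 368) (nat_lit 241)))))) (XT.nd (nat_lit 468) (nat_lit 304) (nat_lit 0) (XT.nd (nat_lit 234) (nat_lit 228) (nat_lit 0) (XT.nd (nat_lit 78) (nat_lit 152) (nat_lit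 0) (XT.lf (nat_lit 0) (nat_lit 193900528358) (nat_lit 76) (nat_lit 5074323178) (nat_lit 152) (nat_lit 108230311183) (nat_lit 22) (nat_lit 5) (nat_lit 23) (nat_lit 5) (nat_lit 24) (nat_lit 4) (nat_lit 412) (nat_lit 368) (nat_lit 240)) (XT.nd (nat_lit 78) (nat_lit 76) (nat_lit 0) (XT.lf (nat_lit 0) (nat_lit 94132094902) (nat_lit 76) (nat_lit 217885608351) (nat_lit 76) (nat_lit 14077272520) (nat_lit 21) (nat_lit 4) (nat_lit 22) (nat_lit 5) (nat_lit 22) (nat_lit 4) (nat_lit 413) (nat_lit 368) (nat_lit 239)) (XT.lf (nat_lit 0) (nat_lit 86894735022) (nat_lit 152) (nat_lit 25674865658) (nat_lit 76) (nat_lit 233753446510) (nat_lit 20) (nat_lit 5) (nat_lit 22) (nat_lit 5) (nat_lit 21) (nat_lit 4) (nat_lit 414) (nat_lit 368) (nat_lit 238)))) (XT.nd (nat_lit 78) (nat_lit 152) (nat_lit 0) (XT.lf (nat_lit 0) (nat_lit 198706749698) (nat_lit 152) (nat_lit 164686082103) (nat_lit 0) (nat_lit 4602221592) (nat_lit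 19) (nat_lit 5) (nat_lit 21) (nat_lit 4) (nat_lit 19) (nat_lit 4) (nat_lit 415) (nat_lit 368) (nat_lit 237)) (XT.nd (nat_lit 78) (nat_lit 76) (nat_lit 0) (XT.lf (nat_lit 0) (nat_lit 60168689637) (nat_lit 76) (nat_lit 262586347274) (nat_lit 76) (nat_lit 68481217706) (nat_lit 18) (nat_lit 4) (nat_lit 19) (nat_lit 5) (nat_lit 19) (nat_lit 4) (nat_lit 416) (nat_lit 368) (nat_lit 236)) (XT.lf (nat_lit 0) (nat_lit 42012674990) (nat_lit 152) (nat_lit 107979702745) (nat_lit 76) (nat_lit 266167094591) (nat_lit 17) (nat_lit 5) (nat_lit 19) (nat_lit 5) (nat_lit 18) (nat_lit 4) (nat_lit 417) (nat_lit 368) (nat_lit 235))))) (XT.nd (nat_lit 234) (nat_lit 152) (nat_lit 0) (XT.nd (nat_lit 78) (nat_lit 76) (nat_lit 0) (XT.lf (nat_lit 0) (nat_lit 136156972283) (nat_lit 76) (nat_lit 24947015237) (nat_lit 152) (nat_lit 281808570029) (nat_lit 16) (nat_lit 5) (nat_lit 17) (nat_lit 5) (nat_lit 18) (nat_lit 4) (nat_lit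 418) (nat_lit 368) (nat_lit 234)) (XT.nd (nat_lit 78) (nat_lit 76) (nat_lit 0) (XT.lf (nat_lit 0) (nat_lit 293352688804) (nat_lit 152) (nat_lit 69782512236) (nat_lit 0) (nat_lit 108489184429) (nat_lit 16) (nat_lit 5) (nat_lit 18) (nat_lit 4) (nat_lit 16) (nat_lit 4) (nat_lit 419) (nat_lit 368) (nat_lit 233)) (XT.lf (nat_lit 0) (nat_lit 191867475052) (nat_lit 76) (nat_lit 247729414931) (nat_lit 76) (nat_lit 62865489516) (nat_lit 15) (nat_lit 4) (nat_lit 16) (nat_lit 5) (nat_lit 16) (nat_lit 4) (nat_lit 420) (nat_lit 368) (nat_lit 232)))) (XT.nd (nat_lit 78) (nat_lit 76) (nat_lit 0) (XT.lf (nat_lit 0) (nat_lit 61030960491) (nat_lit 152) (nat_lit 59750846258) (nat_lit 76) (nat_lit 414875639964) (nat_lit 14) (nat_lit 5) (nat_lit 16) (nat_lit 5) (nat_lit 15) (nat_lit 4) (nat_lit 421) (nat_lit 368) (nat_lit 231)) (XT.nd (nat_lit 78) (nat_lit 0) (nat_lit 0) (XT.lf (nat_lit 0) (nat_lit 196381949039)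 (nat_lit 152) (nat_lit 354567022458) (nat_lit 0) (nat_lit 20320352618) (nat_lit 13) (nat_lit 5) (nat_lit 15) (nat_lit 4) (nat_lit 13) (nat_lit 4) (nat_lit 422) (nat_lit 368) (nat_lit 230)) (XT.lf (nat_lit 0) (nat_lit 345654947189) (nat_lit 152) (nat_lit 94327475593) (nat_lit 0) (nat_lit 169593032449) (nat_lit 13) (nat_lit 5) (nat_lit 15) (nat_lit 4) (nat_lit 13) (nat_lit 4) (nat_lit 423) (nat_lit 368) (nat_lit 229))))))) (XT.nd (nat_lit 49140) (nat_lit 0) (nat_lit 5016) (XT.nd (nat_lit 468) (nat_lit 76) (nat_lit 0) (XT.nd (nat_lit 234) (nat_lit 76) (nat_lit 0) (XT.nd (nat_lit 78) (nat_lit 152) (nat_lit 0) (XT.lf (nat_lit 0) (nat_lit 192904374853) (nat_lit 76) (nat_lit 316976674159) (nat_lit 76) (nat_lit 140914464679) (nat_lit 12) (nat_lit 4) (nat_lit 13) (nat_lit 5) (nat_lit 13) (nat_lit 4) (nat_lit 424) (nat_lit 368) (nat_lit 228)) (XT.nd (nat_lit 78) (nat_lit 152) (nat_lit 0) (XT.lf (nat_lit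 0) (nat_lit 506482215860) (nat_lit 76) (nat_lit 182405655880) (nat_lit 76) (nat_lit 6343173492) (nat_lit 12) (nat_lit 4) (nat_lit 13) (nat_lit 5) (nat_lit 13) (nat_lit 4) (nat_lit 425) (nat_lit 368) (nat_lit 227)) (XT.lf (nat_lit 0) (nat_lit 103052190112) (nat_lit 76) (nat_lit 33101431932) (nat_lit 152) (nat_lit 606878869567) (nat_lit 10) (nat_lit 5) (nat_lit 11) (nat_lit 5) (nat_lit 12) (nat_lit 4) (nat_lit 426) (nat_lit 368) (nat_lit 226)))) (XT.nd (nat_lit 78) (nat_lit 76) (nat_lit 0) (XT.lf (nat_lit 0) (nat_lit 295172968703) (nat_lit 152) (nat_lit 371718683085) (nat_lit 0) (nat_lit 127493950556) (nat_lit 10) (nat_lit 5) (nat_lit 12) (nat_lit 4) (nat_lit 10) (nat_lit 4) (nat_lit 427) (nat_lit 368) (nat_lit 225)) (XT.nd (nat_lit 78) (nat_lit 76) (nat_lit 0) (XT.lf (nat_lit 0) (nat_lit 467471598844) (nat_lit 152) (nat_lit 82555101965) (nat_lit 0) (nat_lit 299792374370) (nat_lit 10) (nat_lit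 5) (nat_lit 12) (nat_lit 4) (nat_lit 10) (nat_lit 4) (nat_lit 428) (nat_lit 368) (nat_lit 224)) (XT.lf (nat_lit 0) (nat_lit 237337078657) (nat_lit 76) (nat_lit 419922153545) (nat_lit 76) (nat_lit 252242738028) (nat_lit 9) (nat_lit 4) (nat_lit 10) (nat_lit 5) (nat_lit 10) (nat_lit 4) (nat_lit 429) (nat_lit 368) (nat_lit 223))))) (XT.nd (nat_lit 48438) (nat_lit 0) (nat_lit 7828) (XT.nd (nat_lit 78) (nat_lit 76) (nat_lit 0) (XT.lf (nat_lit 0) (nat_lit 585767926930) (nat_lit 76) (nat_lit 277899638954) (nat_lit 76) (nat_lit 110220046546) (nat_lit 9) (nat_lit 4) (nat_lit 10) (nat_lit 5) (nat_lit 10) (nat_lit 4) (nat_lit 430) (nat_lit 368) (nat_lit 222)) (XT.nd (nat_lit 48282) (nat_lit 0) (nat_lit 7752) (XT.lf (nat_lit 0) (nat_lit 41782582586) (nat_lit 152) (nat_lit 82025461894) (nat_lit 76) (nat_lit 919582382910) (nat_lit 8) (nat_lit 5) (nat_lit 10) (nat_lit 5) (nat_lit 9) (nat_lit 4) (nat_lit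 431) (nat_lit 368) (nat_lit 221)) (XT.lf (nat_lit 0) (nat_lit 3983006544) (nat_lit 836) (nat_lit 7495306794) (nat_lit 836) (nat_lit 7495306794) (nat_lit 110) (nat_lit 3) (nat_lit 121) (nat_lit 3) (nat_lit 121) (nat_lit 5) (nat_lit 369) (nat_lit 369) (nat_lit 282)))) (XT.nd (nat_lit 78) (nat_lit 0) (nat_lit 0) (XT.lf (nat_lit 0) (nat_lit 8680277342) (nat_lit 760) (nat_lit 24811539959) (nat_lit 836) (nat_lit 5953482273) (nat_lit 111) (nat_lit 5) (nat_lit 121) (nat_lit 5) (nat_lit 122) (nat_lit 5) (nat_lit 370) (nat_lit 369) (nat_lit 281)) (XT.nd (nat_lit 78) (nat_lit 0) (nat_lit 76) (XT.lf (nat_lit 76) (nat_lit 5906743683) (nat_lit 0) (nat_lit 4282691247) (nat_lit 836) (nat_lit 30836886004) (nat_lit 112) (nat_lit 5) (nat_lit 111) (nat_lit 5) (nat_lit 122) (nat_lit 5) (nat_lit 371) (nat_lit 369) (nat_lit 280)) (XT.lf (nat_lit 0) (nat_lit 12677791759) (nat_lit 760) (nat_lit 3180822103) (nat_lit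 836) (nat_lit 26832291359) (nat_lit 112) (nat_lit 5) (nat_lit 122) (nat_lit 5) (nat_lit 123) (nat_lit 5) (nat_lit 372) (nat_lit 369) (nat_lit 279)))))) (XT.nd (nat_lit 468) (nat_lit 1976) (nat_lit 0) (XT.nd (nat_lit 234) (nat_lit 988) (nat_lit 0) (XT.nd (nat_lit 78) (nat_lit 0) (nat_lit 76) (XT.lf (nat_lit 0) (nat_lit 16190280462) (nat_lit 760) (nat_lit 12445582065) (nat_lit 836) (nat_lit 15811544769) (nat_lit 113) (nat_lit 5) (nat_lit 123) (nat_lit 5) (nat_lit 124) (nat_lit 5) (nat_lit 373) (nat_lit 369) (nat_lit 278)) (XT.nd (nat_lit 78) (nat_lit 0) (nat_lit 0) (XT.lf (nat_lit 0) (nat_lit 20737035514) (nat_lit 760) (nat_lit 22090215149) (nat_lit 836) (nat_lit 3479519413) (nat_lit 114) (nat_lit 5) (nat_lit 124) (nat_lit 5) (nat_lit 125) (nat_lit 5) (nat_lit 374) (nat_lit 369) (nat_lit 277)) (XT.lf (nat_lit 76) (nat_lit 15972578450) (nat_lit 0) (nat_lit 10622316839) (nat_lit 836) (nat_lit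 21672621984) (nat_lit 115) (nat_lit 5) (nat_lit 114) (nat_lit 5) (nat_lit 125) (nat_lit 5) (nat_lit 375) (nat_lit 369) (nat_lit 276)))) (XT.nd (nat_lit 78) (nat_lit 380) (nat_lit 0) (XT.lf (nat_lit 0) (nat_lit 7350758439) (nat_lit 760) (nat_lit 26448807865) (nat_lit 836) (nat_lit 16541652165) (nat_lit 105) (nat_lit 5) (nat_lit 115) (nat_lit 5) (nat_lit 116) (nat_lit 5) (nat_lit 376) (nat_lit 369) (nat_lit 275)) (XT.nd (nat_lit 78) (nat_lit 380) (nat_lit 0) (XT.lf (nat_lit 0) (nat_lit 42452471654) (nat_lit 836) (nat_lit 1549622845) (nat_lit 76) (nat_lit 8535131325) (nat_lit 105) (nat_lit 5) (nat_lit 116) (nat_lit 5) (nat_lit 106) (nat_lit 5) (nat_lit 377) (nat_lit 369) (nat_lit 274)) (XT.lf (nat_lit 0) (nat_lit 44170144599) (nat_lit 380) (nat_lit 8758822681) (nat_lit 456) (nat_lit 1923381460) (nat_lit 100) (nat_lit 5) (nat_lit 105) (nat_lit 5) (nat_lit 106) (nat_lit 5) (nat_lit 378) (nat_lit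 369) (nat_lit 273))))) (XT.nd (nat_lit 234) (nat_lit 912) (nat_lit 0) (XT.nd (nat_lit 78) (nat_lit 684) (nat_lit 0) (XT.lf (nat_lit 0) (nat_lit 7745912515) (nat_lit 380) (nat_lit 20451915296) (nat_lit 76) (nat_lit 29095698730) (nat_lit 95) (nat_lit 5) (nat_lit 100) (nat_lit 5) (nat_lit 96) (nat_lit 5) (nat_lit 379) (nat_lit 369) (nat_lit 272)) (XT.nd (nat_lit 78) (nat_lit 304) (nat_lit 0) (XT.lf (nat_lit 0) (nat_lit 19077415998) (nat_lit 456) (nat_lit 30670966963) (nat_lit 76) (nat_lit 10132238806) (nat_lit 90) (nat_lit 5) (nat_lit 96) (nat_lit 5) (nat_lit 91) (nat_lit 5) (nat_lit 380) (nat_lit 369) (nat_lit 271)) (XT.lf (nat_lit 0) (nat_lit 21107826777) (nat_lit 304) (nat_lit 11371135890) (nat_lit 380) (nat_lit 30137547967) (nat_lit 86) (nat_lit 5) (nat_lit 90) (nat_lit 5) (nat_lit 91) (nat_lit 5) (nat_lit 381) (nat_lit 369) (nat_lit 270)))) (XT.nd (nat_lit 156) (nat_lit 380) (nat_lit 0)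 (XT.nd (nat_lit 78) (nat_lit 228) (nat_lit 0) (XT.lf (nat_lit 0) (nat_lit 12497226874) (nat_lit 304) (nat_lit 35659727348) (nat_lit 380) (nat_lit 17354102337) (nat_lit 82) (nat_lit 5) (nat_lit 86) (nat_lit 5) (nat_lit 87) (nat_lit 5) (nat_lit 382) (nat_lit 369) (nat_lit 269)) (XT.lf (nat_lit 0) (nat_lit 3529821637) (nat_lit 228) (nat_lit 62618303075) (nat_lit 304) (nat_lit 2436096325) (nat_lit 79) (nat_lit 5) (nat_lit 82) (nat_lit 5) (nat_lit 83) (nat_lit 5) (nat_lit 383) (nat_lit 369) (nat_lit 268))) (XT.nd (nat_lit 78) (nat_lit 304) (nat_lit 0) (XT.lf (nat_lit 0) (nat_lit 14774457121) (nat_lit 304) (nat_lit 6200881919) (nat_lit 76) (nat_lit 50840385567) (nat_lit 78) (nat_lit 5) (nat_lit 82) (nat_lit 5) (nat_lit 79) (nat_lit 5) (nat_lit 384) (nat_lit 369) (nat_lit 267)) (XT.lf (nat_lit 0) (nat_lit 34589748832) (nat_lit 380) (nat_lit 16436811543) (nat_lit 76) (nat_lit 24211530657) (nat_lit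 74) (nat_lit 5) (nat_lit 79) (nat_lit 5) (nat_lit 75) (nat_lit 5) (nat_lit 385) (nat_lit 369) (nat_lit 266))))))))
noncomputable def xc94 : XT := (XT.nd (nat_lit 1872) (nat_lit 1292) (nat_lit 0) (XT.nd (nat_lit 936) (nat_lit 1292) (nat_lit 0) (XT.nd (nat_lit 468) (nat_lit 912) (nat_lit 0) (XT.nd (nat_lit 234) (nat_lit 684) (nat_lit 0) (XT.nd (nat_lit 78) (nat_lit 532) (nat_lit 0) (XT.lf (nat_lit 0) (nat_lit 51588269360) (nat_lit 228) (nat_lit 5668184314) (nat_lit 304) (nat_lit 21614485014) (nat_lit 71) (nat_lit 5) (nat_lit 74) (nat_lit 5) (nat_lit 75) (nat_lit 5) (nat_lit 386) (nat_lit 369) (nat_lit 265)) (XT.nd (nat_lit 78) (nat_lit 228) (nat_lit 0) (XT.lf (nat_lit 0) (nat_lit 647949427) (nat_lit 304) (nat_lit 39150424552) (nat_lit 76) (nat_lit 42913266836) (nat_lit 67) (nat_lit 5) (nat_lit 71) (nat_lit 5) (nat_lit 68) (nat_lit 5) (nat_lit 387) (nat_lit 369) (nat_lit 264)) (XT.lf (nat_lit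 0) (nat_lit 25217412366) (nat_lit 304) (nat_lit 52082940337) (nat_lit 76) (nat_lit 9477365765) (nat_lit 64) (nat_lit 5) (nat_lit 68) (nat_lit 5) (nat_lit 65) (nat_lit 5) (nat_lit 388) (nat_lit 369) (nat_lit 263)))) (XT.nd (nat_lit 78) (nat_lit 456) (nat_lit 0) (XT.lf (nat_lit 0) (nat_lit 24819322501) (nat_lit 228) (nat_lit 28682466890) (nat_lit 304) (nat_lit 37579826152) (nat_lit 61) (nat_lit 5) (nat_lit 64) (nat_lit 5) (nat_lit 65) (nat_lit 5) (nat_lit 389) (nat_lit 369) (nat_lit 262)) (XT.nd (nat_lit 78) (nat_lit 304) (nat_lit 0) (XT.lf (nat_lit 0) (nat_lit 14110542955) (nat_lit 152) (nat_lit 71450512454) (nat_lit 228) (nat_lit 10093163018) (nat_lit 59) (nat_lit 5) (nat_lit 61) (nat_lit 5) (nat_lit 62) (nat_lit 5) (nat_lit 390) (nat_lit 369) (nat_lit 261)) (XT.lf (nat_lit 0) (nat_lit 1996612722) (nat_lit 228) (nat_lit 18654537744) (nat_lit 304) (nat_lit 79841895428) (nat_lit 55) (nat_lit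 5) (nat_lit 58) (nat_lit 5) (nat_lit 59) (nat_lit 5) (nat_lit 391) (nat_lit 369) (nat_lit 260))))) (XT.nd (nat_lit 234) (nat_lit 532) (nat_lit 0) (XT.nd (nat_lit 78) (nat_lit 380) (nat_lit 0) (XT.lf (nat_lit 0) (nat_lit 55546744324) (nat_lit 304) (nat_lit 11311670879) (nat_lit 76) (nat_lit 38750024544) (nat_lit 55) (nat_lit 5) (nat_lit 59) (nat_lit 5) (nat_lit 56) (nat_lit 5) (nat_lit 392) (nat_lit 369) (nat_lit 259)) (XT.nd (nat_lit 78) (nat_lit 228) (nat_lit 0) (XT.lf (nat_lit 0) (nat_lit 85259115910) (nat_lit 152) (nat_lit 9618619797) (nat_lit 228) (nat_lit 16173142645) (nat_lit 53) (nat_lit 5) (nat_lit 55) (nat_lit 5) (nat_lit 56) (nat_lit 5) (nat_lit 393) (nat_lit 369) (nat_lit 258)) (XT.lf (nat_lit 0) (nat_lit 21986671066) (nat_lit 228) (nat_lit 42567080814) (nat_lit 76) (nat_lit 52248317476) (nat_lit 50) (nat_lit 5) (nat_lit 53) (nat_lit 5) (nat_lit 51) (nat_lit 5) (nat_lit 394) (nat_lit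 369) (nat_lit 257)))) (XT.nd (nat_lit 78) (nat_lit 380) (nat_lit 0) (XT.lf (nat_lit 0) (nat_lit 61724402593) (nat_lit 152) (nat_lit 2496545154) (nat_lit 228) (nat_lit 58699736524) (nat_lit 48) (nat_lit 5) (nat_lit 50) (nat_lit 5) (nat_lit 51) (nat_lit 5) (nat_lit 395) (nat_lit 369) (nat_lit 256)) (XT.nd (nat_lit 78) (nat_lit 228) (nat_lit 0) (XT.lf (nat_lit 0) (nat_lit 46865100015) (nat_lit 152) (nat_lit 65459912135) (nat_lit 228) (nat_lit 17079224512) (nat_lit 46) (nat_lit 5) (nat_lit 48) (nat_lit 5) (nat_lit 49) (nat_lit 5) (nat_lit 396) (nat_lit 369) (nat_lit 255)) (XT.lf (nat_lit 0) (nat_lit 28589206935) (nat_lit 228) (nat_lit 106463605810) (nat_lit 76) (nat_lit 1251387720) (nat_lit 43) (nat_lit 5) (nat_lit 46) (nat_lit 5) (nat_lit 44) (nat_lit 5) (nat_lit 397) (nat_lit 369) (nat_lit 254)))))) (XT.nd (nat_lit 468) (nat_lit 532) (nat_lit 0) (XT.nd (nat_lit 234) (nat_lit 456) (nat_lit 0)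 (XT.nd (nat_lit 78) (nat_lit 152) (nat_lit 0) (XT.lf (nat_lit 0) (nat_lit 9355252416) (nat_lit 152) (nat_lit 70675076760) (nat_lit 228) (nat_lit 63575953834) (nat_lit 41) (nat_lit 5) (nat_lit 43) (nat_lit 5) (nat_lit 44) (nat_lit 5) (nat_lit 398) (nat_lit 369) (nat_lit 253)) (XT.nd (nat_lit 78) (nat_lit 152) (nat_lit 0) (XT.lf (nat_lit 0) (nat_lit 137452226768) (nat_lit 228) (nat_lit 13173560121) (nat_lit 76) (nat_lit 773471416) (nat_lit 41) (nat_lit 5) (nat_lit 44) (nat_lit 5) (nat_lit 42) (nat_lit 4) (nat_lit 399) (nat_lit 369) (nat_lit 252)) (XT.lf (nat_lit 0) (nat_lit 41501019445) (nat_lit 152) (nat_lit 40087153967) (nat_lit 76) (nat_lit 78040647831) (nat_lit 39) (nat_lit 5) (nat_lit 41) (nat_lit 5) (nat_lit 40) (nat_lit 5) (nat_lit 400) (nat_lit 369) (nat_lit 251)))) (XT.nd (nat_lit 78) (nat_lit 304) (nat_lit 0) (XT.lf (nat_lit 0) (nat_lit 97725757408) (nat_lit 152) (nat_lit 4934688833)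 (nat_lit 228) (nat_lit 65756662940) (nat_lit 37) (nat_lit 5) (nat_lit 39) (nat_lit 5) (nat_lit 40) (nat_lit 5) (nat_lit 401) (nat_lit 369) (nat_lit 250)) (XT.nd (nat_lit 78) (nat_lit 228) (nat_lit 0) (XT.lf (nat_lit 0) (nat_lit 71170278381) (nat_lit 76) (nat_lit 100577405437) (nat_lit 152) (nat_lit 6009023824) (nat_lit 36) (nat_lit 5) (nat_lit 37) (nat_lit 5) (nat_lit 38) (nat_lit 4) (nat_lit 402) (nat_lit 369) (nat_lit 249)) (XT.lf (nat_lit 0) (nat_lit 39363868304) (nat_lit 152) (nat_lit 19229693713) (nat_lit 228) (nat_lit 129106825881) (nat_lit 33) (nat_lit 5) (nat_lit 35) (nat_lit 5) (nat_lit 36) (nat_lit 5) (nat_lit 403) (nat_lit 369) (nat_lit 248))))) (XT.nd (nat_lit 234) (nat_lit 228) (nat_lit 0) (XT.nd (nat_lit 78) (nat_lit 228) (nat_lit 0) (XT.lf (nat_lit 0) (nat_lit 1285327212) (nat_lit 76) (nat_lit 129848691856) (nat_lit 152) (nat_lit 67151608776) (nat_lit 32) (nat_lit 5) (nat_lit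 33) (nat_lit 5) (nat_lit 34) (nat_lit 4) (nat_lit 404) (nat_lit 369) (nat_lit 247)) (XT.nd (nat_lit 78) (nat_lit 152) (nat_lit 0) (XT.lf (nat_lit 0) (nat_lit 2717042258) (nat_lit 152) (nat_lit 41779559649) (nat_lit 76) (nat_lit 165073805849) (nat_lit 31) (nat_lit 5) (nat_lit 33) (nat_lit 5) (nat_lit 32) (nat_lit 5) (nat_lit 405) (nat_lit 369) (nat_lit 246)) (XT.lf (nat_lit 0) (nat_lit 78660551686) (nat_lit 228) (nat_lit 93548348710) (nat_lit 76) (nat_lit 49352126000) (nat_lit 29) (nat_lit 5) (nat_lit 32) (nat_lit 5) (nat_lit 30) (nat_lit 4) (nat_lit 406) (nat_lit 369) (nat_lit 245)))) (XT.nd (nat_lit 78) (nat_lit 152) (nat_lit 0) (XT.lf (nat_lit 0) (nat_lit 80208707852) (nat_lit 76) (nat_lit 83212043708) (nat_lit 152) (nat_lit 70953082680) (nat_lit 28) (nat_lit 5) (nat_lit 29) (nat_lit 5) (nat_lit 30) (nat_lit 4) (nat_lit 407) (nat_lit 369) (nat_lit 244)) (XT.nd (nat_lit 78) (nat_lit 0) (nat_lit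 0) (XT.lf (nat_lit 0) (nat_lit 8795735505) (nat_lit 152) (nat_lit 224640252490) (nat_lit 76) (nat_lit 14657325482) (nat_lit 26) (nat_lit 5) (nat_lit 28) (nat_lit 5) (nat_lit 27) (nat_lit 4) (nat_lit 408) (nat_lit 369) (nat_lit 243)) (XT.lf (nat_lit 0) (nat_lit 96603427335) (nat_lit 152) (nat_lit 44635589126) (nat_lit 76) (nat_lit 121404935561) (nat_lit 26) (nat_lit 5) (nat_lit 28) (nat_lit 5) (nat_lit 27) (nat_lit 4) (nat_lit 409) (nat_lit 369) (nat_lit 242))))))) (XT.nd (nat_lit 936) (nat_lit 456) (nat_lit 0) (XT.nd (nat_lit 468) (nat_lit 380) (nat_lit 0) (XT.nd (nat_lit 234) (nat_lit 228) (nat_lit 0) (XT.nd (nat_lit 78) (nat_lit 152) (nat_lit 0) (XT.lf (nat_lit 0) (nat_lit 154719711271) (nat_lit 76) (nat_lit 39130703109) (nat_lit 152) (nat_lit 84387493427) (nat_lit 25) (nat_lit 5) (nat_lit 26) (nat_lit 5) (nat_lit 27) (nat_lit 4) (nat_lit 410) (nat_lit 369) (nat_lit 241)) (XT.nd (nat_lit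 78) (nat_lit 0) (nat_lit 0) (XT.lf (nat_lit 0) (nat_lit 6844454238) (nat_lit 152) (nat_lit 217087521643) (nat_lit 76) (nat_lit 70986028278) (nat_lit 23) (nat_lit 5) (nat_lit 25) (nat_lit 5) (nat_lit 24) (nat_lit 4) (nat_lit 411) (nat_lit 369) (nat_lit 240)) (XT.lf (nat_lit 0) (nat_lit 105303780948) (nat_lit 152) (nat_lit 15246737217) (nat_lit 76) (nat_lit 192168552603) (nat_lit 23) (nat_lit 5) (nat_lit 25) (nat_lit 5) (nat_lit 24) (nat_lit 4) (nat_lit 412) (nat_lit 369) (nat_lit 239)))) (XT.nd (nat_lit 78) (nat_lit 152) (nat_lit 0) (XT.lf (nat_lit 0) (nat_lit 209443279250) (nat_lit 76) (nat_lit 5465765074) (nat_lit 152) (nat_lit 116871718968) (nat_lit 22) (nat_lit 5) (nat_lit 23) (nat_lit 5) (nat_lit 24) (nat_lit 4) (nat_lit 413) (nat_lit 369) (nat_lit 238)) (XT.nd (nat_lit 78) (nat_lit 76) (nat_lit 0) (XT.lf (nat_lit 0) (nat_lit 101692597089) (nat_lit 76) (nat_lit 235302203780) (nat_lit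 76) (nat_lit 15186986850) (nat_lit 21) (nat_lit 4) (nat_lit 22) (nat_lit 5) (nat_lit 22) (nat_lit 4) (nat_lit 414) (nat_lit 369) (nat_lit 237)) (XT.lf (nat_lit 0) (nat_lit 93861073462) (nat_lit 152) (nat_lit 27700647866) (nat_lit 76) (nat_lit 252466429849) (nat_lit 20) (nat_lit 5) (nat_lit 22) (nat_lit 5) (nat_lit 21) (nat_lit 4) (nat_lit 415) (nat_lit 369) (nat_lit 236))))) (XT.nd (nat_lit 234) (nat_lit 152) (nat_lit 0) (XT.nd (nat_lit 78) (nat_lit 152) (nat_lit 0) (XT.lf (nat_lit 0) (nat_lit 214617578563) (nat_lit 152) (nat_lit 177833482725) (nat_lit 0) (nat_lit 4982880259) (nat_lit 19) (nat_lit 5) (nat_lit 21) (nat_lit 4) (nat_lit 19) (nat_lit 4) (nat_lit 416) (nat_lit 369) (nat_lit 235)) (XT.nd (nat_lit 78) (nat_lit 76) (nat_lit 0) (XT.lf (nat_lit 0) (nat_lit 65008476249) (nat_lit 76) (nat_lit 283580604552) (nat_lit 76) (nat_lit 73945390591) (nat_lit 18) (nat_lit 4) (nat_lit 19) (nat_lit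 5) (nat_lit 19) (nat_lit 4) (nat_lit 417) (nat_lit 369) (nat_lit 234)) (XT.lf (nat_lit 0) (nat_lit 45386527932) (nat_lit 152) (nat_lit 116593309160) (nat_lit 76) (nat_lit 287471749709) (nat_lit 17) (nat_lit 5) (nat_lit 19) (nat_lit 5) (nat_lit 18) (nat_lit 4) (nat_lit 418) (nat_lit 369) (nat_lit 233)))) (XT.nd (nat_lit 78) (nat_lit 76) (nat_lit 0) (XT.lf (nat_lit 0) (nat_lit 147073223405) (nat_lit 76) (nat_lit 26931340945) (nat_lit 152) (nat_lit 304340383647) (nat_lit 16) (nat_lit 5) (nat_lit 17) (nat_lit 5) (nat_lit 18) (nat_lit 4) (nat_lit 419) (nat_lit 369) (nat_lit 232)) (XT.nd (nat_lit 78) (nat_lit 76) (nat_lit 0) (XT.lf (nat_lit 0) (nat_lit 316832419065) (nat_lit 152) (nat_lit 75342771590) (nat_lit 0) (nat_lit 117178568724) (nat_lit 16) (nat_lit 5) (nat_lit 18) (nat_lit 4) (nat_lit 16) (nat_lit 4) (nat_lit 420) (nat_lit 369) (nat_lit 231)) (XT.lf (nat_lit 0) (nat_lit 207238243742) (nat_lit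 76) (nat_lit 267537393279) (nat_lit 76) (nat_lit 67883181963) (nat_lit 15) (nat_lit 4) (nat_lit 16) (nat_lit 5) (nat_lit 16) (nat_lit 4) (nat_lit 421) (nat_lit 369) (nat_lit 230)))))) (XT.nd (nat_lit 468) (nat_lit 76) (nat_lit 0) (XT.nd (nat_lit 234) (nat_lit 228) (nat_lit 0) (XT.nd (nat_lit 78) (nat_lit 76) (nat_lit 0) (XT.lf (nat_lit 0) (nat_lit 65923786541) (nat_lit 152) (nat_lit 64510783140) (nat_lit 76) (nat_lit 448074954354) (nat_lit 14) (nat_lit 5) (nat_lit 16) (nat_lit 5) (nat_lit 15) (nat_lit 4) (nat_lit 422) (nat_lit 369) (nat_lit 229)) (XT.nd (nat_lit 78) (nat_lit 0) (nat_lit 0) (XT.lf (nat_lit 0) (nat_lit 212102534538) (nat_lit 152) (nat_lit 382912779583) (nat_lit 0) (nat_lit 21955053559) (nat_lit 13) (nat_lit 5) (nat_lit 15) (nat_lit 4) (nat_lit 13) (nat_lit 4) (nat_lit 423) (nat_lit 369) (nat_lit 228)) (XT.lf (nat_lit 0) (nat_lit 373316629609) (nat_lit 152) (nat_lit 101855521168)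 (nat_lit 0) (nat_lit 183168875722) (nat_lit 13) (nat_lit 5) (nat_lit 15) (nat_lit 4) (nat_lit 13) (nat_lit 4) (nat_lit 424) (nat_lit 369) (nat_lit 227)))) (XT.nd (nat_lit 78) (nat_lit 152) (nat_lit 0) (XT.lf (nat_lit 0) (nat_lit 208354088430) (nat_lit 76) (nat_lit 342326314342) (nat_lit 76) (nat_lit 152178307763) (nat_lit 12) (nat_lit 4) (nat_lit 13) (nat_lit 5) (nat_lit 13) (nat_lit 4) (nat_lit 425) (nat_lit 369) (nat_lit 226)) (XT.nd (nat_lit 78) (nat_lit 152) (nat_lit 0) (XT.lf (nat_lit 0) (nat_lit 547016870526) (nat_lit 76) (nat_lit 196990243768) (nat_lit 76) (nat_lit 6842003214) (nat_lit 12) (nat_lit 4) (nat_lit 13) (nat_lit 5) (nat_lit 13) (nat_lit 4) (nat_lit 426) (nat_lit 369) (nat_lit 225)) (XT.lf (nat_lit 0) (nat_lit 111312008685) (nat_lit 76) (nat_lit 35741877110) (nat_lit 152) (nat_lit 655420805827) (nat_lit 10) (nat_lit 5) (nat_lit 11) (nat_lit 5) (nat_lit 12) (nat_lit 4) (nat_lit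 427) (nat_lit 369) (nat_lit 224))))) (XT.nd (nat_lit 234) (nat_lit 0) (nat_lit 0) (XT.nd (nat_lit 78) (nat_lit 76) (nat_lit 0) (XT.lf (nat_lit 0) (nat_lit 318794300392) (nat_lit 152) (nat_lit 401441434267) (nat_lit 0) (nat_lit 137700340590) (nat_lit 10) (nat_lit 5) (nat_lit 12) (nat_lit 4) (nat_lit 10) (nat_lit 4) (nat_lit 428) (nat_lit 369) (nat_lit 223)) (XT.nd (nat_lit 78) (nat_lit 76) (nat_lit 0) (XT.lf (nat_lit 0) (nat_lit 504876265819) (nat_lit 152) (nat_lit 89145858765) (nat_lit 0) (nat_lit 323782129126) (nat_lit 10) (nat_lit 5) (nat_lit 12) (nat_lit 4) (nat_lit 10) (nat_lit 4) (nat_lit 429) (nat_lit 369) (nat_lit 222)) (XT.lf (nat_lit 0) (nat_lit 256337103036) (nat_lit 76) (nat_lit 453509496679) (nat_lit 76) (nat_lit 272415196197) (nat_lit 9) (nat_lit 4) (nat_lit 10) (nat_lit 5) (nat_lit 10) (nat_lit 4) (nat_lit 430) (nat_lit 369) (nat_lit 221)))) (XT.nd (nat_lit 48438) (nat_lit 0)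 (nat_lit 7752) (XT.nd (nat_lit 48360) (nat_lit 0) (nat_lit 7676) (XT.lf (nat_lit 0) (nat_lit 632641451905) (nat_lit 76) (nat_lit 300125657154) (nat_lit 76) (nat_lit 119031205016) (nat_lit 9) (nat_lit 4) (nat_lit 10) (nat_lit 5) (nat_lit 10) (nat_lit 4) (nat_lit 431) (nat_lit 369) (nat_lit 220)) (XT.lf (nat_lit 0) (nat_lit 4369526010) (nat_lit 836) (nat_lit 8059270926) (nat_lit 836) (nat_lit 8059270926) (nat_lit 110) (nat_lit 3) (nat_lit 121) (nat_lit 3) (nat_lit 121) (nat_lit 5) (nat_lit 370) (nat_lit 370) (nat_lit 280))) (XT.nd (nat_lit 78) (nat_lit 0) (nat_lit 0) (XT.lf (nat_lit 0) (nat_lit 9500552341) (nat_lit 760) (nat_lit 26720900683) (nat_lit 836) (nat_lit 6373089113) (nat_lit 111) (nat_lit 5) (nat_lit 121) (nat_lit 5) (nat_lit 122) (nat_lit 5) (nat_lit 371) (nat_lit 370) (nat_lit 279)) (XT.lf (nat_lit 76) (nat_lit 6451561798) (nat_lit 0) (nat_lit 4670686779) (nat_lit 836) (nat_lit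 33180212901) (nat_lit 112) (nat_lit 5) (nat_lit 111) (nat_lit 5) (nat_lit 122) (nat_lit 5) (nat_lit 372) (nat_lit 370) (nat_lit 278))))))))
noncomputable def xc95 : XT := (XT.nd (nat_lit 1872) (nat_lit 2432) (nat_lit 0) (XT.nd (nat_lit 936) (nat_lit 2356) (nat_lit 0) (XT.nd (nat_lit 468) (nat_lit 1976) (nat_lit 0) (XT.nd (nat_lit 234) (nat_lit 532) (nat_lit 0) (XT.nd (nat_lit 78) (nat_lit 0) (nat_lit 76) (XT.lf (nat_lit 0) (nat_lit 13800302451) (nat_lit 760) (nat_lit 3362183923) (nat_lit 836) (nat_lit 28938200796) (nat_lit 112) (nat_lit 5) (nat_lit 122) (nat_lit 5) (nat_lit 123) (nat_lit 5) (nat_lit 373) (nat_lit 370) (nat_lit 277)) (XT.nd (nat_lit 78) (nat_lit 0) (nat_lit 76) (XT.lf (nat_lit 0) (nat_lit 17586369997) (nat_lit 760) (nat_lit 13365672613) (nat_lit 836) (nat_lit 17046043452) (nat_lit 113) (nat_lit 5) (nat_lit 123) (nat_lit 5) (nat_lit 124) (nat_lit 5) (nat_lit 374) (nat_lit 370)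 (nat_lit 276)) (XT.lf (nat_lit 0) (nat_lit 22490174785) (nat_lit 760) (nat_lit 23780021074) (nat_lit 836) (nat_lit 3736341758) (nat_lit 114) (nat_lit 5) (nat_lit 124) (nat_lit 5) (nat_lit 125) (nat_lit 5) (nat_lit 375) (nat_lit 370) (nat_lit 275)))) (XT.nd (nat_lit 78) (nat_lit 684) (nat_lit 0) (XT.lf (nat_lit 76) (nat_lit 17324431813) (nat_lit 0) (nat_lit 11486411580) (nat_lit 836) (nat_lit 23313597028) (nat_lit 115) (nat_lit 5) (nat_lit 114) (nat_lit 5) (nat_lit 125) (nat_lit 5) (nat_lit 376) (nat_lit 370) (nat_lit 274)) (XT.nd (nat_lit 78) (nat_lit 0) (nat_lit 0) (XT.lf (nat_lit 0) (nat_lit 8014145521) (nat_lit 760) (nat_lit 28572166838) (nat_lit 836) (nat_lit 17778008614) (nat_lit 105) (nat_lit 5) (nat_lit 115) (nat_lit 5) (nat_lit 116) (nat_lit 5) (nat_lit 377) (nat_lit 370) (nat_lit 273)) (XT.lf (nat_lit 0) (nat_lit 45925210468) (nat_lit 836) (nat_lit 1599854002) (nat_lit 76) (nat_lit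 9211260573) (nat_lit 105) (nat_lit 5) (nat_lit 116) (nat_lit 5) (nat_lit 106) (nat_lit 5) (nat_lit 378) (nat_lit 370) (nat_lit 272))))) (XT.nd (nat_lit 234) (nat_lit 836) (nat_lit 0) (XT.nd (nat_lit 78) (nat_lit 760) (nat_lit 0) (XT.lf (nat_lit 0) (nat_lit 47774290245) (nat_lit 380) (nat_lit 9460967024) (nat_lit 456) (nat_lit 2001632784) (nat_lit 100) (nat_lit 5) (nat_lit 105) (nat_lit 5) (nat_lit 106) (nat_lit 5) (nat_lit 379) (nat_lit 370) (nat_lit 271)) (XT.nd (nat_lit 78) (nat_lit 380) (nat_lit 0) (XT.lf (nat_lit 0) (nat_lit 8434467482) (nat_lit 380) (nat_lit 22014770335) (nat_lit 76) (nat_lit 31424284459) (nat_lit 95) (nat_lit 5) (nat_lit 100) (nat_lit 5) (nat_lit 96) (nat_lit 5) (nat_lit 380) (nat_lit 370) (nat_lit 270)) (XT.lf (nat_lit 0) (nat_lit 20668565319) (nat_lit 456) (nat_lit 33051330504) (nat_lit 76) (nat_lit 10947888726) (nat_lit 90) (nat_lit 5) (nat_lit 96) (nat_lit 5) (nat_lit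 91) (nat_lit 5) (nat_lit 381) (nat_lit 370) (nat_lit 269)))) (XT.nd (nat_lit 78) (nat_lit 532) (nat_lit 0) (XT.lf (nat_lit 0) (nat_lit 22866580606) (nat_lit 304) (nat_lit 12271938447) (nat_lit 380) (nat_lit 32484214206) (nat_lit 86) (nat_lit 5) (nat_lit 90) (nat_lit 5) (nat_lit 91) (nat_lit 5) (nat_lit 382) (nat_lit 370) (nat_lit 268)) (XT.nd (nat_lit 78) (nat_lit 228) (nat_lit 0) (XT.lf (nat_lit 0) (nat_lit 13566915886) (nat_lit 304) (nat_lit 38500517793) (nat_lit 380) (nat_lit 18681577678) (nat_lit 82) (nat_lit 5) (nat_lit 86) (nat_lit 5) (nat_lit 87) (nat_lit 5) (nat_lit 383) (nat_lit 370) (nat_lit 267)) (XT.lf (nat_lit 0) (nat_lit 3881703366) (nat_lit 228) (nat_lit 67613162168) (nat_lit 304) (nat_lit 2573317561) (nat_lit 79) (nat_lit 5) (nat_lit 82) (nat_lit 5) (nat_lit 83) (nat_lit 5) (nat_lit 384) (nat_lit 370) (nat_lit 266)))))) (XT.nd (nat_lit 468) (nat_lit 988) (nat_lit 0) (XT.nd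 (nat_lit 234) (nat_lit 760) (nat_lit 0) (XT.nd (nat_lit 78) (nat_lit 532) (nat_lit 0) (XT.lf (nat_lit 0) (nat_lit 16008099601) (nat_lit 304) (nat_lit 6630867946) (nat_lit 76) (nat_lit 54919403323) (nat_lit 78) (nat_lit 5) (nat_lit 82) (nat_lit 5) (nat_lit 79) (nat_lit 5) (nat_lit 385) (nat_lit 370) (nat_lit 265)) (XT.nd (nat_lit 78) (nat_lit 228) (nat_lit 0) (XT.lf (nat_lit 0) (nat_lit 37405997318) (nat_lit 380) (nat_lit 17686300630) (nat_lit 76) (nat_lit 26162361558) (nat_lit 74) (nat_lit 5) (nat_lit 79) (nat_lit 5) (nat_lit 75) (nat_lit 5) (nat_lit 386) (nat_lit 370) (nat_lit 264)) (XT.lf (nat_lit 0) (nat_lit 55777942114) (nat_lit 228) (nat_lit 6105439260) (nat_lit 304) (nat_lit 23294888338) (nat_lit 71) (nat_lit 5) (nat_lit 74) (nat_lit 5) (nat_lit 75) (nat_lit 5) (nat_lit 387) (nat_lit 370) (nat_lit 263)))) (XT.nd (nat_lit 78) (nat_lit 456) (nat_lit 0) (XT.lf (nat_lit 0) (nat_lit 744704605)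 (nat_lit 304) (nat_lit 42219062094) (nat_lit 76) (nat_lit 46362538696) (nat_lit 67) (nat_lit 5) (nat_lit 71) (nat_lit 5) (nat_lit 68) (nat_lit 5) (nat_lit 388) (nat_lit 370) (nat_lit 262)) (XT.nd (nat_lit 78) (nat_lit 228) (nat_lit 0) (XT.lf (nat_lit 0) (nat_lit 27277626643) (nat_lit 304) (nat_lit 56187070785) (nat_lit 76) (nat_lit 10253078265) (nat_lit 64) (nat_lit 5) (nat_lit 68) (nat_lit 5) (nat_lit 65) (nat_lit 5) (nat_lit 389) (nat_lit 370) (nat_lit 261)) (XT.lf (nat_lit 0) (nat_lit 26864656699) (nat_lit 228) (nat_lit 30957858648) (nat_lit 304) (nat_lit 40543582533) (nat_lit 61) (nat_lit 5) (nat_lit 64) (nat_lit 5) (nat_lit 65) (nat_lit 5) (nat_lit 390) (nat_lit 370) (nat_lit 260))))) (XT.nd (nat_lit 234) (nat_lit 532) (nat_lit 0) (XT.nd (nat_lit 78) (nat_lit 304) (nat_lit 0) (XT.lf (nat_lit 0) (nat_lit 15298247587) (nat_lit 152) (nat_lit 77146465555) (nat_lit 228) (nat_lit 10859887643)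 (nat_lit 59) (nat_lit 5) (nat_lit 61) (nat_lit 5) (nat_lit 62) (nat_lit 5) (nat_lit 391) (nat_lit 370) (nat_lit 259)) (XT.nd (nat_lit 78) (nat_lit 0) (nat_lit 0) (XT.lf (nat_lit 0) (nat_lit 2213906799) (nat_lit 228) (nat_lit 20126738950) (nat_lit 304) (nat_lit 86189959147) (nat_lit 55) (nat_lit 5) (nat_lit 58) (nat_lit 5) (nat_lit 59) (nat_lit 5) (nat_lit 392) (nat_lit 370) (nat_lit 258)) (XT.lf (nat_lit 0) (nat_lit 60025407971) (nat_lit 304) (nat_lit 12161849970) (nat_lit 76) (nat_lit 41868097350) (nat_lit 55) (nat_lit 5) (nat_lit 59) (nat_lit 5) (nat_lit 56) (nat_lit 5) (nat_lit 393) (nat_lit 370) (nat_lit 257)))) (XT.nd (nat_lit 78) (nat_lit 380) (nat_lit 0) (XT.lf (nat_lit 0) (nat_lit 92132220195) (nat_lit 152) (nat_lit 10368889219) (nat_lit 228) (nat_lit 17432169026) (nat_lit 53) (nat_lit 5) (nat_lit 55) (nat_lit 5) (nat_lit 56) (nat_lit 5) (nat_lit 394) (nat_lit 370) (nat_lit 256))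 (XT.nd (nat_lit 78) (nat_lit 152) (nat_lit 0) (XT.lf (nat_lit 0) (nat_lit 23777916306) (nat_lit 228) (nat_lit 45919958530) (nat_lit 76) (nat_lit 56446733522) (nat_lit 50) (nat_lit 5) (nat_lit 53) (nat_lit 5) (nat_lit 51) (nat_lit 5) (nat_lit 395) (nat_lit 370) (nat_lit 255)) (XT.lf (nat_lit 0) (nat_lit 66712562452) (nat_lit 152) (nat_lit 2676763103) (nat_lit 228) (nat_lit 63363468203) (nat_lit 48) (nat_lit 5) (nat_lit 50) (nat_lit 5) (nat_lit 51) (nat_lit 5) (nat_lit 396) (nat_lit 370) (nat_lit 254))))))) (XT.nd (nat_lit 936) (nat_lit 912) (nat_lit 0) (XT.nd (nat_lit 468) (nat_lit 684) (nat_lit 0) (XT.nd (nat_lit 234) (nat_lit 304) (nat_lit 0) (XT.nd (nat_lit 78) (nat_lit 380) (nat_lit 0) (XT.lf (nat_lit 0) (nat_lit 50663520501) (nat_lit 152) (nat_lit 70676970713) (nat_lit 228) (nat_lit 18414601074) (nat_lit 46) (nat_lit 5) (nat_lit 48) (nat_lit 5) (nat_lit 49) (nat_lit 5) (nat_lit 397) (nat_lit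 370) (nat_lit 253)) (XT.nd (nat_lit 78) (nat_lit 152) (nat_lit 0) (XT.lf (nat_lit 0) (nat_lit 30905148702) (nat_lit 228) (nat_lit 114931535657) (nat_lit 76) (nat_lit 1370403591) (nat_lit 43) (nat_lit 5) (nat_lit 46) (nat_lit 5) (nat_lit 44) (nat_lit 5) (nat_lit 398) (nat_lit 370) (nat_lit 252)) (XT.lf (nat_lit 0) (nat_lit 10150694854) (nat_lit 152) (nat_lit 76309466298) (nat_lit 228) (nat_lit 68633246539) (nat_lit 41) (nat_lit 5) (nat_lit 43) (nat_lit 5) (nat_lit 44) (nat_lit 5) (nat_lit 399) (nat_lit 370) (nat_lit 251)))) (XT.nd (nat_lit 78) (nat_lit 304) (nat_lit 0) (XT.lf (nat_lit 0) (nat_lit 148474064087) (nat_lit 228) (nat_lit 14182913511) (nat_lit 76) (nat_lit 852931305) (nat_lit 41) (nat_lit 5) (nat_lit 44) (nat_lit 5) (nat_lit 42) (nat_lit 4) (nat_lit 400) (nat_lit 370) (nat_lit 250)) (XT.nd (nat_lit 78) (nat_lit 152) (nat_lit 0) (XT.lf (nat_lit 0) (nat_lit 44845931301) (nat_lit 152)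 (nat_lit 43250702875) (nat_lit 76) (nat_lit 84301244983) (nat_lit 39) (nat_lit 5) (nat_lit 41) (nat_lit 5) (nat_lit 40) (nat_lit 5) (nat_lit 401) (nat_lit 370) (nat_lit 249)) (XT.lf (nat_lit 0) (nat_lit 105585354282) (nat_lit 152) (nat_lit 5311567175) (nat_lit 228) (nat_lit 70992368678) (nat_lit 37) (nat_lit 5) (nat_lit 39) (nat_lit 5) (nat_lit 40) (nat_lit 5) (nat_lit 402) (nat_lit 370) (nat_lit 248))))) (XT.nd (nat_lit 234) (nat_lit 304) (nat_lit 0) (XT.nd (nat_lit 78) (nat_lit 304) (nat_lit 0) (XT.lf (nat_lit 0) (nat_lit 76904500702) (nat_lit 76) (nat_lit 108605778864) (nat_lit 152) (nat_lit 6465820261) (nat_lit 36) (nat_lit 5) (nat_lit 37) (nat_lit 5) (nat_lit 38) (nat_lit 4) (nat_lit 403) (nat_lit 370) (nat_lit 247)) (XT.nd (nat_lit 78) (nat_lit 76) (nat_lit 0) (XT.lf (nat_lit 0) (nat_lit 42552550772) (nat_lit 152) (nat_lit 20750558224) (nat_lit 228) (nat_lit 139412202094) (nat_lit 33)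 (nat_lit 5) (nat_lit 35) (nat_lit 5) (nat_lit 36) (nat_lit 5) (nat_lit 404) (nat_lit 370) (nat_lit 246)) (XT.lf (nat_lit 0) (nat_lit 1426804779) (nat_lit 76) (nat_lit 140219220209) (nat_lit 152) (nat_lit 72501384476) (nat_lit 32) (nat_lit 5) (nat_lit 33) (nat_lit 5) (nat_lit 34) (nat_lit 4) (nat_lit 405) (nat_lit 370) (nat_lit 245)))) (XT.nd (nat_lit 78) (nat_lit 228) (nat_lit 0) (XT.lf (nat_lit 0) (nat_lit 2954440423) (nat_lit 152) (nat_lit 45085469787) (nat_lit 76) (nat_lit 178295124558) (nat_lit 31) (nat_lit 5) (nat_lit 33) (nat_lit 5) (nat_lit 32) (nat_lit 5) (nat_lit 406) (nat_lit 370) (nat_lit 244)) (XT.nd (nat_lit 78) (nat_lit 76) (nat_lit 0) (XT.lf (nat_lit 0) (nat_lit 84972737265) (nat_lit 228) (nat_lit 100996634202) (nat_lit 76) (nat_lit 53315566385) (nat_lit 29) (nat_lit 5) (nat_lit 32) (nat_lit 5) (nat_lit 30) (nat_lit 4) (nat_lit 407) (nat_lit 370) (nat_lit 243)) (XT.lf (nat_lit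 0) (nat_lit 86659440517) (nat_lit 76) (nat_lit 89853411310) (nat_lit 152) (nat_lit 76609963826) (nat_lit 28) (nat_lit 5) (nat_lit 29) (nat_lit 5) (nat_lit 30) (nat_lit 4) (nat_lit 408) (nat_lit 370) (nat_lit 242)))))) (XT.nd (nat_lit 468) (nat_lit 456) (nat_lit 0) (XT.nd (nat_lit 234) (nat_lit 228) (nat_lit 0) (XT.nd (nat_lit 78) (nat_lit 76) (nat_lit 0) (XT.lf (nat_lit 0) (nat_lit 9517507572) (nat_lit 152) (nat_lit 242577661787) (nat_lit 76) (nat_lit 15844700608) (nat_lit 26) (nat_lit 5) (nat_lit 28) (nat_lit 5) (nat_lit 27) (nat_lit 4) (nat_lit 409) (nat_lit 370) (nat_lit 241)) (XT.nd (nat_lit 78) (nat_lit 76) (nat_lit 0) (XT.lf (nat_lit 0) (nat_lit 104348473029) (nat_lit 152) (nat_lit 48175129866) (nat_lit 76) (nat_lit 131131024005) (nat_lit 26) (nat_lit 5) (nat_lit 28) (nat_lit 5) (nat_lit 27) (nat_lit 4) (nat_lit 410) (nat_lit 370) (nat_lit 240)) (XT.lf (nat_lit 0) (nat_lit 167127234026)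 (nat_lit 76) (nat_lit 42247210216) (nat_lit 152) (nat_lit 91121693846) (nat_lit 25) (nat_lit 5) (nat_lit 26) (nat_lit 5) (nat_lit 27) (nat_lit 4) (nat_lit 411) (nat_lit 370) (nat_lit 239)))) (XT.nd (nat_lit 78) (nat_lit 76) (nat_lit 0) (XT.lf (nat_lit 0) (nat_lit 7407735795) (nat_lit 152) (nat_lit 234424797618) (nat_lit 76) (nat_lit 76678122606) (nat_lit 23) (nat_lit 5) (nat_lit 25) (nat_lit 5) (nat_lit 24) (nat_lit 4) (nat_lit 412) (nat_lit 370) (nat_lit 238)) (XT.nd (nat_lit 78) (nat_lit 76) (nat_lit 0) (XT.lf (nat_lit 0) (nat_lit 113742643810) (nat_lit 152) (nat_lit 16438952346) (nat_lit 76) (nat_lit 207554270205) (nat_lit 23) (nat_lit 5) (nat_lit 25) (nat_lit 5) (nat_lit 24) (nat_lit 4) (nat_lit 413) (nat_lit 370) (nat_lit 237)) (XT.lf (nat_lit 0) (nat_lit 226225069285) (nat_lit 76) (nat_lit 5890591473) (nat_lit 152) (nat_lit 126206867056) (nat_lit 22) (nat_lit 5) (nat_lit 23) (nat_lit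 5) (nat_lit 24) (nat_lit 4) (nat_lit 414) (nat_lit 370) (nat_lit 236))))) (XT.nd (nat_lit 234) (nat_lit 228) (nat_lit 0) (XT.nd (nat_lit 78) (nat_lit 152) (nat_lit 0) (XT.lf (nat_lit 0) (nat_lit 109853668947) (nat_lit 76) (nat_lit 254114160227) (nat_lit 76) (nat_lit 16387827595) (nat_lit 21) (nat_lit 4) (nat_lit 22) (nat_lit 5) (nat_lit 22) (nat_lit 4) (nat_lit 415) (nat_lit 370) (nat_lit 235)) (XT.nd (nat_lit 78) (nat_lit 76) (nat_lit 0) (XT.lf (nat_lit 0) (nat_lit 101382613350) (nat_lit 152) (nat_lit 29892516702) (nat_lit 76) (nat_lit 272674638970) (nat_lit 20) (nat_lit 5) (nat_lit 22) (nat_lit 5) (nat_lit 21) (nat_lit 4) (nat_lit 416) (nat_lit 370) (nat_lit 234)) (XT.lf (nat_lit 0) (nat_lit 231799235268) (nat_lit 152) (nat_lit 192036596574) (nat_lit 0) (nat_lit 5392211074) (nat_lit 19) (nat_lit 5) (nat_lit 21) (nat_lit 4) (nat_lit 19) (nat_lit 4) (nat_lit 417) (nat_lit 370) (nat_lit 233))))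 (XT.nd (nat_lit 156) (nat_lit 76) (nat_lit 0) (XT.nd (nat_lit 78) (nat_lit 76) (nat_lit 0) (XT.lf (nat_lit 0) (nat_lit 70231695022) (nat_lit 76) (nat_lit 306256207148) (nat_lit 76) (nat_lit 79848740861) (nat_lit 18) (nat_lit 4) (nat_lit 19) (nat_lit 5) (nat_lit 19) (nat_lit 4) (nat_lit 418) (nat_lit 370) (nat_lit 232)) (XT.lf (nat_lit 0) (nat_lit 49028457489) (nat_lit 152) (nat_lit 125899537777) (nat_lit 76) (nat_lit 310479166942) (nat_lit 17) (nat_lit 5) (nat_lit 19) (nat_lit 5) (nat_lit 18) (nat_lit 4) (nat_lit 419) (nat_lit 370) (nat_lit 231))) (XT.nd (nat_lit 78) (nat_lit 0) (nat_lit 0) (XT.lf (nat_lit 0) (nat_lit 158859394498) (nat_lit 76) (nat_lit 29076044112) (nat_lit 152) (nat_lit 328676578687) (nat_lit 16) (nat_lit 5) (nat_lit 17) (nat_lit 5) (nat_lit 18) (nat_lit 4) (nat_lit 420) (nat_lit 370) (nat_lit 230)) (XT.lf (nat_lit 0) (nat_lit 342188884981) (nat_lit 152) (nat_lit 81351038974)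 (nat_lit 0) (nat_lit 126561641551) (nat_lit 16) (nat_lit 5) (nat_lit 18) (nat_lit 4) (nat_lit 16) (nat_lit 4) (nat_lit 421) (nat_lit 370) (nat_lit 229))))))))
noncomputable def xc96 : XT := (XT.nd (nat_lit 50232) (nat_lit 0) (nat_lit 1444) (XT.nd (nat_lit 49296) (nat_lit 0) (nat_lit 5548) (XT.nd (nat_lit 468) (nat_lit 228) (nat_lit 0) (XT.nd (nat_lit 234) (nat_lit 76) (nat_lit 0) (XT.nd (nat_lit 78) (nat_lit 152) (nat_lit 0) (XT.lf (nat_lit 0) (nat_lit 223835625160) (nat_lit 76) (nat_lit 288931489982) (nat_lit 76) (nat_lit 73303937074) (nat_lit 15) (nat_lit 4) (nat_lit 16) (nat_lit 5) (nat_lit 16) (nat_lit 4) (nat_lit 422) (nat_lit 370) (nat_lit 228)) (XT.nd (nat_lit 78) (nat_lit 76) (nat_lit 0) (XT.lf (nat_lit 0) (nat_lit 71206562244) (nat_lit 152) (nat_lit 69654386858) (nat_lit 76) (nat_lit 483928892396) (nat_lit 14) (nat_lit 5) (nat_lit 16) (nat_lit 5) (nat_lit 15) (nat_lit 4) (nat_lit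 423) (nat_lit 370) (nat_lit 227)) (XT.lf (nat_lit 0) (nat_lit 229079336046) (nat_lit 152) (nat_lit 413528994104) (nat_lit 0) (nat_lit 23719236249) (nat_lit 13) (nat_lit 5) (nat_lit 15) (nat_lit 4) (nat_lit 13) (nat_lit 4) (nat_lit 424) (nat_lit 370) (nat_lit 226)))) (XT.nd (nat_lit 78) (nat_lit 76) (nat_lit 0) (XT.lf (nat_lit 0) (nat_lit 403189921778) (nat_lit 152) (nat_lit 109988400041) (nat_lit 0) (nat_lit 197829588006) (nat_lit 13) (nat_lit 5) (nat_lit 15) (nat_lit 4) (nat_lit 13) (nat_lit 4) (nat_lit 425) (nat_lit 370) (nat_lit 225)) (XT.nd (nat_lit 78) (nat_lit 0) (nat_lit 0) (XT.lf (nat_lit 0) (nat_lit 225037301983) (nat_lit 76) (nat_lit 369705137468) (nat_lit 76) (nat_lit 164344587054) (nat_lit 12) (nat_lit 4) (nat_lit 13) (nat_lit 5) (nat_lit 13) (nat_lit 4) (nat_lit 426) (nat_lit 370) (nat_lit 224)) (XT.lf (nat_lit 0) (nat_lit 590792003945) (nat_lit 76) (nat_lit 212742720657) (nat_lit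 76) (nat_lit 7381969647) (nat_lit 12) (nat_lit 4) (nat_lit 13) (nat_lit 5) (nat_lit 13) (nat_lit 4) (nat_lit 427) (nat_lit 370) (nat_lit 223))))) (XT.nd (nat_lit 234) (nat_lit 76) (nat_lit 0) (XT.nd (nat_lit 78) (nat_lit 0) (nat_lit 0) (XT.lf (nat_lit 0) (nat_lit 120230381044) (nat_lit 76) (nat_lit 38594652024) (nat_lit 152) (nat_lit 707847291532) (nat_lit 10) (nat_lit 5) (nat_lit 11) (nat_lit 5) (nat_lit 12) (nat_lit 4) (nat_lit 428) (nat_lit 370) (nat_lit 222)) (XT.nd (nat_lit 78) (nat_lit 0) (nat_lit 0) (XT.lf (nat_lit 0) (nat_lit 344304269485) (nat_lit 152) (nat_lit 433544108863) (nat_lit 0) (nat_lit 148722261176) (nat_lit 10) (nat_lit 5) (nat_lit 12) (nat_lit 4) (nat_lit 10) (nat_lit 4) (nat_lit 429) (nat_lit 370) (nat_lit 221)) (XT.lf (nat_lit 0) (nat_lit 545272316216) (nat_lit 152) (nat_lit 96265823628) (nat_lit 0) (nat_lit 349690156250) (nat_lit 10) (nat_lit 5) (nat_lit 12) (nat_lit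 4) (nat_lit 10) (nat_lit 4) (nat_lit 430) (nat_lit 370) (nat_lit 220)))) (XT.nd (nat_lit 48438) (nat_lit 0) (nat_lit 7676) (XT.lf (nat_lit 0) (nat_lit 276855266482) (nat_lit 76) (nat_lit 489784744453) (nat_lit 76) (nat_lit 294202444065) (nat_lit 9) (nat_lit 4) (nat_lit 10) (nat_lit 5) (nat_lit 10) (nat_lit 4) (nat_lit 431) (nat_lit 370) (nat_lit 219)) (XT.nd (nat_lit 78) (nat_lit 0) (nat_lit 76) (XT.lf (nat_lit 0) (nat_lit 4777283343) (nat_lit 836) (nat_lit 8673439546) (nat_lit 836) (nat_lit 8673439546) (nat_lit 110) (nat_lit 3) (nat_lit 121) (nat_lit 3) (nat_lit 121) (nat_lit 5) (nat_lit 371) (nat_lit 371) (nat_lit 278)) (XT.lf (nat_lit 0) (nat_lit 10368495029) (nat_lit 760) (nat_lit 28793790096) (nat_lit 836) (nat_lit 6834349358) (nat_lit 111) (nat_lit 5) (nat_lit 121) (nat_lit 5) (nat_lit 122) (nat_lit 5) (nat_lit 372) (nat_lit 371) (nat_lit 277)))))) (XT.nd (nat_lit 468) (nat_lit 1748)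 (nat_lit 0) (XT.nd (nat_lit 234) (nat_lit 456) (nat_lit 0) (XT.nd (nat_lit 78) (nat_lit 0) (nat_lit 76) (XT.lf (nat_lit 76) (nat_lit 7029654009) (nat_lit 0) (nat_lit 5083247956) (nat_lit 836) (nat_lit 35728642294) (nat_lit 112) (nat_lit 5) (nat_lit 111) (nat_lit 5) (nat_lit 122) (nat_lit 5) (nat_lit 373) (nat_lit 371) (nat_lit 276)) (XT.nd (nat_lit 78) (nat_lit 0) (nat_lit 76) (XT.lf (nat_lit 0) (nat_lit 14997165598) (nat_lit 760) (nat_lit 3568483785) (nat_lit 836) (nat_lit 31218385571) (nat_lit 112) (nat_lit 5) (nat_lit 122) (nat_lit 5) (nat_lit 123) (nat_lit 5) (nat_lit 374) (nat_lit 371) (nat_lit 275)) (XT.lf (nat_lit 0) (nat_lit 19079756875) (nat_lit 760) (nat_lit 14370149315) (nat_lit 836) (nat_lit 18383642482) (nat_lit 113) (nat_lit 5) (nat_lit 123) (nat_lit 5) (nat_lit 124) (nat_lit 5) (nat_lit 375) (nat_lit 371) (nat_lit 274)))) (XT.nd (nat_lit 78) (nat_lit 684) (nat_lit 0) (XT.lf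 (nat_lit 0) (nat_lit 24370129877) (nat_lit 760) (nat_lit 25616055059) (nat_lit 836) (nat_lit 4016782700) (nat_lit 114) (nat_lit 5) (nat_lit 124) (nat_lit 5) (nat_lit 125) (nat_lit 5) (nat_lit 376) (nat_lit 371) (nat_lit 273)) (XT.nd (nat_lit 78) (nat_lit 684) (nat_lit 0) (XT.lf (nat_lit 76) (nat_lit 18773869800) (nat_lit 0) (nat_lit 12417592505) (nat_lit 836) (nat_lit 25099093985) (nat_lit 115) (nat_lit 5) (nat_lit 114) (nat_lit 5) (nat_lit 125) (nat_lit 5) (nat_lit 377) (nat_lit 371) (nat_lit 272)) (XT.lf (nat_lit 0) (nat_lit 8719857416) (nat_lit 760) (nat_lit 30864331083) (nat_lit 836) (nat_lit 19125681638) (nat_lit 105) (nat_lit 5) (nat_lit 115) (nat_lit 5) (nat_lit 116) (nat_lit 5) (nat_lit 378) (nat_lit 371) (nat_lit 271))))) (XT.nd (nat_lit 234) (nat_lit 988) (nat_lit 0) (XT.nd (nat_lit 78) (nat_lit 760) (nat_lit 0) (XT.lf (nat_lit 0) (nat_lit 49664848946) (nat_lit 836) (nat_lit 1664623298)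 (nat_lit 76) (nat_lit 9942433317) (nat_lit 105) (nat_lit 5) (nat_lit 116) (nat_lit 5) (nat_lit 106) (nat_lit 5) (nat_lit 379) (nat_lit 371) (nat_lit 270)) (XT.nd (nat_lit 78) (nat_lit 380) (nat_lit 0) (XT.lf (nat_lit 0) (nat_lit 51656705068) (nat_lit 380) (nat_lit 10219077693) (nat_lit 456) (nat_lit 2096932138) (nat_lit 100) (nat_lit 5) (nat_lit 105) (nat_lit 5) (nat_lit 106) (nat_lit 5) (nat_lit 380) (nat_lit 371) (nat_lit 269)) (XT.lf (nat_lit 0) (nat_lit 9168280064) (nat_lit 380) (nat_lit 23713110583) (nat_lit 76) (nat_lit 33939024395) (nat_lit 95) (nat_lit 5) (nat_lit 100) (nat_lit 5) (nat_lit 96) (nat_lit 5) (nat_lit 381) (nat_lit 371) (nat_lit 268)))) (XT.nd (nat_lit 78) (nat_lit 608) (nat_lit 0) (XT.lf (nat_lit 0) (nat_lit 22377739881) (nat_lit 456) (nat_lit 35632582163) (nat_lit 76) (nat_lit 11828067231) (nat_lit 90) (nat_lit 5) (nat_lit 96) (nat_lit 5) (nat_lit 91) (nat_lit 5) (nat_lit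 382) (nat_lit 371) (nat_lit 267)) (XT.nd (nat_lit 78) (nat_lit 304) (nat_lit 0) (XT.lf (nat_lit 0) (nat_lit 24756030244) (nat_lit 304) (nat_lit 13246073226) (nat_lit 380) (nat_lit 35027792223) (nat_lit 86) (nat_lit 5) (nat_lit 90) (nat_lit 5) (nat_lit 91) (nat_lit 5) (nat_lit 383) (nat_lit 371) (nat_lit 266)) (XT.lf (nat_lit 0) (nat_lit 14712206454) (nat_lit 304) (nat_lit 41570281660) (nat_lit 380) (nat_lit 20123932385) (nat_lit 82) (nat_lit 5) (nat_lit 86) (nat_lit 5) (nat_lit 87) (nat_lit 5) (nat_lit 384) (nat_lit 371) (nat_lit 265))))))) (XT.nd (nat_lit 936) (nat_lit 1672) (nat_lit 0) (XT.nd (nat_lit 468) (nat_lit 1064) (nat_lit 0) (XT.nd (nat_lit 234) (nat_lit 760) (nat_lit 0) (XT.nd (nat_lit 78) (nat_lit 380) (nat_lit 0) (XT.lf (nat_lit 0) (nat_lit 4251821252) (nat_lit 228) (nat_lit 73009693576) (nat_lit 304) (nat_lit 2729743263) (nat_lit 79) (nat_lit 5) (nat_lit 82) (nat_lit 5) (nat_lit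 83) (nat_lit 5) (nat_lit 385) (nat_lit 371) (nat_lit 264)) (XT.nd (nat_lit 78) (nat_lit 304) (nat_lit 0) (XT.lf (nat_lit 0) (nat_lit 17333059906) (nat_lit 304) (nat_lit 7104680552) (nat_lit 76) (nat_lit 59323060964) (nat_lit 78) (nat_lit 5) (nat_lit 82) (nat_lit 5) (nat_lit 79) (nat_lit 5) (nat_lit 386) (nat_lit 371) (nat_lit 263)) (XT.lf (nat_lit 0) (nat_lit 40440545502) (nat_lit 380) (nat_lit 19045086851) (nat_lit 76) (nat_lit 28267274734) (nat_lit 74) (nat_lit 5) (nat_lit 79) (nat_lit 5) (nat_lit 75) (nat_lit 5) (nat_lit 387) (nat_lit 371) (nat_lit 262)))) (XT.nd (nat_lit 78) (nat_lit 532) (nat_lit 0) (XT.lf (nat_lit 0) (nat_lit 60293856500) (nat_lit 228) (nat_lit 6579985684) (nat_lit 304) (nat_lit 25116679442) (nat_lit 71) (nat_lit 5) (nat_lit 74) (nat_lit 5) (nat_lit 75) (nat_lit 5) (nat_lit 388) (nat_lit 371) (nat_lit 261)) (XT.nd (nat_lit 78) (nat_lit 228) (nat_lit 0) (XT.lf (nat_lit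 0) (nat_lit 842791968) (nat_lit 304) (nat_lit 45542234848) (nat_lit 76) (nat_lit 50085439695) (nat_lit 67) (nat_lit 5) (nat_lit 71) (nat_lit 5) (nat_lit 68) (nat_lit 5) (nat_lit 389) (nat_lit 371) (nat_lit 260)) (XT.lf (nat_lit 0) (nat_lit 29496549126) (nat_lit 304) (nat_lit 60628448674) (nat_lit 76) (nat_lit 11088347880) (nat_lit 64) (nat_lit 5) (nat_lit 68) (nat_lit 5) (nat_lit 65) (nat_lit 5) (nat_lit 390) (nat_lit 371) (nat_lit 259))))) (XT.nd (nat_lit 234) (nat_lit 380) (nat_lit 0) (XT.nd (nat_lit 78) (nat_lit 456) (nat_lit 0) (XT.lf (nat_lit 0) (nat_lit 29065088150) (nat_lit 228) (nat_lit 33418021640) (nat_lit 304) (nat_lit 43750521029) (nat_lit 61) (nat_lit 5) (nat_lit 64) (nat_lit 5) (nat_lit 65) (nat_lit 5) (nat_lit 391) (nat_lit 371) (nat_lit 258)) (XT.nd (nat_lit 78) (nat_lit 304) (nat_lit 0) (XT.lf (nat_lit 0) (nat_lit 16572571383) (nat_lit 152) (nat_lit 83300960667) (nat_lit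 228) (nat_lit 11693760601) (nat_lit 59) (nat_lit 5) (nat_lit 61) (nat_lit 5) (nat_lit 62) (nat_lit 5) (nat_lit 392) (nat_lit 371) (nat_lit 257)) (XT.lf (nat_lit 0) (nat_lit 2440372103) (nat_lit 228) (nat_lit 21719592560) (nat_lit 304) (nat_lit 93051472824) (nat_lit 55) (nat_lit 5) (nat_lit 58) (nat_lit 5) (nat_lit 59) (nat_lit 5) (nat_lit 393) (nat_lit 371) (nat_lit 256)))) (XT.nd (nat_lit 78) (nat_lit 380) (nat_lit 0) (XT.lf (nat_lit 0) (nat_lit 64857382395) (nat_lit 304) (nat_lit 13087854740) (nat_lit 76) (nat_lit 45233037972) (nat_lit 55) (nat_lit 5) (nat_lit 59) (nat_lit 5) (nat_lit 56) (nat_lit 5) (nat_lit 394) (nat_lit 371) (nat_lit 255)) (XT.nd (nat_lit 78) (nat_lit 228) (nat_lit 0) (XT.lf (nat_lit 0) (nat_lit 99547700942) (nat_lit 152) (nat_lit 11181922166) (nat_lit 228) (nat_lit 18796885698) (nat_lit 53) (nat_lit 5) (nat_lit 55) (nat_lit 5) (nat_lit 56) (nat_lit 5) (nat_lit 395)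 (nat_lit 371) (nat_lit 254)) (XT.lf (nat_lit 0) (nat_lit 25707851561) (nat_lit 228) (nat_lit 49548554571) (nat_lit 76) (nat_lit 60978376395) (nat_lit 50) (nat_lit 5) (nat_lit 53) (nat_lit 5) (nat_lit 51) (nat_lit 5) (nat_lit 396) (nat_lit 371) (nat_lit 253)))))) (XT.nd (nat_lit 468) (nat_lit 836) (nat_lit 0) (XT.nd (nat_lit 234) (nat_lit 304) (nat_lit 0) (XT.nd (nat_lit 78) (nat_lit 380) (nat_lit 0) (XT.lf (nat_lit 0) (nat_lit 72092612417) (nat_lit 152) (nat_lit 2874181190) (nat_lit 228) (nat_lit 68404898846) (nat_lit 48) (nat_lit 5) (nat_lit 50) (nat_lit 5) (nat_lit 51) (nat_lit 5) (nat_lit 397) (nat_lit 371) (nat_lit 252)) (XT.nd (nat_lit 78) (nat_lit 228) (nat_lit 0) (XT.lf (nat_lit 0) (nat_lit 54758793915) (nat_lit 152) (nat_lit 76314209309) (nat_lit 228) (nat_lit 19861224751) (nat_lit 46) (nat_lit 5) (nat_lit 48) (nat_lit 5) (nat_lit 49) (nat_lit 5) (nat_lit 398) (nat_lit 371) (nat_lit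 251)) (XT.lf (nat_lit 0) (nat_lit 33402256424) (nat_lit 228) (nat_lit 124083912918) (nat_lit 76) (nat_lit 1496243743) (nat_lit 43) (nat_lit 5) (nat_lit 46) (nat_lit 5) (nat_lit 44) (nat_lit 5) (nat_lit 399) (nat_lit 371) (nat_lit 250)))) (XT.nd (nat_lit 78) (nat_lit 152) (nat_lit 0) (XT.lf (nat_lit 0) (nat_lit 11003064438) (nat_lit 152) (nat_lit 82397405527) (nat_lit 228) (nat_lit 74099228964) (nat_lit 41) (nat_lit 5) (nat_lit 43) (nat_lit 5) (nat_lit 44) (nat_lit 5) (nat_lit 400) (nat_lit 371) (nat_lit 249)) (XT.nd (nat_lit 78) (nat_lit 152) (nat_lit 0) (XT.lf (nat_lit 0) (nat_lit 160373987823) (nat_lit 228) (nat_lit 15279368076) (nat_lit 76) (nat_lit 936239690) (nat_lit 41) (nat_lit 5) (nat_lit 44) (nat_lit 5) (nat_lit 42) (nat_lit 4) (nat_lit 401) (nat_lit 371) (nat_lit 248)) (XT.lf (nat_lit 0) (nat_lit 48454893785) (nat_lit 152) (nat_lit 46673530530) (nat_lit 76) (nat_lit 91060215403)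 (nat_lit 39) (nat_lit 5) (nat_lit 41) (nat_lit 5) (nat_lit 40) (nat_lit 5) (nat_lit 402) (nat_lit 371) (nat_lit 247))))) (XT.nd (nat_lit 234) (nat_lit 380) (nat_lit 0) (XT.nd (nat_lit 78) (nat_lit 304) (nat_lit 0) (XT.lf (nat_lit 0) (nat_lit 114067793291) (nat_lit 152) (nat_lit 5721148957) (nat_lit 228) (nat_lit 76650472767) (nat_lit 37) (nat_lit 5) (nat_lit 39) (nat_lit 5) (nat_lit 40) (nat_lit 5) (nat_lit 403) (nat_lit 371) (nat_lit 246)) (XT.nd (nat_lit 78) (nat_lit 228) (nat_lit 0) (XT.lf (nat_lit 0) (nat_lit 83091668758) (nat_lit 76) (nat_lit 117278964246) (nat_lit 152) (nat_lit 6962573648) (nat_lit 36) (nat_lit 5) (nat_lit 37) (nat_lit 5) (nat_lit 38) (nat_lit 4) (nat_lit 404) (nat_lit 371) (nat_lit 245)) (XT.lf (nat_lit 0) (nat_lit 45990682306) (nat_lit 152) (nat_lit 22395590033) (nat_lit 228) (nat_lit 150545313843) (nat_lit 33) (nat_lit 5) (nat_lit 35) (nat_lit 5) (nat_lit 36) (nat_lit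 5) (nat_lit 405) (nat_lit 371) (nat_lit 244)))) (XT.nd (nat_lit 156) (nat_lit 228) (nat_lit 0) (XT.nd (nat_lit 78) (nat_lit 76) (nat_lit 0) (XT.lf (nat_lit 0) (nat_lit 1574086498) (nat_lit 76) (nat_lit 151421868426) (nat_lit 152) (nat_lit 78282331137) (nat_lit 32) (nat_lit 5) (nat_lit 33) (nat_lit 5) (nat_lit 34) (nat_lit 4) (nat_lit 406) (nat_lit 371) (nat_lit 243)) (XT.lf (nat_lit 0) (nat_lit 3207972255) (nat_lit 152) (nat_lit 48661053397) (nat_lit 76) (nat_lit 192571949751) (nat_lit 31) (nat_lit 5) (nat_lit 33) (nat_lit 5) (nat_lit 32) (nat_lit 5) (nat_lit 407) (nat_lit 371) (nat_lit 242))) (XT.nd (nat_lit 78) (nat_lit 76) (nat_lit 0) (XT.lf (nat_lit 0) (nat_lit 91787138418) (nat_lit 228) (nat_lit 109045858760) (nat_lit 76) (nat_lit 57593903521) (nat_lit 29) (nat_lit 5) (nat_lit 32) (nat_lit 5) (nat_lit 30) (nat_lit 4) (nat_lit 408) (nat_lit 371) (nat_lit 241)) (XT.lf (nat_lit 0) (nat_lit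 93621376175) (nat_lit 76) (nat_lit 97028313249) (nat_lit 152) (nat_lit 82722158164) (nat_lit 28) (nat_lit 5) (nat_lit 29) (nat_lit 5) (nat_lit 30) (nat_lit 4) (nat_lit 409) (nat_lit 371) (nat_lit 240))))))))
noncomputable def xc97 : XT := (XT.nd (nat_lit 50310) (nat_lit 0) (nat_lit 2888) (XT.nd (nat_lit 936) (nat_lit 456) (nat_lit 0) (XT.nd (nat_lit 468) (nat_lit 456) (nat_lit 0) (XT.nd (nat_lit 234) (nat_lit 228) (nat_lit 0) (XT.nd (nat_lit 78) (nat_lit 76) (nat_lit 0) (XT.lf (nat_lit 0) (nat_lit 10294437351) (nat_lit 152) (nat_lit 261954887332) (nat_lit 76) (nat_lit 17124955916) (nat_lit 26) (nat_lit 5) (nat_lit 28) (nat_lit 5) (nat_lit 27) (nat_lit 4) (nat_lit 410) (nat_lit 371) (nat_lit 239)) (XT.nd (nat_lit 78) (nat_lit 76) (nat_lit 0) (XT.lf (nat_lit 0) (nat_lit 112710729734) (nat_lit 152) (nat_lit 52002300072) (nat_lit 76) (nat_lit 141633245980) (nat_lit 26) (nat_lit 5) (nat_lit 28)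 (nat_lit 5) (nat_lit 27) (nat_lit 4) (nat_lit 411) (nat_lit 371) (nat_lit 238)) (XT.lf (nat_lit 0) (nat_lit 180523086490) (nat_lit 76) (nat_lit 45615027893) (nat_lit 152) (nat_lit 98397026872) (nat_lit 25) (nat_lit 5) (nat_lit 26) (nat_lit 5) (nat_lit 27) (nat_lit 4) (nat_lit 412) (nat_lit 371) (nat_lit 237)))) (XT.nd (nat_lit 78) (nat_lit 76) (nat_lit 0) (XT.lf (nat_lit 0) (nat_lit 8013836497) (nat_lit 152) (nat_lit 253153296383) (nat_lit 76) (nat_lit 82823699632) (nat_lit 23) (nat_lit 5) (nat_lit 25) (nat_lit 5) (nat_lit 24) (nat_lit 4) (nat_lit 413) (nat_lit 371) (nat_lit 236)) (XT.nd (nat_lit 78) (nat_lit 76) (nat_lit 0) (XT.lf (nat_lit 0) (nat_lit 122854538500) (nat_lit 152) (nat_lit 17730471271) (nat_lit 76) (nat_lit 224169099985) (nat_lit 23) (nat_lit 5) (nat_lit 25) (nat_lit 5) (nat_lit 24) (nat_lit 4) (nat_lit 414) (nat_lit 371) (nat_lit 235)) (XT.lf (nat_lit 0) (nat_lit 244345646583)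 (nat_lit 76) (nat_lit 6351177948) (nat_lit 152) (nat_lit 136290908337) (nat_lit 22) (nat_lit 5) (nat_lit 23) (nat_lit 5) (nat_lit 24) (nat_lit 4) (nat_lit 415) (nat_lit 371) (nat_lit 234))))) (XT.nd (nat_lit 234) (nat_lit 228) (nat_lit 0) (XT.nd (nat_lit 78) (nat_lit 152) (nat_lit 0) (XT.lf (nat_lit 0) (nat_lit 118663965284) (nat_lit 76) (nat_lit 274432816488) (nat_lit 76) (nat_lit 17686749719) (nat_lit 21) (nat_lit 4) (nat_lit 22) (nat_lit 5) (nat_lit 22) (nat_lit 4) (nat_lit 416) (nat_lit 371) (nat_lit 233)) (XT.nd (nat_lit 78) (nat_lit 76) (nat_lit 0) (XT.lf (nat_lit 0) (nat_lit 109504071193) (nat_lit 152) (nat_lit 32263185018) (nat_lit 76) (nat_lit 294497950566) (nat_lit 20) (nat_lit 5) (nat_lit 22) (nat_lit 5) (nat_lit 21) (nat_lit 4) (nat_lit 417) (nat_lit 371) (nat_lit 232)) (XT.lf (nat_lit 0) (nat_lit 250353676851) (nat_lit 152) (nat_lit 207379321309) (nat_lit 0) (nat_lit 5832761824)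 (nat_lit 19) (nat_lit 5) (nat_lit 21) (nat_lit 4) (nat_lit 19) (nat_lit 4) (nat_lit 418) (nat_lit 371) (nat_lit 231)))) (XT.nd (nat_lit 78) (nat_lit 152) (nat_lit 0) (XT.lf (nat_lit 0) (nat_lit 75869555617) (nat_lit 76) (nat_lit 330747405221) (nat_lit 76) (nat_lit 86226111171) (nat_lit 18) (nat_lit 4) (nat_lit 19) (nat_lit 5) (nat_lit 19) (nat_lit 4) (nat_lit 419) (nat_lit 371) (nat_lit 230)) (XT.nd (nat_lit 78) (nat_lit 76) (nat_lit 0) (XT.lf (nat_lit 0) (nat_lit 52960171094) (nat_lit 152) (nat_lit 135953294252) (nat_lit 76) (nat_lit 335325796984) (nat_lit 17) (nat_lit 5) (nat_lit 19) (nat_lit 5) (nat_lit 18) (nat_lit 4) (nat_lit 420) (nat_lit 371) (nat_lit 229)) (XT.lf (nat_lit 0) (nat_lit 171585561370) (nat_lit 76) (nat_lit 31393722199) (nat_lit 152) (nat_lit 354961243689) (nat_lit 16) (nat_lit 5) (nat_lit 17) (nat_lit 5) (nat_lit 18) (nat_lit 4) (nat_lit 421) (nat_lit 371) (nat_lit 228))))))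 (XT.nd (nat_lit 468) (nat_lit 152) (nat_lit 0) (XT.nd (nat_lit 234) (nat_lit 152) (nat_lit 0) (XT.nd (nat_lit 78) (nat_lit 152) (nat_lit 0) (XT.lf (nat_lit 0) (nat_lit 369572459763) (nat_lit 152) (nat_lit 87842700331) (nat_lit 0) (nat_lit 136694106593) (nat_lit 16) (nat_lit 5) (nat_lit 18) (nat_lit 4) (nat_lit 16) (nat_lit 4) (nat_lit 422) (nat_lit 371) (nat_lit 227)) (XT.nd (nat_lit 78) (nat_lit 76) (nat_lit 0) (XT.lf (nat_lit 0) (nat_lit 241758183264) (nat_lit 76) (nat_lit 312038383358) (nat_lit 76) (nat_lit 79159764861) (nat_lit 15) (nat_lit 4) (nat_lit 16) (nat_lit 5) (nat_lit 16) (nat_lit 4) (nat_lit 423) (nat_lit 371) (nat_lit 226)) (XT.lf (nat_lit 0) (nat_lit 76910694202) (nat_lit 152) (nat_lit 75211941054) (nat_lit 76) (nat_lit 522650012511) (nat_lit 14) (nat_lit 5) (nat_lit 16) (nat_lit 5) (nat_lit 15) (nat_lit 4) (nat_lit 424) (nat_lit 371) (nat_lit 225)))) (XT.nd (nat_lit 78) (nat_lit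 76) (nat_lit 0) (XT.lf (nat_lit 0) (nat_lit 247413054968) (nat_lit 152) (nat_lit 446596903614) (nat_lit 0) (nat_lit 25623443877) (nat_lit 13) (nat_lit 5) (nat_lit 15) (nat_lit 4) (nat_lit 13) (nat_lit 4) (nat_lit 425) (nat_lit 371) (nat_lit 224)) (XT.nd (nat_lit 78) (nat_lit 76) (nat_lit 0) (XT.lf (nat_lit 0) (nat_lit 435451941481) (nat_lit 152) (nat_lit 118774129435) (nat_lit 0) (nat_lit 213662129795) (nat_lit 13) (nat_lit 5) (nat_lit 15) (nat_lit 4) (nat_lit 13) (nat_lit 4) (nat_lit 426) (nat_lit 371) (nat_lit 223)) (XT.lf (nat_lit 0) (nat_lit 243053048898) (nat_lit 76) (nat_lit 399275305306) (nat_lit 76) (nat_lit 177485307884) (nat_lit 12) (nat_lit 4) (nat_lit 13) (nat_lit 5) (nat_lit 13) (nat_lit 4) (nat_lit 427) (nat_lit 371) (nat_lit 222))))) (XT.nd (nat_lit 234) (nat_lit 0) (nat_lit 0) (XT.nd (nat_lit 78) (nat_lit 152) (nat_lit 0) (XT.lf (nat_lit 0) (nat_lit 638067181627) (nat_lit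 76) (nat_lit 229756357606) (nat_lit 76) (nat_lit 7966188205) (nat_lit 12) (nat_lit 4) (nat_lit 13) (nat_lit 5) (nat_lit 13) (nat_lit 4) (nat_lit 428) (nat_lit 371) (nat_lit 221)) (XT.nd (nat_lit 78) (nat_lit 0) (nat_lit 0) (XT.lf (nat_lit 0) (nat_lit 129860309867) (nat_lit 76) (nat_lit 41676586965) (nat_lit 152) (nat_lit 764468920225) (nat_lit 10) (nat_lit 5) (nat_lit 11) (nat_lit 5) (nat_lit 12) (nat_lit 4) (nat_lit 429) (nat_lit 371) (nat_lit 220)) (XT.lf (nat_lit 0) (nat_lit 371854119499) (nat_lit 152) (nat_lit 468216800685) (nat_lit 0) (nat_lit 160625094658) (nat_lit 10) (nat_lit 5) (nat_lit 12) (nat_lit 4) (nat_lit 10) (nat_lit 4) (nat_lit 430) (nat_lit 371) (nat_lit 219)))) (XT.nd (nat_lit 48516) (nat_lit 0) (nat_lit 7600) (XT.lf (nat_lit 0) (nat_lit 588899201934) (nat_lit 152) (nat_lit 103957055364) (nat_lit 0) (nat_lit 377670047072) (nat_lit 10) (nat_lit 5) (nat_lit 12) (nat_lit 4)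 (nat_lit 10) (nat_lit 4) (nat_lit 431) (nat_lit 371) (nat_lit 218)) (XT.nd (nat_lit 78) (nat_lit 0) (nat_lit 76) (XT.lf (nat_lit 0) (nat_lit 5209359060) (nat_lit 836) (nat_lit 9341103243) (nat_lit 836) (nat_lit 9341103243) (nat_lit 110) (nat_lit 3) (nat_lit 121) (nat_lit 3) (nat_lit 121) (nat_lit 5) (nat_lit 372) (nat_lit 372) (nat_lit 276)) (XT.lf (nat_lit 0) (nat_lit 11290480204) (nat_lit 760) (nat_lit 31041752631) (nat_lit 836) (nat_lit 7339441884) (nat_lit 111) (nat_lit 5) (nat_lit 121) (nat_lit 5) (nat_lit 122) (nat_lit 5) (nat_lit 373) (nat_lit 372) (nat_lit 275))))))) (XT.nd (nat_lit 936) (nat_lit 2584) (nat_lit 0) (XT.nd (nat_lit 468) (nat_lit 1748) (nat_lit 0) (XT.nd (nat_lit 234) (nat_lit 456) (nat_lit 0) (XT.nd (nat_lit 78) (nat_lit 0) (nat_lit 76) (XT.lf (nat_lit 76) (nat_lit 7645153273) (nat_lit 0) (nat_lit 5523263618) (nat_lit 836) (nat_lit 38496066359) (nat_lit 112) (nat_lit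 5) (nat_lit 111) (nat_lit 5) (nat_lit 122) (nat_lit 5) (nat_lit 374) (nat_lit 372) (nat_lit 274)) (XT.nd (nat_lit 78) (nat_lit 0) (nat_lit 76) (XT.lf (nat_lit 0) (nat_lit 16276533282) (nat_lit 760) (nat_lit 3800228904) (nat_lit 836) (nat_lit 33685959907) (nat_lit 112) (nat_lit 5) (nat_lit 122) (nat_lit 5) (nat_lit 123) (nat_lit 5) (nat_lit 375) (nat_lit 372) (nat_lit 273)) (XT.lf (nat_lit 0) (nat_lit 20680277753) (nat_lit 760) (nat_lit 15464225332) (nat_lit 836) (nat_lit 19831970672) (nat_lit 113) (nat_lit 5) (nat_lit 123) (nat_lit 5) (nat_lit 124) (nat_lit 5) (nat_lit 376) (nat_lit 372) (nat_lit 272)))) (XT.nd (nat_lit 78) (nat_lit 684) (nat_lit 0) (XT.lf (nat_lit 0) (nat_lit 26388962754) (nat_lit 760) (nat_lit 27608439857) (nat_lit 836) (nat_lit 4322293355) (nat_lit 114) (nat_lit 5) (nat_lit 124) (nat_lit 5) (nat_lit 125) (nat_lit 5) (nat_lit 377) (nat_lit 372) (nat_lit 271)) (XT.nd (nat_lit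 78) (nat_lit 684) (nat_lit 0) (XT.lf (nat_lit 76) (nat_lit 20330206204) (nat_lit 0) (nat_lit 13421517737) (nat_lit 836) (nat_lit 27038785217) (nat_lit 115) (nat_lit 5) (nat_lit 114) (nat_lit 5) (nat_lit 125) (nat_lit 5) (nat_lit 378) (nat_lit 372) (nat_lit 270)) (XT.lf (nat_lit 0) (nat_lit 9472813168) (nat_lit 760) (nat_lit 33338956735) (nat_lit 836) (nat_lit 20591806415) (nat_lit 105) (nat_lit 5) (nat_lit 115) (nat_lit 5) (nat_lit 116) (nat_lit 5) (nat_lit 379) (nat_lit 372) (nat_lit 269))))) (XT.nd (nat_lit 234) (nat_lit 988) (nat_lit 0) (XT.nd (nat_lit 78) (nat_lit 760) (nat_lit 0) (XT.lf (nat_lit 0) (nat_lit 53694296841) (nat_lit 836) (nat_lit 1743593038) (nat_lit 76) (nat_lit 10732917058) (nat_lit 105) (nat_lit 5) (nat_lit 116) (nat_lit 5) (nat_lit 106) (nat_lit 5) (nat_lit 380) (nat_lit 372) (nat_lit 268)) (XT.nd (nat_lit 78) (nat_lit 380) (nat_lit 0) (XT.lf (nat_lit 0) (nat_lit 55841086126)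 (nat_lit 380) (nat_lit 11037661270) (nat_lit 456) (nat_lit 2209104344) (nat_lit 100) (nat_lit 5) (nat_lit 105) (nat_lit 5) (nat_lit 106) (nat_lit 5) (nat_lit 381) (nat_lit 372) (nat_lit 267)) (XT.lf (nat_lit 0) (nat_lit 9952372771) (nat_lit 380) (nat_lit 25556283076) (nat_lit 76) (nat_lit 36654829800) (nat_lit 95) (nat_lit 5) (nat_lit 100) (nat_lit 5) (nat_lit 96) (nat_lit 5) (nat_lit 382) (nat_lit 372) (nat_lit 266)))) (XT.nd (nat_lit 78) (nat_lit 608) (nat_lit 0) (XT.lf (nat_lit 0) (nat_lit 24215703702) (nat_lit 456) (nat_lit 38429300893) (nat_lit 76) (nat_lit 12778039811) (nat_lit 90) (nat_lit 5) (nat_lit 96) (nat_lit 5) (nat_lit 91) (nat_lit 5) (nat_lit 383) (nat_lit 372) (nat_lit 265)) (XT.nd (nat_lit 78) (nat_lit 304) (nat_lit 0) (XT.lf (nat_lit 0) (nat_lit 26788058607) (nat_lit 304) (nat_lit 14299225907) (nat_lit 380) (nat_lit 37782725546) (nat_lit 86) (nat_lit 5) (nat_lit 90) (nat_lit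 5) (nat_lit 91) (nat_lit 5) (nat_lit 384) (nat_lit 372) (nat_lit 264)) (XT.lf (nat_lit 0) (nat_lit 15940569541) (nat_lit 304) (nat_lit 44887092843) (nat_lit 380) (nat_lit 21689118317) (nat_lit 82) (nat_lit 5) (nat_lit 86) (nat_lit 5) (nat_lit 87) (nat_lit 5) (nat_lit 385) (nat_lit 372) (nat_lit 263)))))) (XT.nd (nat_lit 468) (nat_lit 1216) (nat_lit 0) (XT.nd (nat_lit 234) (nat_lit 760) (nat_lit 0) (XT.nd (nat_lit 78) (nat_lit 380) (nat_lit 0) (XT.lf (nat_lit 0) (nat_lit 4643048585) (nat_lit 228) (nat_lit 78839733838) (nat_lit 304) (nat_lit 2905736147) (nat_lit 79) (nat_lit 5) (nat_lit 82) (nat_lit 5) (nat_lit 83) (nat_lit 5) (nat_lit 386) (nat_lit 372) (nat_lit 262)) (XT.nd (nat_lit 78) (nat_lit 304) (nat_lit 0) (XT.lf (nat_lit 0) (nat_lit 18757695385) (nat_lit 304) (nat_lit 7624480897) (nat_lit 76) (nat_lit 64077569572) (nat_lit 78) (nat_lit 5) (nat_lit 82) (nat_lit 5) (nat_lit 79) (nat_lit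 5) (nat_lit 387) (nat_lit 372) (nat_lit 261)) (XT.lf (nat_lit 0) (nat_lit 43711856012) (nat_lit 380) (nat_lit 20520581806) (nat_lit 76) (nat_lit 30538879837) (nat_lit 74) (nat_lit 5) (nat_lit 79) (nat_lit 5) (nat_lit 75) (nat_lit 5) (nat_lit 388) (nat_lit 372) (nat_lit 260)))) (XT.nd (nat_lit 78) (nat_lit 532) (nat_lit 0) (XT.lf (nat_lit 0) (nat_lit 65163386126) (nat_lit 228) (nat_lit 7094477202) (nat_lit 304) (nat_lit 27090177067) (nat_lit 71) (nat_lit 5) (nat_lit 74) (nat_lit 5) (nat_lit 75) (nat_lit 5) (nat_lit 389) (nat_lit 372) (nat_lit 259)) (XT.nd (nat_lit 78) (nat_lit 228) (nat_lit 0) (XT.lf (nat_lit 0) (nat_lit 943232296) (nat_lit 304) (nat_lit 49139015373) (nat_lit 76) (nat_lit 54104190082) (nat_lit 67) (nat_lit 5) (nat_lit 71) (nat_lit 5) (nat_lit 68) (nat_lit 5) (nat_lit 390) (nat_lit 372) (nat_lit 258)) (XT.lf (nat_lit 0) (nat_lit 31887747981) (nat_lit 304) (nat_lit 65432781690)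 (nat_lit 76) (nat_lit 11988295814) (nat_lit 64) (nat_lit 5) (nat_lit 68) (nat_lit 5) (nat_lit 65) (nat_lit 5) (nat_lit 391) (nat_lit 372) (nat_lit 257))))) (XT.nd (nat_lit 234) (nat_lit 532) (nat_lit 0) (XT.nd (nat_lit 78) (nat_lit 456) (nat_lit 0) (XT.lf (nat_lit 0) (nat_lit 31434241459) (nat_lit 228) (nat_lit 36077346687) (nat_lit 304) (nat_lit 47219228600) (nat_lit 61) (nat_lit 5) (nat_lit 64) (nat_lit 5) (nat_lit 65) (nat_lit 5) (nat_lit 392) (nat_lit 372) (nat_lit 256)) (XT.nd (nat_lit 78) (nat_lit 304) (nat_lit 0) (XT.lf (nat_lit 0) (nat_lit 17941641830) (nat_lit 152) (nat_lit 89950272318) (nat_lit 228) (nat_lit 12599324847) (nat_lit 59) (nat_lit 5) (nat_lit 61) (nat_lit 5) (nat_lit 62) (nat_lit 5) (nat_lit 393) (nat_lit 372) (nat_lit 255)) (XT.lf (nat_lit 0) (nat_lit 2677913908) (nat_lit 228) (nat_lit 23442340430) (nat_lit 304) (nat_lit 100466712860) (nat_lit 55) (nat_lit 5) (nat_lit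 58) (nat_lit 5) (nat_lit 59) (nat_lit 5) (nat_lit 394) (nat_lit 372) (nat_lit 254)))) (XT.nd (nat_lit 156) (nat_lit 380) (nat_lit 0) (XT.nd (nat_lit 78) (nat_lit 152) (nat_lit 0) (XT.lf (nat_lit 0) (nat_lit 70071643243) (nat_lit 304) (nat_lit 14094636869) (nat_lit 76) (nat_lit 48864963618) (nat_lit 55) (nat_lit 5) (nat_lit 59) (nat_lit 5) (nat_lit 56) (nat_lit 5) (nat_lit 395) (nat_lit 372) (nat_lit 253)) (XT.lf (nat_lit 0) (nat_lit 107550014215) (nat_lit 152) (nat_lit 12062348546) (nat_lit 228) (nat_lit 20275039117) (nat_lit 53) (nat_lit 5) (nat_lit 55) (nat_lit 5) (nat_lit 56) (nat_lit 5) (nat_lit 396) (nat_lit 372) (nat_lit 252))) (XT.nd (nat_lit 78) (nat_lit 152) (nat_lit 0) (XT.lf (nat_lit 0) (nat_lit 27788229643) (nat_lit 228) (nat_lit 53473858140) (nat_lit 76) (nat_lit 65870281786) (nat_lit 50) (nat_lit 5) (nat_lit 53) (nat_lit 5) (nat_lit 51) (nat_lit 5) (nat_lit 397) (nat_lit 372)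 (nat_lit 251)) (XT.lf (nat_lit 0) (nat_lit 77896925533) (nat_lit 152) (nat_lit 3089778440) (nat_lit 228) (nat_lit 73853588067) (nat_lit 48) (nat_lit 5) (nat_lit 50) (nat_lit 5) (nat_lit 51) (nat_lit 5) (nat_lit 398) (nat_lit 372) (nat_lit 250))))))))
noncomputable def xc98 : XT := (XT.nd (nat_lit 1872) (nat_lit 456) (nat_lit 0) (XT.nd (nat_lit 936) (nat_lit 912) (nat_lit 0) (XT.nd (nat_lit 468) (nat_lit 684) (nat_lit 0) (XT.nd (nat_lit 234) (nat_lit 304) (nat_lit 0) (XT.nd (nat_lit 78) (nat_lit 380) (nat_lit 0) (XT.lf (nat_lit 0) (nat_lit 59175670073) (nat_lit 152) (nat_lit 82404840686) (nat_lit 228) (nat_lit 21427365178) (nat_lit 46) (nat_lit 5) (nat_lit 48) (nat_lit 5) (nat_lit 49) (nat_lit 5) (nat_lit 399) (nat_lit 372) (nat_lit 249)) (XT.nd (nat_lit 78) (nat_lit 152) (nat_lit 0) (XT.lf (nat_lit 0) (nat_lit 36095609629) (nat_lit 228) (nat_lit 133974492900) (nat_lit 76) (nat_lit 1629838874)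 (nat_lit 43) (nat_lit 5) (nat_lit 46) (nat_lit 5) (nat_lit 44) (nat_lit 5) (nat_lit 400) (nat_lit 372) (nat_lit 248)) (XT.lf (nat_lit 0) (nat_lit 11917872346) (nat_lit 152) (nat_lit 88974779180) (nat_lit 228) (nat_lit 80006010474) (nat_lit 41) (nat_lit 5) (nat_lit 43) (nat_lit 5) (nat_lit 44) (nat_lit 5) (nat_lit 401) (nat_lit 372) (nat_lit 247)))) (XT.nd (nat_lit 78) (nat_lit 304) (nat_lit 0) (XT.lf (nat_lit 0) (nat_lit 173222767110) (nat_lit 228) (nat_lit 16468985599) (nat_lit 76) (nat_lit 1024062289) (nat_lit 41) (nat_lit 5) (nat_lit 44) (nat_lit 5) (nat_lit 42) (nat_lit 4) (nat_lit 402) (nat_lit 372) (nat_lit 246)) (XT.nd (nat_lit 78) (nat_lit 152) (nat_lit 0) (XT.lf (nat_lit 0) (nat_lit 52349536300) (nat_lit 152) (nat_lit 50375495470) (nat_lit 76) (nat_lit 98357781967) (nat_lit 39) (nat_lit 5) (nat_lit 41) (nat_lit 5) (nat_lit 40) (nat_lit 5) (nat_lit 403) (nat_lit 372) (nat_lit 245))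 (XT.lf (nat_lit 0) (nat_lit 123223747161) (nat_lit 152) (nat_lit 6165686218) (nat_lit 228) (nat_lit 82764261784) (nat_lit 37) (nat_lit 5) (nat_lit 39) (nat_lit 5) (nat_lit 40) (nat_lit 5) (nat_lit 404) (nat_lit 372) (nat_lit 244))))) (XT.nd (nat_lit 234) (nat_lit 304) (nat_lit 0) (XT.nd (nat_lit 78) (nat_lit 304) (nat_lit 0) (XT.lf (nat_lit 0) (nat_lit 89768844508) (nat_lit 76) (nat_lit 126648183883) (nat_lit 152) (nat_lit 7501993605) (nat_lit 36) (nat_lit 5) (nat_lit 37) (nat_lit 5) (nat_lit 38) (nat_lit 4) (nat_lit 405) (nat_lit 372) (nat_lit 243)) (XT.nd (nat_lit 78) (nat_lit 76) (nat_lit 0) (XT.lf (nat_lit 0) (nat_lit 49699024230) (nat_lit 152) (nat_lit 24174366138) (nat_lit 228) (nat_lit 162571908414) (nat_lit 33) (nat_lit 5) (nat_lit 35) (nat_lit 5) (nat_lit 36) (nat_lit 5) (nat_lit 406) (nat_lit 372) (nat_lit 242)) (XT.lf (nat_lit 0) (nat_lit 1728423344) (nat_lit 76) (nat_lit 163522852640)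 (nat_lit 152) (nat_lit 84528487505) (nat_lit 32) (nat_lit 5) (nat_lit 33) (nat_lit 5) (nat_lit 34) (nat_lit 4) (nat_lit 407) (nat_lit 372) (nat_lit 241)))) (XT.nd (nat_lit 78) (nat_lit 228) (nat_lit 0) (XT.lf (nat_lit 0) (nat_lit 3479336199) (nat_lit 152) (nat_lit 52527142424) (nat_lit 76) (nat_lit 207989035658) (nat_lit 31) (nat_lit 5) (nat_lit 33) (nat_lit 5) (nat_lit 32) (nat_lit 5) (nat_lit 408) (nat_lit 372) (nat_lit 240)) (XT.nd (nat_lit 78) (nat_lit 76) (nat_lit 0) (XT.lf (nat_lit 0) (nat_lit 99144326031) (nat_lit 228) (nat_lit 117743373330) (nat_lit 76) (nat_lit 62212639933) (nat_lit 29) (nat_lit 5) (nat_lit 32) (nat_lit 5) (nat_lit 30) (nat_lit 4) (nat_lit 409) (nat_lit 372) (nat_lit 239)) (XT.lf (nat_lit 0) (nat_lit 101136103773) (nat_lit 76) (nat_lit 104779114861) (nat_lit 152) (nat_lit 89325696620) (nat_lit 28) (nat_lit 5) (nat_lit 29) (nat_lit 5) (nat_lit 30) (nat_lit 4) (nat_lit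 410) (nat_lit 372) (nat_lit 238)))))) (XT.nd (nat_lit 468) (nat_lit 456) (nat_lit 0) (XT.nd (nat_lit 234) (nat_lit 228) (nat_lit 0) (XT.nd (nat_lit 78) (nat_lit 76) (nat_lit 0) (XT.lf (nat_lit 0) (nat_lit 11131306101) (nat_lit 152) (nat_lit 282886426296) (nat_lit 76) (nat_lit 18505822810) (nat_lit 26) (nat_lit 5) (nat_lit 28) (nat_lit 5) (nat_lit 27) (nat_lit 4) (nat_lit 411) (nat_lit 372) (nat_lit 237)) (XT.nd (nat_lit 78) (nat_lit 76) (nat_lit 0) (XT.lf (nat_lit 0) (nat_lit 121739915671) (nat_lit 152) (nat_lit 56139472946) (nat_lit 76) (nat_lit 152973970863) (nat_lit 26) (nat_lit 5) (nat_lit 28) (nat_lit 5) (nat_lit 27) (nat_lit 4) (nat_lit 412) (nat_lit 372) (nat_lit 236)) (XT.lf (nat_lit 0) (nat_lit 194986944505) (nat_lit 76) (nat_lit 49253977089) (nat_lit 152) (nat_lit 106256441215) (nat_lit 25) (nat_lit 5) (nat_lit 26) (nat_lit 5) (nat_lit 27) (nat_lit 4) (nat_lit 413) (nat_lit 372)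 (nat_lit 235)))) (XT.nd (nat_lit 78) (nat_lit 76) (nat_lit 0) (XT.lf (nat_lit 0) (nat_lit 8666501921) (nat_lit 152) (nat_lit 273383710776) (nat_lit 76) (nat_lit 89459306865) (nat_lit 23) (nat_lit 5) (nat_lit 25) (nat_lit 5) (nat_lit 24) (nat_lit 4) (nat_lit 414) (nat_lit 372) (nat_lit 234)) (XT.nd (nat_lit 78) (nat_lit 76) (nat_lit 0) (XT.lf (nat_lit 0) (nat_lit 132693603898) (nat_lit 152) (nat_lit 19128678122) (nat_lit 76) (nat_lit 242111619894) (nat_lit 23) (nat_lit 5) (nat_lit 25) (nat_lit 5) (nat_lit 24) (nat_lit 4) (nat_lit 415) (nat_lit 372) (nat_lit 233)) (XT.lf (nat_lit 0) (nat_lit 263912649952) (nat_lit 76) (nat_lit 6850132230) (nat_lit 152) (nat_lit 147183457338) (nat_lit 22) (nat_lit 5) (nat_lit 23) (nat_lit 5) (nat_lit 24) (nat_lit 4) (nat_lit 416) (nat_lit 372) (nat_lit 232))))) (XT.nd (nat_lit 234) (nat_lit 228) (nat_lit 0) (XT.nd (nat_lit 78) (nat_lit 152) (nat_lit 0) (XT.lf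 (nat_lit 0) (nat_lit 128175946379) (nat_lit 76) (nat_lit 296378459849) (nat_lit 76) (nat_lit 19091312396) (nat_lit 21) (nat_lit 4) (nat_lit 22) (nat_lit 5) (nat_lit 22) (nat_lit 4) (nat_lit 417) (nat_lit 372) (nat_lit 231)) (XT.nd (nat_lit 78) (nat_lit 76) (nat_lit 0) (XT.lf (nat_lit 0) (nat_lit 118273697965) (nat_lit 152) (nat_lit 34826464597) (nat_lit 76) (nat_lit 318065794566) (nat_lit 20) (nat_lit 5) (nat_lit 22) (nat_lit 5) (nat_lit 21) (nat_lit 4) (nat_lit 418) (nat_lit 372) (nat_lit 230)) (XT.lf (nat_lit 0) (nat_lit 270390975423) (nat_lit 152) (nat_lit 223952346205) (nat_lit 0) (nat_lit 6307247879) (nat_lit 19) (nat_lit 5) (nat_lit 21) (nat_lit 4) (nat_lit 19) (nat_lit 4) (nat_lit 419) (nat_lit 372) (nat_lit 229)))) (XT.nd (nat_lit 78) (nat_lit 152) (nat_lit 0) (XT.lf (nat_lit 0) (nat_lit 81955688134) (nat_lit 76) (nat_lit 357199225676) (nat_lit 76) (nat_lit 93115173180) (nat_lit 18)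 (nat_lit 4) (nat_lit 19) (nat_lit 5) (nat_lit 19) (nat_lit 4) (nat_lit 420) (nat_lit 372) (nat_lit 228)) (XT.nd (nat_lit 78) (nat_lit 76) (nat_lit 0) (XT.lf (nat_lit 0) (nat_lit 57205075493) (nat_lit 152) (nat_lit 146813948613) (nat_lit 76) (nat_lit 362158973815) (nat_lit 17) (nat_lit 5) (nat_lit 19) (nat_lit 5) (nat_lit 18) (nat_lit 4) (nat_lit 421) (nat_lit 372) (nat_lit 227)) (XT.lf (nat_lit 0) (nat_lit 185327337102) (nat_lit 76) (nat_lit 33898013663) (nat_lit 152) (nat_lit 383350031650) (nat_lit 16) (nat_lit 5) (nat_lit 17) (nat_lit 5) (nat_lit 18) (nat_lit 4) (nat_lit 422) (nat_lit 372) (nat_lit 226))))))) (XT.nd (nat_lit 49452) (nat_lit 0) (nat_lit 5168) (XT.nd (nat_lit 468) (nat_lit 152) (nat_lit 0) (XT.nd (nat_lit 234) (nat_lit 152) (nat_lit 0) (XT.nd (nat_lit 78) (nat_lit 152) (nat_lit 0) (XT.lf (nat_lit 0) (nat_lit 399145513046) (nat_lit 152) (nat_lit 94856037344) (nat_lit 0) (nat_lit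 147636094069) (nat_lit 16) (nat_lit 5) (nat_lit 18) (nat_lit 4) (nat_lit 16) (nat_lit 4) (nat_lit 423) (nat_lit 372) (nat_lit 225)) (XT.nd (nat_lit 78) (nat_lit 76) (nat_lit 0) (XT.lf (nat_lit 0) (nat_lit 261112305082) (nat_lit 76) (nat_lit 336994916113) (nat_lit 76) (nat_lit 85485269661) (nat_lit 15) (nat_lit 4) (nat_lit 16) (nat_lit 5) (nat_lit 16) (nat_lit 4) (nat_lit 424) (nat_lit 372) (nat_lit 224)) (XT.lf (nat_lit 0) (nat_lit 83070071497) (nat_lit 152) (nat_lit 81216210508) (nat_lit 76) (nat_lit 564467850895) (nat_lit 14) (nat_lit 5) (nat_lit 16) (nat_lit 5) (nat_lit 15) (nat_lit 4) (nat_lit 425) (nat_lit 372) (nat_lit 223)))) (XT.nd (nat_lit 78) (nat_lit 76) (nat_lit 0) (XT.lf (nat_lit 0) (nat_lit 267212419699) (nat_lit 152) (nat_lit 482312301635) (nat_lit 0) (nat_lit 27679036747) (nat_lit 13) (nat_lit 5) (nat_lit 15) (nat_lit 4) (nat_lit 13) (nat_lit 4) (nat_lit 426) (nat_lit 372)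 (nat_lit 222)) (XT.nd (nat_lit 78) (nat_lit 76) (nat_lit 0) (XT.lf (nat_lit 0) (nat_lit 470293948961) (nat_lit 152) (nat_lit 128264620652) (nat_lit 0) (nat_lit 230760394030) (nat_lit 13) (nat_lit 5) (nat_lit 15) (nat_lit 4) (nat_lit 13) (nat_lit 4) (nat_lit 427) (nat_lit 372) (nat_lit 221)) (XT.lf (nat_lit 0) (nat_lit 262508234817) (nat_lit 76) (nat_lit 431211977228) (nat_lit 76) (nat_lit 191678263058) (nat_lit 12) (nat_lit 4) (nat_lit 13) (nat_lit 5) (nat_lit 13) (nat_lit 4) (nat_lit 428) (nat_lit 372) (nat_lit 220))))) (XT.nd (nat_lit 48750) (nat_lit 0) (nat_lit 7600) (XT.nd (nat_lit 78) (nat_lit 152) (nat_lit 0) (XT.lf (nat_lit 0) (nat_lit 689122687645) (nat_lit 76) (nat_lit 248131910193) (nat_lit 76) (nat_lit 8598048580) (nat_lit 12) (nat_lit 4) (nat_lit 13) (nat_lit 5) (nat_lit 13) (nat_lit 4) (nat_lit 429) (nat_lit 372) (nat_lit 219)) (XT.nd (nat_lit 78) (nat_lit 0) (nat_lit 0) (XT.lf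 (nat_lit 0) (nat_lit 140258992629) (nat_lit 76) (nat_lit 45005880914) (nat_lit 152) (nat_lit 825621157240) (nat_lit 10) (nat_lit 5) (nat_lit 11) (nat_lit 5) (nat_lit 12) (nat_lit 4) (nat_lit 430) (nat_lit 372) (nat_lit 218)) (XT.lf (nat_lit 0) (nat_lit 401607171671) (nat_lit 152) (nat_lit 505664853855) (nat_lit 0) (nat_lit 173479434010) (nat_lit 10) (nat_lit 5) (nat_lit 12) (nat_lit 4) (nat_lit 10) (nat_lit 4) (nat_lit 431) (nat_lit 372) (nat_lit 217)))) (XT.nd (nat_lit 78) (nat_lit 0) (nat_lit 76) (XT.lf (nat_lit 0) (nat_lit 5668883033) (nat_lit 836) (nat_lit 10065919394) (nat_lit 836) (nat_lit 10065919394) (nat_lit 110) (nat_lit 3) (nat_lit 121) (nat_lit 3) (nat_lit 121) (nat_lit 5) (nat_lit 373) (nat_lit 373) (nat_lit 274)) (XT.nd (nat_lit 78) (nat_lit 0) (nat_lit 0) (XT.lf (nat_lit 0) (nat_lit 12273027240) (nat_lit 760) (nat_lit 33477475666) (nat_lit 836) (nat_lit 7890884425) (nat_lit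 111) (nat_lit 5) (nat_lit 121) (nat_lit 5) (nat_lit 122) (nat_lit 5) (nat_lit 374) (nat_lit 373) (nat_lit 273)) (XT.lf (nat_lit 76) (nat_lit 8302313326) (nat_lit 0) (nat_lit 5993721952) (nat_lit 836) (nat_lit 41497847588) (nat_lit 112) (nat_lit 5) (nat_lit 111) (nat_lit 5) (nat_lit 122) (nat_lit 5) (nat_lit 375) (nat_lit 373) (nat_lit 272)))))) (XT.nd (nat_lit 468) (nat_lit 2052) (nat_lit 0) (XT.nd (nat_lit 234) (nat_lit 532) (nat_lit 0) (XT.nd (nat_lit 78) (nat_lit 0) (nat_lit 76) (XT.lf (nat_lit 0) (nat_lit 17646895344) (nat_lit 760) (nat_lit 4058179329) (nat_lit 836) (nat_lit 36355205260) (nat_lit 112) (nat_lit 5) (nat_lit 122) (nat_lit 5) (nat_lit 123) (nat_lit 5) (nat_lit 376) (nat_lit 373) (nat_lit 271)) (XT.nd (nat_lit 78) (nat_lit 0) (nat_lit 76) (XT.lf (nat_lit 0) (nat_lit 22398263355) (nat_lit 760) (nat_lit 16653750251) (nat_lit 836) (nat_lit 21399355480) (nat_lit 113) (nat_lit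 5) (nat_lit 123) (nat_lit 5) (nat_lit 124) (nat_lit 5) (nat_lit 377) (nat_lit 373) (nat_lit 270)) (XT.lf (nat_lit 0) (nat_lit 28559426900) (nat_lit 760) (nat_lit 29768332803) (nat_lit 836) (nat_lit 4654503469) (nat_lit 114) (nat_lit 5) (nat_lit 124) (nat_lit 5) (nat_lit 125) (nat_lit 5) (nat_lit 378) (nat_lit 373) (nat_lit 269)))) (XT.nd (nat_lit 78) (nat_lit 684) (nat_lit 0) (XT.lf (nat_lit 76) (nat_lit 22003284925) (nat_lit 0) (nat_lit 14504256501) (nat_lit 836) (nat_lit 29143386416) (nat_lit 115) (nat_lit 5) (nat_lit 114) (nat_lit 5) (nat_lit 125) (nat_lit 5) (nat_lit 379) (nat_lit 373) (nat_lit 268)) (XT.nd (nat_lit 78) (nat_lit 0) (nat_lit 0) (XT.lf (nat_lit 0) (nat_lit 10278106635) (nat_lit 760) (nat_lit 36010770775) (nat_lit 836) (nat_lit 22184341468) (nat_lit 105) (nat_lit 5) (nat_lit 115) (nat_lit 5) (nat_lit 116) (nat_lit 5) (nat_lit 380) (nat_lit 373) (nat_lit 267)) (XT.lf (nat_lit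 0) (nat_lit 58038074454) (nat_lit 836) (nat_lit 1836612610) (nat_lit 76) (nat_lit 11587340097) (nat_lit 105) (nat_lit 5) (nat_lit 116) (nat_lit 5) (nat_lit 106) (nat_lit 5) (nat_lit 381) (nat_lit 373) (nat_lit 266))))) (XT.nd (nat_lit 234) (nat_lit 912) (nat_lit 0) (XT.nd (nat_lit 78) (nat_lit 760) (nat_lit 0) (XT.lf (nat_lit 0) (nat_lit 60352821449) (nat_lit 380) (nat_lit 11921580689) (nat_lit 456) (nat_lit 2338179774) (nat_lit 100) (nat_lit 5) (nat_lit 105) (nat_lit 5) (nat_lit 106) (nat_lit 5) (nat_lit 382) (nat_lit 373) (nat_lit 265)) (XT.nd (nat_lit 78) (nat_lit 380) (nat_lit 0) (XT.lf (nat_lit 0) (nat_lit 10791969915) (nat_lit 380) (nat_lit 27554595433) (nat_lit 76) (nat_lit 39587802135) (nat_lit 95) (nat_lit 5) (nat_lit 100) (nat_lit 5) (nat_lit 96) (nat_lit 5) (nat_lit 383) (nat_lit 373) (nat_lit 264)) (XT.lf (nat_lit 0) (nat_lit 26193893323) (nat_lit 456) (nat_lit 41457444824) (nat_lit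 76) (nat_lit 13803478470) (nat_lit 90) (nat_lit 5) (nat_lit 96) (nat_lit 5) (nat_lit 91) (nat_lit 5) (nat_lit 384) (nat_lit 373) (nat_lit 263)))) (XT.nd (nat_lit 156) (nat_lit 304) (nat_lit 0) (XT.nd (nat_lit 78) (nat_lit 304) (nat_lit 0) (XT.lf (nat_lit 0) (nat_lit 28975295634) (nat_lit 304) (nat_lit 15437562834) (nat_lit 380) (nat_lit 40764799989) (nat_lit 86) (nat_lit 5) (nat_lit 90) (nat_lit 5) (nat_lit 91) (nat_lit 5) (nat_lit 385) (nat_lit 373) (nat_lit 262)) (XT.lf (nat_lit 0) (nat_lit 17259870807) (nat_lit 304) (nat_lit 48470505959) (nat_lit 380) (nat_lit 23385900167) (nat_lit 82) (nat_lit 5) (nat_lit 86) (nat_lit 5) (nat_lit 87) (nat_lit 5) (nat_lit 386) (nat_lit 373) (nat_lit 261))) (XT.nd (nat_lit 78) (nat_lit 76) (nat_lit 0) (XT.lf (nat_lit 0) (nat_lit 5058286739) (nat_lit 228) (nat_lit 85137708821) (nat_lit 304) (nat_lit 3101855381) (nat_lit 79) (nat_lit 5) (nat_lit 82) (nat_lit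 5) (nat_lit 83) (nat_lit 5) (nat_lit 387) (nat_lit 373) (nat_lit 260)) (XT.lf (nat_lit 0) (nat_lit 20290881907) (nat_lit 304) (nat_lit 8192794907) (nat_lit 76) (nat_lit 69211202890) (nat_lit 78) (nat_lit 5) (nat_lit 82) (nat_lit 5) (nat_lit 79) (nat_lit 5) (nat_lit 388) (nat_lit 373) (nat_lit 259))))))))
noncomputable def xc99 : XT := (XT.nd (nat_lit 1872) (nat_lit 1216) (nat_lit 0) (XT.nd (nat_lit 936) (nat_lit 1520) (nat_lit 0) (XT.nd (nat_lit 468) (nat_lit 988) (nat_lit 0) (XT.nd (nat_lit 234) (nat_lit 608) (nat_lit 0) (XT.nd (nat_lit 78) (nat_lit 532) (nat_lit 0) (XT.lf (nat_lit 0) (nat_lit 47239726022) (nat_lit 380) (nat_lit 22120980070) (nat_lit 76) (nat_lit 32990754906) (nat_lit 74) (nat_lit 5) (nat_lit 79) (nat_lit 5) (nat_lit 75) (nat_lit 5) (nat_lit 389) (nat_lit 373) (nat_lit 258)) (XT.nd (nat_lit 78) (nat_lit 304) (nat_lit 0) (XT.lf (nat_lit 0) (nat_lit 70415912696) (nat_lit 228)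 (nat_lit 7651826757) (nat_lit 304) (nat_lit 29226667011) (nat_lit 71) (nat_lit 5) (nat_lit 74) (nat_lit 5) (nat_lit 75) (nat_lit 5) (nat_lit 390) (nat_lit 373) (nat_lit 257)) (XT.lf (nat_lit 0) (nat_lit 1046997610) (nat_lit 304) (nat_lit 53030186103) (nat_lit 76) (nat_lit 58442740662) (nat_lit 67) (nat_lit 5) (nat_lit 71) (nat_lit 5) (nat_lit 68) (nat_lit 5) (nat_lit 391) (nat_lit 373) (nat_lit 256)))) (XT.nd (nat_lit 78) (nat_lit 380) (nat_lit 0) (XT.lf (nat_lit 0) (nat_lit 34465752494) (nat_lit 304) (nat_lit 70628015611) (nat_lit 76) (nat_lit 12958402092) (nat_lit 64) (nat_lit 5) (nat_lit 68) (nat_lit 5) (nat_lit 65) (nat_lit 5) (nat_lit 392) (nat_lit 373) (nat_lit 255)) (XT.nd (nat_lit 78) (nat_lit 152) (nat_lit 0) (XT.lf (nat_lit 0) (nat_lit 33986657608) (nat_lit 228) (nat_lit 38951431640) (nat_lit 304) (nat_lit 50969902938) (nat_lit 61) (nat_lit 5) (nat_lit 64) (nat_lit 5) (nat_lit 65)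 (nat_lit 5) (nat_lit 393) (nat_lit 373) (nat_lit 254)) (XT.lf (nat_lit 0) (nat_lit 19414065714) (nat_lit 152) (nat_lit 97133635323) (nat_lit 228) (nat_lit 13581605024) (nat_lit 59) (nat_lit 5) (nat_lit 61) (nat_lit 5) (nat_lit 62) (nat_lit 5) (nat_lit 394) (nat_lit 373) (nat_lit 253))))) (XT.nd (nat_lit 234) (nat_lit 532) (nat_lit 0) (XT.nd (nat_lit 78) (nat_lit 152) (nat_lit 0) (XT.lf (nat_lit 0) (nat_lit 2928422773) (nat_lit 228) (nat_lit 25305022302) (nat_lit 304) (nat_lit 108479291838) (nat_lit 55) (nat_lit 5) (nat_lit 58) (nat_lit 5) (nat_lit 59) (nat_lit 5) (nat_lit 395) (nat_lit 373) (nat_lit 252)) (XT.nd (nat_lit 78) (nat_lit 152) (nat_lit 0) (XT.lf (nat_lit 0) (nat_lit 75699382809) (nat_lit 304) (nat_lit 15187703146) (nat_lit 76) (nat_lit 52785548404) (nat_lit 55) (nat_lit 5) (nat_lit 59) (nat_lit 5) (nat_lit 56) (nat_lit 5) (nat_lit 396) (nat_lit 373) (nat_lit 251)) (XT.lf (nat_lit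 0) (nat_lit 116187020494) (nat_lit 152) (nat_lit 13015224467) (nat_lit 228) (nat_lit 21875096570) (nat_lit 53) (nat_lit 5) (nat_lit 55) (nat_lit 5) (nat_lit 56) (nat_lit 5) (nat_lit 397) (nat_lit 373) (nat_lit 250)))) (XT.nd (nat_lit 78) (nat_lit 304) (nat_lit 0) (XT.lf (nat_lit 0) (nat_lit 30031649775) (nat_lit 228) (nat_lit 57718689977) (nat_lit 76) (nat_lit 71151594384) (nat_lit 50) (nat_lit 5) (nat_lit 53) (nat_lit 5) (nat_lit 51) (nat_lit 5) (nat_lit 398) (nat_lit 373) (nat_lit 249)) (XT.nd (nat_lit 78) (nat_lit 152) (nat_lit 0) (XT.lf (nat_lit 0) (nat_lit 84160318912) (nat_lit 152) (nat_lit 3324668839) (nat_lit 228) (nat_lit 79741553880) (nat_lit 48) (nat_lit 5) (nat_lit 50) (nat_lit 5) (nat_lit 51) (nat_lit 5) (nat_lit 399) (nat_lit 373) (nat_lit 248)) (XT.lf (nat_lit 0) (nat_lit 63940735892) (nat_lit 152) (nat_lit 88984791926) (nat_lit 228) (nat_lit 23122043459) (nat_lit 46) (nat_lit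 5) (nat_lit 48) (nat_lit 5) (nat_lit 49) (nat_lit 5) (nat_lit 400) (nat_lit 373) (nat_lit 247)))))) (XT.nd (nat_lit 468) (nat_lit 760) (nat_lit 0) (XT.nd (nat_lit 234) (nat_lit 380) (nat_lit 0) (XT.nd (nat_lit 78) (nat_lit 152) (nat_lit 0) (XT.lf (nat_lit 0) (nat_lit 39001410569) (nat_lit 228) (nat_lit 144661474064) (nat_lit 76) (nat_lit 1772139249) (nat_lit 43) (nat_lit 5) (nat_lit 46) (nat_lit 5) (nat_lit 44) (nat_lit 5) (nat_lit 401) (nat_lit 373) (nat_lit 246)) (XT.nd (nat_lit 78) (nat_lit 0) (nat_lit 0) (XT.lf (nat_lit 0) (nat_lit 12900934124) (nat_lit 152) (nat_lit 96080399727) (nat_lit 228) (nat_lit 86388352761) (nat_lit 41) (nat_lit 5) (nat_lit 43) (nat_lit 5) (nat_lit 44) (nat_lit 5) (nat_lit 402) (nat_lit 373) (nat_lit 245)) (XT.lf (nat_lit 0) (nat_lit 187096758113) (nat_lit 228) (nat_lit 17758442098) (nat_lit 76) (nat_lit 1117067025) (nat_lit 41) (nat_lit 5) (nat_lit 44) (nat_lit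 5) (nat_lit 42) (nat_lit 4) (nat_lit 403) (nat_lit 373) (nat_lit 244)))) (XT.nd (nat_lit 78) (nat_lit 228) (nat_lit 0) (XT.lf (nat_lit 0) (nat_lit 56553146506) (nat_lit 152) (nat_lit 54378170993) (nat_lit 76) (nat_lit 106237335022) (nat_lit 39) (nat_lit 5) (nat_lit 41) (nat_lit 5) (nat_lit 40) (nat_lit 5) (nat_lit 404) (nat_lit 373) (nat_lit 243)) (XT.nd (nat_lit 78) (nat_lit 76) (nat_lit 0) (XT.lf (nat_lit 0) (nat_lit 133107821837) (nat_lit 152) (nat_lit 6647663118) (nat_lit 228) (nat_lit 89369757318) (nat_lit 37) (nat_lit 5) (nat_lit 39) (nat_lit 5) (nat_lit 40) (nat_lit 5) (nat_lit 405) (nat_lit 373) (nat_lit 242)) (XT.lf (nat_lit 0) (nat_lit 96975936988) (nat_lit 76) (nat_lit 136768809596) (nat_lit 152) (nat_lit 8087075989) (nat_lit 36) (nat_lit 5) (nat_lit 37) (nat_lit 5) (nat_lit 38) (nat_lit 4) (nat_lit 406) (nat_lit 373) (nat_lit 241))))) (XT.nd (nat_lit 234) (nat_lit 380) (nat_lit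 0) (XT.nd (nat_lit 78) (nat_lit 152) (nat_lit 0) (XT.lf (nat_lit 0) (nat_lit 53699883873) (nat_lit 152) (nat_lit 26097280537) (nat_lit 228) (nat_lit 175563060147) (nat_lit 33) (nat_lit 5) (nat_lit 35) (nat_lit 5) (nat_lit 36) (nat_lit 5) (nat_lit 407) (nat_lit 373) (nat_lit 240)) (XT.nd (nat_lit 78) (nat_lit 76) (nat_lit 0) (XT.lf (nat_lit 0) (nat_lit 1891054143) (nat_lit 76) (nat_lit 176593736698) (nat_lit 152) (nat_lit 91276680322) (nat_lit 32) (nat_lit 5) (nat_lit 33) (nat_lit 5) (nat_lit 34) (nat_lit 4) (nat_lit 408) (nat_lit 373) (nat_lit 239)) (XT.lf (nat_lit 0) (nat_lit 3770308408) (nat_lit 152) (nat_lit 56706341215) (nat_lit 76) (nat_lit 224637872098) (nat_lit 31) (nat_lit 5) (nat_lit 33) (nat_lit 5) (nat_lit 32) (nat_lit 5) (nat_lit 409) (nat_lit 373) (nat_lit 238)))) (XT.nd (nat_lit 78) (nat_lit 228) (nat_lit 0) (XT.lf (nat_lit 0) (nat_lit 107088060505) (nat_lit 228) (nat_lit 127140420245)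 (nat_lit 76) (nat_lit 67199274010) (nat_lit 29) (nat_lit 5) (nat_lit 32) (nat_lit 5) (nat_lit 30) (nat_lit 4) (nat_lit 410) (nat_lit 373) (nat_lit 237)) (XT.nd (nat_lit 78) (nat_lit 152) (nat_lit 0) (XT.lf (nat_lit 0) (nat_lit 109248440552) (nat_lit 76) (nat_lit 113151615991) (nat_lit 152) (nat_lit 96459548820) (nat_lit 28) (nat_lit 5) (nat_lit 29) (nat_lit 5) (nat_lit 30) (nat_lit 4) (nat_lit 411) (nat_lit 373) (nat_lit 236)) (XT.lf (nat_lit 0) (nat_lit 12033224995) (nat_lit 152) (nat_lit 305496033797) (nat_lit 76) (nat_lit 19995608269) (nat_lit 26) (nat_lit 5) (nat_lit 28) (nat_lit 5) (nat_lit 27) (nat_lit 4) (nat_lit 412) (nat_lit 373) (nat_lit 235))))))) (XT.nd (nat_lit 936) (nat_lit 456) (nat_lit 0) (XT.nd (nat_lit 468) (nat_lit 380) (nat_lit 0) (XT.nd (nat_lit 234) (nat_lit 152) (nat_lit 0) (XT.nd (nat_lit 78) (nat_lit 228) (nat_lit 0) (XT.lf (nat_lit 0) (nat_lit 131489677819) (nat_lit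 152) (nat_lit 60610902445) (nat_lit 76) (nat_lit 165220517823) (nat_lit 26) (nat_lit 5) (nat_lit 28) (nat_lit 5) (nat_lit 27) (nat_lit 4) (nat_lit 413) (nat_lit 373) (nat_lit 234)) (XT.nd (nat_lit 78) (nat_lit 152) (nat_lit 0) (XT.lf (nat_lit 0) (nat_lit 210604771033) (nat_lit 76) (nat_lit 53185504931) (nat_lit 152) (nat_lit 114746370257) (nat_lit 25) (nat_lit 5) (nat_lit 26) (nat_lit 5) (nat_lit 27) (nat_lit 4) (nat_lit 414) (nat_lit 373) (nat_lit 233)) (XT.lf (nat_lit 0) (nat_lit 9369731629) (nat_lit 152) (nat_lit 295235675370) (nat_lit 76) (nat_lit 96624377257) (nat_lit 23) (nat_lit 5) (nat_lit 25) (nat_lit 5) (nat_lit 24) (nat_lit 4) (nat_lit 415) (nat_lit 373) (nat_lit 232)))) (XT.nd (nat_lit 78) (nat_lit 152) (nat_lit 0) (XT.lf (nat_lit 0) (nat_lit 143318267724) (nat_lit 152) (nat_lit 20641627679) (nat_lit 76) (nat_lit 261488258599) (nat_lit 23) (nat_lit 5) (nat_lit 25) (nat_lit 5)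 (nat_lit 24) (nat_lit 4) (nat_lit 416) (nat_lit 373) (nat_lit 231)) (XT.nd (nat_lit 78) (nat_lit 76) (nat_lit 0) (XT.lf (nat_lit 0) (nat_lit 285042252862) (nat_lit 76) (nat_lit 7390306771) (nat_lit 152) (nat_lit 158948940110) (nat_lit 22) (nat_lit 5) (nat_lit 23) (nat_lit 5) (nat_lit 24) (nat_lit 4) (nat_lit 417) (nat_lit 373) (nat_lit 230)) (XT.lf (nat_lit 0) (nat_lit 138446194820) (nat_lit 76) (nat_lit 320081036055) (nat_lit 76) (nat_lit 20609720525) (nat_lit 21) (nat_lit 4) (nat_lit 22) (nat_lit 5) (nat_lit 22) (nat_lit 4) (nat_lit 418) (nat_lit 373) (nat_lit 229))))) (XT.nd (nat_lit 234) (nat_lit 152) (nat_lit 0) (XT.nd (nat_lit 78) (nat_lit 152) (nat_lit 0) (XT.lf (nat_lit 0) (nat_lit 127743567976) (nat_lit 152) (nat_lit 37597342377) (nat_lit 76) (nat_lit 343517923662) (nat_lit 20) (nat_lit 5) (nat_lit 22) (nat_lit 5) (nat_lit 21) (nat_lit 4) (nat_lit 419) (nat_lit 373) (nat_lit 228))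 (XT.nd (nat_lit 78) (nat_lit 76) (nat_lit 0) (XT.lf (nat_lit 0) (nat_lit 292029973299) (nat_lit 152) (nat_lit 241853684100) (nat_lit 0) (nat_lit 6818570773) (nat_lit 19) (nat_lit 5) (nat_lit 21) (nat_lit 4) (nat_lit 19) (nat_lit 4) (nat_lit 420) (nat_lit 373) (nat_lit 227)) (XT.lf (nat_lit 0) (nat_lit 88526347632) (nat_lit 76) (nat_lit 385768329056) (nat_lit 76) (nat_lit 100556647936) (nat_lit 18) (nat_lit 4) (nat_lit 19) (nat_lit 5) (nat_lit 19) (nat_lit 4) (nat_lit 421) (nat_lit 373) (nat_lit 226)))) (XT.nd (nat_lit 78) (nat_lit 76) (nat_lit 0) (XT.lf (nat_lit 0) (nat_lit 61788418013) (nat_lit 152) (nat_lit 158545682147) (nat_lit 76) (nat_lit 391137790032) (nat_lit 17) (nat_lit 5) (nat_lit 19) (nat_lit 5) (nat_lit 18) (nat_lit 4) (nat_lit 422) (nat_lit 373) (nat_lit 225)) (XT.nd (nat_lit 78) (nat_lit 0) (nat_lit 0) (XT.lf (nat_lit 0) (nat_lit 200166324845) (nat_lit 76) (nat_lit 36603676506)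 (nat_lit 152) (nat_lit 414011079850) (nat_lit 16) (nat_lit 5) (nat_lit 17) (nat_lit 5) (nat_lit 18) (nat_lit 4) (nat_lit 423) (nat_lit 373) (nat_lit 224)) (XT.lf (nat_lit 0) (nat_lit 431083375371) (nat_lit 152) (nat_lit 102432449846) (nat_lit 0) (nat_lit 159452519102) (nat_lit 16) (nat_lit 5) (nat_lit 18) (nat_lit 4) (nat_lit 16) (nat_lit 4) (nat_lit 424) (nat_lit 373) (nat_lit 223)))))) (XT.nd (nat_lit 468) (nat_lit 152) (nat_lit 0) (XT.nd (nat_lit 234) (nat_lit 76) (nat_lit 0) (XT.nd (nat_lit 78) (nat_lit 152) (nat_lit 0) (XT.lf (nat_lit 0) (nat_lit 282012835405) (nat_lit 76) (nat_lit 363948904195) (nat_lit 76) (nat_lit 92317852903) (nat_lit 15) (nat_lit 4) (nat_lit 16) (nat_lit 5) (nat_lit 16) (nat_lit 4) (nat_lit 425) (nat_lit 373) (nat_lit 222)) (XT.nd (nat_lit 78) (nat_lit 76) (nat_lit 0) (XT.lf (nat_lit 0) (nat_lit 89721268573) (nat_lit 152) (nat_lit 87702631293) (nat_lit 76) (nat_lit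 609630283581) (nat_lit 14) (nat_lit 5) (nat_lit 16) (nat_lit 5) (nat_lit 15) (nat_lit 4) (nat_lit 426) (nat_lit 373) (nat_lit 221)) (XT.lf (nat_lit 0) (nat_lit 288594831943) (nat_lit 152) (nat_lit 520886693972) (nat_lit 0) (nat_lit 29898261401) (nat_lit 13) (nat_lit 5) (nat_lit 15) (nat_lit 4) (nat_lit 13) (nat_lit 4) (nat_lit 427) (nat_lit 373) (nat_lit 220)))) (XT.nd (nat_lit 78) (nat_lit 76) (nat_lit 0) (XT.lf (nat_lit 0) (nat_lit 507922482163) (nat_lit 152) (nat_lit 138515983088) (nat_lit 0) (nat_lit 249225764177) (nat_lit 13) (nat_lit 5) (nat_lit 15) (nat_lit 4) (nat_lit 13) (nat_lit 4) (nat_lit 428) (nat_lit 373) (nat_lit 219)) (XT.nd (nat_lit 78) (nat_lit 0) (nat_lit 0) (XT.lf (nat_lit 0) (nat_lit 283518274609) (nat_lit 76) (nat_lit 465704346497) (nat_lit 76) (nat_lit 207007491990) (nat_lit 12) (nat_lit 4) (nat_lit 13) (nat_lit 5) (nat_lit 13) (nat_lit 4) (nat_lit 429) (nat_lit 373)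 (nat_lit 218)) (XT.lf (nat_lit 0) (nat_lit 744261188774) (nat_lit 76) (nat_lit 267978214019) (nat_lit 76) (nat_lit 9281233102) (nat_lit 12) (nat_lit 4) (nat_lit 13) (nat_lit 5) (nat_lit 13) (nat_lit 4) (nat_lit 430) (nat_lit 373) (nat_lit 217))))) (XT.nd (nat_lit 48828) (nat_lit 0) (nat_lit 7676) (XT.nd (nat_lit 48672) (nat_lit 0) (nat_lit 7600) (XT.lf (nat_lit 0) (nat_lit 151488163662) (nat_lit 76) (nat_lit 48602207861) (nat_lit 152) (nat_lit 891666325982) (nat_lit 10) (nat_lit 5) (nat_lit 11) (nat_lit 5) (nat_lit 12) (nat_lit 4) (nat_lit 431) (nat_lit 373) (nat_lit 216)) (XT.nd (nat_lit 78) (nat_lit 0) (nat_lit 76) (XT.lf (nat_lit 0) (nat_lit 6159066556) (nat_lit 836) (nat_lit 10851926735) (nat_lit 836) (nat_lit 10851926735) (nat_lit 110) (nat_lit 3) (nat_lit 121) (nat_lit 3) (nat_lit 121) (nat_lit 5) (nat_lit 374) (nat_lit 374) (nat_lit 272)) (XT.lf (nat_lit 0) (nat_lit 13322863777) (nat_lit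 760) (nat_lit 36114849666) (nat_lit 836) (nat_lit 8491537200) (nat_lit 111) (nat_lit 5) (nat_lit 121) (nat_lit 5) (nat_lit 122) (nat_lit 5) (nat_lit 375) (nat_lit 374) (nat_lit 271)))) (XT.nd (nat_lit 156) (nat_lit 0) (nat_lit 152) (XT.nd (nat_lit 78) (nat_lit 0) (nat_lit 76) (XT.lf (nat_lit 76) (nat_lit 9005548281) (nat_lit 0) (nat_lit 6497737236) (nat_lit 836) (nat_lit 44750885204) (nat_lit 112) (nat_lit 5) (nat_lit 111) (nat_lit 5) (nat_lit 122) (nat_lit 5) (nat_lit 376) (nat_lit 374) (nat_lit 270)) (XT.lf (nat_lit 0) (nat_lit 19117151259) (nat_lit 760) (nat_lit 4343337887) (nat_lit 836) (nat_lit 39241646854) (nat_lit 112) (nat_lit 5) (nat_lit 122) (nat_lit 5) (nat_lit 123) (nat_lit 5) (nat_lit 377) (nat_lit 374) (nat_lit 269))) (XT.nd (nat_lit 78) (nat_lit 0) (nat_lit 76) (XT.lf (nat_lit 0) (nat_lit 24244619778) (nat_lit 760) (nat_lit 17945229706) (nat_lit 836) (nat_lit 23094866292) (nat_lit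 113) (nat_lit 5) (nat_lit 123) (nat_lit 5) (nat_lit 124) (nat_lit 5) (nat_lit 378) (nat_lit 374) (nat_lit 268)) (XT.lf (nat_lit 0) (nat_lit 30895061647) (nat_lit 760) (nat_lit 32107976518) (nat_lit 836) (nat_lit 5015226783) (nat_lit 114) (nat_lit 5) (nat_lit 124) (nat_lit 5) (nat_lit 125) (nat_lit 5) (nat_lit 379) (nat_lit 374) (nat_lit 267))))))))
noncomputable def xc100 : XT := (XT.nd (nat_lit 1872) (nat_lit 2128) (nat_lit 0) (XT.nd (nat_lit 936) (nat_lit 2280) (nat_lit 0) (XT.nd (nat_lit 468) (nat_lit 1444) (nat_lit 0) (XT.nd (nat_lit 234) (nat_lit 1140) (nat_lit 0) (XT.nd (nat_lit 78) (nat_lit 684) (nat_lit 0) (XT.lf (nat_lit 76) (nat_lit 23803553056) (nat_lit 0) (nat_lit 15672327942) (nat_lit 836) (nat_lit 31424701622) (nat_lit 115) (nat_lit 5) (nat_lit 114) (nat_lit 5) (nat_lit 125) (nat_lit 5) (nat_lit 380) (nat_lit 374) (nat_lit 266)) (XT.nd (nat_lit 78) (nat_lit 0) (nat_lit 0) (XT.lf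 (nat_lit 0) (nat_lit 11141051680) (nat_lit 760) (nat_lit 38895659788) (nat_lit 836) (nat_lit 23912098507) (nat_lit 105) (nat_lit 5) (nat_lit 115) (nat_lit 5) (nat_lit 116) (nat_lit 5) (nat_lit 381) (nat_lit 374) (nat_lit 265)) (XT.lf (nat_lit 0) (nat_lit 62722473175) (nat_lit 836) (nat_lit 1943702910) (nat_lit 76) (nat_lit 12510717629) (nat_lit 105) (nat_lit 5) (nat_lit 116) (nat_lit 5) (nat_lit 106) (nat_lit 5) (nat_lit 382) (nat_lit 374) (nat_lit 264)))) (XT.nd (nat_lit 78) (nat_lit 760) (nat_lit 0) (XT.lf (nat_lit 0) (nat_lit 65219154533) (nat_lit 380) (nat_lit 12876084336) (nat_lit 456) (nat_lit 2484379458) (nat_lit 100) (nat_lit 5) (nat_lit 105) (nat_lit 5) (nat_lit 106) (nat_lit 5) (nat_lit 383) (nat_lit 374) (nat_lit 263)) (XT.nd (nat_lit 78) (nat_lit 380) (nat_lit 0) (XT.lf (nat_lit 0) (nat_lit 11692542292) (nat_lit 380) (nat_lit 29719362339) (nat_lit 76) (nat_lit 42755328664) (nat_lit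 95) (nat_lit 5) (nat_lit 100) (nat_lit 5) (nat_lit 96) (nat_lit 5) (nat_lit 384) (nat_lit 374) (nat_lit 262)) (XT.lf (nat_lit 0) (nat_lit 28324498517) (nat_lit 456) (nat_lit 44734431236) (nat_lit 76) (nat_lit 14910496352) (nat_lit 90) (nat_lit 5) (nat_lit 96) (nat_lit 5) (nat_lit 91) (nat_lit 5) (nat_lit 385) (nat_lit 374) (nat_lit 261))))) (XT.nd (nat_lit 234) (nat_lit 608) (nat_lit 0) (XT.nd (nat_lit 78) (nat_lit 532) (nat_lit 0) (XT.lf (nat_lit 0) (nat_lit 31331207092) (nat_lit 304) (nat_lit 16667765781) (nat_lit 380) (nat_lit 43991224386) (nat_lit 86) (nat_lit 5) (nat_lit 90) (nat_lit 5) (nat_lit 91) (nat_lit 5) (nat_lit 386) (nat_lit 374) (nat_lit 260)) (XT.nd (nat_lit 78) (nat_lit 228) (nat_lit 0) (XT.lf (nat_lit 0) (nat_lit 18678431135) (nat_lit 304) (nat_lit 52341669832) (nat_lit 380) (nat_lit 25223895281) (nat_lit 82) (nat_lit 5) (nat_lit 86) (nat_lit 5) (nat_lit 87) (nat_lit 5)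 (nat_lit 387) (nat_lit 374) (nat_lit 259)) (XT.lf (nat_lit 0) (nat_lit 5500496203) (nat_lit 228) (nat_lit 91940834817) (nat_lit 304) (nat_lit 3318848412) (nat_lit 79) (nat_lit 5) (nat_lit 82) (nat_lit 5) (nat_lit 83) (nat_lit 5) (nat_lit 388) (nat_lit 374) (nat_lit 258)))) (XT.nd (nat_lit 78) (nat_lit 532) (nat_lit 0) (XT.lf (nat_lit 0) (nat_lit 21942076748) (nat_lit 304) (nat_lit 8812515087) (nat_lit 76) (nat_lit 74754467222) (nat_lit 78) (nat_lit 5) (nat_lit 82) (nat_lit 5) (nat_lit 79) (nat_lit 5) (nat_lit 389) (nat_lit 374) (nat_lit 257)) (XT.nd (nat_lit 78) (nat_lit 228) (nat_lit 0) (XT.lf (nat_lit 0) (nat_lit 51045414330) (nat_lit 380) (nat_lit 23855294724) (nat_lit 76) (nat_lit 35637529600) (nat_lit 74) (nat_lit 5) (nat_lit 79) (nat_lit 5) (nat_lit 75) (nat_lit 5) (nat_lit 390) (nat_lit 374) (nat_lit 256)) (XT.lf (nat_lit 0) (nat_lit 76083012597) (nat_lit 228) (nat_lit 8255220650)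 (nat_lit 304) (nat_lit 31538459305) (nat_lit 71) (nat_lit 5) (nat_lit 74) (nat_lit 5) (nat_lit 75) (nat_lit 5) (nat_lit 391) (nat_lit 374) (nat_lit 255)))))) (XT.nd (nat_lit 468) (nat_lit 1064) (nat_lit 0) (XT.nd (nat_lit 234) (nat_lit 456) (nat_lit 0) (XT.nd (nat_lit 78) (nat_lit 456) (nat_lit 0) (XT.lf (nat_lit 0) (nat_lit 1155025878) (nat_lit 304) (nat_lit 57238349877) (nat_lit 76) (nat_lit 63126917951) (nat_lit 67) (nat_lit 5) (nat_lit 71) (nat_lit 5) (nat_lit 68) (nat_lit 5) (nat_lit 392) (nat_lit 374) (nat_lit 254)) (XT.nd (nat_lit 78) (nat_lit 228) (nat_lit 0) (XT.lf (nat_lit 0) (nat_lit 37246147703) (nat_lit 304) (nat_lit 76244487473) (nat_lit 76) (nat_lit 14004541520) (nat_lit 64) (nat_lit 5) (nat_lit 68) (nat_lit 5) (nat_lit 65) (nat_lit 5) (nat_lit 393) (nat_lit 374) (nat_lit 253)) (XT.lf (nat_lit 0) (nat_lit 36737892027) (nat_lit 228) (nat_lit 42057169987) (nat_lit 304) (nat_lit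 55024463667) (nat_lit 61) (nat_lit 5) (nat_lit 64) (nat_lit 5) (nat_lit 65) (nat_lit 5) (nat_lit 394) (nat_lit 374) (nat_lit 252)))) (XT.nd (nat_lit 78) (nat_lit 304) (nat_lit 0) (XT.lf (nat_lit 0) (nat_lit 20998991844) (nat_lit 152) (nat_lit 104893473284) (nat_lit 228) (nat_lit 14646129129) (nat_lit 59) (nat_lit 5) (nat_lit 61) (nat_lit 5) (nat_lit 62) (nat_lit 5) (nat_lit 395) (nat_lit 374) (nat_lit 251)) (XT.nd (nat_lit 78) (nat_lit 0) (nat_lit 0) (XT.lf (nat_lit 0) (nat_lit 3193797205) (nat_lit 228) (nat_lit 27318531286) (nat_lit 304) (nat_lit 117136409147) (nat_lit 55) (nat_lit 5) (nat_lit 58) (nat_lit 5) (nat_lit 59) (nat_lit 5) (nat_lit 396) (nat_lit 374) (nat_lit 250)) (XT.lf (nat_lit 0) (nat_lit 81774201839) (nat_lit 304) (nat_lit 16373137202) (nat_lit 76) (nat_lit 57018155390) (nat_lit 55) (nat_lit 5) (nat_lit 59) (nat_lit 5) (nat_lit 56) (nat_lit 5) (nat_lit 397) (nat_lit 374)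 (nat_lit 249))))) (XT.nd (nat_lit 234) (nat_lit 532) (nat_lit 0) (XT.nd (nat_lit 78) (nat_lit 380) (nat_lit 0) (XT.lf (nat_lit 0) (nat_lit 125510278723) (nat_lit 152) (nat_lit 14046058369) (nat_lit 228) (nat_lit 23606289416) (nat_lit 53) (nat_lit 5) (nat_lit 55) (nat_lit 5) (nat_lit 56) (nat_lit 5) (nat_lit 398) (nat_lit 374) (nat_lit 248)) (XT.nd (nat_lit 78) (nat_lit 152) (nat_lit 0) (XT.lf (nat_lit 0) (nat_lit 32451638685) (nat_lit 228) (nat_lit 62307827137) (nat_lit 76) (nat_lit 76853744273) (nat_lit 50) (nat_lit 5) (nat_lit 53) (nat_lit 5) (nat_lit 51) (nat_lit 5) (nat_lit 399) (nat_lit 374) (nat_lit 247)) (XT.lf (nat_lit 0) (nat_lit 90920270057) (nat_lit 152) (nat_lit 3580104044) (nat_lit 228) (nat_lit 86103456008) (nat_lit 48) (nat_lit 5) (nat_lit 50) (nat_lit 5) (nat_lit 51) (nat_lit 5) (nat_lit 400) (nat_lit 374) (nat_lit 246)))) (XT.nd (nat_lit 78) (nat_lit 380) (nat_lit 0) (XT.lf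 (nat_lit 0) (nat_lit 69082582738) (nat_lit 152) (nat_lit 96092913402) (nat_lit 228) (nat_lit 24955079455) (nat_lit 46) (nat_lit 5) (nat_lit 48) (nat_lit 5) (nat_lit 49) (nat_lit 5) (nat_lit 401) (nat_lit 374) (nat_lit 245)) (XT.nd (nat_lit 78) (nat_lit 152) (nat_lit 0) (XT.lf (nat_lit 0) (nat_lit 42137085974) (nat_lit 228) (nat_lit 156207833117) (nat_lit 76) (nat_lit 1924124093) (nat_lit 43) (nat_lit 5) (nat_lit 46) (nat_lit 5) (nat_lit 44) (nat_lit 5) (nat_lit 402) (nat_lit 374) (nat_lit 244)) (XT.lf (nat_lit 0) (nat_lit 13958413510) (nat_lit 152) (nat_lit 103756233465) (nat_lit 228) (nat_lit 93283870098) (nat_lit 41) (nat_lit 5) (nat_lit 43) (nat_lit 5) (nat_lit 44) (nat_lit 5) (nat_lit 403) (nat_lit 374) (nat_lit 243))))))) (XT.nd (nat_lit 936) (nat_lit 912) (nat_lit 0) (XT.nd (nat_lit 468) (nat_lit 532) (nat_lit 0) (XT.nd (nat_lit 234) (nat_lit 380) (nat_lit 0) (XT.nd (nat_lit 78) (nat_lit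 304) (nat_lit 0) (XT.lf (nat_lit 0) (nat_lit 202078361617) (nat_lit 228) (nat_lit 19155058525) (nat_lit 76) (nat_lit 1215931489) (nat_lit 41) (nat_lit 5) (nat_lit 44) (nat_lit 5) (nat_lit 42) (nat_lit 4) (nat_lit 404) (nat_lit 374) (nat_lit 242)) (XT.nd (nat_lit 78) (nat_lit 152) (nat_lit 0) (XT.lf (nat_lit 0) (nat_lit 61090813265) (nat_lit 152) (nat_lit 58704964355) (nat_lit 76) (nat_lit 114745692963) (nat_lit 39) (nat_lit 5) (nat_lit 41) (nat_lit 5) (nat_lit 40) (nat_lit 5) (nat_lit 405) (nat_lit 374) (nat_lit 241)) (XT.lf (nat_lit 0) (nat_lit 143778888344) (nat_lit 152) (nat_lit 7169807102) (nat_lit 228) (nat_lit 96505924487) (nat_lit 37) (nat_lit 5) (nat_lit 39) (nat_lit 5) (nat_lit 40) (nat_lit 5) (nat_lit 406) (nat_lit 374) (nat_lit 240)))) (XT.nd (nat_lit 78) (nat_lit 304) (nat_lit 0) (XT.lf (nat_lit 0) (nat_lit 104755946891) (nat_lit 76) (nat_lit 147700687309) (nat_lit 152) (nat_lit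 8721115882) (nat_lit 36) (nat_lit 5) (nat_lit 37) (nat_lit 5) (nat_lit 38) (nat_lit 4) (nat_lit 407) (nat_lit 374) (nat_lit 239)) (XT.nd (nat_lit 78) (nat_lit 76) (nat_lit 0) (XT.lf (nat_lit 0) (nat_lit 58017254646) (nat_lit 152) (nat_lit 28175602339) (nat_lit 228) (nat_lit 189595587005) (nat_lit 33) (nat_lit 5) (nat_lit 35) (nat_lit 5) (nat_lit 36) (nat_lit 5) (nat_lit 408) (nat_lit 374) (nat_lit 238)) (XT.lf (nat_lit 0) (nat_lit 2063220618) (nat_lit 76) (nat_lit 190711852786) (nat_lit 152) (nat_lit 98566738116) (nat_lit 32) (nat_lit 5) (nat_lit 33) (nat_lit 5) (nat_lit 34) (nat_lit 4) (nat_lit 409) (nat_lit 374) (nat_lit 237))))) (XT.nd (nat_lit 234) (nat_lit 228) (nat_lit 0) (XT.nd (nat_lit 78) (nat_lit 228) (nat_lit 0) (XT.lf (nat_lit 0) (nat_lit 4082757250) (nat_lit 152) (nat_lit 61223153208) (nat_lit 76) (nat_lit 242617229700) (nat_lit 31) (nat_lit 5) (nat_lit 33) (nat_lit 5) (nat_lit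 32) (nat_lit 5) (nat_lit 410) (nat_lit 374) (nat_lit 236)) (XT.nd (nat_lit 78) (nat_lit 76) (nat_lit 0) (XT.lf (nat_lit 0) (nat_lit 115665554927) (nat_lit 228) (nat_lit 137292429798) (nat_lit 76) (nat_lit 72583466002) (nat_lit 29) (nat_lit 5) (nat_lit 32) (nat_lit 5) (nat_lit 30) (nat_lit 4) (nat_lit 411) (nat_lit 374) (nat_lit 235)) (XT.lf (nat_lit 0) (nat_lit 118006704409) (nat_lit 76) (nat_lit 122195319294) (nat_lit 152) (nat_lit 104165850165) (nat_lit 28) (nat_lit 5) (nat_lit 29) (nat_lit 5) (nat_lit 30) (nat_lit 4) (nat_lit 412) (nat_lit 374) (nat_lit 234)))) (XT.nd (nat_lit 78) (nat_lit 76) (nat_lit 0) (XT.lf (nat_lit 0) (nat_lit 13005669008) (nat_lit 152) (nat_lit 329917449522) (nat_lit 76) (nat_lit 21603247015) (nat_lit 26) (nat_lit 5) (nat_lit 28) (nat_lit 5) (nat_lit 27) (nat_lit 4) (nat_lit 413) (nat_lit 374) (nat_lit 233)) (XT.nd (nat_lit 78) (nat_lit 76) (nat_lit 0) (XT.lf (nat_lit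 0) (nat_lit 142017913167) (nat_lit 152) (nat_lit 65442860772) (nat_lit 76) (nat_lit 178445557475) (nat_lit 26) (nat_lit 5) (nat_lit 28) (nat_lit 5) (nat_lit 27) (nat_lit 4) (nat_lit 414) (nat_lit 374) (nat_lit 232)) (XT.lf (nat_lit 0) (nat_lit 227469331528) (nat_lit 76) (nat_lit 57432809038) (nat_lit 152) (nat_lit 123917003871) (nat_lit 25) (nat_lit 5) (nat_lit 26) (nat_lit 5) (nat_lit 27) (nat_lit 4) (nat_lit 415) (nat_lit 374) (nat_lit 231)))))) (XT.nd (nat_lit 468) (nat_lit 456) (nat_lit 0) (XT.nd (nat_lit 234) (nat_lit 228) (nat_lit 0) (XT.nd (nat_lit 78) (nat_lit 76) (nat_lit 0) (XT.lf (nat_lit 0) (nat_lit 10127806005) (nat_lit 152) (nat_lit 318838469498) (nat_lit 76) (nat_lit 104361465506) (nat_lit 23) (nat_lit 5) (nat_lit 25) (nat_lit 5) (nat_lit 24) (nat_lit 4) (nat_lit 416) (nat_lit 374) (nat_lit 230)) (XT.nd (nat_lit 78) (nat_lit 76) (nat_lit 0) (XT.lf (nat_lit 0) (nat_lit 154791595665)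 (nat_lit 152) (nat_lit 22278087615) (nat_lit 76) (nat_lit 282413928610) (nat_lit 23) (nat_lit 5) (nat_lit 25) (nat_lit 5) (nat_lit 24) (nat_lit 4) (nat_lit 417) (nat_lit 374) (nat_lit 229)) (XT.lf (nat_lit 0) (nat_lit 307859857125) (nat_lit 76) (nat_lit 7974813173) (nat_lit 152) (nat_lit 171656973104) (nat_lit 22) (nat_lit 5) (nat_lit 23) (nat_lit 5) (nat_lit 24) (nat_lit 4) (nat_lit 418) (nat_lit 374) (nat_lit 228)))) (XT.nd (nat_lit 78) (nat_lit 152) (nat_lit 0) (XT.lf (nat_lit 0) (nat_lit 149535755915) (nat_lit 76) (nat_lit 345680916932) (nat_lit 76) (nat_lit 22250870542) (nat_lit 21) (nat_lit 4) (nat_lit 22) (nat_lit 5) (nat_lit 22) (nat_lit 4) (nat_lit 419) (nat_lit 374) (nat_lit 227)) (XT.nd (nat_lit 78) (nat_lit 76) (nat_lit 0) (XT.lf (nat_lit 0) (nat_lit 137969889982) (nat_lit 152) (nat_lit 40592064448) (nat_lit 76) (nat_lit 371005243640) (nat_lit 20) (nat_lit 5) (nat_lit 22) (nat_lit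 5) (nat_lit 21) (nat_lit 4) (nat_lit 420) (nat_lit 374) (nat_lit 226)) (XT.lf (nat_lit 0) (nat_lit 315398989684) (nat_lit 152) (nat_lit 261189247517) (nat_lit 0) (nat_lit 7369837525) (nat_lit 19) (nat_lit 5) (nat_lit 21) (nat_lit 4) (nat_lit 19) (nat_lit 4) (nat_lit 421) (nat_lit 374) (nat_lit 225))))) (XT.nd (nat_lit 234) (nat_lit 228) (nat_lit 0) (XT.nd (nat_lit 78) (nat_lit 152) (nat_lit 0) (XT.lf (nat_lit 0) (nat_lit 95620633467) (nat_lit 76) (nat_lit 416623935749) (nat_lit 76) (nat_lit 108594544741) (nat_lit 18) (nat_lit 4) (nat_lit 19) (nat_lit 5) (nat_lit 19) (nat_lit 4) (nat_lit 422) (nat_lit 374) (nat_lit 224)) (XT.nd (nat_lit 78) (nat_lit 76) (nat_lit 0) (XT.lf (nat_lit 0) (nat_lit 66737438369) (nat_lit 152) (nat_lit 171217863507) (nat_lit 76) (nat_lit 422434041555) (nat_lit 17) (nat_lit 5) (nat_lit 19) (nat_lit 5) (nat_lit 18) (nat_lit 4) (nat_lit 423) (nat_lit 374) (nat_lit 223))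 (XT.lf (nat_lit 0) (nat_lit 216190605433) (nat_lit 76) (nat_lit 39526673772) (nat_lit 152) (nat_lit 447126004018) (nat_lit 16) (nat_lit 5) (nat_lit 17) (nat_lit 5) (nat_lit 18) (nat_lit 4) (nat_lit 424) (nat_lit 374) (nat_lit 222)))) (XT.nd (nat_lit 156) (nat_lit 152) (nat_lit 0) (XT.nd (nat_lit 78) (nat_lit 76) (nat_lit 0) (XT.lf (nat_lit 0) (nat_lit 465575379146) (nat_lit 152) (nat_lit 110616697339) (nat_lit 0) (nat_lit 172213468151) (nat_lit 16) (nat_lit 5) (nat_lit 18) (nat_lit 4) (nat_lit 16) (nat_lit 4) (nat_lit 425) (nat_lit 374) (nat_lit 221)) (XT.lf (nat_lit 0) (nat_lit 304583761000) (nat_lit 76) (nat_lit 393060010969) (nat_lit 76) (nat_lit 99697932773) (nat_lit 15) (nat_lit 4) (nat_lit 16) (nat_lit 5) (nat_lit 16) (nat_lit 4) (nat_lit 426) (nat_lit 374) (nat_lit 220))) (XT.nd (nat_lit 78) (nat_lit 76) (nat_lit 0) (XT.lf (nat_lit 0) (nat_lit 96903763745) (nat_lit 152) (nat_lit 94709517332)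 (nat_lit 76) (nat_lit 658404996918) (nat_lit 14) (nat_lit 5) (nat_lit 16) (nat_lit 5) (nat_lit 15) (nat_lit 4) (nat_lit 427) (nat_lit 374) (nat_lit 219)) (XT.lf (nat_lit 0) (nat_lit 311687064133) (nat_lit 152) (nat_lit 562548548734) (nat_lit 0) (nat_lit 32294324743) (nat_lit 13) (nat_lit 5) (nat_lit 15) (nat_lit 4) (nat_lit 13) (nat_lit 4) (nat_lit 428) (nat_lit 374) (nat_lit 218))))))))
noncomputable def xc101 : XT := (XT.nd (nat_lit 50622) (nat_lit 0) (nat_lit 608) (XT.nd (nat_lit 49686) (nat_lit 0) (nat_lit 3572) (XT.nd (nat_lit 49218) (nat_lit 0) (nat_lit 6688) (XT.nd (nat_lit 48984) (nat_lit 0) (nat_lit 7524) (XT.nd (nat_lit 78) (nat_lit 76) (nat_lit 0) (XT.lf (nat_lit 0) (nat_lit 548560582249) (nat_lit 152) (nat_lit 149588853628) (nat_lit 0) (nat_lit 269167716450) (nat_lit 13) (nat_lit 5) (nat_lit 15) (nat_lit 4) (nat_lit 13) (nat_lit 4) (nat_lit 429) (nat_lit 374) (nat_lit 217)) (XT.nd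 (nat_lit 48828) (nat_lit 0) (nat_lit 7448) (XT.lf (nat_lit 0) (nat_lit 306207779279) (nat_lit 76) (nat_lit 502956759968) (nat_lit 76) (nat_lit 223563777123) (nat_lit 12) (nat_lit 4) (nat_lit 13) (nat_lit 5) (nat_lit 13) (nat_lit 4) (nat_lit 430) (nat_lit 374) (nat_lit 216)) (XT.lf (nat_lit 0) (nat_lit 6683232965) (nat_lit 836) (nat_lit 11703563204) (nat_lit 836) (nat_lit 11703563204) (nat_lit 110) (nat_lit 3) (nat_lit 121) (nat_lit 3) (nat_lit 121) (nat_lit 5) (nat_lit 375) (nat_lit 375) (nat_lit 270)))) (XT.nd (nat_lit 78) (nat_lit 0) (nat_lit 0) (XT.lf (nat_lit 0) (nat_lit 14446987081) (nat_lit 760) (nat_lit 38969037594) (nat_lit 836) (nat_lit 9144610194) (nat_lit 111) (nat_lit 5) (nat_lit 121) (nat_lit 5) (nat_lit 122) (nat_lit 5) (nat_lit 376) (nat_lit 375) (nat_lit 269)) (XT.nd (nat_lit 78) (nat_lit 0) (nat_lit 76) (XT.lf (nat_lit 76) (nat_lit 9759471130) (nat_lit 0) (nat_lit 7038576043)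 (nat_lit 836) (nat_lit 48273694196) (nat_lit 112) (nat_lit 5) (nat_lit 111) (nat_lit 5) (nat_lit 122) (nat_lit 5) (nat_lit 377) (nat_lit 375) (nat_lit 268)) (XT.lf (nat_lit 0) (nat_lit 20696681355) (nat_lit 760) (nat_lit 4656943646) (nat_lit 836) (nat_lit 42362138730) (nat_lit 112) (nat_lit 5) (nat_lit 122) (nat_lit 5) (nat_lit 123) (nat_lit 5) (nat_lit 378) (nat_lit 375) (nat_lit 267))))) (XT.nd (nat_lit 234) (nat_lit 988) (nat_lit 0) (XT.nd (nat_lit 78) (nat_lit 0) (nat_lit 76) (XT.lf (nat_lit 0) (nat_lit 26230910343) (nat_lit 760) (nat_lit 19345851027) (nat_lit 836) (nat_lit 24928362981) (nat_lit 113) (nat_lit 5) (nat_lit 123) (nat_lit 5) (nat_lit 124) (nat_lit 5) (nat_lit 379) (nat_lit 375) (nat_lit 266)) (XT.nd (nat_lit 78) (nat_lit 0) (nat_lit 0) (XT.lf (nat_lit 0) (nat_lit 33410288488) (nat_lit 760) (nat_lit 34640758235) (nat_lit 836) (nat_lit 5406468104) (nat_lit 114) (nat_lit 5)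 (nat_lit 124) (nat_lit 5) (nat_lit 125) (nat_lit 5) (nat_lit 380) (nat_lit 375) (nat_lit 265)) (XT.lf (nat_lit 76) (nat_lit 25742135429) (nat_lit 0) (nat_lit 16932742195) (nat_lit 836) (nat_lit 33895677316) (nat_lit 115) (nat_lit 5) (nat_lit 114) (nat_lit 5) (nat_lit 125) (nat_lit 5) (nat_lit 381) (nat_lit 375) (nat_lit 264)))) (XT.nd (nat_lit 78) (nat_lit 380) (nat_lit 0) (XT.lf (nat_lit 0) (nat_lit 12067226516) (nat_lit 760) (nat_lit 42010765374) (nat_lit 836) (nat_lit 25784779799) (nat_lit 105) (nat_lit 5) (nat_lit 115) (nat_lit 5) (nat_lit 116) (nat_lit 5) (nat_lit 382) (nat_lit 375) (nat_lit 263)) (XT.nd (nat_lit 78) (nat_lit 380) (nat_lit 0) (XT.lf (nat_lit 0) (nat_lit 67775724359) (nat_lit 836) (nat_lit 2065043871) (nat_lit 76) (nat_lit 13508480325) (nat_lit 105) (nat_lit 5) (nat_lit 116) (nat_lit 5) (nat_lit 106) (nat_lit 5) (nat_lit 383) (nat_lit 375) (nat_lit 262)) (XT.lf (nat_lit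 0) (nat_lit 70469357821) (nat_lit 380) (nat_lit 13906837401) (nat_lit 456) (nat_lit 2648103498) (nat_lit 100) (nat_lit 5) (nat_lit 105) (nat_lit 5) (nat_lit 106) (nat_lit 5) (nat_lit 384) (nat_lit 375) (nat_lit 261)))))) (XT.nd (nat_lit 468) (nat_lit 1444) (nat_lit 0) (XT.nd (nat_lit 234) (nat_lit 608) (nat_lit 0) (XT.nd (nat_lit 78) (nat_lit 684) (nat_lit 0) (XT.lf (nat_lit 0) (nat_lit 12659851353) (nat_lit 380) (nat_lit 32062960085) (nat_lit 76) (nat_lit 46176185649) (nat_lit 95) (nat_lit 5) (nat_lit 100) (nat_lit 5) (nat_lit 96) (nat_lit 5) (nat_lit 385) (nat_lit 375) (nat_lit 260)) (XT.nd (nat_lit 78) (nat_lit 304) (nat_lit 0) (XT.lf (nat_lit 0) (nat_lit 30620545614) (nat_lit 456) (nat_lit 48279227252) (nat_lit 76) (nat_lit 16105684829) (nat_lit 90) (nat_lit 5) (nat_lit 96) (nat_lit 5) (nat_lit 91) (nat_lit 5) (nat_lit 386) (nat_lit 375) (nat_lit 259)) (XT.lf (nat_lit 0) (nat_lit 33870186348)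 (nat_lit 304) (nat_lit 17997070034) (nat_lit 380) (nat_lit 47480721581) (nat_lit 86) (nat_lit 5) (nat_lit 90) (nat_lit 5) (nat_lit 91) (nat_lit 5) (nat_lit 387) (nat_lit 375) (nat_lit 258)))) (XT.nd (nat_lit 78) (nat_lit 304) (nat_lit 0) (XT.lf (nat_lit 0) (nat_lit 20205087882) (nat_lit 304) (nat_lit 56523450774) (nat_lit 380) (nat_lit 27213620262) (nat_lit 82) (nat_lit 5) (nat_lit 86) (nat_lit 5) (nat_lit 87) (nat_lit 5) (nat_lit 388) (nat_lit 375) (nat_lit 257)) (XT.nd (nat_lit 78) (nat_lit 76) (nat_lit 0) (XT.lf (nat_lit 0) (nat_lit 5972725993) (nat_lit 228) (nat_lit 99289336590) (nat_lit 304) (nat_lit 3557645551) (nat_lit 79) (nat_lit 5) (nat_lit 82) (nat_lit 5) (nat_lit 83) (nat_lit 5) (nat_lit 389) (nat_lit 375) (nat_lit 256)) (XT.lf (nat_lit 0) (nat_lit 23721383465) (nat_lit 304) (nat_lit 9486906371) (nat_lit 76) (nat_lit 80740284220) (nat_lit 78) (nat_lit 5) (nat_lit 82) (nat_lit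 5) (nat_lit 79) (nat_lit 5) (nat_lit 390) (nat_lit 375) (nat_lit 255))))) (XT.nd (nat_lit 234) (nat_lit 608) (nat_lit 0) (XT.nd (nat_lit 78) (nat_lit 532) (nat_lit 0) (XT.lf (nat_lit 0) (nat_lit 55151775723) (nat_lit 380) (nat_lit 25733399585) (nat_lit 76) (nat_lit 38494974270) (nat_lit 74) (nat_lit 5) (nat_lit 79) (nat_lit 5) (nat_lit 75) (nat_lit 5) (nat_lit 391) (nat_lit 375) (nat_lit 254)) (XT.nd (nat_lit 78) (nat_lit 304) (nat_lit 0) (XT.lf (nat_lit 0) (nat_lit 82198654708) (nat_lit 228) (nat_lit 8908134660) (nat_lit 304) (nat_lit 34038952830) (nat_lit 71) (nat_lit 5) (nat_lit 74) (nat_lit 5) (nat_lit 75) (nat_lit 5) (nat_lit 392) (nat_lit 375) (nat_lit 253)) (XT.lf (nat_lit 0) (nat_lit 1268234240) (nat_lit 304) (nat_lit 61788053057) (nat_lit 76) (nat_lit 68184579992) (nat_lit 67) (nat_lit 5) (nat_lit 71) (nat_lit 5) (nat_lit 68) (nat_lit 5) (nat_lit 393) (nat_lit 375) (nat_lit 252))))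 (XT.nd (nat_lit 78) (nat_lit 380) (nat_lit 0) (XT.lf (nat_lit 0) (nat_lit 40245674061) (nat_lit 304) (nat_lit 82315094664) (nat_lit 76) (nat_lit 15133021492) (nat_lit 64) (nat_lit 5) (nat_lit 68) (nat_lit 5) (nat_lit 65) (nat_lit 5) (nat_lit 394) (nat_lit 375) (nat_lit 251)) (XT.nd (nat_lit 78) (nat_lit 152) (nat_lit 0) (XT.lf (nat_lit 0) (nat_lit 39704616986) (nat_lit 228) (nat_lit 45412847680) (nat_lit 304) (nat_lit 59406674955) (nat_lit 61) (nat_lit 5) (nat_lit 64) (nat_lit 5) (nat_lit 65) (nat_lit 5) (nat_lit 395) (nat_lit 375) (nat_lit 250)) (XT.lf (nat_lit 0) (nat_lit 22706175314) (nat_lit 152) (nat_lit 113275646564) (nat_lit 228) (nat_lit 15798954322) (nat_lit 59) (nat_lit 5) (nat_lit 61) (nat_lit 5) (nat_lit 62) (nat_lit 5) (nat_lit 396) (nat_lit 375) (nat_lit 249))))))) (XT.nd (nat_lit 936) (nat_lit 1216) (nat_lit 0) (XT.nd (nat_lit 468) (nat_lit 760) (nat_lit 0) (XT.nd (nat_lit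 234) (nat_lit 532) (nat_lit 0) (XT.nd (nat_lit 78) (nat_lit 152) (nat_lit 0) (XT.lf (nat_lit 0) (nat_lit 3475964742) (nat_lit 228) (nat_lit 29494674968) (nat_lit 304) (nat_lit 126489123973) (nat_lit 55) (nat_lit 5) (nat_lit 58) (nat_lit 5) (nat_lit 59) (nat_lit 5) (nat_lit 397) (nat_lit 375) (nat_lit 248)) (XT.nd (nat_lit 78) (nat_lit 152) (nat_lit 0) (XT.lf (nat_lit 0) (nat_lit 88332314602) (nat_lit 304) (nat_lit 17657626213) (nat_lit 76) (nat_lit 61587978118) (nat_lit 55) (nat_lit 5) (nat_lit 59) (nat_lit 5) (nat_lit 56) (nat_lit 5) (nat_lit 398) (nat_lit 375) (nat_lit 247)) (XT.lf (nat_lit 0) (nat_lit 135575360786) (nat_lit 152) (nat_lit 15160840385) (nat_lit 228) (nat_lit 25478661842) (nat_lit 53) (nat_lit 5) (nat_lit 55) (nat_lit 5) (nat_lit 56) (nat_lit 5) (nat_lit 399) (nat_lit 375) (nat_lit 246)))) (XT.nd (nat_lit 78) (nat_lit 304) (nat_lit 0) (XT.lf (nat_lit 0) (nat_lit 35062736281)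 (nat_lit 228) (nat_lit 67268140862) (nat_lit 76) (nat_lit 83010636354) (nat_lit 50) (nat_lit 5) (nat_lit 53) (nat_lit 5) (nat_lit 51) (nat_lit 5) (nat_lit 400) (nat_lit 375) (nat_lit 245)) (XT.nd (nat_lit 78) (nat_lit 152) (nat_lit 0) (XT.lf (nat_lit 0) (nat_lit 98217147519) (nat_lit 152) (nat_lit 3857477471) (nat_lit 228) (nat_lit 92976795775) (nat_lit 48) (nat_lit 5) (nat_lit 50) (nat_lit 5) (nat_lit 51) (nat_lit 5) (nat_lit 401) (nat_lit 375) (nat_lit 244)) (XT.lf (nat_lit 0) (nat_lit 74631984259) (nat_lit 152) (nat_lit 103771205631) (nat_lit 228) (nat_lit 26937144693) (nat_lit 46) (nat_lit 5) (nat_lit 48) (nat_lit 5) (nat_lit 49) (nat_lit 5) (nat_lit 402) (nat_lit 375) (nat_lit 243))))) (XT.nd (nat_lit 234) (nat_lit 380) (nat_lit 0) (XT.nd (nat_lit 78) (nat_lit 152) (nat_lit 0) (XT.lf (nat_lit 0) (nat_lit 45521395238) (nat_lit 228) (nat_lit 168681689815) (nat_lit 76) (nat_lit 2086810626)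 (nat_lit 43) (nat_lit 5) (nat_lit 46) (nat_lit 5) (nat_lit 44) (nat_lit 5) (nat_lit 403) (nat_lit 375) (nat_lit 242)) (XT.nd (nat_lit 78) (nat_lit 0) (nat_lit 0) (XT.lf (nat_lit 0) (nat_lit 15096866988) (nat_lit 152) (nat_lit 112047645860) (nat_lit 228) (nat_lit 100733247329) (nat_lit 41) (nat_lit 5) (nat_lit 43) (nat_lit 5) (nat_lit 44) (nat_lit 5) (nat_lit 404) (nat_lit 375) (nat_lit 241)) (XT.lf (nat_lit 0) (nat_lit 218256515710) (nat_lit 228) (nat_lit 20666836543) (nat_lit 76) (nat_lit 1321349957) (nat_lit 41) (nat_lit 5) (nat_lit 44) (nat_lit 5) (nat_lit 42) (nat_lit 4) (nat_lit 405) (nat_lit 375) (nat_lit 240)))) (XT.nd (nat_lit 78) (nat_lit 228) (nat_lit 0) (XT.lf (nat_lit 0) (nat_lit 65989579559) (nat_lit 152) (nat_lit 63381248063) (nat_lit 76) (nat_lit 123933382642) (nat_lit 39) (nat_lit 5) (nat_lit 41) (nat_lit 5) (nat_lit 40) (nat_lit 5) (nat_lit 406) (nat_lit 375) (nat_lit 239))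 (XT.nd (nat_lit 78) (nat_lit 76) (nat_lit 0) (XT.lf (nat_lit 0) (nat_lit 155300438747) (nat_lit 152) (nat_lit 7735102005) (nat_lit 228) (nat_lit 104214898604) (nat_lit 37) (nat_lit 5) (nat_lit 39) (nat_lit 5) (nat_lit 40) (nat_lit 5) (nat_lit 407) (nat_lit 375) (nat_lit 238)) (XT.lf (nat_lit 0) (nat_lit 113155228321) (nat_lit 76) (nat_lit 159508488645) (nat_lit 152) (nat_lit 9407723031) (nat_lit 36) (nat_lit 5) (nat_lit 37) (nat_lit 5) (nat_lit 38) (nat_lit 4) (nat_lit 408) (nat_lit 375) (nat_lit 237)))))) (XT.nd (nat_lit 468) (nat_lit 456) (nat_lit 0) (XT.nd (nat_lit 234) (nat_lit 380) (nat_lit 0) (XT.nd (nat_lit 78) (nat_lit 152) (nat_lit 0) (XT.lf (nat_lit 0) (nat_lit 62676964975) (nat_lit 152) (nat_lit 30421539551) (nat_lit 228) (nat_lit 204752501839) (nat_lit 33) (nat_lit 5) (nat_lit 35) (nat_lit 5) (nat_lit 36) (nat_lit 5) (nat_lit 409) (nat_lit 375) (nat_lit 236)) (XT.nd (nat_lit 78)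 (nat_lit 76) (nat_lit 0) (XT.lf (nat_lit 0) (nat_lit 2246181340) (nat_lit 76) (nat_lit 205960756730) (nat_lit 152) (nat_lit 106441723400) (nat_lit 32) (nat_lit 5) (nat_lit 33) (nat_lit 5) (nat_lit 34) (nat_lit 4) (nat_lit 410) (nat_lit 375) (nat_lit 235)) (XT.lf (nat_lit 0) (nat_lit 4418657812) (nat_lit 152) (nat_lit 66104119915) (nat_lit 76) (nat_lit 262033747853) (nat_lit 31) (nat_lit 5) (nat_lit 33) (nat_lit 5) (nat_lit 32) (nat_lit 5) (nat_lit 411) (nat_lit 375) (nat_lit 234)))) (XT.nd (nat_lit 78) (nat_lit 228) (nat_lit 0) (XT.lf (nat_lit 0) (nat_lit 124927758152) (nat_lit 228) (nat_lit 148259342644) (nat_lit 76) (nat_lit 78397216388) (nat_lit 29) (nat_lit 5) (nat_lit 32) (nat_lit 5) (nat_lit 30) (nat_lit 4) (nat_lit 412) (nat_lit 375) (nat_lit 233)) (XT.nd (nat_lit 78) (nat_lit 152) (nat_lit 0) (XT.lf (nat_lit 0) (nat_lit 127463006032) (nat_lit 76) (nat_lit 131963720921) (nat_lit 152)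 (nat_lit 112490148220) (nat_lit 28) (nat_lit 5) (nat_lit 29) (nat_lit 5) (nat_lit 30) (nat_lit 4) (nat_lit 413) (nat_lit 375) (nat_lit 232)) (XT.lf (nat_lit 0) (nat_lit 14054512457) (nat_lit 152) (nat_lit 356295184495) (nat_lit 76) (nat_lit 23338356985) (nat_lit 26) (nat_lit 5) (nat_lit 28) (nat_lit 5) (nat_lit 27) (nat_lit 4) (nat_lit 414) (nat_lit 375) (nat_lit 231))))) (XT.nd (nat_lit 234) (nat_lit 228) (nat_lit 0) (XT.nd (nat_lit 78) (nat_lit 228) (nat_lit 0) (XT.lf (nat_lit 0) (nat_lit 153387114673) (nat_lit 152) (nat_lit 70663788718) (nat_lit 76) (nat_lit 192727544859) (nat_lit 26) (nat_lit 5) (nat_lit 28) (nat_lit 5) (nat_lit 27) (nat_lit 4) (nat_lit 415) (nat_lit 375) (nat_lit 230)) (XT.nd (nat_lit 78) (nat_lit 152) (nat_lit 0) (XT.lf (nat_lit 0) (nat_lit 245680748775) (nat_lit 76) (nat_lit 62020972610) (nat_lit 152) (nat_lit 133822582968) (nat_lit 25) (nat_lit 5) (nat_lit 26) (nat_lit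 5) (nat_lit 27) (nat_lit 4) (nat_lit 416) (nat_lit 375) (nat_lit 229)) (XT.lf (nat_lit 0) (nat_lit 10945314304) (nat_lit 152) (nat_lit 344331778282) (nat_lit 76) (nat_lit 112716502489) (nat_lit 23) (nat_lit 5) (nat_lit 25) (nat_lit 5) (nat_lit 24) (nat_lit 4) (nat_lit 417) (nat_lit 375) (nat_lit 228)))) (XT.nd (nat_lit 156) (nat_lit 152) (nat_lit 0) (XT.nd (nat_lit 78) (nat_lit 76) (nat_lit 0) (XT.lf (nat_lit 0) (nat_lit 167181667594) (nat_lit 152) (nat_lit 24047585757) (nat_lit 76) (nat_lit 305012709327) (nat_lit 23) (nat_lit 5) (nat_lit 25) (nat_lit 5) (nat_lit 24) (nat_lit 4) (nat_lit 418) (nat_lit 375) (nat_lit 227)) (XT.lf (nat_lit 0) (nat_lit 332500840512) (nat_lit 76) (nat_lit 8607038506) (nat_lit 152) (nat_lit 185382773224) (nat_lit 22) (nat_lit 5) (nat_lit 23) (nat_lit 5) (nat_lit 24) (nat_lit 4) (nat_lit 419) (nat_lit 375) (nat_lit 226))) (XT.nd (nat_lit 78) (nat_lit 76) (nat_lit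 0) (XT.lf (nat_lit 0) (nat_lit 161510503828) (nat_lit 76) (nat_lit 373329730129) (nat_lit 76) (nat_lit 24024400726) (nat_lit 21) (nat_lit 4) (nat_lit 22) (nat_lit 5) (nat_lit 22) (nat_lit 4) (nat_lit 420) (nat_lit 375) (nat_lit 225)) (XT.lf (nat_lit 0) (nat_lit 149013342436) (nat_lit 152) (nat_lit 43828228198) (nat_lit 76) (nat_lit 400690709501) (nat_lit 20) (nat_lit 5) (nat_lit 22) (nat_lit 5) (nat_lit 21) (nat_lit 4) (nat_lit 421) (nat_lit 375) (nat_lit 224))))))))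
noncomputable def xc102 : XT := (XT.nd (nat_lit 50700) (nat_lit 0) (nat_lit 988) (XT.nd (nat_lit 49764) (nat_lit 0) (nat_lit 5016) (XT.nd (nat_lit 468) (nat_lit 152) (nat_lit 0) (XT.nd (nat_lit 234) (nat_lit 152) (nat_lit 0) (XT.nd (nat_lit 78) (nat_lit 152) (nat_lit 0) (XT.lf (nat_lit 0) (nat_lit 340636583173) (nat_lit 152) (nat_lit 282073472271) (nat_lit 0) (nat_lit 7964380880) (nat_lit 19) (nat_lit 5) (nat_lit 21) (nat_lit 4) (nat_lit 19) (nat_lit 4) (nat_lit 422) (nat_lit 375) (nat_lit 223)) (XT.nd (nat_lit 78) (nat_lit 76) (nat_lit 0) (XT.lf (nat_lit 0) (nat_lit 103280724837) (nat_lit 76) (nat_lit 449948826920) (nat_lit 76) (nat_lit 117276419852) (nat_lit 18) (nat_lit 4) (nat_lit 19) (nat_lit 5) (nat_lit 19) (nat_lit 4) (nat_lit 423) (nat_lit 375) (nat_lit 222)) (XT.lf (nat_lit 0) (nat_lit 72081531959) (nat_lit 152) (nat_lit 184905456157) (nat_lit 76) (nat_lit 456233247321) (nat_lit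 17) (nat_lit 5) (nat_lit 19) (nat_lit 5) (nat_lit 18) (nat_lit 4) (nat_lit 424) (nat_lit 375) (nat_lit 221)))) (XT.nd (nat_lit 78) (nat_lit 76) (nat_lit 0) (XT.lf (nat_lit 0) (nat_lit 233495262819) (nat_lit 76) (nat_lit 42684266475) (nat_lit 152) (nat_lit 482890972698) (nat_lit 16) (nat_lit 5) (nat_lit 17) (nat_lit 5) (nat_lit 18) (nat_lit 4) (nat_lit 425) (nat_lit 375) (nat_lit 220)) (XT.nd (nat_lit 78) (nat_lit 76) (nat_lit 0) (XT.lf (nat_lit 0) (nat_lit 502825982305) (nat_lit 152) (nat_lit 119457160959) (nat_lit 0) (nat_lit 185994615837) (nat_lit 16) (nat_lit 5) (nat_lit 18) (nat_lit 4) (nat_lit 16) (nat_lit 4) (nat_lit 426) (nat_lit 375) (nat_lit 219)) (XT.lf (nat_lit 0) (nat_lit 328958948474) (nat_lit 76) (nat_lit 424500691852) (nat_lit 76) (nat_lit 107669182036) (nat_lit 15) (nat_lit 4) (nat_lit 16) (nat_lit 5) (nat_lit 16) (nat_lit 4) (nat_lit 427) (nat_lit 375) (nat_lit 218))))) (XT.nd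 (nat_lit 49062) (nat_lit 0) (nat_lit 7372) (XT.nd (nat_lit 78) (nat_lit 76) (nat_lit 0) (XT.lf (nat_lit 0) (nat_lit 104660174659) (nat_lit 152) (nat_lit 102278284493) (nat_lit 76) (nat_lit 711081075213) (nat_lit 14) (nat_lit 5) (nat_lit 16) (nat_lit 5) (nat_lit 15) (nat_lit 4) (nat_lit 428) (nat_lit 375) (nat_lit 217)) (XT.nd (nat_lit 78) (nat_lit 0) (nat_lit 0) (XT.lf (nat_lit 0) (nat_lit 336626012146) (nat_lit 152) (nat_lit 607544647348) (nat_lit 0) (nat_lit 34881473629) (nat_lit 13) (nat_lit 5) (nat_lit 15) (nat_lit 4) (nat_lit 13) (nat_lit 4) (nat_lit 429) (nat_lit 375) (nat_lit 216)) (XT.lf (nat_lit 0) (nat_lit 592449116684) (nat_lit 152) (nat_lit 161548753321) (nat_lit 0) (nat_lit 290704469791) (nat_lit 13) (nat_lit 5) (nat_lit 15) (nat_lit 4) (nat_lit 13) (nat_lit 4) (nat_lit 430) (nat_lit 375) (nat_lit 215)))) (XT.nd (nat_lit 78) (nat_lit 0) (nat_lit 76) (XT.lf (nat_lit 0) (nat_lit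 7244847264) (nat_lit 836) (nat_lit 12625687021) (nat_lit 836) (nat_lit 12625687021) (nat_lit 110) (nat_lit 3) (nat_lit 121) (nat_lit 3) (nat_lit 121) (nat_lit 5) (nat_lit 376) (nat_lit 376) (nat_lit 268)) (XT.nd (nat_lit 78) (nat_lit 0) (nat_lit 0) (XT.lf (nat_lit 0) (nat_lit 15652723931) (nat_lit 760) (nat_lit 42056553704) (nat_lit 836) (nat_lit 9853673881) (nat_lit 111) (nat_lit 5) (nat_lit 121) (nat_lit 5) (nat_lit 122) (nat_lit 5) (nat_lit 377) (nat_lit 376) (nat_lit 267)) (XT.lf (nat_lit 76) (nat_lit 10568931655) (nat_lit 0) (nat_lit 7619683241) (nat_lit 836) (nat_lit 52086496947) (nat_lit 112) (nat_lit 5) (nat_lit 111) (nat_lit 5) (nat_lit 122) (nat_lit 5) (nat_lit 378) (nat_lit 376) (nat_lit 266)))))) (XT.nd (nat_lit 468) (nat_lit 1976) (nat_lit 0) (XT.nd (nat_lit 234) (nat_lit 532) (nat_lit 0) (XT.nd (nat_lit 78) (nat_lit 0) (nat_lit 76) (XT.lf (nat_lit 0) (nat_lit 22395418261) (nat_lit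 760) (nat_lit 5000468554) (nat_lit 836) (nat_lit 45734957674) (nat_lit 112) (nat_lit 5) (nat_lit 122) (nat_lit 5) (nat_lit 123) (nat_lit 5) (nat_lit 379) (nat_lit 376) (nat_lit 265)) (XT.nd (nat_lit 78) (nat_lit 0) (nat_lit 76) (XT.lf (nat_lit 0) (nat_lit 28369438883) (nat_lit 760) (nat_lit 20863514775) (nat_lit 836) (nat_lit 26910549874) (nat_lit 113) (nat_lit 5) (nat_lit 123) (nat_lit 5) (nat_lit 124) (nat_lit 5) (nat_lit 380) (nat_lit 376) (nat_lit 264)) (XT.lf (nat_lit 0) (nat_lit 36120510323) (nat_lit 760) (nat_lit 37381277807) (nat_lit 836) (nat_lit 5830432037) (nat_lit 114) (nat_lit 5) (nat_lit 124) (nat_lit 5) (nat_lit 125) (nat_lit 5) (nat_lit 381) (nat_lit 376) (nat_lit 263)))) (XT.nd (nat_lit 78) (nat_lit 684) (nat_lit 0) (XT.lf (nat_lit 76) (nat_lit 27830911380) (nat_lit 0) (nat_lit 18293044028) (nat_lit 836) (nat_lit 36570465559) (nat_lit 115) (nat_lit 5) (nat_lit 114) (nat_lit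 5) (nat_lit 125) (nat_lit 5) (nat_lit 382) (nat_lit 376) (nat_lit 262)) (XT.nd (nat_lit 78) (nat_lit 0) (nat_lit 0) (XT.lf (nat_lit 0) (nat_lit 13062517790) (nat_lit 760) (nat_lit 45374586827) (nat_lit 836) (nat_lit 27813022926) (nat_lit 105) (nat_lit 5) (nat_lit 115) (nat_lit 5) (nat_lit 116) (nat_lit 5) (nat_lit 383) (nat_lit 376) (nat_lit 261)) (XT.lf (nat_lit 0) (nat_lit 73228177825) (nat_lit 836) (nat_lit 2200964740) (nat_lit 76) (nat_lit 14586505531) (nat_lit 105) (nat_lit 5) (nat_lit 116) (nat_lit 5) (nat_lit 106) (nat_lit 5) (nat_lit 384) (nat_lit 376) (nat_lit 260))))) (XT.nd (nat_lit 234) (nat_lit 836) (nat_lit 0) (XT.nd (nat_lit 78) (nat_lit 760) (nat_lit 0) (XT.lf (nat_lit 0) (nat_lit 76134916499) (nat_lit 380) (nat_lit 15019955652) (nat_lit 456) (nat_lit 2829922355) (nat_lit 100) (nat_lit 5) (nat_lit 105) (nat_lit 5) (nat_lit 106) (nat_lit 5) (nat_lit 385) (nat_lit 376) (nat_lit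 259)) (XT.nd (nat_lit 78) (nat_lit 380) (nat_lit 0) (XT.lf (nat_lit 0) (nat_lit 13699993438) (nat_lit 380) (nat_lit 34598889174) (nat_lit 76) (nat_lit 49870649750) (nat_lit 95) (nat_lit 5) (nat_lit 100) (nat_lit 5) (nat_lit 96) (nat_lit 5) (nat_lit 386) (nat_lit 376) (nat_lit 258)) (XT.lf (nat_lit 0) (nat_lit 33095984201) (nat_lit 456) (nat_lit 52112451507) (nat_lit 76) (nat_lit 17396153306) (nat_lit 90) (nat_lit 5) (nat_lit 96) (nat_lit 5) (nat_lit 91) (nat_lit 5) (nat_lit 387) (nat_lit 376) (nat_lit 257)))) (XT.nd (nat_lit 78) (nat_lit 532) (nat_lit 0) (XT.lf (nat_lit 0) (nat_lit 36607649925) (nat_lit 304) (nat_lit 19433305965) (nat_lit 380) (nat_lit 51253629962) (nat_lit 86) (nat_lit 5) (nat_lit 90) (nat_lit 5) (nat_lit 91) (nat_lit 5) (nat_lit 388) (nat_lit 376) (nat_lit 256)) (XT.nd (nat_lit 78) (nat_lit 228) (nat_lit 0) (XT.lf (nat_lit 0) (nat_lit 21849257479) (nat_lit 304) (nat_lit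 61040566338) (nat_lit 380) (nat_lit 29366544380) (nat_lit 82) (nat_lit 5) (nat_lit 86) (nat_lit 5) (nat_lit 87) (nat_lit 5) (nat_lit 389) (nat_lit 376) (nat_lit 255)) (XT.lf (nat_lit 0) (nat_lit 6478141889) (nat_lit 228) (nat_lit 107226683610) (nat_lit 304) (nat_lit 3819357047) (nat_lit 79) (nat_lit 5) (nat_lit 82) (nat_lit 5) (nat_lit 83) (nat_lit 5) (nat_lit 390) (nat_lit 376) (nat_lit 254))))))) (XT.nd (nat_lit 936) (nat_lit 1672) (nat_lit 0) (XT.nd (nat_lit 468) (nat_lit 988) (nat_lit 0) (XT.nd (nat_lit 234) (nat_lit 760) (nat_lit 0) (XT.nd (nat_lit 78) (nat_lit 532) (nat_lit 0) (XT.lf (nat_lit 0) (nat_lit 25639619328) (nat_lit 304) (nat_lit 10219615807) (nat_lit 76) (nat_lit 87204187702) (nat_lit 78) (nat_lit 5) (nat_lit 82) (nat_lit 5) (nat_lit 79) (nat_lit 5) (nat_lit 391) (nat_lit 376) (nat_lit 253)) (XT.nd (nat_lit 78) (nat_lit 228) (nat_lit 0) (XT.lf (nat_lit 0) (nat_lit 59583403589)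 (nat_lit 380) (nat_lit 27766078138) (nat_lit 76) (nat_lit 41580095448) (nat_lit 74) (nat_lit 5) (nat_lit 79) (nat_lit 5) (nat_lit 75) (nat_lit 5) (nat_lit 392) (nat_lit 376) (nat_lit 252)) (XT.lf (nat_lit 0) (nat_lit 88799410856) (nat_lit 228) (nat_lit 9614352270) (nat_lit 304) (nat_lit 36742707586) (nat_lit 71) (nat_lit 5) (nat_lit 74) (nat_lit 5) (nat_lit 75) (nat_lit 5) (nat_lit 393) (nat_lit 376) (nat_lit 251)))) (XT.nd (nat_lit 78) (nat_lit 456) (nat_lit 0) (XT.lf (nat_lit 0) (nat_lit 1387531022) (nat_lit 304) (nat_lit 66705921710) (nat_lit 76) (nat_lit 73645783809) (nat_lit 67) (nat_lit 5) (nat_lit 71) (nat_lit 5) (nat_lit 68) (nat_lit 5) (nat_lit 394) (nat_lit 376) (nat_lit 250)) (XT.nd (nat_lit 78) (nat_lit 228) (nat_lit 0) (XT.lf (nat_lit 0) (nat_lit 43482332908) (nat_lit 304) (nat_lit 88875480730) (nat_lit 76) (nat_lit 16350621931) (nat_lit 64) (nat_lit 5) (nat_lit 68) (nat_lit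 5) (nat_lit 65) (nat_lit 5) (nat_lit 395) (nat_lit 376) (nat_lit 249)) (XT.lf (nat_lit 0) (nat_lit 42904729140) (nat_lit 228) (nat_lit 49038248690) (nat_lit 304) (nat_lit 64142280106) (nat_lit 61) (nat_lit 5) (nat_lit 64) (nat_lit 5) (nat_lit 65) (nat_lit 5) (nat_lit 396) (nat_lit 376) (nat_lit 248))))) (XT.nd (nat_lit 234) (nat_lit 532) (nat_lit 0) (XT.nd (nat_lit 78) (nat_lit 304) (nat_lit 0) (XT.lf (nat_lit 0) (nat_lit 24546043930) (nat_lit 152) (nat_lit 122329721110) (nat_lit 228) (nat_lit 17046696853) (nat_lit 59) (nat_lit 5) (nat_lit 61) (nat_lit 5) (nat_lit 62) (nat_lit 5) (nat_lit 397) (nat_lit 376) (nat_lit 247)) (XT.nd (nat_lit 78) (nat_lit 0) (nat_lit 0) (XT.lf (nat_lit 0) (nat_lit 3776901798) (nat_lit 228) (nat_lit 31846242432) (nat_lit 304) (nat_lit 136592652119) (nat_lit 55) (nat_lit 5) (nat_lit 58) (nat_lit 5) (nat_lit 59) (nat_lit 5) (nat_lit 398) (nat_lit 376) (nat_lit 246))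 (XT.lf (nat_lit 0) (nat_lit 95412768610) (nat_lit 304) (nat_lit 19048492513) (nat_lit 76) (nat_lit 66522192547) (nat_lit 55) (nat_lit 5) (nat_lit 59) (nat_lit 5) (nat_lit 56) (nat_lit 5) (nat_lit 399) (nat_lit 376) (nat_lit 245)))) (XT.nd (nat_lit 78) (nat_lit 380) (nat_lit 0) (XT.lf (nat_lit 0) (nat_lit 146442188487) (nat_lit 152) (nat_lit 16366075025) (nat_lit 228) (nat_lit 27503125290) (nat_lit 53) (nat_lit 5) (nat_lit 55) (nat_lit 5) (nat_lit 56) (nat_lit 5) (nat_lit 400) (nat_lit 376) (nat_lit 244)) (XT.nd (nat_lit 78) (nat_lit 152) (nat_lit 0) (XT.lf (nat_lit 0) (nat_lit 37880586547) (nat_lit 228) (nat_lit 72628748127) (nat_lit 76) (nat_lit 89658853980) (nat_lit 50) (nat_lit 5) (nat_lit 53) (nat_lit 5) (nat_lit 51) (nat_lit 5) (nat_lit 401) (nat_lit 376) (nat_lit 243)) (XT.lf (nat_lit 0) (nat_lit 106094457469) (nat_lit 152) (nat_lit 4158329702) (nat_lit 228) (nat_lit 100402133614) (nat_lit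 48) (nat_lit 5) (nat_lit 50) (nat_lit 5) (nat_lit 51) (nat_lit 5) (nat_lit 402) (nat_lit 376) (nat_lit 242)))))) (XT.nd (nat_lit 468) (nat_lit 836) (nat_lit 0) (XT.nd (nat_lit 234) (nat_lit 304) (nat_lit 0) (XT.nd (nat_lit 78) (nat_lit 380) (nat_lit 0) (XT.lf (nat_lit 0) (nat_lit 80622085955) (nat_lit 152) (nat_lit 112065065283) (nat_lit 228) (nat_lit 29079821071) (nat_lit 46) (nat_lit 5) (nat_lit 48) (nat_lit 5) (nat_lit 49) (nat_lit 5) (nat_lit 403) (nat_lit 376) (nat_lit 241)) (XT.nd (nat_lit 78) (nat_lit 152) (nat_lit 0) (XT.lf (nat_lit 0) (nat_lit 49174545803) (nat_lit 228) (nat_lit 182156703437) (nat_lit 76) (nat_lit 2261262853) (nat_lit 43) (nat_lit 5) (nat_lit 46) (nat_lit 5) (nat_lit 44) (nat_lit 5) (nat_lit 404) (nat_lit 376) (nat_lit 240)) (XT.lf (nat_lit 0) (nat_lit 16323289527) (nat_lit 152) (nat_lit 121003667506) (nat_lit 228) (nat_lit 108780476751) (nat_lit 41) (nat_lit 5)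 (nat_lit 43) (nat_lit 5) (nat_lit 44) (nat_lit 5) (nat_lit 405) (nat_lit 376) (nat_lit 239)))) (XT.nd (nat_lit 78) (nat_lit 304) (nat_lit 0) (XT.lf (nat_lit 0) (nat_lit 235727226580) (nat_lit 228) (nat_lit 22302499427) (nat_lit 76) (nat_lit 1434040078) (nat_lit 41) (nat_lit 5) (nat_lit 44) (nat_lit 5) (nat_lit 42) (nat_lit 4) (nat_lit 406) (nat_lit 376) (nat_lit 238)) (XT.nd (nat_lit 78) (nat_lit 152) (nat_lit 0) (XT.lf (nat_lit 0) (nat_lit 71278606378) (nat_lit 152) (nat_lit 68434503875) (nat_lit 76) (nat_lit 133854941321) (nat_lit 39) (nat_lit 5) (nat_lit 41) (nat_lit 5) (nat_lit 40) (nat_lit 5) (nat_lit 407) (nat_lit 376) (nat_lit 237)) (XT.lf (nat_lit 0) (nat_lit 167740968476) (nat_lit 152) (nat_lit 8346803114) (nat_lit 228) (nat_lit 112542231231) (nat_lit 37) (nat_lit 5) (nat_lit 39) (nat_lit 5) (nat_lit 40) (nat_lit 5) (nat_lit 408) (nat_lit 376) (nat_lit 236))))) (XT.nd (nat_lit 234)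 (nat_lit 456) (nat_lit 0) (XT.nd (nat_lit 78) (nat_lit 304) (nat_lit 0) (XT.lf (nat_lit 0) (nat_lit 122223769426) (nat_lit 76) (nat_lit 172262091564) (nat_lit 152) (nat_lit 10150839740) (nat_lit 36) (nat_lit 5) (nat_lit 37) (nat_lit 5) (nat_lit 38) (nat_lit 4) (nat_lit 409) (nat_lit 376) (nat_lit 235)) (XT.nd (nat_lit 78) (nat_lit 76) (nat_lit 0) (XT.lf (nat_lit 0) (nat_lit 67706837157) (nat_lit 152) (nat_lit 32848308862) (nat_lit 228) (nat_lit 221123500917) (nat_lit 33) (nat_lit 5) (nat_lit 35) (nat_lit 5) (nat_lit 36) (nat_lit 5) (nat_lit 410) (nat_lit 376) (nat_lit 234)) (XT.lf (nat_lit 0) (nat_lit 2441224846) (nat_lit 76) (nat_lit 222430720595) (nat_lit 152) (nat_lit 114948184588) (nat_lit 32) (nat_lit 5) (nat_lit 33) (nat_lit 5) (nat_lit 34) (nat_lit 4) (nat_lit 411) (nat_lit 376) (nat_lit 233)))) (XT.nd (nat_lit 156) (nat_lit 228) (nat_lit 0) (XT.nd (nat_lit 78) (nat_lit 152) (nat_lit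 0) (XT.lf (nat_lit 0) (nat_lit 4780106525) (nat_lit 152) (nat_lit 71377972872) (nat_lit 76) (nat_lit 283002568888) (nat_lit 31) (nat_lit 5) (nat_lit 33) (nat_lit 5) (nat_lit 32) (nat_lit 5) (nat_lit 412) (nat_lit 376) (nat_lit 232)) (XT.lf (nat_lit 0) (nat_lit 134929659558) (nat_lit 228) (nat_lit 160105959792) (nat_lit 76) (nat_lit 84675057747) (nat_lit 29) (nat_lit 5) (nat_lit 32) (nat_lit 5) (nat_lit 30) (nat_lit 4) (nat_lit 413) (nat_lit 376) (nat_lit 231))) (XT.nd (nat_lit 78) (nat_lit 152) (nat_lit 0) (XT.lf (nat_lit 0) (nat_lit 137673562694) (nat_lit 76) (nat_lit 142514625250) (nat_lit 152) (nat_lit 121481669783) (nat_lit 28) (nat_lit 5) (nat_lit 29) (nat_lit 5) (nat_lit 30) (nat_lit 4) (nat_lit 414) (nat_lit 376) (nat_lit 230)) (XT.lf (nat_lit 0) (nat_lit 15186066465) (nat_lit 152) (nat_lit 384785372480) (nat_lit 76) (nat_lit 25211298494) (nat_lit 26) (nat_lit 5) (nat_lit 28) (nat_lit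 5) (nat_lit 27) (nat_lit 4) (nat_lit 415) (nat_lit 376) (nat_lit 229))))))))
noncomputable def xc103 : XT := (XT.nd (nat_lit 50778) (nat_lit 0) (nat_lit 1748) (XT.nd (nat_lit 936) (nat_lit 228) (nat_lit 0) (XT.nd (nat_lit 468) (nat_lit 380) (nat_lit 0) (XT.nd (nat_lit 234) (nat_lit 152) (nat_lit 0) (XT.nd (nat_lit 78) (nat_lit 228) (nat_lit 0) (XT.lf (nat_lit 0) (nat_lit 165664744043) (nat_lit 152) (nat_lit 76304459617) (nat_lit 76) (nat_lit 208151186365) (nat_lit 26) (nat_lit 5) (nat_lit 28) (nat_lit 5) (nat_lit 27) (nat_lit 4) (nat_lit 416) (nat_lit 376) (nat_lit 228)) (XT.nd (nat_lit 78) (nat_lit 152) (nat_lit 0) (XT.lf (nat_lit 0) (nat_lit 265347100587) (nat_lit 76) (nat_lit 66977111023) (nat_lit 152) (nat_lit 144521718470) (nat_lit 25) (nat_lit 5) (nat_lit 26) (nat_lit 5) (nat_lit 27) (nat_lit 4) (nat_lit 417) (nat_lit 376) (nat_lit 227)) (XT.lf (nat_lit 0) (nat_lit 11827184148) (nat_lit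 152) (nat_lit 371866516038) (nat_lit 76) (nat_lit 121739069381) (nat_lit 23) (nat_lit 5) (nat_lit 25) (nat_lit 5) (nat_lit 24) (nat_lit 4) (nat_lit 418) (nat_lit 376) (nat_lit 226)))) (XT.nd (nat_lit 78) (nat_lit 152) (nat_lit 0) (XT.lf (nat_lit 0) (nat_lit 180561983132) (nat_lit 152) (nat_lit 25960462519) (nat_lit 76) (nat_lit 329418584122) (nat_lit 23) (nat_lit 5) (nat_lit 25) (nat_lit 5) (nat_lit 24) (nat_lit 4) (nat_lit 419) (nat_lit 376) (nat_lit 225)) (XT.nd (nat_lit 78) (nat_lit 76) (nat_lit 0) (XT.lf (nat_lit 0) (nat_lit 359111362843) (nat_lit 76) (nat_lit 9290663553) (nat_lit 152) (nat_lit 200207601419) (nat_lit 22) (nat_lit 5) (nat_lit 23) (nat_lit 5) (nat_lit 24) (nat_lit 4) (nat_lit 420) (nat_lit 376) (nat_lit 224)) (XT.lf (nat_lit 0) (nat_lit 174441535698) (nat_lit 76) (nat_lit 403191255866) (nat_lit 76) (nat_lit 25940746251) (nat_lit 21) (nat_lit 4) (nat_lit 22) (nat_lit 5)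 (nat_lit 22) (nat_lit 4) (nat_lit 421) (nat_lit 376) (nat_lit 223))))) (XT.nd (nat_lit 234) (nat_lit 152) (nat_lit 0) (XT.nd (nat_lit 78) (nat_lit 152) (nat_lit 0) (XT.lf (nat_lit 0) (nat_lit 160939434913) (nat_lit 152) (nat_lit 47324883055) (nat_lit 76) (nat_lit 432750292710) (nat_lit 20) (nat_lit 5) (nat_lit 22) (nat_lit 5) (nat_lit 21) (nat_lit 4) (nat_lit 422) (nat_lit 376) (nat_lit 222)) (XT.nd (nat_lit 78) (nat_lit 76) (nat_lit 0) (XT.lf (nat_lit 0) (nat_lit 367892374638) (nat_lit 152) (nat_lit 304629992158) (nat_lit 0) (nat_lit 8605780624) (nat_lit 19) (nat_lit 5) (nat_lit 21) (nat_lit 4) (nat_lit 19) (nat_lit 4) (nat_lit 423) (nat_lit 376) (nat_lit 221)) (XT.lf (nat_lit 0) (nat_lit 111552134035) (nat_lit 76) (nat_lit 485940426070) (nat_lit 76) (nat_lit 126653656495) (nat_lit 18) (nat_lit 4) (nat_lit 19) (nat_lit 5) (nat_lit 19) (nat_lit 4) (nat_lit 424) (nat_lit 376) (nat_lit 220))))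 (XT.nd (nat_lit 78) (nat_lit 76) (nat_lit 0) (XT.lf (nat_lit 0) (nat_lit 77852425675) (nat_lit 152) (nat_lit 199689459495) (nat_lit 76) (nat_lit 492735750079) (nat_lit 17) (nat_lit 5) (nat_lit 19) (nat_lit 5) (nat_lit 18) (nat_lit 4) (nat_lit 425) (nat_lit 376) (nat_lit 219)) (XT.nd (nat_lit 78) (nat_lit 0) (nat_lit 0) (XT.lf (nat_lit 0) (nat_lit 252182950504) (nat_lit 76) (nat_lit 46095114447) (nat_lit 152) (nat_lit 521517868104) (nat_lit 16) (nat_lit 5) (nat_lit 17) (nat_lit 5) (nat_lit 18) (nat_lit 4) (nat_lit 426) (nat_lit 376) (nat_lit 218)) (XT.lf (nat_lit 0) (nat_lit 543055981351) (nat_lit 152) (nat_lit 129006127383) (nat_lit 0) (nat_lit 200877674673) (nat_lit 16) (nat_lit 5) (nat_lit 18) (nat_lit 4) (nat_lit 16) (nat_lit 4) (nat_lit 427) (nat_lit 376) (nat_lit 217)))))) (XT.nd (nat_lit 49374) (nat_lit 0) (nat_lit 6992) (XT.nd (nat_lit 49140) (nat_lit 0) (nat_lit 7372) (XT.nd (nat_lit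 78) (nat_lit 152) (nat_lit 0) (XT.lf (nat_lit 0) (nat_lit 355282940237) (nat_lit 76) (nat_lit 458457214969) (nat_lit 76) (nat_lit 116278785392) (nat_lit 15) (nat_lit 4) (nat_lit 16) (nat_lit 5) (nat_lit 16) (nat_lit 4) (nat_lit 428) (nat_lit 376) (nat_lit 216)) (XT.nd (nat_lit 78) (nat_lit 76) (nat_lit 0) (XT.lf (nat_lit 0) (nat_lit 113036512134) (nat_lit 152) (nat_lit 110453693493) (nat_lit 76) (nat_lit 767970714986) (nat_lit 14) (nat_lit 5) (nat_lit 16) (nat_lit 5) (nat_lit 15) (nat_lit 4) (nat_lit 429) (nat_lit 376) (nat_lit 215)) (XT.lf (nat_lit 0) (nat_lit 363559507798) (nat_lit 152) (nat_lit 656141544509) (nat_lit 0) (nat_lit 37675080431) (nat_lit 13) (nat_lit 5) (nat_lit 15) (nat_lit 4) (nat_lit 13) (nat_lit 4) (nat_lit 430) (nat_lit 376) (nat_lit 214)))) (XT.nd (nat_lit 78) (nat_lit 0) (nat_lit 76) (XT.lf (nat_lit 0) (nat_lit 7847545181) (nat_lit 836) (nat_lit 13623601002) (nat_lit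 836) (nat_lit 13623601002) (nat_lit 110) (nat_lit 3) (nat_lit 121) (nat_lit 3) (nat_lit 121) (nat_lit 5) (nat_lit 377) (nat_lit 377) (nat_lit 266)) (XT.nd (nat_lit 78) (nat_lit 0) (nat_lit 0) (XT.lf (nat_lit 0) (nat_lit 16947789824) (nat_lit 760) (nat_lit 45395351922) (nat_lit 836) (nat_lit 10622673272) (nat_lit 111) (nat_lit 5) (nat_lit 121) (nat_lit 5) (nat_lit 122) (nat_lit 5) (nat_lit 378) (nat_lit 377) (nat_lit 265)) (XT.lf (nat_lit 76) (nat_lit 11439054242) (nat_lit 0) (nat_lit 8244708101) (nat_lit 836) (nat_lit 56211327553) (nat_lit 112) (nat_lit 5) (nat_lit 111) (nat_lit 5) (nat_lit 122) (nat_lit 5) (nat_lit 379) (nat_lit 377) (nat_lit 264))))) (XT.nd (nat_lit 234) (nat_lit 532) (nat_lit 0) (XT.nd (nat_lit 78) (nat_lit 0) (nat_lit 76) (XT.lf (nat_lit 0) (nat_lit 24223919347) (nat_lit 760) (nat_lit 5375616992) (nat_lit 836) (nat_lit 49379906419) (nat_lit 112) (nat_lit 5) (nat_lit 122)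 (nat_lit 5) (nat_lit 123) (nat_lit 5) (nat_lit 380) (nat_lit 377) (nat_lit 263)) (XT.nd (nat_lit 78) (nat_lit 0) (nat_lit 76) (XT.lf (nat_lit 0) (nat_lit 30673335310) (nat_lit 760) (nat_lit 22506872077) (nat_lit 836) (nat_lit 29053035371) (nat_lit 113) (nat_lit 5) (nat_lit 123) (nat_lit 5) (nat_lit 124) (nat_lit 5) (nat_lit 381) (nat_lit 377) (nat_lit 262)) (XT.lf (nat_lit 0) (nat_lit 39042214554) (nat_lit 760) (nat_lit 40345424504) (nat_lit 836) (nat_lit 6289533339) (nat_lit 114) (nat_lit 5) (nat_lit 124) (nat_lit 5) (nat_lit 125) (nat_lit 5) (nat_lit 382) (nat_lit 377) (nat_lit 261)))) (XT.nd (nat_lit 78) (nat_lit 684) (nat_lit 0) (XT.lf (nat_lit 76) (nat_lit 30082594439) (nat_lit 0) (nat_lit 19761359341) (nat_lit 836) (nat_lit 39464496200) (nat_lit 115) (nat_lit 5) (nat_lit 114) (nat_lit 5) (nat_lit 125) (nat_lit 5) (nat_lit 383) (nat_lit 377) (nat_lit 260)) (XT.nd (nat_lit 78) (nat_lit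 0) (nat_lit 0) (XT.lf (nat_lit 0) (nat_lit 14133164921) (nat_lit 760) (nat_lit 49007091687) (nat_lit 836) (nat_lit 30008452914) (nat_lit 105) (nat_lit 5) (nat_lit 115) (nat_lit 5) (nat_lit 116) (nat_lit 5) (nat_lit 384) (nat_lit 377) (nat_lit 259)) (XT.lf (nat_lit 0) (nat_lit 79112491307) (nat_lit 836) (nat_lit 2351936775) (nat_lit 76) (nat_lit 15751151266) (nat_lit 105) (nat_lit 5) (nat_lit 116) (nat_lit 5) (nat_lit 106) (nat_lit 5) (nat_lit 385) (nat_lit 377) (nat_lit 258))))))) (XT.nd (nat_lit 936) (nat_lit 1900) (nat_lit 0) (XT.nd (nat_lit 468) (nat_lit 1368) (nat_lit 0) (XT.nd (nat_lit 234) (nat_lit 836) (nat_lit 0) (XT.nd (nat_lit 78) (nat_lit 760) (nat_lit 0) (XT.lf (nat_lit 0) (nat_lit 82249723925) (nat_lit 380) (nat_lit 16222041868) (nat_lit 456) (nat_lit 3030570755) (nat_lit 100) (nat_lit 5) (nat_lit 105) (nat_lit 5) (nat_lit 106) (nat_lit 5) (nat_lit 386) (nat_lit 377) (nat_lit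 257)) (XT.nd (nat_lit 78) (nat_lit 380) (nat_lit 0) (XT.lf (nat_lit 0) (nat_lit 14819444539) (nat_lit 380) (nat_lit 37341845132) (nat_lit 76) (nat_lit 53860618301) (nat_lit 95) (nat_lit 5) (nat_lit 100) (nat_lit 5) (nat_lit 96) (nat_lit 5) (nat_lit 387) (nat_lit 377) (nat_lit 256)) (XT.lf (nat_lit 0) (nat_lit 35765777939) (nat_lit 456) (nat_lit 56256487130) (nat_lit 76) (nat_lit 18789571985) (nat_lit 90) (nat_lit 5) (nat_lit 96) (nat_lit 5) (nat_lit 91) (nat_lit 5) (nat_lit 388) (nat_lit 377) (nat_lit 255)))) (XT.nd (nat_lit 78) (nat_lit 532) (nat_lit 0) (XT.lf (nat_lit 0) (nat_lit 39560137665) (nat_lit 304) (nat_lit 20984944318) (nat_lit 380) (nat_lit 55332015913) (nat_lit 86) (nat_lit 5) (nat_lit 90) (nat_lit 5) (nat_lit 91) (nat_lit 5) (nat_lit 389) (nat_lit 377) (nat_lit 254)) (XT.nd (nat_lit 78) (nat_lit 228) (nat_lit 0) (XT.lf (nat_lit 0) (nat_lit 23621000002) (nat_lit 304) (nat_lit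 65919730286) (nat_lit 380) (nat_lit 31695149907) (nat_lit 82) (nat_lit 5) (nat_lit 86) (nat_lit 5) (nat_lit 87) (nat_lit 5) (nat_lit 390) (nat_lit 377) (nat_lit 253)) (XT.lf (nat_lit 0) (nat_lit 7020053920) (nat_lit 228) (nat_lit 115799845813) (nat_lit 304) (nat_lit 4105272424) (nat_lit 79) (nat_lit 5) (nat_lit 82) (nat_lit 5) (nat_lit 83) (nat_lit 5) (nat_lit 391) (nat_lit 377) (nat_lit 252))))) (XT.nd (nat_lit 234) (nat_lit 760) (nat_lit 0) (XT.nd (nat_lit 78) (nat_lit 532) (nat_lit 0) (XT.lf (nat_lit 0) (nat_lit 27708385913) (nat_lit 304) (nat_lit 11014685864) (nat_lit 76) (nat_lit 94184535701) (nat_lit 78) (nat_lit 5) (nat_lit 82) (nat_lit 5) (nat_lit 79) (nat_lit 5) (nat_lit 392) (nat_lit 377) (nat_lit 251)) (XT.nd (nat_lit 78) (nat_lit 228) (nat_lit 0) (XT.lf (nat_lit 0) (nat_lit 64366781816) (nat_lit 380) (nat_lit 29965079227) (nat_lit 76) (nat_lit 44911238368) (nat_lit 74) (nat_lit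 5) (nat_lit 79) (nat_lit 5) (nat_lit 75) (nat_lit 5) (nat_lit 393) (nat_lit 377) (nat_lit 250)) (XT.lf (nat_lit 0) (nat_lit 95924680400) (nat_lit 228) (nat_lit 10377985051) (nat_lit 304) (nat_lit 39665524853) (nat_lit 71) (nat_lit 5) (nat_lit 74) (nat_lit 5) (nat_lit 75) (nat_lit 5) (nat_lit 394) (nat_lit 377) (nat_lit 249)))) (XT.nd (nat_lit 78) (nat_lit 456) (nat_lit 0) (XT.lf (nat_lit 0) (nat_lit 1513826749) (nat_lit 304) (nat_lit 72020811435) (nat_lit 76) (nat_lit 79542965562) (nat_lit 67) (nat_lit 5) (nat_lit 71) (nat_lit 5) (nat_lit 68) (nat_lit 5) (nat_lit 395) (nat_lit 377) (nat_lit 248)) (XT.nd (nat_lit 78) (nat_lit 228) (nat_lit 0) (XT.lf (nat_lit 0) (nat_lit 46975498521) (nat_lit 304) (nat_lit 95964238746) (nat_lit 76) (nat_lit 17664637666) (nat_lit 64) (nat_lit 5) (nat_lit 68) (nat_lit 5) (nat_lit 65) (nat_lit 5) (nat_lit 396) (nat_lit 377) (nat_lit 247)) (XT.lf (nat_lit 0) (nat_lit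 46357463092) (nat_lit 228) (nat_lit 52954769829) (nat_lit 304) (nat_lit 69259148759) (nat_lit 61) (nat_lit 5) (nat_lit 64) (nat_lit 5) (nat_lit 65) (nat_lit 5) (nat_lit 397) (nat_lit 377) (nat_lit 246)))))) (XT.nd (nat_lit 468) (nat_lit 912) (nat_lit 0) (XT.nd (nat_lit 234) (nat_lit 532) (nat_lit 0) (XT.nd (nat_lit 78) (nat_lit 304) (nat_lit 0) (XT.lf (nat_lit 0) (nat_lit 26529767389) (nat_lit 152) (nat_lit 132109259653) (nat_lit 228) (nat_lit 18396566162) (nat_lit 59) (nat_lit 5) (nat_lit 61) (nat_lit 5) (nat_lit 62) (nat_lit 5) (nat_lit 398) (nat_lit 377) (nat_lit 245)) (XT.nd (nat_lit 78) (nat_lit 0) (nat_lit 0) (XT.lf (nat_lit 0) (nat_lit 4098652602) (nat_lit 228) (nat_lit 34387077514) (nat_lit 304) (nat_lit 147506688284) (nat_lit 55) (nat_lit 5) (nat_lit 58) (nat_lit 5) (nat_lit 59) (nat_lit 5) (nat_lit 399) (nat_lit 377) (nat_lit 244)) (XT.lf (nat_lit 0) (nat_lit 103057680395) (nat_lit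 304) (nat_lit 20553730113) (nat_lit 76) (nat_lit 71850120369) (nat_lit 55) (nat_lit 5) (nat_lit 59) (nat_lit 5) (nat_lit 56) (nat_lit 5) (nat_lit 400) (nat_lit 377) (nat_lit 243)))) (XT.nd (nat_lit 78) (nat_lit 380) (nat_lit 0) (XT.lf (nat_lit 0) (nat_lit 158175395217) (nat_lit 152) (nat_lit 17668817311) (nat_lit 228) (nat_lit 29691518748) (nat_lit 53) (nat_lit 5) (nat_lit 55) (nat_lit 5) (nat_lit 56) (nat_lit 5) (nat_lit 401) (nat_lit 377) (nat_lit 242)) (XT.nd (nat_lit 78) (nat_lit 152) (nat_lit 0) (XT.lf (nat_lit 0) (nat_lit 40922034296) (nat_lit 228) (nat_lit 78421177603) (nat_lit 76) (nat_lit 96837878071) (nat_lit 50) (nat_lit 5) (nat_lit 53) (nat_lit 5) (nat_lit 51) (nat_lit 5) (nat_lit 402) (nat_lit 377) (nat_lit 241)) (XT.lf (nat_lit 0) (nat_lit 114599107816) (nat_lit 152) (nat_lit 4484355160) (nat_lit 228) (nat_lit 108423325373) (nat_lit 48) (nat_lit 5) (nat_lit 50) (nat_lit 5) (nat_lit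 51) (nat_lit 5) (nat_lit 403) (nat_lit 377) (nat_lit 240))))) (XT.nd (nat_lit 234) (nat_lit 380) (nat_lit 0) (XT.nd (nat_lit 78) (nat_lit 380) (nat_lit 0) (XT.lf (nat_lit 0) (nat_lit 87088607765) (nat_lit 152) (nat_lit 121023551714) (nat_lit 228) (nat_lit 31395665606) (nat_lit 46) (nat_lit 5) (nat_lit 48) (nat_lit 5) (nat_lit 49) (nat_lit 5) (nat_lit 404) (nat_lit 377) (nat_lit 239)) (XT.nd (nat_lit 78) (nat_lit 152) (nat_lit 0) (XT.lf (nat_lit 0) (nat_lit 53118316520) (nat_lit 228) (nat_lit 196712503117) (nat_lit 76) (nat_lit 2448600248) (nat_lit 43) (nat_lit 5) (nat_lit 46) (nat_lit 5) (nat_lit 44) (nat_lit 5) (nat_lit 405) (nat_lit 377) (nat_lit 238)) (XT.lf (nat_lit 0) (nat_lit 17645161932) (nat_lit 152) (nat_lit 130677282217) (nat_lit 228) (nat_lit 117473115197) (nat_lit 41) (nat_lit 5) (nat_lit 43) (nat_lit 5) (nat_lit 44) (nat_lit 5) (nat_lit 406) (nat_lit 377) (nat_lit 237)))) (XT.nd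 (nat_lit 156) (nat_lit 228) (nat_lit 0) (XT.nd (nat_lit 78) (nat_lit 152) (nat_lit 0) (XT.lf (nat_lit 0) (nat_lit 254594140656) (nat_lit 228) (nat_lit 24071538168) (nat_lit 76) (nat_lit 1554749329) (nat_lit 41) (nat_lit 5) (nat_lit 44) (nat_lit 5) (nat_lit 42) (nat_lit 4) (nat_lit 407) (nat_lit 377) (nat_lit 236)) (XT.lf (nat_lit 0) (nat_lit 76989348638) (nat_lit 152) (nat_lit 73894480205) (nat_lit 76) (nat_lit 144569242034) (nat_lit 39) (nat_lit 5) (nat_lit 41) (nat_lit 5) (nat_lit 40) (nat_lit 5) (nat_lit 408) (nat_lit 377) (nat_lit 235))) (XT.nd (nat_lit 78) (nat_lit 76) (nat_lit 0) (XT.lf (nat_lit 0) (nat_lit 181174387440) (nat_lit 152) (nat_lit 9008454212) (nat_lit 228) (nat_lit 121537157002) (nat_lit 37) (nat_lit 5) (nat_lit 39) (nat_lit 5) (nat_lit 40) (nat_lit 5) (nat_lit 409) (nat_lit 377) (nat_lit 234)) (XT.lf (nat_lit 0) (nat_lit 132015493716) (nat_lit 76) (nat_lit 186036992211)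 (nat_lit 152) (nat_lit 10954761229) (nat_lit 36) (nat_lit 5) (nat_lit 37) (nat_lit 5) (nat_lit 38) (nat_lit 4) (nat_lit 410) (nat_lit 377) (nat_lit 233))))))))
noncomputable def xc104 : XT := (XT.nd (nat_lit 50856) (nat_lit 0) (nat_lit 2204) (XT.nd (nat_lit 936) (nat_lit 532) (nat_lit 0) (XT.nd (nat_lit 468) (nat_lit 380) (nat_lit 0) (XT.nd (nat_lit 234) (nat_lit 380) (nat_lit 0) (XT.nd (nat_lit 78) (nat_lit 152) (nat_lit 0) (XT.lf (nat_lit 0) (nat_lit 73136857196) (nat_lit 152) (nat_lit 35470211762) (nat_lit 228) (nat_lit 238805492556) (nat_lit 33) (nat_lit 5) (nat_lit 35) (nat_lit 5) (nat_lit 36) (nat_lit 5) (nat_lit 411) (nat_lit 377) (nat_lit 232)) (XT.nd (nat_lit 78) (nat_lit 76) (nat_lit 0) (XT.lf (nat_lit 0) (nat_lit 2649682126) (nat_lit 76) (nat_lit 240219265457) (nat_lit 152) (nat_lit 124136429028) (nat_lit 32) (nat_lit 5) (nat_lit 33) (nat_lit 5) (nat_lit 34) (nat_lit 4) (nat_lit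 412) (nat_lit 377) (nat_lit 231)) (XT.lf (nat_lit 0) (nat_lit 5169336111) (nat_lit 152) (nat_lit 77075799319) (nat_lit 76) (nat_lit 305648022348) (nat_lit 31) (nat_lit 5) (nat_lit 33) (nat_lit 5) (nat_lit 32) (nat_lit 5) (nat_lit 413) (nat_lit 377) (nat_lit 230)))) (XT.nd (nat_lit 78) (nat_lit 228) (nat_lit 0) (XT.lf (nat_lit 0) (nat_lit 145730617332) (nat_lit 228) (nat_lit 172902322153) (nat_lit 76) (nat_lit 91454261311) (nat_lit 29) (nat_lit 5) (nat_lit 32) (nat_lit 5) (nat_lit 30) (nat_lit 4) (nat_lit 414) (nat_lit 377) (nat_lit 229)) (XT.nd (nat_lit 78) (nat_lit 152) (nat_lit 0) (XT.lf (nat_lit 0) (nat_lit 148699035654) (nat_lit 76) (nat_lit 153910485476) (nat_lit 152) (nat_lit 131193610179) (nat_lit 28) (nat_lit 5) (nat_lit 29) (nat_lit 5) (nat_lit 30) (nat_lit 4) (nat_lit 415) (nat_lit 377) (nat_lit 228)) (XT.lf (nat_lit 0) (nat_lit 16407118631) (nat_lit 152) (nat_lit 415556690984)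 (nat_lit 76) (nat_lit 27233237482) (nat_lit 26) (nat_lit 5) (nat_lit 28) (nat_lit 5) (nat_lit 27) (nat_lit 4) (nat_lit 416) (nat_lit 377) (nat_lit 227))))) (XT.nd (nat_lit 234) (nat_lit 152) (nat_lit 0) (XT.nd (nat_lit 78) (nat_lit 228) (nat_lit 0) (XT.lf (nat_lit 0) (nat_lit 178923633611) (nat_lit 152) (nat_lit 82398157780) (nat_lit 76) (nat_lit 224807943411) (nat_lit 26) (nat_lit 5) (nat_lit 28) (nat_lit 5) (nat_lit 27) (nat_lit 4) (nat_lit 417) (nat_lit 377) (nat_lit 226)) (XT.nd (nat_lit 78) (nat_lit 152) (nat_lit 0) (XT.lf (nat_lit 0) (nat_lit 286585064030) (nat_lit 76) (nat_lit 72330530765) (nat_lit 152) (nat_lit 156077736523) (nat_lit 25) (nat_lit 5) (nat_lit 26) (nat_lit 5) (nat_lit 27) (nat_lit 4) (nat_lit 418) (nat_lit 377) (nat_lit 225)) (XT.lf (nat_lit 0) (nat_lit 12778712704) (nat_lit 152) (nat_lit 401605716859) (nat_lit 76) (nat_lit 131482693126) (nat_lit 23) (nat_lit 5) (nat_lit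 25) (nat_lit 5) (nat_lit 24) (nat_lit 4) (nat_lit 419) (nat_lit 377) (nat_lit 224)))) (XT.nd (nat_lit 78) (nat_lit 152) (nat_lit 0) (XT.lf (nat_lit 0) (nat_lit 195011899027) (nat_lit 152) (nat_lit 28027928722) (nat_lit 76) (nat_lit 355776235846) (nat_lit 23) (nat_lit 5) (nat_lit 25) (nat_lit 5) (nat_lit 24) (nat_lit 4) (nat_lit 420) (nat_lit 377) (nat_lit 223)) (XT.nd (nat_lit 78) (nat_lit 76) (nat_lit 0) (XT.lf (nat_lit 0) (nat_lit 387849235425) (nat_lit 76) (nat_lit 10029683070) (nat_lit 152) (nat_lit 216219242400) (nat_lit 22) (nat_lit 5) (nat_lit 23) (nat_lit 5) (nat_lit 24) (nat_lit 4) (nat_lit 421) (nat_lit 377) (nat_lit 222)) (XT.lf (nat_lit 0) (nat_lit 188405596176) (nat_lit 76) (nat_lit 435442395951) (nat_lit 76) (nat_lit 28011199253) (nat_lit 21) (nat_lit 4) (nat_lit 22) (nat_lit 5) (nat_lit 22) (nat_lit 4) (nat_lit 422) (nat_lit 377) (nat_lit 221)))))) (XT.nd (nat_lit 468) (nat_lit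 152) (nat_lit 0) (XT.nd (nat_lit 234) (nat_lit 152) (nat_lit 0) (XT.nd (nat_lit 78) (nat_lit 152) (nat_lit 0) (XT.lf (nat_lit 0) (nat_lit 173818897904) (nat_lit 152) (nat_lit 51102640332) (nat_lit 76) (nat_lit 467374025359) (nat_lit 20) (nat_lit 5) (nat_lit 22) (nat_lit 5) (nat_lit 21) (nat_lit 4) (nat_lit 423) (nat_lit 377) (nat_lit 220)) (XT.nd (nat_lit 78) (nat_lit 76) (nat_lit 0) (XT.lf (nat_lit 0) (nat_lit 397327935399) (nat_lit 152) (nat_lit 328992368645) (nat_lit 0) (nat_lit 9297886141) (nat_lit 19) (nat_lit 5) (nat_lit 21) (nat_lit 4) (nat_lit 19) (nat_lit 4) (nat_lit 424) (nat_lit 377) (nat_lit 219)) (XT.lf (nat_lit 0) (nat_lit 120483978979) (nat_lit 76) (nat_lit 524811967594) (nat_lit 76) (nat_lit 136781767820) (nat_lit 18) (nat_lit 4) (nat_lit 19) (nat_lit 5) (nat_lit 19) (nat_lit 4) (nat_lit 425) (nat_lit 377) (nat_lit 218)))) (XT.nd (nat_lit 78) (nat_lit 76) (nat_lit 0) (XT.lf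 (nat_lit 0) (nat_lit 84084367294) (nat_lit 152) (nat_lit 215657386185) (nat_lit 76) (nat_lit 532157904813) (nat_lit 17) (nat_lit 5) (nat_lit 19) (nat_lit 5) (nat_lit 18) (nat_lit 4) (nat_lit 426) (nat_lit 377) (nat_lit 217)) (XT.nd (nat_lit 78) (nat_lit 0) (nat_lit 0) (XT.lf (nat_lit 0) (nat_lit 272364502405) (nat_lit 76) (nat_lit 49779385686) (nat_lit 152) (nat_lit 563235540343) (nat_lit 16) (nat_lit 5) (nat_lit 17) (nat_lit 5) (nat_lit 18) (nat_lit 4) (nat_lit 427) (nat_lit 377) (nat_lit 216)) (XT.lf (nat_lit 0) (nat_lit 586503821024) (nat_lit 152) (nat_lit 139320096266) (nat_lit 0) (nat_lit 216950880390) (nat_lit 16) (nat_lit 5) (nat_lit 18) (nat_lit 4) (nat_lit 16) (nat_lit 4) (nat_lit 428) (nat_lit 377) (nat_lit 215))))) (XT.nd (nat_lit 49218) (nat_lit 0) (nat_lit 7372) (XT.nd (nat_lit 78) (nat_lit 76) (nat_lit 0) (XT.lf (nat_lit 0) (nat_lit 383711813356) (nat_lit 76) (nat_lit 495130763847)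 (nat_lit 76) (nat_lit 125577717848) (nat_lit 15) (nat_lit 4) (nat_lit 16) (nat_lit 5) (nat_lit 16) (nat_lit 4) (nat_lit 429) (nat_lit 377) (nat_lit 214)) (XT.nd (nat_lit 49062) (nat_lit 0) (nat_lit 7296) (XT.lf (nat_lit 0) (nat_lit 122082453941) (nat_lit 152) (nat_lit 119284112979) (nat_lit 76) (nat_lit 829411076022) (nat_lit 14) (nat_lit 5) (nat_lit 16) (nat_lit 5) (nat_lit 15) (nat_lit 4) (nat_lit 430) (nat_lit 377) (nat_lit 213)) (XT.lf (nat_lit 0) (nat_lit 8495162012) (nat_lit 836) (nat_lit 14703080148) (nat_lit 836) (nat_lit 14703080148) (nat_lit 110) (nat_lit 3) (nat_lit 121) (nat_lit 3) (nat_lit 121) (nat_lit 5) (nat_lit 378) (nat_lit 378) (nat_lit 264)))) (XT.nd (nat_lit 78) (nat_lit 0) (nat_lit 0) (XT.lf (nat_lit 0) (nat_lit 18340348246) (nat_lit 760) (nat_lit 49004924110) (nat_lit 836) (nat_lit 11455945192) (nat_lit 111) (nat_lit 5) (nat_lit 121) (nat_lit 5) (nat_lit 122) (nat_lit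 5) (nat_lit 379) (nat_lit 378) (nat_lit 263)) (XT.nd (nat_lit 78) (nat_lit 0) (nat_lit 76) (XT.lf (nat_lit 76) (nat_lit 12375276021) (nat_lit 0) (nat_lit 8917530807) (nat_lit 836) (nat_lit 60672149095) (nat_lit 112) (nat_lit 5) (nat_lit 111) (nat_lit 5) (nat_lit 122) (nat_lit 5) (nat_lit 380) (nat_lit 378) (nat_lit 262)) (XT.lf (nat_lit 0) (nat_lit 26193440940) (nat_lit 760) (nat_lit 5784328006) (nat_lit 836) (nat_lit 53318426617) (nat_lit 112) (nat_lit 5) (nat_lit 122) (nat_lit 5) (nat_lit 123) (nat_lit 5) (nat_lit 381) (nat_lit 378) (nat_lit 261))))))) (XT.nd (nat_lit 936) (nat_lit 2660) (nat_lit 0) (XT.nd (nat_lit 468) (nat_lit 1672) (nat_lit 0) (XT.nd (nat_lit 234) (nat_lit 988) (nat_lit 0) (XT.nd (nat_lit 78) (nat_lit 0) (nat_lit 76) (XT.lf (nat_lit 0) (nat_lit 33156644280) (nat_lit 760) (nat_lit 24285367762) (nat_lit 836) (nat_lit 31368397463) (nat_lit 113) (nat_lit 5) (nat_lit 123)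 (nat_lit 5) (nat_lit 124) (nat_lit 5) (nat_lit 382) (nat_lit 378) (nat_lit 260)) (XT.nd (nat_lit 78) (nat_lit 0) (nat_lit 0) (XT.lf (nat_lit 0) (nat_lit 42193080921) (nat_lit 760) (nat_lit 43550462848) (nat_lit 836) (nat_lit 6786408917) (nat_lit 114) (nat_lit 5) (nat_lit 124) (nat_lit 5) (nat_lit 125) (nat_lit 5) (nat_lit 383) (nat_lit 378) (nat_lit 259)) (XT.lf (nat_lit 76) (nat_lit 32510815633) (nat_lit 0) (nat_lit 21346444864) (nat_lit 836) (nat_lit 42594558327) (nat_lit 115) (nat_lit 5) (nat_lit 114) (nat_lit 5) (nat_lit 125) (nat_lit 5) (nat_lit 384) (nat_lit 378) (nat_lit 258)))) (XT.nd (nat_lit 78) (nat_lit 380) (nat_lit 0) (XT.lf (nat_lit 0) (nat_lit 15285805175) (nat_lit 760) (nat_lit 52929834874) (nat_lit 836) (nat_lit 32383741762) (nat_lit 105) (nat_lit 5) (nat_lit 115) (nat_lit 5) (nat_lit 116) (nat_lit 5) (nat_lit 385) (nat_lit 378) (nat_lit 257)) (XT.nd (nat_lit 78) (nat_lit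 380) (nat_lit 0) (XT.lf (nat_lit 0) (nat_lit 85463832224) (nat_lit 836) (nat_lit 2518568102) (nat_lit 76) (nat_lit 17009293172) (nat_lit 105) (nat_lit 5) (nat_lit 116) (nat_lit 5) (nat_lit 106) (nat_lit 5) (nat_lit 386) (nat_lit 378) (nat_lit 256)) (XT.lf (nat_lit 0) (nat_lit 88850290064) (nat_lit 380) (nat_lit 17520225110) (nat_lit 456) (nat_lit 3250943894) (nat_lit 100) (nat_lit 5) (nat_lit 105) (nat_lit 5) (nat_lit 106) (nat_lit 5) (nat_lit 387) (nat_lit 378) (nat_lit 255))))) (XT.nd (nat_lit 234) (nat_lit 608) (nat_lit 0) (XT.nd (nat_lit 78) (nat_lit 684) (nat_lit 0) (XT.lf (nat_lit 0) (nat_lit 16025106091) (nat_lit 380) (nat_lit 40307797702) (nat_lit 76) (nat_lit 58169739173) (nat_lit 95) (nat_lit 5) (nat_lit 100) (nat_lit 5) (nat_lit 96) (nat_lit 5) (nat_lit 388) (nat_lit 378) (nat_lit 254)) (XT.nd (nat_lit 78) (nat_lit 304) (nat_lit 0) (XT.lf (nat_lit 0) (nat_lit 38646000223) (nat_lit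 456) (nat_lit 60735606496) (nat_lit 76) (nat_lit 20294217867) (nat_lit 90) (nat_lit 5) (nat_lit 96) (nat_lit 5) (nat_lit 91) (nat_lit 5) (nat_lit 389) (nat_lit 378) (nat_lit 253)) (XT.lf (nat_lit 0) (nat_lit 42745418282) (nat_lit 304) (nat_lit 22661145449) (nat_lit 380) (nat_lit 59739797655) (nat_lit 86) (nat_lit 5) (nat_lit 90) (nat_lit 5) (nat_lit 91) (nat_lit 5) (nat_lit 390) (nat_lit 378) (nat_lit 252)))) (XT.nd (nat_lit 78) (nat_lit 304) (nat_lit 0) (XT.lf (nat_lit 0) (nat_lit 25531086317) (nat_lit 304) (nat_lit 71189809601) (nat_lit 380) (nat_lit 34212999534) (nat_lit 82) (nat_lit 5) (nat_lit 86) (nat_lit 5) (nat_lit 87) (nat_lit 5) (nat_lit 391) (nat_lit 378) (nat_lit 251)) (XT.nd (nat_lit 78) (nat_lit 76) (nat_lit 0) (XT.lf (nat_lit 0) (nat_lit 7601943452) (nat_lit 228) (nat_lit 125059570373) (nat_lit 304) (nat_lit 4416861925) (nat_lit 79) (nat_lit 5) (nat_lit 82) (nat_lit 5) (nat_lit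 83) (nat_lit 5) (nat_lit 392) (nat_lit 378) (nat_lit 250)) (XT.lf (nat_lit 0) (nat_lit 29940143411) (nat_lit 304) (nat_lit 11876571290) (nat_lit 76) (nat_lit 101722739044) (nat_lit 78) (nat_lit 5) (nat_lit 82) (nat_lit 5) (nat_lit 79) (nat_lit 5) (nat_lit 393) (nat_lit 378) (nat_lit 249)))))) (XT.nd (nat_lit 468) (nat_lit 1216) (nat_lit 0) (XT.nd (nat_lit 234) (nat_lit 608) (nat_lit 0) (XT.nd (nat_lit 78) (nat_lit 532) (nat_lit 0) (XT.lf (nat_lit 0) (nat_lit 69530447011) (nat_lit 380) (nat_lit 32343179631) (nat_lit 76) (nat_lit 48508197181) (nat_lit 74) (nat_lit 5) (nat_lit 79) (nat_lit 5) (nat_lit 75) (nat_lit 5) (nat_lit 394) (nat_lit 378) (nat_lit 248)) (XT.nd (nat_lit 78) (nat_lit 304) (nat_lit 0) (XT.lf (nat_lit 0) (nat_lit 103616930447) (nat_lit 228) (nat_lit 11203495288) (nat_lit 304) (nat_lit 42824535582) (nat_lit 71) (nat_lit 5) (nat_lit 74) (nat_lit 5) (nat_lit 75) (nat_lit 5) (nat_lit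 395) (nat_lit 378) (nat_lit 247)) (XT.lf (nat_lit 0) (nat_lit 1648044382) (nat_lit 304) (nat_lit 77763971538) (nat_lit 76) (nat_lit 85911134502) (nat_lit 67) (nat_lit 5) (nat_lit 71) (nat_lit 5) (nat_lit 68) (nat_lit 5) (nat_lit 396) (nat_lit 378) (nat_lit 246)))) (XT.nd (nat_lit 78) (nat_lit 380) (nat_lit 0) (XT.lf (nat_lit 0) (nat_lit 50746037528) (nat_lit 304) (nat_lit 103623133296) (nat_lit 76) (nat_lit 19082923545) (nat_lit 64) (nat_lit 5) (nat_lit 68) (nat_lit 5) (nat_lit 65) (nat_lit 5) (nat_lit 397) (nat_lit 378) (nat_lit 245)) (XT.nd (nat_lit 78) (nat_lit 152) (nat_lit 0) (XT.lf (nat_lit 0) (nat_lit 50083511802) (nat_lit 228) (nat_lit 57185545485) (nat_lit 304) (nat_lit 74787437453) (nat_lit 61) (nat_lit 5) (nat_lit 64) (nat_lit 5) (nat_lit 65) (nat_lit 5) (nat_lit 398) (nat_lit 378) (nat_lit 244)) (XT.lf (nat_lit 0) (nat_lit 28669329802) (nat_lit 152) (nat_lit 142672136960) (nat_lit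 228) (nat_lit 19856403219) (nat_lit 59) (nat_lit 5) (nat_lit 61) (nat_lit 5) (nat_lit 62) (nat_lit 5) (nat_lit 399) (nat_lit 378) (nat_lit 243))))) (XT.nd (nat_lit 234) (nat_lit 760) (nat_lit 0) (XT.nd (nat_lit 78) (nat_lit 152) (nat_lit 0) (XT.lf (nat_lit 0) (nat_lit 4443347502) (nat_lit 228) (nat_lit 37132158674) (nat_lit 304) (nat_lit 159295755579) (nat_lit 55) (nat_lit 5) (nat_lit 58) (nat_lit 5) (nat_lit 59) (nat_lit 5) (nat_lit 400) (nat_lit 378) (nat_lit 242)) (XT.nd (nat_lit 78) (nat_lit 152) (nat_lit 0) (XT.lf (nat_lit 0) (nat_lit 111312488838) (nat_lit 304) (nat_lit 22182046182) (nat_lit 76) (nat_lit 77603404705) (nat_lit 55) (nat_lit 5) (nat_lit 59) (nat_lit 5) (nat_lit 56) (nat_lit 5) (nat_lit 401) (nat_lit 378) (nat_lit 241)) (XT.lf (nat_lit 0) (nat_lit 170844714601) (nat_lit 152) (nat_lit 19076712514) (nat_lit 228) (nat_lit 32056675153) (nat_lit 53) (nat_lit 5) (nat_lit 55)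 (nat_lit 5) (nat_lit 56) (nat_lit 5) (nat_lit 402) (nat_lit 378) (nat_lit 240)))) (XT.nd (nat_lit 156) (nat_lit 380) (nat_lit 0) (XT.nd (nat_lit 78) (nat_lit 152) (nat_lit 0) (XT.lf (nat_lit 0) (nat_lit 44205228475) (nat_lit 228) (nat_lit 84679550846) (nat_lit 76) (nat_lit 104590323074) (nat_lit 50) (nat_lit 5) (nat_lit 53) (nat_lit 5) (nat_lit 51) (nat_lit 5) (nat_lit 403) (nat_lit 378) (nat_lit 239)) (XT.lf (nat_lit 0) (nat_lit 123781691576) (nat_lit 152) (nat_lit 4837410056) (nat_lit 228) (nat_lit 117087778740) (nat_lit 48) (nat_lit 5) (nat_lit 50) (nat_lit 5) (nat_lit 51) (nat_lit 5) (nat_lit 404) (nat_lit 378) (nat_lit 238))) (XT.nd (nat_lit 78) (nat_lit 228) (nat_lit 0) (XT.lf (nat_lit 0) (nat_lit 94070061041) (nat_lit 152) (nat_lit 130699675570) (nat_lit 228) (nat_lit 33898281517) (nat_lit 46) (nat_lit 5) (nat_lit 48) (nat_lit 5) (nat_lit 49) (nat_lit 5) (nat_lit 405) (nat_lit 378)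 (nat_lit 237)) (XT.lf (nat_lit 0) (nat_lit 57376189809) (nat_lit 228) (nat_lit 212435154435) (nat_lit 76) (nat_lit 2650006414) (nat_lit 43) (nat_lit 5) (nat_lit 46) (nat_lit 5) (nat_lit 44) (nat_lit 5) (nat_lit 406) (nat_lit 378) (nat_lit 236))))))))
noncomputable def xc105 : XT := (XT.nd (nat_lit 50934) (nat_lit 0) (nat_lit 2888) (XT.nd (nat_lit 936) (nat_lit 836) (nat_lit 0) (XT.nd (nat_lit 468) (nat_lit 532) (nat_lit 0) (XT.nd (nat_lit 234) (nat_lit 456) (nat_lit 0) (XT.nd (nat_lit 78) (nat_lit 152) (nat_lit 0) (XT.lf (nat_lit 0) (nat_lit 19070500231) (nat_lit 152) (nat_lit 141125738895) (nat_lit 228) (nat_lit 126862562754) (nat_lit 41) (nat_lit 5) (nat_lit 43) (nat_lit 5) (nat_lit 44) (nat_lit 5) (nat_lit 407) (nat_lit 378) (nat_lit 235)) (XT.nd (nat_lit 78) (nat_lit 152) (nat_lit 0) (XT.lf (nat_lit 0) (nat_lit 274969161578) (nat_lit 228) (nat_lit 25984262924) (nat_lit 76) (nat_lit 1684261345)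 (nat_lit 41) (nat_lit 5) (nat_lit 44) (nat_lit 5) (nat_lit 42) (nat_lit 4) (nat_lit 408) (nat_lit 378) (nat_lit 234)) (XT.lf (nat_lit 0) (nat_lit 83155744257) (nat_lit 152) (nat_lit 79793363742) (nat_lit 76) (nat_lit 156139844332) (nat_lit 39) (nat_lit 5) (nat_lit 41) (nat_lit 5) (nat_lit 40) (nat_lit 5) (nat_lit 409) (nat_lit 378) (nat_lit 233)))) (XT.nd (nat_lit 78) (nat_lit 304) (nat_lit 0) (XT.lf (nat_lit 0) (nat_lit 195680462479) (nat_lit 152) (nat_lit 9723906654) (nat_lit 228) (nat_lit 131252882711) (nat_lit 37) (nat_lit 5) (nat_lit 39) (nat_lit 5) (nat_lit 40) (nat_lit 5) (nat_lit 410) (nat_lit 378) (nat_lit 232)) (XT.nd (nat_lit 78) (nat_lit 228) (nat_lit 0) (XT.lf (nat_lit 0) (nat_lit 142588583981) (nat_lit 76) (nat_lit 200914750389) (nat_lit 152) (nat_lit 11824158511) (nat_lit 36) (nat_lit 5) (nat_lit 37) (nat_lit 5) (nat_lit 38) (nat_lit 4) (nat_lit 411) (nat_lit 378) (nat_lit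 231)) (XT.lf (nat_lit 0) (nat_lit 78999356754) (nat_lit 152) (nat_lit 38302717413) (nat_lit 228) (nat_lit 257903168900) (nat_lit 33) (nat_lit 5) (nat_lit 35) (nat_lit 5) (nat_lit 36) (nat_lit 5) (nat_lit 412) (nat_lit 378) (nat_lit 230))))) (XT.nd (nat_lit 234) (nat_lit 228) (nat_lit 0) (XT.nd (nat_lit 78) (nat_lit 228) (nat_lit 0) (XT.lf (nat_lit 0) (nat_lit 2872938668) (nat_lit 76) (nat_lit 259431737434) (nat_lit 152) (nat_lit 134060818722) (nat_lit 32) (nat_lit 5) (nat_lit 33) (nat_lit 5) (nat_lit 34) (nat_lit 4) (nat_lit 413) (nat_lit 378) (nat_lit 229)) (XT.nd (nat_lit 78) (nat_lit 152) (nat_lit 0) (XT.lf (nat_lit 0) (nat_lit 5588730962) (nat_lit 152) (nat_lit 83231222504) (nat_lit 76) (nat_lit 330104363406) (nat_lit 31) (nat_lit 5) (nat_lit 33) (nat_lit 5) (nat_lit 32) (nat_lit 5) (nat_lit 414) (nat_lit 378) (nat_lit 228)) (XT.lf (nat_lit 0) (nat_lit 157394712302) (nat_lit 228) (nat_lit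 186724121760) (nat_lit 76) (nat_lit 98775059472) (nat_lit 29) (nat_lit 5) (nat_lit 32) (nat_lit 5) (nat_lit 30) (nat_lit 4) (nat_lit 415) (nat_lit 378) (nat_lit 227)))) (XT.nd (nat_lit 78) (nat_lit 152) (nat_lit 0) (XT.lf (nat_lit 0) (nat_lit 160604893302) (nat_lit 76) (nat_lit 166218772021) (nat_lit 152) (nat_lit 141683446397) (nat_lit 28) (nat_lit 5) (nat_lit 29) (nat_lit 5) (nat_lit 30) (nat_lit 4) (nat_lit 416) (nat_lit 378) (nat_lit 226)) (XT.nd (nat_lit 78) (nat_lit 0) (nat_lit 0) (XT.lf (nat_lit 0) (nat_lit 17724975199) (nat_lit 152) (nat_lit 448791357183) (nat_lit 76) (nat_lit 29416213274) (nat_lit 26) (nat_lit 5) (nat_lit 28) (nat_lit 5) (nat_lit 27) (nat_lit 4) (nat_lit 417) (nat_lit 378) (nat_lit 225)) (XT.lf (nat_lit 0) (nat_lit 193242419743) (nat_lit 152) (nat_lit 88980872365) (nat_lit 76) (nat_lit 242796575915) (nat_lit 26) (nat_lit 5) (nat_lit 28) (nat_lit 5) (nat_lit 27) (nat_lit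 4) (nat_lit 418) (nat_lit 378) (nat_lit 224)))))) (XT.nd (nat_lit 468) (nat_lit 380) (nat_lit 0) (XT.nd (nat_lit 234) (nat_lit 228) (nat_lit 0) (XT.nd (nat_lit 78) (nat_lit 152) (nat_lit 0) (XT.lf (nat_lit 0) (nat_lit 309520610061) (nat_lit 76) (nat_lit 78112901605) (nat_lit 152) (nat_lit 168559051961) (nat_lit 25) (nat_lit 5) (nat_lit 26) (nat_lit 5) (nat_lit 27) (nat_lit 4) (nat_lit 419) (nat_lit 378) (nat_lit 223)) (XT.nd (nat_lit 78) (nat_lit 0) (nat_lit 0) (XT.lf (nat_lit 0) (nat_lit 13805599761) (nat_lit 152) (nat_lit 433725497543) (nat_lit 76) (nat_lit 142005165052) (nat_lit 23) (nat_lit 5) (nat_lit 25) (nat_lit 5) (nat_lit 24) (nat_lit 4) (nat_lit 420) (nat_lit 378) (nat_lit 222)) (XT.lf (nat_lit 0) (nat_lit 210617100987) (nat_lit 152) (nat_lit 30262129071) (nat_lit 76) (nat_lit 384241905525) (nat_lit 23) (nat_lit 5) (nat_lit 25) (nat_lit 5) (nat_lit 24) (nat_lit 4) (nat_lit 421)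 (nat_lit 378) (nat_lit 221)))) (XT.nd (nat_lit 78) (nat_lit 152) (nat_lit 0) (XT.lf (nat_lit 0) (nat_lit 418884859063) (nat_lit 76) (nat_lit 10828428114) (nat_lit 152) (nat_lit 233512523277) (nat_lit 22) (nat_lit 5) (nat_lit 23) (nat_lit 5) (nat_lit 24) (nat_lit 4) (nat_lit 422) (nat_lit 378) (nat_lit 220)) (XT.nd (nat_lit 78) (nat_lit 76) (nat_lit 0) (XT.lf (nat_lit 0) (nat_lit 203485534974) (nat_lit 76) (nat_lit 470274220768) (nat_lit 76) (nat_lit 30247974225) (nat_lit 21) (nat_lit 4) (nat_lit 22) (nat_lit 5) (nat_lit 22) (nat_lit 4) (nat_lit 423) (nat_lit 378) (nat_lit 219)) (XT.lf (nat_lit 0) (nat_lit 187728103322) (nat_lit 152) (nat_lit 55183792773) (nat_lit 76) (nat_lit 504767127457) (nat_lit 20) (nat_lit 5) (nat_lit 22) (nat_lit 5) (nat_lit 21) (nat_lit 4) (nat_lit 424) (nat_lit 378) (nat_lit 218))))) (XT.nd (nat_lit 234) (nat_lit 152) (nat_lit 0) (XT.nd (nat_lit 78) (nat_lit 152)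 (nat_lit 0) (XT.lf (nat_lit 0) (nat_lit 429117746012) (nat_lit 152) (nat_lit 355304879806) (nat_lit 0) (nat_lit 10044840376) (nat_lit 19) (nat_lit 5) (nat_lit 21) (nat_lit 4) (nat_lit 19) (nat_lit 4) (nat_lit 425) (nat_lit 378) (nat_lit 217)) (XT.nd (nat_lit 78) (nat_lit 76) (nat_lit 0) (XT.lf (nat_lit 0) (nat_lit 130129276705) (nat_lit 76) (nat_lit 566793759225) (nat_lit 76) (nat_lit 147720724546) (nat_lit 18) (nat_lit 4) (nat_lit 19) (nat_lit 5) (nat_lit 19) (nat_lit 4) (nat_lit 426) (nat_lit 378) (nat_lit 216)) (XT.lf (nat_lit 0) (nat_lit 90814329610) (nat_lit 152) (nat_lit 232903778460) (nat_lit 76) (nat_lit 574733361897) (nat_lit 17) (nat_lit 5) (nat_lit 19) (nat_lit 5) (nat_lit 18) (nat_lit 4) (nat_lit 427) (nat_lit 378) (nat_lit 215)))) (XT.nd (nat_lit 78) (nat_lit 76) (nat_lit 0) (XT.lf (nat_lit 0) (nat_lit 294159591832) (nat_lit 76) (nat_lit 53758874815) (nat_lit 152) (nat_lit 608291162369)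 (nat_lit 16) (nat_lit 5) (nat_lit 17) (nat_lit 5) (nat_lit 18) (nat_lit 4) (nat_lit 428) (nat_lit 378) (nat_lit 214)) (XT.nd (nat_lit 78) (nat_lit 76) (nat_lit 0) (XT.lf (nat_lit 0) (nat_lit 633427008362) (nat_lit 152) (nat_lit 150460112997) (nat_lit 0) (nat_lit 234309515758) (nat_lit 16) (nat_lit 5) (nat_lit 18) (nat_lit 4) (nat_lit 16) (nat_lit 4) (nat_lit 429) (nat_lit 378) (nat_lit 213)) (XT.lf (nat_lit 0) (nat_lit 414414106417) (nat_lit 76) (nat_lit 534738628660) (nat_lit 76) (nat_lit 135621045722) (nat_lit 15) (nat_lit 4) (nat_lit 16) (nat_lit 5) (nat_lit 16) (nat_lit 4) (nat_lit 430) (nat_lit 378) (nat_lit 212))))))) (XT.nd (nat_lit 936) (nat_lit 2812) (nat_lit 0) (XT.nd (nat_lit 468) (nat_lit 1520) (nat_lit 0) (XT.nd (nat_lit 234) (nat_lit 0) (nat_lit 152) (XT.nd (nat_lit 78) (nat_lit 0) (nat_lit 76) (XT.lf (nat_lit 0) (nat_lit 9191761613) (nat_lit 836) (nat_lit 15870402577) (nat_lit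 836) (nat_lit 15870402577) (nat_lit 110) (nat_lit 3) (nat_lit 121) (nat_lit 3) (nat_lit 121) (nat_lit 5) (nat_lit 379) (nat_lit 379) (nat_lit 262)) (XT.nd (nat_lit 78) (nat_lit 0) (nat_lit 0) (XT.lf (nat_lit 0) (nat_lit 19839070650) (nat_lit 760) (nat_lit 52906408603) (nat_lit 836) (nat_lit 12358238759) (nat_lit 111) (nat_lit 5) (nat_lit 121) (nat_lit 5) (nat_lit 122) (nat_lit 5) (nat_lit 380) (nat_lit 379) (nat_lit 261)) (XT.lf (nat_lit 76) (nat_lit 13383385757) (nat_lit 0) (nat_lit 9642289630) (nat_lit 836) (nat_lit 65494984241) (nat_lit 112) (nat_lit 5) (nat_lit 111) (nat_lit 5) (nat_lit 122) (nat_lit 5) (nat_lit 381) (nat_lit 379) (nat_lit 260)))) (XT.nd (nat_lit 78) (nat_lit 0) (nat_lit 76) (XT.lf (nat_lit 0) (nat_lit 28316015020) (nat_lit 760) (nat_lit 6228780055) (nat_lit 836) (nat_lit 57573722150) (nat_lit 112) (nat_lit 5) (nat_lit 122) (nat_lit 5) (nat_lit 123) (nat_lit 5) (nat_lit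 382) (nat_lit 379) (nat_lit 259)) (XT.nd (nat_lit 78) (nat_lit 0) (nat_lit 76) (XT.lf (nat_lit 0) (nat_lit 35834417715) (nat_lit 760) (nat_lit 26209289363) (nat_lit 836) (nat_lit 33870255459) (nat_lit 113) (nat_lit 5) (nat_lit 123) (nat_lit 5) (nat_lit 124) (nat_lit 5) (nat_lit 383) (nat_lit 379) (nat_lit 258)) (XT.lf (nat_lit 0) (nat_lit 45592094954) (nat_lit 760) (nat_lit 47015127776) (nat_lit 836) (nat_lit 7323931464) (nat_lit 114) (nat_lit 5) (nat_lit 124) (nat_lit 5) (nat_lit 125) (nat_lit 5) (nat_lit 384) (nat_lit 379) (nat_lit 257))))) (XT.nd (nat_lit 234) (nat_lit 1140) (nat_lit 0) (XT.nd (nat_lit 78) (nat_lit 684) (nat_lit 0) (XT.lf (nat_lit 76) (nat_lit 35130211095) (nat_lit 0) (nat_lit 23057741365) (nat_lit 836) (nat_lit 45978891196) (nat_lit 115) (nat_lit 5) (nat_lit 114) (nat_lit 5) (nat_lit 125) (nat_lit 5) (nat_lit 385) (nat_lit 379) (nat_lit 256)) (XT.nd (nat_lit 78) (nat_lit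 0) (nat_lit 0) (XT.lf (nat_lit 0) (nat_lit 16527519949) (nat_lit 760) (nat_lit 57166087106) (nat_lit 836) (nat_lit 34952675512) (nat_lit 105) (nat_lit 5) (nat_lit 115) (nat_lit 5) (nat_lit 116) (nat_lit 5) (nat_lit 386) (nat_lit 379) (nat_lit 255)) (XT.lf (nat_lit 0) (nat_lit 92320093133) (nat_lit 836) (nat_lit 2701600520) (nat_lit 76) (nat_lit 18368364647) (nat_lit 105) (nat_lit 5) (nat_lit 116) (nat_lit 5) (nat_lit 106) (nat_lit 5) (nat_lit 387) (nat_lit 379) (nat_lit 254)))) (XT.nd (nat_lit 78) (nat_lit 760) (nat_lit 0) (XT.lf (nat_lit 0) (nat_lit 95975964353) (nat_lit 380) (nat_lit 18922203109) (nat_lit 456) (nat_lit 3492095776) (nat_lit 100) (nat_lit 5) (nat_lit 105) (nat_lit 5) (nat_lit 106) (nat_lit 5) (nat_lit 388) (nat_lit 379) (nat_lit 253)) (XT.nd (nat_lit 78) (nat_lit 380) (nat_lit 0) (XT.lf (nat_lit 0) (nat_lit 17324352224) (nat_lit 380) (nat_lit 43514078718) (nat_lit 76) (nat_lit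 62823550997) (nat_lit 95) (nat_lit 5) (nat_lit 100) (nat_lit 5) (nat_lit 96) (nat_lit 5) (nat_lit 389) (nat_lit 379) (nat_lit 252)) (XT.lf (nat_lit 0) (nat_lit 41753935428) (nat_lit 456) (nat_lit 65576108304) (nat_lit 76) (nat_lit 21919024263) (nat_lit 90) (nat_lit 5) (nat_lit 96) (nat_lit 5) (nat_lit 91) (nat_lit 5) (nat_lit 390) (nat_lit 379) (nat_lit 251)))))) (XT.nd (nat_lit 468) (nat_lit 1368) (nat_lit 0) (XT.nd (nat_lit 234) (nat_lit 608) (nat_lit 0) (XT.nd (nat_lit 78) (nat_lit 532) (nat_lit 0) (XT.lf (nat_lit 0) (nat_lit 46182601130) (nat_lit 304) (nat_lit 24471812793) (nat_lit 380) (nat_lit 64502881046) (nat_lit 86) (nat_lit 5) (nat_lit 90) (nat_lit 5) (nat_lit 91) (nat_lit 5) (nat_lit 391) (nat_lit 379) (nat_lit 250)) (XT.nd (nat_lit 78) (nat_lit 228) (nat_lit 0) (XT.lf (nat_lit 0) (nat_lit 27591068347) (nat_lit 304) (nat_lit 76881994448) (nat_lit 380) (nat_lit 36934811131) (nat_lit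 82) (nat_lit 5) (nat_lit 86) (nat_lit 5) (nat_lit 87) (nat_lit 5) (nat_lit 392) (nat_lit 379) (nat_lit 249)) (XT.lf (nat_lit 0) (nat_lit 8227490235) (nat_lit 228) (nat_lit 135060681077) (nat_lit 304) (nat_lit 4755779901) (nat_lit 79) (nat_lit 5) (nat_lit 82) (nat_lit 5) (nat_lit 83) (nat_lit 5) (nat_lit 393) (nat_lit 379) (nat_lit 248)))) (XT.nd (nat_lit 78) (nat_lit 532) (nat_lit 0) (XT.lf (nat_lit 0) (nat_lit 32348289233) (nat_lit 304) (nat_lit 12810159405) (nat_lit 76) (nat_lit 109863507831) (nat_lit 78) (nat_lit 5) (nat_lit 82) (nat_lit 5) (nat_lit 79) (nat_lit 5) (nat_lit 394) (nat_lit 379) (nat_lit 247)) (XT.nd (nat_lit 78) (nat_lit 228) (nat_lit 0) (XT.lf (nat_lit 0) (nat_lit 75105162137) (nat_lit 380) (nat_lit 34914253742) (nat_lit 76) (nat_lit 52392333531) (nat_lit 74) (nat_lit 5) (nat_lit 79) (nat_lit 5) (nat_lit 75) (nat_lit 5) (nat_lit 395) (nat_lit 379) (nat_lit 246)) (XT.lf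 (nat_lit 0) (nat_lit 111921953276) (nat_lit 228) (nat_lit 12095720927) (nat_lit 304) (nat_lit 46238297418) (nat_lit 71) (nat_lit 5) (nat_lit 74) (nat_lit 5) (nat_lit 75) (nat_lit 5) (nat_lit 396) (nat_lit 379) (nat_lit 245))))) (XT.nd (nat_lit 234) (nat_lit 608) (nat_lit 0) (XT.nd (nat_lit 78) (nat_lit 456) (nat_lit 0) (XT.lf (nat_lit 0) (nat_lit 1791128925) (nat_lit 304) (nat_lit 83969224368) (nat_lit 76) (nat_lit 92788081927) (nat_lit 67) (nat_lit 5) (nat_lit 71) (nat_lit 5) (nat_lit 68) (nat_lit 5) (nat_lit 397) (nat_lit 379) (nat_lit 244)) (XT.nd (nat_lit 78) (nat_lit 228) (nat_lit 0) (XT.lf (nat_lit 0) (nat_lit 54816436516) (nat_lit 304) (nat_lit 111897342200) (nat_lit 76) (nat_lit 20613942602) (nat_lit 64) (nat_lit 5) (nat_lit 68) (nat_lit 5) (nat_lit 65) (nat_lit 5) (nat_lit 398) (nat_lit 379) (nat_lit 243)) (XT.lf (nat_lit 0) (nat_lit 54105154735) (nat_lit 228) (nat_lit 61755582943)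 (nat_lit 304) (nat_lit 80759764405) (nat_lit 61) (nat_lit 5) (nat_lit 64) (nat_lit 5) (nat_lit 65) (nat_lit 5) (nat_lit 399) (nat_lit 379) (nat_lit 242)))) (XT.nd (nat_lit 156) (nat_lit 152) (nat_lit 0) (XT.nd (nat_lit 78) (nat_lit 304) (nat_lit 0) (XT.lf (nat_lit 0) (nat_lit 30977606143) (nat_lit 152) (nat_lit 154080880941) (nat_lit 228) (nat_lit 21434723229) (nat_lit 59) (nat_lit 5) (nat_lit 61) (nat_lit 5) (nat_lit 62) (nat_lit 5) (nat_lit 400) (nat_lit 379) (nat_lit 241)) (XT.lf (nat_lit 0) (nat_lit 4813220903) (nat_lit 228) (nat_lit 40097685894) (nat_lit 304) (nat_lit 172029584263) (nat_lit 55) (nat_lit 5) (nat_lit 58) (nat_lit 5) (nat_lit 59) (nat_lit 5) (nat_lit 401) (nat_lit 379) (nat_lit 240))) (XT.nd (nat_lit 78) (nat_lit 152) (nat_lit 0) (XT.lf (nat_lit 0) (nat_lit 120226227667) (nat_lit 304) (nat_lit 23942907596) (nat_lit 76) (nat_lit 83816199292) (nat_lit 55) (nat_lit 5) (nat_lit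 59) (nat_lit 5) (nat_lit 56) (nat_lit 5) (nat_lit 402) (nat_lit 379) (nat_lit 239)) (XT.lf (nat_lit 0) (nat_lit 184525398566) (nat_lit 152) (nat_lit 20598039688) (nat_lit 228) (nat_lit 34612494235) (nat_lit 53) (nat_lit 5) (nat_lit 55) (nat_lit 5) (nat_lit 56) (nat_lit 5) (nat_lit 403) (nat_lit 379) (nat_lit 238))))))))
noncomputable def xc106 : XT := (XT.nd (nat_lit 1872) (nat_lit 152) (nat_lit 0) (XT.nd (nat_lit 936) (nat_lit 988) (nat_lit 0) (XT.nd (nat_lit 468) (nat_lit 760) (nat_lit 0) (XT.nd (nat_lit 234) (nat_lit 380) (nat_lit 0) (XT.nd (nat_lit 78) (nat_lit 304) (nat_lit 0) (XT.lf (nat_lit 0) (nat_lit 47749732688) (nat_lit 228) (nat_lit 91440779655) (nat_lit 76) (nat_lit 112962191202) (nat_lit 50) (nat_lit 5) (nat_lit 53) (nat_lit 5) (nat_lit 51) (nat_lit 5) (nat_lit 404) (nat_lit 379) (nat_lit 237)) (XT.nd (nat_lit 78) (nat_lit 152) (nat_lit 0) (XT.lf (nat_lit 0) (nat_lit 133696791318)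 (nat_lit 152) (nat_lit 5219521587) (nat_lit 228) (nat_lit 126446731198) (nat_lit 48) (nat_lit 5) (nat_lit 50) (nat_lit 5) (nat_lit 51) (nat_lit 5) (nat_lit 405) (nat_lit 379) (nat_lit 236)) (XT.lf (nat_lit 0) (nat_lit 101607981301) (nat_lit 152) (nat_lit 141150711103) (nat_lit 228) (nat_lit 36602395979) (nat_lit 46) (nat_lit 5) (nat_lit 48) (nat_lit 5) (nat_lit 49) (nat_lit 5) (nat_lit 406) (nat_lit 379) (nat_lit 235)))) (XT.nd (nat_lit 78) (nat_lit 152) (nat_lit 0) (XT.lf (nat_lit 0) (nat_lit 61973493470) (nat_lit 228) (nat_lit 229417664893) (nat_lit 76) (nat_lit 2866737849) (nat_lit 43) (nat_lit 5) (nat_lit 46) (nat_lit 5) (nat_lit 44) (nat_lit 5) (nat_lit 407) (nat_lit 379) (nat_lit 234)) (XT.nd (nat_lit 78) (nat_lit 0) (nat_lit 0) (XT.lf (nat_lit 0) (nat_lit 20607907521) (nat_lit 152) (nat_lit 152410888971) (nat_lit 228) (nat_lit 137004364706) (nat_lit 41) (nat_lit 5) (nat_lit 43) (nat_lit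 5) (nat_lit 44) (nat_lit 5) (nat_lit 408) (nat_lit 379) (nat_lit 233)) (XT.lf (nat_lit 0) (nat_lit 296973115689) (nat_lit 228) (nat_lit 28051860013) (nat_lit 76) (nat_lit 1823402175) (nat_lit 41) (nat_lit 5) (nat_lit 44) (nat_lit 5) (nat_lit 42) (nat_lit 4) (nat_lit 409) (nat_lit 379) (nat_lit 232))))) (XT.nd (nat_lit 234) (nat_lit 380) (nat_lit 0) (XT.nd (nat_lit 78) (nat_lit 228) (nat_lit 0) (XT.lf (nat_lit 0) (nat_lit 89814417557) (nat_lit 152) (nat_lit 86165966176) (nat_lit 76) (nat_lit 168635372530) (nat_lit 39) (nat_lit 5) (nat_lit 41) (nat_lit 5) (nat_lit 40) (nat_lit 5) (nat_lit 410) (nat_lit 379) (nat_lit 231)) (XT.nd (nat_lit 78) (nat_lit 76) (nat_lit 0) (XT.lf (nat_lit 0) (nat_lit 211345293892) (nat_lit 152) (nat_lit 10497340538) (nat_lit 228) (nat_lit 141746900321) (nat_lit 37) (nat_lit 5) (nat_lit 39) (nat_lit 5) (nat_lit 40) (nat_lit 5) (nat_lit 411) (nat_lit 379) (nat_lit 230))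 (XT.lf (nat_lit 0) (nat_lit 154005830822) (nat_lit 76) (nat_lit 216983471231) (nat_lit 152) (nat_lit 12764103866) (nat_lit 36) (nat_lit 5) (nat_lit 37) (nat_lit 5) (nat_lit 38) (nat_lit 4) (nat_lit 412) (nat_lit 379) (nat_lit 229)))) (XT.nd (nat_lit 78) (nat_lit 152) (nat_lit 0) (XT.lf (nat_lit 0) (nat_lit 85329208400) (nat_lit 152) (nat_lit 41362552699) (nat_lit 228) (nat_lit 278529624178) (nat_lit 33) (nat_lit 5) (nat_lit 35) (nat_lit 5) (nat_lit 36) (nat_lit 5) (nat_lit 413) (nat_lit 379) (nat_lit 228)) (XT.nd (nat_lit 78) (nat_lit 76) (nat_lit 0) (XT.lf (nat_lit 0) (nat_lit 3112446234) (nat_lit 76) (nat_lit 280181930354) (nat_lit 152) (nat_lit 144780090403) (nat_lit 32) (nat_lit 5) (nat_lit 33) (nat_lit 5) (nat_lit 34) (nat_lit 4) (nat_lit 414) (nat_lit 379) (nat_lit 227)) (XT.lf (nat_lit 0) (nat_lit 6040843124) (nat_lit 152) (nat_lit 89880597568) (nat_lit 76) (nat_lit 356516569877) (nat_lit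 31) (nat_lit 5) (nat_lit 33) (nat_lit 5) (nat_lit 32) (nat_lit 5) (nat_lit 415) (nat_lit 379) (nat_lit 226)))))) (XT.nd (nat_lit 468) (nat_lit 380) (nat_lit 0) (XT.nd (nat_lit 234) (nat_lit 228) (nat_lit 0) (XT.nd (nat_lit 78) (nat_lit 228) (nat_lit 0) (XT.lf (nat_lit 0) (nat_lit 169991129464) (nat_lit 228) (nat_lit 201653147038) (nat_lit 76) (nat_lit 106680885609) (nat_lit 29) (nat_lit 5) (nat_lit 32) (nat_lit 5) (nat_lit 30) (nat_lit 4) (nat_lit 416) (nat_lit 379) (nat_lit 225)) (XT.nd (nat_lit 78) (nat_lit 152) (nat_lit 0) (XT.lf (nat_lit 0) (nat_lit 173461802251) (nat_lit 76) (nat_lit 179512370926) (nat_lit 152) (nat_lit 153013275920) (nat_lit 28) (nat_lit 5) (nat_lit 29) (nat_lit 5) (nat_lit 30) (nat_lit 4) (nat_lit 417) (nat_lit 379) (nat_lit 224)) (XT.lf (nat_lit 0) (nat_lit 19147506033) (nat_lit 152) (nat_lit 484686204612) (nat_lit 76) (nat_lit 31773211291) (nat_lit 26) (nat_lit 5)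 (nat_lit 28) (nat_lit 5) (nat_lit 27) (nat_lit 4) (nat_lit 418) (nat_lit 379) (nat_lit 223)))) (XT.nd (nat_lit 78) (nat_lit 228) (nat_lit 0) (XT.lf (nat_lit 0) (nat_lit 208706010376) (nat_lit 152) (nat_lit 96091507760) (nat_lit 76) (nat_lit 262223728799) (nat_lit 26) (nat_lit 5) (nat_lit 28) (nat_lit 5) (nat_lit 27) (nat_lit 4) (nat_lit 419) (nat_lit 379) (nat_lit 222)) (XT.nd (nat_lit 78) (nat_lit 152) (nat_lit 0) (XT.lf (nat_lit 0) (nat_lit 334289752787) (nat_lit 76) (nat_lit 84358442974) (nat_lit 152) (nat_lit 182039572171) (nat_lit 25) (nat_lit 5) (nat_lit 26) (nat_lit 5) (nat_lit 27) (nat_lit 4) (nat_lit 420) (nat_lit 379) (nat_lit 221)) (XT.lf (nat_lit 0) (nat_lit 14913982963) (nat_lit 152) (nat_lit 468416098505) (nat_lit 76) (nat_lit 153368884563) (nat_lit 23) (nat_lit 5) (nat_lit 25) (nat_lit 5) (nat_lit 24) (nat_lit 4) (nat_lit 421) (nat_lit 379) (nat_lit 220))))) (XT.nd (nat_lit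 234) (nat_lit 228) (nat_lit 0) (XT.nd (nat_lit 78) (nat_lit 152) (nat_lit 0) (XT.lf (nat_lit 0) (nat_lit 227470112788) (nat_lit 152) (nat_lit 32676211581) (nat_lit 76) (nat_lit 414984319363) (nat_lit 23) (nat_lit 5) (nat_lit 25) (nat_lit 5) (nat_lit 24) (nat_lit 4) (nat_lit 422) (nat_lit 379) (nat_lit 219)) (XT.nd (nat_lit 78) (nat_lit 76) (nat_lit 0) (XT.lf (nat_lit 0) (nat_lit 452402236268) (nat_lit 76) (nat_lit 11691590565) (nat_lit 152) (nat_lit 252189874149) (nat_lit 22) (nat_lit 5) (nat_lit 23) (nat_lit 5) (nat_lit 24) (nat_lit 4) (nat_lit 423) (nat_lit 379) (nat_lit 218)) (XT.lf (nat_lit 0) (nat_lit 219770800186) (nat_lit 76) (nat_lit 507893100422) (nat_lit 76) (nat_lit 32664279096) (nat_lit 21) (nat_lit 4) (nat_lit 22) (nat_lit 5) (nat_lit 22) (nat_lit 4) (nat_lit 424) (nat_lit 379) (nat_lit 217)))) (XT.nd (nat_lit 78) (nat_lit 152) (nat_lit 0) (XT.lf (nat_lit 0) (nat_lit 202749518242)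 (nat_lit 152) (nat_lit 59592444424) (nat_lit 76) (nat_lit 545151224050) (nat_lit 20) (nat_lit 5) (nat_lit 22) (nat_lit 5) (nat_lit 21) (nat_lit 4) (nat_lit 425) (nat_lit 379) (nat_lit 216)) (XT.nd (nat_lit 78) (nat_lit 76) (nat_lit 0) (XT.lf (nat_lit 0) (nat_lit 463450231349) (nat_lit 152) (nat_lit 383723373130) (nat_lit 0) (nat_lit 10851105369) (nat_lit 19) (nat_lit 5) (nat_lit 21) (nat_lit 4) (nat_lit 19) (nat_lit 4) (nat_lit 426) (nat_lit 379) (nat_lit 215)) (XT.lf (nat_lit 0) (nat_lit 140545259623) (nat_lit 76) (nat_lit 612134545820) (nat_lit 76) (nat_lit 159535309207) (nat_lit 18) (nat_lit 4) (nat_lit 19) (nat_lit 5) (nat_lit 19) (nat_lit 4) (nat_lit 427) (nat_lit 379) (nat_lit 214))))))) (XT.nd (nat_lit 50076) (nat_lit 0) (nat_lit 3268) (XT.nd (nat_lit 49608) (nat_lit 0) (nat_lit 6764) (XT.nd (nat_lit 49374) (nat_lit 0) (nat_lit 7144) (XT.nd (nat_lit 78) (nat_lit 76) (nat_lit 0) (XT.lf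 (nat_lit 0) (nat_lit 98082230551) (nat_lit 152) (nat_lit 251530766420) (nat_lit 76) (nat_lit 620714452573) (nat_lit 17) (nat_lit 5) (nat_lit 19) (nat_lit 5) (nat_lit 18) (nat_lit 4) (nat_lit 428) (nat_lit 379) (nat_lit 213)) (XT.nd (nat_lit 78) (nat_lit 0) (nat_lit 0) (XT.lf (nat_lit 0) (nat_lit 317697442542) (nat_lit 76) (nat_lit 58057131332) (nat_lit 152) (nat_lit 656951693698) (nat_lit 16) (nat_lit 5) (nat_lit 17) (nat_lit 5) (nat_lit 18) (nat_lit 4) (nat_lit 429) (nat_lit 379) (nat_lit 212)) (XT.lf (nat_lit 0) (nat_lit 684103639588) (nat_lit 152) (nat_lit 162492128682) (nat_lit 0) (nat_lit 253056476040) (nat_lit 16) (nat_lit 5) (nat_lit 18) (nat_lit 4) (nat_lit 16) (nat_lit 4) (nat_lit 430) (nat_lit 379) (nat_lit 211)))) (XT.nd (nat_lit 78) (nat_lit 0) (nat_lit 76) (XT.lf (nat_lit 0) (nat_lit 9941665847) (nat_lit 836) (nat_lit 17132383906) (nat_lit 836) (nat_lit 17132383906) (nat_lit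 110) (nat_lit 3) (nat_lit 121) (nat_lit 3) (nat_lit 121) (nat_lit 5) (nat_lit 380) (nat_lit 380) (nat_lit 260)) (XT.nd (nat_lit 78) (nat_lit 0) (nat_lit 0) (XT.lf (nat_lit 0) (nat_lit 21453197797) (nat_lit 760) (nat_lit 57122709499) (nat_lit 836) (nat_lit 13334739040) (nat_lit 111) (nat_lit 5) (nat_lit 121) (nat_lit 5) (nat_lit 122) (nat_lit 5) (nat_lit 381) (nat_lit 380) (nat_lit 259)) (XT.lf (nat_lit 76) (nat_lit 14469563866) (nat_lit 0) (nat_lit 10423409048) (nat_lit 836) (nat_lit 70708059676) (nat_lit 112) (nat_lit 5) (nat_lit 111) (nat_lit 5) (nat_lit 122) (nat_lit 5) (nat_lit 382) (nat_lit 380) (nat_lit 258))))) (XT.nd (nat_lit 234) (nat_lit 532) (nat_lit 0) (XT.nd (nat_lit 78) (nat_lit 0) (nat_lit 76) (XT.lf (nat_lit 0) (nat_lit 30604529079) (nat_lit 760) (nat_lit 6711398138) (nat_lit 836) (nat_lit 62170893416) (nat_lit 112) (nat_lit 5) (nat_lit 122) (nat_lit 5) (nat_lit 123) (nat_lit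 5) (nat_lit 383) (nat_lit 380) (nat_lit 257)) (XT.nd (nat_lit 78) (nat_lit 0) (nat_lit 76) (XT.lf (nat_lit 0) (nat_lit 38722811988) (nat_lit 760) (nat_lit 28289822104) (nat_lit 836) (nat_lit 36573348288) (nat_lit 113) (nat_lit 5) (nat_lit 123) (nat_lit 5) (nat_lit 124) (nat_lit 5) (nat_lit 384) (nat_lit 380) (nat_lit 256)) (XT.lf (nat_lit 0) (nat_lit 49259667935) (nat_lit 760) (nat_lit 50759729546) (nat_lit 836) (nat_lit 7905224783) (nat_lit 114) (nat_lit 5) (nat_lit 124) (nat_lit 5) (nat_lit 125) (nat_lit 5) (nat_lit 385) (nat_lit 380) (nat_lit 255)))) (XT.nd (nat_lit 78) (nat_lit 684) (nat_lit 0) (XT.lf (nat_lit 76) (nat_lit 37956514652) (nat_lit 0) (nat_lit 24905430729) (nat_lit 836) (nat_lit 49637284970) (nat_lit 115) (nat_lit 5) (nat_lit 114) (nat_lit 5) (nat_lit 125) (nat_lit 5) (nat_lit 386) (nat_lit 380) (nat_lit 254)) (XT.nd (nat_lit 78) (nat_lit 0) (nat_lit 0) (XT.lf (nat_lit 0)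 (nat_lit 17865882691) (nat_lit 760) (nat_lit 61740973391) (nat_lit 836) (nat_lit 37730229068) (nat_lit 105) (nat_lit 5) (nat_lit 115) (nat_lit 5) (nat_lit 116) (nat_lit 5) (nat_lit 387) (nat_lit 380) (nat_lit 253)) (XT.lf (nat_lit 0) (nat_lit 99722122336) (nat_lit 836) (nat_lit 2901908062) (nat_lit 76) (nat_lit 19836400367) (nat_lit 105) (nat_lit 5) (nat_lit 116) (nat_lit 5) (nat_lit 106) (nat_lit 5) (nat_lit 388) (nat_lit 380) (nat_lit 252)))))) (XT.nd (nat_lit 468) (nat_lit 1520) (nat_lit 0) (XT.nd (nat_lit 234) (nat_lit 836) (nat_lit 0) (XT.nd (nat_lit 78) (nat_lit 760) (nat_lit 0) (XT.lf (nat_lit 0) (nat_lit 103669174461) (nat_lit 380) (nat_lit 20436287992) (nat_lit 456) (nat_lit 3755239475) (nat_lit 100) (nat_lit 5) (nat_lit 105) (nat_lit 5) (nat_lit 106) (nat_lit 5) (nat_lit 389) (nat_lit 380) (nat_lit 251)) (XT.nd (nat_lit 78) (nat_lit 380) (nat_lit 0) (XT.lf (nat_lit 0) (nat_lit 18725078904)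 (nat_lit 380) (nat_lit 46979479022) (nat_lit 76) (nat_lit 67849634570) (nat_lit 95) (nat_lit 5) (nat_lit 100) (nat_lit 5) (nat_lit 96) (nat_lit 5) (nat_lit 390) (nat_lit 380) (nat_lit 250)) (XT.lf (nat_lit 0) (nat_lit 45108186464) (nat_lit 456) (nat_lit 70806467621) (nat_lit 76) (nat_lit 23673634139) (nat_lit 90) (nat_lit 5) (nat_lit 96) (nat_lit 5) (nat_lit 91) (nat_lit 5) (nat_lit 391) (nat_lit 380) (nat_lit 249)))) (XT.nd (nat_lit 78) (nat_lit 532) (nat_lit 0) (XT.lf (nat_lit 0) (nat_lit 49892254990) (nat_lit 304) (nat_lit 26427650844) (nat_lit 380) (nat_lit 69649308014) (nat_lit 86) (nat_lit 5) (nat_lit 90) (nat_lit 5) (nat_lit 91) (nat_lit 5) (nat_lit 392) (nat_lit 380) (nat_lit 248)) (XT.nd (nat_lit 78) (nat_lit 228) (nat_lit 0) (XT.lf (nat_lit 0) (nat_lit 29813353066) (nat_lit 304) (nat_lit 83029982055) (nat_lit 380) (nat_lit 39876540153) (nat_lit 82) (nat_lit 5) (nat_lit 86) (nat_lit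 5) (nat_lit 87) (nat_lit 5) (nat_lit 393) (nat_lit 380) (nat_lit 247)) (XT.lf (nat_lit 0) (nat_lit 8900599695) (nat_lit 228) (nat_lit 145862402054) (nat_lit 304) (nat_lit 5123870055) (nat_lit 79) (nat_lit 5) (nat_lit 82) (nat_lit 5) (nat_lit 83) (nat_lit 5) (nat_lit 394) (nat_lit 380) (nat_lit 246))))) (XT.nd (nat_lit 234) (nat_lit 912) (nat_lit 0) (XT.nd (nat_lit 78) (nat_lit 532) (nat_lit 0) (XT.lf (nat_lit 0) (nat_lit 34947241490) (nat_lit 304) (nat_lit 13820793841) (nat_lit 76) (nat_lit 118655117318) (nat_lit 78) (nat_lit 5) (nat_lit 82) (nat_lit 5) (nat_lit 79) (nat_lit 5) (nat_lit 395) (nat_lit 380) (nat_lit 245)) (XT.nd (nat_lit 78) (nat_lit 228) (nat_lit 0) (XT.lf (nat_lit 0) (nat_lit 81124102683) (nat_lit 380) (nat_lit 37693350609) (nat_lit 76) (nat_lit 56586704246) (nat_lit 74) (nat_lit 5) (nat_lit 79) (nat_lit 5) (nat_lit 75) (nat_lit 5) (nat_lit 396) (nat_lit 380) (nat_lit 244))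 (XT.lf (nat_lit 0) (nat_lit 120889142660) (nat_lit 228) (nat_lit 13059902964) (nat_lit 304) (nat_lit 49926900811) (nat_lit 71) (nat_lit 5) (nat_lit 74) (nat_lit 5) (nat_lit 75) (nat_lit 5) (nat_lit 397) (nat_lit 380) (nat_lit 243)))) (XT.nd (nat_lit 156) (nat_lit 380) (nat_lit 0) (XT.nd (nat_lit 78) (nat_lit 228) (nat_lit 0) (XT.lf (nat_lit 0) (nat_lit 1944056578) (nat_lit 304) (nat_lit 90673160729) (nat_lit 76) (nat_lit 100214606418) (nat_lit 67) (nat_lit 5) (nat_lit 71) (nat_lit 5) (nat_lit 68) (nat_lit 5) (nat_lit 398) (nat_lit 380) (nat_lit 242)) (XT.lf (nat_lit 0) (nat_lit 59210938668) (nat_lit 304) (nat_lit 120835719287) (nat_lit 76) (nat_lit 22266817590) (nat_lit 64) (nat_lit 5) (nat_lit 68) (nat_lit 5) (nat_lit 65) (nat_lit 5) (nat_lit 399) (nat_lit 380) (nat_lit 241))) (XT.nd (nat_lit 78) (nat_lit 152) (nat_lit 0) (XT.lf (nat_lit 0) (nat_lit 58446394607) (nat_lit 228) (nat_lit 66691909053)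 (nat_lit 304) (nat_lit 87211399430) (nat_lit 61) (nat_lit 5) (nat_lit 64) (nat_lit 5) (nat_lit 65) (nat_lit 5) (nat_lit 400) (nat_lit 380) (nat_lit 240)) (XT.lf (nat_lit 0) (nat_lit 33468443199) (nat_lit 152) (nat_lit 166403041595) (nat_lit 228) (nat_lit 23140762879) (nat_lit 59) (nat_lit 5) (nat_lit 61) (nat_lit 5) (nat_lit 62) (nat_lit 5) (nat_lit 401) (nat_lit 380) (nat_lit 239))))))))
noncomputable def xc107 : XT := (XT.nd (nat_lit 1872) (nat_lit 380) (nat_lit 0) (XT.nd (nat_lit 936) (nat_lit 1140) (nat_lit 0) (XT.nd (nat_lit 468) (nat_lit 760) (nat_lit 0) (XT.nd (nat_lit 234) (nat_lit 532) (nat_lit 0) (XT.nd (nat_lit 78) (nat_lit 152) (nat_lit 0) (XT.lf (nat_lit 0) (nat_lit 5210629055) (nat_lit 228) (nat_lit 43301175085) (nat_lit 304) (nat_lit 185783521852) (nat_lit 55) (nat_lit 5) (nat_lit 58) (nat_lit 5) (nat_lit 59) (nat_lit 5) (nat_lit 402) (nat_lit 380) (nat_lit 238)) (XT.nd (nat_lit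 78) (nat_lit 152) (nat_lit 0) (XT.lf (nat_lit 0) (nat_lit 129851818784) (nat_lit 304) (nat_lit 25846592707) (nat_lit 76) (nat_lit 90525372302) (nat_lit 55) (nat_lit 5) (nat_lit 59) (nat_lit 5) (nat_lit 56) (nat_lit 5) (nat_lit 403) (nat_lit 380) (nat_lit 237)) (XT.lf (nat_lit 0) (nat_lit 199298667416) (nat_lit 152) (nat_lit 22241759212) (nat_lit 228) (nat_lit 37374022126) (nat_lit 53) (nat_lit 5) (nat_lit 55) (nat_lit 5) (nat_lit 56) (nat_lit 5) (nat_lit 404) (nat_lit 380) (nat_lit 236)))) (XT.nd (nat_lit 78) (nat_lit 304) (nat_lit 0) (XT.lf (nat_lit 0) (nat_lit 51576643689) (nat_lit 228) (nat_lit 98744780661) (nat_lit 76) (nat_lit 122003146506) (nat_lit 50) (nat_lit 5) (nat_lit 53) (nat_lit 5) (nat_lit 51) (nat_lit 5) (nat_lit 405) (nat_lit 380) (nat_lit 235)) (XT.nd (nat_lit 78) (nat_lit 152) (nat_lit 0) (XT.lf (nat_lit 0) (nat_lit 144403306585) (nat_lit 152) (nat_lit 5632898409) (nat_lit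 228) (nat_lit 136555551105) (nat_lit 48) (nat_lit 5) (nat_lit 50) (nat_lit 5) (nat_lit 51) (nat_lit 5) (nat_lit 406) (nat_lit 380) (nat_lit 234)) (XT.lf (nat_lit 0) (nat_lit 109747178255) (nat_lit 152) (nat_lit 152438534012) (nat_lit 228) (nat_lit 39523944944) (nat_lit 46) (nat_lit 5) (nat_lit 48) (nat_lit 5) (nat_lit 49) (nat_lit 5) (nat_lit 407) (nat_lit 380) (nat_lit 233))))) (XT.nd (nat_lit 234) (nat_lit 380) (nat_lit 0) (XT.nd (nat_lit 78) (nat_lit 152) (nat_lit 0) (XT.lf (nat_lit 0) (nat_lit 66937553054) (nat_lit 228) (nat_lit 247760531191) (nat_lit 76) (nat_lit 3100132879) (nat_lit 43) (nat_lit 5) (nat_lit 46) (nat_lit 5) (nat_lit 44) (nat_lit 5) (nat_lit 408) (nat_lit 380) (nat_lit 232)) (XT.nd (nat_lit 78) (nat_lit 0) (nat_lit 0) (XT.lf (nat_lit 0) (nat_lit 22266628661) (nat_lit 152) (nat_lit 164599551382) (nat_lit 228) (nat_lit 147958538412) (nat_lit 41) (nat_lit 5) (nat_lit 43)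 (nat_lit 5) (nat_lit 44) (nat_lit 5) (nat_lit 409) (nat_lit 380) (nat_lit 231)) (XT.lf (nat_lit 0) (nat_lit 320736470075) (nat_lit 228) (nat_lit 30286454678) (nat_lit 76) (nat_lit 1973046573) (nat_lit 41) (nat_lit 5) (nat_lit 44) (nat_lit 5) (nat_lit 42) (nat_lit 4) (nat_lit 410) (nat_lit 380) (nat_lit 230)))) (XT.nd (nat_lit 78) (nat_lit 228) (nat_lit 0) (XT.lf (nat_lit 0) (nat_lit 97004898258) (nat_lit 152) (nat_lit 93049927055) (nat_lit 76) (nat_lit 182129923741) (nat_lit 39) (nat_lit 5) (nat_lit 41) (nat_lit 5) (nat_lit 40) (nat_lit 5) (nat_lit 411) (nat_lit 380) (nat_lit 229)) (XT.nd (nat_lit 78) (nat_lit 76) (nat_lit 0) (XT.lf (nat_lit 0) (nat_lit 228261828938) (nat_lit 152) (nat_lit 11333288063) (nat_lit 228) (nat_lit 153081325695) (nat_lit 37) (nat_lit 5) (nat_lit 39) (nat_lit 5) (nat_lit 40) (nat_lit 5) (nat_lit 412) (nat_lit 380) (nat_lit 228)) (XT.lf (nat_lit 0) (nat_lit 166335007956)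 (nat_lit 76) (nat_lit 234338325893) (nat_lit 152) (nat_lit 13780099009) (nat_lit 36) (nat_lit 5) (nat_lit 37) (nat_lit 5) (nat_lit 38) (nat_lit 4) (nat_lit 413) (nat_lit 380) (nat_lit 227)))))) (XT.nd (nat_lit 468) (nat_lit 380) (nat_lit 0) (XT.nd (nat_lit 234) (nat_lit 380) (nat_lit 0) (XT.nd (nat_lit 78) (nat_lit 152) (nat_lit 0) (XT.lf (nat_lit 0) (nat_lit 92164035389) (nat_lit 152) (nat_lit 44667799964) (nat_lit 228) (nat_lit 300807023061) (nat_lit 33) (nat_lit 5) (nat_lit 35) (nat_lit 5) (nat_lit 36) (nat_lit 5) (nat_lit 414) (nat_lit 380) (nat_lit 226)) (XT.nd (nat_lit 78) (nat_lit 76) (nat_lit 0) (XT.lf (nat_lit 0) (nat_lit 3369734519) (nat_lit 76) (nat_lit 302592758725) (nat_lit 152) (nat_lit 156357701839) (nat_lit 32) (nat_lit 5) (nat_lit 33) (nat_lit 5) (nat_lit 34) (nat_lit 4) (nat_lit 415) (nat_lit 380) (nat_lit 225)) (XT.lf (nat_lit 0) (nat_lit 6528409001) (nat_lit 152) (nat_lit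 97063224097) (nat_lit 76) (nat_lit 385041202565) (nat_lit 31) (nat_lit 5) (nat_lit 33) (nat_lit 5) (nat_lit 32) (nat_lit 5) (nat_lit 416) (nat_lit 380) (nat_lit 224)))) (XT.nd (nat_lit 78) (nat_lit 228) (nat_lit 0) (XT.lf (nat_lit 0) (nat_lit 183594569493) (nat_lit 228) (nat_lit 217777764660) (nat_lit 76) (nat_lit 115218632675) (nat_lit 29) (nat_lit 5) (nat_lit 32) (nat_lit 5) (nat_lit 30) (nat_lit 4) (nat_lit 417) (nat_lit 380) (nat_lit 223)) (XT.nd (nat_lit 78) (nat_lit 152) (nat_lit 0) (XT.lf (nat_lit 0) (nat_lit 187346048802) (nat_lit 76) (nat_lit 193870014528) (nat_lit 152) (nat_lit 165250183167) (nat_lit 28) (nat_lit 5) (nat_lit 29) (nat_lit 5) (nat_lit 30) (nat_lit 4) (nat_lit 418) (nat_lit 380) (nat_lit 222)) (XT.lf (nat_lit 0) (nat_lit 20683192676) (nat_lit 152) (nat_lit 523453846912) (nat_lit 76) (nat_lit 34318241166) (nat_lit 26) (nat_lit 5) (nat_lit 28) (nat_lit 5) (nat_lit 27)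 (nat_lit 4) (nat_lit 419) (nat_lit 380) (nat_lit 221))))) (XT.nd (nat_lit 234) (nat_lit 152) (nat_lit 0) (XT.nd (nat_lit 78) (nat_lit 228) (nat_lit 0) (XT.lf (nat_lit 0) (nat_lit 225406089503) (nat_lit 152) (nat_lit 103772111651) (nat_lit 76) (nat_lit 283204565040) (nat_lit 26) (nat_lit 5) (nat_lit 28) (nat_lit 5) (nat_lit 27) (nat_lit 4) (nat_lit 420) (nat_lit 380) (nat_lit 220)) (XT.nd (nat_lit 78) (nat_lit 152) (nat_lit 0) (XT.lf (nat_lit 0) (nat_lit 361039357839) (nat_lit 76) (nat_lit 91104125649) (nat_lit 152) (nat_lit 196599133737) (nat_lit 25) (nat_lit 5) (nat_lit 26) (nat_lit 5) (nat_lit 27) (nat_lit 4) (nat_lit 421) (nat_lit 380) (nat_lit 219)) (XT.lf (nat_lit 0) (nat_lit 16110475417) (nat_lit 152) (nat_lit 505883008778) (nat_lit 76) (nat_lit 165641229953) (nat_lit 23) (nat_lit 5) (nat_lit 25) (nat_lit 5) (nat_lit 24) (nat_lit 4) (nat_lit 422) (nat_lit 380) (nat_lit 218)))) (XT.nd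 (nat_lit 78) (nat_lit 152) (nat_lit 0) (XT.lf (nat_lit 0) (nat_lit 245670845716) (nat_lit 152) (nat_lit 35284403315) (nat_lit 76) (nat_lit 448185689564) (nat_lit 23) (nat_lit 5) (nat_lit 25) (nat_lit 5) (nat_lit 24) (nat_lit 4) (nat_lit 423) (nat_lit 380) (nat_lit 217)) (XT.nd (nat_lit 78) (nat_lit 76) (nat_lit 0) (XT.lf (nat_lit 0) (nat_lit 488600063729) (nat_lit 76) (nat_lit 12624249945) (nat_lit 152) (nat_lit 272361933945) (nat_lit 22) (nat_lit 5) (nat_lit 23) (nat_lit 5) (nat_lit 24) (nat_lit 4) (nat_lit 424) (nat_lit 380) (nat_lit 216)) (XT.lf (nat_lit 0) (nat_lit 237357970385) (nat_lit 76) (nat_lit 548521926708) (nat_lit 76) (nat_lit 35274392389) (nat_lit 21) (nat_lit 4) (nat_lit 22) (nat_lit 5) (nat_lit 22) (nat_lit 4) (nat_lit 425) (nat_lit 380) (nat_lit 215))))))) (XT.nd (nat_lit 50154) (nat_lit 0) (nat_lit 3648) (XT.nd (nat_lit 49686) (nat_lit 0) (nat_lit 7220) (XT.nd (nat_lit 234)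 (nat_lit 152) (nat_lit 0) (XT.nd (nat_lit 78) (nat_lit 152) (nat_lit 0) (XT.lf (nat_lit 0) (nat_lit 218972194596) (nat_lit 152) (nat_lit 64354651560) (nat_lit 76) (nat_lit 588765659420) (nat_lit 20) (nat_lit 5) (nat_lit 22) (nat_lit 5) (nat_lit 21) (nat_lit 4) (nat_lit 426) (nat_lit 380) (nat_lit 214)) (XT.nd (nat_lit 78) (nat_lit 76) (nat_lit 0) (XT.lf (nat_lit 0) (nat_lit 500528878162) (nat_lit 152) (nat_lit 414416187201) (nat_lit 0) (nat_lit 11721489549) (nat_lit 19) (nat_lit 5) (nat_lit 21) (nat_lit 4) (nat_lit 19) (nat_lit 4) (nat_lit 427) (nat_lit 380) (nat_lit 213)) (XT.lf (nat_lit 0) (nat_lit 151793716454) (nat_lit 76) (nat_lit 661102982545) (nat_lit 76) (nat_lit 172295499082) (nat_lit 18) (nat_lit 4) (nat_lit 19) (nat_lit 5) (nat_lit 19) (nat_lit 4) (nat_lit 428) (nat_lit 380) (nat_lit 212)))) (XT.nd (nat_lit 78) (nat_lit 76) (nat_lit 0) (XT.lf (nat_lit 0) (nat_lit 105931170597)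 (nat_lit 152) (nat_lit 271648671563) (nat_lit 76) (nat_lit 670373685017) (nat_lit 17) (nat_lit 5) (nat_lit 19) (nat_lit 5) (nat_lit 18) (nat_lit 4) (nat_lit 429) (nat_lit 380) (nat_lit 211)) (XT.nd (nat_lit 49296) (nat_lit 0) (nat_lit 7144) (XT.lf (nat_lit 0) (nat_lit 343117596111) (nat_lit 76) (nat_lit 62699598385) (nat_lit 152) (nat_lit 709505461514) (nat_lit 16) (nat_lit 5) (nat_lit 17) (nat_lit 5) (nat_lit 18) (nat_lit 4) (nat_lit 430) (nat_lit 380) (nat_lit 210)) (XT.lf (nat_lit 0) (nat_lit 10749484802) (nat_lit 836) (nat_lit 18496415224) (nat_lit 836) (nat_lit 18496415224) (nat_lit 110) (nat_lit 3) (nat_lit 121) (nat_lit 3) (nat_lit 121) (nat_lit 5) (nat_lit 381) (nat_lit 381) (nat_lit 258))))) (XT.nd (nat_lit 234) (nat_lit 0) (nat_lit 152) (XT.nd (nat_lit 78) (nat_lit 0) (nat_lit 0) (XT.lf (nat_lit 0) (nat_lit 23192603051) (nat_lit 760) (nat_lit 61678627259) (nat_lit 836) (nat_lit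 14391093934) (nat_lit 111) (nat_lit 5) (nat_lit 121) (nat_lit 5) (nat_lit 122) (nat_lit 5) (nat_lit 382) (nat_lit 381) (nat_lit 257)) (XT.nd (nat_lit 78) (nat_lit 0) (nat_lit 76) (XT.lf (nat_lit 76) (nat_lit 15640423942) (nat_lit 0) (nat_lit 11265629035) (nat_lit 836) (nat_lit 76341964992) (nat_lit 112) (nat_lit 5) (nat_lit 111) (nat_lit 5) (nat_lit 122) (nat_lit 5) (nat_lit 383) (nat_lit 381) (nat_lit 256)) (XT.lf (nat_lit 0) (nat_lit 33072809836) (nat_lit 760) (nat_lit 7234863212) (nat_lit 836) (nat_lit 67137083316) (nat_lit 112) (nat_lit 5) (nat_lit 122) (nat_lit 5) (nat_lit 123) (nat_lit 5) (nat_lit 384) (nat_lit 381) (nat_lit 255)))) (XT.nd (nat_lit 78) (nat_lit 0) (nat_lit 76) (XT.lf (nat_lit 0) (nat_lit 41839190492) (nat_lit 760) (nat_lit 30539110060) (nat_lit 836) (nat_lit 39493619780) (nat_lit 113) (nat_lit 5) (nat_lit 123) (nat_lit 5) (nat_lit 124) (nat_lit 5) (nat_lit 385) (nat_lit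 381) (nat_lit 254)) (XT.nd (nat_lit 78) (nat_lit 0) (nat_lit 0) (XT.lf (nat_lit 0) (nat_lit 53217764230) (nat_lit 760) (nat_lit 54806268838) (nat_lit 836) (nat_lit 8533680833) (nat_lit 114) (nat_lit 5) (nat_lit 124) (nat_lit 5) (nat_lit 125) (nat_lit 5) (nat_lit 386) (nat_lit 381) (nat_lit 253)) (XT.lf (nat_lit 76) (nat_lit 41006656083) (nat_lit 0) (nat_lit 26900497265) (nat_lit 836) (nat_lit 53591191703) (nat_lit 115) (nat_lit 5) (nat_lit 114) (nat_lit 5) (nat_lit 125) (nat_lit 5) (nat_lit 387) (nat_lit 381) (nat_lit 252)))))) (XT.nd (nat_lit 468) (nat_lit 1672) (nat_lit 0) (XT.nd (nat_lit 234) (nat_lit 1064) (nat_lit 0) (XT.nd (nat_lit 78) (nat_lit 380) (nat_lit 0) (XT.lf (nat_lit 0) (nat_lit 19309008883) (nat_lit 760) (nat_lit 66681622418) (nat_lit 836) (nat_lit 40732649034) (nat_lit 105) (nat_lit 5) (nat_lit 115) (nat_lit 5) (nat_lit 116) (nat_lit 5) (nat_lit 388) (nat_lit 381) (nat_lit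 251)) (XT.nd (nat_lit 78) (nat_lit 380) (nat_lit 0) (XT.lf (nat_lit 0) (nat_lit 107713971128) (nat_lit 836) (nat_lit 3120497178) (nat_lit 76) (nat_lit 21422083442) (nat_lit 105) (nat_lit 5) (nat_lit 116) (nat_lit 5) (nat_lit 106) (nat_lit 5) (nat_lit 389) (nat_lit 381) (nat_lit 250)) (XT.lf (nat_lit 0) (nat_lit 111975682492) (nat_lit 380) (nat_lit 22071455635) (nat_lit 456) (nat_lit 4041749201) (nat_lit 100) (nat_lit 5) (nat_lit 105) (nat_lit 5) (nat_lit 106) (nat_lit 5) (nat_lit 390) (nat_lit 381) (nat_lit 249)))) (XT.nd (nat_lit 78) (nat_lit 684) (nat_lit 0) (XT.lf (nat_lit 0) (nat_lit 20235755400) (nat_lit 380) (nat_lit 50724354839) (nat_lit 76) (nat_lit 73277776369) (nat_lit 95) (nat_lit 5) (nat_lit 100) (nat_lit 5) (nat_lit 96) (nat_lit 5) (nat_lit 391) (nat_lit 381) (nat_lit 248)) (XT.nd (nat_lit 78) (nat_lit 304) (nat_lit 0) (XT.lf (nat_lit 0) (nat_lit 48728789429) (nat_lit 456) (nat_lit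 76457499650) (nat_lit 76) (nat_lit 25568457598) (nat_lit 90) (nat_lit 5) (nat_lit 96) (nat_lit 5) (nat_lit 91) (nat_lit 5) (nat_lit 392) (nat_lit 381) (nat_lit 247)) (XT.lf (nat_lit 0) (nat_lit 53896534712) (nat_lit 304) (nat_lit 28540227991) (nat_lit 380) (nat_lit 75209418364) (nat_lit 86) (nat_lit 5) (nat_lit 90) (nat_lit 5) (nat_lit 91) (nat_lit 5) (nat_lit 393) (nat_lit 381) (nat_lit 246))))) (XT.nd (nat_lit 234) (nat_lit 1064) (nat_lit 0) (XT.nd (nat_lit 78) (nat_lit 304) (nat_lit 0) (XT.lf (nat_lit 0) (nat_lit 32211280750) (nat_lit 304) (nat_lit 89670175588) (nat_lit 380) (nat_lit 43055470061) (nat_lit 82) (nat_lit 5) (nat_lit 86) (nat_lit 5) (nat_lit 87) (nat_lit 5) (nat_lit 394) (nat_lit 381) (nat_lit 245)) (XT.nd (nat_lit 78) (nat_lit 76) (nat_lit 0) (XT.lf (nat_lit 0) (nat_lit 9625430800) (nat_lit 228) (nat_lit 157528707739) (nat_lit 304) (nat_lit 5523172460) (nat_lit 79) (nat_lit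 5) (nat_lit 82) (nat_lit 5) (nat_lit 83) (nat_lit 5) (nat_lit 395) (nat_lit 381) (nat_lit 244)) (XT.lf (nat_lit 0) (nat_lit 37752527942) (nat_lit 304) (nat_lit 14914301727) (nat_lit 76) (nat_lit 128149694793) (nat_lit 78) (nat_lit 5) (nat_lit 82) (nat_lit 5) (nat_lit 79) (nat_lit 5) (nat_lit 396) (nat_lit 381) (nat_lit 243)))) (XT.nd (nat_lit 156) (nat_lit 532) (nat_lit 0) (XT.nd (nat_lit 78) (nat_lit 228) (nat_lit 0) (XT.lf (nat_lit 0) (nat_lit 87623056597) (nat_lit 380) (nat_lit 40696778678) (nat_lit 76) (nat_lit 61116198913) (nat_lit 74) (nat_lit 5) (nat_lit 79) (nat_lit 5) (nat_lit 75) (nat_lit 5) (nat_lit 397) (nat_lit 381) (nat_lit 242)) (XT.lf (nat_lit 0) (nat_lit 130571790809) (nat_lit 228) (nat_lit 14101715402) (nat_lit 304) (nat_lit 53912084769) (nat_lit 71) (nat_lit 5) (nat_lit 74) (nat_lit 5) (nat_lit 75) (nat_lit 5) (nat_lit 398) (nat_lit 381) (nat_lit 241))) (XT.nd (nat_lit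 78) (nat_lit 228) (nat_lit 0) (XT.lf (nat_lit 0) (nat_lit 2107843569) (nat_lit 304) (nat_lit 97915352417) (nat_lit 76) (nat_lit 108234756702) (nat_lit 67) (nat_lit 5) (nat_lit 71) (nat_lit 5) (nat_lit 68) (nat_lit 5) (nat_lit 399) (nat_lit 381) (nat_lit 240)) (XT.lf (nat_lit 0) (nat_lit 63955690331) (nat_lit 304) (nat_lit 130491079670) (nat_lit 76) (nat_lit 24051386231) (nat_lit 64) (nat_lit 5) (nat_lit 68) (nat_lit 5) (nat_lit 65) (nat_lit 5) (nat_lit 400) (nat_lit 381) (nat_lit 239))))))))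
noncomputable def xc108 : XT := (XT.nd (nat_lit 1872) (nat_lit 380) (nat_lit 0) (XT.nd (nat_lit 936) (nat_lit 1216) (nat_lit 0) (XT.nd (nat_lit 468) (nat_lit 836) (nat_lit 0) (XT.nd (nat_lit 234) (nat_lit 380) (nat_lit 0) (XT.nd (nat_lit 78) (nat_lit 456) (nat_lit 0) (XT.lf (nat_lit 0) (nat_lit 63133103684) (nat_lit 228) (nat_lit 72023729091) (nat_lit 304) (nat_lit 94180470053) (nat_lit 61) (nat_lit 5) (nat_lit 64) (nat_lit 5) (nat_lit 65) (nat_lit 5) (nat_lit 401) (nat_lit 381) (nat_lit 238)) (XT.nd (nat_lit 78) (nat_lit 304) (nat_lit 0) (XT.lf (nat_lit 0) (nat_lit 36156745613) (nat_lit 152) (nat_lit 179711589945) (nat_lit 228) (nat_lit 24984532303) (nat_lit 59) (nat_lit 5) (nat_lit 61) (nat_lit 5) (nat_lit 62) (nat_lit 5) (nat_lit 402) (nat_lit 381) (nat_lit 237)) (XT.lf (nat_lit 0) (nat_lit 5638067926) (nat_lit 228) (nat_lit 46761560517) (nat_lit 304) (nat_lit 200638976961) (nat_lit 55)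 (nat_lit 5) (nat_lit 58) (nat_lit 5) (nat_lit 59) (nat_lit 5) (nat_lit 403) (nat_lit 381) (nat_lit 236)))) (XT.nd (nat_lit 78) (nat_lit 380) (nat_lit 0) (XT.lf (nat_lit 0) (nat_lit 140246388243) (nat_lit 304) (nat_lit 27904248539) (nat_lit 76) (nat_lit 97770726046) (nat_lit 55) (nat_lit 5) (nat_lit 59) (nat_lit 5) (nat_lit 56) (nat_lit 5) (nat_lit 404) (nat_lit 381) (nat_lit 235)) (XT.nd (nat_lit 78) (nat_lit 228) (nat_lit 0) (XT.lf (nat_lit 0) (nat_lit 215252194696) (nat_lit 152) (nat_lit 24017564583) (nat_lit 228) (nat_lit 40357538163) (nat_lit 53) (nat_lit 5) (nat_lit 55) (nat_lit 5) (nat_lit 56) (nat_lit 5) (nat_lit 405) (nat_lit 381) (nat_lit 234)) (XT.lf (nat_lit 0) (nat_lit 55708718588) (nat_lit 228) (nat_lit 106634708307) (nat_lit 76) (nat_lit 131766810442) (nat_lit 50) (nat_lit 5) (nat_lit 53) (nat_lit 5) (nat_lit 51) (nat_lit 5) (nat_lit 406) (nat_lit 381) (nat_lit 233))))) (XT.nd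 (nat_lit 234) (nat_lit 304) (nat_lit 0) (XT.nd (nat_lit 78) (nat_lit 380) (nat_lit 0) (XT.lf (nat_lit 0) (nat_lit 155964806333) (nat_lit 152) (nat_lit 6079942400) (nat_lit 228) (nat_lit 147474063619) (nat_lit 48) (nat_lit 5) (nat_lit 50) (nat_lit 5) (nat_lit 51) (nat_lit 5) (nat_lit 407) (nat_lit 381) (nat_lit 232)) (XT.nd (nat_lit 78) (nat_lit 228) (nat_lit 0) (XT.lf (nat_lit 0) (nat_lit 118536004685) (nat_lit 152) (nat_lit 164629986779) (nat_lit 228) (nat_lit 42680165485) (nat_lit 46) (nat_lit 5) (nat_lit 48) (nat_lit 5) (nat_lit 49) (nat_lit 5) (nat_lit 408) (nat_lit 381) (nat_lit 231)) (XT.lf (nat_lit 0) (nat_lit 72297855743) (nat_lit 228) (nat_lit 267572331426) (nat_lit 76) (nat_lit 3351620878) (nat_lit 43) (nat_lit 5) (nat_lit 46) (nat_lit 5) (nat_lit 44) (nat_lit 5) (nat_lit 409) (nat_lit 381) (nat_lit 230)))) (XT.nd (nat_lit 78) (nat_lit 152) (nat_lit 0) (XT.lf (nat_lit 0) (nat_lit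 24056608249) (nat_lit 152) (nat_lit 177763907204) (nat_lit 228) (nat_lit 159789927015) (nat_lit 41) (nat_lit 5) (nat_lit 43) (nat_lit 5) (nat_lit 44) (nat_lit 5) (nat_lit 410) (nat_lit 381) (nat_lit 229)) (XT.nd (nat_lit 78) (nat_lit 152) (nat_lit 0) (XT.lf (nat_lit 0) (nat_lit 346400107443) (nat_lit 228) (nat_lit 32701179920) (nat_lit 76) (nat_lit 2134124373) (nat_lit 41) (nat_lit 5) (nat_lit 44) (nat_lit 5) (nat_lit 42) (nat_lit 4) (nat_lit 411) (nat_lit 381) (nat_lit 228)) (XT.lf (nat_lit 0) (nat_lit 104769857416) (nat_lit 152) (nat_lit 100485933895) (nat_lit 76) (nat_lit 196703508148) (nat_lit 39) (nat_lit 5) (nat_lit 41) (nat_lit 5) (nat_lit 40) (nat_lit 5) (nat_lit 412) (nat_lit 381) (nat_lit 227)))))) (XT.nd (nat_lit 468) (nat_lit 456) (nat_lit 0) (XT.nd (nat_lit 234) (nat_lit 304) (nat_lit 0) (XT.nd (nat_lit 78) (nat_lit 304) (nat_lit 0) (XT.lf (nat_lit 0) (nat_lit 246530415458) (nat_lit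 152) (nat_lit 12236659168) (nat_lit 228) (nat_lit 165323265005) (nat_lit 37) (nat_lit 5) (nat_lit 39) (nat_lit 5) (nat_lit 40) (nat_lit 5) (nat_lit 413) (nat_lit 381) (nat_lit 226)) (XT.nd (nat_lit 78) (nat_lit 228) (nat_lit 0) (XT.lf (nat_lit 0) (nat_lit 179649276587) (nat_lit 76) (nat_lit 253082114327) (nat_lit 152) (nat_lit 14878106066) (nat_lit 36) (nat_lit 5) (nat_lit 37) (nat_lit 5) (nat_lit 38) (nat_lit 4) (nat_lit 414) (nat_lit 381) (nat_lit 225)) (XT.lf (nat_lit 0) (nat_lit 99544437298) (nat_lit 152) (nat_lit 48238002981) (nat_lit 228) (nat_lit 324867323031) (nat_lit 33) (nat_lit 5) (nat_lit 35) (nat_lit 5) (nat_lit 36) (nat_lit 5) (nat_lit 415) (nat_lit 381) (nat_lit 224)))) (XT.nd (nat_lit 78) (nat_lit 228) (nat_lit 0) (XT.lf (nat_lit 0) (nat_lit 3646422837) (nat_lit 76) (nat_lit 326796984929) (nat_lit 152) (nat_lit 168862206363) (nat_lit 32) (nat_lit 5) (nat_lit 33) (nat_lit 5)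 (nat_lit 34) (nat_lit 4) (nat_lit 416) (nat_lit 381) (nat_lit 223)) (XT.nd (nat_lit 78) (nat_lit 152) (nat_lit 0) (XT.lf (nat_lit 0) (nat_lit 7054366930) (nat_lit 152) (nat_lit 104821576541) (nat_lit 76) (nat_lit 415847334074) (nat_lit 31) (nat_lit 5) (nat_lit 33) (nat_lit 5) (nat_lit 32) (nat_lit 5) (nat_lit 417) (nat_lit 381) (nat_lit 222)) (XT.lf (nat_lit 0) (nat_lit 198285692728) (nat_lit 228) (nat_lit 235193440787) (nat_lit 76) (nat_lit 124438932116) (nat_lit 29) (nat_lit 5) (nat_lit 32) (nat_lit 5) (nat_lit 30) (nat_lit 4) (nat_lit 418) (nat_lit 381) (nat_lit 221))))) (XT.nd (nat_lit 234) (nat_lit 228) (nat_lit 0) (XT.nd (nat_lit 78) (nat_lit 152) (nat_lit 0) (XT.lf (nat_lit 0) (nat_lit 202339993313) (nat_lit 76) (nat_lit 209376746974) (nat_lit 152) (nat_lit 178466635726) (nat_lit 28) (nat_lit 5) (nat_lit 29) (nat_lit 5) (nat_lit 30) (nat_lit 4) (nat_lit 419) (nat_lit 381) (nat_lit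 220)) (XT.nd (nat_lit 78) (nat_lit 0) (nat_lit 0) (XT.lf (nat_lit 0) (nat_lit 22341179846) (nat_lit 152) (nat_lit 565323935471) (nat_lit 76) (nat_lit 37066420772) (nat_lit 26) (nat_lit 5) (nat_lit 28) (nat_lit 5) (nat_lit 27) (nat_lit 4) (nat_lit 420) (nat_lit 381) (nat_lit 219)) (XT.lf (nat_lit 0) (nat_lit 243441661622) (nat_lit 152) (nat_lit 112068122070) (nat_lit 76) (nat_lit 305863449051) (nat_lit 26) (nat_lit 5) (nat_lit 28) (nat_lit 5) (nat_lit 27) (nat_lit 4) (nat_lit 421) (nat_lit 381) (nat_lit 218)))) (XT.nd (nat_lit 78) (nat_lit 152) (nat_lit 0) (XT.lf (nat_lit 0) (nat_lit 389928014722) (nat_lit 76) (nat_lit 98389889889) (nat_lit 152) (nat_lit 212323974410) (nat_lit 25) (nat_lit 5) (nat_lit 26) (nat_lit 5) (nat_lit 27) (nat_lit 4) (nat_lit 422) (nat_lit 381) (nat_lit 217)) (XT.nd (nat_lit 78) (nat_lit 0) (nat_lit 0) (XT.lf (nat_lit 0) (nat_lit 17402205955) (nat_lit 152) (nat_lit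 546348181710) (nat_lit 76) (nat_lit 178894958583) (nat_lit 23) (nat_lit 5) (nat_lit 25) (nat_lit 5) (nat_lit 24) (nat_lit 4) (nat_lit 423) (nat_lit 381) (nat_lit 216)) (XT.lf (nat_lit 0) (nat_lit 265327191618) (nat_lit 152) (nat_lit 38102092830) (nat_lit 76) (nat_lit 484042794946) (nat_lit 23) (nat_lit 5) (nat_lit 25) (nat_lit 5) (nat_lit 24) (nat_lit 4) (nat_lit 424) (nat_lit 381) (nat_lit 215))))))) (XT.nd (nat_lit 50310) (nat_lit 0) (nat_lit 3496) (XT.nd (nat_lit 49842) (nat_lit 0) (nat_lit 7068) (XT.nd (nat_lit 234) (nat_lit 152) (nat_lit 0) (XT.nd (nat_lit 78) (nat_lit 152) (nat_lit 0) (XT.lf (nat_lit 0) (nat_lit 527692911557) (nat_lit 76) (nat_lit 13631902676) (nat_lit 152) (nat_lit 294148205074) (nat_lit 22) (nat_lit 5) (nat_lit 23) (nat_lit 5) (nat_lit 24) (nat_lit 4) (nat_lit 425) (nat_lit 381) (nat_lit 214)) (XT.nd (nat_lit 78) (nat_lit 76) (nat_lit 0) (XT.lf (nat_lit 0) (nat_lit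 256351328682) (nat_lit 76) (nat_lit 592401433118) (nat_lit 76) (nat_lit 38093746871) (nat_lit 21) (nat_lit 4) (nat_lit 22) (nat_lit 5) (nat_lit 22) (nat_lit 4) (nat_lit 426) (nat_lit 381) (nat_lit 213)) (XT.lf (nat_lit 0) (nat_lit 236492297749) (nat_lit 152) (nat_lit 69498575453) (nat_lit 76) (nat_lit 635868916157) (nat_lit 20) (nat_lit 5) (nat_lit 22) (nat_lit 5) (nat_lit 21) (nat_lit 4) (nat_lit 427) (nat_lit 381) (nat_lit 212)))) (XT.nd (nat_lit 78) (nat_lit 76) (nat_lit 0) (XT.lf (nat_lit 0) (nat_lit 540573441764) (nat_lit 152) (nat_lit 447565147662) (nat_lit 0) (nat_lit 12661176949) (nat_lit 19) (nat_lit 5) (nat_lit 21) (nat_lit 4) (nat_lit 19) (nat_lit 4) (nat_lit 428) (nat_lit 381) (nat_lit 211)) (XT.nd (nat_lit 49452) (nat_lit 0) (nat_lit 6992) (XT.lf (nat_lit 0) (nat_lit 163941359913) (nat_lit 76) (nat_lit 713989226173) (nat_lit 76) (nat_lit 186076880039) (nat_lit 18) (nat_lit 4)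 (nat_lit 19) (nat_lit 5) (nat_lit 19) (nat_lit 4) (nat_lit 429) (nat_lit 381) (nat_lit 210)) (XT.lf (nat_lit 0) (nat_lit 11620148050) (nat_lit 836) (nat_lit 19970504819) (nat_lit 836) (nat_lit 19970504819) (nat_lit 110) (nat_lit 3) (nat_lit 121) (nat_lit 3) (nat_lit 121) (nat_lit 5) (nat_lit 382) (nat_lit 382) (nat_lit 256))))) (XT.nd (nat_lit 234) (nat_lit 0) (nat_lit 152) (XT.nd (nat_lit 78) (nat_lit 0) (nat_lit 0) (XT.lf (nat_lit 0) (nat_lit 25067858200) (nat_lit 760) (nat_lit 66601001288) (nat_lit 836) (nat_lit 15533444352) (nat_lit 111) (nat_lit 5) (nat_lit 121) (nat_lit 5) (nat_lit 122) (nat_lit 5) (nat_lit 383) (nat_lit 382) (nat_lit 255)) (XT.nd (nat_lit 78) (nat_lit 0) (nat_lit 76) (XT.lf (nat_lit 76) (nat_lit 16903056148) (nat_lit 0) (nat_lit 12174035791) (nat_lit 836) (nat_lit 82429826771) (nat_lit 112) (nat_lit 5) (nat_lit 111) (nat_lit 5) (nat_lit 122) (nat_lit 5) (nat_lit 384)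 (nat_lit 382) (nat_lit 254)) (XT.lf (nat_lit 0) (nat_lit 35735711466) (nat_lit 760) (nat_lit 7802123825) (nat_lit 836) (nat_lit 72501635739) (nat_lit 112) (nat_lit 5) (nat_lit 122) (nat_lit 5) (nat_lit 123) (nat_lit 5) (nat_lit 385) (nat_lit 382) (nat_lit 253)))) (XT.nd (nat_lit 78) (nat_lit 0) (nat_lit 76) (XT.lf (nat_lit 0) (nat_lit 45202232406) (nat_lit 760) (nat_lit 32970323731) (nat_lit 836) (nat_lit 42648311376) (nat_lit 113) (nat_lit 5) (nat_lit 123) (nat_lit 5) (nat_lit 124) (nat_lit 5) (nat_lit 386) (nat_lit 382) (nat_lit 252)) (XT.nd (nat_lit 78) (nat_lit 0) (nat_lit 0) (XT.lf (nat_lit 0) (nat_lit 57490036929) (nat_lit 760) (nat_lit 59178562636) (nat_lit 836) (nat_lit 9212978581) (nat_lit 114) (nat_lit 5) (nat_lit 124) (nat_lit 5) (nat_lit 125) (nat_lit 5) (nat_lit 387) (nat_lit 382) (nat_lit 251)) (XT.lf (nat_lit 76) (nat_lit 44298865747) (nat_lit 0) (nat_lit 29054793628) (nat_lit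 836) (nat_lit 57863847066) (nat_lit 115) (nat_lit 5) (nat_lit 114) (nat_lit 5) (nat_lit 125) (nat_lit 5) (nat_lit 388) (nat_lit 382) (nat_lit 250)))))) (XT.nd (nat_lit 468) (nat_lit 1672) (nat_lit 0) (XT.nd (nat_lit 234) (nat_lit 1064) (nat_lit 0) (XT.nd (nat_lit 78) (nat_lit 380) (nat_lit 0) (XT.lf (nat_lit 0) (nat_lit 20865608519) (nat_lit 760) (nat_lit 72017327756) (nat_lit 836) (nat_lit 43977544943) (nat_lit 105) (nat_lit 5) (nat_lit 115) (nat_lit 5) (nat_lit 116) (nat_lit 5) (nat_lit 389) (nat_lit 382) (nat_lit 249)) (XT.nd (nat_lit 78) (nat_lit 380) (nat_lit 0) (XT.lf (nat_lit 0) (nat_lit 116343159296) (nat_lit 836) (nat_lit 3358508413) (nat_lit 76) (nat_lit 23134796488) (nat_lit 105) (nat_lit 5) (nat_lit 116) (nat_lit 5) (nat_lit 106) (nat_lit 5) (nat_lit 390) (nat_lit 382) (nat_lit 248)) (XT.lf (nat_lit 0) (nat_lit 120944860269) (nat_lit 380) (nat_lit 23837398941) (nat_lit 456) (nat_lit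 4353164040) (nat_lit 100) (nat_lit 5) (nat_lit 105) (nat_lit 5) (nat_lit 106) (nat_lit 5) (nat_lit 391) (nat_lit 382) (nat_lit 247)))) (XT.nd (nat_lit 78) (nat_lit 684) (nat_lit 0) (XT.lf (nat_lit 0) (nat_lit 21865478473) (nat_lit 380) (nat_lit 54770744151) (nat_lit 76) (nat_lit 79140145112) (nat_lit 95) (nat_lit 5) (nat_lit 100) (nat_lit 5) (nat_lit 96) (nat_lit 5) (nat_lit 392) (nat_lit 382) (nat_lit 246)) (XT.nd (nat_lit 78) (nat_lit 304) (nat_lit 0) (XT.lf (nat_lit 0) (nat_lit 52637336108) (nat_lit 456) (nat_lit 82562538082) (nat_lit 76) (nat_lit 27614733870) (nat_lit 90) (nat_lit 5) (nat_lit 96) (nat_lit 5) (nat_lit 91) (nat_lit 5) (nat_lit 393) (nat_lit 382) (nat_lit 245)) (XT.lf (nat_lit 0) (nat_lit 58219316578) (nat_lit 304) (nat_lit 30822044549) (nat_lit 380) (nat_lit 81216025837) (nat_lit 86) (nat_lit 5) (nat_lit 90) (nat_lit 5) (nat_lit 91) (nat_lit 5) (nat_lit 394) (nat_lit 382)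 (nat_lit 244))))) (XT.nd (nat_lit 234) (nat_lit 1064) (nat_lit 0) (XT.nd (nat_lit 78) (nat_lit 304) (nat_lit 0) (XT.lf (nat_lit 0) (nat_lit 34799208107) (nat_lit 304) (nat_lit 96841899176) (nat_lit 380) (nat_lit 46490311213) (nat_lit 82) (nat_lit 5) (nat_lit 86) (nat_lit 5) (nat_lit 87) (nat_lit 5) (nat_lit 395) (nat_lit 382) (nat_lit 243)) (XT.nd (nat_lit 78) (nat_lit 76) (nat_lit 0) (XT.lf (nat_lit 0) (nat_lit 10406424737) (nat_lit 228) (nat_lit 170128701135) (nat_lit 304) (nat_lit 5955932293) (nat_lit 79) (nat_lit 5) (nat_lit 82) (nat_lit 5) (nat_lit 83) (nat_lit 5) (nat_lit 396) (nat_lit 382) (nat_lit 242)) (XT.lf (nat_lit 0) (nat_lit 40780881011) (nat_lit 304) (nat_lit 16097024379) (nat_lit 76) (nat_lit 138403529165) (nat_lit 78) (nat_lit 5) (nat_lit 82) (nat_lit 5) (nat_lit 79) (nat_lit 5) (nat_lit 397) (nat_lit 382) (nat_lit 241)))) (XT.nd (nat_lit 156) (nat_lit 532) (nat_lit 0) (XT.nd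 (nat_lit 78) (nat_lit 228) (nat_lit 0) (XT.lf (nat_lit 0) (nat_lit 94640639208) (nat_lit 380) (nat_lit 43942198630) (nat_lit 76) (nat_lit 66007688179) (nat_lit 74) (nat_lit 5) (nat_lit 79) (nat_lit 5) (nat_lit 75) (nat_lit 5) (nat_lit 398) (nat_lit 382) (nat_lit 240)) (XT.lf (nat_lit 0) (nat_lit 141027407820) (nat_lit 228) (nat_lit 15227297936) (nat_lit 304) (nat_lit 58217362844) (nat_lit 71) (nat_lit 5) (nat_lit 74) (nat_lit 5) (nat_lit 75) (nat_lit 5) (nat_lit 399) (nat_lit 382) (nat_lit 239))) (XT.nd (nat_lit 78) (nat_lit 228) (nat_lit 0) (XT.lf (nat_lit 0) (nat_lit 2283554787) (nat_lit 304) (nat_lit 105738583037) (nat_lit 76) (nat_lit 116896093625) (nat_lit 67) (nat_lit 5) (nat_lit 71) (nat_lit 5) (nat_lit 68) (nat_lit 5) (nat_lit 400) (nat_lit 382) (nat_lit 238)) (XT.lf (nat_lit 0) (nat_lit 69078898446) (nat_lit 304) (nat_lit 140920509081) (nat_lit 76) (nat_lit 25978260533) (nat_lit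 64) (nat_lit 5) (nat_lit 68) (nat_lit 5) (nat_lit 65) (nat_lit 5) (nat_lit 401) (nat_lit 382) (nat_lit 237))))))))
noncomputable def xc109 : XT := (XT.nd (nat_lit 1872) (nat_lit 304) (nat_lit 0) (XT.nd (nat_lit 936) (nat_lit 1216) (nat_lit 0) (XT.nd (nat_lit 468) (nat_lit 836) (nat_lit 0) (XT.nd (nat_lit 234) (nat_lit 380) (nat_lit 0) (XT.nd (nat_lit 78) (nat_lit 456) (nat_lit 0) (XT.lf (nat_lit 0) (nat_lit 68193180570) (nat_lit 228) (nat_lit 77782598709) (nat_lit 304) (nat_lit 101708184980) (nat_lit 61) (nat_lit 5) (nat_lit 64) (nat_lit 5) (nat_lit 65) (nat_lit 5) (nat_lit 402) (nat_lit 382) (nat_lit 236)) (XT.nd (nat_lit 78) (nat_lit 304) (nat_lit 0) (XT.lf (nat_lit 0) (nat_lit 39058567634) (nat_lit 152) (nat_lit 194085349292) (nat_lit 228) (nat_lit 26976872043) (nat_lit 59) (nat_lit 5) (nat_lit 61) (nat_lit 5) (nat_lit 62) (nat_lit 5) (nat_lit 403) (nat_lit 382) (nat_lit 235)) (XT.lf (nat_lit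 0) (nat_lit 6098191332) (nat_lit 228) (nat_lit 50499305854) (nat_lit 304) (nat_lit 216683899440) (nat_lit 55) (nat_lit 5) (nat_lit 58) (nat_lit 5) (nat_lit 59) (nat_lit 5) (nat_lit 404) (nat_lit 382) (nat_lit 234)))) (XT.nd (nat_lit 78) (nat_lit 380) (nat_lit 0) (XT.lf (nat_lit 0) (nat_lit 151471606810) (nat_lit 304) (nat_lit 30127953661) (nat_lit 76) (nat_lit 105595233890) (nat_lit 55) (nat_lit 5) (nat_lit 59) (nat_lit 5) (nat_lit 56) (nat_lit 5) (nat_lit 405) (nat_lit 382) (nat_lit 233)) (XT.nd (nat_lit 78) (nat_lit 228) (nat_lit 0) (XT.lf (nat_lit 0) (nat_lit 232480629776) (nat_lit 152) (nat_lit 25935938742) (nat_lit 228) (nat_lit 43580649332) (nat_lit 53) (nat_lit 5) (nat_lit 55) (nat_lit 5) (nat_lit 56) (nat_lit 5) (nat_lit 406) (nat_lit 382) (nat_lit 232)) (XT.lf (nat_lit 0) (nat_lit 60170511586) (nat_lit 228) (nat_lit 115157207531) (nat_lit 76) (nat_lit 142311080703) (nat_lit 50) (nat_lit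 5) (nat_lit 53) (nat_lit 5) (nat_lit 51) (nat_lit 5) (nat_lit 407) (nat_lit 382) (nat_lit 231))))) (XT.nd (nat_lit 234) (nat_lit 304) (nat_lit 0) (XT.nd (nat_lit 78) (nat_lit 380) (nat_lit 0) (XT.lf (nat_lit 0) (nat_lit 168449908553) (nat_lit 152) (nat_lit 6563261762) (nat_lit 228) (nat_lit 159266903340) (nat_lit 48) (nat_lit 5) (nat_lit 50) (nat_lit 5) (nat_lit 51) (nat_lit 5) (nat_lit 408) (nat_lit 382) (nat_lit 230)) (XT.nd (nat_lit 78) (nat_lit 228) (nat_lit 0) (XT.lf (nat_lit 0) (nat_lit 128026645836) (nat_lit 152) (nat_lit 177797273621) (nat_lit 228) (nat_lit 46089696131) (nat_lit 46) (nat_lit 5) (nat_lit 48) (nat_lit 5) (nat_lit 49) (nat_lit 5) (nat_lit 409) (nat_lit 382) (nat_lit 229)) (XT.lf (nat_lit 0) (nat_lit 78086226766) (nat_lit 228) (nat_lit 288970365658) (nat_lit 76) (nat_lit 3622731831) (nat_lit 43) (nat_lit 5) (nat_lit 46) (nat_lit 5) (nat_lit 44) (nat_lit 5) (nat_lit 410)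 (nat_lit 382) (nat_lit 228)))) (XT.nd (nat_lit 78) (nat_lit 152) (nat_lit 0) (XT.lf (nat_lit 0) (nat_lit 25988552286) (nat_lit 152) (nat_lit 191981926256) (nat_lit 228) (nat_lit 172568582021) (nat_lit 41) (nat_lit 5) (nat_lit 43) (nat_lit 5) (nat_lit 44) (nat_lit 5) (nat_lit 411) (nat_lit 382) (nat_lit 227)) (XT.nd (nat_lit 78) (nat_lit 152) (nat_lit 0) (XT.lf (nat_lit 0) (nat_lit 374116162473) (nat_lit 228) (nat_lit 35310251738) (nat_lit 76) (nat_lit 2307627021) (nat_lit 41) (nat_lit 5) (nat_lit 44) (nat_lit 5) (nat_lit 42) (nat_lit 4) (nat_lit 412) (nat_lit 382) (nat_lit 226)) (XT.lf (nat_lit 0) (nat_lit 113155361732) (nat_lit 152) (nat_lit 108517960764) (nat_lit 76) (nat_lit 212442524146) (nat_lit 39) (nat_lit 5) (nat_lit 41) (nat_lit 5) (nat_lit 40) (nat_lit 5) (nat_lit 413) (nat_lit 382) (nat_lit 225)))))) (XT.nd (nat_lit 468) (nat_lit 456) (nat_lit 0) (XT.nd (nat_lit 234) (nat_lit 304)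 (nat_lit 0) (XT.nd (nat_lit 78) (nat_lit 304) (nat_lit 0) (XT.lf (nat_lit 0) (nat_lit 266259398939) (nat_lit 152) (nat_lit 13212769593) (nat_lit 228) (nat_lit 178545210957) (nat_lit 37) (nat_lit 5) (nat_lit 39) (nat_lit 5) (nat_lit 40) (nat_lit 5) (nat_lit 414) (nat_lit 382) (nat_lit 224)) (XT.nd (nat_lit 78) (nat_lit 228) (nat_lit 0) (XT.lf (nat_lit 0) (nat_lit 194027621315) (nat_lit 76) (nat_lit 273325873428) (nat_lit 152) (nat_lit 16064581521) (nat_lit 36) (nat_lit 5) (nat_lit 37) (nat_lit 5) (nat_lit 38) (nat_lit 4) (nat_lit 415) (nat_lit 382) (nat_lit 223)) (XT.lf (nat_lit 0) (nat_lit 107514232919) (nat_lit 152) (nat_lit 52094281749) (nat_lit 228) (nat_lit 350853055002) (nat_lit 33) (nat_lit 5) (nat_lit 35) (nat_lit 5) (nat_lit 36) (nat_lit 5) (nat_lit 416) (nat_lit 382) (nat_lit 222)))) (XT.nd (nat_lit 78) (nat_lit 228) (nat_lit 0) (XT.lf (nat_lit 0) (nat_lit 3944231963) (nat_lit 76)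 (nat_lit 352938004960) (nat_lit 152) (nat_lit 182367657819) (nat_lit 32) (nat_lit 5) (nat_lit 33) (nat_lit 5) (nat_lit 34) (nat_lit 4) (nat_lit 417) (nat_lit 382) (nat_lit 221)) (XT.nd (nat_lit 78) (nat_lit 152) (nat_lit 0) (XT.lf (nat_lit 0) (nat_lit 7621875756) (nat_lit 152) (nat_lit 113201553792) (nat_lit 76) (nat_lit 449117551616) (nat_lit 31) (nat_lit 5) (nat_lit 33) (nat_lit 5) (nat_lit 32) (nat_lit 5) (nat_lit 418) (nat_lit 382) (nat_lit 220)) (XT.lf (nat_lit 0) (nat_lit 214151598279) (nat_lit 228) (nat_lit 254003304729) (nat_lit 76) (nat_lit 134396454803) (nat_lit 29) (nat_lit 5) (nat_lit 32) (nat_lit 5) (nat_lit 30) (nat_lit 4) (nat_lit 419) (nat_lit 382) (nat_lit 219))))) (XT.nd (nat_lit 234) (nat_lit 228) (nat_lit 0) (XT.nd (nat_lit 78) (nat_lit 152) (nat_lit 0) (XT.lf (nat_lit 0) (nat_lit 218532560238) (nat_lit 76) (nat_lit 226124427270) (nat_lit 152) (nat_lit 192740912663) (nat_lit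 28) (nat_lit 5) (nat_lit 29) (nat_lit 5) (nat_lit 30) (nat_lit 4) (nat_lit 420) (nat_lit 382) (nat_lit 218)) (XT.nd (nat_lit 78) (nat_lit 0) (nat_lit 0) (XT.lf (nat_lit 0) (nat_lit 24131330678) (nat_lit 152) (nat_lit 610544518352) (nat_lit 76) (nat_lit 40034066663) (nat_lit 26) (nat_lit 5) (nat_lit 28) (nat_lit 5) (nat_lit 27) (nat_lit 4) (nat_lit 421) (nat_lit 382) (nat_lit 217)) (XT.lf (nat_lit 0) (nat_lit 262919639408) (nat_lit 152) (nat_lit 121028634839) (nat_lit 76) (nat_lit 330334684446) (nat_lit 26) (nat_lit 5) (nat_lit 28) (nat_lit 5) (nat_lit 27) (nat_lit 4) (nat_lit 422) (nat_lit 382) (nat_lit 216)))) (XT.nd (nat_lit 78) (nat_lit 152) (nat_lit 0) (XT.lf (nat_lit 0) (nat_lit 421126978341) (nat_lit 76) (nat_lit 106258881309) (nat_lit 152) (nat_lit 229307243162) (nat_lit 25) (nat_lit 5) (nat_lit 26) (nat_lit 5) (nat_lit 27) (nat_lit 4) (nat_lit 423) (nat_lit 382) (nat_lit 215)) (XT.nd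 (nat_lit 78) (nat_lit 0) (nat_lit 0) (XT.lf (nat_lit 0) (nat_lit 18796862287) (nat_lit 152) (nat_lit 590051348514) (nat_lit 76) (nat_lit 193208638804) (nat_lit 23) (nat_lit 5) (nat_lit 25) (nat_lit 5) (nat_lit 24) (nat_lit 4) (nat_lit 424) (nat_lit 382) (nat_lit 214)) (XT.lf (nat_lit 0) (nat_lit 286555663111) (nat_lit 152) (nat_lit 41145919764) (nat_lit 76) (nat_lit 522768147740) (nat_lit 23) (nat_lit 5) (nat_lit 25) (nat_lit 5) (nat_lit 24) (nat_lit 4) (nat_lit 425) (nat_lit 382) (nat_lit 213))))))) (XT.nd (nat_lit 50388) (nat_lit 0) (nat_lit 3192) (XT.nd (nat_lit 49920) (nat_lit 0) (nat_lit 6536) (XT.nd (nat_lit 234) (nat_lit 76) (nat_lit 0) (XT.nd (nat_lit 78) (nat_lit 152) (nat_lit 0) (XT.lf (nat_lit 0) (nat_lit 569912496342) (nat_lit 76) (nat_lit 14720493929) (nat_lit 152) (nat_lit 317677760736) (nat_lit 22) (nat_lit 5) (nat_lit 23) (nat_lit 5) (nat_lit 24) (nat_lit 4) (nat_lit 426)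 (nat_lit 382) (nat_lit 212)) (XT.nd (nat_lit 78) (nat_lit 76) (nat_lit 0) (XT.lf (nat_lit 0) (nat_lit 276863482186) (nat_lit 76) (nat_lit 639791620705) (nat_lit 76) (nat_lit 41139020189) (nat_lit 21) (nat_lit 4) (nat_lit 22) (nat_lit 5) (nat_lit 22) (nat_lit 4) (nat_lit 427) (nat_lit 382) (nat_lit 211)) (XT.lf (nat_lit 0) (nat_lit 255413677099) (nat_lit 152) (nat_lit 75054647847) (nat_lit 76) (nat_lit 686740147541) (nat_lit 20) (nat_lit 5) (nat_lit 22) (nat_lit 5) (nat_lit 21) (nat_lit 4) (nat_lit 428) (nat_lit 382) (nat_lit 210)))) (XT.nd (nat_lit 49530) (nat_lit 0) (nat_lit 6916) (XT.lf (nat_lit 0) (nat_lit 583821248988) (nat_lit 152) (nat_lit 483366643326) (nat_lit 0) (nat_lit 13675758550) (nat_lit 19) (nat_lit 5) (nat_lit 21) (nat_lit 4) (nat_lit 19) (nat_lit 4) (nat_lit 429) (nat_lit 382) (nat_lit 209)) (XT.nd (nat_lit 78) (nat_lit 0) (nat_lit 76) (XT.lf (nat_lit 0) (nat_lit 12558937247)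 (nat_lit 836) (nat_lit 21563323854) (nat_lit 836) (nat_lit 21563323854) (nat_lit 110) (nat_lit 3) (nat_lit 121) (nat_lit 3) (nat_lit 121) (nat_lit 5) (nat_lit 383) (nat_lit 383) (nat_lit 254)) (XT.lf (nat_lit 0) (nat_lit 27090302378) (nat_lit 760) (nat_lit 71918865211) (nat_lit 836) (nat_lit 16768457781) (nat_lit 111) (nat_lit 5) (nat_lit 121) (nat_lit 5) (nat_lit 122) (nat_lit 5) (nat_lit 384) (nat_lit 383) (nat_lit 253))))) (XT.nd (nat_lit 234) (nat_lit 456) (nat_lit 0) (XT.nd (nat_lit 78) (nat_lit 0) (nat_lit 76) (XT.lf (nat_lit 76) (nat_lit 18265072836) (nat_lit 0) (nat_lit 13154094141) (nat_lit 836) (nat_lit 89007498733) (nat_lit 112) (nat_lit 5) (nat_lit 111) (nat_lit 5) (nat_lit 122) (nat_lit 5) (nat_lit 385) (nat_lit 383) (nat_lit 252)) (XT.nd (nat_lit 78) (nat_lit 0) (nat_lit 76) (XT.lf (nat_lit 0) (nat_lit 38609209024) (nat_lit 760) (nat_lit 8416409948) (nat_lit 836) (nat_lit 78296267419)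 (nat_lit 112) (nat_lit 5) (nat_lit 122) (nat_lit 5) (nat_lit 123) (nat_lit 5) (nat_lit 386) (nat_lit 383) (nat_lit 251)) (XT.lf (nat_lit 0) (nat_lit 48832048408) (nat_lit 760) (nat_lit 35597734323) (nat_lit 836) (nat_lit 46056062786) (nat_lit 113) (nat_lit 5) (nat_lit 123) (nat_lit 5) (nat_lit 124) (nat_lit 5) (nat_lit 387) (nat_lit 383) (nat_lit 250)))) (XT.nd (nat_lit 78) (nat_lit 684) (nat_lit 0) (XT.lf (nat_lit 0) (nat_lit 62101972703) (nat_lit 760) (nat_lit 63902381505) (nat_lit 836) (nat_lit 9947104728) (nat_lit 114) (nat_lit 5) (nat_lit 124) (nat_lit 5) (nat_lit 125) (nat_lit 5) (nat_lit 388) (nat_lit 383) (nat_lit 249)) (XT.nd (nat_lit 78) (nat_lit 684) (nat_lit 0) (XT.lf (nat_lit 76) (nat_lit 47852786303) (nat_lit 0) (nat_lit 31381111773) (nat_lit 836) (nat_lit 62480403414) (nat_lit 115) (nat_lit 5) (nat_lit 114) (nat_lit 5) (nat_lit 125) (nat_lit 5) (nat_lit 389) (nat_lit 383) (nat_lit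 248)) (XT.lf (nat_lit 0) (nat_lit 22545041463) (nat_lit 760) (nat_lit 77779721817) (nat_lit 836) (nat_lit 47483989267) (nat_lit 105) (nat_lit 5) (nat_lit 115) (nat_lit 5) (nat_lit 116) (nat_lit 5) (nat_lit 390) (nat_lit 383) (nat_lit 247)))))) (XT.nd (nat_lit 468) (nat_lit 1596) (nat_lit 0) (XT.nd (nat_lit 234) (nat_lit 988) (nat_lit 0) (XT.nd (nat_lit 78) (nat_lit 760) (nat_lit 0) (XT.lf (nat_lit 0) (nat_lit 125660960529) (nat_lit 836) (nat_lit 3617219488) (nat_lit 76) (nat_lit 24984676889) (nat_lit 105) (nat_lit 5) (nat_lit 116) (nat_lit 5) (nat_lit 106) (nat_lit 5) (nat_lit 391) (nat_lit 383) (nat_lit 246)) (XT.nd (nat_lit 78) (nat_lit 380) (nat_lit 0) (XT.lf (nat_lit 0) (nat_lit 130629985422) (nat_lit 380) (nat_lit 25744585348) (nat_lit 456) (nat_lit 4691193315) (nat_lit 100) (nat_lit 5) (nat_lit 105) (nat_lit 5) (nat_lit 106) (nat_lit 5) (nat_lit 392) (nat_lit 383) (nat_lit 245)) (XT.lf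 (nat_lit 0) (nat_lit 23624029714) (nat_lit 380) (nat_lit 59142493639) (nat_lit 76) (nat_lit 85471482436) (nat_lit 95) (nat_lit 5) (nat_lit 100) (nat_lit 5) (nat_lit 96) (nat_lit 5) (nat_lit 393) (nat_lit 383) (nat_lit 244)))) (XT.nd (nat_lit 78) (nat_lit 608) (nat_lit 0) (XT.lf (nat_lit 0) (nat_lit 56857105168) (nat_lit 456) (nat_lit 89157628971) (nat_lit 76) (nat_lit 29824598163) (nat_lit 90) (nat_lit 5) (nat_lit 96) (nat_lit 5) (nat_lit 91) (nat_lit 5) (nat_lit 394) (nat_lit 383) (nat_lit 243)) (XT.nd (nat_lit 78) (nat_lit 304) (nat_lit 0) (XT.lf (nat_lit 0) (nat_lit 62886343292) (nat_lit 304) (nat_lit 33286606397) (nat_lit 380) (nat_lit 87704609347) (nat_lit 86) (nat_lit 5) (nat_lit 90) (nat_lit 5) (nat_lit 91) (nat_lit 5) (nat_lit 395) (nat_lit 383) (nat_lit 242)) (XT.lf (nat_lit 0) (nat_lit 37592596828) (nat_lit 304) (nat_lit 104587630346) (nat_lit 380) (nat_lit 50201308698) (nat_lit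 82) (nat_lit 5) (nat_lit 86) (nat_lit 5) (nat_lit 87) (nat_lit 5) (nat_lit 396) (nat_lit 383) (nat_lit 241))))) (XT.nd (nat_lit 234) (nat_lit 988) (nat_lit 0) (XT.nd (nat_lit 78) (nat_lit 380) (nat_lit 0) (XT.lf (nat_lit 0) (nat_lit 11248334697) (nat_lit 228) (nat_lit 183737022583) (nat_lit 304) (nat_lit 6424610268) (nat_lit 79) (nat_lit 5) (nat_lit 82) (nat_lit 5) (nat_lit 83) (nat_lit 5) (nat_lit 397) (nat_lit 383) (nat_lit 240)) (XT.nd (nat_lit 78) (nat_lit 304) (nat_lit 0) (XT.lf (nat_lit 0) (nat_lit 44050339519) (nat_lit 304) (nat_lit 17375851585) (nat_lit 76) (nat_lit 149477405109) (nat_lit 78) (nat_lit 5) (nat_lit 82) (nat_lit 5) (nat_lit 79) (nat_lit 5) (nat_lit 398) (nat_lit 383) (nat_lit 239)) (XT.lf (nat_lit 0) (nat_lit 102218524503) (nat_lit 380) (nat_lit 47448724776) (nat_lit 76) (nat_lit 71290183680) (nat_lit 74) (nat_lit 5) (nat_lit 79) (nat_lit 5) (nat_lit 75) (nat_lit 5)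 (nat_lit 399) (nat_lit 383) (nat_lit 238)))) (XT.nd (nat_lit 156) (nat_lit 456) (nat_lit 0) (XT.nd (nat_lit 78) (nat_lit 304) (nat_lit 0) (XT.lf (nat_lit 0) (nat_lit 152318065591) (nat_lit 228) (nat_lit 16443291530) (nat_lit 304) (nat_lit 62868160046) (nat_lit 71) (nat_lit 5) (nat_lit 74) (nat_lit 5) (nat_lit 75) (nat_lit 5) (nat_lit 400) (nat_lit 383) (nat_lit 237)) (XT.lf (nat_lit 0) (nat_lit 2472312328) (nat_lit 304) (nat_lit 114189098372) (nat_lit 76) (nat_lit 126249972805) (nat_lit 67) (nat_lit 5) (nat_lit 71) (nat_lit 5) (nat_lit 68) (nat_lit 5) (nat_lit 401) (nat_lit 383) (nat_lit 236))) (XT.nd (nat_lit 78) (nat_lit 228) (nat_lit 0) (XT.lf (nat_lit 0) (nat_lit 74610999835) (nat_lit 304) (nat_lit 152185699051) (nat_lit 76) (nat_lit 28058890548) (nat_lit 64) (nat_lit 5) (nat_lit 68) (nat_lit 5) (nat_lit 65) (nat_lit 5) (nat_lit 402) (nat_lit 383) (nat_lit 235)) (XT.lf (nat_lit 0) (nat_lit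 73656718512) (nat_lit 228) (nat_lit 84002609976) (nat_lit 304) (nat_lit 109839076166) (nat_lit 61) (nat_lit 5) (nat_lit 64) (nat_lit 5) (nat_lit 65) (nat_lit 5) (nat_lit 403) (nat_lit 383) (nat_lit 234))))))))
noncomputable def xc110 : XT := (XT.nd (nat_lit 1872) (nat_lit 152) (nat_lit 0) (XT.nd (nat_lit 936) (nat_lit 1140) (nat_lit 0) (XT.nd (nat_lit 468) (nat_lit 836) (nat_lit 0) (XT.nd (nat_lit 234) (nat_lit 532) (nat_lit 0) (XT.nd (nat_lit 78) (nat_lit 304) (nat_lit 0) (XT.lf (nat_lit 0) (nat_lit 42191211182) (nat_lit 152) (nat_lit 209609461317) (nat_lit 228) (nat_lit 29129515253) (nat_lit 59) (nat_lit 5) (nat_lit 61) (nat_lit 5) (nat_lit 62) (nat_lit 5) (nat_lit 404) (nat_lit 383) (nat_lit 233)) (XT.nd (nat_lit 78) (nat_lit 0) (nat_lit 0) (XT.lf (nat_lit 0) (nat_lit 6593829536) (nat_lit 228) (nat_lit 54536524410) (nat_lit 304) (nat_lit 234013299600) (nat_lit 55) (nat_lit 5) (nat_lit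 58) (nat_lit 5) (nat_lit 59) (nat_lit 5) (nat_lit 405) (nat_lit 383) (nat_lit 232)) (XT.lf (nat_lit 0) (nat_lit 163594057155) (nat_lit 304) (nat_lit 32530787038) (nat_lit 76) (nat_lit 114045295811) (nat_lit 55) (nat_lit 5) (nat_lit 59) (nat_lit 5) (nat_lit 56) (nat_lit 5) (nat_lit 406) (nat_lit 383) (nat_lit 231)))) (XT.nd (nat_lit 78) (nat_lit 380) (nat_lit 0) (XT.lf (nat_lit 0) (nat_lit 251086161352) (nat_lit 152) (nat_lit 28008215242) (nat_lit 228) (nat_lit 47062392873) (nat_lit 53) (nat_lit 5) (nat_lit 55) (nat_lit 5) (nat_lit 56) (nat_lit 5) (nat_lit 407) (nat_lit 383) (nat_lit 230)) (XT.nd (nat_lit 78) (nat_lit 152) (nat_lit 0) (XT.lf (nat_lit 0) (nat_lit 64988521092) (nat_lit 228) (nat_lit 124362687562) (nat_lit 76) (nat_lit 153698475239) (nat_lit 50) (nat_lit 5) (nat_lit 53) (nat_lit 5) (nat_lit 51) (nat_lit 5) (nat_lit 408) (nat_lit 383) (nat_lit 229)) (XT.lf (nat_lit 0) (nat_lit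 181932689400) (nat_lit 152) (nat_lit 7085685503) (nat_lit 228) (nat_lit 172003895723) (nat_lit 48) (nat_lit 5) (nat_lit 50) (nat_lit 5) (nat_lit 51) (nat_lit 5) (nat_lit 409) (nat_lit 383) (nat_lit 228))))) (XT.nd (nat_lit 234) (nat_lit 304) (nat_lit 0) (XT.nd (nat_lit 78) (nat_lit 380) (nat_lit 0) (XT.lf (nat_lit 0) (nat_lit 138275431118) (nat_lit 152) (nat_lit 192018387386) (nat_lit 228) (nat_lit 49772685786) (nat_lit 46) (nat_lit 5) (nat_lit 48) (nat_lit 5) (nat_lit 49) (nat_lit 5) (nat_lit 410) (nat_lit 383) (nat_lit 227)) (XT.nd (nat_lit 78) (nat_lit 152) (nat_lit 0) (XT.lf (nat_lit 0) (nat_lit 84337019423) (nat_lit 228) (nat_lit 312081348579) (nat_lit 76) (nat_lit 3915106347) (nat_lit 43) (nat_lit 5) (nat_lit 46) (nat_lit 5) (nat_lit 44) (nat_lit 5) (nat_lit 411) (nat_lit 383) (nat_lit 226)) (XT.lf (nat_lit 0) (nat_lit 28073993959) (nat_lit 152) (nat_lit 207337828157) (nat_lit 228)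 (nat_lit 186370176989) (nat_lit 41) (nat_lit 5) (nat_lit 43) (nat_lit 5) (nat_lit 44) (nat_lit 5) (nat_lit 412) (nat_lit 383) (nat_lit 225)))) (XT.nd (nat_lit 78) (nat_lit 304) (nat_lit 0) (XT.lf (nat_lit 0) (nat_lit 404048924637) (nat_lit 228) (nat_lit 38129051151) (nat_lit 76) (nat_lit 2494614323) (nat_lit 41) (nat_lit 5) (nat_lit 44) (nat_lit 5) (nat_lit 42) (nat_lit 4) (nat_lit 413) (nat_lit 383) (nat_lit 224)) (XT.nd (nat_lit 78) (nat_lit 152) (nat_lit 0) (XT.lf (nat_lit 0) (nat_lit 122211147771) (nat_lit 152) (nat_lit 117193526703) (nat_lit 76) (nat_lit 229440271196) (nat_lit 39) (nat_lit 5) (nat_lit 41) (nat_lit 5) (nat_lit 40) (nat_lit 5) (nat_lit 414) (nat_lit 383) (nat_lit 223)) (XT.lf (nat_lit 0) (nat_lit 287565766632) (nat_lit 152) (nat_lit 14267371486) (nat_lit 228) (nat_lit 192825471139) (nat_lit 37) (nat_lit 5) (nat_lit 39) (nat_lit 5) (nat_lit 40) (nat_lit 5) (nat_lit 415)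 (nat_lit 383) (nat_lit 222)))))) (XT.nd (nat_lit 468) (nat_lit 456) (nat_lit 0) (XT.nd (nat_lit 234) (nat_lit 304) (nat_lit 0) (XT.nd (nat_lit 78) (nat_lit 304) (nat_lit 0) (XT.lf (nat_lit 0) (nat_lit 209555320219) (nat_lit 76) (nat_lit 295189534141) (nat_lit 152) (nat_lit 17346513277) (nat_lit 36) (nat_lit 5) (nat_lit 37) (nat_lit 5) (nat_lit 38) (nat_lit 4) (nat_lit 416) (nat_lit 383) (nat_lit 221)) (XT.nd (nat_lit 78) (nat_lit 76) (nat_lit 0) (XT.lf (nat_lit 0) (nat_lit 116120721892) (nat_lit 152) (nat_lit 56259456773) (nat_lit 228) (nat_lit 378918166797) (nat_lit 33) (nat_lit 5) (nat_lit 35) (nat_lit 5) (nat_lit 36) (nat_lit 5) (nat_lit 417) (nat_lit 383) (nat_lit 220)) (XT.lf (nat_lit 0) (nat_lit 4264996256) (nat_lit 76) (nat_lit 381170697308) (nat_lit 152) (nat_lit 196954048279) (nat_lit 32) (nat_lit 5) (nat_lit 33) (nat_lit 5) (nat_lit 34) (nat_lit 4) (nat_lit 418) (nat_lit 383) (nat_lit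 219)))) (XT.nd (nat_lit 78) (nat_lit 228) (nat_lit 0) (XT.lf (nat_lit 0) (nat_lit 8234334555) (nat_lit 152) (nat_lit 122252749365) (nat_lit 76) (nat_lit 485049039778) (nat_lit 31) (nat_lit 5) (nat_lit 33) (nat_lit 5) (nat_lit 32) (nat_lit 5) (nat_lit 419) (nat_lit 383) (nat_lit 218)) (XT.nd (nat_lit 78) (nat_lit 76) (nat_lit 0) (XT.lf (nat_lit 0) (nat_lit 231286341139) (nat_lit 228) (nat_lit 274318758303) (nat_lit 76) (nat_lit 145150235759) (nat_lit 29) (nat_lit 5) (nat_lit 32) (nat_lit 5) (nat_lit 30) (nat_lit 4) (nat_lit 420) (nat_lit 383) (nat_lit 217)) (XT.lf (nat_lit 0) (nat_lit 236019766790) (nat_lit 76) (nat_lit 244212272859) (nat_lit 152) (nat_lit 208157567430) (nat_lit 28) (nat_lit 5) (nat_lit 29) (nat_lit 5) (nat_lit 30) (nat_lit 4) (nat_lit 421) (nat_lit 383) (nat_lit 216))))) (XT.nd (nat_lit 234) (nat_lit 228) (nat_lit 0) (XT.nd (nat_lit 78) (nat_lit 76) (nat_lit 0) (XT.lf (nat_lit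 0) (nat_lit 26064286072) (nat_lit 152) (nat_lit 659383508527) (nat_lit 76) (nat_lit 43238791507) (nat_lit 26) (nat_lit 5) (nat_lit 28) (nat_lit 5) (nat_lit 27) (nat_lit 4) (nat_lit 422) (nat_lit 383) (nat_lit 215)) (XT.nd (nat_lit 78) (nat_lit 76) (nat_lit 0) (XT.lf (nat_lit 0) (nat_lit 283955478098) (nat_lit 152) (nat_lit 130706692947) (nat_lit 76) (nat_lit 356763310601) (nat_lit 26) (nat_lit 5) (nat_lit 28) (nat_lit 5) (nat_lit 27) (nat_lit 4) (nat_lit 423) (nat_lit 383) (nat_lit 214)) (XT.lf (nat_lit 0) (nat_lit 454821185340) (nat_lit 76) (nat_lit 114757705866) (nat_lit 152) (nat_lit 247649551354) (nat_lit 25) (nat_lit 5) (nat_lit 26) (nat_lit 5) (nat_lit 27) (nat_lit 4) (nat_lit 424) (nat_lit 383) (nat_lit 213)))) (XT.nd (nat_lit 78) (nat_lit 76) (nat_lit 0) (XT.lf (nat_lit 0) (nat_lit 20302737347) (nat_lit 152) (nat_lit 637251437421) (nat_lit 76) (nat_lit 208667116203) (nat_lit 23) (nat_lit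 5) (nat_lit 25) (nat_lit 5) (nat_lit 24) (nat_lit 4) (nat_lit 425) (nat_lit 383) (nat_lit 212)) (XT.nd (nat_lit 78) (nat_lit 76) (nat_lit 0) (XT.lf (nat_lit 0) (nat_lit 309482084750) (nat_lit 152) (nat_lit 44433872072) (nat_lit 76) (nat_lit 564591253536) (nat_lit 23) (nat_lit 5) (nat_lit 25) (nat_lit 5) (nat_lit 24) (nat_lit 4) (nat_lit 426) (nat_lit 383) (nat_lit 211)) (XT.lf (nat_lit 0) (nat_lit 615509055600) (nat_lit 76) (nat_lit 15896452236) (nat_lit 152) (nat_lit 343090009079) (nat_lit 22) (nat_lit 5) (nat_lit 23) (nat_lit 5) (nat_lit 24) (nat_lit 4) (nat_lit 427) (nat_lit 383) (nat_lit 210))))))) (XT.nd (nat_lit 50466) (nat_lit 0) (nat_lit 2660) (XT.nd (nat_lit 49998) (nat_lit 0) (nat_lit 6080) (XT.nd (nat_lit 49764) (nat_lit 0) (nat_lit 6916) (XT.nd (nat_lit 78) (nat_lit 76) (nat_lit 0) (XT.lf (nat_lit 0) (nat_lit 299016030592) (nat_lit 76) (nat_lit 690973298215) (nat_lit 76) (nat_lit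 44428232998) (nat_lit 21) (nat_lit 4) (nat_lit 22) (nat_lit 5) (nat_lit 22) (nat_lit 4) (nat_lit 428) (nat_lit 383) (nat_lit 209)) (XT.nd (nat_lit 49608) (nat_lit 0) (nat_lit 6840) (XT.lf (nat_lit 0) (nat_lit 275848482111) (nat_lit 152) (nat_lit 81055750091) (nat_lit 76) (nat_lit 741680832332) (nat_lit 20) (nat_lit 5) (nat_lit 22) (nat_lit 5) (nat_lit 21) (nat_lit 4) (nat_lit 429) (nat_lit 383) (nat_lit 208)) (XT.lf (nat_lit 0) (nat_lit 13571520328) (nat_lit 836) (nat_lit 23284256231) (nat_lit 836) (nat_lit 23284256231) (nat_lit 110) (nat_lit 3) (nat_lit 121) (nat_lit 3) (nat_lit 121) (nat_lit 5) (nat_lit 384) (nat_lit 384) (nat_lit 252)))) (XT.nd (nat_lit 78) (nat_lit 0) (nat_lit 0) (XT.lf (nat_lit 0) (nat_lit 29272114635) (nat_lit 760) (nat_lit 77663615701) (nat_lit 836) (nat_lit 18103365371) (nat_lit 111) (nat_lit 5) (nat_lit 121) (nat_lit 5) (nat_lit 122) (nat_lit 5) (nat_lit 385) (nat_lit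 384) (nat_lit 251)) (XT.nd (nat_lit 78) (nat_lit 0) (nat_lit 76) (XT.lf (nat_lit 76) (nat_lit 19734656747) (nat_lit 0) (nat_lit 14211681864) (nat_lit 836) (nat_lit 96113768915) (nat_lit 112) (nat_lit 5) (nat_lit 111) (nat_lit 5) (nat_lit 122) (nat_lit 5) (nat_lit 386) (nat_lit 384) (nat_lit 250)) (XT.lf (nat_lit 0) (nat_lit 41710497736) (nat_lit 760) (nat_lit 9081248994) (nat_lit 836) (nat_lit 84555254153) (nat_lit 112) (nat_lit 5) (nat_lit 122) (nat_lit 5) (nat_lit 123) (nat_lit 5) (nat_lit 387) (nat_lit 384) (nat_lit 249))))) (XT.nd (nat_lit 234) (nat_lit 988) (nat_lit 0) (XT.nd (nat_lit 78) (nat_lit 0) (nat_lit 76) (XT.lf (nat_lit 0) (nat_lit 52750304161) (nat_lit 760) (nat_lit 38436795090) (nat_lit 836) (nat_lit 49737021146) (nat_lit 113) (nat_lit 5) (nat_lit 123) (nat_lit 5) (nat_lit 124) (nat_lit 5) (nat_lit 388) (nat_lit 384) (nat_lit 248)) (XT.nd (nat_lit 78) (nat_lit 0) (nat_lit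 0) (XT.lf (nat_lit 0) (nat_lit 67081046859) (nat_lit 760) (nat_lit 69005598995) (nat_lit 836) (nat_lit 10740376417) (nat_lit 114) (nat_lit 5) (nat_lit 124) (nat_lit 5) (nat_lit 125) (nat_lit 5) (nat_lit 389) (nat_lit 384) (nat_lit 247)) (XT.lf (nat_lit 76) (nat_lit 51689592281) (nat_lit 0) (nat_lit 33893259370) (nat_lit 836) (nat_lit 67468074870) (nat_lit 115) (nat_lit 5) (nat_lit 114) (nat_lit 5) (nat_lit 125) (nat_lit 5) (nat_lit 390) (nat_lit 384) (nat_lit 246)))) (XT.nd (nat_lit 78) (nat_lit 380) (nat_lit 0) (XT.lf (nat_lit 0) (nat_lit 24357376145) (nat_lit 760) (nat_lit 84002963624) (nat_lit 836) (nat_lit 51272626728) (nat_lit 105) (nat_lit 5) (nat_lit 115) (nat_lit 5) (nat_lit 116) (nat_lit 5) (nat_lit 391) (nat_lit 384) (nat_lit 245)) (XT.nd (nat_lit 78) (nat_lit 380) (nat_lit 0) (XT.lf (nat_lit 0) (nat_lit 135722709533) (nat_lit 836) (nat_lit 3898049723) (nat_lit 76) (nat_lit 26982676591)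 (nat_lit 105) (nat_lit 5) (nat_lit 116) (nat_lit 5) (nat_lit 106) (nat_lit 5) (nat_lit 392) (nat_lit 384) (nat_lit 244)) (XT.lf (nat_lit 0) (nat_lit 141088560124) (nat_lit 380) (nat_lit 27804318921) (nat_lit 456) (nat_lit 5057723479) (nat_lit 100) (nat_lit 5) (nat_lit 105) (nat_lit 5) (nat_lit 106) (nat_lit 5) (nat_lit 393) (nat_lit 384) (nat_lit 243)))))) (XT.nd (nat_lit 468) (nat_lit 1748) (nat_lit 0) (XT.nd (nat_lit 234) (nat_lit 608) (nat_lit 0) (XT.nd (nat_lit 78) (nat_lit 684) (nat_lit 0) (XT.lf (nat_lit 0) (nat_lit 25521936456) (nat_lit 380) (nat_lit 63865396865) (nat_lit 76) (nat_lit 92309308811) (nat_lit 95) (nat_lit 5) (nat_lit 100) (nat_lit 5) (nat_lit 96) (nat_lit 5) (nat_lit 394) (nat_lit 384) (nat_lit 242)) (XT.nd (nat_lit 78) (nat_lit 304) (nat_lit 0) (XT.lf (nat_lit 0) (nat_lit 61413202878) (nat_lit 456) (nat_lit 96281741211) (nat_lit 76) (nat_lit 32211153794) (nat_lit 90)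 (nat_lit 5) (nat_lit 96) (nat_lit 5) (nat_lit 91) (nat_lit 5) (nat_lit 395) (nat_lit 384) (nat_lit 241)) (XT.lf (nat_lit 0) (nat_lit 67925379516) (nat_lit 304) (nat_lit 35948504631) (nat_lit 380) (nat_lit 94713520485) (nat_lit 86) (nat_lit 5) (nat_lit 90) (nat_lit 5) (nat_lit 91) (nat_lit 5) (nat_lit 396) (nat_lit 384) (nat_lit 240)))) (XT.nd (nat_lit 78) (nat_lit 304) (nat_lit 0) (XT.lf (nat_lit 0) (nat_lit 40608108202) (nat_lit 304) (nat_lit 112953251230) (nat_lit 380) (nat_lit 54210359714) (nat_lit 82) (nat_lit 5) (nat_lit 86) (nat_lit 5) (nat_lit 87) (nat_lit 5) (nat_lit 397) (nat_lit 384) (nat_lit 239)) (XT.nd (nat_lit 78) (nat_lit 76) (nat_lit 0) (XT.lf (nat_lit 0) (nat_lit 12156257012) (nat_lit 228) (nat_lit 198434291452) (nat_lit 304) (nat_lit 6931894754) (nat_lit 79) (nat_lit 5) (nat_lit 82) (nat_lit 5) (nat_lit 83) (nat_lit 5) (nat_lit 398) (nat_lit 384) (nat_lit 238)) (XT.lf (nat_lit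 0) (nat_lit 47580357786) (nat_lit 304) (nat_lit 18758259608) (nat_lit 76) (nat_lit 161436963782) (nat_lit 78) (nat_lit 5) (nat_lit 82) (nat_lit 5) (nat_lit 79) (nat_lit 5) (nat_lit 399) (nat_lit 384) (nat_lit 237))))) (XT.nd (nat_lit 234) (nat_lit 912) (nat_lit 0) (XT.nd (nat_lit 78) (nat_lit 532) (nat_lit 0) (XT.lf (nat_lit 0) (nat_lit 110401694185) (nat_lit 380) (nat_lit 51237035529) (nat_lit 76) (nat_lit 76995010554) (nat_lit 74) (nat_lit 5) (nat_lit 79) (nat_lit 5) (nat_lit 75) (nat_lit 5) (nat_lit 400) (nat_lit 384) (nat_lit 236)) (XT.nd (nat_lit 78) (nat_lit 304) (nat_lit 0) (XT.lf (nat_lit 0) (nat_lit 164510768336) (nat_lit 228) (nat_lit 17756877073) (nat_lit 304) (nat_lit 67891961420) (nat_lit 71) (nat_lit 5) (nat_lit 74) (nat_lit 5) (nat_lit 75) (nat_lit 5) (nat_lit 401) (nat_lit 384) (nat_lit 235)) (XT.lf (nat_lit 0) (nat_lit 2675304069) (nat_lit 304) (nat_lit 123316877726) (nat_lit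 76) (nat_lit 136351849651) (nat_lit 67) (nat_lit 5) (nat_lit 71) (nat_lit 5) (nat_lit 68) (nat_lit 5) (nat_lit 402) (nat_lit 384) (nat_lit 234)))) (XT.nd (nat_lit 156) (nat_lit 456) (nat_lit 0) (XT.nd (nat_lit 78) (nat_lit 228) (nat_lit 0) (XT.lf (nat_lit 0) (nat_lit 80584843397) (nat_lit 304) (nat_lit 164353309814) (nat_lit 76) (nat_lit 30305632976) (nat_lit 64) (nat_lit 5) (nat_lit 68) (nat_lit 5) (nat_lit 65) (nat_lit 5) (nat_lit 403) (nat_lit 384) (nat_lit 233)) (XT.lf (nat_lit 0) (nat_lit 79556186289) (nat_lit 228) (nat_lit 90720592582) (nat_lit 304) (nat_lit 118621260891) (nat_lit 61) (nat_lit 5) (nat_lit 64) (nat_lit 5) (nat_lit 65) (nat_lit 5) (nat_lit 404) (nat_lit 384) (nat_lit 232))) (XT.nd (nat_lit 78) (nat_lit 304) (nat_lit 0) (XT.lf (nat_lit 0) (nat_lit 45573330897) (nat_lit 152) (nat_lit 226375889760) (nat_lit 228) (nat_lit 31455155491) (nat_lit 59) (nat_lit 5) (nat_lit 61)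 (nat_lit 5) (nat_lit 62) (nat_lit 5) (nat_lit 405) (nat_lit 384) (nat_lit 231)) (XT.lf (nat_lit 0) (nat_lit 7128008479) (nat_lit 228) (nat_lit 58897109332) (nat_lit 304) (nat_lit 252729809559) (nat_lit 55) (nat_lit 5) (nat_lit 58) (nat_lit 5) (nat_lit 59) (nat_lit 5) (nat_lit 406) (nat_lit 384) (nat_lit 230))))))))
noncomputable def xc111 : XT := (XT.nd (nat_lit 51480) (nat_lit 0) (nat_lit 2204) (XT.nd (nat_lit 936) (nat_lit 912) (nat_lit 0) (XT.nd (nat_lit 468) (nat_lit 760) (nat_lit 0) (XT.nd (nat_lit 234) (nat_lit 532) (nat_lit 0) (XT.nd (nat_lit 78) (nat_lit 380) (nat_lit 0) (XT.lf (nat_lit 0) (nat_lit 176685629910) (nat_lit 304) (nat_lit 35126903194) (nat_lit 76) (nat_lit 123171014134) (nat_lit 55) (nat_lit 5) (nat_lit 59) (nat_lit 5) (nat_lit 56) (nat_lit 5) (nat_lit 407) (nat_lit 384) (nat_lit 229)) (XT.nd (nat_lit 78) (nat_lit 228) (nat_lit 0) (XT.lf (nat_lit 0) (nat_lit 271179125243)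 (nat_lit 152) (nat_lit 30246644581) (nat_lit 228) (nat_lit 50823347604) (nat_lit 53) (nat_lit 5) (nat_lit 55) (nat_lit 5) (nat_lit 56) (nat_lit 5) (nat_lit 408) (nat_lit 384) (nat_lit 228)) (XT.lf (nat_lit 0) (nat_lit 70191348132) (nat_lit 228) (nat_lit 134305618401) (nat_lit 76) (nat_lit 165996503533) (nat_lit 50) (nat_lit 5) (nat_lit 53) (nat_lit 5) (nat_lit 51) (nat_lit 5) (nat_lit 409) (nat_lit 384) (nat_lit 227)))) (XT.nd (nat_lit 78) (nat_lit 380) (nat_lit 0) (XT.lf (nat_lit 0) (nat_lit 196493124308) (nat_lit 152) (nat_lit 7650279370) (nat_lit 228) (nat_lit 185760469483) (nat_lit 48) (nat_lit 5) (nat_lit 50) (nat_lit 5) (nat_lit 51) (nat_lit 5) (nat_lit 410) (nat_lit 384) (nat_lit 226)) (XT.nd (nat_lit 78) (nat_lit 228) (nat_lit 0) (XT.lf (nat_lit 0) (nat_lit 149343170010) (nat_lit 152) (nat_lit 207377570890) (nat_lit 228) (nat_lit 53750911798) (nat_lit 46) (nat_lit 5) (nat_lit 48)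 (nat_lit 5) (nat_lit 49) (nat_lit 5) (nat_lit 411) (nat_lit 384) (nat_lit 225)) (XT.lf (nat_lit 0) (nat_lit 91087319896) (nat_lit 228) (nat_lit 337042158307) (nat_lit 76) (nat_lit 4230506187) (nat_lit 43) (nat_lit 5) (nat_lit 46) (nat_lit 5) (nat_lit 44) (nat_lit 5) (nat_lit 412) (nat_lit 384) (nat_lit 224))))) (XT.nd (nat_lit 234) (nat_lit 456) (nat_lit 0) (XT.nd (nat_lit 78) (nat_lit 152) (nat_lit 0) (XT.lf (nat_lit 0) (nat_lit 30325363999) (nat_lit 152) (nat_lit 223922580576) (nat_lit 228) (nat_lit 201276454734) (nat_lit 41) (nat_lit 5) (nat_lit 43) (nat_lit 5) (nat_lit 44) (nat_lit 5) (nat_lit 413) (nat_lit 384) (nat_lit 223)) (XT.nd (nat_lit 78) (nat_lit 152) (nat_lit 0) (XT.lf (nat_lit 0) (nat_lit 436375812859) (nat_lit 228) (nat_lit 41174213440) (nat_lit 76) (nat_lit 2696221485) (nat_lit 41) (nat_lit 5) (nat_lit 44) (nat_lit 5) (nat_lit 42) (nat_lit 4) (nat_lit 414) (nat_lit 384) (nat_lit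 222)) (XT.lf (nat_lit 0) (nat_lit 131990917765) (nat_lit 152) (nat_lit 126563975471) (nat_lit 76) (nat_lit 247797503453) (nat_lit 39) (nat_lit 5) (nat_lit 41) (nat_lit 5) (nat_lit 40) (nat_lit 5) (nat_lit 415) (nat_lit 384) (nat_lit 221)))) (XT.nd (nat_lit 78) (nat_lit 304) (nat_lit 0) (XT.lf (nat_lit 0) (nat_lit 310575842588) (nat_lit 152) (nat_lit 15406686725) (nat_lit 228) (nat_lit 208248631006) (nat_lit 37) (nat_lit 5) (nat_lit 39) (nat_lit 5) (nat_lit 40) (nat_lit 5) (nat_lit 416) (nat_lit 384) (nat_lit 220)) (XT.nd (nat_lit 78) (nat_lit 228) (nat_lit 0) (XT.lf (nat_lit 0) (nat_lit 226324451939) (nat_lit 76) (nat_lit 318802631405) (nat_lit 152) (nat_lit 18731461049) (nat_lit 36) (nat_lit 5) (nat_lit 37) (nat_lit 5) (nat_lit 38) (nat_lit 4) (nat_lit 417) (nat_lit 384) (nat_lit 219)) (XT.lf (nat_lit 0) (nat_lit 125414966698) (nat_lit 152) (nat_lit 60758183551) (nat_lit 228) (nat_lit 409228934436)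 (nat_lit 33) (nat_lit 5) (nat_lit 35) (nat_lit 5) (nat_lit 36) (nat_lit 5) (nat_lit 418) (nat_lit 384) (nat_lit 218)))))) (XT.nd (nat_lit 468) (nat_lit 380) (nat_lit 0) (XT.nd (nat_lit 234) (nat_lit 228) (nat_lit 0) (XT.nd (nat_lit 78) (nat_lit 228) (nat_lit 0) (XT.lf (nat_lit 0) (nat_lit 4610676183) (nat_lit 76) (nat_lit 411662340020) (nat_lit 152) (nat_lit 212707781122) (nat_lit 32) (nat_lit 5) (nat_lit 33) (nat_lit 5) (nat_lit 34) (nat_lit 4) (nat_lit 419) (nat_lit 384) (nat_lit 217)) (XT.nd (nat_lit 78) (nat_lit 152) (nat_lit 0) (XT.lf (nat_lit 0) (nat_lit 8895403626) (nat_lit 152) (nat_lit 132028743722) (nat_lit 76) (nat_lit 523854749682) (nat_lit 31) (nat_lit 5) (nat_lit 33) (nat_lit 5) (nat_lit 32) (nat_lit 5) (nat_lit 420) (nat_lit 384) (nat_lit 216)) (XT.lf (nat_lit 0) (nat_lit 249791490369) (nat_lit 228) (nat_lit 296260134478) (nat_lit 76) (nat_lit 156764024658) (nat_lit 29) (nat_lit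 5) (nat_lit 32) (nat_lit 5) (nat_lit 30) (nat_lit 4) (nat_lit 421) (nat_lit 384) (nat_lit 215)))) (XT.nd (nat_lit 78) (nat_lit 152) (nat_lit 0) (XT.lf (nat_lit 0) (nat_lit 254905293377) (nat_lit 76) (nat_lit 263747446910) (nat_lit 152) (nat_lit 224807928101) (nat_lit 28) (nat_lit 5) (nat_lit 29) (nat_lit 5) (nat_lit 30) (nat_lit 4) (nat_lit 422) (nat_lit 384) (nat_lit 214)) (XT.nd (nat_lit 78) (nat_lit 0) (nat_lit 0) (XT.lf (nat_lit 0) (nat_lit 28151528530) (nat_lit 152) (nat_lit 712130270061) (nat_lit 76) (nat_lit 46699609086) (nat_lit 26) (nat_lit 5) (nat_lit 28) (nat_lit 5) (nat_lit 27) (nat_lit 4) (nat_lit 423) (nat_lit 384) (nat_lit 213)) (XT.lf (nat_lit 0) (nat_lit 306673860393) (nat_lit 152) (nat_lit 141159599542) (nat_lit 76) (nat_lit 385305962725) (nat_lit 26) (nat_lit 5) (nat_lit 28) (nat_lit 5) (nat_lit 27) (nat_lit 4) (nat_lit 424) (nat_lit 384) (nat_lit 212))))) (XT.nd (nat_lit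 234) (nat_lit 152) (nat_lit 0) (XT.nd (nat_lit 78) (nat_lit 152) (nat_lit 0) (XT.lf (nat_lit 0) (nat_lit 491210351302) (nat_lit 76) (nat_lit 123936705438) (nat_lit 152) (nat_lit 267459568221) (nat_lit 25) (nat_lit 5) (nat_lit 26) (nat_lit 5) (nat_lit 27) (nat_lit 4) (nat_lit 425) (nat_lit 384) (nat_lit 211)) (XT.nd (nat_lit 78) (nat_lit 0) (nat_lit 0) (XT.lf (nat_lit 0) (nat_lit 21928779104) (nat_lit 152) (nat_lit 688228106792) (nat_lit 76) (nat_lit 225362016959) (nat_lit 23) (nat_lit 5) (nat_lit 25) (nat_lit 5) (nat_lit 24) (nat_lit 4) (nat_lit 426) (nat_lit 384) (nat_lit 210)) (XT.lf (nat_lit 0) (nat_lit 334242339279) (nat_lit 152) (nat_lit 47985391446) (nat_lit 76) (nat_lit 609759971837) (nat_lit 23) (nat_lit 5) (nat_lit 25) (nat_lit 5) (nat_lit 24) (nat_lit 4) (nat_lit 427) (nat_lit 384) (nat_lit 209)))) (XT.nd (nat_lit 78) (nat_lit 76) (nat_lit 0) (XT.lf (nat_lit 0) (nat_lit 664752831789)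 (nat_lit 76) (nat_lit 17166727050) (nat_lit 152) (nat_lit 370535518690) (nat_lit 22) (nat_lit 5) (nat_lit 23) (nat_lit 5) (nat_lit 24) (nat_lit 4) (nat_lit 428) (nat_lit 384) (nat_lit 208)) (XT.nd (nat_lit 49686) (nat_lit 0) (nat_lit 6764) (XT.lf (nat_lit 0) (nat_lit 322940287859) (nat_lit 76) (nat_lit 746249745624) (nat_lit 76) (nat_lit 47980855145) (nat_lit 21) (nat_lit 4) (nat_lit 22) (nat_lit 5) (nat_lit 22) (nat_lit 4) (nat_lit 429) (nat_lit 384) (nat_lit 207)) (XT.lf (nat_lit 0) (nat_lit 14663987582) (nat_lit 836) (nat_lit 25143452893) (nat_lit 836) (nat_lit 25143452893) (nat_lit 110) (nat_lit 3) (nat_lit 121) (nat_lit 3) (nat_lit 121) (nat_lit 5) (nat_lit 385) (nat_lit 385) (nat_lit 250))))))) (XT.nd (nat_lit 936) (nat_lit 2736) (nat_lit 0) (XT.nd (nat_lit 468) (nat_lit 1900) (nat_lit 0) (XT.nd (nat_lit 234) (nat_lit 0) (nat_lit 152) (XT.nd (nat_lit 78) (nat_lit 0) (nat_lit 0) (XT.lf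 (nat_lit 0) (nat_lit 31626390723) (nat_lit 760) (nat_lit 83869195760) (nat_lit 836) (nat_lit 19546002715) (nat_lit 111) (nat_lit 5) (nat_lit 121) (nat_lit 5) (nat_lit 122) (nat_lit 5) (nat_lit 386) (nat_lit 385) (nat_lit 249)) (XT.nd (nat_lit 78) (nat_lit 0) (nat_lit 76) (XT.lf (nat_lit 76) (nat_lit 21320612143) (nat_lit 0) (nat_lit 15353126180) (nat_lit 836) (nat_lit 103790585007) (nat_lit 112) (nat_lit 5) (nat_lit 111) (nat_lit 5) (nat_lit 122) (nat_lit 5) (nat_lit 387) (nat_lit 385) (nat_lit 248)) (XT.lf (nat_lit 0) (nat_lit 45058098863) (nat_lit 760) (nat_lit 9800484038) (nat_lit 836) (nat_lit 91315632424) (nat_lit 112) (nat_lit 5) (nat_lit 122) (nat_lit 5) (nat_lit 123) (nat_lit 5) (nat_lit 388) (nat_lit 385) (nat_lit 247)))) (XT.nd (nat_lit 78) (nat_lit 0) (nat_lit 76) (XT.lf (nat_lit 0) (nat_lit 56980352397) (nat_lit 760) (nat_lit 41504230141) (nat_lit 836) (nat_lit 53712959292) (nat_lit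 113) (nat_lit 5) (nat_lit 123) (nat_lit 5) (nat_lit 124) (nat_lit 5) (nat_lit 389) (nat_lit 385) (nat_lit 246)) (XT.nd (nat_lit 78) (nat_lit 0) (nat_lit 0) (XT.lf (nat_lit 0) (nat_lit 72456889611) (nat_lit 760) (nat_lit 74518353987) (nat_lit 836) (nat_lit 11597466021) (nat_lit 114) (nat_lit 5) (nat_lit 124) (nat_lit 5) (nat_lit 125) (nat_lit 5) (nat_lit 390) (nat_lit 385) (nat_lit 245)) (XT.lf (nat_lit 76) (nat_lit 55832118265) (nat_lit 0) (nat_lit 36606142149) (nat_lit 836) (nat_lit 72856295194) (nat_lit 115) (nat_lit 5) (nat_lit 114) (nat_lit 5) (nat_lit 125) (nat_lit 5) (nat_lit 391) (nat_lit 385) (nat_lit 244))))) (XT.nd (nat_lit 234) (nat_lit 1064) (nat_lit 0) (XT.nd (nat_lit 78) (nat_lit 380) (nat_lit 0) (XT.lf (nat_lit 0) (nat_lit 26313451974) (nat_lit 760) (nat_lit 90723941506) (nat_lit 836) (nat_lit 55365793451) (nat_lit 105) (nat_lit 5) (nat_lit 115) (nat_lit 5) (nat_lit 116) (nat_lit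 5) (nat_lit 392) (nat_lit 385) (nat_lit 243)) (XT.nd (nat_lit 78) (nat_lit 380) (nat_lit 0) (XT.lf (nat_lit 0) (nat_lit 146588132744) (nat_lit 836) (nat_lit 4202565749) (nat_lit 76) (nat_lit 29140626753) (nat_lit 105) (nat_lit 5) (nat_lit 116) (nat_lit 5) (nat_lit 106) (nat_lit 5) (nat_lit 393) (nat_lit 385) (nat_lit 242)) (XT.lf (nat_lit 0) (nat_lit 152382654422) (nat_lit 380) (nat_lit 30028807392) (nat_lit 456) (nat_lit 5454826523) (nat_lit 100) (nat_lit 5) (nat_lit 105) (nat_lit 5) (nat_lit 106) (nat_lit 5) (nat_lit 394) (nat_lit 385) (nat_lit 241)))) (XT.nd (nat_lit 78) (nat_lit 684) (nat_lit 0) (XT.lf (nat_lit 0) (nat_lit 27570536679) (nat_lit 380) (nat_lit 68967344436) (nat_lit 76) (nat_lit 99694145920) (nat_lit 95) (nat_lit 5) (nat_lit 100) (nat_lit 5) (nat_lit 96) (nat_lit 5) (nat_lit 395) (nat_lit 385) (nat_lit 240)) (XT.nd (nat_lit 78) (nat_lit 304) (nat_lit 0) (XT.lf (nat_lit 0)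 (nat_lit 66332714266) (nat_lit 456) (nat_lit 103976994777) (nat_lit 76) (nat_lit 34788550021) (nat_lit 90) (nat_lit 5) (nat_lit 96) (nat_lit 5) (nat_lit 91) (nat_lit 5) (nat_lit 396) (nat_lit 385) (nat_lit 239)) (XT.lf (nat_lit 0) (nat_lit 73366378980) (nat_lit 304) (nat_lit 38823501705) (nat_lit 380) (nat_lit 102284208425) (nat_lit 86) (nat_lit 5) (nat_lit 90) (nat_lit 5) (nat_lit 91) (nat_lit 5) (nat_lit 397) (nat_lit 385) (nat_lit 238)))))) (XT.nd (nat_lit 468) (nat_lit 1292) (nat_lit 0) (XT.nd (nat_lit 234) (nat_lit 836) (nat_lit 0) (XT.nd (nat_lit 78) (nat_lit 304) (nat_lit 0) (XT.lf (nat_lit 0) (nat_lit 43863704413) (nat_lit 304) (nat_lit 121988320018) (nat_lit 380) (nat_lit 58541141098) (nat_lit 82) (nat_lit 5) (nat_lit 86) (nat_lit 5) (nat_lit 87) (nat_lit 5) (nat_lit 398) (nat_lit 385) (nat_lit 237)) (XT.nd (nat_lit 78) (nat_lit 76) (nat_lit 0) (XT.lf (nat_lit 0) (nat_lit 13135663900)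 (nat_lit 228) (nat_lit 214307583347) (nat_lit 304) (nat_lit 7480715595) (nat_lit 79) (nat_lit 5) (nat_lit 82) (nat_lit 5) (nat_lit 83) (nat_lit 5) (nat_lit 399) (nat_lit 385) (nat_lit 236)) (XT.lf (nat_lit 0) (nat_lit 51391922817) (nat_lit 304) (nat_lit 20252353073) (nat_lit 76) (nat_lit 174353092236) (nat_lit 78) (nat_lit 5) (nat_lit 82) (nat_lit 5) (nat_lit 79) (nat_lit 5) (nat_lit 400) (nat_lit 385) (nat_lit 235)))) (XT.nd (nat_lit 78) (nat_lit 532) (nat_lit 0) (XT.lf (nat_lit 0) (nat_lit 119238706024) (nat_lit 380) (nat_lit 55329493545) (nat_lit 76) (nat_lit 83155993583) (nat_lit 74) (nat_lit 5) (nat_lit 79) (nat_lit 5) (nat_lit 75) (nat_lit 5) (nat_lit 401) (nat_lit 385) (nat_lit 234)) (XT.nd (nat_lit 78) (nat_lit 304) (nat_lit 0) (XT.lf (nat_lit 0) (nat_lit 177677851937) (nat_lit 228) (nat_lit 19175817346) (nat_lit 304) (nat_lit 73318473145) (nat_lit 71) (nat_lit 5) (nat_lit 74) (nat_lit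 5) (nat_lit 75) (nat_lit 5) (nat_lit 402) (nat_lit 385) (nat_lit 233)) (XT.lf (nat_lit 0) (nat_lit 2893792347) (nat_lit 304) (nat_lit 133175927777) (nat_lit 76) (nat_lit 147261608581) (nat_lit 67) (nat_lit 5) (nat_lit 71) (nat_lit 5) (nat_lit 68) (nat_lit 5) (nat_lit 403) (nat_lit 385) (nat_lit 232))))) (XT.nd (nat_lit 234) (nat_lit 684) (nat_lit 0) (XT.nd (nat_lit 78) (nat_lit 380) (nat_lit 0) (XT.lf (nat_lit 0) (nat_lit 87035886334) (nat_lit 304) (nat_lit 177495363041) (nat_lit 76) (nat_lit 32731825027) (nat_lit 64) (nat_lit 5) (nat_lit 68) (nat_lit 5) (nat_lit 65) (nat_lit 5) (nat_lit 404) (nat_lit 385) (nat_lit 231)) (XT.nd (nat_lit 78) (nat_lit 152) (nat_lit 0) (XT.lf (nat_lit 0) (nat_lit 85926622803) (nat_lit 228) (nat_lit 97976331388) (nat_lit 304) (nat_lit 128106725336) (nat_lit 61) (nat_lit 5) (nat_lit 64) (nat_lit 5) (nat_lit 65) (nat_lit 5) (nat_lit 405) (nat_lit 385) (nat_lit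 230)) (XT.lf (nat_lit 0) (nat_lit 49225046837) (nat_lit 152) (nat_lit 244483964659) (nat_lit 228) (nat_lit 33967520449) (nat_lit 59) (nat_lit 5) (nat_lit 61) (nat_lit 5) (nat_lit 62) (nat_lit 5) (nat_lit 406) (nat_lit 385) (nat_lit 229)))) (XT.nd (nat_lit 156) (nat_lit 380) (nat_lit 0) (XT.nd (nat_lit 78) (nat_lit 0) (nat_lit 0) (XT.lf (nat_lit 0) (nat_lit 7703969819) (nat_lit 228) (nat_lit 63606874451) (nat_lit 304) (nat_lit 272944289996) (nat_lit 55) (nat_lit 5) (nat_lit 58) (nat_lit 5) (nat_lit 59) (nat_lit 5) (nat_lit 407) (nat_lit 385) (nat_lit 228)) (XT.lf (nat_lit 0) (nat_lit 190823950967) (nat_lit 304) (nat_lit 37931614085) (nat_lit 76) (nat_lit 133026491097) (nat_lit 55) (nat_lit 5) (nat_lit 59) (nat_lit 5) (nat_lit 56) (nat_lit 5) (nat_lit 408) (nat_lit 385) (nat_lit 227))) (XT.nd (nat_lit 78) (nat_lit 228) (nat_lit 0) (XT.lf (nat_lit 0) (nat_lit 292878660151) (nat_lit 152) (nat_lit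 32664466099) (nat_lit 228) (nat_lit 54885754593) (nat_lit 53) (nat_lit 5) (nat_lit 55) (nat_lit 5) (nat_lit 56) (nat_lit 5) (nat_lit 409) (nat_lit 385) (nat_lit 226)) (XT.lf (nat_lit 0) (nat_lit 75809867019) (nat_lit 228) (nat_lit 145044851681) (nat_lit 76) (nat_lit 179278067330) (nat_lit 50) (nat_lit 5) (nat_lit 53) (nat_lit 5) (nat_lit 51) (nat_lit 5) (nat_lit 410) (nat_lit 385) (nat_lit 225))))))))
noncomputable def xc112 : XT := (XT.nd (nat_lit 51558) (nat_lit 0) (nat_lit 1444) (XT.nd (nat_lit 936) (nat_lit 532) (nat_lit 0) (XT.nd (nat_lit 468) (nat_lit 760) (nat_lit 0) (XT.nd (nat_lit 234) (nat_lit 304) (nat_lit 0) (XT.nd (nat_lit 78) (nat_lit 380) (nat_lit 0) (XT.lf (nat_lit 0) (nat_lit 212217563755) (nat_lit 152) (nat_lit 8260363299) (nat_lit 228) (nat_lit 200618102397) (nat_lit 48) (nat_lit 5) (nat_lit 50) (nat_lit 5) (nat_lit 51) (nat_lit 5) (nat_lit 411) (nat_lit 385) (nat_lit 224))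 (XT.nd (nat_lit 78) (nat_lit 228) (nat_lit 0) (XT.lf (nat_lit 0) (nat_lit 161295514216) (nat_lit 152) (nat_lit 223965815410) (nat_lit 228) (nat_lit 58047907880) (nat_lit 46) (nat_lit 5) (nat_lit 48) (nat_lit 5) (nat_lit 49) (nat_lit 5) (nat_lit 412) (nat_lit 385) (nat_lit 223)) (XT.lf (nat_lit 0) (nat_lit 98377168072) (nat_lit 228) (nat_lit 364000645719) (nat_lit 76) (nat_lit 4570825395) (nat_lit 43) (nat_lit 5) (nat_lit 46) (nat_lit 5) (nat_lit 44) (nat_lit 5) (nat_lit 413) (nat_lit 385) (nat_lit 222)))) (XT.nd (nat_lit 78) (nat_lit 152) (nat_lit 0) (XT.lf (nat_lit 0) (nat_lit 32756066065) (nat_lit 152) (nat_lit 241834437576) (nat_lit 228) (nat_lit 217375710676) (nat_lit 41) (nat_lit 5) (nat_lit 43) (nat_lit 5) (nat_lit 44) (nat_lit 5) (nat_lit 414) (nat_lit 385) (nat_lit 221)) (XT.nd (nat_lit 78) (nat_lit 152) (nat_lit 0) (XT.lf (nat_lit 0) (nat_lit 471288427828) (nat_lit 228) (nat_lit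 44463725102) (nat_lit 76) (nat_lit 2913666473) (nat_lit 41) (nat_lit 5) (nat_lit 44) (nat_lit 5) (nat_lit 42) (nat_lit 4) (nat_lit 415) (nat_lit 385) (nat_lit 220)) (XT.lf (nat_lit 0) (nat_lit 142552658755) (nat_lit 152) (nat_lit 136684778206) (nat_lit 76) (nat_lit 267623027462) (nat_lit 39) (nat_lit 5) (nat_lit 41) (nat_lit 5) (nat_lit 40) (nat_lit 5) (nat_lit 416) (nat_lit 385) (nat_lit 219))))) (XT.nd (nat_lit 234) (nat_lit 304) (nat_lit 0) (XT.nd (nat_lit 78) (nat_lit 304) (nat_lit 0) (XT.lf (nat_lit 0) (nat_lit 335426037760) (nat_lit 152) (nat_lit 16637443130) (nat_lit 228) (nat_lit 224906054216) (nat_lit 37) (nat_lit 5) (nat_lit 39) (nat_lit 5) (nat_lit 40) (nat_lit 5) (nat_lit 417) (nat_lit 385) (nat_lit 218)) (XT.nd (nat_lit 78) (nat_lit 228) (nat_lit 0) (XT.lf (nat_lit 0) (nat_lit 244434442819) (nat_lit 76) (nat_lit 344305071111) (nat_lit 152) (nat_lit 20227600283) (nat_lit 36) (nat_lit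 5) (nat_lit 37) (nat_lit 5) (nat_lit 38) (nat_lit 4) (nat_lit 418) (nat_lit 385) (nat_lit 217)) (XT.lf (nat_lit 0) (nat_lit 135452096693) (nat_lit 152) (nat_lit 65617098040) (nat_lit 228) (nat_lit 441964946632) (nat_lit 33) (nat_lit 5) (nat_lit 35) (nat_lit 5) (nat_lit 36) (nat_lit 5) (nat_lit 419) (nat_lit 385) (nat_lit 216)))) (XT.nd (nat_lit 78) (nat_lit 228) (nat_lit 0) (XT.lf (nat_lit 0) (nat_lit 4983371350) (nat_lit 76) (nat_lit 444593601335) (nat_lit 152) (nat_lit 229722182230) (nat_lit 32) (nat_lit 5) (nat_lit 33) (nat_lit 5) (nat_lit 34) (nat_lit 4) (nat_lit 420) (nat_lit 385) (nat_lit 215)) (XT.nd (nat_lit 78) (nat_lit 152) (nat_lit 0) (XT.lf (nat_lit 0) (nat_lit 9609026919) (nat_lit 152) (nat_lit 142587420455) (nat_lit 76) (nat_lit 565764661483) (nat_lit 31) (nat_lit 5) (nat_lit 33) (nat_lit 5) (nat_lit 32) (nat_lit 5) (nat_lit 421) (nat_lit 385) (nat_lit 214)) (XT.lf (nat_lit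 0) (nat_lit 269776731700) (nat_lit 228) (nat_lit 319957409152) (nat_lit 76) (nat_lit 169306664153) (nat_lit 29) (nat_lit 5) (nat_lit 32) (nat_lit 5) (nat_lit 30) (nat_lit 4) (nat_lit 422) (nat_lit 385) (nat_lit 213)))))) (XT.nd (nat_lit 468) (nat_lit 76) (nat_lit 0) (XT.nd (nat_lit 234) (nat_lit 228) (nat_lit 0) (XT.nd (nat_lit 78) (nat_lit 152) (nat_lit 0) (XT.lf (nat_lit 0) (nat_lit 275301099258) (nat_lit 76) (nat_lit 284845692784) (nat_lit 152) (nat_lit 242790637861) (nat_lit 28) (nat_lit 5) (nat_lit 29) (nat_lit 5) (nat_lit 30) (nat_lit 4) (nat_lit 423) (nat_lit 385) (nat_lit 212)) (XT.nd (nat_lit 78) (nat_lit 0) (nat_lit 0) (XT.lf (nat_lit 0) (nat_lit 30405450856) (nat_lit 152) (nat_lit 769097331629) (nat_lit 76) (nat_lit 50437047513) (nat_lit 26) (nat_lit 5) (nat_lit 28) (nat_lit 5) (nat_lit 27) (nat_lit 4) (nat_lit 424) (nat_lit 385) (nat_lit 211)) (XT.lf (nat_lit 0) (nat_lit 331209435932)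 (nat_lit 152) (nat_lit 152449256360) (nat_lit 76) (nat_lit 416131800577) (nat_lit 26) (nat_lit 5) (nat_lit 28) (nat_lit 5) (nat_lit 27) (nat_lit 4) (nat_lit 425) (nat_lit 385) (nat_lit 210)))) (XT.nd (nat_lit 78) (nat_lit 152) (nat_lit 0) (XT.lf (nat_lit 0) (nat_lit 530510155346) (nat_lit 76) (nat_lit 133850255645) (nat_lit 152) (nat_lit 288854664233) (nat_lit 25) (nat_lit 5) (nat_lit 26) (nat_lit 5) (nat_lit 27) (nat_lit 4) (nat_lit 426) (nat_lit 385) (nat_lit 209)) (XT.nd (nat_lit 78) (nat_lit 0) (nat_lit 0) (XT.lf (nat_lit 0) (nat_lit 23684644162) (nat_lit 152) (nat_lit 743283401269) (nat_lit 76) (nat_lit 243392291295) (nat_lit 23) (nat_lit 5) (nat_lit 25) (nat_lit 5) (nat_lit 24) (nat_lit 4) (nat_lit 427) (nat_lit 385) (nat_lit 208)) (XT.lf (nat_lit 0) (nat_lit 360983173393) (nat_lit 152) (nat_lit 51821487515) (nat_lit 76) (nat_lit 658541985306) (nat_lit 23) (nat_lit 5) (nat_lit 25) (nat_lit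 5) (nat_lit 24) (nat_lit 4) (nat_lit 428) (nat_lit 385) (nat_lit 207))))) (XT.nd (nat_lit 49920) (nat_lit 0) (nat_lit 6764) (XT.nd (nat_lit 49764) (nat_lit 0) (nat_lit 6688) (XT.lf (nat_lit 0) (nat_lit 717935674708) (nat_lit 76) (nat_lit 18538829476) (nat_lit 152) (nat_lit 400176910327) (nat_lit 22) (nat_lit 5) (nat_lit 23) (nat_lit 5) (nat_lit 24) (nat_lit 4) (nat_lit 429) (nat_lit 385) (nat_lit 206)) (XT.nd (nat_lit 78) (nat_lit 0) (nat_lit 76) (XT.lf (nat_lit 0) (nat_lit 15842889878) (nat_lit 836) (nat_lit 27151890856) (nat_lit 836) (nat_lit 27151890856) (nat_lit 110) (nat_lit 3) (nat_lit 121) (nat_lit 3) (nat_lit 121) (nat_lit 5) (nat_lit 386) (nat_lit 386) (nat_lit 248)) (XT.lf (nat_lit 0) (nat_lit 34167224646) (nat_lit 760) (nat_lit 90572293495) (nat_lit 836) (nat_lit 21104854497) (nat_lit 111) (nat_lit 5) (nat_lit 121) (nat_lit 5) (nat_lit 122) (nat_lit 5) (nat_lit 387) (nat_lit 386)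 (nat_lit 247)))) (XT.nd (nat_lit 78) (nat_lit 0) (nat_lit 76) (XT.lf (nat_lit 76) (nat_lit 23032419257) (nat_lit 0) (nat_lit 16585242672) (nat_lit 836) (nat_lit 112083299039) (nat_lit 112) (nat_lit 5) (nat_lit 111) (nat_lit 5) (nat_lit 122) (nat_lit 5) (nat_lit 388) (nat_lit 386) (nat_lit 246)) (XT.nd (nat_lit 78) (nat_lit 0) (nat_lit 76) (XT.lf (nat_lit 0) (nat_lit 48671972860) (nat_lit 760) (nat_lit 10578294301) (nat_lit 836) (nat_lit 98617417602) (nat_lit 112) (nat_lit 5) (nat_lit 122) (nat_lit 5) (nat_lit 123) (nat_lit 5) (nat_lit 389) (nat_lit 386) (nat_lit 245)) (XT.lf (nat_lit 0) (nat_lit 61547374470) (nat_lit 760) (nat_lit 44818131177) (nat_lit 836) (nat_lit 58007403833) (nat_lit 113) (nat_lit 5) (nat_lit 123) (nat_lit 5) (nat_lit 124) (nat_lit 5) (nat_lit 390) (nat_lit 386) (nat_lit 244))))))) (XT.nd (nat_lit 936) (nat_lit 2508) (nat_lit 0) (XT.nd (nat_lit 468) (nat_lit 1596) (nat_lit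 0) (XT.nd (nat_lit 234) (nat_lit 760) (nat_lit 0) (XT.nd (nat_lit 78) (nat_lit 684) (nat_lit 0) (XT.lf (nat_lit 0) (nat_lit 78261464616) (nat_lit 760) (nat_lit 80473226861) (nat_lit 836) (nat_lit 12523428162) (nat_lit 114) (nat_lit 5) (nat_lit 124) (nat_lit 5) (nat_lit 125) (nat_lit 5) (nat_lit 391) (nat_lit 386) (nat_lit 243)) (XT.nd (nat_lit 78) (nat_lit 684) (nat_lit 0) (XT.lf (nat_lit 76) (nat_lit 60304996542) (nat_lit 0) (nat_lit 39535852682) (nat_lit 836) (nat_lit 78676889287) (nat_lit 115) (nat_lit 5) (nat_lit 114) (nat_lit 5) (nat_lit 125) (nat_lit 5) (nat_lit 392) (nat_lit 386) (nat_lit 242)) (XT.lf (nat_lit 0) (nat_lit 28424945945) (nat_lit 760) (nat_lit 97982491937) (nat_lit 836) (nat_lit 59787646591) (nat_lit 105) (nat_lit 5) (nat_lit 115) (nat_lit 5) (nat_lit 116) (nat_lit 5) (nat_lit 393) (nat_lit 386) (nat_lit 241)))) (XT.nd (nat_lit 78) (nat_lit 760) (nat_lit 0) (XT.lf (nat_lit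 0) (nat_lit 158321704668) (nat_lit 836) (nat_lit 4532488471) (nat_lit 76) (nat_lit 31471307649) (nat_lit 105) (nat_lit 5) (nat_lit 116) (nat_lit 5) (nat_lit 106) (nat_lit 5) (nat_lit 394) (nat_lit 386) (nat_lit 240)) (XT.nd (nat_lit 78) (nat_lit 380) (nat_lit 0) (XT.lf (nat_lit 0) (nat_lit 164579276282) (nat_lit 380) (nat_lit 32431234546) (nat_lit 456) (nat_lit 5884769887) (nat_lit 100) (nat_lit 5) (nat_lit 105) (nat_lit 5) (nat_lit 106) (nat_lit 5) (nat_lit 395) (nat_lit 386) (nat_lit 239)) (XT.lf (nat_lit 0) (nat_lit 29782048360) (nat_lit 380) (nat_lit 74478486982) (nat_lit 76) (nat_lit 107669756815) (nat_lit 95) (nat_lit 5) (nat_lit 100) (nat_lit 5) (nat_lit 96) (nat_lit 5) (nat_lit 396) (nat_lit 386) (nat_lit 238))))) (XT.nd (nat_lit 234) (nat_lit 608) (nat_lit 0) (XT.nd (nat_lit 78) (nat_lit 608) (nat_lit 0) (XT.lf (nat_lit 0) (nat_lit 71644865665) (nat_lit 456) (nat_lit 112288908018)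 (nat_lit 76) (nat_lit 37572066057) (nat_lit 90) (nat_lit 5) (nat_lit 96) (nat_lit 5) (nat_lit 91) (nat_lit 5) (nat_lit 397) (nat_lit 386) (nat_lit 237)) (XT.nd (nat_lit 78) (nat_lit 304) (nat_lit 0) (XT.lf (nat_lit 0) (nat_lit 79241664181) (nat_lit 304) (nat_lit 41928624556) (nat_lit 380) (nat_lit 110461463533) (nat_lit 86) (nat_lit 5) (nat_lit 90) (nat_lit 5) (nat_lit 91) (nat_lit 5) (nat_lit 398) (nat_lit 386) (nat_lit 236)) (XT.lf (nat_lit 0) (nat_lit 47378757175) (nat_lit 304) (nat_lit 131746364264) (nat_lit 380) (nat_lit 63219247720) (nat_lit 82) (nat_lit 5) (nat_lit 86) (nat_lit 5) (nat_lit 87) (nat_lit 5) (nat_lit 399) (nat_lit 386) (nat_lit 235)))) (XT.nd (nat_lit 78) (nat_lit 380) (nat_lit 0) (XT.lf (nat_lit 0) (nat_lit 14192438075) (nat_lit 228) (nat_lit 231450945655) (nat_lit 304) (nat_lit 8074259657) (nat_lit 79) (nat_lit 5) (nat_lit 82) (nat_lit 5) (nat_lit 83) (nat_lit 5) (nat_lit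 400) (nat_lit 386) (nat_lit 234)) (XT.nd (nat_lit 78) (nat_lit 304) (nat_lit 0) (XT.lf (nat_lit 0) (nat_lit 55507680284) (nat_lit 304) (nat_lit 21866910915) (nat_lit 76) (nat_lit 188302343861) (nat_lit 78) (nat_lit 5) (nat_lit 82) (nat_lit 5) (nat_lit 79) (nat_lit 5) (nat_lit 401) (nat_lit 386) (nat_lit 233)) (XT.lf (nat_lit 0) (nat_lit 128781983151) (nat_lit 380) (nat_lit 59750276188) (nat_lit 76) (nat_lit 89809658070) (nat_lit 74) (nat_lit 5) (nat_lit 79) (nat_lit 5) (nat_lit 75) (nat_lit 5) (nat_lit 402) (nat_lit 386) (nat_lit 232)))))) (XT.nd (nat_lit 468) (nat_lit 1064) (nat_lit 0) (XT.nd (nat_lit 234) (nat_lit 684) (nat_lit 0) (XT.nd (nat_lit 78) (nat_lit 532) (nat_lit 0) (XT.lf (nat_lit 0) (nat_lit 191897414570) (nat_lit 228) (nat_lit 20708502510) (nat_lit 304) (nat_lit 79179797028) (nat_lit 71) (nat_lit 5) (nat_lit 74) (nat_lit 5) (nat_lit 75) (nat_lit 5) (nat_lit 403) (nat_lit 386)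 (nat_lit 231)) (XT.nd (nat_lit 78) (nat_lit 228) (nat_lit 0) (XT.lf (nat_lit 0) (nat_lit 3129122855) (nat_lit 304) (nat_lit 143824600621) (nat_lit 76) (nat_lit 159043918403) (nat_lit 67) (nat_lit 5) (nat_lit 71) (nat_lit 5) (nat_lit 68) (nat_lit 5) (nat_lit 404) (nat_lit 386) (nat_lit 230)) (XT.lf (nat_lit 0) (nat_lit 94002405617) (nat_lit 304) (nat_lit 191689666674) (nat_lit 76) (nat_lit 35351864010) (nat_lit 64) (nat_lit 5) (nat_lit 68) (nat_lit 5) (nat_lit 65) (nat_lit 5) (nat_lit 405) (nat_lit 386) (nat_lit 229)))) (XT.nd (nat_lit 78) (nat_lit 456) (nat_lit 0) (XT.lf (nat_lit 0) (nat_lit 92805846602) (nat_lit 228) (nat_lit 105812801582) (nat_lit 304) (nat_lit 138351631309) (nat_lit 61) (nat_lit 5) (nat_lit 64) (nat_lit 5) (nat_lit 65) (nat_lit 5) (nat_lit 406) (nat_lit 386) (nat_lit 228)) (XT.nd (nat_lit 78) (nat_lit 304) (nat_lit 0) (XT.lf (nat_lit 0) (nat_lit 53168065561) (nat_lit 152)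 (nat_lit 264040970342) (nat_lit 228) (nat_lit 36681452022) (nat_lit 59) (nat_lit 5) (nat_lit 61) (nat_lit 5) (nat_lit 62) (nat_lit 5) (nat_lit 407) (nat_lit 386) (nat_lit 227)) (XT.lf (nat_lit 0) (nat_lit 8325191951) (nat_lit 228) (nat_lit 68693706620) (nat_lit 304) (nat_lit 294776485864) (nat_lit 55) (nat_lit 5) (nat_lit 58) (nat_lit 5) (nat_lit 59) (nat_lit 5) (nat_lit 408) (nat_lit 386) (nat_lit 226))))) (XT.nd (nat_lit 234) (nat_lit 684) (nat_lit 0) (XT.nd (nat_lit 78) (nat_lit 380) (nat_lit 0) (XT.lf (nat_lit 0) (nat_lit 206092842579) (nat_lit 304) (nat_lit 40961478120) (nat_lit 76) (nat_lit 143670150022) (nat_lit 55) (nat_lit 5) (nat_lit 59) (nat_lit 5) (nat_lit 56) (nat_lit 5) (nat_lit 409) (nat_lit 386) (nat_lit 225)) (XT.nd (nat_lit 78) (nat_lit 228) (nat_lit 0) (XT.lf (nat_lit 0) (nat_lit 316313415317) (nat_lit 152) (nat_lit 35275985828) (nat_lit 228) (nat_lit 59273647867) (nat_lit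 53) (nat_lit 5) (nat_lit 55) (nat_lit 5) (nat_lit 56) (nat_lit 5) (nat_lit 410) (nat_lit 386) (nat_lit 224)) (XT.lf (nat_lit 0) (nat_lit 81877409326) (nat_lit 228) (nat_lit 156643967772) (nat_lit 76) (nat_lit 193621893232) (nat_lit 50) (nat_lit 5) (nat_lit 53) (nat_lit 5) (nat_lit 51) (nat_lit 5) (nat_lit 411) (nat_lit 386) (nat_lit 223)))) (XT.nd (nat_lit 156) (nat_lit 380) (nat_lit 0) (XT.nd (nat_lit 78) (nat_lit 152) (nat_lit 0) (XT.lf (nat_lit 0) (nat_lit 229199246550) (nat_lit 152) (nat_lit 8919530479) (nat_lit 228) (nat_lit 216664803122) (nat_lit 48) (nat_lit 5) (nat_lit 50) (nat_lit 5) (nat_lit 51) (nat_lit 5) (nat_lit 412) (nat_lit 386) (nat_lit 222)) (XT.lf (nat_lit 0) (nat_lit 174203348259) (nat_lit 152) (nat_lit 241881399271) (nat_lit 228) (nat_lit 62689102598) (nat_lit 46) (nat_lit 5) (nat_lit 48) (nat_lit 5) (nat_lit 49) (nat_lit 5) (nat_lit 413) (nat_lit 386) (nat_lit 221)))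 (XT.nd (nat_lit 78) (nat_lit 152) (nat_lit 0) (XT.lf (nat_lit 0) (nat_lit 106249795724) (nat_lit 228) (nat_lit 393116509061) (nat_lit 76) (nat_lit 4938102122) (nat_lit 43) (nat_lit 5) (nat_lit 46) (nat_lit 5) (nat_lit 44) (nat_lit 5) (nat_lit 414) (nat_lit 386) (nat_lit 220)) (XT.lf (nat_lit 0) (nat_lit 35380557647) (nat_lit 152) (nat_lit 261179521247) (nat_lit 228) (nat_lit 234763315165) (nat_lit 41) (nat_lit 5) (nat_lit 43) (nat_lit 5) (nat_lit 44) (nat_lit 5) (nat_lit 415) (nat_lit 386) (nat_lit 219))))))))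
noncomputable def xc113 : XT := (XT.nd (nat_lit 51714) (nat_lit 0) (nat_lit 684) (XT.nd (nat_lit 936) (nat_lit 152) (nat_lit 0) (XT.nd (nat_lit 468) (nat_lit 532) (nat_lit 0) (XT.nd (nat_lit 234) (nat_lit 380) (nat_lit 0) (XT.nd (nat_lit 78) (nat_lit 304) (nat_lit 0) (XT.lf (nat_lit 0) (nat_lit 508993688218) (nat_lit 228) (nat_lit 48017029031) (nat_lit 76) (nat_lit 3148257793) (nat_lit 41) (nat_lit 5) (nat_lit 44) (nat_lit 5) (nat_lit 42) (nat_lit 4) (nat_lit 416) (nat_lit 386) (nat_lit 218)) (XT.nd (nat_lit 78) (nat_lit 152) (nat_lit 0) (XT.lf (nat_lit 0) (nat_lit 153958986998) (nat_lit 152) (nat_lit 147615860786) (nat_lit 76) (nat_lit 289034347481) (nat_lit 39) (nat_lit 5) (nat_lit 41) (nat_lit 5) (nat_lit 40) (nat_lit 5) (nat_lit 417) (nat_lit 386) (nat_lit 217)) (XT.lf (nat_lit 0) (nat_lit 362263659673) (nat_lit 152) (nat_lit 17966913775) (nat_lit 228) (nat_lit 242896423266) (nat_lit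 37) (nat_lit 5) (nat_lit 39) (nat_lit 5) (nat_lit 40) (nat_lit 5) (nat_lit 418) (nat_lit 386) (nat_lit 216)))) (XT.nd (nat_lit 78) (nat_lit 304) (nat_lit 0) (XT.lf (nat_lit 0) (nat_lit 263992657371) (nat_lit 76) (nat_lit 371847958620) (nat_lit 152) (nat_lit 21843769855) (nat_lit 36) (nat_lit 5) (nat_lit 37) (nat_lit 5) (nat_lit 38) (nat_lit 4) (nat_lit 419) (nat_lit 386) (nat_lit 215)) (XT.nd (nat_lit 78) (nat_lit 76) (nat_lit 0) (XT.lf (nat_lit 0) (nat_lit 146291636050) (nat_lit 152) (nat_lit 70864973946) (nat_lit 228) (nat_lit 477320168290) (nat_lit 33) (nat_lit 5) (nat_lit 35) (nat_lit 5) (nat_lit 36) (nat_lit 5) (nat_lit 420) (nat_lit 386) (nat_lit 214)) (XT.lf (nat_lit 0) (nat_lit 5385334158) (nat_lit 76) (nat_lit 480159609774) (nat_lit 152) (nat_lit 248098052332) (nat_lit 32) (nat_lit 5) (nat_lit 33) (nat_lit 5) (nat_lit 34) (nat_lit 4) (nat_lit 421) (nat_lit 386) (nat_lit 213)))))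 (XT.nd (nat_lit 234) (nat_lit 228) (nat_lit 0) (XT.nd (nat_lit 78) (nat_lit 228) (nat_lit 0) (XT.lf (nat_lit 0) (nat_lit 10379456037) (nat_lit 152) (nat_lit 153991308155) (nat_lit 76) (nat_lit 611027147695) (nat_lit 31) (nat_lit 5) (nat_lit 33) (nat_lit 5) (nat_lit 32) (nat_lit 5) (nat_lit 422) (nat_lit 386) (nat_lit 212)) (XT.nd (nat_lit 78) (nat_lit 76) (nat_lit 0) (XT.lf (nat_lit 0) (nat_lit 291360518128) (nat_lit 228) (nat_lit 345550970261) (nat_lit 76) (nat_lit 182852498316) (nat_lit 29) (nat_lit 5) (nat_lit 32) (nat_lit 5) (nat_lit 30) (nat_lit 4) (nat_lit 423) (nat_lit 386) (nat_lit 211)) (XT.lf (nat_lit 0) (nat_lit 297328087070) (nat_lit 76) (nat_lit 307632019436) (nat_lit 152) (nat_lit 262212238951) (nat_lit 28) (nat_lit 5) (nat_lit 29) (nat_lit 5) (nat_lit 30) (nat_lit 4) (nat_lit 424) (nat_lit 386) (nat_lit 210)))) (XT.nd (nat_lit 78) (nat_lit 76) (nat_lit 0) (XT.lf (nat_lit 0)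 (nat_lit 32839430173) (nat_lit 152) (nat_lit 830622237469) (nat_lit 76) (nat_lit 54473271345) (nat_lit 26) (nat_lit 5) (nat_lit 28) (nat_lit 5) (nat_lit 27) (nat_lit 4) (nat_lit 425) (nat_lit 386) (nat_lit 209)) (XT.nd (nat_lit 78) (nat_lit 76) (nat_lit 0) (XT.lf (nat_lit 0) (nat_lit 357707619740) (nat_lit 152) (nat_lit 164642529563) (nat_lit 76) (nat_lit 449423511318) (nat_lit 26) (nat_lit 5) (nat_lit 28) (nat_lit 5) (nat_lit 27) (nat_lit 4) (nat_lit 426) (nat_lit 386) (nat_lit 208)) (XT.lf (nat_lit 0) (nat_lit 572953519161) (nat_lit 76) (nat_lit 144557087629) (nat_lit 152) (nat_lit 311961606092) (nat_lit 25) (nat_lit 5) (nat_lit 26) (nat_lit 5) (nat_lit 27) (nat_lit 4) (nat_lit 427) (nat_lit 386) (nat_lit 207)))))) (XT.nd (nat_lit 50310) (nat_lit 0) (nat_lit 5472) (XT.nd (nat_lit 50076) (nat_lit 0) (nat_lit 6688) (XT.nd (nat_lit 49920) (nat_lit 0) (nat_lit 6612) (XT.lf (nat_lit 0) (nat_lit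 25580755484) (nat_lit 152) (nat_lit 802743540735) (nat_lit 76) (nat_lit 262864800268) (nat_lit 23) (nat_lit 5) (nat_lit 25) (nat_lit 5) (nat_lit 24) (nat_lit 4) (nat_lit 428) (nat_lit 386) (nat_lit 206)) (XT.nd (nat_lit 78) (nat_lit 0) (nat_lit 76) (XT.lf (nat_lit 0) (nat_lit 17115279307) (nat_lit 836) (nat_lit 29321437299) (nat_lit 836) (nat_lit 29321437299) (nat_lit 110) (nat_lit 3) (nat_lit 121) (nat_lit 3) (nat_lit 121) (nat_lit 5) (nat_lit 387) (nat_lit 387) (nat_lit 246)) (XT.lf (nat_lit 0) (nat_lit 36909795575) (nat_lit 760) (nat_lit 97812557490) (nat_lit 836) (nat_lit 22789103252) (nat_lit 111) (nat_lit 5) (nat_lit 121) (nat_lit 5) (nat_lit 122) (nat_lit 5) (nat_lit 388) (nat_lit 387) (nat_lit 245)))) (XT.nd (nat_lit 78) (nat_lit 0) (nat_lit 76) (XT.lf (nat_lit 76) (nat_lit 24880292411) (nat_lit 0) (nat_lit 17915376899) (nat_lit 836) (nat_lit 121040932810) (nat_lit 112) (nat_lit 5)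 (nat_lit 111) (nat_lit 5) (nat_lit 122) (nat_lit 5) (nat_lit 389) (nat_lit 387) (nat_lit 244)) (XT.nd (nat_lit 78) (nat_lit 0) (nat_lit 76) (XT.lf (nat_lit 0) (nat_lit 52573640571) (nat_lit 760) (nat_lit 11419217945) (nat_lit 836) (nat_lit 106503839975) (nat_lit 112) (nat_lit 5) (nat_lit 122) (nat_lit 5) (nat_lit 123) (nat_lit 5) (nat_lit 390) (nat_lit 387) (nat_lit 243)) (XT.lf (nat_lit 0) (nat_lit 66478532296) (nat_lit 760) (nat_lit 48398062658) (nat_lit 836) (nat_lit 62645773744) (nat_lit 113) (nat_lit 5) (nat_lit 123) (nat_lit 5) (nat_lit 124) (nat_lit 5) (nat_lit 391) (nat_lit 387) (nat_lit 242))))) (XT.nd (nat_lit 234) (nat_lit 760) (nat_lit 0) (XT.nd (nat_lit 78) (nat_lit 684) (nat_lit 0) (XT.lf (nat_lit 0) (nat_lit 84529260931) (nat_lit 760) (nat_lit 86905430479) (nat_lit 836) (nat_lit 13523729076) (nat_lit 114) (nat_lit 5) (nat_lit 124) (nat_lit 5) (nat_lit 125) (nat_lit 5) (nat_lit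 392) (nat_lit 387) (nat_lit 241)) (XT.nd (nat_lit 78) (nat_lit 684) (nat_lit 0) (XT.lf (nat_lit 76) (nat_lit 65134805057) (nat_lit 0) (nat_lit 42699766131) (nat_lit 836) (nat_lit 84964259290) (nat_lit 115) (nat_lit 5) (nat_lit 114) (nat_lit 5) (nat_lit 125) (nat_lit 5) (nat_lit 393) (nat_lit 387) (nat_lit 240)) (XT.lf (nat_lit 0) (nat_lit 30704443861) (nat_lit 760) (nat_lit 105821635797) (nat_lit 836) (nat_lit 64564305150) (nat_lit 105) (nat_lit 5) (nat_lit 115) (nat_lit 5) (nat_lit 116) (nat_lit 5) (nat_lit 394) (nat_lit 387) (nat_lit 239)))) (XT.nd (nat_lit 78) (nat_lit 760) (nat_lit 0) (XT.lf (nat_lit 0) (nat_lit 170993032008) (nat_lit 836) (nat_lit 4889701285) (nat_lit 76) (nat_lit 33988524227) (nat_lit 105) (nat_lit 5) (nat_lit 116) (nat_lit 5) (nat_lit 106) (nat_lit 5) (nat_lit 395) (nat_lit 387) (nat_lit 238)) (XT.nd (nat_lit 78) (nat_lit 380) (nat_lit 0) (XT.lf (nat_lit 0) (nat_lit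 177750770568) (nat_lit 380) (nat_lit 35025838387) (nat_lit 456) (nat_lit 6350027850) (nat_lit 100) (nat_lit 5) (nat_lit 105) (nat_lit 5) (nat_lit 106) (nat_lit 5) (nat_lit 396) (nat_lit 387) (nat_lit 237)) (XT.lf (nat_lit 0) (nat_lit 32169643733) (nat_lit 380) (nat_lit 80431411853) (nat_lit 76) (nat_lit 116283405280) (nat_lit 95) (nat_lit 5) (nat_lit 100) (nat_lit 5) (nat_lit 96) (nat_lit 5) (nat_lit 397) (nat_lit 387) (nat_lit 236))))))) (XT.nd (nat_lit 936) (nat_lit 1748) (nat_lit 0) (XT.nd (nat_lit 468) (nat_lit 1444) (nat_lit 0) (XT.nd (nat_lit 234) (nat_lit 608) (nat_lit 0) (XT.nd (nat_lit 78) (nat_lit 608) (nat_lit 0) (XT.lf (nat_lit 0) (nat_lit 77381199652) (nat_lit 456) (nat_lit 121266665430) (nat_lit 76) (nat_lit 40578201741) (nat_lit 90) (nat_lit 5) (nat_lit 96) (nat_lit 5) (nat_lit 91) (nat_lit 5) (nat_lit 398) (nat_lit 387) (nat_lit 235)) (XT.nd (nat_lit 78) (nat_lit 304) (nat_lit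 0) (XT.lf (nat_lit 0) (nat_lit 85586119814) (nat_lit 304) (nat_lit 45282265271) (nat_lit 380) (nat_lit 119293681056) (nat_lit 86) (nat_lit 5) (nat_lit 90) (nat_lit 5) (nat_lit 91) (nat_lit 5) (nat_lit 399) (nat_lit 387) (nat_lit 234)) (XT.lf (nat_lit 0) (nat_lit 51174164410) (nat_lit 304) (nat_lit 142285197756) (nat_lit 380) (nat_lit 68272342523) (nat_lit 82) (nat_lit 5) (nat_lit 86) (nat_lit 5) (nat_lit 87) (nat_lit 5) (nat_lit 400) (nat_lit 387) (nat_lit 233)))) (XT.nd (nat_lit 78) (nat_lit 380) (nat_lit 0) (XT.lf (nat_lit 0) (nat_lit 15332909477) (nat_lit 228) (nat_lit 249965954469) (nat_lit 304) (nat_lit 8715988164) (nat_lit 79) (nat_lit 5) (nat_lit 82) (nat_lit 5) (nat_lit 83) (nat_lit 5) (nat_lit 401) (nat_lit 387) (nat_lit 232)) (XT.nd (nat_lit 78) (nat_lit 304) (nat_lit 0) (XT.lf (nat_lit 0) (nat_lit 59952070120) (nat_lit 304) (nat_lit 23611436623) (nat_lit 76) (nat_lit 203367392348)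 (nat_lit 78) (nat_lit 5) (nat_lit 82) (nat_lit 5) (nat_lit 79) (nat_lit 5) (nat_lit 402) (nat_lit 387) (nat_lit 231)) (XT.lf (nat_lit 0) (nat_lit 139088126033) (nat_lit 380) (nat_lit 64525517042) (nat_lit 76) (nat_lit 96995446662) (nat_lit 74) (nat_lit 5) (nat_lit 79) (nat_lit 5) (nat_lit 75) (nat_lit 5) (nat_lit 403) (nat_lit 387) (nat_lit 230))))) (XT.nd (nat_lit 234) (nat_lit 684) (nat_lit 0) (XT.nd (nat_lit 78) (nat_lit 532) (nat_lit 0) (XT.lf (nat_lit 0) (nat_lit 207253781190) (nat_lit 228) (nat_lit 22363999392) (nat_lit 304) (nat_lit 85510619431) (nat_lit 71) (nat_lit 5) (nat_lit 74) (nat_lit 5) (nat_lit 75) (nat_lit 5) (nat_lit 404) (nat_lit 387) (nat_lit 229)) (XT.nd (nat_lit 78) (nat_lit 228) (nat_lit 0) (XT.lf (nat_lit 0) (nat_lit 3382733822) (nat_lit 304) (nat_lit 155325937860) (nat_lit 76) (nat_lit 171768615978) (nat_lit 67) (nat_lit 5) (nat_lit 71) (nat_lit 5) (nat_lit 68) (nat_lit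 5) (nat_lit 405) (nat_lit 387) (nat_lit 228)) (XT.lf (nat_lit 0) (nat_lit 101525725960) (nat_lit 304) (nat_lit 207020274327) (nat_lit 76) (nat_lit 38181293121) (nat_lit 64) (nat_lit 5) (nat_lit 68) (nat_lit 5) (nat_lit 65) (nat_lit 5) (nat_lit 406) (nat_lit 387) (nat_lit 227)))) (XT.nd (nat_lit 78) (nat_lit 456) (nat_lit 0) (XT.lf (nat_lit 0) (nat_lit 100234681592) (nat_lit 228) (nat_lit 114276422830) (nat_lit 304) (nat_lit 149416647913) (nat_lit 61) (nat_lit 5) (nat_lit 64) (nat_lit 5) (nat_lit 65) (nat_lit 5) (nat_lit 407) (nat_lit 387) (nat_lit 226)) (XT.nd (nat_lit 78) (nat_lit 304) (nat_lit 0) (XT.lf (nat_lit 0) (nat_lit 57425810340) (nat_lit 152) (nat_lit 285162780643) (nat_lit 228) (nat_lit 39612993164) (nat_lit 59) (nat_lit 5) (nat_lit 61) (nat_lit 5) (nat_lit 62) (nat_lit 5) (nat_lit 408) (nat_lit 387) (nat_lit 225)) (XT.lf (nat_lit 0) (nat_lit 8995412164) (nat_lit 228) (nat_lit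 74187730424) (nat_lit 304) (nat_lit 318355734935) (nat_lit 55) (nat_lit 5) (nat_lit 58) (nat_lit 5) (nat_lit 59) (nat_lit 5) (nat_lit 409) (nat_lit 387) (nat_lit 224)))))) (XT.nd (nat_lit 468) (nat_lit 836) (nat_lit 0) (XT.nd (nat_lit 234) (nat_lit 532) (nat_lit 0) (XT.nd (nat_lit 78) (nat_lit 380) (nat_lit 0) (XT.lf (nat_lit 0) (nat_lit 222582821027) (nat_lit 304) (nat_lit 44234396804) (nat_lit 76) (nat_lit 155165082014) (nat_lit 55) (nat_lit 5) (nat_lit 59) (nat_lit 5) (nat_lit 56) (nat_lit 5) (nat_lit 410) (nat_lit 387) (nat_lit 223)) (XT.nd (nat_lit 78) (nat_lit 228) (nat_lit 0) (XT.lf (nat_lit 0) (nat_lit 341622314291) (nat_lit 152) (nat_lit 38096660752) (nat_lit 228) (nat_lit 64012995891) (nat_lit 53) (nat_lit 5) (nat_lit 55) (nat_lit 5) (nat_lit 56) (nat_lit 5) (nat_lit 411) (nat_lit 387) (nat_lit 222)) (XT.lf (nat_lit 0) (nat_lit 88429962280) (nat_lit 228) (nat_lit 169171651137) (nat_lit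 76) (nat_lit 209112999729) (nat_lit 50) (nat_lit 5) (nat_lit 53) (nat_lit 5) (nat_lit 51) (nat_lit 5) (nat_lit 412) (nat_lit 387) (nat_lit 221)))) (XT.nd (nat_lit 78) (nat_lit 380) (nat_lit 0) (XT.lf (nat_lit 0) (nat_lit 247538853707) (nat_lit 152) (nat_lit 9631668121) (nat_lit 228) (nat_lit 233995631862) (nat_lit 48) (nat_lit 5) (nat_lit 50) (nat_lit 5) (nat_lit 51) (nat_lit 5) (nat_lit 413) (nat_lit 387) (nat_lit 220)) (XT.nd (nat_lit 78) (nat_lit 228) (nat_lit 0) (XT.lf (nat_lit 0) (nat_lit 188143210861) (nat_lit 152) (nat_lit 261230469708) (nat_lit 228) (nat_lit 67701969221) (nat_lit 46) (nat_lit 5) (nat_lit 48) (nat_lit 5) (nat_lit 49) (nat_lit 5) (nat_lit 414) (nat_lit 387) (nat_lit 219)) (XT.lf (nat_lit 0) (nat_lit 114751883467) (nat_lit 228) (nat_lit 424562238979) (nat_lit 76) (nat_lit 5334531202) (nat_lit 43) (nat_lit 5) (nat_lit 46) (nat_lit 5) (nat_lit 44) (nat_lit 5) (nat_lit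 415) (nat_lit 387) (nat_lit 218))))) (XT.nd (nat_lit 234) (nat_lit 532) (nat_lit 0) (XT.nd (nat_lit 78) (nat_lit 152) (nat_lit 0) (XT.lf (nat_lit 0) (nat_lit 38214437013) (nat_lit 152) (nat_lit 282072450046) (nat_lit 228) (nat_lit 253542277872) (nat_lit 41) (nat_lit 5) (nat_lit 43) (nat_lit 5) (nat_lit 44) (nat_lit 5) (nat_lit 416) (nat_lit 387) (nat_lit 217)) (XT.nd (nat_lit 78) (nat_lit 152) (nat_lit 0) (XT.lf (nat_lit 0) (nat_lit 549715057558) (nat_lit 228) (nat_lit 51855138542) (nat_lit 76) (nat_lit 3401402712) (nat_lit 41) (nat_lit 5) (nat_lit 44) (nat_lit 5) (nat_lit 42) (nat_lit 4) (nat_lit 417) (nat_lit 387) (nat_lit 216)) (XT.lf (nat_lit 0) (nat_lit 166277519695) (nat_lit 152) (nat_lit 159421957772) (nat_lit 76) (nat_lit 312158362274) (nat_lit 39) (nat_lit 5) (nat_lit 41) (nat_lit 5) (nat_lit 40) (nat_lit 5) (nat_lit 418) (nat_lit 387) (nat_lit 215)))) (XT.nd (nat_lit 156) (nat_lit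 304) (nat_lit 0) (XT.nd (nat_lit 78) (nat_lit 76) (nat_lit 0) (XT.lf (nat_lit 0) (nat_lit 391247786478) (nat_lit 152) (nat_lit 19402959603) (nat_lit 228) (nat_lit 262326323610) (nat_lit 37) (nat_lit 5) (nat_lit 39) (nat_lit 5) (nat_lit 40) (nat_lit 5) (nat_lit 419) (nat_lit 387) (nat_lit 214)) (XT.lf (nat_lit 0) (nat_lit 285115035604) (nat_lit 76) (nat_lit 401594493715) (nat_lit 152) (nat_lit 23589523800) (nat_lit 36) (nat_lit 5) (nat_lit 37) (nat_lit 5) (nat_lit 38) (nat_lit 4) (nat_lit 420) (nat_lit 387) (nat_lit 213))) (XT.nd (nat_lit 78) (nat_lit 76) (nat_lit 0) (XT.lf (nat_lit 0) (nat_lit 157997857556) (nat_lit 152) (nat_lit 76532892767) (nat_lit 228) (nat_lit 515504089304) (nat_lit 33) (nat_lit 5) (nat_lit 35) (nat_lit 5) (nat_lit 36) (nat_lit 5) (nat_lit 421) (nat_lit 387) (nat_lit 212)) (XT.lf (nat_lit 0) (nat_lit 5818984193) (nat_lit 76) (nat_lit 518571109978) (nat_lit 152) (nat_lit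 267944263736) (nat_lit 32) (nat_lit 5) (nat_lit 33) (nat_lit 5) (nat_lit 34) (nat_lit 4) (nat_lit 422) (nat_lit 387) (nat_lit 211))))))))
noncomputable def xc114 : XT := (XT.nd (nat_lit 51792) (nat_lit 0) (nat_lit 76) (XT.nd (nat_lit 50856) (nat_lit 0) (nat_lit 3496) (XT.nd (nat_lit 50388) (nat_lit 0) (nat_lit 6460) (XT.nd (nat_lit 234) (nat_lit 228) (nat_lit 0) (XT.nd (nat_lit 78) (nat_lit 228) (nat_lit 0) (XT.lf (nat_lit 0) (nat_lit 11211275967) (nat_lit 152) (nat_lit 166307949968) (nat_lit 76) (nat_lit 659910445449) (nat_lit 31) (nat_lit 5) (nat_lit 33) (nat_lit 5) (nat_lit 32) (nat_lit 5) (nat_lit 423) (nat_lit 387) (nat_lit 210)) (XT.nd (nat_lit 78) (nat_lit 76) (nat_lit 0) (XT.lf (nat_lit 0) (nat_lit 314670772380) (nat_lit 228) (nat_lit 373192448755) (nat_lit 76) (nat_lit 197481813605) (nat_lit 29) (nat_lit 5) (nat_lit 32) (nat_lit 5) (nat_lit 30) (nat_lit 4) (nat_lit 424) (nat_lit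 387) (nat_lit 209)) (XT.lf (nat_lit 0) (nat_lit 321116820209) (nat_lit 76) (nat_lit 332241441784) (nat_lit 152) (nat_lit 283187803510) (nat_lit 28) (nat_lit 5) (nat_lit 29) (nat_lit 5) (nat_lit 30) (nat_lit 4) (nat_lit 425) (nat_lit 387) (nat_lit 208)))) (XT.nd (nat_lit 78) (nat_lit 76) (nat_lit 0) (XT.lf (nat_lit 0) (nat_lit 35467907673) (nat_lit 152) (nat_lit 897069546739) (nat_lit 76) (nat_lit 58832213326) (nat_lit 26) (nat_lit 5) (nat_lit 28) (nat_lit 5) (nat_lit 27) (nat_lit 4) (nat_lit 426) (nat_lit 387) (nat_lit 207)) (XT.nd (nat_lit 78) (nat_lit 76) (nat_lit 0) (XT.lf (nat_lit 0) (nat_lit 386325454399) (nat_lit 152) (nat_lit 177811645143) (nat_lit 76) (nat_lit 485378392477) (nat_lit 26) (nat_lit 5) (nat_lit 28) (nat_lit 5) (nat_lit 27) (nat_lit 4) (nat_lit 427) (nat_lit 387) (nat_lit 206)) (XT.lf (nat_lit 0) (nat_lit 618791988098) (nat_lit 76) (nat_lit 156120635720) (nat_lit 152)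 (nat_lit 336917307487) (nat_lit 25) (nat_lit 5) (nat_lit 26) (nat_lit 5) (nat_lit 27) (nat_lit 4) (nat_lit 428) (nat_lit 387) (nat_lit 205))))) (XT.nd (nat_lit 234) (nat_lit 0) (nat_lit 152) (XT.nd (nat_lit 78) (nat_lit 0) (nat_lit 76) (XT.lf (nat_lit 0) (nat_lit 18488752541) (nat_lit 836) (nat_lit 31664919065) (nat_lit 836) (nat_lit 31664919065) (nat_lit 110) (nat_lit 3) (nat_lit 121) (nat_lit 3) (nat_lit 121) (nat_lit 5) (nat_lit 388) (nat_lit 388) (nat_lit 244)) (XT.nd (nat_lit 78) (nat_lit 0) (nat_lit 0) (XT.lf (nat_lit 0) (nat_lit 39870460700) (nat_lit 760) (nat_lit 105632830022) (nat_lit 836) (nat_lit 24608682468) (nat_lit 111) (nat_lit 5) (nat_lit 121) (nat_lit 5) (nat_lit 122) (nat_lit 5) (nat_lit 389) (nat_lit 388) (nat_lit 243)) (XT.lf (nat_lit 76) (nat_lit 26875242222) (nat_lit 0) (nat_lit 19351448969) (nat_lit 836) (nat_lit 130716465535) (nat_lit 112) (nat_lit 5) (nat_lit 111)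 (nat_lit 5) (nat_lit 122) (nat_lit 5) (nat_lit 390) (nat_lit 388) (nat_lit 242)))) (XT.nd (nat_lit 78) (nat_lit 0) (nat_lit 76) (XT.lf (nat_lit 0) (nat_lit 56786313266) (nat_lit 760) (nat_lit 12328177277) (nat_lit 836) (nat_lit 115021599989) (nat_lit 112) (nat_lit 5) (nat_lit 122) (nat_lit 5) (nat_lit 123) (nat_lit 5) (nat_lit 391) (nat_lit 388) (nat_lit 241)) (XT.nd (nat_lit 78) (nat_lit 0) (nat_lit 76) (XT.lf (nat_lit 0) (nat_lit 71803131639) (nat_lit 760) (nat_lit 52265176008) (nat_lit 836) (nat_lit 67655530297) (nat_lit 113) (nat_lit 5) (nat_lit 123) (nat_lit 5) (nat_lit 124) (nat_lit 5) (nat_lit 392) (nat_lit 388) (nat_lit 240)) (XT.lf (nat_lit 0) (nat_lit 91297499565) (nat_lit 760) (nat_lit 93853017068) (nat_lit 836) (nat_lit 14604278519) (nat_lit 114) (nat_lit 5) (nat_lit 124) (nat_lit 5) (nat_lit 125) (nat_lit 5) (nat_lit 393) (nat_lit 388) (nat_lit 239)))))) (XT.nd (nat_lit 468)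 (nat_lit 1444) (nat_lit 0) (XT.nd (nat_lit 234) (nat_lit 1140) (nat_lit 0) (XT.nd (nat_lit 78) (nat_lit 684) (nat_lit 0) (XT.lf (nat_lit 76) (nat_lit 70350226629) (nat_lit 0) (nat_lit 46116643541) (nat_lit 836) (nat_lit 91755586299) (nat_lit 115) (nat_lit 5) (nat_lit 114) (nat_lit 5) (nat_lit 125) (nat_lit 5) (nat_lit 394) (nat_lit 388) (nat_lit 238)) (XT.nd (nat_lit 78) (nat_lit 0) (nat_lit 0) (XT.lf (nat_lit 0) (nat_lit 33165516654) (nat_lit 760) (nat_lit 114287833486) (nat_lit 836) (nat_lit 69724002744) (nat_lit 105) (nat_lit 5) (nat_lit 115) (nat_lit 5) (nat_lit 116) (nat_lit 5) (nat_lit 395) (nat_lit 388) (nat_lit 237)) (XT.lf (nat_lit 0) (nat_lit 184677267921) (nat_lit 836) (nat_lit 5276259534) (nat_lit 76) (nat_lit 36707187754) (nat_lit 105) (nat_lit 5) (nat_lit 116) (nat_lit 5) (nat_lit 106) (nat_lit 5) (nat_lit 396) (nat_lit 388) (nat_lit 236)))) (XT.nd (nat_lit 78) (nat_lit 760)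 (nat_lit 0) (XT.lf (nat_lit 0) (nat_lit 191975249381) (nat_lit 380) (nat_lit 37827995546) (nat_lit 456) (nat_lit 6853294459) (nat_lit 100) (nat_lit 5) (nat_lit 105) (nat_lit 5) (nat_lit 106) (nat_lit 5) (nat_lit 397) (nat_lit 388) (nat_lit 235)) (XT.nd (nat_lit 78) (nat_lit 380) (nat_lit 0) (XT.lf (nat_lit 0) (nat_lit 34747528935) (nat_lit 380) (nat_lit 86861334533) (nat_lit 76) (nat_lit 125586135933) (nat_lit 95) (nat_lit 5) (nat_lit 100) (nat_lit 5) (nat_lit 96) (nat_lit 5) (nat_lit 398) (nat_lit 388) (nat_lit 234)) (XT.lf (nat_lit 0) (nat_lit 83575763469) (nat_lit 456) (nat_lit 130963407417) (nat_lit 76) (nat_lit 43824775438) (nat_lit 90) (nat_lit 5) (nat_lit 96) (nat_lit 5) (nat_lit 91) (nat_lit 5) (nat_lit 399) (nat_lit 388) (nat_lit 233))))) (XT.nd (nat_lit 234) (nat_lit 608) (nat_lit 0) (XT.nd (nat_lit 78) (nat_lit 532) (nat_lit 0) (XT.lf (nat_lit 0) (nat_lit 92437401116) (nat_lit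 304) (nat_lit 48904289866) (nat_lit 380) (nat_lit 128833146425) (nat_lit 86) (nat_lit 5) (nat_lit 90) (nat_lit 5) (nat_lit 91) (nat_lit 5) (nat_lit 400) (nat_lit 388) (nat_lit 232)) (XT.nd (nat_lit 78) (nat_lit 228) (nat_lit 0) (XT.lf (nat_lit 0) (nat_lit 55272475701) (nat_lit 304) (nat_lit 153667262850) (nat_lit 380) (nat_lit 73730319041) (nat_lit 82) (nat_lit 5) (nat_lit 86) (nat_lit 5) (nat_lit 87) (nat_lit 5) (nat_lit 401) (nat_lit 388) (nat_lit 231)) (XT.lf (nat_lit 0) (nat_lit 16563894393) (nat_lit 228) (nat_lit 269962316186) (nat_lit 304) (nat_lit 9409655879) (nat_lit 79) (nat_lit 5) (nat_lit 82) (nat_lit 5) (nat_lit 83) (nat_lit 5) (nat_lit 402) (nat_lit 388) (nat_lit 230)))) (XT.nd (nat_lit 78) (nat_lit 532) (nat_lit 0) (XT.lf (nat_lit 0) (nat_lit 64751472538) (nat_lit 304) (nat_lit 25496213038) (nat_lit 76) (nat_lit 219637521886) (nat_lit 78) (nat_lit 5) (nat_lit 82) (nat_lit 5)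 (nat_lit 79) (nat_lit 5) (nat_lit 403) (nat_lit 388) (nat_lit 229)) (XT.nd (nat_lit 78) (nat_lit 228) (nat_lit 0) (XT.lf (nat_lit 0) (nat_lit 150218249014) (nat_lit 380) (nat_lit 69683459261) (nat_lit 76) (nat_lit 104755953406) (nat_lit 74) (nat_lit 5) (nat_lit 79) (nat_lit 5) (nat_lit 75) (nat_lit 5) (nat_lit 404) (nat_lit 388) (nat_lit 228)) (XT.lf (nat_lit 0) (nat_lit 223838004686) (nat_lit 228) (nat_lit 24152104837) (nat_lit 304) (nat_lit 92348415695) (nat_lit 71) (nat_lit 5) (nat_lit 74) (nat_lit 5) (nat_lit 75) (nat_lit 5) (nat_lit 405) (nat_lit 388) (nat_lit 227))))))) (XT.nd (nat_lit 936) (nat_lit 1140) (nat_lit 0) (XT.nd (nat_lit 468) (nat_lit 1064) (nat_lit 0) (XT.nd (nat_lit 234) (nat_lit 456) (nat_lit 0) (XT.nd (nat_lit 78) (nat_lit 456) (nat_lit 0) (XT.lf (nat_lit 0) (nat_lit 3656165575) (nat_lit 304) (nat_lit 167748042715) (nat_lit 76) (nat_lit 185511120433) (nat_lit 67) (nat_lit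 5) (nat_lit 71) (nat_lit 5) (nat_lit 68) (nat_lit 5) (nat_lit 406) (nat_lit 388) (nat_lit 226)) (XT.nd (nat_lit 78) (nat_lit 228) (nat_lit 0) (XT.lf (nat_lit 0) (nat_lit 109650465702) (nat_lit 304) (nat_lit 223577981938) (nat_lit 76) (nat_lit 41236893956) (nat_lit 64) (nat_lit 5) (nat_lit 68) (nat_lit 5) (nat_lit 65) (nat_lit 5) (nat_lit 407) (nat_lit 388) (nat_lit 225)) (XT.lf (nat_lit 0) (nat_lit 108257200342) (nat_lit 228) (nat_lit 123417333914) (nat_lit 304) (nat_lit 161367310079) (nat_lit 61) (nat_lit 5) (nat_lit 64) (nat_lit 5) (nat_lit 65) (nat_lit 5) (nat_lit 408) (nat_lit 388) (nat_lit 224)))) (XT.nd (nat_lit 78) (nat_lit 304) (nat_lit 0) (XT.lf (nat_lit 0) (nat_lit 62023561325) (nat_lit 152) (nat_lit 307974545099) (nat_lit 228) (nat_lit 42779482017) (nat_lit 59) (nat_lit 5) (nat_lit 61) (nat_lit 5) (nat_lit 62) (nat_lit 5) (nat_lit 409) (nat_lit 388) (nat_lit 223)) (XT.nd (nat_lit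 78) (nat_lit 0) (nat_lit 0) (XT.lf (nat_lit 0) (nat_lit 9718650125) (nat_lit 228) (nat_lit 80121486233) (nat_lit 304) (nat_lit 343821733341) (nat_lit 55) (nat_lit 5) (nat_lit 58) (nat_lit 5) (nat_lit 59) (nat_lit 5) (nat_lit 410) (nat_lit 388) (nat_lit 222)) (XT.lf (nat_lit 0) (nat_lit 240391633816) (nat_lit 304) (nat_lit 47769719566) (nat_lit 76) (nat_lit 167579420254) (nat_lit 55) (nat_lit 5) (nat_lit 59) (nat_lit 5) (nat_lit 56) (nat_lit 5) (nat_lit 411) (nat_lit 388) (nat_lit 221))))) (XT.nd (nat_lit 234) (nat_lit 532) (nat_lit 0) (XT.nd (nat_lit 78) (nat_lit 380) (nat_lit 0) (XT.lf (nat_lit 0) (nat_lit 368955379398) (nat_lit 152) (nat_lit 41143189958) (nat_lit 228) (nat_lit 69131854660) (nat_lit 53) (nat_lit 5) (nat_lit 55) (nat_lit 5) (nat_lit 56) (nat_lit 5) (nat_lit 412) (nat_lit 388) (nat_lit 220)) (XT.nd (nat_lit 78) (nat_lit 152) (nat_lit 0) (XT.lf (nat_lit 0) (nat_lit 95506382760)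 (nat_lit 228) (nat_lit 182702096142) (nat_lit 76) (nat_lit 225843201434) (nat_lit 50) (nat_lit 5) (nat_lit 53) (nat_lit 5) (nat_lit 51) (nat_lit 5) (nat_lit 413) (nat_lit 388) (nat_lit 219)) (XT.lf (nat_lit 0) (nat_lit 267345106236) (nat_lit 152) (nat_lit 10400980036) (nat_lit 228) (nat_lit 252713262941) (nat_lit 48) (nat_lit 5) (nat_lit 50) (nat_lit 5) (nat_lit 51) (nat_lit 5) (nat_lit 414) (nat_lit 388) (nat_lit 218)))) (XT.nd (nat_lit 78) (nat_lit 380) (nat_lit 0) (XT.lf (nat_lit 0) (nat_lit 203197749641) (nat_lit 152) (nat_lit 282127671427) (nat_lit 228) (nat_lit 73116187815) (nat_lit 46) (nat_lit 5) (nat_lit 48) (nat_lit 5) (nat_lit 49) (nat_lit 5) (nat_lit 415) (nat_lit 388) (nat_lit 217)) (XT.nd (nat_lit 78) (nat_lit 152) (nat_lit 0) (XT.lf (nat_lit 0) (nat_lit 123933838059) (nat_lit 228) (nat_lit 458524139560) (nat_lit 76) (nat_lit 5762477607) (nat_lit 43) (nat_lit 5) (nat_lit 46)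 (nat_lit 5) (nat_lit 44) (nat_lit 5) (nat_lit 416) (nat_lit 388) (nat_lit 216)) (XT.lf (nat_lit 0) (nat_lit 41274536722) (nat_lit 152) (nat_lit 304637017568) (nat_lit 228) (nat_lit 273823857541) (nat_lit 41) (nat_lit 5) (nat_lit 43) (nat_lit 5) (nat_lit 44) (nat_lit 5) (nat_lit 417) (nat_lit 388) (nat_lit 215)))))) (XT.nd (nat_lit 468) (nat_lit 456) (nat_lit 0) (XT.nd (nat_lit 234) (nat_lit 380) (nat_lit 0) (XT.nd (nat_lit 78) (nat_lit 304) (nat_lit 0) (XT.lf (nat_lit 0) (nat_lit 593693869058) (nat_lit 228) (nat_lit 56000760864) (nat_lit 76) (nat_lit 3674616005) (nat_lit 41) (nat_lit 5) (nat_lit 44) (nat_lit 5) (nat_lit 42) (nat_lit 4) (nat_lit 418) (nat_lit 388) (nat_lit 214)) (XT.nd (nat_lit 78) (nat_lit 152) (nat_lit 0) (XT.lf (nat_lit 0) (nat_lit 179581276258) (nat_lit 152) (nat_lit 172172995022) (nat_lit 76) (nat_lit 337132117500) (nat_lit 39) (nat_lit 5) (nat_lit 41) (nat_lit 5) (nat_lit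 40) (nat_lit 5) (nat_lit 419) (nat_lit 388) (nat_lit 213)) (XT.lf (nat_lit 0) (nat_lit 422550210588) (nat_lit 152) (nat_lit 20954075594) (nat_lit 228) (nat_lit 283310874700) (nat_lit 37) (nat_lit 5) (nat_lit 39) (nat_lit 5) (nat_lit 40) (nat_lit 5) (nat_lit 420) (nat_lit 388) (nat_lit 212)))) (XT.nd (nat_lit 78) (nat_lit 304) (nat_lit 0) (XT.lf (nat_lit 0) (nat_lit 307926781013) (nat_lit 76) (nat_lit 433720937304) (nat_lit 152) (nat_lit 25475187382) (nat_lit 36) (nat_lit 5) (nat_lit 37) (nat_lit 5) (nat_lit 38) (nat_lit 4) (nat_lit 421) (nat_lit 388) (nat_lit 211)) (XT.nd (nat_lit 78) (nat_lit 76) (nat_lit 0) (XT.lf (nat_lit 0) (nat_lit 170640164403) (nat_lit 152) (nat_lit 82654427570) (nat_lit 228) (nat_lit 556742965446) (nat_lit 33) (nat_lit 5) (nat_lit 35) (nat_lit 5) (nat_lit 36) (nat_lit 5) (nat_lit 422) (nat_lit 388) (nat_lit 210)) (XT.lf (nat_lit 0) (nat_lit 6286923456) (nat_lit 76)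 (nat_lit 560055711175) (nat_lit 152) (nat_lit 289378404988) (nat_lit 32) (nat_lit 5) (nat_lit 33) (nat_lit 5) (nat_lit 34) (nat_lit 4) (nat_lit 423) (nat_lit 388) (nat_lit 209))))) (XT.nd (nat_lit 234) (nat_lit 152) (nat_lit 0) (XT.nd (nat_lit 78) (nat_lit 228) (nat_lit 0) (XT.lf (nat_lit 0) (nat_lit 12109432714) (nat_lit 152) (nat_lit 179610303009) (nat_lit 76) (nat_lit 712704246395) (nat_lit 31) (nat_lit 5) (nat_lit 33) (nat_lit 5) (nat_lit 32) (nat_lit 5) (nat_lit 424) (nat_lit 388) (nat_lit 208)) (XT.nd (nat_lit 78) (nat_lit 76) (nat_lit 0) (XT.lf (nat_lit 0) (nat_lit 339845645420) (nat_lit 228) (nat_lit 403045616322) (nat_lit 76) (nat_lit 213281314990) (nat_lit 29) (nat_lit 5) (nat_lit 32) (nat_lit 5) (nat_lit 30) (nat_lit 4) (nat_lit 425) (nat_lit 388) (nat_lit 207)) (XT.lf (nat_lit 0) (nat_lit 346808297318) (nat_lit 76) (nat_lit 358819780440) (nat_lit 152) (nat_lit 305841615037) (nat_lit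 28) (nat_lit 5) (nat_lit 29) (nat_lit 5) (nat_lit 30) (nat_lit 4) (nat_lit 426) (nat_lit 388) (nat_lit 206)))) (XT.nd (nat_lit 50154) (nat_lit 0) (nat_lit 6384) (XT.nd (nat_lit 78) (nat_lit 0) (nat_lit 0) (XT.lf (nat_lit 0) (nat_lit 38306474620) (nat_lit 152) (nat_lit 968832993085) (nat_lit 76) (nat_lit 63539716552) (nat_lit 26) (nat_lit 5) (nat_lit 28) (nat_lit 5) (nat_lit 27) (nat_lit 4) (nat_lit 427) (nat_lit 388) (nat_lit 205)) (XT.lf (nat_lit 0) (nat_lit 417232541059) (nat_lit 152) (nat_lit 192034616205) (nat_lit 76) (nat_lit 524209521431) (nat_lit 26) (nat_lit 5) (nat_lit 28) (nat_lit 5) (nat_lit 27) (nat_lit 4) (nat_lit 428) (nat_lit 388) (nat_lit 204))) (XT.nd (nat_lit 78) (nat_lit 0) (nat_lit 76) (XT.lf (nat_lit 0) (nat_lit 19971497198) (nat_lit 836) (nat_lit 34196197966) (nat_lit 836) (nat_lit 34196197966) (nat_lit 110) (nat_lit 3) (nat_lit 121) (nat_lit 3) (nat_lit 121) (nat_lit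 5) (nat_lit 389) (nat_lit 389) (nat_lit 242)) (XT.lf (nat_lit 0) (nat_lit 43066854654) (nat_lit 760) (nat_lit 114079399438) (nat_lit 836) (nat_lit 26574334333) (nat_lit 111) (nat_lit 5) (nat_lit 121) (nat_lit 5) (nat_lit 122) (nat_lit 5) (nat_lit 390) (nat_lit 389) (nat_lit 241))))))))
noncomputable def xc115 : XT := (XT.nd (nat_lit 1872) (nat_lit 1824) (nat_lit 0) (XT.nd (nat_lit 936) (nat_lit 2432) (nat_lit 0) (XT.nd (nat_lit 468) (nat_lit 1748) (nat_lit 0) (XT.nd (nat_lit 234) (nat_lit 456) (nat_lit 0) (XT.nd (nat_lit 78) (nat_lit 0) (nat_lit 76) (XT.lf (nat_lit 76) (nat_lit 29029142274) (nat_lit 0) (nat_lit 20902001373) (nat_lit 836) (nat_lit 141167145347) (nat_lit 112) (nat_lit 5) (nat_lit 111) (nat_lit 5) (nat_lit 122) (nat_lit 5) (nat_lit 391) (nat_lit 389) (nat_lit 240)) (XT.nd (nat_lit 78) (nat_lit 0) (nat_lit 76) (XT.lf (nat_lit 0) (nat_lit 61335032328) (nat_lit 760) (nat_lit 13310506473)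 (nat_lit 836) (nat_lit 124221144188) (nat_lit 112) (nat_lit 5) (nat_lit 122) (nat_lit 5) (nat_lit 123) (nat_lit 5) (nat_lit 392) (nat_lit 389) (nat_lit 239)) (XT.lf (nat_lit 0) (nat_lit 77552797773) (nat_lit 760) (nat_lit 56442333449) (nat_lit 836) (nat_lit 73066339193) (nat_lit 113) (nat_lit 5) (nat_lit 123) (nat_lit 5) (nat_lit 124) (nat_lit 5) (nat_lit 393) (nat_lit 389) (nat_lit 238)))) (XT.nd (nat_lit 78) (nat_lit 684) (nat_lit 0) (XT.lf (nat_lit 0) (nat_lit 98606355908) (nat_lit 760) (nat_lit 101357102185) (nat_lit 836) (nat_lit 15771464350) (nat_lit 114) (nat_lit 5) (nat_lit 124) (nat_lit 5) (nat_lit 125) (nat_lit 5) (nat_lit 394) (nat_lit 389) (nat_lit 237)) (XT.nd (nat_lit 78) (nat_lit 684) (nat_lit 0) (XT.lf (nat_lit 76) (nat_lit 75982220383) (nat_lit 0) (nat_lit 49806743303) (nat_lit 836) (nat_lit 99091048862) (nat_lit 115) (nat_lit 5) (nat_lit 114) (nat_lit 5) (nat_lit 125) (nat_lit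 5) (nat_lit 395) (nat_lit 389) (nat_lit 236)) (XT.lf (nat_lit 0) (nat_lit 35822802298) (nat_lit 760) (nat_lit 123431260392) (nat_lit 836) (nat_lit 75297253196) (nat_lit 105) (nat_lit 5) (nat_lit 115) (nat_lit 5) (nat_lit 116) (nat_lit 5) (nat_lit 396) (nat_lit 389) (nat_lit 235))))) (XT.nd (nat_lit 234) (nat_lit 988) (nat_lit 0) (XT.nd (nat_lit 78) (nat_lit 760) (nat_lit 0) (XT.lf (nat_lit 0) (nat_lit 199455558882) (nat_lit 836) (nat_lit 5694401233) (nat_lit 76) (nat_lit 39643404055) (nat_lit 105) (nat_lit 5) (nat_lit 116) (nat_lit 5) (nat_lit 106) (nat_lit 5) (nat_lit 397) (nat_lit 389) (nat_lit 234)) (XT.nd (nat_lit 78) (nat_lit 380) (nat_lit 0) (XT.lf (nat_lit 0) (nat_lit 207337056340) (nat_lit 380) (nat_lit 40854312425) (nat_lit 456) (nat_lit 7397497984) (nat_lit 100) (nat_lit 5) (nat_lit 105) (nat_lit 5) (nat_lit 106) (nat_lit 5) (nat_lit 398) (nat_lit 389) (nat_lit 233)) (XT.lf (nat_lit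 0) (nat_lit 37531029556) (nat_lit 380) (nat_lit 93806305881) (nat_lit 76) (nat_lit 135633076731) (nat_lit 95) (nat_lit 5) (nat_lit 100) (nat_lit 5) (nat_lit 96) (nat_lit 5) (nat_lit 399) (nat_lit 389) (nat_lit 232)))) (XT.nd (nat_lit 78) (nat_lit 608) (nat_lit 0) (XT.lf (nat_lit 0) (nat_lit 90265312068) (nat_lit 456) (nat_lit 141436543757) (nat_lit 76) (nat_lit 47331029727) (nat_lit 90) (nat_lit 5) (nat_lit 96) (nat_lit 5) (nat_lit 91) (nat_lit 5) (nat_lit 400) (nat_lit 389) (nat_lit 231)) (XT.nd (nat_lit 78) (nat_lit 304) (nat_lit 0) (XT.lf (nat_lit 0) (nat_lit 99836158394) (nat_lit 304) (nat_lit 52816155838) (nat_lit 380) (nat_lit 139136343823) (nat_lit 86) (nat_lit 5) (nat_lit 90) (nat_lit 5) (nat_lit 91) (nat_lit 5) (nat_lit 401) (nat_lit 389) (nat_lit 230)) (XT.lf (nat_lit 0) (nat_lit 59698027304) (nat_lit 304) (nat_lit 165960000250) (nat_lit 380) (nat_lit 79625477346) (nat_lit 82) (nat_lit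 5) (nat_lit 86) (nat_lit 5) (nat_lit 87) (nat_lit 5) (nat_lit 402) (nat_lit 389) (nat_lit 229)))))) (XT.nd (nat_lit 468) (nat_lit 1064) (nat_lit 0) (XT.nd (nat_lit 234) (nat_lit 760) (nat_lit 0) (XT.nd (nat_lit 78) (nat_lit 380) (nat_lit 0) (XT.lf (nat_lit 0) (nat_lit 17892737218) (nat_lit 228) (nat_lit 291558517323) (nat_lit 304) (nat_lit 10159332209) (nat_lit 79) (nat_lit 5) (nat_lit 82) (nat_lit 5) (nat_lit 83) (nat_lit 5) (nat_lit 403) (nat_lit 389) (nat_lit 228)) (XT.nd (nat_lit 78) (nat_lit 304) (nat_lit 0) (XT.lf (nat_lit 0) (nat_lit 69934365383) (nat_lit 304) (nat_lit 27532361971) (nat_lit 76) (nat_lit 237209156482) (nat_lit 78) (nat_lit 5) (nat_lit 82) (nat_lit 5) (nat_lit 79) (nat_lit 5) (nat_lit 404) (nat_lit 389) (nat_lit 227)) (XT.lf (nat_lit 0) (nat_lit 162238343451) (nat_lit 380) (nat_lit 75254621646) (nat_lit 76) (nat_lit 113137176430) (nat_lit 74) (nat_lit 5) (nat_lit 79)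 (nat_lit 5) (nat_lit 75) (nat_lit 5) (nat_lit 405) (nat_lit 389) (nat_lit 226)))) (XT.nd (nat_lit 78) (nat_lit 532) (nat_lit 0) (XT.lf (nat_lit 0) (nat_lit 241748406686) (nat_lit 228) (nat_lit 26083403449) (nat_lit 304) (nat_lit 99733671245) (nat_lit 71) (nat_lit 5) (nat_lit 74) (nat_lit 5) (nat_lit 75) (nat_lit 5) (nat_lit 406) (nat_lit 389) (nat_lit 225)) (XT.nd (nat_lit 78) (nat_lit 228) (nat_lit 0) (XT.lf (nat_lit 0) (nat_lit 3951070555) (nat_lit 304) (nat_lit 181164482348) (nat_lit 76) (nat_lit 200352880417) (nat_lit 67) (nat_lit 5) (nat_lit 71) (nat_lit 5) (nat_lit 68) (nat_lit 5) (nat_lit 407) (nat_lit 389) (nat_lit 224)) (XT.lf (nat_lit 0) (nat_lit 118424802053) (nat_lit 304) (nat_lit 241460864581) (nat_lit 76) (nat_lit 44536786304) (nat_lit 64) (nat_lit 5) (nat_lit 68) (nat_lit 5) (nat_lit 65) (nat_lit 5) (nat_lit 408) (nat_lit 389) (nat_lit 223))))) (XT.nd (nat_lit 234) (nat_lit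 380) (nat_lit 0) (XT.nd (nat_lit 78) (nat_lit 456) (nat_lit 0) (XT.lf (nat_lit 0) (nat_lit 116920986438) (nat_lit 228) (nat_lit 133289689470) (nat_lit 304) (nat_lit 174274406076) (nat_lit 61) (nat_lit 5) (nat_lit 64) (nat_lit 5) (nat_lit 65) (nat_lit 5) (nat_lit 409) (nat_lit 389) (nat_lit 222)) (XT.nd (nat_lit 78) (nat_lit 304) (nat_lit 0) (XT.lf (nat_lit 0) (nat_lit 66988606517) (nat_lit 152) (nat_lit 332611430178) (nat_lit 228) (nat_lit 46199653850) (nat_lit 59) (nat_lit 5) (nat_lit 61) (nat_lit 5) (nat_lit 62) (nat_lit 5) (nat_lit 410) (nat_lit 389) (nat_lit 221)) (XT.lf (nat_lit 0) (nat_lit 10499232831) (nat_lit 228) (nat_lit 86530122634) (nat_lit 304) (nat_lit 371325362621) (nat_lit 55) (nat_lit 5) (nat_lit 58) (nat_lit 5) (nat_lit 59) (nat_lit 5) (nat_lit 411) (nat_lit 389) (nat_lit 220)))) (XT.nd (nat_lit 78) (nat_lit 380) (nat_lit 0) (XT.lf (nat_lit 0) (nat_lit 259624839613) (nat_lit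 304) (nat_lit 51588357332) (nat_lit 76) (nat_lit 180986744106) (nat_lit 55) (nat_lit 5) (nat_lit 59) (nat_lit 5) (nat_lit 56) (nat_lit 5) (nat_lit 412) (nat_lit 389) (nat_lit 219)) (XT.nd (nat_lit 78) (nat_lit 228) (nat_lit 0) (XT.lf (nat_lit 0) (nat_lit 398474621789) (nat_lit 152) (nat_lit 44433613215) (nat_lit 228) (nat_lit 74660533260) (nat_lit 53) (nat_lit 5) (nat_lit 55) (nat_lit 5) (nat_lit 56) (nat_lit 5) (nat_lit 413) (nat_lit 389) (nat_lit 218)) (XT.lf (nat_lit 0) (nat_lit 103148628204) (nat_lit 228) (nat_lit 197315445688) (nat_lit 76) (nat_lit 243911653541) (nat_lit 50) (nat_lit 5) (nat_lit 53) (nat_lit 5) (nat_lit 51) (nat_lit 5) (nat_lit 414) (nat_lit 389) (nat_lit 217))))))) (XT.nd (nat_lit 936) (nat_lit 228) (nat_lit 0) (XT.nd (nat_lit 468) (nat_lit 760) (nat_lit 0) (XT.nd (nat_lit 234) (nat_lit 304) (nat_lit 0) (XT.nd (nat_lit 78) (nat_lit 380) (nat_lit 0) (XT.lf (nat_lit 0)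 (nat_lit 288735410408) (nat_lit 152) (nat_lit 11232011171) (nat_lit 228) (nat_lit 272928592607) (nat_lit 48) (nat_lit 5) (nat_lit 50) (nat_lit 5) (nat_lit 51) (nat_lit 5) (nat_lit 415) (nat_lit 389) (nat_lit 216)) (XT.nd (nat_lit 78) (nat_lit 228) (nat_lit 0) (XT.lf (nat_lit 0) (nat_lit 219456211854) (nat_lit 152) (nat_lit 304696825592) (nat_lit 228) (nat_lit 78963820507) (nat_lit 46) (nat_lit 5) (nat_lit 48) (nat_lit 5) (nat_lit 49) (nat_lit 5) (nat_lit 416) (nat_lit 389) (nat_lit 215)) (XT.lf (nat_lit 0) (nat_lit 133850091669) (nat_lit 228) (nat_lit 495203431375) (nat_lit 76) (nat_lit 6224490826) (nat_lit 43) (nat_lit 5) (nat_lit 46) (nat_lit 5) (nat_lit 44) (nat_lit 5) (nat_lit 417) (nat_lit 389) (nat_lit 214)))) (XT.nd (nat_lit 78) (nat_lit 152) (nat_lit 0) (XT.lf (nat_lit 0) (nat_lit 44579024307) (nat_lit 152) (nat_lit 329006925749) (nat_lit 228) (nat_lit 295728220739) (nat_lit 41) (nat_lit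 5) (nat_lit 43) (nat_lit 5) (nat_lit 44) (nat_lit 5) (nat_lit 418) (nat_lit 389) (nat_lit 213)) (XT.nd (nat_lit 78) (nat_lit 152) (nat_lit 0) (XT.lf (nat_lit 0) (nat_lit 641190756236) (nat_lit 228) (nat_lit 60478430820) (nat_lit 76) (nat_lit 3969529281) (nat_lit 41) (nat_lit 5) (nat_lit 44) (nat_lit 5) (nat_lit 42) (nat_lit 4) (nat_lit 419) (nat_lit 389) (nat_lit 212)) (XT.lf (nat_lit 0) (nat_lit 193949111509) (nat_lit 152) (nat_lit 185944503200) (nat_lit 76) (nat_lit 364103618179) (nat_lit 39) (nat_lit 5) (nat_lit 41) (nat_lit 5) (nat_lit 40) (nat_lit 5) (nat_lit 420) (nat_lit 389) (nat_lit 211))))) (XT.nd (nat_lit 234) (nat_lit 304) (nat_lit 0) (XT.nd (nat_lit 78) (nat_lit 304) (nat_lit 0) (XT.lf (nat_lit 0) (nat_lit 456356457538) (nat_lit 152) (nat_lit 22629440755) (nat_lit 228) (nat_lit 305974411687) (nat_lit 37) (nat_lit 5) (nat_lit 39) (nat_lit 5) (nat_lit 40) (nat_lit 5) (nat_lit 421)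 (nat_lit 389) (nat_lit 210)) (XT.nd (nat_lit 78) (nat_lit 228) (nat_lit 0) (XT.lf (nat_lit 0) (nat_lit 332563103330) (nat_lit 76) (nat_lit 468417655578) (nat_lit 152) (nat_lit 27511917803) (nat_lit 36) (nat_lit 5) (nat_lit 37) (nat_lit 5) (nat_lit 38) (nat_lit 4) (nat_lit 422) (nat_lit 389) (nat_lit 209)) (XT.lf (nat_lit 0) (nat_lit 184293502249) (nat_lit 152) (nat_lit 89265841602) (nat_lit 228) (nat_lit 601281158681) (nat_lit 33) (nat_lit 5) (nat_lit 35) (nat_lit 5) (nat_lit 36) (nat_lit 5) (nat_lit 423) (nat_lit 389) (nat_lit 208)))) (XT.nd (nat_lit 78) (nat_lit 228) (nat_lit 0) (XT.lf (nat_lit 0) (nat_lit 6791952544) (nat_lit 76) (nat_lit 604859235627) (nat_lit 152) (nat_lit 312527477243) (nat_lit 32) (nat_lit 5) (nat_lit 33) (nat_lit 5) (nat_lit 34) (nat_lit 4) (nat_lit 424) (nat_lit 389) (nat_lit 207)) (XT.nd (nat_lit 78) (nat_lit 152) (nat_lit 0) (XT.lf (nat_lit 0) (nat_lit 13079263009)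 (nat_lit 152) (nat_lit 193977169983) (nat_lit 76) (nat_lit 769721413705) (nat_lit 31) (nat_lit 5) (nat_lit 33) (nat_lit 5) (nat_lit 32) (nat_lit 5) (nat_lit 425) (nat_lit 389) (nat_lit 206)) (XT.lf (nat_lit 0) (nat_lit 367034335506) (nat_lit 228) (nat_lit 435287355191) (nat_lit 76) (nat_lit 230344640059) (nat_lit 29) (nat_lit 5) (nat_lit 32) (nat_lit 5) (nat_lit 30) (nat_lit 4) (nat_lit 426) (nat_lit 389) (nat_lit 205)))))) (XT.nd (nat_lit 50544) (nat_lit 0) (nat_lit 5244) (XT.nd (nat_lit 50310) (nat_lit 0) (nat_lit 6460) (XT.nd (nat_lit 78) (nat_lit 152) (nat_lit 0) (XT.lf (nat_lit 0) (nat_lit 374554788515) (nat_lit 76) (nat_lit 387524525525) (nat_lit 152) (nat_lit 330307904499) (nat_lit 28) (nat_lit 5) (nat_lit 29) (nat_lit 5) (nat_lit 30) (nat_lit 4) (nat_lit 427) (nat_lit 389) (nat_lit 204)) (XT.nd (nat_lit 50154) (nat_lit 0) (nat_lit 6384) (XT.lf (nat_lit 0) (nat_lit 41371965097) (nat_lit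 152) (nat_lit 1046337817208) (nat_lit 76) (nat_lit 68623687909) (nat_lit 26) (nat_lit 5) (nat_lit 28) (nat_lit 5) (nat_lit 27) (nat_lit 4) (nat_lit 428) (nat_lit 389) (nat_lit 203)) (XT.lf (nat_lit 0) (nat_lit 21572341504) (nat_lit 836) (nat_lit 36930252321) (nat_lit 836) (nat_lit 36930252321) (nat_lit 110) (nat_lit 3) (nat_lit 121) (nat_lit 3) (nat_lit 121) (nat_lit 5) (nat_lit 390) (nat_lit 390) (nat_lit 240)))) (XT.nd (nat_lit 78) (nat_lit 0) (nat_lit 0) (XT.lf (nat_lit 0) (nat_lit 46517996148) (nat_lit 760) (nat_lit 123202273182) (nat_lit 836) (nat_lit 28697672426) (nat_lit 111) (nat_lit 5) (nat_lit 121) (nat_lit 5) (nat_lit 122) (nat_lit 5) (nat_lit 391) (nat_lit 390) (nat_lit 239)) (XT.nd (nat_lit 78) (nat_lit 0) (nat_lit 76) (XT.lf (nat_lit 76) (nat_lit 31354800708) (nat_lit 0) (nat_lit 22576250377) (nat_lit 836) (nat_lit 152454826448) (nat_lit 112) (nat_lit 5) (nat_lit 111) (nat_lit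 5) (nat_lit 122) (nat_lit 5) (nat_lit 392) (nat_lit 390) (nat_lit 238)) (XT.lf (nat_lit 0) (nat_lit 66246819482) (nat_lit 760) (nat_lit 14371981948) (nat_lit 836) (nat_lit 134156963467) (nat_lit 112) (nat_lit 5) (nat_lit 122) (nat_lit 5) (nat_lit 123) (nat_lit 5) (nat_lit 393) (nat_lit 390) (nat_lit 237))))) (XT.nd (nat_lit 234) (nat_lit 1368) (nat_lit 0) (XT.nd (nat_lit 78) (nat_lit 0) (nat_lit 76) (XT.lf (nat_lit 0) (nat_lit 83761664601) (nat_lit 760) (nat_lit 60954242211) (nat_lit 836) (nat_lit 78910245843) (nat_lit 113) (nat_lit 5) (nat_lit 123) (nat_lit 5) (nat_lit 124) (nat_lit 5) (nat_lit 394) (nat_lit 390) (nat_lit 236)) (XT.nd (nat_lit 78) (nat_lit 0) (nat_lit 0) (XT.lf (nat_lit 0) (nat_lit 106499199409) (nat_lit 760) (nat_lit 109462107046) (nat_lit 836) (nat_lit 17032190028) (nat_lit 114) (nat_lit 5) (nat_lit 124) (nat_lit 5) (nat_lit 125) (nat_lit 5) (nat_lit 395) (nat_lit 390)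 (nat_lit 235)) (XT.lf (nat_lit 76) (nat_lit 82064206470) (nat_lit 0) (nat_lit 53791941442) (nat_lit 836) (nat_lit 107014059502) (nat_lit 115) (nat_lit 5) (nat_lit 114) (nat_lit 5) (nat_lit 125) (nat_lit 5) (nat_lit 396) (nat_lit 390) (nat_lit 234)))) (XT.nd (nat_lit 156) (nat_lit 760) (nat_lit 0) (XT.nd (nat_lit 78) (nat_lit 0) (nat_lit 0) (XT.lf (nat_lit 0) (nat_lit 38692093826) (nat_lit 760) (nat_lit 133306104354) (nat_lit 836) (nat_lit 81317029877) (nat_lit 105) (nat_lit 5) (nat_lit 115) (nat_lit 5) (nat_lit 116) (nat_lit 5) (nat_lit 397) (nat_lit 390) (nat_lit 233)) (XT.lf (nat_lit 0) (nat_lit 215415526850) (nat_lit 836) (nat_lit 6146559071) (nat_lit 76) (nat_lit 42814568834) (nat_lit 105) (nat_lit 5) (nat_lit 116) (nat_lit 5) (nat_lit 106) (nat_lit 5) (nat_lit 398) (nat_lit 390) (nat_lit 232))) (XT.nd (nat_lit 78) (nat_lit 380) (nat_lit 0) (XT.lf (nat_lit 0) (nat_lit 223927267596) (nat_lit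 380) (nat_lit 44122723635) (nat_lit 456) (nat_lit 7985817001) (nat_lit 100) (nat_lit 5) (nat_lit 105) (nat_lit 5) (nat_lit 106) (nat_lit 5) (nat_lit 399) (nat_lit 390) (nat_lit 231)) (XT.lf (nat_lit 0) (nat_lit 40536682622) (nat_lit 380) (nat_lit 101307436368) (nat_lit 76) (nat_lit 146483765670) (nat_lit 95) (nat_lit 5) (nat_lit 100) (nat_lit 5) (nat_lit 96) (nat_lit 5) (nat_lit 400) (nat_lit 390) (nat_lit 230))))))))
noncomputable def xc116 : XT := (XT.nd (nat_lit 1872) (nat_lit 380) (nat_lit 0) (XT.nd (nat_lit 936) (nat_lit 1672) (nat_lit 0) (XT.nd (nat_lit 468) (nat_lit 1444) (nat_lit 0) (XT.nd (nat_lit 234) (nat_lit 608) (nat_lit 0) (XT.nd (nat_lit 78) (nat_lit 608) (nat_lit 0) (XT.lf (nat_lit 0) (nat_lit 97489527021) (nat_lit 456) (nat_lit 152748092554) (nat_lit 76) (nat_lit 51117745520) (nat_lit 90) (nat_lit 5) (nat_lit 96) (nat_lit 5) (nat_lit 91) (nat_lit 5) (nat_lit 401) (nat_lit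 390) (nat_lit 229)) (XT.nd (nat_lit 78) (nat_lit 304) (nat_lit 0) (XT.lf (nat_lit 0) (nat_lit 107826279109) (nat_lit 304) (nat_lit 57041039167) (nat_lit 380) (nat_lit 150264289809) (nat_lit 86) (nat_lit 5) (nat_lit 90) (nat_lit 5) (nat_lit 91) (nat_lit 5) (nat_lit 402) (nat_lit 390) (nat_lit 228)) (XT.lf (nat_lit 0) (nat_lit 64477087551) (nat_lit 304) (nat_lit 179236248463) (nat_lit 380) (nat_lit 85992714420) (nat_lit 82) (nat_lit 5) (nat_lit 86) (nat_lit 5) (nat_lit 87) (nat_lit 5) (nat_lit 403) (nat_lit 390) (nat_lit 227)))) (XT.nd (nat_lit 78) (nat_lit 380) (nat_lit 0) (XT.lf (nat_lit 0) (nat_lit 19327355161) (nat_lit 228) (nat_lit 314882526420) (nat_lit 304) (nat_lit 10969424344) (nat_lit 79) (nat_lit 5) (nat_lit 82) (nat_lit 5) (nat_lit 83) (nat_lit 5) (nat_lit 404) (nat_lit 390) (nat_lit 226)) (XT.nd (nat_lit 78) (nat_lit 304) (nat_lit 0) (XT.lf (nat_lit 0) (nat_lit 75531493764) (nat_lit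 304) (nat_lit 29731908996) (nat_lit 76) (nat_lit 256186431563) (nat_lit 78) (nat_lit 5) (nat_lit 82) (nat_lit 5) (nat_lit 79) (nat_lit 5) (nat_lit 405) (nat_lit 390) (nat_lit 225)) (XT.lf (nat_lit 0) (nat_lit 175219669600) (nat_lit 380) (nat_lit 81271978385) (nat_lit 76) (nat_lit 122188790763) (nat_lit 74) (nat_lit 5) (nat_lit 79) (nat_lit 5) (nat_lit 75) (nat_lit 5) (nat_lit 406) (nat_lit 390) (nat_lit 224))))) (XT.nd (nat_lit 234) (nat_lit 684) (nat_lit 0) (XT.nd (nat_lit 78) (nat_lit 532) (nat_lit 0) (XT.lf (nat_lit 0) (nat_lit 261091161274) (nat_lit 228) (nat_lit 28169330034) (nat_lit 304) (nat_lit 107710120685) (nat_lit 71) (nat_lit 5) (nat_lit 74) (nat_lit 5) (nat_lit 75) (nat_lit 5) (nat_lit 407) (nat_lit 390) (nat_lit 223)) (XT.nd (nat_lit 78) (nat_lit 228) (nat_lit 0) (XT.lf (nat_lit 0) (nat_lit 4269223874) (nat_lit 304) (nat_lit 195654722739) (nat_lit 76) (nat_lit 216381857036)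 (nat_lit 67) (nat_lit 5) (nat_lit 71) (nat_lit 5) (nat_lit 68) (nat_lit 5) (nat_lit 408) (nat_lit 390) (nat_lit 222)) (XT.lf (nat_lit 0) (nat_lit 127900757322) (nat_lit 304) (nat_lit 260774856595) (nat_lit 76) (nat_lit 48100535819) (nat_lit 64) (nat_lit 5) (nat_lit 68) (nat_lit 5) (nat_lit 65) (nat_lit 5) (nat_lit 409) (nat_lit 390) (nat_lit 221)))) (XT.nd (nat_lit 78) (nat_lit 456) (nat_lit 0) (XT.lf (nat_lit 0) (nat_lit 126277417468) (nat_lit 228) (nat_lit 143951980576) (nat_lit 304) (nat_lit 188214396276) (nat_lit 61) (nat_lit 5) (nat_lit 64) (nat_lit 5) (nat_lit 65) (nat_lit 5) (nat_lit 410) (nat_lit 390) (nat_lit 220)) (XT.nd (nat_lit 78) (nat_lit 304) (nat_lit 0) (XT.lf (nat_lit 0) (nat_lit 72350404474) (nat_lit 152) (nat_lit 359219419928) (nat_lit 228) (nat_lit 49893751392) (nat_lit 59) (nat_lit 5) (nat_lit 61) (nat_lit 5) (nat_lit 62) (nat_lit 5) (nat_lit 411) (nat_lit 390) (nat_lit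 219)) (XT.lf (nat_lit 0) (nat_lit 11341821230) (nat_lit 228) (nat_lit 93451604377) (nat_lit 304) (nat_lit 401029583171) (nat_lit 55) (nat_lit 5) (nat_lit 58) (nat_lit 5) (nat_lit 59) (nat_lit 5) (nat_lit 412) (nat_lit 390) (nat_lit 218)))))) (XT.nd (nat_lit 468) (nat_lit 760) (nat_lit 0) (XT.nd (nat_lit 234) (nat_lit 532) (nat_lit 0) (XT.nd (nat_lit 78) (nat_lit 380) (nat_lit 0) (XT.lf (nat_lit 0) (nat_lit 280396434371) (nat_lit 304) (nat_lit 55712905514) (nat_lit 76) (nat_lit 195466515452) (nat_lit 55) (nat_lit 5) (nat_lit 59) (nat_lit 5) (nat_lit 56) (nat_lit 5) (nat_lit 413) (nat_lit 390) (nat_lit 217)) (XT.nd (nat_lit 78) (nat_lit 228) (nat_lit 0) (XT.lf (nat_lit 0) (nat_lit 430355002403) (nat_lit 152) (nat_lit 47987417550) (nat_lit 228) (nat_lit 80631772892) (nat_lit 53) (nat_lit 5) (nat_lit 55) (nat_lit 5) (nat_lit 56) (nat_lit 5) (nat_lit 414) (nat_lit 390) (nat_lit 216)) (XT.lf (nat_lit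 0) (nat_lit 111402005791) (nat_lit 228) (nat_lit 213098265237) (nat_lit 76) (nat_lit 263425439728) (nat_lit 50) (nat_lit 5) (nat_lit 53) (nat_lit 5) (nat_lit 51) (nat_lit 5) (nat_lit 415) (nat_lit 390) (nat_lit 215)))) (XT.nd (nat_lit 78) (nat_lit 380) (nat_lit 0) (XT.lf (nat_lit 0) (nat_lit 311836554346) (nat_lit 152) (nat_lit 12129674201) (nat_lit 228) (nat_lit 294761395644) (nat_lit 48) (nat_lit 5) (nat_lit 50) (nat_lit 5) (nat_lit 51) (nat_lit 5) (nat_lit 416) (nat_lit 390) (nat_lit 214)) (XT.nd (nat_lit 78) (nat_lit 228) (nat_lit 0) (XT.lf (nat_lit 0) (nat_lit 237014974099) (nat_lit 152) (nat_lit 329071663247) (nat_lit 228) (nat_lit 85279500966) (nat_lit 46) (nat_lit 5) (nat_lit 48) (nat_lit 5) (nat_lit 49) (nat_lit 5) (nat_lit 417) (nat_lit 390) (nat_lit 213)) (XT.lf (nat_lit 0) (nat_lit 144559424933) (nat_lit 228) (nat_lit 534817443068) (nat_lit 76) (nat_lit 6723320300) (nat_lit 43)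 (nat_lit 5) (nat_lit 46) (nat_lit 5) (nat_lit 44) (nat_lit 5) (nat_lit 418) (nat_lit 390) (nat_lit 212))))) (XT.nd (nat_lit 234) (nat_lit 456) (nat_lit 0) (XT.nd (nat_lit 78) (nat_lit 152) (nat_lit 0) (XT.lf (nat_lit 0) (nat_lit 48147510730) (nat_lit 152) (nat_lit 355326576838) (nat_lit 228) (nat_lit 319385153462) (nat_lit 41) (nat_lit 5) (nat_lit 43) (nat_lit 5) (nat_lit 44) (nat_lit 5) (nat_lit 419) (nat_lit 390) (nat_lit 211)) (XT.nd (nat_lit 78) (nat_lit 152) (nat_lit 0) (XT.lf (nat_lit 0) (nat_lit 692487197851) (nat_lit 228) (nat_lit 65314655463) (nat_lit 76) (nat_lit 4287900947) (nat_lit 41) (nat_lit 5) (nat_lit 44) (nat_lit 5) (nat_lit 42) (nat_lit 4) (nat_lit 420) (nat_lit 390) (nat_lit 210)) (XT.lf (nat_lit 0) (nat_lit 209466183392) (nat_lit 152) (nat_lit 200818064636) (nat_lit 76) (nat_lit 393232706055) (nat_lit 39) (nat_lit 5) (nat_lit 41) (nat_lit 5) (nat_lit 40) (nat_lit 5) (nat_lit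 421) (nat_lit 390) (nat_lit 209)))) (XT.nd (nat_lit 78) (nat_lit 304) (nat_lit 0) (XT.lf (nat_lit 0) (nat_lit 492866886095) (nat_lit 152) (nat_lit 24438972211) (nat_lit 228) (nat_lit 330451221798) (nat_lit 37) (nat_lit 5) (nat_lit 39) (nat_lit 5) (nat_lit 40) (nat_lit 5) (nat_lit 422) (nat_lit 390) (nat_lit 208)) (XT.nd (nat_lit 78) (nat_lit 228) (nat_lit 0) (XT.lf (nat_lit 0) (nat_lit 359170020455) (nat_lit 76) (nat_lit 505890247798) (nat_lit 152) (nat_lit 29711769915) (nat_lit 36) (nat_lit 5) (nat_lit 37) (nat_lit 5) (nat_lit 38) (nat_lit 4) (nat_lit 423) (nat_lit 390) (nat_lit 207)) (XT.lf (nat_lit 0) (nat_lit 199038804012) (nat_lit 152) (nat_lit 96406302883) (nat_lit 228) (nat_lit 649382584845) (nat_lit 33) (nat_lit 5) (nat_lit 35) (nat_lit 5) (nat_lit 36) (nat_lit 5) (nat_lit 424) (nat_lit 390) (nat_lit 206))))))) (XT.nd (nat_lit 51090) (nat_lit 0) (nat_lit 2508) (XT.nd (nat_lit 50622)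 (nat_lit 0) (nat_lit 5852) (XT.nd (nat_lit 234) (nat_lit 76) (nat_lit 0) (XT.nd (nat_lit 78) (nat_lit 228) (nat_lit 0) (XT.lf (nat_lit 0) (nat_lit 7337087907) (nat_lit 76) (nat_lit 653247175058) (nat_lit 152) (nat_lit 337528646493) (nat_lit 32) (nat_lit 5) (nat_lit 33) (nat_lit 5) (nat_lit 34) (nat_lit 4) (nat_lit 425) (nat_lit 390) (nat_lit 205)) (XT.nd (nat_lit 78) (nat_lit 152) (nat_lit 0) (XT.lf (nat_lit 0) (nat_lit 14126526269) (nat_lit 152) (nat_lit 209493665541) (nat_lit 76) (nat_lit 831299836334) (nat_lit 31) (nat_lit 5) (nat_lit 33) (nat_lit 5) (nat_lit 32) (nat_lit 5) (nat_lit 426) (nat_lit 390) (nat_lit 204)) (XT.lf (nat_lit 0) (nat_lit 396397972651) (nat_lit 228) (nat_lit 470108705715) (nat_lit 76) (nat_lit 248772914171) (nat_lit 29) (nat_lit 5) (nat_lit 32) (nat_lit 5) (nat_lit 30) (nat_lit 4) (nat_lit 427) (nat_lit 390) (nat_lit 203)))) (XT.nd (nat_lit 50232) (nat_lit 0) (nat_lit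 6232) (XT.lf (nat_lit 0) (nat_lit 404520738306) (nat_lit 76) (nat_lit 418525769673) (nat_lit 152) (nat_lit 356731645448) (nat_lit 28) (nat_lit 5) (nat_lit 29) (nat_lit 5) (nat_lit 30) (nat_lit 4) (nat_lit 428) (nat_lit 390) (nat_lit 202)) (XT.nd (nat_lit 78) (nat_lit 0) (nat_lit 76) (XT.lf (nat_lit 0) (nat_lit 23300807607) (nat_lit 836) (nat_lit 39883265200) (nat_lit 836) (nat_lit 39883265200) (nat_lit 110) (nat_lit 3) (nat_lit 121) (nat_lit 3) (nat_lit 121) (nat_lit 5) (nat_lit 391) (nat_lit 391) (nat_lit 238)) (XT.lf (nat_lit 0) (nat_lit 50244402509) (nat_lit 760) (nat_lit 133055473031) (nat_lit 836) (nat_lit 30991249721) (nat_lit 111) (nat_lit 5) (nat_lit 121) (nat_lit 5) (nat_lit 122) (nat_lit 5) (nat_lit 392) (nat_lit 391) (nat_lit 237))))) (XT.nd (nat_lit 234) (nat_lit 456) (nat_lit 0) (XT.nd (nat_lit 78) (nat_lit 0) (nat_lit 76) (XT.lf (nat_lit 76) (nat_lit 33866037176) (nat_lit 0)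 (nat_lit 24384141298) (nat_lit 836) (nat_lit 164646333853) (nat_lit 112) (nat_lit 5) (nat_lit 111) (nat_lit 5) (nat_lit 122) (nat_lit 5) (nat_lit 393) (nat_lit 391) (nat_lit 236)) (XT.nd (nat_lit 78) (nat_lit 0) (nat_lit 76) (XT.lf (nat_lit 0) (nat_lit 71550838504) (nat_lit 760) (nat_lit 15518855522) (nat_lit 836) (nat_lit 144887915387) (nat_lit 112) (nat_lit 5) (nat_lit 122) (nat_lit 5) (nat_lit 123) (nat_lit 5) (nat_lit 394) (nat_lit 391) (nat_lit 235)) (XT.lf (nat_lit 0) (nat_lit 90466578399) (nat_lit 760) (nat_lit 65827599838) (nat_lit 836) (nat_lit 85221864819) (nat_lit 113) (nat_lit 5) (nat_lit 123) (nat_lit 5) (nat_lit 124) (nat_lit 5) (nat_lit 395) (nat_lit 391) (nat_lit 234)))) (XT.nd (nat_lit 78) (nat_lit 684) (nat_lit 0) (XT.lf (nat_lit 0) (nat_lit 115022851951) (nat_lit 760) (nat_lit 118216020642) (nat_lit 836) (nat_lit 18393915205) (nat_lit 114) (nat_lit 5) (nat_lit 124) (nat_lit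 5) (nat_lit 125) (nat_lit 5) (nat_lit 396) (nat_lit 391) (nat_lit 233)) (XT.nd (nat_lit 78) (nat_lit 684) (nat_lit 0) (XT.lf (nat_lit 76) (nat_lit 88632265190) (nat_lit 0) (nat_lit 58095861464) (nat_lit 836) (nat_lit 115571520624) (nat_lit 115) (nat_lit 5) (nat_lit 114) (nat_lit 5) (nat_lit 125) (nat_lit 5) (nat_lit 397) (nat_lit 391) (nat_lit 232)) (XT.lf (nat_lit 0) (nat_lit 41790434022) (nat_lit 760) (nat_lit 143970886882) (nat_lit 836) (nat_lit 87818959848) (nat_lit 105) (nat_lit 5) (nat_lit 115) (nat_lit 5) (nat_lit 116) (nat_lit 5) (nat_lit 398) (nat_lit 391) (nat_lit 231)))))) (XT.nd (nat_lit 468) (nat_lit 1596) (nat_lit 0) (XT.nd (nat_lit 234) (nat_lit 988) (nat_lit 0) (XT.nd (nat_lit 78) (nat_lit 760) (nat_lit 0) (XT.lf (nat_lit 0) (nat_lit 232651789624) (nat_lit 836) (nat_lit 6635373767) (nat_lit 76) (nat_lit 46239470671) (nat_lit 105) (nat_lit 5) (nat_lit 116) (nat_lit 5) (nat_lit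 106) (nat_lit 5) (nat_lit 399) (nat_lit 391) (nat_lit 230)) (XT.nd (nat_lit 78) (nat_lit 380) (nat_lit 0) (XT.lf (nat_lit 0) (nat_lit 241844232568) (nat_lit 380) (nat_lit 47652598297) (nat_lit 456) (nat_lit 8621698118) (nat_lit 100) (nat_lit 5) (nat_lit 105) (nat_lit 5) (nat_lit 106) (nat_lit 5) (nat_lit 400) (nat_lit 391) (nat_lit 229)) (XT.lf (nat_lit 0) (nat_lit 43782335597) (nat_lit 380) (nat_lit 109409138630) (nat_lit 76) (nat_lit 158202503619) (nat_lit 95) (nat_lit 5) (nat_lit 100) (nat_lit 5) (nat_lit 96) (nat_lit 5) (nat_lit 401) (nat_lit 391) (nat_lit 228)))) (XT.nd (nat_lit 78) (nat_lit 608) (nat_lit 0) (XT.lf (nat_lit 0) (nat_lit 105291252615) (nat_lit 456) (nat_lit 164965046694) (nat_lit 76) (nat_lit 55207365277) (nat_lit 90) (nat_lit 5) (nat_lit 96) (nat_lit 5) (nat_lit 91) (nat_lit 5) (nat_lit 402) (nat_lit 391) (nat_lit 227)) (XT.nd (nat_lit 78) (nat_lit 304) (nat_lit 0) (XT.lf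 (nat_lit 0) (nat_lit 116455148964) (nat_lit 304) (nat_lit 61603971531) (nat_lit 380) (nat_lit 162282893968) (nat_lit 86) (nat_lit 5) (nat_lit 90) (nat_lit 5) (nat_lit 91) (nat_lit 5) (nat_lit 403) (nat_lit 391) (nat_lit 226)) (XT.lf (nat_lit 0) (nat_lit 69638013525) (nat_lit 304) (nat_lit 193574675254) (nat_lit 380) (nat_lit 92869730071) (nat_lit 82) (nat_lit 5) (nat_lit 86) (nat_lit 5) (nat_lit 87) (nat_lit 5) (nat_lit 404) (nat_lit 391) (nat_lit 225))))) (XT.nd (nat_lit 234) (nat_lit 988) (nat_lit 0) (XT.nd (nat_lit 78) (nat_lit 380) (nat_lit 0) (XT.lf (nat_lit 0) (nat_lit 20876286171) (nat_lit 228) (nat_lit 340072552154) (nat_lit 304) (nat_lit 11844702536) (nat_lit 79) (nat_lit 5) (nat_lit 82) (nat_lit 5) (nat_lit 83) (nat_lit 5) (nat_lit 405) (nat_lit 391) (nat_lit 224)) (XT.nd (nat_lit 78) (nat_lit 304) (nat_lit 0) (XT.lf (nat_lit 0) (nat_lit 81576053003) (nat_lit 304) (nat_lit 32107853749)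 (nat_lit 76) (nat_lit 276681811248) (nat_lit 78) (nat_lit 5) (nat_lit 82) (nat_lit 5) (nat_lit 79) (nat_lit 5) (nat_lit 406) (nat_lit 391) (nat_lit 223)) (XT.lf (nat_lit 0) (nat_lit 189239179615) (nat_lit 380) (nat_lit 87771153500) (nat_lit 76) (nat_lit 131964442909) (nat_lit 74) (nat_lit 5) (nat_lit 79) (nat_lit 5) (nat_lit 75) (nat_lit 5) (nat_lit 407) (nat_lit 391) (nat_lit 222)))) (XT.nd (nat_lit 156) (nat_lit 456) (nat_lit 0) (XT.nd (nat_lit 78) (nat_lit 304) (nat_lit 0) (XT.lf (nat_lit 0) (nat_lit 281980925071) (nat_lit 228) (nat_lit 30422237126) (nat_lit 304) (nat_lit 116325006248) (nat_lit 71) (nat_lit 5) (nat_lit 74) (nat_lit 5) (nat_lit 75) (nat_lit 5) (nat_lit 408) (nat_lit 391) (nat_lit 221)) (XT.lf (nat_lit 0) (nat_lit 4612534481) (nat_lit 304) (nat_lit 211304598675) (nat_lit 76) (nat_lit 233693045332) (nat_lit 67) (nat_lit 5) (nat_lit 71) (nat_lit 5) (nat_lit 68) (nat_lit 5)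 (nat_lit 409) (nat_lit 391) (nat_lit 220))) (XT.nd (nat_lit 78) (nat_lit 228) (nat_lit 0) (XT.lf (nat_lit 0) (nat_lit 138134507811) (nat_lit 304) (nat_lit 281634378427) (nat_lit 76) (nat_lit 51949270224) (nat_lit 64) (nat_lit 5) (nat_lit 68) (nat_lit 5) (nat_lit 65) (nat_lit 5) (nat_lit 410) (nat_lit 391) (nat_lit 219)) (XT.lf (nat_lit 0) (nat_lit 136381970361) (nat_lit 228) (nat_lit 155467381091) (nat_lit 304) (nat_lit 203269865635) (nat_lit 61) (nat_lit 5) (nat_lit 64) (nat_lit 5) (nat_lit 65) (nat_lit 5) (nat_lit 411) (nat_lit 391) (nat_lit 218))))))))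
noncomputable def xc117 : XT := (XT.nd (nat_lit 52104) (nat_lit 0) (nat_lit 760) (XT.nd (nat_lit 936) (nat_lit 608) (nat_lit 0) (XT.nd (nat_lit 468) (nat_lit 836) (nat_lit 0) (XT.nd (nat_lit 234) (nat_lit 532) (nat_lit 0) (XT.nd (nat_lit 78) (nat_lit 304) (nat_lit 0) (XT.lf (nat_lit 0) (nat_lit 78140759736) (nat_lit 152) (nat_lit 387956180771) (nat_lit 228) (nat_lit 53883644192) (nat_lit 59) (nat_lit 5) (nat_lit 61) (nat_lit 5) (nat_lit 62) (nat_lit 5) (nat_lit 412) (nat_lit 391) (nat_lit 217)) (XT.nd (nat_lit 78) (nat_lit 0) (nat_lit 0) (XT.lf (nat_lit 0) (nat_lit 12251438683) (nat_lit 228) (nat_lit 100926937060) (nat_lit 304) (nat_lit 433110399363) (nat_lit 55) (nat_lit 5) (nat_lit 58) (nat_lit 5) (nat_lit 59) (nat_lit 5) (nat_lit 413) (nat_lit 391) (nat_lit 216)) (XT.lf (nat_lit 0) (nat_lit 302829527369) (nat_lit 304) (nat_lit 60167777115) (nat_lit 76) (nat_lit 211104549838) (nat_lit 55)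 (nat_lit 5) (nat_lit 59) (nat_lit 5) (nat_lit 56) (nat_lit 5) (nat_lit 414) (nat_lit 391) (nat_lit 215)))) (XT.nd (nat_lit 78) (nat_lit 380) (nat_lit 0) (XT.lf (nat_lit 0) (nat_lit 464785469528) (nat_lit 152) (nat_lit 51825652447) (nat_lit 228) (nat_lit 87080940385) (nat_lit 53) (nat_lit 5) (nat_lit 55) (nat_lit 5) (nat_lit 56) (nat_lit 5) (nat_lit 415) (nat_lit 391) (nat_lit 214)) (XT.nd (nat_lit 78) (nat_lit 152) (nat_lit 0) (XT.lf (nat_lit 0) (nat_lit 120315441401) (nat_lit 228) (nat_lit 230144055034) (nat_lit 76) (nat_lit 284500206991) (nat_lit 50) (nat_lit 5) (nat_lit 53) (nat_lit 5) (nat_lit 51) (nat_lit 5) (nat_lit 416) (nat_lit 391) (nat_lit 213)) (XT.lf (nat_lit 0) (nat_lit 336785460094) (nat_lit 152) (nat_lit 13099278363) (nat_lit 228) (nat_lit 318341034687) (nat_lit 48) (nat_lit 5) (nat_lit 50) (nat_lit 5) (nat_lit 51) (nat_lit 5) (nat_lit 417) (nat_lit 391) (nat_lit 212))))) (XT.nd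 (nat_lit 234) (nat_lit 304) (nat_lit 0) (XT.nd (nat_lit 78) (nat_lit 380) (nat_lit 0) (XT.lf (nat_lit 0) (nat_lit 255978114154) (nat_lit 152) (nat_lit 355396617507) (nat_lit 228) (nat_lit 92100639179) (nat_lit 46) (nat_lit 5) (nat_lit 48) (nat_lit 5) (nat_lit 49) (nat_lit 5) (nat_lit 418) (nat_lit 391) (nat_lit 211)) (XT.nd (nat_lit 78) (nat_lit 152) (nat_lit 0) (XT.lf (nat_lit 0) (nat_lit 156125315700) (nat_lit 228) (nat_lit 577600898512) (nat_lit 76) (nat_lit 7261931987) (nat_lit 43) (nat_lit 5) (nat_lit 46) (nat_lit 5) (nat_lit 44) (nat_lit 5) (nat_lit 419) (nat_lit 391) (nat_lit 210)) (XT.lf (nat_lit 0) (nat_lit 52001167279) (nat_lit 152) (nat_lit 383751928834) (nat_lit 228) (nat_lit 344934829820) (nat_lit 41) (nat_lit 5) (nat_lit 43) (nat_lit 5) (nat_lit 44) (nat_lit 5) (nat_lit 420) (nat_lit 391) (nat_lit 209)))) (XT.nd (nat_lit 78) (nat_lit 304) (nat_lit 0) (XT.lf (nat_lit 0) (nat_lit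 747887186295) (nat_lit 228) (nat_lit 70538070507) (nat_lit 76) (nat_lit 4631626888) (nat_lit 41) (nat_lit 5) (nat_lit 44) (nat_lit 5) (nat_lit 42) (nat_lit 4) (nat_lit 421) (nat_lit 391) (nat_lit 208)) (XT.nd (nat_lit 78) (nat_lit 152) (nat_lit 0) (XT.lf (nat_lit 0) (nat_lit 226224457969) (nat_lit 152) (nat_lit 216881796140) (nat_lit 76) (nat_lit 424692007057) (nat_lit 39) (nat_lit 5) (nat_lit 41) (nat_lit 5) (nat_lit 40) (nat_lit 5) (nat_lit 422) (nat_lit 391) (nat_lit 207)) (XT.lf (nat_lit 0) (nat_lit 532297876175) (nat_lit 152) (nat_lit 26393383708) (nat_lit 228) (nat_lit 356886339755) (nat_lit 37) (nat_lit 5) (nat_lit 39) (nat_lit 5) (nat_lit 40) (nat_lit 5) (nat_lit 423) (nat_lit 391) (nat_lit 206)))))) (XT.nd (nat_lit 50700) (nat_lit 0) (nat_lit 6232) (XT.nd (nat_lit 234) (nat_lit 228) (nat_lit 0) (XT.nd (nat_lit 78) (nat_lit 304) (nat_lit 0) (XT.lf (nat_lit 0) (nat_lit 387905224336)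 (nat_lit 76) (nat_lit 546360764411) (nat_lit 152) (nat_lit 32087767311) (nat_lit 36) (nat_lit 5) (nat_lit 37) (nat_lit 5) (nat_lit 38) (nat_lit 4) (nat_lit 424) (nat_lit 391) (nat_lit 205)) (XT.nd (nat_lit 78) (nat_lit 76) (nat_lit 0) (XT.lf (nat_lit 0) (nat_lit 214963470046) (nat_lit 152) (nat_lit 104118116059) (nat_lit 228) (nat_lit 701332277255) (nat_lit 33) (nat_lit 5) (nat_lit 35) (nat_lit 5) (nat_lit 36) (nat_lit 5) (nat_lit 425) (nat_lit 391) (nat_lit 204)) (XT.lf (nat_lit 0) (nat_lit 7925580282) (nat_lit 76) (nat_lit 705506263690) (nat_lit 152) (nat_lit 364530056072) (nat_lit 32) (nat_lit 5) (nat_lit 33) (nat_lit 5) (nat_lit 34) (nat_lit 4) (nat_lit 426) (nat_lit 391) (nat_lit 203)))) (XT.nd (nat_lit 78) (nat_lit 152) (nat_lit 0) (XT.lf (nat_lit 0) (nat_lit 15257439026) (nat_lit 152) (nat_lit 226251720135) (nat_lit 76) (nat_lit 897804431549) (nat_lit 31) (nat_lit 5) (nat_lit 33) (nat_lit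 5) (nat_lit 32) (nat_lit 5) (nat_lit 427) (nat_lit 391) (nat_lit 202)) (XT.nd (nat_lit 50310) (nat_lit 0) (nat_lit 6156) (XT.lf (nat_lit 0) (nat_lit 428110573756) (nat_lit 228) (nat_lit 507715997945) (nat_lit 76) (nat_lit 268675349933) (nat_lit 29) (nat_lit 5) (nat_lit 32) (nat_lit 5) (nat_lit 30) (nat_lit 4) (nat_lit 428) (nat_lit 391) (nat_lit 201)) (XT.lf (nat_lit 0) (nat_lit 25167168839) (nat_lit 836) (nat_lit 43072719878) (nat_lit 836) (nat_lit 43072719878) (nat_lit 110) (nat_lit 3) (nat_lit 121) (nat_lit 3) (nat_lit 121) (nat_lit 5) (nat_lit 392) (nat_lit 392) (nat_lit 236))))) (XT.nd (nat_lit 234) (nat_lit 0) (nat_lit 152) (XT.nd (nat_lit 78) (nat_lit 0) (nat_lit 0) (XT.lf (nat_lit 0) (nat_lit 54268212828) (nat_lit 760) (nat_lit 143697354284) (nat_lit 836) (nat_lit 33468632260) (nat_lit 111) (nat_lit 5) (nat_lit 121) (nat_lit 5) (nat_lit 122) (nat_lit 5) (nat_lit 393) (nat_lit 392)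 (nat_lit 235)) (XT.nd (nat_lit 78) (nat_lit 0) (nat_lit 76) (XT.lf (nat_lit 76) (nat_lit 36577765633) (nat_lit 0) (nat_lit 26336408001) (nat_lit 836) (nat_lit 177813857854) (nat_lit 112) (nat_lit 5) (nat_lit 111) (nat_lit 5) (nat_lit 122) (nat_lit 5) (nat_lit 394) (nat_lit 392) (nat_lit 234)) (XT.lf (nat_lit 0) (nat_lit 77278569391) (nat_lit 760) (nat_lit 16757890557) (nat_lit 836) (nat_lit 156477572453) (nat_lit 112) (nat_lit 5) (nat_lit 122) (nat_lit 5) (nat_lit 123) (nat_lit 5) (nat_lit 395) (nat_lit 392) (nat_lit 233)))) (XT.nd (nat_lit 78) (nat_lit 0) (nat_lit 76) (XT.lf (nat_lit 0) (nat_lit 97707317420) (nat_lit 760) (nat_lit 71091251454) (nat_lit 836) (nat_lit 92038584605) (nat_lit 113) (nat_lit 5) (nat_lit 123) (nat_lit 5) (nat_lit 124) (nat_lit 5) (nat_lit 396) (nat_lit 392) (nat_lit 232)) (XT.nd (nat_lit 78) (nat_lit 0) (nat_lit 0) (XT.lf (nat_lit 0) (nat_lit 124227866482) (nat_lit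 760) (nat_lit 127670683152) (nat_lit 836) (nat_lit 19864699661) (nat_lit 114) (nat_lit 5) (nat_lit 124) (nat_lit 5) (nat_lit 125) (nat_lit 5) (nat_lit 397) (nat_lit 392) (nat_lit 231)) (XT.lf (nat_lit 76) (nat_lit 95725351723) (nat_lit 0) (nat_lit 62744014527) (nat_lit 836) (nat_lit 124814101294) (nat_lit 115) (nat_lit 5) (nat_lit 114) (nat_lit 5) (nat_lit 125) (nat_lit 5) (nat_lit 398) (nat_lit 392) (nat_lit 230))))))) (XT.nd (nat_lit 936) (nat_lit 2128) (nat_lit 0) (XT.nd (nat_lit 468) (nat_lit 1444) (nat_lit 0) (XT.nd (nat_lit 234) (nat_lit 1064) (nat_lit 0) (XT.nd (nat_lit 78) (nat_lit 380) (nat_lit 0) (XT.lf (nat_lit 0) (nat_lit 45136217346) (nat_lit 760) (nat_lit 155488810043) (nat_lit 836) (nat_lit 94841533890) (nat_lit 105) (nat_lit 5) (nat_lit 115) (nat_lit 5) (nat_lit 116) (nat_lit 5) (nat_lit 399) (nat_lit 392) (nat_lit 229)) (XT.nd (nat_lit 78) (nat_lit 380) (nat_lit 0) (XT.lf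 (nat_lit 0) (nat_lit 251266522493) (nat_lit 836) (nat_lit 7163708786) (nat_lit 76) (nat_lit 49938402271) (nat_lit 105) (nat_lit 5) (nat_lit 116) (nat_lit 5) (nat_lit 106) (nat_lit 5) (nat_lit 400) (nat_lit 392) (nat_lit 228)) (XT.lf (nat_lit 0) (nat_lit 261194157631) (nat_lit 380) (nat_lit 51464854832) (nat_lit 456) (nat_lit 9308875459) (nat_lit 100) (nat_lit 5) (nat_lit 105) (nat_lit 5) (nat_lit 106) (nat_lit 5) (nat_lit 401) (nat_lit 392) (nat_lit 227)))) (XT.nd (nat_lit 78) (nat_lit 684) (nat_lit 0) (XT.lf (nat_lit 0) (nat_lit 47287253005) (nat_lit 380) (nat_lit 118159389742) (nat_lit 76) (nat_lit 170858735368) (nat_lit 95) (nat_lit 5) (nat_lit 100) (nat_lit 5) (nat_lit 96) (nat_lit 5) (nat_lit 402) (nat_lit 392) (nat_lit 226)) (XT.nd (nat_lit 78) (nat_lit 304) (nat_lit 0) (XT.lf (nat_lit 0) (nat_lit 113716750554) (nat_lit 456) (nat_lit 178159769922) (nat_lit 76) (nat_lit 59624126065)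 (nat_lit 90) (nat_lit 5) (nat_lit 96) (nat_lit 5) (nat_lit 91) (nat_lit 5) (nat_lit 403) (nat_lit 392) (nat_lit 225)) (XT.lf (nat_lit 0) (nat_lit 125773933589) (nat_lit 304) (nat_lit 66531988526) (nat_lit 380) (nat_lit 175263348680) (nat_lit 86) (nat_lit 5) (nat_lit 90) (nat_lit 5) (nat_lit 91) (nat_lit 5) (nat_lit 404) (nat_lit 392) (nat_lit 224))))) (XT.nd (nat_lit 234) (nat_lit 836) (nat_lit 0) (XT.nd (nat_lit 78) (nat_lit 304) (nat_lit 0) (XT.lf (nat_lit 0) (nat_lit 75211419979) (nat_lit 304) (nat_lit 209060243680) (nat_lit 380) (nat_lit 100297249575) (nat_lit 82) (nat_lit 5) (nat_lit 86) (nat_lit 5) (nat_lit 87) (nat_lit 5) (nat_lit 405) (nat_lit 392) (nat_lit 223)) (XT.nd (nat_lit 78) (nat_lit 76) (nat_lit 0) (XT.lf (nat_lit 0) (nat_lit 22548740400) (nat_lit 228) (nat_lit 367277862174) (nat_lit 304) (nat_lit 12790327646) (nat_lit 79) (nat_lit 5) (nat_lit 82) (nat_lit 5) (nat_lit 83)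 (nat_lit 5) (nat_lit 406) (nat_lit 392) (nat_lit 222)) (XT.lf (nat_lit 0) (nat_lit 88103885990) (nat_lit 304) (nat_lit 34674246138) (nat_lit 76) (nat_lit 298816754947) (nat_lit 78) (nat_lit 5) (nat_lit 82) (nat_lit 5) (nat_lit 79) (nat_lit 5) (nat_lit 407) (nat_lit 392) (nat_lit 221)))) (XT.nd (nat_lit 78) (nat_lit 532) (nat_lit 0) (XT.lf (nat_lit 0) (nat_lit 204379974176) (nat_lit 380) (nat_lit 94790631140) (nat_lit 76) (nat_lit 142522068921) (nat_lit 74) (nat_lit 5) (nat_lit 79) (nat_lit 5) (nat_lit 75) (nat_lit 5) (nat_lit 408) (nat_lit 392) (nat_lit 220)) (XT.nd (nat_lit 78) (nat_lit 304) (nat_lit 0) (XT.lf (nat_lit 0) (nat_lit 304541517471) (nat_lit 228) (nat_lit 32855467990) (nat_lit 304) (nat_lit 125629357150) (nat_lit 71) (nat_lit 5) (nat_lit 74) (nat_lit 5) (nat_lit 75) (nat_lit 5) (nat_lit 409) (nat_lit 392) (nat_lit 219)) (XT.lf (nat_lit 0) (nat_lit 4983057041) (nat_lit 304) (nat_lit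 228206821608) (nat_lit 76) (nat_lit 252389037427) (nat_lit 67) (nat_lit 5) (nat_lit 71) (nat_lit 5) (nat_lit 68) (nat_lit 5) (nat_lit 410) (nat_lit 392) (nat_lit 218)))))) (XT.nd (nat_lit 468) (nat_lit 1064) (nat_lit 0) (XT.nd (nat_lit 234) (nat_lit 456) (nat_lit 0) (XT.nd (nat_lit 78) (nat_lit 380) (nat_lit 0) (XT.lf (nat_lit 0) (nat_lit 149186717256) (nat_lit 304) (nat_lit 304163013908) (nat_lit 76) (nat_lit 56105804725) (nat_lit 64) (nat_lit 5) (nat_lit 68) (nat_lit 5) (nat_lit 65) (nat_lit 5) (nat_lit 411) (nat_lit 392) (nat_lit 217)) (XT.nd (nat_lit 78) (nat_lit 152) (nat_lit 0) (XT.lf (nat_lit 0) (nat_lit 147294550878) (nat_lit 228) (nat_lit 167904121774) (nat_lit 304) (nat_lit 219530012547) (nat_lit 61) (nat_lit 5) (nat_lit 64) (nat_lit 5) (nat_lit 65) (nat_lit 5) (nat_lit 412) (nat_lit 392) (nat_lit 216)) (XT.lf (nat_lit 0) (nat_lit 84394012031) (nat_lit 152) (nat_lit 418991995577)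 (nat_lit 228) (nat_lit 58192957718) (nat_lit 59) (nat_lit 5) (nat_lit 61) (nat_lit 5) (nat_lit 62) (nat_lit 5) (nat_lit 413) (nat_lit 392) (nat_lit 215)))) (XT.nd (nat_lit 78) (nat_lit 152) (nat_lit 0) (XT.lf (nat_lit 0) (nat_lit 13233501440) (nat_lit 228) (nat_lit 109000409867) (nat_lit 304) (nat_lit 467757902040) (nat_lit 55) (nat_lit 5) (nat_lit 58) (nat_lit 5) (nat_lit 59) (nat_lit 5) (nat_lit 414) (nat_lit 392) (nat_lit 214)) (XT.nd (nat_lit 78) (nat_lit 152) (nat_lit 0) (XT.lf (nat_lit 0) (nat_lit 327057071185) (nat_lit 304) (nat_lit 64979346711) (nat_lit 76) (nat_lit 227993525236) (nat_lit 55) (nat_lit 5) (nat_lit 59) (nat_lit 5) (nat_lit 56) (nat_lit 5) (nat_lit 415) (nat_lit 392) (nat_lit 213)) (XT.lf (nat_lit 0) (nat_lit 501970079152) (nat_lit 152) (nat_lit 55971054346) (nat_lit 228) (nat_lit 94046237341) (nat_lit 53) (nat_lit 5) (nat_lit 55) (nat_lit 5) (nat_lit 56) (nat_lit 5)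 (nat_lit 416) (nat_lit 392) (nat_lit 212))))) (XT.nd (nat_lit 234) (nat_lit 532) (nat_lit 0) (XT.nd (nat_lit 78) (nat_lit 304) (nat_lit 0) (XT.lf (nat_lit 0) (nat_lit 129941769946) (nat_lit 228) (nat_lit 248553803527) (nat_lit 76) (nat_lit 307260851196) (nat_lit 50) (nat_lit 5) (nat_lit 53) (nat_lit 5) (nat_lit 51) (nat_lit 5) (nat_lit 417) (nat_lit 392) (nat_lit 211)) (XT.nd (nat_lit 78) (nat_lit 152) (nat_lit 0) (XT.lf (nat_lit 0) (nat_lit 363729995632) (nat_lit 152) (nat_lit 14146560676) (nat_lit 228) (nat_lit 343807226406) (nat_lit 48) (nat_lit 5) (nat_lit 50) (nat_lit 5) (nat_lit 51) (nat_lit 5) (nat_lit 418) (nat_lit 392) (nat_lit 210)) (XT.lf (nat_lit 0) (nat_lit 276458028347) (nat_lit 152) (nat_lit 383827679212) (nat_lit 228) (nat_lit 99467642762) (nat_lit 46) (nat_lit 5) (nat_lit 48) (nat_lit 5) (nat_lit 49) (nat_lit 5) (nat_lit 419) (nat_lit 392) (nat_lit 209)))) (XT.nd (nat_lit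 156) (nat_lit 152) (nat_lit 0) (XT.nd (nat_lit 78) (nat_lit 152) (nat_lit 0) (XT.lf (nat_lit 0) (nat_lit 168616315555) (nat_lit 228) (nat_lit 623807307155) (nat_lit 76) (nat_lit 7843526175) (nat_lit 43) (nat_lit 5) (nat_lit 46) (nat_lit 5) (nat_lit 44) (nat_lit 5) (nat_lit 420) (nat_lit 392) (nat_lit 208)) (XT.lf (nat_lit 0) (nat_lit 56162851617) (nat_lit 152) (nat_lit 414451419430) (nat_lit 228) (nat_lit 372528642338) (nat_lit 41) (nat_lit 5) (nat_lit 43) (nat_lit 5) (nat_lit 44) (nat_lit 5) (nat_lit 421) (nat_lit 392) (nat_lit 207))) (XT.nd (nat_lit 78) (nat_lit 152) (nat_lit 0) (XT.lf (nat_lit 0) (nat_lit 807719029354) (nat_lit 228) (nat_lit 76179609467) (nat_lit 76) (nat_lit 5002751917) (nat_lit 41) (nat_lit 5) (nat_lit 44) (nat_lit 5) (nat_lit 42) (nat_lit 4) (nat_lit 422) (nat_lit 392) (nat_lit 206)) (XT.lf (nat_lit 0) (nat_lit 244323254717) (nat_lit 152) (nat_lit 234230870639) (nat_lit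 76) (nat_lit 458667954485) (nat_lit 39) (nat_lit 5) (nat_lit 41) (nat_lit 5) (nat_lit 40) (nat_lit 5) (nat_lit 423) (nat_lit 392) (nat_lit 205))))))))
noncomputable def xc118 : XT := (XT.nd (nat_lit 52260) (nat_lit 0) (nat_lit 76) (XT.nd (nat_lit 51324) (nat_lit 0) (nat_lit 2432) (XT.nd (nat_lit 50856) (nat_lit 0) (nat_lit 5548) (XT.nd (nat_lit 234) (nat_lit 76) (nat_lit 0) (XT.nd (nat_lit 78) (nat_lit 304) (nat_lit 0) (XT.lf (nat_lit 0) (nat_lit 574883111612) (nat_lit 152) (nat_lit 28504248884) (nat_lit 228) (nat_lit 385436406926) (nat_lit 37) (nat_lit 5) (nat_lit 39) (nat_lit 5) (nat_lit 40) (nat_lit 5) (nat_lit 424) (nat_lit 392) (nat_lit 204)) (XT.nd (nat_lit 78) (nat_lit 228) (nat_lit 0) (XT.lf (nat_lit 0) (nat_lit 418939015950) (nat_lit 76) (nat_lit 590069022674) (nat_lit 152) (nat_lit 34653979199) (nat_lit 36) (nat_lit 5) (nat_lit 37) (nat_lit 5) (nat_lit 38) (nat_lit 4) (nat_lit 425)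 (nat_lit 392) (nat_lit 203)) (XT.lf (nat_lit 0) (nat_lit 232161886567) (nat_lit 152) (nat_lit 112446972875) (nat_lit 228) (nat_lit 757438075504) (nat_lit 33) (nat_lit 5) (nat_lit 35) (nat_lit 5) (nat_lit 36) (nat_lit 5) (nat_lit 426) (nat_lit 392) (nat_lit 202)))) (XT.nd (nat_lit 50466) (nat_lit 0) (nat_lit 5928) (XT.lf (nat_lit 0) (nat_lit 8560934440) (nat_lit 76) (nat_lit 761946177188) (nat_lit 152) (nat_lit 393691704264) (nat_lit 32) (nat_lit 5) (nat_lit 33) (nat_lit 5) (nat_lit 34) (nat_lit 4) (nat_lit 427) (nat_lit 392) (nat_lit 201)) (XT.nd (nat_lit 78) (nat_lit 0) (nat_lit 76) (XT.lf (nat_lit 0) (nat_lit 27182511331) (nat_lit 836) (nat_lit 46517503056) (nat_lit 836) (nat_lit 46517503056) (nat_lit 110) (nat_lit 3) (nat_lit 121) (nat_lit 3) (nat_lit 121) (nat_lit 5) (nat_lit 393) (nat_lit 393) (nat_lit 234)) (XT.lf (nat_lit 0) (nat_lit 58613320504) (nat_lit 760) (nat_lit 155190950764)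 (nat_lit 836) (nat_lit 36144478947) (nat_lit 111) (nat_lit 5) (nat_lit 121) (nat_lit 5) (nat_lit 122) (nat_lit 5) (nat_lit 394) (nat_lit 393) (nat_lit 233))))) (XT.nd (nat_lit 234) (nat_lit 456) (nat_lit 0) (XT.nd (nat_lit 78) (nat_lit 0) (nat_lit 76) (XT.lf (nat_lit 76) (nat_lit 39506083490) (nat_lit 0) (nat_lit 28444636999) (nat_lit 836) (nat_lit 192035380485) (nat_lit 112) (nat_lit 5) (nat_lit 111) (nat_lit 5) (nat_lit 122) (nat_lit 5) (nat_lit 395) (nat_lit 393) (nat_lit 232)) (XT.nd (nat_lit 78) (nat_lit 0) (nat_lit 76) (XT.lf (nat_lit 0) (nat_lit 83463996065) (nat_lit 760) (nat_lit 18096401254) (nat_lit 836) (nat_lit 168994598411) (nat_lit 112) (nat_lit 5) (nat_lit 122) (nat_lit 5) (nat_lit 123) (nat_lit 5) (nat_lit 396) (nat_lit 393) (nat_lit 231)) (XT.lf (nat_lit 0) (nat_lit 105526828695) (nat_lit 760) (nat_lit 76776359895) (nat_lit 836) (nat_lit 99400788829) (nat_lit 113) (nat_lit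 5) (nat_lit 123) (nat_lit 5) (nat_lit 124) (nat_lit 5) (nat_lit 397) (nat_lit 393) (nat_lit 230)))) (XT.nd (nat_lit 78) (nat_lit 684) (nat_lit 0) (XT.lf (nat_lit 0) (nat_lit 134168827605) (nat_lit 760) (nat_lit 137882092312) (nat_lit 836) (nat_lit 21453250840) (nat_lit 114) (nat_lit 5) (nat_lit 124) (nat_lit 5) (nat_lit 125) (nat_lit 5) (nat_lit 398) (nat_lit 393) (nat_lit 229)) (XT.nd (nat_lit 78) (nat_lit 684) (nat_lit 0) (XT.lf (nat_lit 76) (nat_lit 103385527766) (nat_lit 0) (nat_lit 67763950766) (nat_lit 836) (nat_lit 134796536513) (nat_lit 115) (nat_lit 5) (nat_lit 114) (nat_lit 5) (nat_lit 125) (nat_lit 5) (nat_lit 399) (nat_lit 393) (nat_lit 228)) (XT.lf (nat_lit 0) (nat_lit 48749299749) (nat_lit 760) (nat_lit 167928131077) (nat_lit 836) (nat_lit 102426333671) (nat_lit 105) (nat_lit 5) (nat_lit 115) (nat_lit 5) (nat_lit 116) (nat_lit 5) (nat_lit 400) (nat_lit 393) (nat_lit 227))))))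 (XT.nd (nat_lit 468) (nat_lit 1368) (nat_lit 0) (XT.nd (nat_lit 234) (nat_lit 988) (nat_lit 0) (XT.nd (nat_lit 78) (nat_lit 760) (nat_lit 0) (XT.lf (nat_lit 0) (nat_lit 271370064543) (nat_lit 836) (nat_lit 7734666529) (nat_lit 76) (nat_lit 53933280647) (nat_lit 105) (nat_lit 5) (nat_lit 116) (nat_lit 5) (nat_lit 106) (nat_lit 5) (nat_lit 401) (nat_lit 393) (nat_lit 226)) (XT.nd (nat_lit 78) (nat_lit 380) (nat_lit 0) (XT.lf (nat_lit 0) (nat_lit 282091736245) (nat_lit 380) (nat_lit 55582084946) (nat_lit 456) (nat_lit 10051391987) (nat_lit 100) (nat_lit 5) (nat_lit 105) (nat_lit 5) (nat_lit 106) (nat_lit 5) (nat_lit 402) (nat_lit 393) (nat_lit 225)) (XT.lf (nat_lit 0) (nat_lit 51072231324) (nat_lit 380) (nat_lit 127610014739) (nat_lit 76) (nat_lit 184527461169) (nat_lit 95) (nat_lit 5) (nat_lit 100) (nat_lit 5) (nat_lit 96) (nat_lit 5) (nat_lit 403) (nat_lit 393) (nat_lit 224)))) (XT.nd (nat_lit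 78) (nat_lit 608) (nat_lit 0) (XT.lf (nat_lit 0) (nat_lit 122815974797) (nat_lit 456) (nat_lit 192410424880) (nat_lit 76) (nat_lit 64394203241) (nat_lit 90) (nat_lit 5) (nat_lit 96) (nat_lit 5) (nat_lit 91) (nat_lit 5) (nat_lit 404) (nat_lit 393) (nat_lit 223)) (XT.nd (nat_lit 78) (nat_lit 304) (nat_lit 0) (XT.lf (nat_lit 0) (nat_lit 135837882491) (nat_lit 304) (nat_lit 71854289782) (nat_lit 380) (nat_lit 189282550315) (nat_lit 86) (nat_lit 5) (nat_lit 90) (nat_lit 5) (nat_lit 91) (nat_lit 5) (nat_lit 405) (nat_lit 393) (nat_lit 222)) (XT.lf (nat_lit 0) (nat_lit 81230361502) (nat_lit 304) (nat_lit 225784715443) (nat_lit 380) (nat_lit 108319264364) (nat_lit 82) (nat_lit 5) (nat_lit 86) (nat_lit 5) (nat_lit 87) (nat_lit 5) (nat_lit 406) (nat_lit 393) (nat_lit 221))))) (XT.nd (nat_lit 234) (nat_lit 760) (nat_lit 0) (XT.nd (nat_lit 78) (nat_lit 380) (nat_lit 0) (XT.lf (nat_lit 0) (nat_lit 24354655523)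 (nat_lit 228) (nat_lit 396659667492) (nat_lit 304) (nat_lit 13811881109) (nat_lit 79) (nat_lit 5) (nat_lit 82) (nat_lit 5) (nat_lit 83) (nat_lit 5) (nat_lit 407) (nat_lit 393) (nat_lit 220)) (XT.nd (nat_lit 78) (nat_lit 304) (nat_lit 0) (XT.lf (nat_lit 0) (nat_lit 95153696138) (nat_lit 304) (nat_lit 37446268896) (nat_lit 76) (nat_lit 322722437250) (nat_lit 78) (nat_lit 5) (nat_lit 82) (nat_lit 5) (nat_lit 79) (nat_lit 5) (nat_lit 408) (nat_lit 393) (nat_lit 219)) (XT.lf (nat_lit 0) (nat_lit 220731795457) (nat_lit 380) (nat_lit 102371982934) (nat_lit 76) (nat_lit 153924237882) (nat_lit 74) (nat_lit 5) (nat_lit 79) (nat_lit 5) (nat_lit 75) (nat_lit 5) (nat_lit 409) (nat_lit 393) (nat_lit 218)))) (XT.nd (nat_lit 78) (nat_lit 532) (nat_lit 0) (XT.lf (nat_lit 0) (nat_lit 328906655050) (nat_lit 228) (nat_lit 35483435517) (nat_lit 304) (nat_lit 135678291458) (nat_lit 71) (nat_lit 5) (nat_lit 74)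 (nat_lit 5) (nat_lit 75) (nat_lit 5) (nat_lit 410) (nat_lit 393) (nat_lit 217)) (XT.nd (nat_lit 78) (nat_lit 228) (nat_lit 0) (XT.lf (nat_lit 0) (nat_lit 5383004590) (nat_lit 304) (nat_lit 246461528378) (nat_lit 76) (nat_lit 272580630645) (nat_lit 67) (nat_lit 5) (nat_lit 71) (nat_lit 5) (nat_lit 68) (nat_lit 5) (nat_lit 411) (nat_lit 393) (nat_lit 216)) (XT.lf (nat_lit 0) (nat_lit 161122896767) (nat_lit 304) (nat_lit 328494241926) (nat_lit 76) (nat_lit 60594777405) (nat_lit 64) (nat_lit 5) (nat_lit 68) (nat_lit 5) (nat_lit 65) (nat_lit 5) (nat_lit 412) (nat_lit 393) (nat_lit 215))))))) (XT.nd (nat_lit 936) (nat_lit 456) (nat_lit 0) (XT.nd (nat_lit 468) (nat_lit 836) (nat_lit 0) (XT.nd (nat_lit 234) (nat_lit 380) (nat_lit 0) (XT.nd (nat_lit 78) (nat_lit 456) (nat_lit 0) (XT.lf (nat_lit 0) (nat_lit 159079849248) (nat_lit 228) (nat_lit 181335894414) (nat_lit 304) (nat_lit 237091176979) (nat_lit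 61) (nat_lit 5) (nat_lit 64) (nat_lit 5) (nat_lit 65) (nat_lit 5) (nat_lit 413) (nat_lit 393) (nat_lit 214)) (XT.nd (nat_lit 78) (nat_lit 304) (nat_lit 0) (XT.lf (nat_lit 0) (nat_lit 91147240398) (nat_lit 152) (nat_lit 452510772528) (nat_lit 228) (nat_lit 62847212914) (nat_lit 59) (nat_lit 5) (nat_lit 61) (nat_lit 5) (nat_lit 62) (nat_lit 5) (nat_lit 414) (nat_lit 393) (nat_lit 213)) (XT.lf (nat_lit 0) (nat_lit 14293851362) (nat_lit 228) (nat_lit 117719857817) (nat_lit 304) (nat_lit 505177394567) (nat_lit 55) (nat_lit 5) (nat_lit 58) (nat_lit 5) (nat_lit 59) (nat_lit 5) (nat_lit 415) (nat_lit 393) (nat_lit 212)))) (XT.nd (nat_lit 78) (nat_lit 380) (nat_lit 0) (XT.lf (nat_lit 0) (nat_lit 353222649933) (nat_lit 304) (nat_lit 70176106166) (nat_lit 76) (nat_lit 246233531442) (nat_lit 55) (nat_lit 5) (nat_lit 59) (nat_lit 5) (nat_lit 56) (nat_lit 5) (nat_lit 416) (nat_lit 393) (nat_lit 211)) (XT.nd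 (nat_lit 78) (nat_lit 228) (nat_lit 0) (XT.lf (nat_lit 0) (nat_lit 542129204742) (nat_lit 152) (nat_lit 60448181169) (nat_lit 228) (nat_lit 101568926149) (nat_lit 53) (nat_lit 5) (nat_lit 55) (nat_lit 5) (nat_lit 56) (nat_lit 5) (nat_lit 417) (nat_lit 393) (nat_lit 210)) (XT.lf (nat_lit 0) (nat_lit 140338048812) (nat_lit 228) (nat_lit 268436585252) (nat_lit 76) (nat_lit 331842257395) (nat_lit 50) (nat_lit 5) (nat_lit 53) (nat_lit 5) (nat_lit 51) (nat_lit 5) (nat_lit 418) (nat_lit 393) (nat_lit 209))))) (XT.nd (nat_lit 234) (nat_lit 304) (nat_lit 0) (XT.nd (nat_lit 78) (nat_lit 380) (nat_lit 0) (XT.lf (nat_lit 0) (nat_lit 392829851671) (nat_lit 152) (nat_lit 15277719723) (nat_lit 228) (nat_lit 371310869113) (nat_lit 48) (nat_lit 5) (nat_lit 50) (nat_lit 5) (nat_lit 51) (nat_lit 5) (nat_lit 419) (nat_lit 393) (nat_lit 208)) (XT.nd (nat_lit 78) (nat_lit 228) (nat_lit 0) (XT.lf (nat_lit 0) (nat_lit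 298576098136) (nat_lit 152) (nat_lit 414533321107) (nat_lit 228) (nat_lit 107424156077) (nat_lit 46) (nat_lit 5) (nat_lit 48) (nat_lit 5) (nat_lit 49) (nat_lit 5) (nat_lit 420) (nat_lit 393) (nat_lit 207)) (XT.lf (nat_lit 0) (nat_lit 182106456361) (nat_lit 228) (nat_lit 673710465769) (nat_lit 76) (nat_lit 8471556648) (nat_lit 43) (nat_lit 5) (nat_lit 46) (nat_lit 5) (nat_lit 44) (nat_lit 5) (nat_lit 421) (nat_lit 393) (nat_lit 206)))) (XT.nd (nat_lit 78) (nat_lit 152) (nat_lit 0) (XT.lf (nat_lit 0) (nat_lit 60657243735) (nat_lit 152) (nat_lit 447606963960) (nat_lit 228) (nat_lit 402330098790) (nat_lit 41) (nat_lit 5) (nat_lit 43) (nat_lit 5) (nat_lit 44) (nat_lit 5) (nat_lit 422) (nat_lit 393) (nat_lit 205)) (XT.nd (nat_lit 78) (nat_lit 152) (nat_lit 0) (XT.lf (nat_lit 0) (nat_lit 872337296006) (nat_lit 228) (nat_lit 82272686488) (nat_lit 76) (nat_lit 5403482081) (nat_lit 41) (nat_lit 5)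 (nat_lit 44) (nat_lit 5) (nat_lit 42) (nat_lit 4) (nat_lit 423) (nat_lit 393) (nat_lit 204)) (XT.lf (nat_lit 0) (nat_lit 263869835355) (nat_lit 152) (nat_lit 252968080695) (nat_lit 76) (nat_lit 495361893985) (nat_lit 39) (nat_lit 5) (nat_lit 41) (nat_lit 5) (nat_lit 40) (nat_lit 5) (nat_lit 424) (nat_lit 393) (nat_lit 203)))))) (XT.nd (nat_lit 50934) (nat_lit 0) (nat_lit 5092) (XT.nd (nat_lit 50700) (nat_lit 0) (nat_lit 5852) (XT.nd (nat_lit 78) (nat_lit 304) (nat_lit 0) (XT.lf (nat_lit 0) (nat_lit 620874965396) (nat_lit 152) (nat_lit 30784069658) (nat_lit 228) (nat_lit 416270599307) (nat_lit 37) (nat_lit 5) (nat_lit 39) (nat_lit 5) (nat_lit 40) (nat_lit 5) (nat_lit 425) (nat_lit 393) (nat_lit 202)) (XT.nd (nat_lit 78) (nat_lit 228) (nat_lit 0) (XT.lf (nat_lit 0) (nat_lit 452455314923) (nat_lit 76) (nat_lit 637274027606) (nat_lit 152) (nat_lit 37425603522) (nat_lit 36) (nat_lit 5) (nat_lit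 37) (nat_lit 5) (nat_lit 38) (nat_lit 4) (nat_lit 426) (nat_lit 393) (nat_lit 201)) (XT.lf (nat_lit 0) (nat_lit 250735985398) (nat_lit 152) (nat_lit 121442222758) (nat_lit 228) (nat_lit 818032449450) (nat_lit 33) (nat_lit 5) (nat_lit 35) (nat_lit 5) (nat_lit 36) (nat_lit 5) (nat_lit 427) (nat_lit 393) (nat_lit 200)))) (XT.nd (nat_lit 78) (nat_lit 0) (nat_lit 76) (XT.lf (nat_lit 0) (nat_lit 29358800324) (nat_lit 836) (nat_lit 50238016459) (nat_lit 836) (nat_lit 50238016459) (nat_lit 110) (nat_lit 3) (nat_lit 121) (nat_lit 3) (nat_lit 121) (nat_lit 5) (nat_lit 394) (nat_lit 394) (nat_lit 232)) (XT.nd (nat_lit 78) (nat_lit 0) (nat_lit 0) (XT.lf (nat_lit 0) (nat_lit 63305515988) (nat_lit 760) (nat_lit 167604347656) (nat_lit 836) (nat_lit 39034627889) (nat_lit 111) (nat_lit 5) (nat_lit 121) (nat_lit 5) (nat_lit 122) (nat_lit 5) (nat_lit 395) (nat_lit 394) (nat_lit 231)) (XT.lf (nat_lit 76) (nat_lit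 42668367673) (nat_lit 0) (nat_lit 30721336524) (nat_lit 836) (nat_lit 207395136509) (nat_lit 112) (nat_lit 5) (nat_lit 111) (nat_lit 5) (nat_lit 122) (nat_lit 5) (nat_lit 396) (nat_lit 394) (nat_lit 230))))) (XT.nd (nat_lit 234) (nat_lit 912) (nat_lit 0) (XT.nd (nat_lit 78) (nat_lit 0) (nat_lit 76) (XT.lf (nat_lit 0) (nat_lit 90143808757) (nat_lit 760) (nat_lit 19542295326) (nat_lit 836) (nat_lit 182513154762) (nat_lit 112) (nat_lit 5) (nat_lit 122) (nat_lit 5) (nat_lit 123) (nat_lit 5) (nat_lit 397) (nat_lit 394) (nat_lit 229)) (XT.nd (nat_lit 78) (nat_lit 0) (nat_lit 76) (XT.lf (nat_lit 0) (nat_lit 113971483463) (nat_lit 760) (nat_lit 82916589677) (nat_lit 836) (nat_lit 107352095296) (nat_lit 113) (nat_lit 5) (nat_lit 123) (nat_lit 5) (nat_lit 124) (nat_lit 5) (nat_lit 398) (nat_lit 394) (nat_lit 228)) (XT.lf (nat_lit 0) (nat_lit 144904675894) (nat_lit 760) (nat_lit 148910734549) (nat_lit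 836) (nat_lit 23168975247) (nat_lit 114) (nat_lit 5) (nat_lit 124) (nat_lit 5) (nat_lit 125) (nat_lit 5) (nat_lit 399) (nat_lit 394) (nat_lit 227)))) (XT.nd (nat_lit 156) (nat_lit 380) (nat_lit 0) (XT.nd (nat_lit 78) (nat_lit 684) (nat_lit 0) (XT.lf (nat_lit 76) (nat_lit 111658211471) (nat_lit 0) (nat_lit 73185422689) (nat_lit 836) (nat_lit 145577950720) (nat_lit 115) (nat_lit 5) (nat_lit 114) (nat_lit 5) (nat_lit 125) (nat_lit 5) (nat_lit 400) (nat_lit 394) (nat_lit 226)) (XT.lf (nat_lit 0) (nat_lit 52651117027) (nat_lit 760) (nat_lit 181362566946) (nat_lit 836) (nat_lit 110618277358) (nat_lit 105) (nat_lit 5) (nat_lit 115) (nat_lit 5) (nat_lit 116) (nat_lit 5) (nat_lit 401) (nat_lit 394) (nat_lit 225))) (XT.nd (nat_lit 78) (nat_lit 380) (nat_lit 0) (XT.lf (nat_lit 0) (nat_lit 293081573212) (nat_lit 836) (nat_lit 8351606038) (nat_lit 76) (nat_lit 58247776942) (nat_lit 105) (nat_lit 5) (nat_lit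 116) (nat_lit 5) (nat_lit 106) (nat_lit 5) (nat_lit 402) (nat_lit 394) (nat_lit 224)) (XT.lf (nat_lit 0) (nat_lit 304660829262) (nat_lit 380) (nat_lit 60028687517) (nat_lit 456) (nat_lit 10853622766) (nat_lit 100) (nat_lit 5) (nat_lit 105) (nat_lit 5) (nat_lit 106) (nat_lit 5) (nat_lit 403) (nat_lit 394) (nat_lit 223))))))))
noncomputable def xc119 : XT := (XT.nd (nat_lit 52416) (nat_lit 0) (nat_lit 1292) (XT.nd (nat_lit 936) (nat_lit 1748) (nat_lit 0) (XT.nd (nat_lit 468) (nat_lit 1444) (nat_lit 0) (XT.nd (nat_lit 234) (nat_lit 608) (nat_lit 0) (XT.nd (nat_lit 78) (nat_lit 684) (nat_lit 0) (XT.lf (nat_lit 0) (nat_lit 55159722862) (nat_lit 380) (nat_lit 137816993060) (nat_lit 76) (nat_lit 199289681187) (nat_lit 95) (nat_lit 5) (nat_lit 100) (nat_lit 5) (nat_lit 96) (nat_lit 5) (nat_lit 404) (nat_lit 394) (nat_lit 222)) (XT.nd (nat_lit 78) (nat_lit 304) (nat_lit 0) (XT.lf (nat_lit 0) (nat_lit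 132642868178) (nat_lit 456) (nat_lit 207801435623) (nat_lit 76) (nat_lit 69545865607) (nat_lit 90) (nat_lit 5) (nat_lit 96) (nat_lit 5) (nat_lit 91) (nat_lit 5) (nat_lit 405) (nat_lit 394) (nat_lit 221)) (XT.lf (nat_lit 0) (nat_lit 146706657101) (nat_lit 304) (nat_lit 77602411920) (nat_lit 380) (nat_lit 204423554323) (nat_lit 86) (nat_lit 5) (nat_lit 90) (nat_lit 5) (nat_lit 91) (nat_lit 5) (nat_lit 406) (nat_lit 394) (nat_lit 220)))) (XT.nd (nat_lit 78) (nat_lit 304) (nat_lit 0) (XT.lf (nat_lit 0) (nat_lit 87730529041) (nat_lit 304) (nat_lit 243847194554) (nat_lit 380) (nat_lit 116983292159) (nat_lit 82) (nat_lit 5) (nat_lit 86) (nat_lit 5) (nat_lit 87) (nat_lit 5) (nat_lit 407) (nat_lit 394) (nat_lit 219)) (XT.nd (nat_lit 78) (nat_lit 76) (nat_lit 0) (XT.lf (nat_lit 0) (nat_lit 26304756266) (nat_lit 228) (nat_lit 428392077675) (nat_lit 304) (nat_lit 14915397485) (nat_lit 79) (nat_lit 5)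 (nat_lit 82) (nat_lit 5) (nat_lit 83) (nat_lit 5) (nat_lit 408) (nat_lit 394) (nat_lit 218)) (XT.lf (nat_lit 0) (nat_lit 102767277210) (nat_lit 304) (nat_lit 40440326946) (nat_lit 76) (nat_lit 348540525359) (nat_lit 78) (nat_lit 5) (nat_lit 82) (nat_lit 5) (nat_lit 79) (nat_lit 5) (nat_lit 409) (nat_lit 394) (nat_lit 217))))) (XT.nd (nat_lit 234) (nat_lit 608) (nat_lit 0) (XT.nd (nat_lit 78) (nat_lit 532) (nat_lit 0) (XT.lf (nat_lit 0) (nat_lit 238391559384) (nat_lit 380) (nat_lit 110560113743) (nat_lit 76) (nat_lit 166238522802) (nat_lit 74) (nat_lit 5) (nat_lit 79) (nat_lit 5) (nat_lit 75) (nat_lit 5) (nat_lit 410) (nat_lit 394) (nat_lit 216)) (XT.nd (nat_lit 78) (nat_lit 304) (nat_lit 0) (XT.lf (nat_lit 0) (nat_lit 355220744538) (nat_lit 228) (nat_lit 38321707484) (nat_lit 304) (nat_lit 146531342271) (nat_lit 71) (nat_lit 5) (nat_lit 74) (nat_lit 5) (nat_lit 75) (nat_lit 5) (nat_lit 411)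 (nat_lit 394) (nat_lit 215)) (XT.lf (nat_lit 0) (nat_lit 5814762057) (nat_lit 304) (nat_lit 266176874037) (nat_lit 76) (nat_lit 294387484237) (nat_lit 67) (nat_lit 5) (nat_lit 71) (nat_lit 5) (nat_lit 68) (nat_lit 5) (nat_lit 412) (nat_lit 394) (nat_lit 214)))) (XT.nd (nat_lit 78) (nat_lit 380) (nat_lit 0) (XT.lf (nat_lit 0) (nat_lit 174013793434) (nat_lit 304) (nat_lit 354772226843) (nat_lit 76) (nat_lit 65442795384) (nat_lit 64) (nat_lit 5) (nat_lit 68) (nat_lit 5) (nat_lit 65) (nat_lit 5) (nat_lit 413) (nat_lit 394) (nat_lit 213)) (XT.nd (nat_lit 78) (nat_lit 152) (nat_lit 0) (XT.lf (nat_lit 0) (nat_lit 171807724070) (nat_lit 228) (nat_lit 195842288341) (nat_lit 304) (nat_lit 256057410975) (nat_lit 61) (nat_lit 5) (nat_lit 64) (nat_lit 5) (nat_lit 65) (nat_lit 5) (nat_lit 414) (nat_lit 394) (nat_lit 212)) (XT.lf (nat_lit 0) (nat_lit 98440483454) (nat_lit 152) (nat_lit 488711134763) (nat_lit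 228) (nat_lit 67873977069) (nat_lit 59) (nat_lit 5) (nat_lit 61) (nat_lit 5) (nat_lit 62) (nat_lit 5) (nat_lit 415) (nat_lit 394) (nat_lit 211)))))) (XT.nd (nat_lit 468) (nat_lit 760) (nat_lit 0) (XT.nd (nat_lit 234) (nat_lit 532) (nat_lit 0) (XT.nd (nat_lit 78) (nat_lit 152) (nat_lit 0) (XT.lf (nat_lit 0) (nat_lit 15438791061) (nat_lit 228) (nat_lit 127136945037) (nat_lit 304) (nat_lit 545590609078) (nat_lit 55) (nat_lit 5) (nat_lit 58) (nat_lit 5) (nat_lit 59) (nat_lit 5) (nat_lit 416) (nat_lit 394) (nat_lit 210)) (XT.nd (nat_lit 78) (nat_lit 152) (nat_lit 0) (XT.lf (nat_lit 0) (nat_lit 381481330458) (nat_lit 304) (nat_lit 75788832963) (nat_lit 76) (nat_lit 265932663362) (nat_lit 55) (nat_lit 5) (nat_lit 59) (nat_lit 5) (nat_lit 56) (nat_lit 5) (nat_lit 417) (nat_lit 394) (nat_lit 209)) (XT.lf (nat_lit 0) (nat_lit 585500843640) (nat_lit 152) (nat_lit 65283557675) (nat_lit 228) (nat_lit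 109693574174) (nat_lit 53) (nat_lit 5) (nat_lit 55) (nat_lit 5) (nat_lit 56) (nat_lit 5) (nat_lit 418) (nat_lit 394) (nat_lit 208)))) (XT.nd (nat_lit 78) (nat_lit 304) (nat_lit 0) (XT.lf (nat_lit 0) (nat_lit 151565896276) (nat_lit 228) (nat_lit 289910206726) (nat_lit 76) (nat_lit 358390099325) (nat_lit 50) (nat_lit 5) (nat_lit 53) (nat_lit 5) (nat_lit 51) (nat_lit 5) (nat_lit 419) (nat_lit 394) (nat_lit 207)) (XT.nd (nat_lit 78) (nat_lit 152) (nat_lit 0) (XT.lf (nat_lit 0) (nat_lit 424257488423) (nat_lit 152) (nat_lit 16499452213) (nat_lit 228) (nat_lit 401014936683) (nat_lit 48) (nat_lit 5) (nat_lit 50) (nat_lit 5) (nat_lit 51) (nat_lit 5) (nat_lit 420) (nat_lit 394) (nat_lit 206)) (XT.lf (nat_lit 0) (nat_lit 322463409856) (nat_lit 152) (nat_lit 447695496020) (nat_lit 228) (nat_lit 116017318581) (nat_lit 46) (nat_lit 5) (nat_lit 48) (nat_lit 5) (nat_lit 49) (nat_lit 5) (nat_lit 421) (nat_lit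 394) (nat_lit 205))))) (XT.nd (nat_lit 234) (nat_lit 380) (nat_lit 0) (XT.nd (nat_lit 78) (nat_lit 152) (nat_lit 0) (XT.lf (nat_lit 0) (nat_lit 196675689229) (nat_lit 228) (nat_lit 727606080501) (nat_lit 76) (nat_lit 9149751326) (nat_lit 43) (nat_lit 5) (nat_lit 46) (nat_lit 5) (nat_lit 44) (nat_lit 5) (nat_lit 422) (nat_lit 394) (nat_lit 204)) (XT.nd (nat_lit 78) (nat_lit 0) (nat_lit 0) (XT.lf (nat_lit 0) (nat_lit 65510992633) (nat_lit 152) (nat_lit 483415033230) (nat_lit 228) (nat_lit 434515790872) (nat_lit 41) (nat_lit 5) (nat_lit 43) (nat_lit 5) (nat_lit 44) (nat_lit 5) (nat_lit 423) (nat_lit 394) (nat_lit 203)) (XT.lf (nat_lit 0) (nat_lit 942124917807) (nat_lit 228) (nat_lit 88853393952) (nat_lit 76) (nat_lit 5836197900) (nat_lit 41) (nat_lit 5) (nat_lit 44) (nat_lit 5) (nat_lit 42) (nat_lit 4) (nat_lit 424) (nat_lit 394) (nat_lit 202)))) (XT.nd (nat_lit 78) (nat_lit 228) (nat_lit 0)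 (XT.lf (nat_lit 0) (nat_lit 284980039690) (nat_lit 152) (nat_lit 273204447250) (nat_lit 76) (nat_lit 534991276866) (nat_lit 39) (nat_lit 5) (nat_lit 41) (nat_lit 5) (nat_lit 40) (nat_lit 5) (nat_lit 425) (nat_lit 394) (nat_lit 201)) (XT.nd (nat_lit 78) (nat_lit 76) (nat_lit 0) (XT.lf (nat_lit 0) (nat_lit 670545995597) (nat_lit 152) (nat_lit 33246350154) (nat_lit 228) (nat_lit 449571629820) (nat_lit 37) (nat_lit 5) (nat_lit 39) (nat_lit 5) (nat_lit 40) (nat_lit 5) (nat_lit 426) (nat_lit 394) (nat_lit 200)) (XT.lf (nat_lit 0) (nat_lit 488652749803) (nat_lit 76) (nat_lit 688255506673) (nat_lit 152) (nat_lit 40419056799) (nat_lit 36) (nat_lit 5) (nat_lit 37) (nat_lit 5) (nat_lit 38) (nat_lit 4) (nat_lit 427) (nat_lit 394) (nat_lit 199))))))) (XT.nd (nat_lit 936) (nat_lit 2812) (nat_lit 0) (XT.nd (nat_lit 468) (nat_lit 1520) (nat_lit 0) (XT.nd (nat_lit 234) (nat_lit 0) (nat_lit 152) (XT.nd (nat_lit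 78) (nat_lit 0) (nat_lit 76) (XT.lf (nat_lit 0) (nat_lit 31708951612) (nat_lit 836) (nat_lit 54256297452) (nat_lit 836) (nat_lit 54256297452) (nat_lit 110) (nat_lit 3) (nat_lit 121) (nat_lit 3) (nat_lit 121) (nat_lit 5) (nat_lit 395) (nat_lit 395) (nat_lit 230)) (XT.nd (nat_lit 78) (nat_lit 0) (nat_lit 0) (XT.lf (nat_lit 0) (nat_lit 68372640603) (nat_lit 760) (nat_lit 181011084384) (nat_lit 836) (nat_lit 42156189809) (nat_lit 111) (nat_lit 5) (nat_lit 121) (nat_lit 5) (nat_lit 122) (nat_lit 5) (nat_lit 396) (nat_lit 395) (nat_lit 229)) (XT.lf (nat_lit 76) (nat_lit 46083378155) (nat_lit 0) (nat_lit 33180011008) (nat_lit 836) (nat_lit 223984111615) (nat_lit 112) (nat_lit 5) (nat_lit 111) (nat_lit 5) (nat_lit 122) (nat_lit 5) (nat_lit 397) (nat_lit 395) (nat_lit 228)))) (XT.nd (nat_lit 78) (nat_lit 0) (nat_lit 76) (XT.lf (nat_lit 0) (nat_lit 97357622277) (nat_lit 760) (nat_lit 21104120286) (nat_lit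 836) (nat_lit 197113339926) (nat_lit 112) (nat_lit 5) (nat_lit 122) (nat_lit 5) (nat_lit 123) (nat_lit 5) (nat_lit 398) (nat_lit 395) (nat_lit 227)) (XT.nd (nat_lit 78) (nat_lit 0) (nat_lit 76) (XT.lf (nat_lit 0) (nat_lit 123091352750) (nat_lit 760) (nat_lit 89548305905) (nat_lit 836) (nat_lit 115939614224) (nat_lit 113) (nat_lit 5) (nat_lit 123) (nat_lit 5) (nat_lit 124) (nat_lit 5) (nat_lit 399) (nat_lit 395) (nat_lit 226)) (XT.lf (nat_lit 0) (nat_lit 156499057923) (nat_lit 760) (nat_lit 160821942809) (nat_lit 836) (nat_lit 25022034025) (nat_lit 114) (nat_lit 5) (nat_lit 124) (nat_lit 5) (nat_lit 125) (nat_lit 5) (nat_lit 400) (nat_lit 395) (nat_lit 225))))) (XT.nd (nat_lit 234) (nat_lit 1140) (nat_lit 0) (XT.nd (nat_lit 78) (nat_lit 684) (nat_lit 0) (XT.lf (nat_lit 76) (nat_lit 120592447163) (nat_lit 0) (nat_lit 79040561598) (nat_lit 836) (nat_lit 157222207428) (nat_lit 115) (nat_lit 5)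 (nat_lit 114) (nat_lit 5) (nat_lit 125) (nat_lit 5) (nat_lit 401) (nat_lit 395) (nat_lit 224)) (XT.nd (nat_lit 78) (nat_lit 0) (nat_lit 0) (XT.lf (nat_lit 0) (nat_lit 56864812441) (nat_lit 760) (nat_lit 195871731238) (nat_lit 836) (nat_lit 119465885117) (nat_lit 105) (nat_lit 5) (nat_lit 115) (nat_lit 5) (nat_lit 116) (nat_lit 5) (nat_lit 402) (nat_lit 395) (nat_lit 223)) (XT.lf (nat_lit 0) (nat_lit 316529731019) (nat_lit 836) (nat_lit 9018162322) (nat_lit 76) (nat_lit 62907456645) (nat_lit 105) (nat_lit 5) (nat_lit 116) (nat_lit 5) (nat_lit 106) (nat_lit 5) (nat_lit 403) (nat_lit 395) (nat_lit 222)))) (XT.nd (nat_lit 78) (nat_lit 760) (nat_lit 0) (XT.lf (nat_lit 0) (nat_lit 329035199476) (nat_lit 380) (nat_lit 64831013189) (nat_lit 456) (nat_lit 11720300294) (nat_lit 100) (nat_lit 5) (nat_lit 105) (nat_lit 5) (nat_lit 106) (nat_lit 5) (nat_lit 404) (nat_lit 395) (nat_lit 221)) (XT.nd (nat_lit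 78) (nat_lit 380) (nat_lit 0) (XT.lf (nat_lit 0) (nat_lit 59573969339) (nat_lit 380) (nat_lit 148840789697) (nat_lit 76) (nat_lit 215232875507) (nat_lit 95) (nat_lit 5) (nat_lit 100) (nat_lit 5) (nat_lit 96) (nat_lit 5) (nat_lit 405) (nat_lit 395) (nat_lit 220)) (XT.lf (nat_lit 0) (nat_lit 143255682575) (nat_lit 456) (nat_lit 224423987333) (nat_lit 76) (nat_lit 75109642972) (nat_lit 90) (nat_lit 5) (nat_lit 96) (nat_lit 5) (nat_lit 91) (nat_lit 5) (nat_lit 406) (nat_lit 395) (nat_lit 219)))))) (XT.nd (nat_lit 468) (nat_lit 1368) (nat_lit 0) (XT.nd (nat_lit 234) (nat_lit 608) (nat_lit 0) (XT.nd (nat_lit 78) (nat_lit 532) (nat_lit 0) (XT.lf (nat_lit 0) (nat_lit 158444684877) (nat_lit 304) (nat_lit 83810415364) (nat_lit 380) (nat_lit 220776066912) (nat_lit 86) (nat_lit 5) (nat_lit 90) (nat_lit 5) (nat_lit 91) (nat_lit 5) (nat_lit 407) (nat_lit 395) (nat_lit 218)) (XT.nd (nat_lit 78) (nat_lit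 228) (nat_lit 0) (XT.lf (nat_lit 0) (nat_lit 94750461950) (nat_lit 304) (nat_lit 263354714525) (nat_lit 380) (nat_lit 126340658074) (nat_lit 82) (nat_lit 5) (nat_lit 86) (nat_lit 5) (nat_lit 87) (nat_lit 5) (nat_lit 408) (nat_lit 395) (nat_lit 217)) (XT.lf (nat_lit 0) (nat_lit 28410618508) (nat_lit 228) (nat_lit 462663132489) (nat_lit 304) (nat_lit 16107399764) (nat_lit 79) (nat_lit 5) (nat_lit 82) (nat_lit 5) (nat_lit 83) (nat_lit 5) (nat_lit 409) (nat_lit 395) (nat_lit 216)))) (XT.nd (nat_lit 78) (nat_lit 532) (nat_lit 0) (XT.lf (nat_lit 0) (nat_lit 110989761394) (nat_lit 304) (nat_lit 43674144098) (nat_lit 76) (nat_lit 376424018699) (nat_lit 78) (nat_lit 5) (nat_lit 82) (nat_lit 5) (nat_lit 79) (nat_lit 5) (nat_lit 410) (nat_lit 395) (nat_lit 215)) (XT.nd (nat_lit 78) (nat_lit 228) (nat_lit 0) (XT.lf (nat_lit 0) (nat_lit 257463930338) (nat_lit 380) (nat_lit 119403527243) (nat_lit 76) (nat_lit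 179537901172) (nat_lit 74) (nat_lit 5) (nat_lit 79) (nat_lit 5) (nat_lit 75) (nat_lit 5) (nat_lit 411) (nat_lit 395) (nat_lit 214)) (XT.lf (nat_lit 0) (nat_lit 383639739048) (nat_lit 228) (nat_lit 41387098683) (nat_lit 304) (nat_lit 158252810126) (nat_lit 71) (nat_lit 5) (nat_lit 74) (nat_lit 5) (nat_lit 75) (nat_lit 5) (nat_lit 412) (nat_lit 395) (nat_lit 213))))) (XT.nd (nat_lit 234) (nat_lit 608) (nat_lit 0) (XT.nd (nat_lit 78) (nat_lit 456) (nat_lit 0) (XT.lf (nat_lit 0) (nat_lit 6280900754) (nat_lit 304) (nat_lit 287469672270) (nat_lit 76) (nat_lit 317938828604) (nat_lit 67) (nat_lit 5) (nat_lit 71) (nat_lit 5) (nat_lit 68) (nat_lit 5) (nat_lit 413) (nat_lit 395) (nat_lit 212)) (XT.nd (nat_lit 78) (nat_lit 228) (nat_lit 0) (XT.lf (nat_lit 0) (nat_lit 187935809911) (nat_lit 304) (nat_lit 383152672312) (nat_lit 76) (nat_lit 70678592632) (nat_lit 64) (nat_lit 5) (nat_lit 68) (nat_lit 5)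 (nat_lit 65) (nat_lit 5) (nat_lit 414) (nat_lit 395) (nat_lit 211)) (XT.lf (nat_lit 0) (nat_lit 185553616758) (nat_lit 228) (nat_lit 211509261922) (nat_lit 304) (nat_lit 276541094935) (nat_lit 61) (nat_lit 5) (nat_lit 64) (nat_lit 5) (nat_lit 65) (nat_lit 5) (nat_lit 415) (nat_lit 395) (nat_lit 210)))) (XT.nd (nat_lit 156) (nat_lit 152) (nat_lit 0) (XT.nd (nat_lit 78) (nat_lit 304) (nat_lit 0) (XT.lf (nat_lit 0) (nat_lit 106316977123) (nat_lit 152) (nat_lit 527807597245) (nat_lit 228) (nat_lit 73303026855) (nat_lit 59) (nat_lit 5) (nat_lit 61) (nat_lit 5) (nat_lit 62) (nat_lit 5) (nat_lit 416) (nat_lit 395) (nat_lit 209)) (XT.lf (nat_lit 0) (nat_lit 16675121703) (nat_lit 228) (nat_lit 137307470765) (nat_lit 304) (nat_lit 589237020138) (nat_lit 55) (nat_lit 5) (nat_lit 58) (nat_lit 5) (nat_lit 59) (nat_lit 5) (nat_lit 417) (nat_lit 395) (nat_lit 208))) (XT.nd (nat_lit 78) (nat_lit 152) (nat_lit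 0) (XT.lf (nat_lit 0) (nat_lit 412000581520) (nat_lit 304) (nat_lit 81850772166) (nat_lit 76) (nat_lit 287207661724) (nat_lit 55) (nat_lit 5) (nat_lit 59) (nat_lit 5) (nat_lit 56) (nat_lit 5) (nat_lit 418) (nat_lit 395) (nat_lit 207)) (XT.lf (nat_lit 0) (nat_lit 632342027831) (nat_lit 152) (nat_lit 70505832491) (nat_lit 228) (nat_lit 118468317596) (nat_lit 53) (nat_lit 5) (nat_lit 55) (nat_lit 5) (nat_lit 56) (nat_lit 5) (nat_lit 419) (nat_lit 395) (nat_lit 206))))))))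
noncomputable def xc120 : XT := (XT.nd (nat_lit 52572) (nat_lit 0) (nat_lit 304) (XT.nd (nat_lit 51636) (nat_lit 0) (nat_lit 2812) (XT.nd (nat_lit 546) (nat_lit 152) (nat_lit 0) (XT.nd (nat_lit 234) (nat_lit 532) (nat_lit 0) (XT.nd (nat_lit 78) (nat_lit 304) (nat_lit 0) (XT.lf (nat_lit 0) (nat_lit 163691856900) (nat_lit 228) (nat_lit 313101904139) (nat_lit 76) (nat_lit 387061702793) (nat_lit 50) (nat_lit 5) (nat_lit 53) (nat_lit 5) (nat_lit 51) (nat_lit 5) (nat_lit 420) (nat_lit 395) (nat_lit 205)) (XT.nd (nat_lit 78) (nat_lit 152) (nat_lit 0) (XT.lf (nat_lit 0) (nat_lit 458199157986) (nat_lit 152) (nat_lit 17818992506) (nat_lit 228) (nat_lit 433095444066) (nat_lit 48) (nat_lit 5) (nat_lit 50) (nat_lit 5) (nat_lit 51) (nat_lit 5) (nat_lit 421) (nat_lit 395) (nat_lit 204)) (XT.lf (nat_lit 0) (nat_lit 348261531915) (nat_lit 152) (nat_lit 483510714940) (nat_lit 228) (nat_lit 125298043933) (nat_lit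 46) (nat_lit 5) (nat_lit 48) (nat_lit 5) (nat_lit 49) (nat_lit 5) (nat_lit 422) (nat_lit 395) (nat_lit 203)))) (XT.nd (nat_lit 78) (nat_lit 304) (nat_lit 0) (XT.lf (nat_lit 0) (nat_lit 212410358530) (nat_lit 228) (nat_lit 785813518819) (nat_lit 76) (nat_lit 9882134507) (nat_lit 43) (nat_lit 5) (nat_lit 46) (nat_lit 5) (nat_lit 44) (nat_lit 5) (nat_lit 423) (nat_lit 395) (nat_lit 202)) (XT.nd (nat_lit 156) (nat_lit 152) (nat_lit 0) (XT.lf (nat_lit 0) (nat_lit 70752874616) (nat_lit 152) (nat_lit 522087817638) (nat_lit 228) (nat_lit 469276440440) (nat_lit 41) (nat_lit 5) (nat_lit 43) (nat_lit 5) (nat_lit 44) (nat_lit 5) (nat_lit 424) (nat_lit 395) (nat_lit 201)) (XT.lf (nat_lit 0) (nat_lit 307778972278) (nat_lit 152) (nat_lit 295059877190) (nat_lit 76) (nat_lit 577790948839) (nat_lit 39) (nat_lit 5) (nat_lit 41) (nat_lit 5) (nat_lit 40) (nat_lit 5) (nat_lit 426) (nat_lit 395) (nat_lit 199)))))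 (XT.nd (nat_lit 50856) (nat_lit 0) (nat_lit 5624) (XT.nd (nat_lit 50700) (nat_lit 0) (nat_lit 5548) (XT.lf (nat_lit 0) (nat_lit 724190560849) (nat_lit 152) (nat_lit 35905676586) (nat_lit 228) (nat_lit 485536830857) (nat_lit 37) (nat_lit 5) (nat_lit 39) (nat_lit 5) (nat_lit 40) (nat_lit 5) (nat_lit 427) (nat_lit 395) (nat_lit 198)) (XT.nd (nat_lit 78) (nat_lit 0) (nat_lit 76) (XT.lf (nat_lit 0) (nat_lit 34246908536) (nat_lit 836) (nat_lit 58596149393) (nat_lit 836) (nat_lit 58596149393) (nat_lit 110) (nat_lit 3) (nat_lit 121) (nat_lit 3) (nat_lit 121) (nat_lit 5) (nat_lit 396) (nat_lit 396) (nat_lit 228)) (XT.lf (nat_lit 0) (nat_lit 73844752380) (nat_lit 760) (nat_lit 195490589889) (nat_lit 836) (nat_lit 45527649062) (nat_lit 111) (nat_lit 5) (nat_lit 121) (nat_lit 5) (nat_lit 122) (nat_lit 5) (nat_lit 397) (nat_lit 396) (nat_lit 227)))) (XT.nd (nat_lit 78) (nat_lit 0) (nat_lit 76) (XT.lf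 (nat_lit 76) (nat_lit 49771369626) (nat_lit 0) (nat_lit 35835241418) (nat_lit 836) (nat_lit 241900580757) (nat_lit 112) (nat_lit 5) (nat_lit 111) (nat_lit 5) (nat_lit 122) (nat_lit 5) (nat_lit 398) (nat_lit 396) (nat_lit 226)) (XT.nd (nat_lit 78) (nat_lit 0) (nat_lit 76) (XT.lf (nat_lit 0) (nat_lit 105148211500) (nat_lit 760) (nat_lit 22791113604) (nat_lit 836) (nat_lit 212881663621) (nat_lit 112) (nat_lit 5) (nat_lit 122) (nat_lit 5) (nat_lit 123) (nat_lit 5) (nat_lit 399) (nat_lit 396) (nat_lit 225)) (XT.lf (nat_lit 0) (nat_lit 132940504772) (nat_lit 760) (nat_lit 96710789249) (nat_lit 836) (nat_lit 125214227209) (nat_lit 113) (nat_lit 5) (nat_lit 123) (nat_lit 5) (nat_lit 124) (nat_lit 5) (nat_lit 400) (nat_lit 396) (nat_lit 224)))))) (XT.nd (nat_lit 468) (nat_lit 1596) (nat_lit 0) (XT.nd (nat_lit 234) (nat_lit 760) (nat_lit 0) (XT.nd (nat_lit 78) (nat_lit 684) (nat_lit 0) (XT.lf (nat_lit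 0) (nat_lit 169020704056) (nat_lit 760) (nat_lit 173686283193) (nat_lit 836) (nat_lit 27023403020) (nat_lit 114) (nat_lit 5) (nat_lit 124) (nat_lit 5) (nat_lit 125) (nat_lit 5) (nat_lit 401) (nat_lit 396) (nat_lit 223)) (XT.nd (nat_lit 78) (nat_lit 684) (nat_lit 0) (XT.lf (nat_lit 76) (nat_lit 130241196481) (nat_lit 0) (nat_lit 85364068095) (nat_lit 836) (nat_lit 169798287048) (nat_lit 115) (nat_lit 5) (nat_lit 114) (nat_lit 5) (nat_lit 125) (nat_lit 5) (nat_lit 402) (nat_lit 396) (nat_lit 222)) (XT.lf (nat_lit 0) (nat_lit 61415374367) (nat_lit 760) (nat_lit 211541605998) (nat_lit 836) (nat_lit 129021566053) (nat_lit 105) (nat_lit 5) (nat_lit 115) (nat_lit 5) (nat_lit 116) (nat_lit 5) (nat_lit 403) (nat_lit 396) (nat_lit 221)))) (XT.nd (nat_lit 78) (nat_lit 760) (nat_lit 0) (XT.lf (nat_lit 0) (nat_lit 341853508635) (nat_lit 836) (nat_lit 9738267401) (nat_lit 76) (nat_lit 67939931046) (nat_lit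 105) (nat_lit 5) (nat_lit 116) (nat_lit 5) (nat_lit 106) (nat_lit 5) (nat_lit 404) (nat_lit 396) (nat_lit 220)) (XT.nd (nat_lit 78) (nat_lit 380) (nat_lit 0) (XT.lf (nat_lit 0) (nat_lit 355359304763) (nat_lit 380) (nat_lit 70017520540) (nat_lit 456) (nat_lit 12656542035) (nat_lit 100) (nat_lit 5) (nat_lit 105) (nat_lit 5) (nat_lit 106) (nat_lit 5) (nat_lit 405) (nat_lit 396) (nat_lit 219)) (XT.lf (nat_lit 0) (nat_lit 64341146015) (nat_lit 380) (nat_lit 160746713017) (nat_lit 76) (nat_lit 232451522545) (nat_lit 95) (nat_lit 5) (nat_lit 100) (nat_lit 5) (nat_lit 96) (nat_lit 5) (nat_lit 406) (nat_lit 396) (nat_lit 218))))) (XT.nd (nat_lit 234) (nat_lit 608) (nat_lit 0) (XT.nd (nat_lit 78) (nat_lit 608) (nat_lit 0) (XT.lf (nat_lit 0) (nat_lit 154717324546) (nat_lit 456) (nat_lit 242376566178) (nat_lit 76) (nat_lit 81118507102) (nat_lit 90) (nat_lit 5) (nat_lit 96) (nat_lit 5) (nat_lit 91) (nat_lit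 5) (nat_lit 407) (nat_lit 396) (nat_lit 217)) (XT.nd (nat_lit 78) (nat_lit 304) (nat_lit 0) (XT.lf (nat_lit 0) (nat_lit 171121541568) (nat_lit 304) (nat_lit 90515086119) (nat_lit 380) (nat_lit 238436976205) (nat_lit 86) (nat_lit 5) (nat_lit 90) (nat_lit 5) (nat_lit 91) (nat_lit 5) (nat_lit 408) (nat_lit 396) (nat_lit 216)) (XT.lf (nat_lit 0) (nat_lit 102331776843) (nat_lit 304) (nat_lit 284422872557) (nat_lit 380) (nat_lit 136446798359) (nat_lit 82) (nat_lit 5) (nat_lit 86) (nat_lit 5) (nat_lit 87) (nat_lit 5) (nat_lit 409) (nat_lit 396) (nat_lit 215)))) (XT.nd (nat_lit 78) (nat_lit 380) (nat_lit 0) (XT.lf (nat_lit 0) (nat_lit 30684738342) (nat_lit 228) (nat_lit 499675916113) (nat_lit 304) (nat_lit 17394937630) (nat_lit 79) (nat_lit 5) (nat_lit 82) (nat_lit 5) (nat_lit 83) (nat_lit 5) (nat_lit 410) (nat_lit 396) (nat_lit 214)) (XT.nd (nat_lit 78) (nat_lit 304) (nat_lit 0) (XT.lf (nat_lit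 0) (nat_lit 119869887099) (nat_lit 304) (nat_lit 47166867633) (nat_lit 76) (nat_lit 406538155654) (nat_lit 78) (nat_lit 5) (nat_lit 82) (nat_lit 5) (nat_lit 79) (nat_lit 5) (nat_lit 411) (nat_lit 396) (nat_lit 213)) (XT.lf (nat_lit 0) (nat_lit 278061941715) (nat_lit 380) (nat_lit 128954612922) (nat_lit 76) (nat_lit 193901187505) (nat_lit 74) (nat_lit 5) (nat_lit 79) (nat_lit 5) (nat_lit 75) (nat_lit 5) (nat_lit 412) (nat_lit 396) (nat_lit 212))))))) (XT.nd (nat_lit 1014) (nat_lit 152) (nat_lit 0) (XT.nd (nat_lit 468) (nat_lit 912) (nat_lit 0) (XT.nd (nat_lit 234) (nat_lit 684) (nat_lit 0) (XT.nd (nat_lit 78) (nat_lit 532) (nat_lit 0) (XT.lf (nat_lit 0) (nat_lit 414332062675) (nat_lit 228) (nat_lit 44697770453) (nat_lit 304) (nat_lit 170912143709) (nat_lit 71) (nat_lit 5) (nat_lit 74) (nat_lit 5) (nat_lit 75) (nat_lit 5) (nat_lit 413) (nat_lit 396) (nat_lit 211)) (XT.nd (nat_lit 78) (nat_lit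 228) (nat_lit 0) (XT.lf (nat_lit 0) (nat_lit 6784193916) (nat_lit 304) (nat_lit 310466087196) (nat_lit 76) (nat_lit 343374231213) (nat_lit 67) (nat_lit 5) (nat_lit 71) (nat_lit 5) (nat_lit 68) (nat_lit 5) (nat_lit 414) (nat_lit 396) (nat_lit 210)) (XT.lf (nat_lit 0) (nat_lit 202971457457) (nat_lit 304) (nat_lit 413803743540) (nat_lit 76) (nat_lit 76333200359) (nat_lit 64) (nat_lit 5) (nat_lit 68) (nat_lit 5) (nat_lit 65) (nat_lit 5) (nat_lit 415) (nat_lit 396) (nat_lit 209)))) (XT.nd (nat_lit 78) (nat_lit 456) (nat_lit 0) (XT.lf (nat_lit 0) (nat_lit 200398999001) (nat_lit 228) (nat_lit 228429651807) (nat_lit 304) (nat_lit 298663603280) (nat_lit 61) (nat_lit 5) (nat_lit 64) (nat_lit 5) (nat_lit 65) (nat_lit 5) (nat_lit 416) (nat_lit 396) (nat_lit 208)) (XT.nd (nat_lit 78) (nat_lit 304) (nat_lit 0) (XT.lf (nat_lit 0) (nat_lit 114823411247) (nat_lit 152) (nat_lit 570031837828) (nat_lit 228)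 (nat_lit 79166524507) (nat_lit 59) (nat_lit 5) (nat_lit 61) (nat_lit 5) (nat_lit 62) (nat_lit 5) (nat_lit 417) (nat_lit 396) (nat_lit 207)) (XT.lf (nat_lit 0) (nat_lit 18010183701) (nat_lit 228) (nat_lit 148291699878) (nat_lit 304) (nat_lit 636375263585) (nat_lit 55) (nat_lit 5) (nat_lit 58) (nat_lit 5) (nat_lit 59) (nat_lit 5) (nat_lit 418) (nat_lit 396) (nat_lit 206))))) (XT.nd (nat_lit 234) (nat_lit 532) (nat_lit 0) (XT.nd (nat_lit 78) (nat_lit 380) (nat_lit 0) (XT.lf (nat_lit 0) (nat_lit 444961266437) (nat_lit 304) (nat_lit 88397833052) (nat_lit 76) (nat_lit 310184604988) (nat_lit 55) (nat_lit 5) (nat_lit 59) (nat_lit 5) (nat_lit 56) (nat_lit 5) (nat_lit 419) (nat_lit 396) (nat_lit 205)) (XT.nd (nat_lit 78) (nat_lit 228) (nat_lit 0) (XT.lf (nat_lit 0) (nat_lit 682930347447) (nat_lit 152) (nat_lit 76145947755) (nat_lit 228) (nat_lit 127945146419) (nat_lit 53) (nat_lit 5) (nat_lit 55) (nat_lit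 5) (nat_lit 56) (nat_lit 5) (nat_lit 420) (nat_lit 396) (nat_lit 204)) (XT.lf (nat_lit 0) (nat_lit 176787796092) (nat_lit 228) (nat_lit 338149097001) (nat_lit 76) (nat_lit 418026978114) (nat_lit 50) (nat_lit 5) (nat_lit 53) (nat_lit 5) (nat_lit 51) (nat_lit 5) (nat_lit 421) (nat_lit 396) (nat_lit 203)))) (XT.nd (nat_lit 78) (nat_lit 380) (nat_lit 0) (XT.lf (nat_lit 0) (nat_lit 494856008396) (nat_lit 152) (nat_lit 19244155352) (nat_lit 228) (nat_lit 467742490128) (nat_lit 48) (nat_lit 5) (nat_lit 50) (nat_lit 5) (nat_lit 51) (nat_lit 5) (nat_lit 422) (nat_lit 396) (nat_lit 202)) (XT.nd (nat_lit 78) (nat_lit 228) (nat_lit 0) (XT.lf (nat_lit 0) (nat_lit 376123354049) (nat_lit 152) (nat_lit 522191211400) (nat_lit 228) (nat_lit 135321321488) (nat_lit 46) (nat_lit 5) (nat_lit 48) (nat_lit 5) (nat_lit 49) (nat_lit 5) (nat_lit 423) (nat_lit 396) (nat_lit 201)) (XT.lf (nat_lit 0) (nat_lit 229403713757)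 (nat_lit 228) (nat_lit 848677701729) (nat_lit 76) (nat_lit 10673050839) (nat_lit 43) (nat_lit 5) (nat_lit 46) (nat_lit 5) (nat_lit 44) (nat_lit 5) (nat_lit 424) (nat_lit 396) (nat_lit 200)))))) (XT.nd (nat_lit 51246) (nat_lit 0) (nat_lit 3724) (XT.nd (nat_lit 51012) (nat_lit 0) (nat_lit 5320) (XT.nd (nat_lit 50856) (nat_lit 0) (nat_lit 5244) (XT.lf (nat_lit 0) (nat_lit 1098895564019) (nat_lit 228) (nat_lit 103636759271) (nat_lit 76) (nat_lit 6808067488) (nat_lit 41) (nat_lit 5) (nat_lit 44) (nat_lit 5) (nat_lit 42) (nat_lit 4) (nat_lit 426) (nat_lit 396) (nat_lit 198)) (XT.nd (nat_lit 78) (nat_lit 0) (nat_lit 76) (XT.lf (nat_lit 0) (nat_lit 36987725000) (nat_lit 836) (nat_lit 63283282484) (nat_lit 836) (nat_lit 63283282484) (nat_lit 110) (nat_lit 3) (nat_lit 121) (nat_lit 3) (nat_lit 121) (nat_lit 5) (nat_lit 397) (nat_lit 397) (nat_lit 226)) (XT.lf (nat_lit 0) (nat_lit 79754304903) (nat_lit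 760) (nat_lit 211128652885) (nat_lit 836) (nat_lit 49168972842) (nat_lit 111) (nat_lit 5) (nat_lit 121) (nat_lit 5) (nat_lit 122) (nat_lit 5) (nat_lit 398) (nat_lit 397) (nat_lit 225)))) (XT.nd (nat_lit 78) (nat_lit 0) (nat_lit 76) (XT.lf (nat_lit 76) (nat_lit 53754211928) (nat_lit 0) (nat_lit 38702771918) (nat_lit 836) (nat_lit 261250689815) (nat_lit 112) (nat_lit 5) (nat_lit 111) (nat_lit 5) (nat_lit 122) (nat_lit 5) (nat_lit 399) (nat_lit 397) (nat_lit 224)) (XT.nd (nat_lit 78) (nat_lit 0) (nat_lit 76) (XT.lf (nat_lit 0) (nat_lit 113561765471) (nat_lit 760) (nat_lit 24613257027) (nat_lit 836) (nat_lit 229911559280) (nat_lit 112) (nat_lit 5) (nat_lit 122) (nat_lit 5) (nat_lit 123) (nat_lit 5) (nat_lit 400) (nat_lit 397) (nat_lit 223)) (XT.lf (nat_lit 0) (nat_lit 143577325917) (nat_lit 760) (nat_lit 104446468295) (nat_lit 836) (nat_lit 135230888575) (nat_lit 113) (nat_lit 5) (nat_lit 123)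 (nat_lit 5) (nat_lit 124) (nat_lit 5) (nat_lit 401) (nat_lit 397) (nat_lit 222))))) (XT.nd (nat_lit 234) (nat_lit 1140) (nat_lit 0) (XT.nd (nat_lit 78) (nat_lit 684) (nat_lit 0) (XT.lf (nat_lit 0) (nat_lit 182543836289) (nat_lit 760) (nat_lit 187579972679) (nat_lit 836) (nat_lit 29184937705) (nat_lit 114) (nat_lit 5) (nat_lit 124) (nat_lit 5) (nat_lit 125) (nat_lit 5) (nat_lit 402) (nat_lit 397) (nat_lit 221)) (XT.nd (nat_lit 78) (nat_lit 684) (nat_lit 0) (XT.lf (nat_lit 76) (nat_lit 140661652646) (nat_lit 0) (nat_lit 92193417795) (nat_lit 836) (nat_lit 183380695130) (nat_lit 115) (nat_lit 5) (nat_lit 114) (nat_lit 5) (nat_lit 125) (nat_lit 5) (nat_lit 403) (nat_lit 397) (nat_lit 220)) (XT.lf (nat_lit 0) (nat_lit 66329784812) (nat_lit 760) (nat_lit 228465051301) (nat_lit 836) (nat_lit 139341928276) (nat_lit 105) (nat_lit 5) (nat_lit 115) (nat_lit 5) (nat_lit 116) (nat_lit 5) (nat_lit 404)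 (nat_lit 397) (nat_lit 219)))) (XT.nd (nat_lit 156) (nat_lit 760) (nat_lit 0) (XT.nd (nat_lit 78) (nat_lit 380) (nat_lit 0) (XT.lf (nat_lit 0) (nat_lit 369202988858) (nat_lit 836) (nat_lit 10516173180) (nat_lit 76) (nat_lit 73375020823) (nat_lit 105) (nat_lit 5) (nat_lit 116) (nat_lit 5) (nat_lit 106) (nat_lit 5) (nat_lit 405) (nat_lit 397) (nat_lit 218)) (XT.lf (nat_lit 0) (nat_lit 383789154536) (nat_lit 380) (nat_lit 75618944728) (nat_lit 456) (nat_lit 13667880314) (nat_lit 100) (nat_lit 5) (nat_lit 105) (nat_lit 5) (nat_lit 106) (nat_lit 5) (nat_lit 406) (nat_lit 397) (nat_lit 217))) (XT.nd (nat_lit 78) (nat_lit 380) (nat_lit 0) (XT.lf (nat_lit 0) (nat_lit 69489517196) (nat_lit 380) (nat_lit 173605301349) (nat_lit 76) (nat_lit 251047658920) (nat_lit 95) (nat_lit 5) (nat_lit 100) (nat_lit 5) (nat_lit 96) (nat_lit 5) (nat_lit 407) (nat_lit 397) (nat_lit 216)) (XT.lf (nat_lit 0) (nat_lit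 167095728484) (nat_lit 456) (nat_lit 261765542517) (nat_lit 76) (nat_lit 87608067138) (nat_lit 90) (nat_lit 5) (nat_lit 96) (nat_lit 5) (nat_lit 91) (nat_lit 5) (nat_lit 408) (nat_lit 397) (nat_lit 215))))))))
noncomputable def xc121 : XT := (XT.nd (nat_lit 52728) (nat_lit 0) (nat_lit 152) (XT.nd (nat_lit 936) (nat_lit 1064) (nat_lit 0) (XT.nd (nat_lit 468) (nat_lit 1216) (nat_lit 0) (XT.nd (nat_lit 234) (nat_lit 608) (nat_lit 0) (XT.nd (nat_lit 78) (nat_lit 532) (nat_lit 0) (XT.lf (nat_lit 0) (nat_lit 184812363916) (nat_lit 304) (nat_lit 97756153713) (nat_lit 380) (nat_lit 257510926020) (nat_lit 86) (nat_lit 5) (nat_lit 90) (nat_lit 5) (nat_lit 91) (nat_lit 5) (nat_lit 409) (nat_lit 397) (nat_lit 214)) (XT.nd (nat_lit 78) (nat_lit 228) (nat_lit 0) (XT.lf (nat_lit 0) (nat_lit 110519414615) (nat_lit 304) (nat_lit 307176514493) (nat_lit 380) (nat_lit 147361588558) (nat_lit 82) (nat_lit 5) (nat_lit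 86) (nat_lit 5) (nat_lit 87) (nat_lit 5) (nat_lit 410) (nat_lit 397) (nat_lit 213)) (XT.lf (nat_lit 0) (nat_lit 33140606532) (nat_lit 228) (nat_lit 539649760514) (nat_lit 304) (nat_lit 18785628907) (nat_lit 79) (nat_lit 5) (nat_lit 82) (nat_lit 5) (nat_lit 83) (nat_lit 5) (nat_lit 411) (nat_lit 397) (nat_lit 212)))) (XT.nd (nat_lit 78) (nat_lit 532) (nat_lit 0) (XT.lf (nat_lit 0) (nat_lit 129460288075) (nat_lit 304) (nat_lit 50939181384) (nat_lit 76) (nat_lit 439061392828) (nat_lit 78) (nat_lit 5) (nat_lit 82) (nat_lit 5) (nat_lit 79) (nat_lit 5) (nat_lit 412) (nat_lit 397) (nat_lit 211)) (XT.nd (nat_lit 78) (nat_lit 228) (nat_lit 0) (XT.lf (nat_lit 0) (nat_lit 300307666042) (nat_lit 380) (nat_lit 139269956148) (nat_lit 76) (nat_lit 209413500475) (nat_lit 74) (nat_lit 5) (nat_lit 79) (nat_lit 5) (nat_lit 75) (nat_lit 5) (nat_lit 413) (nat_lit 397) (nat_lit 210)) (XT.lf (nat_lit 0) (nat_lit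 447479608915) (nat_lit 228) (nat_lit 48273338211) (nat_lit 304) (nat_lit 184584351123) (nat_lit 71) (nat_lit 5) (nat_lit 74) (nat_lit 5) (nat_lit 75) (nat_lit 5) (nat_lit 414) (nat_lit 397) (nat_lit 209))))) (XT.nd (nat_lit 234) (nat_lit 456) (nat_lit 0) (XT.nd (nat_lit 78) (nat_lit 456) (nat_lit 0) (XT.lf (nat_lit 0) (nat_lit 7327633392) (nat_lit 304) (nat_lit 335302380640) (nat_lit 76) (nat_lit 370844423757) (nat_lit 67) (nat_lit 5) (nat_lit 71) (nat_lit 5) (nat_lit 68) (nat_lit 5) (nat_lit 415) (nat_lit 397) (nat_lit 208)) (XT.nd (nat_lit 78) (nat_lit 228) (nat_lit 0) (XT.lf (nat_lit 0) (nat_lit 219209845137) (nat_lit 304) (nat_lit 446907063465) (nat_lit 76) (nat_lit 82440131007) (nat_lit 64) (nat_lit 5) (nat_lit 68) (nat_lit 5) (nat_lit 65) (nat_lit 5) (nat_lit 416) (nat_lit 397) (nat_lit 207)) (XT.lf (nat_lit 0) (nat_lit 216431855910) (nat_lit 228) (nat_lit 246703722966) (nat_lit 304)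 (nat_lit 322556023460) (nat_lit 61) (nat_lit 5) (nat_lit 64) (nat_lit 5) (nat_lit 65) (nat_lit 5) (nat_lit 417) (nat_lit 397) (nat_lit 206)))) (XT.nd (nat_lit 78) (nat_lit 304) (nat_lit 0) (XT.lf (nat_lit 0) (nat_lit 124010206604) (nat_lit 152) (nat_lit 615634070042) (nat_lit 228) (nat_lit 85499208183) (nat_lit 59) (nat_lit 5) (nat_lit 61) (nat_lit 5) (nat_lit 62) (nat_lit 5) (nat_lit 418) (nat_lit 397) (nat_lit 205)) (XT.nd (nat_lit 78) (nat_lit 0) (nat_lit 0) (XT.lf (nat_lit 0) (nat_lit 19451900542) (nat_lit 228) (nat_lit 160154719898) (nat_lit 304) (nat_lit 687284668962) (nat_lit 55) (nat_lit 5) (nat_lit 58) (nat_lit 5) (nat_lit 59) (nat_lit 5) (nat_lit 419) (nat_lit 397) (nat_lit 204)) (XT.lf (nat_lit 0) (nat_lit 480558715073) (nat_lit 304) (nat_lit 95468801596) (nat_lit 76) (nat_lit 334999656589) (nat_lit 55) (nat_lit 5) (nat_lit 59) (nat_lit 5) (nat_lit 56) (nat_lit 5) (nat_lit 420)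 (nat_lit 397) (nat_lit 203)))))) (XT.nd (nat_lit 51324) (nat_lit 0) (nat_lit 5244) (XT.nd (nat_lit 234) (nat_lit 532) (nat_lit 0) (XT.nd (nat_lit 78) (nat_lit 380) (nat_lit 0) (XT.lf (nat_lit 0) (nat_lit 737565596050) (nat_lit 152) (nat_lit 82237322362) (nat_lit 228) (nat_lit 138180212364) (nat_lit 53) (nat_lit 5) (nat_lit 55) (nat_lit 5) (nat_lit 56) (nat_lit 5) (nat_lit 421) (nat_lit 397) (nat_lit 202)) (XT.nd (nat_lit 78) (nat_lit 152) (nat_lit 0) (XT.lf (nat_lit 0) (nat_lit 190931326157) (nat_lit 228) (nat_lit 365200202172) (nat_lit 76) (nat_lit 451469427084) (nat_lit 50) (nat_lit 5) (nat_lit 53) (nat_lit 5) (nat_lit 51) (nat_lit 5) (nat_lit 422) (nat_lit 397) (nat_lit 201)) (XT.lf (nat_lit 0) (nat_lit 534445275909) (nat_lit 152) (nat_lit 20783382093) (nat_lit 228) (nat_lit 505161383967) (nat_lit 48) (nat_lit 5) (nat_lit 50) (nat_lit 5) (nat_lit 51) (nat_lit 5) (nat_lit 423) (nat_lit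 397) (nat_lit 200)))) (XT.nd (nat_lit 78) (nat_lit 380) (nat_lit 0) (XT.lf (nat_lit 0) (nat_lit 406213993618) (nat_lit 152) (nat_lit 563966199039) (nat_lit 228) (nat_lit 146146541988) (nat_lit 46) (nat_lit 5) (nat_lit 48) (nat_lit 5) (nat_lit 49) (nat_lit 5) (nat_lit 424) (nat_lit 397) (nat_lit 199)) (XT.nd (nat_lit 78) (nat_lit 152) (nat_lit 0) (XT.lf (nat_lit 0) (nat_lit 247756462286) (nat_lit 228) (nat_lit 916571147466) (nat_lit 76) (nat_lit 11527191178) (nat_lit 43) (nat_lit 5) (nat_lit 46) (nat_lit 5) (nat_lit 44) (nat_lit 5) (nat_lit 425) (nat_lit 397) (nat_lit 198)) (XT.lf (nat_lit 0) (nat_lit 82527818180) (nat_lit 152) (nat_lit 608962535799) (nat_lit 228) (nat_lit 547363020798) (nat_lit 41) (nat_lit 5) (nat_lit 43) (nat_lit 5) (nat_lit 44) (nat_lit 5) (nat_lit 426) (nat_lit 397) (nat_lit 197))))) (XT.nd (nat_lit 234) (nat_lit 0) (nat_lit 152) (XT.nd (nat_lit 78) (nat_lit 0) (nat_lit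 76) (XT.lf (nat_lit 0) (nat_lit 39947655021) (nat_lit 836) (nat_lit 68345465950) (nat_lit 836) (nat_lit 68345465950) (nat_lit 110) (nat_lit 3) (nat_lit 121) (nat_lit 3) (nat_lit 121) (nat_lit 5) (nat_lit 398) (nat_lit 398) (nat_lit 224)) (XT.nd (nat_lit 78) (nat_lit 0) (nat_lit 0) (XT.lf (nat_lit 0) (nat_lit 86136340253) (nat_lit 760) (nat_lit 228017929859) (nat_lit 836) (nat_lit 53101729228) (nat_lit 111) (nat_lit 5) (nat_lit 121) (nat_lit 5) (nat_lit 122) (nat_lit 5) (nat_lit 399) (nat_lit 398) (nat_lit 223)) (XT.lf (nat_lit 76) (nat_lit 58055520017) (nat_lit 0) (nat_lit 41799603400) (nat_lit 836) (nat_lit 282149083990) (nat_lit 112) (nat_lit 5) (nat_lit 111) (nat_lit 5) (nat_lit 122) (nat_lit 5) (nat_lit 400) (nat_lit 398) (nat_lit 222)))) (XT.nd (nat_lit 78) (nat_lit 0) (nat_lit 76) (XT.lf (nat_lit 0) (nat_lit 122648161657) (nat_lit 760) (nat_lit 26581335365) (nat_lit 836) (nat_lit 248303937529)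 (nat_lit 112) (nat_lit 5) (nat_lit 122) (nat_lit 5) (nat_lit 123) (nat_lit 5) (nat_lit 401) (nat_lit 398) (nat_lit 221)) (XT.nd (nat_lit 78) (nat_lit 0) (nat_lit 76) (XT.lf (nat_lit 0) (nat_lit 155064867239) (nat_lit 760) (nat_lit 112801170589) (nat_lit 836) (nat_lit 146048950872) (nat_lit 113) (nat_lit 5) (nat_lit 123) (nat_lit 5) (nat_lit 124) (nat_lit 5) (nat_lit 402) (nat_lit 398) (nat_lit 220)) (XT.lf (nat_lit 0) (nat_lit 197148608546) (nat_lit 760) (nat_lit 202585330396) (nat_lit 836) (nat_lit 31519443321) (nat_lit 114) (nat_lit 5) (nat_lit 124) (nat_lit 5) (nat_lit 125) (nat_lit 5) (nat_lit 403) (nat_lit 398) (nat_lit 219))))))) (XT.nd (nat_lit 936) (nat_lit 2128) (nat_lit 0) (XT.nd (nat_lit 468) (nat_lit 1444) (nat_lit 0) (XT.nd (nat_lit 234) (nat_lit 1140) (nat_lit 0) (XT.nd (nat_lit 78) (nat_lit 684) (nat_lit 0) (XT.lf (nat_lit 76) (nat_lit 151915579754) (nat_lit 0) (nat_lit 99569083480)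 (nat_lit 836) (nat_lit 198049903415) (nat_lit 115) (nat_lit 5) (nat_lit 114) (nat_lit 5) (nat_lit 125) (nat_lit 5) (nat_lit 404) (nat_lit 398) (nat_lit 218)) (XT.nd (nat_lit 78) (nat_lit 0) (nat_lit 0) (XT.lf (nat_lit 0) (nat_lit 71637179682) (nat_lit 760) (nat_lit 246742355561) (nat_lit 836) (nat_lit 150488113933) (nat_lit 105) (nat_lit 5) (nat_lit 115) (nat_lit 5) (nat_lit 116) (nat_lit 5) (nat_lit 405) (nat_lit 398) (nat_lit 217)) (XT.lf (nat_lit 0) (nat_lit 398740256372) (nat_lit 836) (nat_lit 11356476282) (nat_lit 76) (nat_lit 79244932720) (nat_lit 105) (nat_lit 5) (nat_lit 116) (nat_lit 5) (nat_lit 106) (nat_lit 5) (nat_lit 406) (nat_lit 398) (nat_lit 216)))) (XT.nd (nat_lit 78) (nat_lit 760) (nat_lit 0) (XT.lf (nat_lit 0) (nat_lit 414493234594) (nat_lit 380) (nat_lit 81668479634) (nat_lit 456) (nat_lit 14760294720) (nat_lit 100) (nat_lit 5) (nat_lit 105) (nat_lit 5) (nat_lit 106) (nat_lit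 5) (nat_lit 407) (nat_lit 398) (nat_lit 215)) (XT.nd (nat_lit 78) (nat_lit 380) (nat_lit 0) (XT.lf (nat_lit 0) (nat_lit 75049604070) (nat_lit 380) (nat_lit 187492740623) (nat_lit 76) (nat_lit 271131484127) (nat_lit 95) (nat_lit 5) (nat_lit 100) (nat_lit 5) (nat_lit 96) (nat_lit 5) (nat_lit 408) (nat_lit 398) (nat_lit 214)) (XT.lf (nat_lit 0) (nat_lit 180464259511) (nat_lit 456) (nat_lit 282705800875) (nat_lit 76) (nat_lit 94616780641) (nat_lit 90) (nat_lit 5) (nat_lit 96) (nat_lit 5) (nat_lit 91) (nat_lit 5) (nat_lit 409) (nat_lit 398) (nat_lit 213))))) (XT.nd (nat_lit 234) (nat_lit 608) (nat_lit 0) (XT.nd (nat_lit 78) (nat_lit 532) (nat_lit 0) (XT.lf (nat_lit 0) (nat_lit 199598295265) (nat_lit 304) (nat_lit 105576526587) (nat_lit 380) (nat_lit 278110935662) (nat_lit 86) (nat_lit 5) (nat_lit 90) (nat_lit 5) (nat_lit 91) (nat_lit 5) (nat_lit 410) (nat_lit 398) (nat_lit 212)) (XT.nd (nat_lit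 78) (nat_lit 228) (nat_lit 0) (XT.lf (nat_lit 0) (nat_lit 119361907106) (nat_lit 304) (nat_lit 331750474585) (nat_lit 380) (nat_lit 159149698025) (nat_lit 82) (nat_lit 5) (nat_lit 86) (nat_lit 5) (nat_lit 87) (nat_lit 5) (nat_lit 411) (nat_lit 398) (nat_lit 211)) (XT.lf (nat_lit 0) (nat_lit 35792788802) (nat_lit 228) (nat_lit 582821545120) (nat_lit 304) (nat_lit 20287704413) (nat_lit 79) (nat_lit 5) (nat_lit 82) (nat_lit 5) (nat_lit 83) (nat_lit 5) (nat_lit 412) (nat_lit 398) (nat_lit 210)))) (XT.nd (nat_lit 78) (nat_lit 532) (nat_lit 0) (XT.lf (nat_lit 0) (nat_lit 139817805573) (nat_lit 304) (nat_lit 55013427984) (nat_lit 76) (nat_lit 474186462623) (nat_lit 78) (nat_lit 5) (nat_lit 82) (nat_lit 5) (nat_lit 79) (nat_lit 5) (nat_lit 413) (nat_lit 398) (nat_lit 209)) (XT.nd (nat_lit 78) (nat_lit 228) (nat_lit 0) (XT.lf (nat_lit 0) (nat_lit 324332938610) (nat_lit 380) (nat_lit 150410673176)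 (nat_lit 76) (nat_lit 226166767387) (nat_lit 74) (nat_lit 5) (nat_lit 79) (nat_lit 5) (nat_lit 75) (nat_lit 5) (nat_lit 414) (nat_lit 398) (nat_lit 208)) (XT.lf (nat_lit 0) (nat_lit 483278818872) (nat_lit 228) (nat_lit 52134987607) (nat_lit 304) (nat_lit 199350444134) (nat_lit 71) (nat_lit 5) (nat_lit 74) (nat_lit 5) (nat_lit 75) (nat_lit 5) (nat_lit 415) (nat_lit 398) (nat_lit 207)))))) (XT.nd (nat_lit 468) (nat_lit 912) (nat_lit 0) (XT.nd (nat_lit 234) (nat_lit 456) (nat_lit 0) (XT.nd (nat_lit 78) (nat_lit 456) (nat_lit 0) (XT.lf (nat_lit 0) (nat_lit 7914447598) (nat_lit 304) (nat_lit 362125719297) (nat_lit 76) (nat_lit 400512195462) (nat_lit 67) (nat_lit 5) (nat_lit 71) (nat_lit 5) (nat_lit 68) (nat_lit 5) (nat_lit 416) (nat_lit 398) (nat_lit 206)) (XT.nd (nat_lit 78) (nat_lit 228) (nat_lit 0) (XT.lf (nat_lit 0) (nat_lit 236747208095) (nat_lit 304) (nat_lit 482658788728) (nat_lit 76) (nat_lit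 89035576930) (nat_lit 64) (nat_lit 5) (nat_lit 68) (nat_lit 5) (nat_lit 65) (nat_lit 5) (nat_lit 417) (nat_lit 398) (nat_lit 205)) (XT.lf (nat_lit 0) (nat_lit 233747207699) (nat_lit 228) (nat_lit 266439762757) (nat_lit 304) (nat_lit 348359932565) (nat_lit 61) (nat_lit 5) (nat_lit 64) (nat_lit 5) (nat_lit 65) (nat_lit 5) (nat_lit 418) (nat_lit 398) (nat_lit 204)))) (XT.nd (nat_lit 78) (nat_lit 304) (nat_lit 0) (XT.lf (nat_lit 0) (nat_lit 133931813991) (nat_lit 152) (nat_lit 664884525744) (nat_lit 228) (nat_lit 92338597611) (nat_lit 59) (nat_lit 5) (nat_lit 61) (nat_lit 5) (nat_lit 62) (nat_lit 5) (nat_lit 419) (nat_lit 398) (nat_lit 203)) (XT.nd (nat_lit 78) (nat_lit 0) (nat_lit 0) (XT.lf (nat_lit 0) (nat_lit 21008826029) (nat_lit 228) (nat_lit 172966826596) (nat_lit 304) (nat_lit 742266914607) (nat_lit 55) (nat_lit 5) (nat_lit 58) (nat_lit 5) (nat_lit 59) (nat_lit 5) (nat_lit 420) (nat_lit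 398) (nat_lit 202)) (XT.lf (nat_lit 0) (nat_lit 519003881519) (nat_lit 304) (nat_lit 103105570042) (nat_lit 76) (nat_lit 361799871915) (nat_lit 55) (nat_lit 5) (nat_lit 59) (nat_lit 5) (nat_lit 56) (nat_lit 5) (nat_lit 421) (nat_lit 398) (nat_lit 201))))) (XT.nd (nat_lit 234) (nat_lit 380) (nat_lit 0) (XT.nd (nat_lit 78) (nat_lit 380) (nat_lit 0) (XT.lf (nat_lit 0) (nat_lit 796571547445) (nat_lit 152) (nat_lit 88816049910) (nat_lit 228) (nat_lit 149234161444) (nat_lit 53) (nat_lit 5) (nat_lit 55) (nat_lit 5) (nat_lit 56) (nat_lit 5) (nat_lit 422) (nat_lit 398) (nat_lit 200)) (XT.nd (nat_lit 78) (nat_lit 152) (nat_lit 0) (XT.lf (nat_lit 0) (nat_lit 206206266388) (nat_lit 228) (nat_lit 394415513107) (nat_lit 76) (nat_lit 487587230497) (nat_lit 50) (nat_lit 5) (nat_lit 53) (nat_lit 5) (nat_lit 51) (nat_lit 5) (nat_lit 423) (nat_lit 398) (nat_lit 199)) (XT.lf (nat_lit 0) (nat_lit 577201572572)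 (nat_lit 152) (nat_lit 22445790582) (nat_lit 228) (nat_lit 545573861411) (nat_lit 48) (nat_lit 5) (nat_lit 50) (nat_lit 5) (nat_lit 51) (nat_lit 5) (nat_lit 424) (nat_lit 398) (nat_lit 198)))) (XT.nd (nat_lit 51090) (nat_lit 0) (nat_lit 5092) (XT.nd (nat_lit 78) (nat_lit 228) (nat_lit 0) (XT.lf (nat_lit 0) (nat_lit 438711774326) (nat_lit 152) (nat_lit 609083229812) (nat_lit 228) (nat_lit 157837849350) (nat_lit 46) (nat_lit 5) (nat_lit 48) (nat_lit 5) (nat_lit 49) (nat_lit 5) (nat_lit 425) (nat_lit 398) (nat_lit 197)) (XT.lf (nat_lit 0) (nat_lit 267577366295) (nat_lit 228) (nat_lit 989896178769) (nat_lit 76) (nat_lit 12449620478) (nat_lit 43) (nat_lit 5) (nat_lit 46) (nat_lit 5) (nat_lit 44) (nat_lit 5) (nat_lit 426) (nat_lit 398) (nat_lit 196))) (XT.nd (nat_lit 78) (nat_lit 0) (nat_lit 76) (XT.lf (nat_lit 0) (nat_lit 43144249333) (nat_lit 836) (nat_lit 73812692447) (nat_lit 836) (nat_lit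 73812692447) (nat_lit 110) (nat_lit 3) (nat_lit 121) (nat_lit 3) (nat_lit 121) (nat_lit 5) (nat_lit 399) (nat_lit 399) (nat_lit 222)) (XT.lf (nat_lit 0) (nat_lit 93028697196) (nat_lit 760) (nat_lit 246258493829) (nat_lit 836) (nat_lit 57349214754) (nat_lit 111) (nat_lit 5) (nat_lit 121) (nat_lit 5) (nat_lit 122) (nat_lit 5) (nat_lit 400) (nat_lit 399) (nat_lit 221))))))))
noncomputable def xc122 : XT := (XT.nd (nat_lit 1950) (nat_lit 152) (nat_lit 0) (XT.nd (nat_lit 936) (nat_lit 2584) (nat_lit 0) (XT.nd (nat_lit 468) (nat_lit 1748) (nat_lit 0) (XT.nd (nat_lit 234) (nat_lit 456) (nat_lit 0) (XT.nd (nat_lit 78) (nat_lit 0) (nat_lit 76) (XT.lf (nat_lit 76) (nat_lit 62700794210) (nat_lit 0) (nat_lit 45144094416) (nat_lit 836) (nat_lit 304719586660) (nat_lit 112) (nat_lit 5) (nat_lit 111) (nat_lit 5) (nat_lit 122) (nat_lit 5) (nat_lit 401) (nat_lit 399) (nat_lit 220)) (XT.nd (nat_lit 78) (nat_lit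 0) (nat_lit 76) (XT.lf (nat_lit 0) (nat_lit 132461261973) (nat_lit 760) (nat_lit 28707000095) (nat_lit 836) (nat_lit 268167784001) (nat_lit 112) (nat_lit 5) (nat_lit 122) (nat_lit 5) (nat_lit 123) (nat_lit 5) (nat_lit 402) (nat_lit 399) (nat_lit 219)) (XT.lf (nat_lit 0) (nat_lit 167471218526) (nat_lit 760) (nat_lit 121824393891) (nat_lit 836) (nat_lit 157732516472) (nat_lit 113) (nat_lit 5) (nat_lit 123) (nat_lit 5) (nat_lit 124) (nat_lit 5) (nat_lit 403) (nat_lit 399) (nat_lit 218)))) (XT.nd (nat_lit 78) (nat_lit 684) (nat_lit 0) (XT.lf (nat_lit 0) (nat_lit 212921582067) (nat_lit 760) (nat_lit 218791265112) (nat_lit 836) (nat_lit 34040750672) (nat_lit 114) (nat_lit 5) (nat_lit 124) (nat_lit 5) (nat_lit 125) (nat_lit 5) (nat_lit 404) (nat_lit 399) (nat_lit 217)) (XT.nd (nat_lit 78) (nat_lit 684) (nat_lit 0) (XT.lf (nat_lit 76) (nat_lit 164069679097) (nat_lit 0) (nat_lit 107534774991) (nat_lit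 836) (nat_lit 213892826306) (nat_lit 115) (nat_lit 5) (nat_lit 114) (nat_lit 5) (nat_lit 125) (nat_lit 5) (nat_lit 405) (nat_lit 399) (nat_lit 216)) (XT.lf (nat_lit 0) (nat_lit 77369021756) (nat_lit 760) (nat_lit 266481829874) (nat_lit 836) (nat_lit 162526161157) (nat_lit 105) (nat_lit 5) (nat_lit 115) (nat_lit 5) (nat_lit 116) (nat_lit 5) (nat_lit 406) (nat_lit 399) (nat_lit 215))))) (XT.nd (nat_lit 234) (nat_lit 988) (nat_lit 0) (XT.nd (nat_lit 78) (nat_lit 760) (nat_lit 0) (XT.lf (nat_lit 0) (nat_lit 430640358573) (nat_lit 836) (nat_lit 12264144975) (nat_lit 76) (nat_lit 85584450375) (nat_lit 105) (nat_lit 5) (nat_lit 116) (nat_lit 5) (nat_lit 106) (nat_lit 5) (nat_lit 407) (nat_lit 399) (nat_lit 214)) (XT.nd (nat_lit 78) (nat_lit 380) (nat_lit 0) (XT.lf (nat_lit 0) (nat_lit 447653505858) (nat_lit 380) (nat_lit 88201974575) (nat_lit 456) (nat_lit 15940247225) (nat_lit 100) (nat_lit 5)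 (nat_lit 105) (nat_lit 5) (nat_lit 106) (nat_lit 5) (nat_lit 408) (nat_lit 399) (nat_lit 213)) (XT.lf (nat_lit 0) (nat_lit 81054365860) (nat_lit 380) (nat_lit 202491315537) (nat_lit 76) (nat_lit 292822013568) (nat_lit 95) (nat_lit 5) (nat_lit 100) (nat_lit 5) (nat_lit 96) (nat_lit 5) (nat_lit 409) (nat_lit 399) (nat_lit 212)))) (XT.nd (nat_lit 78) (nat_lit 608) (nat_lit 0) (XT.lf (nat_lit 0) (nat_lit 194902148514) (nat_lit 456) (nat_lit 305321420429) (nat_lit 76) (nat_lit 102186181504) (nat_lit 90) (nat_lit 5) (nat_lit 96) (nat_lit 5) (nat_lit 91) (nat_lit 5) (nat_lit 410) (nat_lit 399) (nat_lit 211)) (XT.nd (nat_lit 78) (nat_lit 304) (nat_lit 0) (XT.lf (nat_lit 0) (nat_lit 215566966700) (nat_lit 304) (nat_lit 114022546328) (nat_lit 380) (nat_lit 300359069397) (nat_lit 86) (nat_lit 5) (nat_lit 90) (nat_lit 5) (nat_lit 91) (nat_lit 5) (nat_lit 411) (nat_lit 399) (nat_lit 210)) (XT.lf (nat_lit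 0) (nat_lit 128911664992) (nat_lit 304) (nat_lit 358290374463) (nat_lit 380) (nat_lit 171880972891) (nat_lit 82) (nat_lit 5) (nat_lit 86) (nat_lit 5) (nat_lit 87) (nat_lit 5) (nat_lit 412) (nat_lit 399) (nat_lit 209)))))) (XT.nd (nat_lit 468) (nat_lit 1216) (nat_lit 0) (XT.nd (nat_lit 234) (nat_lit 760) (nat_lit 0) (XT.nd (nat_lit 78) (nat_lit 380) (nat_lit 0) (XT.lf (nat_lit 0) (nat_lit 38657012445) (nat_lit 228) (nat_lit 629447100490) (nat_lit 304) (nat_lit 21910056495) (nat_lit 79) (nat_lit 5) (nat_lit 82) (nat_lit 5) (nat_lit 83) (nat_lit 5) (nat_lit 413) (nat_lit 399) (nat_lit 208)) (XT.nd (nat_lit 78) (nat_lit 304) (nat_lit 0) (XT.lf (nat_lit 0) (nat_lit 151003825399) (nat_lit 304) (nat_lit 59413740982) (nat_lit 76) (nat_lit 512121515409) (nat_lit 78) (nat_lit 5) (nat_lit 82) (nat_lit 5) (nat_lit 79) (nat_lit 5) (nat_lit 414) (nat_lit 399) (nat_lit 207)) (XT.lf (nat_lit 0) (nat_lit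 350280138930) (nat_lit 380) (nat_lit 162442773032) (nat_lit 76) (nat_lit 244260268992) (nat_lit 74) (nat_lit 5) (nat_lit 79) (nat_lit 5) (nat_lit 75) (nat_lit 5) (nat_lit 415) (nat_lit 399) (nat_lit 206)))) (XT.nd (nat_lit 78) (nat_lit 532) (nat_lit 0) (XT.lf (nat_lit 0) (nat_lit 521941845613) (nat_lit 228) (nat_lit 56305600007) (nat_lit 304) (nat_lit 215297918041) (nat_lit 71) (nat_lit 5) (nat_lit 74) (nat_lit 5) (nat_lit 75) (nat_lit 5) (nat_lit 416) (nat_lit 399) (nat_lit 205)) (XT.nd (nat_lit 78) (nat_lit 228) (nat_lit 0) (XT.lf (nat_lit 0) (nat_lit 8548120839) (nat_lit 304) (nat_lit 391095046565) (nat_lit 76) (nat_lit 432553357831) (nat_lit 67) (nat_lit 5) (nat_lit 71) (nat_lit 5) (nat_lit 68) (nat_lit 5) (nat_lit 417) (nat_lit 399) (nat_lit 204)) (XT.lf (nat_lit 0) (nat_lit 255687478009) (nat_lit 304) (nat_lit 521270771822) (nat_lit 76) (nat_lit 96158624938) (nat_lit 64) (nat_lit 5)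 (nat_lit 68) (nat_lit 5) (nat_lit 65) (nat_lit 5) (nat_lit 418) (nat_lit 399) (nat_lit 203))))) (XT.nd (nat_lit 234) (nat_lit 532) (nat_lit 0) (XT.nd (nat_lit 78) (nat_lit 456) (nat_lit 0) (XT.lf (nat_lit 0) (nat_lit 252447673029) (nat_lit 228) (nat_lit 287754722545) (nat_lit 304) (nat_lit 376228236110) (nat_lit 61) (nat_lit 5) (nat_lit 64) (nat_lit 5) (nat_lit 65) (nat_lit 5) (nat_lit 419) (nat_lit 399) (nat_lit 202)) (XT.nd (nat_lit 78) (nat_lit 304) (nat_lit 0) (XT.lf (nat_lit 0) (nat_lit 144647037144) (nat_lit 152) (nat_lit 718075056407) (nat_lit 228) (nat_lit 99725216261) (nat_lit 59) (nat_lit 5) (nat_lit 61) (nat_lit 5) (nat_lit 62) (nat_lit 5) (nat_lit 420) (nat_lit 399) (nat_lit 201)) (XT.lf (nat_lit 0) (nat_lit 22690195215) (nat_lit 228) (nat_lit 186803940476) (nat_lit 304) (nat_lit 801647815210) (nat_lit 55) (nat_lit 5) (nat_lit 58) (nat_lit 5) (nat_lit 59) (nat_lit 5) (nat_lit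 421) (nat_lit 399) (nat_lit 200)))) (XT.nd (nat_lit 78) (nat_lit 532) (nat_lit 0) (XT.lf (nat_lit 0) (nat_lit 560524594338) (nat_lit 304) (nat_lit 111353384917) (nat_lit 76) (nat_lit 390744069830) (nat_lit 55) (nat_lit 5) (nat_lit 59) (nat_lit 5) (nat_lit 56) (nat_lit 5) (nat_lit 422) (nat_lit 399) (nat_lit 199)) (XT.nd (nat_lit 156) (nat_lit 380) (nat_lit 0) (XT.lf (nat_lit 0) (nat_lit 860297874558) (nat_lit 152) (nat_lit 95921112502) (nat_lit 228) (nat_lit 161172493203) (nat_lit 53) (nat_lit 5) (nat_lit 55) (nat_lit 5) (nat_lit 56) (nat_lit 5) (nat_lit 423) (nat_lit 399) (nat_lit 198)) (XT.lf (nat_lit 0) (nat_lit 623378276729) (nat_lit 152) (nat_lit 24241229139) (nat_lit 228) (nat_lit 589219398862) (nat_lit 48) (nat_lit 5) (nat_lit 50) (nat_lit 5) (nat_lit 51) (nat_lit 5) (nat_lit 425) (nat_lit 399) (nat_lit 196))))))) (XT.nd (nat_lit 51948) (nat_lit 0) (nat_lit 684) (XT.nd (nat_lit 51480)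 (nat_lit 0) (nat_lit 3724) (XT.nd (nat_lit 51246) (nat_lit 0) (nat_lit 4940) (XT.nd (nat_lit 51090) (nat_lit 0) (nat_lit 4864) (XT.lf (nat_lit 0) (nat_lit 473809283160) (nat_lit 152) (nat_lit 657809660872) (nat_lit 228) (nat_lit 170464520648) (nat_lit 46) (nat_lit 5) (nat_lit 48) (nat_lit 5) (nat_lit 49) (nat_lit 5) (nat_lit 426) (nat_lit 399) (nat_lit 195)) (XT.nd (nat_lit 78) (nat_lit 0) (nat_lit 76) (XT.lf (nat_lit 0) (nat_lit 46596459642) (nat_lit 836) (nat_lit 79717355666) (nat_lit 836) (nat_lit 79717355666) (nat_lit 110) (nat_lit 3) (nat_lit 121) (nat_lit 3) (nat_lit 121) (nat_lit 5) (nat_lit 400) (nat_lit 400) (nat_lit 220)) (XT.lf (nat_lit 0) (nat_lit 100472235876) (nat_lit 760) (nat_lit 265958427091) (nat_lit 836) (nat_lit 61936592252) (nat_lit 111) (nat_lit 5) (nat_lit 121) (nat_lit 5) (nat_lit 122) (nat_lit 5) (nat_lit 401) (nat_lit 400) (nat_lit 219)))) (XT.nd (nat_lit 78) (nat_lit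 0) (nat_lit 76) (XT.lf (nat_lit 76) (nat_lit 67717571560) (nat_lit 0) (nat_lit 48756070138) (nat_lit 836) (nat_lit 329095932700) (nat_lit 112) (nat_lit 5) (nat_lit 111) (nat_lit 5) (nat_lit 122) (nat_lit 5) (nat_lit 402) (nat_lit 400) (nat_lit 218)) (XT.nd (nat_lit 78) (nat_lit 0) (nat_lit 76) (XT.lf (nat_lit 0) (nat_lit 143059232361) (nat_lit 760) (nat_lit 31002838139) (nat_lit 836) (nat_lit 289620805032) (nat_lit 112) (nat_lit 5) (nat_lit 122) (nat_lit 5) (nat_lit 123) (nat_lit 5) (nat_lit 403) (nat_lit 400) (nat_lit 217)) (XT.lf (nat_lit 0) (nat_lit 180869912157) (nat_lit 760) (nat_lit 131569599223) (nat_lit 836) (nat_lit 170350817318) (nat_lit 113) (nat_lit 5) (nat_lit 123) (nat_lit 5) (nat_lit 124) (nat_lit 5) (nat_lit 404) (nat_lit 400) (nat_lit 216))))) (XT.nd (nat_lit 234) (nat_lit 760) (nat_lit 0) (XT.nd (nat_lit 78) (nat_lit 684) (nat_lit 0) (XT.lf (nat_lit 0) (nat_lit 229956238705)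 (nat_lit 760) (nat_lit 236293801818) (nat_lit 836) (nat_lit 36763798008) (nat_lit 114) (nat_lit 5) (nat_lit 124) (nat_lit 5) (nat_lit 125) (nat_lit 5) (nat_lit 405) (nat_lit 400) (nat_lit 215)) (XT.nd (nat_lit 78) (nat_lit 684) (nat_lit 0) (XT.lf (nat_lit 76) (nat_lit 177195984704) (nat_lit 0) (nat_lit 116137698308) (nat_lit 836) (nat_lit 231003335589) (nat_lit 115) (nat_lit 5) (nat_lit 114) (nat_lit 5) (nat_lit 125) (nat_lit 5) (nat_lit 406) (nat_lit 400) (nat_lit 214)) (XT.lf (nat_lit 0) (nat_lit 83559287409) (nat_lit 760) (nat_lit 287800449882) (nat_lit 836) (nat_lit 175527395090) (nat_lit 105) (nat_lit 5) (nat_lit 115) (nat_lit 5) (nat_lit 116) (nat_lit 5) (nat_lit 407) (nat_lit 400) (nat_lit 213)))) (XT.nd (nat_lit 78) (nat_lit 760) (nat_lit 0) (XT.lf (nat_lit 0) (nat_lit 465092343168) (nat_lit 836) (nat_lit 13244548340) (nat_lit 76) (nat_lit 92431140422) (nat_lit 105) (nat_lit 5) (nat_lit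 116) (nat_lit 5) (nat_lit 106) (nat_lit 5) (nat_lit 408) (nat_lit 400) (nat_lit 212)) (XT.nd (nat_lit 78) (nat_lit 380) (nat_lit 0) (XT.lf (nat_lit 0) (nat_lit 483466482911) (nat_lit 380) (nat_lit 95258146748) (nat_lit 456) (nat_lit 17214720199) (nat_lit 100) (nat_lit 5) (nat_lit 105) (nat_lit 5) (nat_lit 106) (nat_lit 5) (nat_lit 409) (nat_lit 400) (nat_lit 211)) (XT.lf (nat_lit 0) (nat_lit 87539395397) (nat_lit 380) (nat_lit 218689896898) (nat_lit 76) (nat_lit 316247783837) (nat_lit 95) (nat_lit 5) (nat_lit 100) (nat_lit 5) (nat_lit 96) (nat_lit 5) (nat_lit 410) (nat_lit 400) (nat_lit 210)))))) (XT.nd (nat_lit 468) (nat_lit 1444) (nat_lit 0) (XT.nd (nat_lit 234) (nat_lit 608) (nat_lit 0) (XT.nd (nat_lit 78) (nat_lit 608) (nat_lit 0) (XT.lf (nat_lit 0) (nat_lit 210494961891) (nat_lit 456) (nat_lit 329746410027) (nat_lit 76) (nat_lit 110361126103) (nat_lit 90) (nat_lit 5) (nat_lit 96) (nat_lit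 5) (nat_lit 91) (nat_lit 5) (nat_lit 411) (nat_lit 400) (nat_lit 209)) (XT.nd (nat_lit 78) (nat_lit 304) (nat_lit 0) (XT.lf (nat_lit 0) (nat_lit 232813016607) (nat_lit 304) (nat_lit 123144262254) (nat_lit 380) (nat_lit 324387159561) (nat_lit 86) (nat_lit 5) (nat_lit 90) (nat_lit 5) (nat_lit 91) (nat_lit 5) (nat_lit 412) (nat_lit 400) (nat_lit 208)) (XT.lf (nat_lit 0) (nat_lit 139225288621) (nat_lit 304) (nat_lit 386953486030) (nat_lit 380) (nat_lit 185630849748) (nat_lit 82) (nat_lit 5) (nat_lit 86) (nat_lit 5) (nat_lit 87) (nat_lit 5) (nat_lit 413) (nat_lit 400) (nat_lit 207)))) (XT.nd (nat_lit 78) (nat_lit 380) (nat_lit 0) (XT.lf (nat_lit 0) (nat_lit 41750259773) (nat_lit 228) (nat_lit 679802724291) (nat_lit 304) (nat_lit 23662291509) (nat_lit 79) (nat_lit 5) (nat_lit 82) (nat_lit 5) (nat_lit 83) (nat_lit 5) (nat_lit 414) (nat_lit 400) (nat_lit 206)) (XT.nd (nat_lit 78) (nat_lit 304) (nat_lit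 0) (XT.lf (nat_lit 0) (nat_lit 163084641873) (nat_lit 304) (nat_lit 64166187619) (nat_lit 76) (nat_lit 553091353048) (nat_lit 78) (nat_lit 5) (nat_lit 82) (nat_lit 5) (nat_lit 79) (nat_lit 5) (nat_lit 415) (nat_lit 400) (nat_lit 205)) (XT.lf (nat_lit 0) (nat_lit 378303034638) (nat_lit 380) (nat_lit 175437548442) (nat_lit 76) (nat_lit 263801227870) (nat_lit 74) (nat_lit 5) (nat_lit 79) (nat_lit 5) (nat_lit 75) (nat_lit 5) (nat_lit 416) (nat_lit 400) (nat_lit 204))))) (XT.nd (nat_lit 234) (nat_lit 684) (nat_lit 0) (XT.nd (nat_lit 78) (nat_lit 532) (nat_lit 0) (XT.lf (nat_lit 0) (nat_lit 563697811601) (nat_lit 228) (nat_lit 60809888021) (nat_lit 304) (nat_lit 232521269983) (nat_lit 71) (nat_lit 5) (nat_lit 74) (nat_lit 5) (nat_lit 75) (nat_lit 5) (nat_lit 417) (nat_lit 400) (nat_lit 203)) (XT.nd (nat_lit 78) (nat_lit 228) (nat_lit 0) (XT.lf (nat_lit 0) (nat_lit 9232414122) (nat_lit 304) (nat_lit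 422382024196) (nat_lit 76) (nat_lit 467157786550) (nat_lit 67) (nat_lit 5) (nat_lit 71) (nat_lit 5) (nat_lit 68) (nat_lit 5) (nat_lit 418) (nat_lit 400) (nat_lit 202)) (XT.lf (nat_lit 0) (nat_lit 276142899147) (nat_lit 304) (nat_lit 562971816279) (nat_lit 76) (nat_lit 103851487990) (nat_lit 64) (nat_lit 5) (nat_lit 68) (nat_lit 5) (nat_lit 65) (nat_lit 5) (nat_lit 419) (nat_lit 400) (nat_lit 201)))) (XT.nd (nat_lit 156) (nat_lit 304) (nat_lit 0) (XT.nd (nat_lit 78) (nat_lit 152) (nat_lit 0) (XT.lf (nat_lit 0) (nat_lit 272644077333) (nat_lit 228) (nat_lit 310774910677) (nat_lit 304) (nat_lit 406326073994) (nat_lit 61) (nat_lit 5) (nat_lit 64) (nat_lit 5) (nat_lit 65) (nat_lit 5) (nat_lit 420) (nat_lit 400) (nat_lit 200)) (XT.lf (nat_lit 0) (nat_lit 156219381420) (nat_lit 152) (nat_lit 775520862535) (nat_lit 228) (nat_lit 107702831334) (nat_lit 59) (nat_lit 5) (nat_lit 61) (nat_lit 5) (nat_lit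 62) (nat_lit 5) (nat_lit 421) (nat_lit 400) (nat_lit 199))) (XT.nd (nat_lit 78) (nat_lit 0) (nat_lit 0) (XT.lf (nat_lit 0) (nat_lit 24505979336) (nat_lit 228) (nat_lit 201748056599) (nat_lit 304) (nat_lit 865779252425) (nat_lit 55) (nat_lit 5) (nat_lit 58) (nat_lit 5) (nat_lit 59) (nat_lit 5) (nat_lit 422) (nat_lit 400) (nat_lit 198)) (XT.lf (nat_lit 0) (nat_lit 605366906791) (nat_lit 304) (nat_lit 120261114962) (nat_lit 76) (nat_lit 422003773882) (nat_lit 55) (nat_lit 5) (nat_lit 59) (nat_lit 5) (nat_lit 56) (nat_lit 5) (nat_lit 423) (nat_lit 400) (nat_lit 197))))))))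
noncomputable def xc123 : XT := (XT.nd (nat_lit 53118) (nat_lit 0) (nat_lit 228) (XT.nd (nat_lit 52104) (nat_lit 0) (nat_lit 380) (XT.nd (nat_lit 51636) (nat_lit 0) (nat_lit 3420) (XT.nd (nat_lit 51402) (nat_lit 0) (nat_lit 4636) (XT.nd (nat_lit 51246) (nat_lit 0) (nat_lit 4560) (XT.lf (nat_lit 0) (nat_lit 240519710198) (nat_lit 228) (nat_lit 460045083119) (nat_lit 76) (nat_lit 568722159639) (nat_lit 50) (nat_lit 5) (nat_lit 53) (nat_lit 5) (nat_lit 51) (nat_lit 5) (nat_lit 425) (nat_lit 400) (nat_lit 195)) (XT.nd (nat_lit 78) (nat_lit 0) (nat_lit 76) (XT.lf (nat_lit 0) (nat_lit 50324751142) (nat_lit 836) (nat_lit 86094442184) (nat_lit 836) (nat_lit 86094442184) (nat_lit 110) (nat_lit 3) (nat_lit 121) (nat_lit 3) (nat_lit 121) (nat_lit 5) (nat_lit 401) (nat_lit 401) (nat_lit 218)) (XT.lf (nat_lit 0) (nat_lit 108511080336) (nat_lit 760) (nat_lit 287234461475) (nat_lit 836) (nat_lit 66891039795)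 (nat_lit 111) (nat_lit 5) (nat_lit 121) (nat_lit 5) (nat_lit 122) (nat_lit 5) (nat_lit 402) (nat_lit 401) (nat_lit 217)))) (XT.nd (nat_lit 78) (nat_lit 0) (nat_lit 76) (XT.lf (nat_lit 76) (nat_lit 73135589265) (nat_lit 0) (nat_lit 52656939982) (nat_lit 836) (nat_lit 355422560598) (nat_lit 112) (nat_lit 5) (nat_lit 111) (nat_lit 5) (nat_lit 122) (nat_lit 5) (nat_lit 403) (nat_lit 401) (nat_lit 216)) (XT.nd (nat_lit 78) (nat_lit 0) (nat_lit 76) (XT.lf (nat_lit 0) (nat_lit 154504887813) (nat_lit 760) (nat_lit 33482446223) (nat_lit 836) (nat_lit 312790125051) (nat_lit 112) (nat_lit 5) (nat_lit 122) (nat_lit 5) (nat_lit 123) (nat_lit 5) (nat_lit 404) (nat_lit 401) (nat_lit 215)) (XT.lf (nat_lit 0) (nat_lit 195340359167) (nat_lit 760) (nat_lit 142094527431) (nat_lit 836) (nat_lit 183978625097) (nat_lit 113) (nat_lit 5) (nat_lit 123) (nat_lit 5) (nat_lit 124) (nat_lit 5) (nat_lit 405) (nat_lit 401)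 (nat_lit 214))))) (XT.nd (nat_lit 234) (nat_lit 760) (nat_lit 0) (XT.nd (nat_lit 78) (nat_lit 684) (nat_lit 0) (XT.lf (nat_lit 0) (nat_lit 248353535189) (nat_lit 760) (nat_lit 255196650526) (nat_lit 836) (nat_lit 39704719477) (nat_lit 114) (nat_lit 5) (nat_lit 124) (nat_lit 5) (nat_lit 125) (nat_lit 5) (nat_lit 406) (nat_lit 401) (nat_lit 213)) (XT.nd (nat_lit 78) (nat_lit 684) (nat_lit 0) (XT.lf (nat_lit 76) (nat_lit 191372290433) (nat_lit 0) (nat_lit 125428835330) (nat_lit 836) (nat_lit 249482816409) (nat_lit 115) (nat_lit 5) (nat_lit 114) (nat_lit 5) (nat_lit 125) (nat_lit 5) (nat_lit 407) (nat_lit 401) (nat_lit 212)) (XT.lf (nat_lit 0) (nat_lit 90244668187) (nat_lit 760) (nat_lit 310824548989) (nat_lit 836) (nat_lit 189568850278) (nat_lit 105) (nat_lit 5) (nat_lit 115) (nat_lit 5) (nat_lit 116) (nat_lit 5) (nat_lit 408) (nat_lit 401) (nat_lit 211)))) (XT.nd (nat_lit 78) (nat_lit 760)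 (nat_lit 0) (XT.lf (nat_lit 0) (nat_lit 502300378691) (nat_lit 836) (nat_lit 14303487866) (nat_lit 76) (nat_lit 99825575086) (nat_lit 105) (nat_lit 5) (nat_lit 116) (nat_lit 5) (nat_lit 106) (nat_lit 5) (nat_lit 409) (nat_lit 401) (nat_lit 210)) (XT.nd (nat_lit 78) (nat_lit 380) (nat_lit 0) (XT.lf (nat_lit 0) (nat_lit 522144398752) (nat_lit 380) (nat_lit 102878810668) (nat_lit 456) (nat_lit 18591257551) (nat_lit 100) (nat_lit 5) (nat_lit 105) (nat_lit 5) (nat_lit 106) (nat_lit 5) (nat_lit 410) (nat_lit 401) (nat_lit 209)) (XT.lf (nat_lit 0) (nat_lit 94543130250) (nat_lit 380) (nat_lit 236184468037) (nat_lit 76) (nat_lit 341547614416) (nat_lit 95) (nat_lit 5) (nat_lit 100) (nat_lit 5) (nat_lit 96) (nat_lit 5) (nat_lit 411) (nat_lit 401) (nat_lit 208)))))) (XT.nd (nat_lit 468) (nat_lit 1444) (nat_lit 0) (XT.nd (nat_lit 234) (nat_lit 608) (nat_lit 0) (XT.nd (nat_lit 78) (nat_lit 608) (nat_lit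 0) (XT.lf (nat_lit 0) (nat_lit 227335108822) (nat_lit 456) (nat_lit 356125502084) (nat_lit 76) (nat_lit 119190059126) (nat_lit 90) (nat_lit 5) (nat_lit 96) (nat_lit 5) (nat_lit 91) (nat_lit 5) (nat_lit 412) (nat_lit 401) (nat_lit 207)) (XT.nd (nat_lit 78) (nat_lit 304) (nat_lit 0) (XT.lf (nat_lit 0) (nat_lit 251438651704) (nat_lit 304) (nat_lit 132995727978) (nat_lit 380) (nat_lit 350337587582) (nat_lit 86) (nat_lit 5) (nat_lit 90) (nat_lit 5) (nat_lit 91) (nat_lit 5) (nat_lit 413) (nat_lit 401) (nat_lit 206)) (XT.lf (nat_lit 0) (nat_lit 150363903642) (nat_lit 304) (nat_lit 417909663413) (nat_lit 380) (nat_lit 200480802490) (nat_lit 82) (nat_lit 5) (nat_lit 86) (nat_lit 5) (nat_lit 87) (nat_lit 5) (nat_lit 414) (nat_lit 401) (nat_lit 205)))) (XT.nd (nat_lit 78) (nat_lit 380) (nat_lit 0) (XT.lf (nat_lit 0) (nat_lit 45090868974) (nat_lit 228) (nat_lit 734186818573) (nat_lit 304) (nat_lit 25554786570)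 (nat_lit 79) (nat_lit 5) (nat_lit 82) (nat_lit 5) (nat_lit 83) (nat_lit 5) (nat_lit 415) (nat_lit 401) (nat_lit 204)) (XT.nd (nat_lit 78) (nat_lit 304) (nat_lit 0) (XT.lf (nat_lit 0) (nat_lit 176131850845) (nat_lit 304) (nat_lit 69298923094) (nat_lit 76) (nat_lit 597338761091) (nat_lit 78) (nat_lit 5) (nat_lit 82) (nat_lit 5) (nat_lit 79) (nat_lit 5) (nat_lit 416) (nat_lit 401) (nat_lit 203)) (XT.lf (nat_lit 0) (nat_lit 408567692871) (nat_lit 380) (nat_lit 189471998106) (nat_lit 76) (nat_lit 284905443862) (nat_lit 74) (nat_lit 5) (nat_lit 79) (nat_lit 5) (nat_lit 75) (nat_lit 5) (nat_lit 417) (nat_lit 401) (nat_lit 202))))) (XT.nd (nat_lit 234) (nat_lit 684) (nat_lit 0) (XT.nd (nat_lit 78) (nat_lit 532) (nat_lit 0) (XT.lf (nat_lit 0) (nat_lit 608794166655) (nat_lit 228) (nat_lit 65674541900) (nat_lit 304) (nat_lit 251122558771) (nat_lit 71) (nat_lit 5) (nat_lit 74) (nat_lit 5) (nat_lit 75)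 (nat_lit 5) (nat_lit 418) (nat_lit 401) (nat_lit 201)) (XT.nd (nat_lit 78) (nat_lit 228) (nat_lit 0) (XT.lf (nat_lit 0) (nat_lit 9971387581) (nat_lit 304) (nat_lit 456172049358) (nat_lit 76) (nat_lit 504530546727) (nat_lit 67) (nat_lit 5) (nat_lit 71) (nat_lit 5) (nat_lit 68) (nat_lit 5) (nat_lit 419) (nat_lit 401) (nat_lit 200)) (XT.lf (nat_lit 0) (nat_lit 298234693644) (nat_lit 304) (nat_lit 608009032357) (nat_lit 76) (nat_lit 112159755397) (nat_lit 64) (nat_lit 5) (nat_lit 68) (nat_lit 5) (nat_lit 65) (nat_lit 5) (nat_lit 420) (nat_lit 401) (nat_lit 199)))) (XT.nd (nat_lit 78) (nat_lit 456) (nat_lit 0) (XT.lf (nat_lit 0) (nat_lit 294456109745) (nat_lit 228) (nat_lit 335636740918) (nat_lit 304) (nat_lit 438831798970) (nat_lit 61) (nat_lit 5) (nat_lit 64) (nat_lit 5) (nat_lit 65) (nat_lit 5) (nat_lit 421) (nat_lit 401) (nat_lit 198)) (XT.nd (nat_lit 78) (nat_lit 304) (nat_lit 0) (XT.lf (nat_lit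 0) (nat_lit 168717430309) (nat_lit 152) (nat_lit 837562361455) (nat_lit 228) (nat_lit 116318712995) (nat_lit 59) (nat_lit 5) (nat_lit 61) (nat_lit 5) (nat_lit 62) (nat_lit 5) (nat_lit 422) (nat_lit 401) (nat_lit 197)) (XT.lf (nat_lit 0) (nat_lit 26466945083) (nat_lit 228) (nat_lit 217887730417) (nat_lit 304) (nat_lit 935041259970) (nat_lit 55) (nat_lit 5) (nat_lit 58) (nat_lit 5) (nat_lit 59) (nat_lit 5) (nat_lit 423) (nat_lit 401) (nat_lit 196))))))) (XT.nd (nat_lit 52182) (nat_lit 0) (nat_lit 152) (XT.nd (nat_lit 51714) (nat_lit 0) (nat_lit 3192) (XT.nd (nat_lit 51480) (nat_lit 0) (nat_lit 4408) (XT.nd (nat_lit 51324) (nat_lit 0) (nat_lit 4332) (XT.lf (nat_lit 0) (nat_lit 1003452442970) (nat_lit 152) (nat_lit 111882017885) (nat_lit 228) (nat_lit 187990929769) (nat_lit 53) (nat_lit 5) (nat_lit 55) (nat_lit 5) (nat_lit 56) (nat_lit 5) (nat_lit 425) (nat_lit 401) (nat_lit 194)) (XT.nd (nat_lit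 78) (nat_lit 0) (nat_lit 76) (XT.lf (nat_lit 0) (nat_lit 54351223969) (nat_lit 836) (nat_lit 92981738698) (nat_lit 836) (nat_lit 92981738698) (nat_lit 110) (nat_lit 3) (nat_lit 121) (nat_lit 3) (nat_lit 121) (nat_lit 5) (nat_lit 402) (nat_lit 402) (nat_lit 216)) (XT.lf (nat_lit 0) (nat_lit 117192880335) (nat_lit 760) (nat_lit 310212669881) (nat_lit 836) (nat_lit 72241911596) (nat_lit 111) (nat_lit 5) (nat_lit 121) (nat_lit 5) (nat_lit 122) (nat_lit 5) (nat_lit 403) (nat_lit 402) (nat_lit 215)))) (XT.nd (nat_lit 78) (nat_lit 0) (nat_lit 76) (XT.lf (nat_lit 76) (nat_lit 78986961080) (nat_lit 0) (nat_lit 56869824597) (nat_lit 836) (nat_lit 383855468053) (nat_lit 112) (nat_lit 5) (nat_lit 111) (nat_lit 5) (nat_lit 122) (nat_lit 5) (nat_lit 404) (nat_lit 402) (nat_lit 214)) (XT.nd (nat_lit 78) (nat_lit 0) (nat_lit 76) (XT.lf (nat_lit 0) (nat_lit 166866064902) (nat_lit 760) (nat_lit 36160511256)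 (nat_lit 836) (nat_lit 337813039802) (nat_lit 112) (nat_lit 5) (nat_lit 122) (nat_lit 5) (nat_lit 123) (nat_lit 5) (nat_lit 405) (nat_lit 402) (nat_lit 213)) (XT.lf (nat_lit 0) (nat_lit 210968320099) (nat_lit 760) (nat_lit 153461541161) (nat_lit 836) (nat_lit 198696694249) (nat_lit 113) (nat_lit 5) (nat_lit 123) (nat_lit 5) (nat_lit 124) (nat_lit 5) (nat_lit 406) (nat_lit 402) (nat_lit 212))))) (XT.nd (nat_lit 234) (nat_lit 760) (nat_lit 0) (XT.nd (nat_lit 78) (nat_lit 684) (nat_lit 0) (XT.lf (nat_lit 0) (nat_lit 268222501635) (nat_lit 760) (nat_lit 275611820636) (nat_lit 836) (nat_lit 42880940681) (nat_lit 114) (nat_lit 5) (nat_lit 124) (nat_lit 5) (nat_lit 125) (nat_lit 5) (nat_lit 407) (nat_lit 402) (nat_lit 211)) (XT.nd (nat_lit 78) (nat_lit 684) (nat_lit 0) (XT.lf (nat_lit 76) (nat_lit 206682611179) (nat_lit 0) (nat_lit 135463246029) (nat_lit 836) (nat_lit 269440767830) (nat_lit 115)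 (nat_lit 5) (nat_lit 114) (nat_lit 5) (nat_lit 125) (nat_lit 5) (nat_lit 408) (nat_lit 402) (nat_lit 210)) (XT.lf (nat_lit 0) (nat_lit 97464788440) (nat_lit 760) (nat_lit 335690567019) (nat_lit 836) (nat_lit 204733726940) (nat_lit 105) (nat_lit 5) (nat_lit 115) (nat_lit 5) (nat_lit 116) (nat_lit 5) (nat_lit 409) (nat_lit 402) (nat_lit 209)))) (XT.nd (nat_lit 78) (nat_lit 760) (nat_lit 0) (XT.lf (nat_lit 0) (nat_lit 542484964601) (nat_lit 836) (nat_lit 15447231623) (nat_lit 76) (nat_lit 107811572593) (nat_lit 105) (nat_lit 5) (nat_lit 116) (nat_lit 5) (nat_lit 106) (nat_lit 5) (nat_lit 410) (nat_lit 402) (nat_lit 208)) (XT.nd (nat_lit 78) (nat_lit 380) (nat_lit 0) (XT.lf (nat_lit 0) (nat_lit 563916462663) (nat_lit 380) (nat_lit 111109125964) (nat_lit 456) (nat_lit 20078009232) (nat_lit 100) (nat_lit 5) (nat_lit 105) (nat_lit 5) (nat_lit 106) (nat_lit 5) (nat_lit 411) (nat_lit 402) (nat_lit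 207)) (XT.lf (nat_lit 0) (nat_lit 102107080687) (nat_lit 380) (nat_lit 255078693405) (nat_lit 76) (nat_lit 368871430319) (nat_lit 95) (nat_lit 5) (nat_lit 100) (nat_lit 5) (nat_lit 96) (nat_lit 5) (nat_lit 412) (nat_lit 402) (nat_lit 206)))))) (XT.nd (nat_lit 468) (nat_lit 1444) (nat_lit 0) (XT.nd (nat_lit 234) (nat_lit 608) (nat_lit 0) (XT.nd (nat_lit 78) (nat_lit 608) (nat_lit 0) (XT.lf (nat_lit 0) (nat_lit 245522389047) (nat_lit 456) (nat_lit 384615010063) (nat_lit 76) (nat_lit 128725300665) (nat_lit 90) (nat_lit 5) (nat_lit 96) (nat_lit 5) (nat_lit 91) (nat_lit 5) (nat_lit 413) (nat_lit 402) (nat_lit 205)) (XT.nd (nat_lit 78) (nat_lit 304) (nat_lit 0) (XT.lf (nat_lit 0) (nat_lit 271554252900) (nat_lit 304) (nat_lit 143635321695) (nat_lit 380) (nat_lit 378364127559) (nat_lit 86) (nat_lit 5) (nat_lit 90) (nat_lit 5) (nat_lit 91) (nat_lit 5) (nat_lit 414) (nat_lit 402) (nat_lit 204)) (XT.lf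 (nat_lit 0) (nat_lit 162393523420) (nat_lit 304) (nat_lit 451342349467) (nat_lit 380) (nat_lit 216518824956) (nat_lit 82) (nat_lit 5) (nat_lit 86) (nat_lit 5) (nat_lit 87) (nat_lit 5) (nat_lit 415) (nat_lit 402) (nat_lit 203)))) (XT.nd (nat_lit 78) (nat_lit 380) (nat_lit 0) (XT.lf (nat_lit 0) (nat_lit 48698642967) (nat_lit 228) (nat_lit 792921658039) (nat_lit 304) (nat_lit 27598750893) (nat_lit 79) (nat_lit 5) (nat_lit 82) (nat_lit 5) (nat_lit 83) (nat_lit 5) (nat_lit 416) (nat_lit 402) (nat_lit 202)) (XT.nd (nat_lit 78) (nat_lit 304) (nat_lit 0) (XT.lf (nat_lit 0) (nat_lit 190222774104) (nat_lit 304) (nat_lit 74842357231) (nat_lit 76) (nat_lit 645125947540) (nat_lit 78) (nat_lit 5) (nat_lit 82) (nat_lit 5) (nat_lit 79) (nat_lit 5) (nat_lit 417) (nat_lit 402) (nat_lit 201)) (XT.lf (nat_lit 0) (nat_lit 441253464491) (nat_lit 380) (nat_lit 204629282808) (nat_lit 76) (nat_lit 307697980333) (nat_lit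 74) (nat_lit 5) (nat_lit 79) (nat_lit 5) (nat_lit 75) (nat_lit 5) (nat_lit 418) (nat_lit 402) (nat_lit 200))))) (XT.nd (nat_lit 234) (nat_lit 684) (nat_lit 0) (XT.nd (nat_lit 78) (nat_lit 532) (nat_lit 0) (XT.lf (nat_lit 0) (nat_lit 657498154486) (nat_lit 228) (nat_lit 70928387657) (nat_lit 304) (nat_lit 271212009554) (nat_lit 71) (nat_lit 5) (nat_lit 74) (nat_lit 5) (nat_lit 75) (nat_lit 5) (nat_lit 419) (nat_lit 402) (nat_lit 199)) (XT.nd (nat_lit 78) (nat_lit 228) (nat_lit 0) (XT.lf (nat_lit 0) (nat_lit 10769424658) (nat_lit 304) (nat_lit 492665353109) (nat_lit 76) (nat_lit 544893108139) (nat_lit 67) (nat_lit 5) (nat_lit 71) (nat_lit 5) (nat_lit 68) (nat_lit 5) (nat_lit 420) (nat_lit 402) (nat_lit 198)) (XT.lf (nat_lit 0) (nat_lit 322093779978) (nat_lit 304) (nat_lit 656649301220) (nat_lit 76) (nat_lit 121132663031) (nat_lit 64) (nat_lit 5) (nat_lit 68) (nat_lit 5) (nat_lit 65) (nat_lit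 5) (nat_lit 421) (nat_lit 402) (nat_lit 197)))) (XT.nd (nat_lit 234) (nat_lit 304) (nat_lit 0) (XT.nd (nat_lit 78) (nat_lit 152) (nat_lit 0) (XT.lf (nat_lit 0) (nat_lit 318013032532) (nat_lit 228) (nat_lit 362487540778) (nat_lit 304) (nat_lit 473938033436) (nat_lit 61) (nat_lit 5) (nat_lit 64) (nat_lit 5) (nat_lit 65) (nat_lit 5) (nat_lit 422) (nat_lit 402) (nat_lit 196)) (XT.lf (nat_lit 0) (nat_lit 182215252010) (nat_lit 152) (nat_lit 904567204552) (nat_lit 228) (nat_lit 125623914386) (nat_lit 59) (nat_lit 5) (nat_lit 61) (nat_lit 5) (nat_lit 62) (nat_lit 5) (nat_lit 423) (nat_lit 402) (nat_lit 195))) (XT.nd (nat_lit 51402) (nat_lit 0) (nat_lit 4180) (XT.lf (nat_lit 0) (nat_lit 706100532953) (nat_lit 304) (nat_lit 140271666333) (nat_lit 76) (nat_lit 492225498278) (nat_lit 55) (nat_lit 5) (nat_lit 59) (nat_lit 5) (nat_lit 56) (nat_lit 5) (nat_lit 425) (nat_lit 402) (nat_lit 193)) (XT.lf (nat_lit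 0) (nat_lit 58699744329) (nat_lit 836) (nat_lit 100420055862) (nat_lit 836) (nat_lit 100420055862) (nat_lit 110) (nat_lit 3) (nat_lit 121) (nat_lit 3) (nat_lit 121) (nat_lit 5) (nat_lit 403) (nat_lit 403) (nat_lit 214))))))))
noncomputable def xc124 : XT := (XT.nd (nat_lit 53274) (nat_lit 0) (nat_lit 304) (XT.nd (nat_lit 936) (nat_lit 2356) (nat_lit 0) (XT.nd (nat_lit 468) (nat_lit 1900) (nat_lit 0) (XT.nd (nat_lit 234) (nat_lit 0) (nat_lit 152) (XT.nd (nat_lit 78) (nat_lit 0) (nat_lit 0) (XT.lf (nat_lit 0) (nat_lit 126569094002) (nat_lit 760) (nat_lit 335029213211) (nat_lit 836) (nat_lit 78020911829) (nat_lit 111) (nat_lit 5) (nat_lit 121) (nat_lit 5) (nat_lit 122) (nat_lit 5) (nat_lit 404) (nat_lit 403) (nat_lit 213)) (XT.nd (nat_lit 78) (nat_lit 0) (nat_lit 76) (XT.lf (nat_lit 76) (nat_lit 85306367790) (nat_lit 0) (nat_lit 61419692987) (nat_lit 836) (nat_lit 414563136128) (nat_lit 112)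 (nat_lit 5) (nat_lit 111) (nat_lit 5) (nat_lit 122) (nat_lit 5) (nat_lit 405) (nat_lit 403) (nat_lit 212)) (XT.lf (nat_lit 0) (nat_lit 180216024016) (nat_lit 760) (nat_lit 39052897196) (nat_lit 836) (nat_lit 364837829853) (nat_lit 112) (nat_lit 5) (nat_lit 122) (nat_lit 5) (nat_lit 123) (nat_lit 5) (nat_lit 406) (nat_lit 403) (nat_lit 211)))) (XT.nd (nat_lit 78) (nat_lit 0) (nat_lit 76) (XT.lf (nat_lit 0) (nat_lit 227846413450) (nat_lit 760) (nat_lit 165737994234) (nat_lit 836) (nat_lit 214592240441) (nat_lit 113) (nat_lit 5) (nat_lit 123) (nat_lit 5) (nat_lit 124) (nat_lit 5) (nat_lit 407) (nat_lit 403) (nat_lit 210)) (XT.nd (nat_lit 78) (nat_lit 0) (nat_lit 0) (XT.lf (nat_lit 0) (nat_lit 289680887869) (nat_lit 760) (nat_lit 297660284521) (nat_lit 836) (nat_lit 46311281887) (nat_lit 114) (nat_lit 5) (nat_lit 124) (nat_lit 5) (nat_lit 125) (nat_lit 5) (nat_lit 408) (nat_lit 403) (nat_lit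 209)) (XT.lf (nat_lit 76) (nat_lit 223217680903) (nat_lit 0) (nat_lit 146300394765) (nat_lit 836) (nat_lit 290995451503) (nat_lit 115) (nat_lit 5) (nat_lit 114) (nat_lit 5) (nat_lit 125) (nat_lit 5) (nat_lit 409) (nat_lit 403) (nat_lit 208))))) (XT.nd (nat_lit 234) (nat_lit 1064) (nat_lit 0) (XT.nd (nat_lit 78) (nat_lit 380) (nat_lit 0) (XT.lf (nat_lit 0) (nat_lit 105262440306) (nat_lit 760) (nat_lit 362545858773) (nat_lit 836) (nat_lit 221111883805) (nat_lit 105) (nat_lit 5) (nat_lit 115) (nat_lit 5) (nat_lit 116) (nat_lit 5) (nat_lit 410) (nat_lit 403) (nat_lit 207)) (XT.nd (nat_lit 78) (nat_lit 380) (nat_lit 0) (XT.lf (nat_lit 0) (nat_lit 585884238120) (nat_lit 836) (nat_lit 16682551242) (nat_lit 76) (nat_lit 116436456820) (nat_lit 105) (nat_lit 5) (nat_lit 116) (nat_lit 5) (nat_lit 106) (nat_lit 5) (nat_lit 411) (nat_lit 403) (nat_lit 206)) (XT.lf (nat_lit 0) (nat_lit 609030218642) (nat_lit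 380) (nat_lit 119997864993) (nat_lit 456) (nat_lit 21683779357) (nat_lit 100) (nat_lit 5) (nat_lit 105) (nat_lit 5) (nat_lit 106) (nat_lit 5) (nat_lit 412) (nat_lit 403) (nat_lit 205)))) (XT.nd (nat_lit 78) (nat_lit 684) (nat_lit 0) (XT.lf (nat_lit 0) (nat_lit 110276075826) (nat_lit 380) (nat_lit 275484532709) (nat_lit 76) (nat_lit 398381150532) (nat_lit 95) (nat_lit 5) (nat_lit 100) (nat_lit 5) (nat_lit 96) (nat_lit 5) (nat_lit 413) (nat_lit 403) (nat_lit 204)) (XT.nd (nat_lit 78) (nat_lit 304) (nat_lit 0) (XT.lf (nat_lit 0) (nat_lit 265164584423) (nat_lit 456) (nat_lit 415383754602) (nat_lit 76) (nat_lit 139023356276) (nat_lit 90) (nat_lit 5) (nat_lit 96) (nat_lit 5) (nat_lit 91) (nat_lit 5) (nat_lit 414) (nat_lit 403) (nat_lit 203)) (XT.lf (nat_lit 0) (nat_lit 293279029569) (nat_lit 304) (nat_lit 155126092115) (nat_lit 380) (nat_lit 408632857361) (nat_lit 86) (nat_lit 5) (nat_lit 90) (nat_lit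 5) (nat_lit 91) (nat_lit 5) (nat_lit 415) (nat_lit 403) (nat_lit 202)))))) (XT.nd (nat_lit 468) (nat_lit 912) (nat_lit 0) (XT.nd (nat_lit 234) (nat_lit 836) (nat_lit 0) (XT.nd (nat_lit 78) (nat_lit 304) (nat_lit 0) (XT.lf (nat_lit 0) (nat_lit 175385440381) (nat_lit 304) (nat_lit 487449662819) (nat_lit 380) (nat_lit 233839952237) (nat_lit 82) (nat_lit 5) (nat_lit 86) (nat_lit 5) (nat_lit 87) (nat_lit 5) (nat_lit 416) (nat_lit 403) (nat_lit 201)) (XT.nd (nat_lit 78) (nat_lit 76) (nat_lit 0) (XT.lf (nat_lit 0) (nat_lit 52594966910) (nat_lit 228) (nat_lit 856355299788) (nat_lit 304) (nat_lit 29806292079) (nat_lit 79) (nat_lit 5) (nat_lit 82) (nat_lit 5) (nat_lit 83) (nat_lit 5) (nat_lit 417) (nat_lit 403) (nat_lit 200)) (XT.lf (nat_lit 0) (nat_lit 205440917697) (nat_lit 304) (nat_lit 80829334535) (nat_lit 76) (nat_lit 696736096698) (nat_lit 78) (nat_lit 5) (nat_lit 82) (nat_lit 5) (nat_lit 79)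 (nat_lit 5) (nat_lit 418) (nat_lit 403) (nat_lit 199)))) (XT.nd (nat_lit 78) (nat_lit 532) (nat_lit 0) (XT.lf (nat_lit 0) (nat_lit 476554047027) (nat_lit 380) (nat_lit 220999218070) (nat_lit 76) (nat_lit 332313905318) (nat_lit 74) (nat_lit 5) (nat_lit 79) (nat_lit 5) (nat_lit 75) (nat_lit 5) (nat_lit 419) (nat_lit 403) (nat_lit 198)) (XT.nd (nat_lit 78) (nat_lit 304) (nat_lit 0) (XT.lf (nat_lit 0) (nat_lit 710098396503) (nat_lit 228) (nat_lit 76602557850) (nat_lit 304) (nat_lit 292908666891) (nat_lit 71) (nat_lit 5) (nat_lit 74) (nat_lit 5) (nat_lit 75) (nat_lit 5) (nat_lit 420) (nat_lit 403) (nat_lit 197)) (XT.lf (nat_lit 0) (nat_lit 11631258184) (nat_lit 304) (nat_lit 532078186812) (nat_lit 76) (nat_lit 588484657675) (nat_lit 67) (nat_lit 5) (nat_lit 71) (nat_lit 5) (nat_lit 68) (nat_lit 5) (nat_lit 421) (nat_lit 403) (nat_lit 196))))) (XT.nd (nat_lit 234) (nat_lit 304) (nat_lit 0) (XT.nd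 (nat_lit 78) (nat_lit 380) (nat_lit 0) (XT.lf (nat_lit 0) (nat_lit 347861548873) (nat_lit 304) (nat_lit 709180856322) (nat_lit 76) (nat_lit 130823385129) (nat_lit 64) (nat_lit 5) (nat_lit 68) (nat_lit 5) (nat_lit 65) (nat_lit 5) (nat_lit 422) (nat_lit 403) (nat_lit 195)) (XT.nd (nat_lit 78) (nat_lit 152) (nat_lit 0) (XT.lf (nat_lit 0) (nat_lit 343454447225) (nat_lit 228) (nat_lit 391486424515) (nat_lit 304) (nat_lit 511852810807) (nat_lit 61) (nat_lit 5) (nat_lit 64) (nat_lit 5) (nat_lit 65) (nat_lit 5) (nat_lit 423) (nat_lit 403) (nat_lit 194)) (XT.lf (nat_lit 0) (nat_lit 196792838491) (nat_lit 152) (nat_lit 976932455900) (nat_lit 228) (nat_lit 135673574065) (nat_lit 59) (nat_lit 5) (nat_lit 61) (nat_lit 5) (nat_lit 62) (nat_lit 5) (nat_lit 424) (nat_lit 403) (nat_lit 193)))) (XT.nd (nat_lit 51480) (nat_lit 0) (nat_lit 4180) (XT.lf (nat_lit 0) (nat_lit 30871854296) (nat_lit 228) (nat_lit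 254143965219) (nat_lit 304) (nat_lit 1090631573114) (nat_lit 55) (nat_lit 5) (nat_lit 58) (nat_lit 5) (nat_lit 59) (nat_lit 5) (nat_lit 425) (nat_lit 403) (nat_lit 192)) (XT.nd (nat_lit 78) (nat_lit 0) (nat_lit 76) (XT.lf (nat_lit 0) (nat_lit 63396086051) (nat_lit 836) (nat_lit 108453470061) (nat_lit 836) (nat_lit 108453470061) (nat_lit 110) (nat_lit 3) (nat_lit 121) (nat_lit 3) (nat_lit 121) (nat_lit 5) (nat_lit 404) (nat_lit 404) (nat_lit 212)) (XT.lf (nat_lit 0) (nat_lit 136695293024) (nat_lit 760) (nat_lit 361831147096) (nat_lit 836) (nat_lit 84262282397) (nat_lit 111) (nat_lit 5) (nat_lit 121) (nat_lit 5) (nat_lit 122) (nat_lit 5) (nat_lit 405) (nat_lit 404) (nat_lit 211))))))) (XT.nd (nat_lit 936) (nat_lit 1748) (nat_lit 0) (XT.nd (nat_lit 468) (nat_lit 1748) (nat_lit 0) (XT.nd (nat_lit 234) (nat_lit 456) (nat_lit 0) (XT.nd (nat_lit 78) (nat_lit 0) (nat_lit 76) (XT.lf (nat_lit 76) (nat_lit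 92131262864) (nat_lit 0) (nat_lit 66333510558) (nat_lit 836) (nat_lit 447727527408) (nat_lit 112) (nat_lit 5) (nat_lit 111) (nat_lit 5) (nat_lit 122) (nat_lit 5) (nat_lit 406) (nat_lit 404) (nat_lit 210)) (XT.nd (nat_lit 78) (nat_lit 0) (nat_lit 76) (XT.lf (nat_lit 0) (nat_lit 194633883717) (nat_lit 760) (nat_lit 42176738917) (nat_lit 836) (nat_lit 394024639221) (nat_lit 112) (nat_lit 5) (nat_lit 122) (nat_lit 5) (nat_lit 123) (nat_lit 5) (nat_lit 407) (nat_lit 404) (nat_lit 209)) (XT.lf (nat_lit 0) (nat_lit 246074664714) (nat_lit 760) (nat_lit 178996630635) (nat_lit 836) (nat_lit 231759457340) (nat_lit 113) (nat_lit 5) (nat_lit 123) (nat_lit 5) (nat_lit 124) (nat_lit 5) (nat_lit 408) (nat_lit 404) (nat_lit 208)))) (XT.nd (nat_lit 78) (nat_lit 684) (nat_lit 0) (XT.lf (nat_lit 0) (nat_lit 312855861388) (nat_lit 760) (nat_lit 321472694245) (nat_lit 836) (nat_lit 50016069513) (nat_lit 114) (nat_lit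 5) (nat_lit 124) (nat_lit 5) (nat_lit 125) (nat_lit 5) (nat_lit 409) (nat_lit 404) (nat_lit 207)) (XT.nd (nat_lit 78) (nat_lit 684) (nat_lit 0) (XT.lf (nat_lit 76) (nat_lit 241075490462) (nat_lit 0) (nat_lit 158004502696) (nat_lit 836) (nat_lit 314274592293) (nat_lit 115) (nat_lit 5) (nat_lit 114) (nat_lit 5) (nat_lit 125) (nat_lit 5) (nat_lit 410) (nat_lit 404) (nat_lit 206)) (XT.lf (nat_lit 0) (nat_lit 113683837444) (nat_lit 760) (nat_lit 391549567248) (nat_lit 836) (nat_lit 238800370440) (nat_lit 105) (nat_lit 5) (nat_lit 115) (nat_lit 5) (nat_lit 116) (nat_lit 5) (nat_lit 411) (nat_lit 404) (nat_lit 205))))) (XT.nd (nat_lit 234) (nat_lit 988) (nat_lit 0) (XT.nd (nat_lit 78) (nat_lit 760) (nat_lit 0) (XT.lf (nat_lit 0) (nat_lit 632755385564) (nat_lit 836) (nat_lit 18016761901) (nat_lit 76) (nat_lit 125751337717) (nat_lit 105) (nat_lit 5) (nat_lit 116) (nat_lit 5) (nat_lit 106) (nat_lit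 5) (nat_lit 412) (nat_lit 404) (nat_lit 204)) (XT.nd (nat_lit 78) (nat_lit 380) (nat_lit 0) (XT.lf (nat_lit 0) (nat_lit 657753012476) (nat_lit 380) (nat_lit 129597701868) (nat_lit 456) (nat_lit 23418078231) (nat_lit 100) (nat_lit 5) (nat_lit 105) (nat_lit 5) (nat_lit 106) (nat_lit 5) (nat_lit 413) (nat_lit 404) (nat_lit 203)) (XT.lf (nat_lit 0) (nat_lit 119098529420) (nat_lit 380) (nat_lit 297522904235) (nat_lit 76) (nat_lit 430251647536) (nat_lit 95) (nat_lit 5) (nat_lit 100) (nat_lit 5) (nat_lit 96) (nat_lit 5) (nat_lit 414) (nat_lit 404) (nat_lit 202)))) (XT.nd (nat_lit 78) (nat_lit 608) (nat_lit 0) (XT.lf (nat_lit 0) (nat_lit 286378097757) (nat_lit 456) (nat_lit 448614063796) (nat_lit 76) (nat_lit 150145251834) (nat_lit 90) (nat_lit 5) (nat_lit 96) (nat_lit 5) (nat_lit 91) (nat_lit 5) (nat_lit 415) (nat_lit 404) (nat_lit 201)) (XT.nd (nat_lit 78) (nat_lit 304) (nat_lit 0) (XT.lf (nat_lit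 0) (nat_lit 316741726110) (nat_lit 304) (nat_lit 167536132060) (nat_lit 380) (nat_lit 441323142669) (nat_lit 86) (nat_lit 5) (nat_lit 90) (nat_lit 5) (nat_lit 91) (nat_lit 5) (nat_lit 416) (nat_lit 404) (nat_lit 200)) (XT.lf (nat_lit 0) (nat_lit 189416648630) (nat_lit 304) (nat_lit 526445571882) (nat_lit 380) (nat_lit 252546823728) (nat_lit 82) (nat_lit 5) (nat_lit 86) (nat_lit 5) (nat_lit 87) (nat_lit 5) (nat_lit 417) (nat_lit 404) (nat_lit 199)))))) (XT.nd (nat_lit 546) (nat_lit 152) (nat_lit 0) (XT.nd (nat_lit 234) (nat_lit 988) (nat_lit 0) (XT.nd (nat_lit 78) (nat_lit 380) (nat_lit 0) (XT.lf (nat_lit 0) (nat_lit 56802935067) (nat_lit 228) (nat_lit 924863645844) (nat_lit 304) (nat_lit 32190487759) (nat_lit 79) (nat_lit 5) (nat_lit 82) (nat_lit 5) (nat_lit 83) (nat_lit 5) (nat_lit 418) (nat_lit 404) (nat_lit 198)) (XT.nd (nat_lit 78) (nat_lit 304) (nat_lit 0) (XT.lf (nat_lit 0) (nat_lit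 221876466889) (nat_lit 304) (nat_lit 87295328696) (nat_lit 76) (nat_lit 752475047325) (nat_lit 78) (nat_lit 5) (nat_lit 82) (nat_lit 5) (nat_lit 79) (nat_lit 5) (nat_lit 419) (nat_lit 404) (nat_lit 197)) (XT.lf (nat_lit 0) (nat_lit 514678632601) (nat_lit 380) (nat_lit 238678806269) (nat_lit 76) (nat_lit 358899091954) (nat_lit 74) (nat_lit 5) (nat_lit 79) (nat_lit 5) (nat_lit 75) (nat_lit 5) (nat_lit 420) (nat_lit 404) (nat_lit 196)))) (XT.nd (nat_lit 78) (nat_lit 760) (nat_lit 0) (XT.lf (nat_lit 0) (nat_lit 766906602293) (nat_lit 228) (nat_lit 82730676043) (nat_lit 304) (nat_lit 316341100102) (nat_lit 71) (nat_lit 5) (nat_lit 74) (nat_lit 5) (nat_lit 75) (nat_lit 5) (nat_lit 421) (nat_lit 404) (nat_lit 195)) (XT.nd (nat_lit 156) (nat_lit 456) (nat_lit 0) (XT.lf (nat_lit 0) (nat_lit 12561998510) (nat_lit 304) (nat_lit 574644103498) (nat_lit 76) (nat_lit 635563516782) (nat_lit 67) (nat_lit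 5) (nat_lit 71) (nat_lit 5) (nat_lit 68) (nat_lit 5) (nat_lit 422) (nat_lit 404) (nat_lit 194)) (XT.lf (nat_lit 0) (nat_lit 370931122011) (nat_lit 228) (nat_lit 422805236002) (nat_lit 304) (nat_lit 552800808216) (nat_lit 61) (nat_lit 5) (nat_lit 64) (nat_lit 5) (nat_lit 65) (nat_lit 5) (nat_lit 424) (nat_lit 404) (nat_lit 192))))) (XT.nd (nat_lit 51714) (nat_lit 0) (nat_lit 3952) (XT.nd (nat_lit 51558) (nat_lit 0) (nat_lit 3876) (XT.lf (nat_lit 0) (nat_lit 212536579631) (nat_lit 152) (nat_lit 1055086945191) (nat_lit 228) (nat_lit 146527242679) (nat_lit 59) (nat_lit 5) (nat_lit 61) (nat_lit 5) (nat_lit 62) (nat_lit 5) (nat_lit 425) (nat_lit 404) (nat_lit 191)) (XT.nd (nat_lit 78) (nat_lit 0) (nat_lit 76) (XT.lf (nat_lit 0) (nat_lit 68468083443) (nat_lit 836) (nat_lit 117129584540) (nat_lit 836) (nat_lit 117129584540) (nat_lit 110) (nat_lit 3) (nat_lit 121) (nat_lit 3) (nat_lit 121) (nat_lit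 5) (nat_lit 405) (nat_lit 405) (nat_lit 210)) (XT.lf (nat_lit 0) (nat_lit 147631492171) (nat_lit 760) (nat_lit 390777293208) (nat_lit 836) (nat_lit 91003005748) (nat_lit 111) (nat_lit 5) (nat_lit 121) (nat_lit 5) (nat_lit 122) (nat_lit 5) (nat_lit 406) (nat_lit 405) (nat_lit 209)))) (XT.nd (nat_lit 156) (nat_lit 0) (nat_lit 152) (XT.nd (nat_lit 78) (nat_lit 0) (nat_lit 76) (XT.lf (nat_lit 76) (nat_lit 99502094527) (nat_lit 0) (nat_lit 71640398991) (nat_lit 836) (nat_lit 483545164092) (nat_lit 112) (nat_lit 5) (nat_lit 111) (nat_lit 5) (nat_lit 122) (nat_lit 5) (nat_lit 407) (nat_lit 405) (nat_lit 208)) (XT.lf (nat_lit 0) (nat_lit 210205089768) (nat_lit 760) (nat_lit 45550543622) (nat_lit 836) (nat_lit 425546424299) (nat_lit 112) (nat_lit 5) (nat_lit 122) (nat_lit 5) (nat_lit 123) (nat_lit 5) (nat_lit 408) (nat_lit 405) (nat_lit 207))) (XT.nd (nat_lit 78) (nat_lit 0) (nat_lit 76) (XT.lf (nat_lit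 0) (nat_lit 265761099301) (nat_lit 760) (nat_lit 193316015460) (nat_lit 836) (nat_lit 250300074751) (nat_lit 113) (nat_lit 5) (nat_lit 123) (nat_lit 5) (nat_lit 124) (nat_lit 5) (nat_lit 409) (nat_lit 405) (nat_lit 206)) (XT.lf (nat_lit 0) (nat_lit 337884761103) (nat_lit 760) (nat_lit 347190155673) (nat_lit 836) (nat_lit 54017256545) (nat_lit 114) (nat_lit 5) (nat_lit 124) (nat_lit 5) (nat_lit 125) (nat_lit 5) (nat_lit 410) (nat_lit 405) (nat_lit 205))))))))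
noncomputable def xc125 : XT := (XT.nd (nat_lit 53586) (nat_lit 0) (nat_lit 228) (XT.nd (nat_lit 1014) (nat_lit 532) (nat_lit 0) (XT.nd (nat_lit 468) (nat_lit 1444) (nat_lit 0) (XT.nd (nat_lit 234) (nat_lit 1140) (nat_lit 0) (XT.nd (nat_lit 78) (nat_lit 684) (nat_lit 0) (XT.lf (nat_lit 76) (nat_lit 260361868422) (nat_lit 0) (nat_lit 170644928369) (nat_lit 836) (nat_lit 339416135010) (nat_lit 115) (nat_lit 5) (nat_lit 114) (nat_lit 5) (nat_lit 125) (nat_lit 5) (nat_lit 411) (nat_lit 405) (nat_lit 204)) (XT.nd (nat_lit 78) (nat_lit 0) (nat_lit 0) (XT.lf (nat_lit 0) (nat_lit 122778889015) (nat_lit 760) (nat_lit 422873566727) (nat_lit 836) (nat_lit 257904002211) (nat_lit 105) (nat_lit 5) (nat_lit 115) (nat_lit 5) (nat_lit 116) (nat_lit 5) (nat_lit 412) (nat_lit 405) (nat_lit 203)) (XT.lf (nat_lit 0) (nat_lit 683376166541) (nat_lit 836) (nat_lit 19457765540) (nat_lit 76) (nat_lit 135811414171)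 (nat_lit 105) (nat_lit 5) (nat_lit 116) (nat_lit 5) (nat_lit 106) (nat_lit 5) (nat_lit 413) (nat_lit 405) (nat_lit 202)))) (XT.nd (nat_lit 78) (nat_lit 760) (nat_lit 0) (XT.lf (nat_lit 0) (nat_lit 710373576128) (nat_lit 380) (nat_lit 139965524598) (nat_lit 456) (nat_lit 25291178574) (nat_lit 100) (nat_lit 5) (nat_lit 105) (nat_lit 5) (nat_lit 106) (nat_lit 5) (nat_lit 414) (nat_lit 405) (nat_lit 201)) (XT.nd (nat_lit 78) (nat_lit 380) (nat_lit 0) (XT.lf (nat_lit 0) (nat_lit 128626726870) (nat_lit 380) (nat_lit 321324401276) (nat_lit 76) (nat_lit 464671783592) (nat_lit 95) (nat_lit 5) (nat_lit 100) (nat_lit 5) (nat_lit 96) (nat_lit 5) (nat_lit 415) (nat_lit 405) (nat_lit 200)) (XT.lf (nat_lit 0) (nat_lit 309288642714) (nat_lit 456) (nat_lit 484502853530) (nat_lit 76) (nat_lit 162156895177) (nat_lit 90) (nat_lit 5) (nat_lit 96) (nat_lit 5) (nat_lit 91) (nat_lit 5) (nat_lit 416) (nat_lit 405)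 (nat_lit 199))))) (XT.nd (nat_lit 234) (nat_lit 608) (nat_lit 0) (XT.nd (nat_lit 78) (nat_lit 532) (nat_lit 0) (XT.lf (nat_lit 0) (nat_lit 342081384993) (nat_lit 304) (nat_lit 180938981965) (nat_lit 380) (nat_lit 476628699775) (nat_lit 86) (nat_lit 5) (nat_lit 90) (nat_lit 5) (nat_lit 91) (nat_lit 5) (nat_lit 417) (nat_lit 405) (nat_lit 198)) (XT.nd (nat_lit 78) (nat_lit 228) (nat_lit 0) (XT.lf (nat_lit 0) (nat_lit 204570300322) (nat_lit 304) (nat_lit 568561162796) (nat_lit 380) (nat_lit 272750291259) (nat_lit 82) (nat_lit 5) (nat_lit 86) (nat_lit 5) (nat_lit 87) (nat_lit 5) (nat_lit 418) (nat_lit 405) (nat_lit 197)) (XT.lf (nat_lit 0) (nat_lit 61347487777) (nat_lit 228) (nat_lit 998852670701) (nat_lit 304) (nat_lit 34765462988) (nat_lit 79) (nat_lit 5) (nat_lit 82) (nat_lit 5) (nat_lit 83) (nat_lit 5) (nat_lit 419) (nat_lit 405) (nat_lit 196)))) (XT.nd (nat_lit 78) (nat_lit 532) (nat_lit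 0) (XT.lf (nat_lit 0) (nat_lit 239626820674) (nat_lit 304) (nat_lit 94278652693) (nat_lit 76) (nat_lit 812673105029) (nat_lit 78) (nat_lit 5) (nat_lit 82) (nat_lit 5) (nat_lit 79) (nat_lit 5) (nat_lit 420) (nat_lit 405) (nat_lit 195)) (XT.nd (nat_lit 78) (nat_lit 228) (nat_lit 0) (XT.lf (nat_lit 0) (nat_lit 555853147670) (nat_lit 380) (nat_lit 257772811347) (nat_lit 76) (nat_lit 387611082933) (nat_lit 74) (nat_lit 5) (nat_lit 79) (nat_lit 5) (nat_lit 75) (nat_lit 5) (nat_lit 421) (nat_lit 405) (nat_lit 194)) (XT.lf (nat_lit 0) (nat_lit 828259416887) (nat_lit 228) (nat_lit 89349056021) (nat_lit 304) (nat_lit 341648165081) (nat_lit 71) (nat_lit 5) (nat_lit 74) (nat_lit 5) (nat_lit 75) (nat_lit 5) (nat_lit 422) (nat_lit 405) (nat_lit 193)))))) (XT.nd (nat_lit 52104) (nat_lit 0) (nat_lit 2356) (XT.nd (nat_lit 51870) (nat_lit 0) (nat_lit 3572) (XT.nd (nat_lit 51714) (nat_lit 0) (nat_lit 3496)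 (XT.lf (nat_lit 0) (nat_lit 405746153244) (nat_lit 304) (nat_lit 827187904708) (nat_lit 76) (nat_lit 152592577550) (nat_lit 64) (nat_lit 5) (nat_lit 68) (nat_lit 5) (nat_lit 65) (nat_lit 5) (nat_lit 424) (nat_lit 405) (nat_lit 191)) (XT.nd (nat_lit 78) (nat_lit 0) (nat_lit 76) (XT.lf (nat_lit 0) (nat_lit 73945796329) (nat_lit 836) (nat_lit 126499811449) (nat_lit 836) (nat_lit 126499811449) (nat_lit 110) (nat_lit 3) (nat_lit 121) (nat_lit 3) (nat_lit 121) (nat_lit 5) (nat_lit 406) (nat_lit 406) (nat_lit 208)) (XT.lf (nat_lit 0) (nat_lit 159442505119) (nat_lit 760) (nat_lit 422039180321) (nat_lit 836) (nat_lit 98283023950) (nat_lit 111) (nat_lit 5) (nat_lit 121) (nat_lit 5) (nat_lit 122) (nat_lit 5) (nat_lit 407) (nat_lit 406) (nat_lit 207)))) (XT.nd (nat_lit 78) (nat_lit 0) (nat_lit 76) (XT.lf (nat_lit 76) (nat_lit 107462545554) (nat_lit 0) (nat_lit 77371808885) (nat_lit 836) (nat_lit 522228292386)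 (nat_lit 112) (nat_lit 5) (nat_lit 111) (nat_lit 5) (nat_lit 122) (nat_lit 5) (nat_lit 408) (nat_lit 406) (nat_lit 206)) (XT.nd (nat_lit 78) (nat_lit 0) (nat_lit 76) (XT.lf (nat_lit 0) (nat_lit 227021921635) (nat_lit 760) (nat_lit 49194300410) (nat_lit 836) (nat_lit 459589978727) (nat_lit 112) (nat_lit 5) (nat_lit 122) (nat_lit 5) (nat_lit 123) (nat_lit 5) (nat_lit 409) (nat_lit 406) (nat_lit 205)) (XT.lf (nat_lit 0) (nat_lit 287022382830) (nat_lit 760) (nat_lit 208781000378) (nat_lit 836) (nat_lit 270323961410) (nat_lit 113) (nat_lit 5) (nat_lit 123) (nat_lit 5) (nat_lit 124) (nat_lit 5) (nat_lit 410) (nat_lit 406) (nat_lit 204))))) (XT.nd (nat_lit 234) (nat_lit 760) (nat_lit 0) (XT.nd (nat_lit 78) (nat_lit 684) (nat_lit 0) (XT.lf (nat_lit 0) (nat_lit 364915911336) (nat_lit 760) (nat_lit 374965064532) (nat_lit 836) (nat_lit 58338552595) (nat_lit 114) (nat_lit 5) (nat_lit 124) (nat_lit 5)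 (nat_lit 125) (nat_lit 5) (nat_lit 411) (nat_lit 406) (nat_lit 203)) (XT.nd (nat_lit 78) (nat_lit 684) (nat_lit 0) (XT.lf (nat_lit 76) (nat_lit 281191108297) (nat_lit 0) (nat_lit 184296578757) (nat_lit 836) (nat_lit 366569061728) (nat_lit 115) (nat_lit 5) (nat_lit 114) (nat_lit 5) (nat_lit 125) (nat_lit 5) (nat_lit 412) (nat_lit 406) (nat_lit 202)) (XT.lf (nat_lit 0) (nat_lit 132601495554) (nat_lit 760) (nat_lit 456703481300) (nat_lit 836) (nat_lit 278535981283) (nat_lit 105) (nat_lit 5) (nat_lit 115) (nat_lit 5) (nat_lit 116) (nat_lit 5) (nat_lit 413) (nat_lit 406) (nat_lit 201)))) (XT.nd (nat_lit 78) (nat_lit 760) (nat_lit 0) (XT.lf (nat_lit 0) (nat_lit 738046560046) (nat_lit 836) (nat_lit 21014097592) (nat_lit 76) (nat_lit 146676301102) (nat_lit 105) (nat_lit 5) (nat_lit 116) (nat_lit 5) (nat_lit 106) (nat_lit 5) (nat_lit 414) (nat_lit 406) (nat_lit 200)) (XT.nd (nat_lit 78) (nat_lit 380)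 (nat_lit 0) (XT.lf (nat_lit 0) (nat_lit 767203738841) (nat_lit 380) (nat_lit 151162772208) (nat_lit 456) (nat_lit 27314176294) (nat_lit 100) (nat_lit 5) (nat_lit 105) (nat_lit 5) (nat_lit 106) (nat_lit 5) (nat_lit 415) (nat_lit 406) (nat_lit 199)) (XT.lf (nat_lit 0) (nat_lit 138917135163) (nat_lit 380) (nat_lit 347030065915) (nat_lit 76) (nat_lit 501845529926) (nat_lit 95) (nat_lit 5) (nat_lit 100) (nat_lit 5) (nat_lit 96) (nat_lit 5) (nat_lit 416) (nat_lit 406) (nat_lit 198))))))) (XT.nd (nat_lit 52728) (nat_lit 0) (nat_lit 304) (XT.nd (nat_lit 546) (nat_lit 532) (nat_lit 0) (XT.nd (nat_lit 234) (nat_lit 608) (nat_lit 0) (XT.nd (nat_lit 78) (nat_lit 608) (nat_lit 0) (XT.lf (nat_lit 0) (nat_lit 334031988879) (nat_lit 456) (nat_lit 523262794288) (nat_lit 76) (nat_lit 175129466678) (nat_lit 90) (nat_lit 5) (nat_lit 96) (nat_lit 5) (nat_lit 91) (nat_lit 5) (nat_lit 417) (nat_lit 406) (nat_lit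 197)) (XT.nd (nat_lit 78) (nat_lit 304) (nat_lit 0) (XT.lf (nat_lit 0) (nat_lit 369448170822) (nat_lit 304) (nat_lit 195414065664) (nat_lit 380) (nat_lit 514758743435) (nat_lit 86) (nat_lit 5) (nat_lit 90) (nat_lit 5) (nat_lit 91) (nat_lit 5) (nat_lit 418) (nat_lit 406) (nat_lit 196)) (XT.lf (nat_lit 0) (nat_lit 220936198527) (nat_lit 304) (nat_lit 614046008806) (nat_lit 380) (nat_lit 294570075905) (nat_lit 82) (nat_lit 5) (nat_lit 86) (nat_lit 5) (nat_lit 87) (nat_lit 5) (nat_lit 419) (nat_lit 406) (nat_lit 195)))) (XT.nd (nat_lit 78) (nat_lit 380) (nat_lit 0) (XT.lf (nat_lit 0) (nat_lit 66255559351) (nat_lit 228) (nat_lit 1078760827078) (nat_lit 304) (nat_lit 37546473869) (nat_lit 79) (nat_lit 5) (nat_lit 82) (nat_lit 5) (nat_lit 83) (nat_lit 5) (nat_lit 420) (nat_lit 406) (nat_lit 194)) (XT.nd (nat_lit 78) (nat_lit 304) (nat_lit 0) (XT.lf (nat_lit 0) (nat_lit 258797169032) (nat_lit 304)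 (nat_lit 101820685735) (nat_lit 76) (nat_lit 877686999658) (nat_lit 78) (nat_lit 5) (nat_lit 82) (nat_lit 5) (nat_lit 79) (nat_lit 5) (nat_lit 421) (nat_lit 406) (nat_lit 193)) (XT.lf (nat_lit 0) (nat_lit 600321591922) (nat_lit 380) (nat_lit 278394379548) (nat_lit 76) (nat_lit 418620024114) (nat_lit 74) (nat_lit 5) (nat_lit 79) (nat_lit 5) (nat_lit 75) (nat_lit 5) (nat_lit 422) (nat_lit 406) (nat_lit 192))))) (XT.nd (nat_lit 51948) (nat_lit 0) (nat_lit 3344) (XT.nd (nat_lit 51792) (nat_lit 0) (nat_lit 3268) (XT.lf (nat_lit 0) (nat_lit 14652713147) (nat_lit 304) (nat_lit 670264320487) (nat_lit 76) (nat_lit 741321429636) (nat_lit 67) (nat_lit 5) (nat_lit 71) (nat_lit 5) (nat_lit 68) (nat_lit 5) (nat_lit 424) (nat_lit 406) (nat_lit 190)) (XT.nd (nat_lit 78) (nat_lit 0) (nat_lit 76) (XT.lf (nat_lit 0) (nat_lit 79861688268) (nat_lit 836) (nat_lit 136619676462) (nat_lit 836) (nat_lit 136619676462)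 (nat_lit 110) (nat_lit 3) (nat_lit 121) (nat_lit 3) (nat_lit 121) (nat_lit 5) (nat_lit 407) (nat_lit 407) (nat_lit 206)) (XT.lf (nat_lit 0) (nat_lit 172198328689) (nat_lit 760) (nat_lit 455802060680) (nat_lit 836) (nat_lit 106145475316) (nat_lit 111) (nat_lit 5) (nat_lit 121) (nat_lit 5) (nat_lit 122) (nat_lit 5) (nat_lit 408) (nat_lit 407) (nat_lit 205)))) (XT.nd (nat_lit 78) (nat_lit 0) (nat_lit 76) (XT.lf (nat_lit 76) (nat_lit 116059792224) (nat_lit 0) (nat_lit 83561706179) (nat_lit 836) (nat_lit 564006140110) (nat_lit 112) (nat_lit 5) (nat_lit 111) (nat_lit 5) (nat_lit 122) (nat_lit 5) (nat_lit 409) (nat_lit 407) (nat_lit 204)) (XT.nd (nat_lit 78) (nat_lit 0) (nat_lit 76) (XT.lf (nat_lit 0) (nat_lit 245184039465) (nat_lit 760) (nat_lit 53129598642) (nat_lit 836) (nat_lit 496357040266) (nat_lit 112) (nat_lit 5) (nat_lit 122) (nat_lit 5) (nat_lit 123) (nat_lit 5) (nat_lit 410) (nat_lit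 407) (nat_lit 203)) (XT.lf (nat_lit 0) (nat_lit 309984512606) (nat_lit 760) (nat_lit 225483226363) (nat_lit 836) (nat_lit 291949776024) (nat_lit 113) (nat_lit 5) (nat_lit 123) (nat_lit 5) (nat_lit 124) (nat_lit 5) (nat_lit 411) (nat_lit 407) (nat_lit 202)))))) (XT.nd (nat_lit 468) (nat_lit 1824) (nat_lit 0) (XT.nd (nat_lit 234) (nat_lit 760) (nat_lit 0) (XT.nd (nat_lit 78) (nat_lit 684) (nat_lit 0) (XT.lf (nat_lit 0) (nat_lit 394109500897) (nat_lit 760) (nat_lit 404962009411) (nat_lit 836) (nat_lit 63005564381) (nat_lit 114) (nat_lit 5) (nat_lit 124) (nat_lit 5) (nat_lit 125) (nat_lit 5) (nat_lit 412) (nat_lit 407) (nat_lit 201)) (XT.nd (nat_lit 78) (nat_lit 684) (nat_lit 0) (XT.lf (nat_lit 76) (nat_lit 303686645932) (nat_lit 0) (nat_lit 199040353171) (nat_lit 836) (nat_lit 395894274525) (nat_lit 115) (nat_lit 5) (nat_lit 114) (nat_lit 5) (nat_lit 125) (nat_lit 5) (nat_lit 413) (nat_lit 407)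 (nat_lit 200)) (XT.lf (nat_lit 0) (nat_lit 143209868472) (nat_lit 760) (nat_lit 493239784868) (nat_lit 836) (nat_lit 300818567343) (nat_lit 105) (nat_lit 5) (nat_lit 115) (nat_lit 5) (nat_lit 116) (nat_lit 5) (nat_lit 414) (nat_lit 407) (nat_lit 199)))) (XT.nd (nat_lit 78) (nat_lit 760) (nat_lit 0) (XT.lf (nat_lit 0) (nat_lit 797090542207) (nat_lit 836) (nat_lit 22694977465) (nat_lit 76) (nat_lit 158410382726) (nat_lit 105) (nat_lit 5) (nat_lit 116) (nat_lit 5) (nat_lit 106) (nat_lit 5) (nat_lit 415) (nat_lit 407) (nat_lit 198)) (XT.nd (nat_lit 78) (nat_lit 380) (nat_lit 0) (XT.lf (nat_lit 0) (nat_lit 828580275109) (nat_lit 380) (nat_lit 163255798821) (nat_lit 456) (nat_lit 29499056140) (nat_lit 100) (nat_lit 5) (nat_lit 105) (nat_lit 5) (nat_lit 106) (nat_lit 5) (nat_lit 416) (nat_lit 407) (nat_lit 197)) (XT.lf (nat_lit 0) (nat_lit 150030737581) (nat_lit 380) (nat_lit 374792224734) (nat_lit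 76) (nat_lit 541993175447) (nat_lit 95) (nat_lit 5) (nat_lit 100) (nat_lit 5) (nat_lit 96) (nat_lit 5) (nat_lit 417) (nat_lit 407) (nat_lit 196))))) (XT.nd (nat_lit 234) (nat_lit 836) (nat_lit 0) (XT.nd (nat_lit 78) (nat_lit 608) (nat_lit 0) (XT.lf (nat_lit 0) (nat_lit 360754766394) (nat_lit 456) (nat_lit 565123571325) (nat_lit 76) (nat_lit 189139841063) (nat_lit 90) (nat_lit 5) (nat_lit 96) (nat_lit 5) (nat_lit 91) (nat_lit 5) (nat_lit 418) (nat_lit 407) (nat_lit 195)) (XT.nd (nat_lit 78) (nat_lit 304) (nat_lit 0) (XT.lf (nat_lit 0) (nat_lit 399004260281) (nat_lit 304) (nat_lit 211047161032) (nat_lit 380) (nat_lit 555939226585) (nat_lit 86) (nat_lit 5) (nat_lit 90) (nat_lit 5) (nat_lit 91) (nat_lit 5) (nat_lit 419) (nat_lit 407) (nat_lit 194)) (XT.lf (nat_lit 0) (nat_lit 238611329474) (nat_lit 304) (nat_lit 663169649203) (nat_lit 380) (nat_lit 318135477369) (nat_lit 82) (nat_lit 5) (nat_lit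 86) (nat_lit 5) (nat_lit 87) (nat_lit 5) (nat_lit 420) (nat_lit 407) (nat_lit 193)))) (XT.nd (nat_lit 52104) (nat_lit 0) (nat_lit 2964) (XT.nd (nat_lit 234) (nat_lit 608) (nat_lit 0) (XT.lf (nat_lit 0) (nat_lit 71556237768) (nat_lit 228) (nat_lit 1165061644137) (nat_lit 304) (nat_lit 40549997884) (nat_lit 79) (nat_lit 5) (nat_lit 82) (nat_lit 5) (nat_lit 83) (nat_lit 5) (nat_lit 421) (nat_lit 407) (nat_lit 192)) (XT.lf (nat_lit 0) (nat_lit 966082259572) (nat_lit 228) (nat_lit 104216615858) (nat_lit 304) (nat_lit 398498049310) (nat_lit 71) (nat_lit 5) (nat_lit 74) (nat_lit 5) (nat_lit 75) (nat_lit 5) (nat_lit 424) (nat_lit 407) (nat_lit 189))) (XT.nd (nat_lit 78) (nat_lit 0) (nat_lit 76) (XT.lf (nat_lit 0) (nat_lit 86250819001) (nat_lit 836) (nat_lit 147549147782) (nat_lit 836) (nat_lit 147549147782) (nat_lit 110) (nat_lit 3) (nat_lit 121) (nat_lit 3) (nat_lit 121) (nat_lit 5) (nat_lit 408)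 (nat_lit 408) (nat_lit 204)) (XT.lf (nat_lit 0) (nat_lit 185974557776) (nat_lit 760) (nat_lit 492266007713) (nat_lit 836) (nat_lit 114636949976) (nat_lit 111) (nat_lit 5) (nat_lit 121) (nat_lit 5) (nat_lit 122) (nat_lit 5) (nat_lit 409) (nat_lit 408) (nat_lit 203))))))))
noncomputable def xc126 : XT := (XT.nd (nat_lit 53898) (nat_lit 0) (nat_lit 76) (XT.nd (nat_lit 1014) (nat_lit 304) (nat_lit 0) (XT.nd (nat_lit 468) (nat_lit 1748) (nat_lit 0) (XT.nd (nat_lit 234) (nat_lit 456) (nat_lit 0) (XT.nd (nat_lit 78) (nat_lit 0) (nat_lit 76) (XT.lf (nat_lit 76) (nat_lit 125344783957) (nat_lit 0) (nat_lit 90246773490) (nat_lit 836) (nat_lit 609126274952) (nat_lit 112) (nat_lit 5) (nat_lit 111) (nat_lit 5) (nat_lit 122) (nat_lit 5) (nat_lit 410) (nat_lit 408) (nat_lit 202)) (XT.nd (nat_lit 78) (nat_lit 0) (nat_lit 76) (XT.lf (nat_lit 0) (nat_lit 264799074778) (nat_lit 760) (nat_lit 57379755799) (nat_lit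 836) (nat_lit 536065486238) (nat_lit 112) (nat_lit 5) (nat_lit 122) (nat_lit 5) (nat_lit 123) (nat_lit 5) (nat_lit 411) (nat_lit 408) (nat_lit 201)) (XT.lf (nat_lit 0) (nat_lit 334783564381) (nat_lit 760) (nat_lit 243521666669) (nat_lit 836) (nat_lit 315305670401) (nat_lit 113) (nat_lit 5) (nat_lit 123) (nat_lit 5) (nat_lit 124) (nat_lit 5) (nat_lit 412) (nat_lit 408) (nat_lit 200)))) (XT.nd (nat_lit 78) (nat_lit 684) (nat_lit 0) (XT.lf (nat_lit 0) (nat_lit 425638532448) (nat_lit 760) (nat_lit 437358747013) (nat_lit 836) (nat_lit 68045947441) (nat_lit 114) (nat_lit 5) (nat_lit 124) (nat_lit 5) (nat_lit 125) (nat_lit 5) (nat_lit 413) (nat_lit 408) (nat_lit 199)) (XT.nd (nat_lit 78) (nat_lit 684) (nat_lit 0) (XT.lf (nat_lit 76) (nat_lit 327981791060) (nat_lit 0) (nat_lit 214963622674) (nat_lit 836) (nat_lit 427565548875) (nat_lit 115) (nat_lit 5) (nat_lit 114) (nat_lit 5) (nat_lit 125) (nat_lit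 5) (nat_lit 414) (nat_lit 408) (nat_lit 198)) (XT.lf (nat_lit 0) (nat_lit 154666875090) (nat_lit 760) (nat_lit 532698989146) (nat_lit 836) (nat_lit 324883802009) (nat_lit 105) (nat_lit 5) (nat_lit 115) (nat_lit 5) (nat_lit 116) (nat_lit 5) (nat_lit 415) (nat_lit 408) (nat_lit 197))))) (XT.nd (nat_lit 234) (nat_lit 988) (nat_lit 0) (XT.nd (nat_lit 78) (nat_lit 760) (nat_lit 0) (XT.lf (nat_lit 0) (nat_lit 860858006226) (nat_lit 836) (nat_lit 24510363098) (nat_lit 76) (nat_lit 171083194084) (nat_lit 105) (nat_lit 5) (nat_lit 116) (nat_lit 5) (nat_lit 106) (nat_lit 5) (nat_lit 416) (nat_lit 408) (nat_lit 196)) (XT.nd (nat_lit 78) (nat_lit 380) (nat_lit 0) (XT.lf (nat_lit 0) (nat_lit 894866900444) (nat_lit 380) (nat_lit 176316266874) (nat_lit 456) (nat_lit 31858762646) (nat_lit 100) (nat_lit 5) (nat_lit 105) (nat_lit 5) (nat_lit 106) (nat_lit 5) (nat_lit 417) (nat_lit 408) (nat_lit 195)) (XT.lf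 (nat_lit 0) (nat_lit 162033395152) (nat_lit 380) (nat_lit 404775391419) (nat_lit 76) (nat_lit 585352632163) (nat_lit 95) (nat_lit 5) (nat_lit 100) (nat_lit 5) (nat_lit 96) (nat_lit 5) (nat_lit 418) (nat_lit 408) (nat_lit 194)))) (XT.nd (nat_lit 78) (nat_lit 608) (nat_lit 0) (XT.lf (nat_lit 0) (nat_lit 389615334952) (nat_lit 456) (nat_lit 610333245691) (nat_lit 76) (nat_lit 204271042965) (nat_lit 90) (nat_lit 5) (nat_lit 96) (nat_lit 5) (nat_lit 91) (nat_lit 5) (nat_lit 419) (nat_lit 408) (nat_lit 193)) (XT.nd (nat_lit 78) (nat_lit 304) (nat_lit 0) (XT.lf (nat_lit 0) (nat_lit 430924803258) (nat_lit 304) (nat_lit 227930908292) (nat_lit 380) (nat_lit 600414179248) (nat_lit 86) (nat_lit 5) (nat_lit 90) (nat_lit 5) (nat_lit 91) (nat_lit 5) (nat_lit 420) (nat_lit 408) (nat_lit 192)) (XT.lf (nat_lit 0) (nat_lit 257700437362) (nat_lit 304) (nat_lit 716223186583) (nat_lit 380) (nat_lit 343586140140)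 (nat_lit 82) (nat_lit 5) (nat_lit 86) (nat_lit 5) (nat_lit 87) (nat_lit 5) (nat_lit 421) (nat_lit 408) (nat_lit 191)))))) (XT.nd (nat_lit 52416) (nat_lit 0) (nat_lit 1292) (XT.nd (nat_lit 52182) (nat_lit 0) (nat_lit 2508) (XT.nd (nat_lit 52026) (nat_lit 0) (nat_lit 2432) (XT.lf (nat_lit 0) (nat_lit 301861354641) (nat_lit 304) (nat_lit 118763217367) (nat_lit 76) (nat_lit 1023734193181) (nat_lit 78) (nat_lit 5) (nat_lit 82) (nat_lit 5) (nat_lit 79) (nat_lit 5) (nat_lit 423) (nat_lit 408) (nat_lit 189)) (XT.nd (nat_lit 78) (nat_lit 0) (nat_lit 76) (XT.lf (nat_lit 0) (nat_lit 93151052279) (nat_lit 836) (nat_lit 159352991473) (nat_lit 836) (nat_lit 159352991473) (nat_lit 110) (nat_lit 3) (nat_lit 121) (nat_lit 3) (nat_lit 121) (nat_lit 5) (nat_lit 409) (nat_lit 409) (nat_lit 202)) (XT.lf (nat_lit 0) (nat_lit 200852833434) (nat_lit 760) (nat_lit 531647101583) (nat_lit 836) (nat_lit 123807765914)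 (nat_lit 111) (nat_lit 5) (nat_lit 121) (nat_lit 5) (nat_lit 122) (nat_lit 5) (nat_lit 410) (nat_lit 409) (nat_lit 201)))) (XT.nd (nat_lit 78) (nat_lit 0) (nat_lit 76) (XT.lf (nat_lit 76) (nat_lit 135372545304) (nat_lit 0) (nat_lit 97466627523) (nat_lit 836) (nat_lit 657856071422) (nat_lit 112) (nat_lit 5) (nat_lit 111) (nat_lit 5) (nat_lit 122) (nat_lit 5) (nat_lit 411) (nat_lit 409) (nat_lit 200)) (XT.nd (nat_lit 78) (nat_lit 0) (nat_lit 76) (XT.lf (nat_lit 0) (nat_lit 285983268385) (nat_lit 760) (nat_lit 61969955592) (nat_lit 836) (nat_lit 578950624615) (nat_lit 112) (nat_lit 5) (nat_lit 122) (nat_lit 5) (nat_lit 123) (nat_lit 5) (nat_lit 412) (nat_lit 409) (nat_lit 199)) (XT.lf (nat_lit 0) (nat_lit 361566498817) (nat_lit 760) (nat_lit 263003213272) (nat_lit 836) (nat_lit 340530048840) (nat_lit 113) (nat_lit 5) (nat_lit 123) (nat_lit 5) (nat_lit 124) (nat_lit 5) (nat_lit 413) (nat_lit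 409) (nat_lit 198))))) (XT.nd (nat_lit 234) (nat_lit 760) (nat_lit 0) (XT.nd (nat_lit 78) (nat_lit 684) (nat_lit 0) (XT.lf (nat_lit 0) (nat_lit 459689847793) (nat_lit 760) (nat_lit 472347255458) (nat_lit 836) (nat_lit 73489570004) (nat_lit 114) (nat_lit 5) (nat_lit 124) (nat_lit 5) (nat_lit 125) (nat_lit 5) (nat_lit 414) (nat_lit 409) (nat_lit 197)) (XT.nd (nat_lit 78) (nat_lit 684) (nat_lit 0) (XT.lf (nat_lit 76) (nat_lit 354220517347) (nat_lit 0) (nat_lit 232160747852) (nat_lit 836) (nat_lit 461770563351) (nat_lit 115) (nat_lit 5) (nat_lit 114) (nat_lit 5) (nat_lit 125) (nat_lit 5) (nat_lit 415) (nat_lit 409) (nat_lit 196)) (XT.lf (nat_lit 0) (nat_lit 167040411261) (nat_lit 760) (nat_lit 575314926701) (nat_lit 836) (nat_lit 350874291216) (nat_lit 105) (nat_lit 5) (nat_lit 115) (nat_lit 5) (nat_lit 116) (nat_lit 5) (nat_lit 416) (nat_lit 409) (nat_lit 195)))) (XT.nd (nat_lit 78) (nat_lit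 760) (nat_lit 0) (XT.lf (nat_lit 0) (nat_lit 929726835889) (nat_lit 836) (nat_lit 26471009907) (nat_lit 76) (nat_lit 184769833098) (nat_lit 105) (nat_lit 5) (nat_lit 116) (nat_lit 5) (nat_lit 106) (nat_lit 5) (nat_lit 417) (nat_lit 409) (nat_lit 194)) (XT.nd (nat_lit 78) (nat_lit 380) (nat_lit 0) (XT.lf (nat_lit 0) (nat_lit 966456426799) (nat_lit 380) (nat_lit 190421571779) (nat_lit 456) (nat_lit 34407276771) (nat_lit 100) (nat_lit 5) (nat_lit 105) (nat_lit 5) (nat_lit 106) (nat_lit 5) (nat_lit 418) (nat_lit 409) (nat_lit 193)) (XT.lf (nat_lit 0) (nat_lit 174996237000) (nat_lit 380) (nat_lit 437157241581) (nat_lit 76) (nat_lit 632180845034) (nat_lit 95) (nat_lit 5) (nat_lit 100) (nat_lit 5) (nat_lit 96) (nat_lit 5) (nat_lit 419) (nat_lit 409) (nat_lit 192))))))) (XT.nd (nat_lit 53040) (nat_lit 0) (nat_lit 228) (XT.nd (nat_lit 52572) (nat_lit 0) (nat_lit 1976) (XT.nd (nat_lit 52338) (nat_lit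 0) (nat_lit 2356) (XT.nd (nat_lit 78) (nat_lit 836) (nat_lit 0) (XT.lf (nat_lit 0) (nat_lit 420784722282) (nat_lit 456) (nat_lit 659159724157) (nat_lit 76) (nat_lit 220612738935) (nat_lit 90) (nat_lit 5) (nat_lit 96) (nat_lit 5) (nat_lit 91) (nat_lit 5) (nat_lit 420) (nat_lit 409) (nat_lit 191)) (XT.nd (nat_lit 156) (nat_lit 532) (nat_lit 0) (XT.lf (nat_lit 0) (nat_lit 465398960834) (nat_lit 304) (nat_lit 246165358989) (nat_lit 380) (nat_lit 648447154582) (nat_lit 86) (nat_lit 5) (nat_lit 90) (nat_lit 5) (nat_lit 91) (nat_lit 5) (nat_lit 421) (nat_lit 409) (nat_lit 190)) (XT.lf (nat_lit 0) (nat_lit 83463583848) (nat_lit 228) (nat_lit 1358927820156) (nat_lit 304) (nat_lit 47297195482) (nat_lit 79) (nat_lit 5) (nat_lit 82) (nat_lit 5) (nat_lit 83) (nat_lit 5) (nat_lit 423) (nat_lit 409) (nat_lit 188)))) (XT.nd (nat_lit 78) (nat_lit 0) (nat_lit 76) (XT.lf (nat_lit 0) (nat_lit 100603280287) (nat_lit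 836) (nat_lit 172101155232) (nat_lit 836) (nat_lit 172101155232) (nat_lit 110) (nat_lit 3) (nat_lit 121) (nat_lit 3) (nat_lit 121) (nat_lit 5) (nat_lit 410) (nat_lit 410) (nat_lit 200)) (XT.nd (nat_lit 78) (nat_lit 0) (nat_lit 0) (XT.lf (nat_lit 0) (nat_lit 216921326772) (nat_lit 760) (nat_lit 574178709604) (nat_lit 836) (nat_lit 133712267109) (nat_lit 111) (nat_lit 5) (nat_lit 121) (nat_lit 5) (nat_lit 122) (nat_lit 5) (nat_lit 411) (nat_lit 410) (nat_lit 199)) (XT.lf (nat_lit 76) (nat_lit 146202502076) (nat_lit 0) (nat_lit 105264053879) (nat_lit 836) (nat_lit 710484295195) (nat_lit 112) (nat_lit 5) (nat_lit 111) (nat_lit 5) (nat_lit 122) (nat_lit 5) (nat_lit 412) (nat_lit 410) (nat_lit 198))))) (XT.nd (nat_lit 234) (nat_lit 532) (nat_lit 0) (XT.nd (nat_lit 78) (nat_lit 0) (nat_lit 76) (XT.lf (nat_lit 0) (nat_lit 308862159300) (nat_lit 760) (nat_lit 66927397144) (nat_lit 836) (nat_lit 625266588402)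 (nat_lit 112) (nat_lit 5) (nat_lit 122) (nat_lit 5) (nat_lit 123) (nat_lit 5) (nat_lit 413) (nat_lit 410) (nat_lit 197)) (XT.nd (nat_lit 78) (nat_lit 0) (nat_lit 76) (XT.lf (nat_lit 0) (nat_lit 390492032444) (nat_lit 760) (nat_lit 284043310242) (nat_lit 836) (nat_lit 367772388281) (nat_lit 113) (nat_lit 5) (nat_lit 123) (nat_lit 5) (nat_lit 124) (nat_lit 5) (nat_lit 414) (nat_lit 410) (nat_lit 196)) (XT.lf (nat_lit 0) (nat_lit 496465235162) (nat_lit 760) (nat_lit 510134871872) (nat_lit 836) (nat_lit 79368689966) (nat_lit 114) (nat_lit 5) (nat_lit 124) (nat_lit 5) (nat_lit 125) (nat_lit 5) (nat_lit 415) (nat_lit 410) (nat_lit 195)))) (XT.nd (nat_lit 78) (nat_lit 684) (nat_lit 0) (XT.lf (nat_lit 76) (nat_lit 382558315629) (nat_lit 0) (nat_lit 250733638000) (nat_lit 836) (nat_lit 498712011717) (nat_lit 115) (nat_lit 5) (nat_lit 114) (nat_lit 5) (nat_lit 125) (nat_lit 5) (nat_lit 416) (nat_lit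 410) (nat_lit 194)) (XT.nd (nat_lit 78) (nat_lit 0) (nat_lit 0) (XT.lf (nat_lit 0) (nat_lit 180403803767) (nat_lit 760) (nat_lit 621340136632) (nat_lit 836) (nat_lit 378944050225) (nat_lit 105) (nat_lit 5) (nat_lit 115) (nat_lit 5) (nat_lit 116) (nat_lit 5) (nat_lit 417) (nat_lit 410) (nat_lit 193)) (XT.lf (nat_lit 0) (nat_lit 1004105144939) (nat_lit 836) (nat_lit 28588534458) (nat_lit 76) (nat_lit 199551405590) (nat_lit 105) (nat_lit 5) (nat_lit 116) (nat_lit 5) (nat_lit 106) (nat_lit 5) (nat_lit 418) (nat_lit 410) (nat_lit 192)))))) (XT.nd (nat_lit 52572) (nat_lit 0) (nat_lit 1748) (XT.nd (nat_lit 234) (nat_lit 608) (nat_lit 0) (XT.nd (nat_lit 78) (nat_lit 760) (nat_lit 0) (XT.lf (nat_lit 0) (nat_lit 1043773090393) (nat_lit 380) (nat_lit 205655300570) (nat_lit 456) (nat_lit 37159698687) (nat_lit 100) (nat_lit 5) (nat_lit 105) (nat_lit 5) (nat_lit 106) (nat_lit 5) (nat_lit 419) (nat_lit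 410) (nat_lit 191)) (XT.nd (nat_lit 78) (nat_lit 380) (nat_lit 0) (XT.lf (nat_lit 0) (nat_lit 188996081911) (nat_lit 380) (nat_lit 472129665600) (nat_lit 76) (nat_lit 682755314607) (nat_lit 95) (nat_lit 5) (nat_lit 100) (nat_lit 5) (nat_lit 96) (nat_lit 5) (nat_lit 420) (nat_lit 410) (nat_lit 190)) (XT.lf (nat_lit 0) (nat_lit 454447637696) (nat_lit 456) (nat_lit 711892346749) (nat_lit 76) (nat_lit 238261768794) (nat_lit 90) (nat_lit 5) (nat_lit 96) (nat_lit 5) (nat_lit 91) (nat_lit 5) (nat_lit 421) (nat_lit 410) (nat_lit 189)))) (XT.nd (nat_lit 78) (nat_lit 304) (nat_lit 0) (XT.lf (nat_lit 0) (nat_lit 502631026290) (nat_lit 304) (nat_lit 265858568875) (nat_lit 380) (nat_lit 700322790627) (nat_lit 86) (nat_lit 5) (nat_lit 90) (nat_lit 5) (nat_lit 91) (nat_lit 5) (nat_lit 422) (nat_lit 410) (nat_lit 188)) (XT.nd (nat_lit 52182) (nat_lit 0) (nat_lit 2128) (XT.lf (nat_lit 0) (nat_lit 300582124871)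 (nat_lit 304) (nat_lit 835402667433) (nat_lit 380) (nat_lit 400758582497) (nat_lit 82) (nat_lit 5) (nat_lit 86) (nat_lit 5) (nat_lit 87) (nat_lit 5) (nat_lit 423) (nat_lit 410) (nat_lit 187)) (XT.lf (nat_lit 0) (nat_lit 108651666016) (nat_lit 836) (nat_lit 185869182871) (nat_lit 836) (nat_lit 185869182871) (nat_lit 110) (nat_lit 3) (nat_lit 121) (nat_lit 3) (nat_lit 121) (nat_lit 5) (nat_lit 411) (nat_lit 411) (nat_lit 198))))) (XT.nd (nat_lit 234) (nat_lit 456) (nat_lit 0) (XT.nd (nat_lit 78) (nat_lit 0) (nat_lit 0) (XT.lf (nat_lit 0) (nat_lit 234275261534) (nat_lit 760) (nat_lit 620112869108) (nat_lit 836) (nat_lit 144409145529) (nat_lit 111) (nat_lit 5) (nat_lit 121) (nat_lit 5) (nat_lit 122) (nat_lit 5) (nat_lit 412) (nat_lit 411) (nat_lit 197)) (XT.nd (nat_lit 78) (nat_lit 0) (nat_lit 76) (XT.lf (nat_lit 76) (nat_lit 157898833541) (nat_lit 0) (nat_lit 113685260625) (nat_lit 836) (nat_lit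 767322814239) (nat_lit 112) (nat_lit 5) (nat_lit 111) (nat_lit 5) (nat_lit 122) (nat_lit 5) (nat_lit 413) (nat_lit 411) (nat_lit 196)) (XT.lf (nat_lit 0) (nat_lit 333571328755) (nat_lit 760) (nat_lit 72281456117) (nat_lit 836) (nat_lit 675287841587) (nat_lit 112) (nat_lit 5) (nat_lit 122) (nat_lit 5) (nat_lit 123) (nat_lit 5) (nat_lit 414) (nat_lit 411) (nat_lit 195)))) (XT.nd (nat_lit 156) (nat_lit 608) (nat_lit 0) (XT.nd (nat_lit 78) (nat_lit 0) (nat_lit 76) (XT.lf (nat_lit 0) (nat_lit 421731578271) (nat_lit 760) (nat_lit 306766637809) (nat_lit 836) (nat_lit 397194124075) (nat_lit 113) (nat_lit 5) (nat_lit 123) (nat_lit 5) (nat_lit 124) (nat_lit 5) (nat_lit 415) (nat_lit 411) (nat_lit 194)) (XT.lf (nat_lit 0) (nat_lit 536182625053) (nat_lit 760) (nat_lit 550945520999) (nat_lit 836) (nat_lit 85718146036) (nat_lit 114) (nat_lit 5) (nat_lit 124) (nat_lit 5) (nat_lit 125) (nat_lit 5) (nat_lit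 416) (nat_lit 411) (nat_lit 193))) (XT.nd (nat_lit 78) (nat_lit 684) (nat_lit 0) (XT.lf (nat_lit 76) (nat_lit 413163115391) (nat_lit 0) (nat_lit 270792355034) (nat_lit 836) (nat_lit 538608804013) (nat_lit 115) (nat_lit 5) (nat_lit 114) (nat_lit 5) (nat_lit 125) (nat_lit 5) (nat_lit 417) (nat_lit 411) (nat_lit 192)) (XT.lf (nat_lit 0) (nat_lit 194836244904) (nat_lit 760) (nat_lit 671047361103) (nat_lit 836) (nat_lit 409259416245) (nat_lit 105) (nat_lit 5) (nat_lit 115) (nat_lit 5) (nat_lit 116) (nat_lit 5) (nat_lit 418) (nat_lit 411) (nat_lit 191))))))))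
noncomputable def xc127 : XT := (XT.nd (nat_lit 159120) (nat_lit 0) (nat_lit 1444) (XT.nd (nat_lit 53196) (nat_lit 0) (nat_lit 684) (XT.nd (nat_lit 52728) (nat_lit 0) (nat_lit 1444) (XT.nd (nat_lit 312) (nat_lit 304) (nat_lit 0) (XT.nd (nat_lit 78) (nat_lit 1140) (nat_lit 0) (XT.lf (nat_lit 0) (nat_lit 1084433695577) (nat_lit 836) (nat_lit 30875483264) (nat_lit 76) (nat_lit 215515505900) (nat_lit 105) (nat_lit 5) (nat_lit 116) (nat_lit 5) (nat_lit 106) (nat_lit 5) (nat_lit 419) (nat_lit 411) (nat_lit 190)) (XT.nd (nat_lit 156) (nat_lit 760) (nat_lit 0) (XT.lf (nat_lit 0) (nat_lit 1127275065755) (nat_lit 380) (nat_lit 222107727228) (nat_lit 456) (nat_lit 40132337214) (nat_lit 100) (nat_lit 5) (nat_lit 105) (nat_lit 5) (nat_lit 106) (nat_lit 5) (nat_lit 420) (nat_lit 411) (nat_lit 189)) (XT.lf (nat_lit 0) (nat_lit 490803566709) (nat_lit 456) (nat_lit 768843601309) (nat_lit 76) (nat_lit 257322719509)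 (nat_lit 90) (nat_lit 5) (nat_lit 96) (nat_lit 5) (nat_lit 91) (nat_lit 5) (nat_lit 422) (nat_lit 411) (nat_lit 187)))) (XT.nd (nat_lit 52260) (nat_lit 0) (nat_lit 1824) (XT.lf (nat_lit 0) (nat_lit 542841635785) (nat_lit 304) (nat_lit 287127238239) (nat_lit 380) (nat_lit 756348497004) (nat_lit 86) (nat_lit 5) (nat_lit 90) (nat_lit 5) (nat_lit 91) (nat_lit 5) (nat_lit 423) (nat_lit 411) (nat_lit 186)) (XT.nd (nat_lit 78) (nat_lit 0) (nat_lit 76) (XT.lf (nat_lit 0) (nat_lit 117343905014) (nat_lit 836) (nat_lit 200738661962) (nat_lit 836) (nat_lit 200738661962) (nat_lit 110) (nat_lit 3) (nat_lit 121) (nat_lit 3) (nat_lit 121) (nat_lit 5) (nat_lit 412) (nat_lit 412) (nat_lit 196)) (XT.lf (nat_lit 0) (nat_lit 253017478462) (nat_lit 760) (nat_lit 669721780955) (nat_lit 836) (nat_lit 155961788910) (nat_lit 111) (nat_lit 5) (nat_lit 121) (nat_lit 5) (nat_lit 122) (nat_lit 5) (nat_lit 413) (nat_lit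 412) (nat_lit 195))))) (XT.nd (nat_lit 234) (nat_lit 456) (nat_lit 0) (XT.nd (nat_lit 78) (nat_lit 0) (nat_lit 76) (XT.lf (nat_lit 76) (nat_lit 170530852793) (nat_lit 0) (nat_lit 122780152151) (nat_lit 836) (nat_lit 828708446844) (nat_lit 112) (nat_lit 5) (nat_lit 111) (nat_lit 5) (nat_lit 122) (nat_lit 5) (nat_lit 414) (nat_lit 412) (nat_lit 194)) (XT.nd (nat_lit 78) (nat_lit 0) (nat_lit 76) (XT.lf (nat_lit 0) (nat_lit 360257203704) (nat_lit 760) (nat_lit 78063858753) (nat_lit 836) (nat_lit 729310805568) (nat_lit 112) (nat_lit 5) (nat_lit 122) (nat_lit 5) (nat_lit 123) (nat_lit 5) (nat_lit 415) (nat_lit 412) (nat_lit 193)) (XT.lf (nat_lit 0) (nat_lit 455470261625) (nat_lit 760) (nat_lit 331307851161) (nat_lit 836) (nat_lit 428969606617) (nat_lit 113) (nat_lit 5) (nat_lit 123) (nat_lit 5) (nat_lit 124) (nat_lit 5) (nat_lit 416) (nat_lit 412) (nat_lit 192)))) (XT.nd (nat_lit 78) (nat_lit 684)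 (nat_lit 0) (XT.lf (nat_lit 0) (nat_lit 579077381729) (nat_lit 760) (nat_lit 595021042117) (nat_lit 836) (nat_lit 92575564173) (nat_lit 114) (nat_lit 5) (nat_lit 124) (nat_lit 5) (nat_lit 125) (nat_lit 5) (nat_lit 417) (nat_lit 412) (nat_lit 191)) (XT.nd (nat_lit 78) (nat_lit 684) (nat_lit 0) (XT.lf (nat_lit 76) (nat_lit 446216279944) (nat_lit 0) (nat_lit 292455765722) (nat_lit 836) (nat_lit 581697363752) (nat_lit 115) (nat_lit 5) (nat_lit 114) (nat_lit 5) (nat_lit 125) (nat_lit 5) (nat_lit 418) (nat_lit 412) (nat_lit 190)) (XT.lf (nat_lit 0) (nat_lit 210423261811) (nat_lit 760) (nat_lit 724731161601) (nat_lit 836) (nat_lit 442000034088) (nat_lit 105) (nat_lit 5) (nat_lit 115) (nat_lit 5) (nat_lit 116) (nat_lit 5) (nat_lit 419) (nat_lit 412) (nat_lit 189)))))) (XT.nd (nat_lit 52884) (nat_lit 0) (nat_lit 380) (XT.nd (nat_lit 52650) (nat_lit 0) (nat_lit 1216) (XT.nd (nat_lit 156) (nat_lit 760)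 (nat_lit 0) (XT.lf (nat_lit 0) (nat_lit 1171188510429) (nat_lit 836) (nat_lit 33345407083) (nat_lit 76) (nat_lit 232756735967) (nat_lit 105) (nat_lit 5) (nat_lit 116) (nat_lit 5) (nat_lit 106) (nat_lit 5) (nat_lit 420) (nat_lit 412) (nat_lit 188)) (XT.nd (nat_lit 52416) (nat_lit 0) (nat_lit 1140) (XT.lf (nat_lit 0) (nat_lit 220445272358) (nat_lit 380) (nat_lit 550691783997) (nat_lit 76) (nat_lit 796365802230) (nat_lit 95) (nat_lit 5) (nat_lit 100) (nat_lit 5) (nat_lit 96) (nat_lit 5) (nat_lit 422) (nat_lit 412) (nat_lit 186)) (XT.lf (nat_lit 0) (nat_lit 126731508049) (nat_lit 836) (nat_lit 216797707305) (nat_lit 836) (nat_lit 216797707305) (nat_lit 110) (nat_lit 3) (nat_lit 121) (nat_lit 3) (nat_lit 121) (nat_lit 5) (nat_lit 413) (nat_lit 413) (nat_lit 194)))) (XT.nd (nat_lit 78) (nat_lit 0) (nat_lit 0) (XT.lf (nat_lit 0) (nat_lit 273259044781) (nat_lit 760) (nat_lit 723299422538) (nat_lit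 836) (nat_lit 168438656353) (nat_lit 111) (nat_lit 5) (nat_lit 121) (nat_lit 5) (nat_lit 122) (nat_lit 5) (nat_lit 414) (nat_lit 413) (nat_lit 193)) (XT.nd (nat_lit 78) (nat_lit 0) (nat_lit 76) (XT.lf (nat_lit 76) (nat_lit 184173417525) (nat_lit 0) (nat_lit 132602624917) (nat_lit 836) (nat_lit 895004957525) (nat_lit 112) (nat_lit 5) (nat_lit 111) (nat_lit 5) (nat_lit 122) (nat_lit 5) (nat_lit 415) (nat_lit 413) (nat_lit 192)) (XT.lf (nat_lit 0) (nat_lit 389077924589) (nat_lit 760) (nat_lit 84308869842) (nat_lit 836) (nat_lit 787655615705) (nat_lit 112) (nat_lit 5) (nat_lit 122) (nat_lit 5) (nat_lit 123) (nat_lit 5) (nat_lit 416) (nat_lit 413) (nat_lit 191))))) (XT.nd (nat_lit 312) (nat_lit 988) (nat_lit 0) (XT.nd (nat_lit 78) (nat_lit 0) (nat_lit 76) (XT.lf (nat_lit 0) (nat_lit 491908017236) (nat_lit 760) (nat_lit 357812378369) (nat_lit 836) (nat_lit 463287134522) (nat_lit 113) (nat_lit 5)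 (nat_lit 123) (nat_lit 5) (nat_lit 124) (nat_lit 5) (nat_lit 417) (nat_lit 413) (nat_lit 190)) (XT.nd (nat_lit 78) (nat_lit 0) (nat_lit 0) (XT.lf (nat_lit 0) (nat_lit 625403698015) (nat_lit 760) (nat_lit 642622622125) (nat_lit 836) (nat_lit 99981580547) (nat_lit 114) (nat_lit 5) (nat_lit 124) (nat_lit 5) (nat_lit 125) (nat_lit 5) (nat_lit 418) (nat_lit 413) (nat_lit 189)) (XT.lf (nat_lit 76) (nat_lit 481913681210) (nat_lit 0) (nat_lit 315852246087) (nat_lit 836) (nat_lit 628233028896) (nat_lit 115) (nat_lit 5) (nat_lit 114) (nat_lit 5) (nat_lit 125) (nat_lit 5) (nat_lit 419) (nat_lit 413) (nat_lit 188)))) (XT.nd (nat_lit 52572) (nat_lit 0) (nat_lit 760) (XT.nd (nat_lit 78) (nat_lit 380) (nat_lit 0) (XT.lf (nat_lit 0) (nat_lit 1264883693464) (nat_lit 836) (nat_lit 36012941191) (nat_lit 76) (nat_lit 251377265923) (nat_lit 105) (nat_lit 5) (nat_lit 116) (nat_lit 5) (nat_lit 106) (nat_lit 5)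 (nat_lit 421) (nat_lit 413) (nat_lit 186)) (XT.lf (nat_lit 0) (nat_lit 1314853849515) (nat_lit 380) (nat_lit 259066457380) (nat_lit 456) (nat_lit 46810129966) (nat_lit 100) (nat_lit 5) (nat_lit 105) (nat_lit 5) (nat_lit 106) (nat_lit 5) (nat_lit 422) (nat_lit 413) (nat_lit 185))) (XT.nd (nat_lit 78) (nat_lit 0) (nat_lit 76) (XT.lf (nat_lit 0) (nat_lit 136870106397) (nat_lit 836) (nat_lit 234141483067) (nat_lit 836) (nat_lit 234141483067) (nat_lit 110) (nat_lit 3) (nat_lit 121) (nat_lit 3) (nat_lit 121) (nat_lit 5) (nat_lit 414) (nat_lit 414) (nat_lit 192)) (XT.lf (nat_lit 0) (nat_lit 295119912434) (nat_lit 760) (nat_lit 781163289841) (nat_lit 836) (nat_lit 181913683986) (nat_lit 111) (nat_lit 5) (nat_lit 121) (nat_lit 5) (nat_lit 122) (nat_lit 5) (nat_lit 415) (nat_lit 414) (nat_lit 191))))))) (XT.nd (nat_lit 53430) (nat_lit 0) (nat_lit 380) (XT.nd (nat_lit 468) (nat_lit 0) (nat_lit 0) (XT.nd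 (nat_lit 234) (nat_lit 456) (nat_lit 0) (XT.nd (nat_lit 78) (nat_lit 0) (nat_lit 76) (XT.lf (nat_lit 76) (nat_lit 198907373668) (nat_lit 0) (nat_lit 143210886859) (nat_lit 836) (nat_lit 966605212609) (nat_lit 112) (nat_lit 5) (nat_lit 111) (nat_lit 5) (nat_lit 122) (nat_lit 5) (nat_lit 416) (nat_lit 414) (nat_lit 190)) (XT.nd (nat_lit 78) (nat_lit 0) (nat_lit 76) (XT.lf (nat_lit 0) (nat_lit 420204282518) (nat_lit 760) (nat_lit 91053495744) (nat_lit 836) (nat_lit 850668018400) (nat_lit 112) (nat_lit 5) (nat_lit 122) (nat_lit 5) (nat_lit 123) (nat_lit 5) (nat_lit 417) (nat_lit 414) (nat_lit 189)) (XT.lf (nat_lit 0) (nat_lit 531260774083) (nat_lit 760) (nat_lit 386437282146) (nat_lit 836) (nat_lit 500350070455) (nat_lit 113) (nat_lit 5) (nat_lit 123) (nat_lit 5) (nat_lit 124) (nat_lit 5) (nat_lit 418) (nat_lit 414) (nat_lit 188)))) (XT.nd (nat_lit 78) (nat_lit 684) (nat_lit 0) (XT.lf (nat_lit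 0) (nat_lit 675436101665) (nat_lit 760) (nat_lit 694032343278) (nat_lit 836) (nat_lit 107980082334) (nat_lit 114) (nat_lit 5) (nat_lit 124) (nat_lit 5) (nat_lit 125) (nat_lit 5) (nat_lit 419) (nat_lit 414) (nat_lit 187)) (XT.nd (nat_lit 78) (nat_lit 684) (nat_lit 0) (XT.lf (nat_lit 76) (nat_lit 520466860472) (nat_lit 0) (nat_lit 341120442154) (nat_lit 836) (nat_lit 678491564936) (nat_lit 115) (nat_lit 5) (nat_lit 114) (nat_lit 5) (nat_lit 125) (nat_lit 5) (nat_lit 420) (nat_lit 414) (nat_lit 186)) (XT.lf (nat_lit 0) (nat_lit 245437887431) (nat_lit 760) (nat_lit 845326446175) (nat_lit 836) (nat_lit 515548614771) (nat_lit 105) (nat_lit 5) (nat_lit 115) (nat_lit 5) (nat_lit 116) (nat_lit 5) (nat_lit 421) (nat_lit 414) (nat_lit 185))))) (XT.nd (nat_lit 52728) (nat_lit 0) (nat_lit 456) (XT.nd (nat_lit 52572) (nat_lit 0) (nat_lit 380) (XT.lf (nat_lit 0) (nat_lit 1366074476561) (nat_lit 836) (nat_lit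 38893892074) (nat_lit 76) (nat_lit 271487439548) (nat_lit 105) (nat_lit 5) (nat_lit 116) (nat_lit 5) (nat_lit 106) (nat_lit 5) (nat_lit 422) (nat_lit 414) (nat_lit 184)) (XT.nd (nat_lit 78) (nat_lit 0) (nat_lit 76) (XT.lf (nat_lit 0) (nat_lit 147819781528) (nat_lit 836) (nat_lit 252872766714) (nat_lit 836) (nat_lit 252872766714) (nat_lit 110) (nat_lit 3) (nat_lit 121) (nat_lit 3) (nat_lit 121) (nat_lit 5) (nat_lit 415) (nat_lit 415) (nat_lit 190)) (XT.lf (nat_lit 0) (nat_lit 318729628945) (nat_lit 760) (nat_lit 843656278869) (nat_lit 836) (nat_lit 196466723086) (nat_lit 111) (nat_lit 5) (nat_lit 121) (nat_lit 5) (nat_lit 122) (nat_lit 5) (nat_lit 416) (nat_lit 415) (nat_lit 189)))) (XT.nd (nat_lit 78) (nat_lit 0) (nat_lit 76) (XT.lf (nat_lit 76) (nat_lit 214820034498) (nat_lit 0) (nat_lit 154667802345) (nat_lit 836) (nat_lit 1043933508289) (nat_lit 112) (nat_lit 5) (nat_lit 111) (nat_lit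 5) (nat_lit 122) (nat_lit 5) (nat_lit 417) (nat_lit 415) (nat_lit 188)) (XT.nd (nat_lit 78) (nat_lit 0) (nat_lit 76) (XT.lf (nat_lit 0) (nat_lit 453820731397) (nat_lit 760) (nat_lit 98337703657) (nat_lit 836) (nat_lit 918721419953) (nat_lit 112) (nat_lit 5) (nat_lit 122) (nat_lit 5) (nat_lit 123) (nat_lit 5) (nat_lit 418) (nat_lit 415) (nat_lit 187)) (XT.lf (nat_lit 0) (nat_lit 573761735004) (nat_lit 760) (nat_lit 417352190565) (nat_lit 836) (nat_lit 540378046231) (nat_lit 113) (nat_lit 5) (nat_lit 123) (nat_lit 5) (nat_lit 124) (nat_lit 5) (nat_lit 419) (nat_lit 415) (nat_lit 186)))))) (XT.nd (nat_lit 53118) (nat_lit 0) (nat_lit 76) (XT.nd (nat_lit 52884) (nat_lit 0) (nat_lit 76) (XT.nd (nat_lit 78) (nat_lit 304) (nat_lit 0) (XT.lf (nat_lit 0) (nat_lit 729471082226) (nat_lit 760) (nat_lit 749554854766) (nat_lit 836) (nat_lit 116618467781) (nat_lit 114) (nat_lit 5) (nat_lit 124) (nat_lit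 5) (nat_lit 125) (nat_lit 5) (nat_lit 420) (nat_lit 415) (nat_lit 185)) (XT.nd (nat_lit 52728) (nat_lit 304) (nat_lit 0) (XT.lf (nat_lit 76) (nat_lit 562104281982) (nat_lit 0) (nat_lit 368410091570) (nat_lit 836) (nat_lit 732770799020) (nat_lit 115) (nat_lit 5) (nat_lit 114) (nat_lit 5) (nat_lit 125) (nat_lit 5) (nat_lit 421) (nat_lit 415) (nat_lit 184)) (XT.lf (nat_lit 0) (nat_lit 159645421165) (nat_lit 836) (nat_lit 273102558045) (nat_lit 836) (nat_lit 273102558045) (nat_lit 110) (nat_lit 3) (nat_lit 121) (nat_lit 3) (nat_lit 121) (nat_lit 5) (nat_lit 416) (nat_lit 416) (nat_lit 188)))) (XT.nd (nat_lit 78) (nat_lit 0) (nat_lit 0) (XT.lf (nat_lit 0) (nat_lit 344228105156) (nat_lit 760) (nat_lit 911148717598) (nat_lit 836) (nat_lit 212184013248) (nat_lit 111) (nat_lit 5) (nat_lit 121) (nat_lit 5) (nat_lit 122) (nat_lit 5) (nat_lit 417) (nat_lit 416) (nat_lit 187)) (XT.nd (nat_lit 78) (nat_lit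 0) (nat_lit 76) (XT.lf (nat_lit 76) (nat_lit 232005698075) (nat_lit 0) (nat_lit 167041264717) (nat_lit 836) (nat_lit 1127448084932) (nat_lit 112) (nat_lit 5) (nat_lit 111) (nat_lit 5) (nat_lit 122) (nat_lit 5) (nat_lit 418) (nat_lit 416) (nat_lit 186)) (XT.lf (nat_lit 0) (nat_lit 490126481024) (nat_lit 760) (nat_lit 106204658438) (nat_lit 836) (nat_lit 992219099325) (nat_lit 112) (nat_lit 5) (nat_lit 122) (nat_lit 5) (nat_lit 123) (nat_lit 5) (nat_lit 419) (nat_lit 416) (nat_lit 185))))) (XT.nd (nat_lit 53040) (nat_lit 0) (nat_lit 0) (XT.nd (nat_lit 78) (nat_lit 152) (nat_lit 0) (XT.lf (nat_lit 0) (nat_lit 619662758676) (nat_lit 760) (nat_lit 450740302235) (nat_lit 836) (nat_lit 583608264330) (nat_lit 113) (nat_lit 5) (nat_lit 123) (nat_lit 5) (nat_lit 124) (nat_lit 5) (nat_lit 420) (nat_lit 416) (nat_lit 184)) (XT.nd (nat_lit 52884) (nat_lit 228) (nat_lit 0) (XT.lf (nat_lit 0) (nat_lit 787828848046)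 (nat_lit 760) (nat_lit 809519178012) (nat_lit 836) (nat_lit 125947927080) (nat_lit 114) (nat_lit 5) (nat_lit 124) (nat_lit 5) (nat_lit 125) (nat_lit 5) (nat_lit 421) (nat_lit 416) (nat_lit 183)) (XT.lf (nat_lit 0) (nat_lit 371766444357) (nat_lit 760) (nat_lit 984040560496) (nat_lit 836) (nat_lit 229158693425) (nat_lit 111) (nat_lit 5) (nat_lit 121) (nat_lit 5) (nat_lit 122) (nat_lit 5) (nat_lit 418) (nat_lit 417) (nat_lit 185)))) (XT.nd (nat_lit 53118) (nat_lit 0) (nat_lit 0) (XT.nd (nat_lit 78) (nat_lit 0) (nat_lit 76) (XT.lf (nat_lit 76) (nat_lit 250566206062) (nat_lit 0) (nat_lit 180404598631) (nat_lit 836) (nat_lit 1217643842546) (nat_lit 112) (nat_lit 5) (nat_lit 111) (nat_lit 5) (nat_lit 122) (nat_lit 5) (nat_lit 419) (nat_lit 417) (nat_lit 184)) (XT.lf (nat_lit 0) (nat_lit 529336677623) (nat_lit 760) (nat_lit 114700978377) (nat_lit 836) (nat_lit 1071596597930) (nat_lit 112) (nat_lit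 5) (nat_lit 122) (nat_lit 5) (nat_lit 123) (nat_lit 5) (nat_lit 420) (nat_lit 417) (nat_lit 183))) (XT.nd (nat_lit 78) (nat_lit 0) (nat_lit 0) (XT.lf (nat_lit 0) (nat_lit 401507837742) (nat_lit 760) (nat_lit 1062763758603) (nat_lit 836) (nat_lit 247491353850) (nat_lit 111) (nat_lit 5) (nat_lit 121) (nat_lit 5) (nat_lit 122) (nat_lit 5) (nat_lit 419) (nat_lit 418) (nat_lit 183)) (XT.lf (nat_lit 76) (nat_lit 270611547249) (nat_lit 0) (nat_lit 194836994588) (nat_lit 836) (nat_lit 1315055273492) (nat_lit 112) (nat_lit 5) (nat_lit 111) (nat_lit 5) (nat_lit 122) (nat_lit 5) (nat_lit 420) (nat_lit 418) (nat_lit 182))))))))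

set_option maxRecDepth 10000000 in
noncomputable def Tp : PT := (PT.nd (nat_lit 9202518) (PT.nd (nat_lit 8725080) (PT.nd (nat_lit 8247096) pc0 pc1) (PT.nd (nat_lit 317772) pc2 pc3)) (PT.nd (nat_lit 264732) (PT.nd (nat_lit 107094) pc4 pc5) (PT.nd (nat_lit 214344) pc6 pc7)))

set_option maxRecDepth 10000000 in
noncomputable def Tx : XT := (XT.nd (nat_lit 15544464) (nat_lit 0) (nat_lit 76) XT.nil (XT.nd (nat_lit 6691698) (nat_lit 0) (nat_lit 0) (XT.nd (nat_lit 3024372) (nat_lit 0) (nat_lit 152) (XT.nd (nat_lit 2070510) (nat_lit 0) (nat_lit 0) (XT.nd (nat_lit 1483404) (nat_lit 0) (nat_lit 0) (XT.nd (nat_lit 1008696) (nat_lit 0) (nat_lit 0) (XT.nd (nat_lit 741468) (nat_lit 0) (nat_lit 0) (XT.nd (nat_lit 477984) (nat_lit 0) (nat_lit 0) (XT.nd (nat_lit 370734) (nat_lit 0) (nat_lit 0) xc0 xc1) (XT.nd (nat_lit 157794) (nat_lit 0) (nat_lit 0) xc2 xc3)) (XT.nd (nat_lit 159276) (nat_lit 0) (nat_lit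 0) (XT.nd (nat_lit 54522) (nat_lit 0) (nat_lit 0) xc4 xc5) (XT.nd (nat_lit 54054) (nat_lit 0) (nat_lit 0) xc6 xc7))) (XT.nd (nat_lit 263484) (nat_lit 0) (nat_lit 0) (XT.nd (nat_lit 156936) (nat_lit 0) (nat_lit 0) (XT.nd (nat_lit 103506) (nat_lit 0) (nat_lit 0) xc8 xc9) (XT.nd (nat_lit 53352) (nat_lit 0) (nat_lit 0) xc10 xc11)) (XT.nd (nat_lit 105924) (nat_lit 0) (nat_lit 0) (XT.nd (nat_lit 53040) (nat_lit 0) (nat_lit 0) xc12 xc13) (XT.nd (nat_lit 52728) (nat_lit 0) (nat_lit 0) xc14 xc15)))) (XT.nd (nat_lit 319800) (nat_lit 0) (nat_lit 0) (XT.nd (nat_lit 160602) (nat_lit 0) (nat_lit 0) (XT.nd (nat_lit 56238) (nat_lit 0) (nat_lit 0) (XT.nd (nat_lit 3822) (nat_lit 0) (nat_lit 0) xc16 xc17) (XT.nd (nat_lit 52260) (nat_lit 0) (nat_lit 0) xc18 xc19)) (XT.nd (nat_lit 103740) (nat_lit 0) (nat_lit 0) (XT.nd (nat_lit 51948) (nat_lit 0) (nat_lit 0) xc20 xc21) (XT.nd (nat_lit 3822) (nat_lit 0) (nat_lit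 0) xc22 xc23))) (XT.nd (nat_lit 157794) (nat_lit 0) (nat_lit 0) (XT.nd (nat_lit 55302) (nat_lit 0) (nat_lit 0) (XT.nd (nat_lit 51480) (nat_lit 0) (nat_lit 0) xc24 xc25) (XT.nd (nat_lit 51324) (nat_lit 0) (nat_lit 0) xc26 xc27)) (XT.nd (nat_lit 54834) (nat_lit 0) (nat_lit 0) (XT.nd (nat_lit 3822) (nat_lit 0) (nat_lit 0) xc28 xc29) (XT.nd (nat_lit 50856) (nat_lit 0) (nat_lit 0) xc30 xc31))))) (XT.nd (nat_lit 477750) (nat_lit 0) (nat_lit 0) (XT.nd (nat_lit 263406) (nat_lit 0) (nat_lit 0) (XT.nd (nat_lit 155454) (nat_lit 0) (nat_lit 0) (XT.nd (nat_lit 101244) (nat_lit 0) (nat_lit 0) (XT.nd (nat_lit 50700) (nat_lit 0) (nat_lit 0) xc32 xc33) (XT.nd (nat_lit 3822) (nat_lit 228) (nat_lit 0) xc34 xc35)) (XT.nd (nat_lit 54054) (nat_lit 0) (nat_lit 0) (XT.nd (nat_lit 3822) (nat_lit 152) (nat_lit 0) xc36 xc37) (XT.nd (nat_lit 3822) (nat_lit 0) (nat_lit 0) xc38 xc39))) (XT.nd (nat_lit 107484) (nat_lit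 0) (nat_lit 0) (XT.nd (nat_lit 53820) (nat_lit 0) (nat_lit 0) (XT.nd (nat_lit 49998) (nat_lit 0) (nat_lit 456) xc40 xc41) (XT.nd (nat_lit 49842) (nat_lit 0) (nat_lit 304) xc42 xc43)) (XT.nd (nat_lit 53508) (nat_lit 0) (nat_lit 0) (XT.nd (nat_lit 49686) (nat_lit 0) (nat_lit 228) xc44 xc45) (XT.nd (nat_lit 49530) (nat_lit 0) (nat_lit 228) xc46 xc47)))) (XT.nd (nat_lit 260286) (nat_lit 0) (nat_lit 0) (XT.nd (nat_lit 106938) (nat_lit 0) (nat_lit 0) (XT.nd (nat_lit 53430) (nat_lit 0) (nat_lit 0) (XT.nd (nat_lit 49608) (nat_lit 0) (nat_lit 152) xc48 xc49) (XT.nd (nat_lit 49686) (nat_lit 0) (nat_lit 152) xc50 xc51)) (XT.nd (nat_lit 53586) (nat_lit 0) (nat_lit 0) (XT.nd (nat_lit 49764) (nat_lit 0) (nat_lit 0) xc52 xc53) (XT.nd (nat_lit 49842) (nat_lit 0) (nat_lit 0) xc54 xc55))) (XT.nd (nat_lit 107718) (nat_lit 0) (nat_lit 152) (XT.nd (nat_lit 53820) (nat_lit 0) (nat_lit 152) (XT.nd (nat_lit 3822)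 (nat_lit 988) (nat_lit 0) xc56 xc57) (XT.nd (nat_lit 3822) (nat_lit 456) (nat_lit 0) xc58 xc59)) (XT.nd (nat_lit 53976) (nat_lit 0) (nat_lit 0) (XT.nd (nat_lit 3822) (nat_lit 228) (nat_lit 0) xc60 xc61) (XT.nd (nat_lit 3822) (nat_lit 0) (nat_lit 0) xc62 xc63)))))) (XT.nd (nat_lit 1117740) (nat_lit 0) (nat_lit 456) (XT.nd (nat_lit 530400) (nat_lit 0) (nat_lit 76) (XT.nd (nat_lit 264186) (nat_lit 0) (nat_lit 0) (XT.nd (nat_lit 108498) (nat_lit 0) (nat_lit 0) (XT.nd (nat_lit 54210) (nat_lit 0) (nat_lit 0) (XT.nd (nat_lit 50388) (nat_lit 0) (nat_lit 684) xc64 xc65) (XT.nd (nat_lit 50466) (nat_lit 0) (nat_lit 228) xc66 xc67)) (XT.nd (nat_lit 101166) (nat_lit 0) (nat_lit 0) (XT.nd (nat_lit 50544) (nat_lit 0) (nat_lit 0) xc68 xc69) (XT.nd (nat_lit 3822) (nat_lit 912) (nat_lit 0) xc70 xc71))) (XT.nd (nat_lit 109278) (nat_lit 0) (nat_lit 76) (XT.nd (nat_lit 54600) (nat_lit 0) (nat_lit 0) (XT.nd (nat_lit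 3822) (nat_lit 228) (nat_lit 0) xc72 xc73) (XT.nd (nat_lit 50856) (nat_lit 0) (nat_lit 684) xc74 xc75)) (XT.nd (nat_lit 101946) (nat_lit 0) (nat_lit 0) (XT.nd (nat_lit 50934) (nat_lit 0) (nat_lit 0) xc76 xc77) (XT.nd (nat_lit 3822) (nat_lit 988) (nat_lit 0) xc78 xc79)))) (XT.nd (nat_lit 268476) (nat_lit 0) (nat_lit 152) (XT.nd (nat_lit 157794) (nat_lit 0) (nat_lit 152) (XT.nd (nat_lit 55068) (nat_lit 0) (nat_lit 0) (XT.nd (nat_lit 3822) (nat_lit 0) (nat_lit 0) xc80 xc81) (XT.nd (nat_lit 51324) (nat_lit 0) (nat_lit 76) xc82 xc83)) (XT.nd (nat_lit 55302) (nat_lit 0) (nat_lit 0) (XT.nd (nat_lit 3822) (nat_lit 836) (nat_lit 0) xc84 xc85) (XT.nd (nat_lit 51558) (nat_lit 0) (nat_lit 532) xc86 xc87))) (XT.nd (nat_lit 158964) (nat_lit 0) (nat_lit 76) (XT.nd (nat_lit 103350) (nat_lit 0) (nat_lit 76) (XT.nd (nat_lit 51636) (nat_lit 0) (nat_lit 0) xc88 xc89) (XT.nd (nat_lit 3822) (nat_lit 0) (nat_lit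 0) xc90 xc91)) (XT.nd (nat_lit 103974) (nat_lit 0) (nat_lit 152) (XT.nd (nat_lit 51948) (nat_lit 0) (nat_lit 76) xc92 xc93) (XT.nd (nat_lit 52104) (nat_lit 0) (nat_lit 532) xc94 xc95))))) (XT.nd (nat_lit 795912) (nat_lit 0) (nat_lit 988) (XT.nd (nat_lit 370968) (nat_lit 0) (nat_lit 380) (XT.nd (nat_lit 209196) (nat_lit 0) (nat_lit 228) (XT.nd (nat_lit 104442) (nat_lit 0) (nat_lit 76) (XT.nd (nat_lit 52182) (nat_lit 0) (nat_lit 76) xc96 xc97) (XT.nd (nat_lit 52338) (nat_lit 0) (nat_lit 0) xc98 xc99)) (XT.nd (nat_lit 56394) (nat_lit 0) (nat_lit 76) (XT.nd (nat_lit 3822) (nat_lit 76) (nat_lit 0) xc100 xc101) (XT.nd (nat_lit 52650) (nat_lit 0) (nat_lit 0) xc102 xc103))) (XT.nd (nat_lit 211692) (nat_lit 0) (nat_lit 304) (XT.nd (nat_lit 105690) (nat_lit 0) (nat_lit 152) (XT.nd (nat_lit 52806) (nat_lit 0) (nat_lit 76) xc104 xc105) (XT.nd (nat_lit 52962) (nat_lit 0) (nat_lit 0) xc106 xc107)) (XT.nd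 (nat_lit 106470) (nat_lit 0) (nat_lit 152) (XT.nd (nat_lit 53196) (nat_lit 0) (nat_lit 76) xc108 xc109) (XT.nd (nat_lit 53352) (nat_lit 0) (nat_lit 76) xc110 xc111)))) (XT.nd (nat_lit 531882) (nat_lit 0) (nat_lit 1140) (XT.nd (nat_lit 264810) (nat_lit 0) (nat_lit 456) (XT.nd (nat_lit 107172) (nat_lit 0) (nat_lit 228) (XT.nd (nat_lit 53508) (nat_lit 0) (nat_lit 76) xc112 xc113) (XT.nd (nat_lit 103740) (nat_lit 0) (nat_lit 76) xc114 xc115)) (XT.nd (nat_lit 108030) (nat_lit 0) (nat_lit 304) (XT.nd (nat_lit 53976) (nat_lit 0) (nat_lit 76) xc116 xc117) (XT.nd (nat_lit 104676) (nat_lit 0) (nat_lit 304) xc118 xc119))) (XT.nd (nat_lit 423696) (nat_lit 0) (nat_lit 1368) (XT.nd (nat_lit 210990) (nat_lit 0) (nat_lit 684) (XT.nd (nat_lit 105378) (nat_lit 0) (nat_lit 304) xc120 xc121) (XT.nd (nat_lit 54990) (nat_lit 0) (nat_lit 304) xc122 xc123)) (XT.nd (nat_lit 266058) (nat_lit 0) (nat_lit 1748) (XT.nd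 (nat_lit 106782) (nat_lit 0) (nat_lit 684) xc124 xc125) (XT.nd (nat_lit 160056) (nat_lit 0) (nat_lit 608) xc126 xc127))))))) XT.nil))

set_option maxRecDepth 10000000 in
noncomputable def Te : XT := XT.nil

set_option maxRecDepth 10000000 in
noncomputable def Tz : ZL := (ZL.cons (nat_lit 76) (nat_lit 6) (nat_lit 286428944479504615158) (ZL.cons (nat_lit 152) (nat_lit 6) (nat_lit 276516968471012785456) (ZL.cons (nat_lit 228) (nat_lit 3) (nat_lit 137854020317728519404) (ZL.cons (nat_lit 304) (nat_lit 6) (nat_lit 265812034381841609378) (ZL.cons (nat_lit 380) (nat_lit 6) (nat_lit 256682282718636902094) (ZL.cons (nat_lit 456) (nat_lit 3) (nat_lit 127966637731746346119) (ZL.cons (nat_lit 532) (nat_lit 6) (nat_lit 246822150922375818230) (ZL.cons (nat_lit 608) (nat_lit 6) (nat_lit 238424668909358442916) (ZL.cons (nat_lit 684) (nat_lit 3) (nat_lit 118865571836556902079) (ZL.cons (nat_lit 760) (nat_lit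 6) (nat_lit 229355388335299677578) (ZL.cons (nat_lit 836) (nat_lit 6) (nat_lit 221645250803227873292) (ZL.cons (nat_lit 912) (nat_lit 3) (nat_lit 110501548903352529814) (ZL.cons (nat_lit 988) (nat_lit 6) (nat_lit 213318302268590324664) (ZL.cons (nat_lit 1064) (nat_lit 6) (nat_lit 206255462191840718698) (ZL.cons (nat_lit 1140) (nat_lit 3) (nat_lit 102830438041974612283) (ZL.cons (nat_lit 1216) (nat_lit 6) (nat_lit 198627594908951144256) (ZL.cons (nat_lit 1292) (nat_lit 6) (nat_lit 192176780040336835856) (ZL.cons (nat_lit 1368) (nat_lit 3) (nat_lit 95813118673922355828) (ZL.cons (nat_lit 1444) (nat_lit 6) (nat_lit 185209899982233382782) (ZL.cons (nat_lit 1520) (nat_lit 6) (nat_lit 179340560072172794198) (ZL.cons (nat_lit 1596) (nat_lit 3) (nat_lit 89415399159932635897) (ZL.cons (nat_lit 1672) (nat_lit 6) (nat_lit 173001672969307358530) (ZL.cons (nat_lit 1748) (nat_lit 6) (nat_lit 167687980965519299798)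 (ZL.cons (nat_lit 1824) (nat_lit 3) (nat_lit 83607989671506167304) (ZL.cons (nat_lit 1900) (nat_lit 6) (nat_lit 162858233763293462662) (ZL.cons (nat_lit 1976) (nat_lit 6) (nat_lit 161949193601428196370) (ZL.cons (nat_lit 2052) (nat_lit 6) (nat_lit 157170105162382593364) (ZL.cons (nat_lit 2128) (nat_lit 3) (nat_lit 78366533311512146131) (ZL.cons (nat_lit 2204) (nat_lit 6) (nat_lit 152850393501792292390) (ZL.cons (nat_lit 2280) (nat_lit 6) (nat_lit 152008689648213342118) (ZL.cons (nat_lit 2356) (nat_lit 6) (nat_lit 147748066368996466234) (ZL.cons (nat_lit 2432) (nat_lit 3) (nat_lit 73671700527387908532) (ZL.cons (nat_lit 2508) (nat_lit 6) (nat_lit 143925948647422749786) (ZL.cons (nat_lit 2584) (nat_lit 6) (nat_lit 143146593227442240276) (ZL.cons (nat_lit 2660) (nat_lit 6) (nat_lit 140519686896993978162) (ZL.cons (nat_lit 2736) (nat_lit 6) (nat_lit 139393396193902486856) (ZL.cons (nat_lit 2812)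 (nat_lit 3) (nat_lit 69509353044071313258) (ZL.cons (nat_lit 2888) (nat_lit 6) (nat_lit 136061568786550395298) (ZL.cons (nat_lit 2964) (nat_lit 6) (nat_lit 135339943397679553162) (ZL.cons (nat_lit 3040) (nat_lit 6) (nat_lit 133131366842972027286) (ZL.cons (nat_lit 3116) (nat_lit 6) (nat_lit 132088505080850276076) (ZL.cons (nat_lit 3192) (nat_lit 3) (nat_lit 65870784898869647140) (ZL.cons (nat_lit 3268) (nat_lit 6) (nat_lit 130585426203501733230) (ZL.cons (nat_lit 3344) (nat_lit 6) (nat_lit 129245123355036547696) (ZL.cons (nat_lit 3420) (nat_lit 6) (nat_lit 128576951698674656826) (ZL.cons (nat_lit 3496) (nat_lit 6) (nat_lit 126792948550752064442) (ZL.cons (nat_lit 3572) (nat_lit 6) (nat_lit 125827335808046739248) (ZL.cons (nat_lit 3648) (nat_lit 3) (nat_lit 62753049717397915087) (ZL.cons (nat_lit 3724) (nat_lit 6) (nat_lit 124717449261749214560) (ZL.cons (nat_lit 3800) (nat_lit 6) (nat_lit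 123476428105762931658) (ZL.cons (nat_lit 3876) (nat_lit 6) (nat_lit 122857750646168588260) (ZL.cons (nat_lit 3952) (nat_lit 6) (nat_lit 123006326232982055240) (ZL.cons (nat_lit 4028) (nat_lit 6) (nat_lit 121510297286920811494) (ZL.cons (nat_lit 4104) (nat_lit 6) (nat_lit 120616211414045510388) (ZL.cons (nat_lit 4180) (nat_lit 3) (nat_lit 60159385163851038032) (ZL.cons (nat_lit 4256) (nat_lit 6) (nat_lit 120638748180787984178) (ZL.cons (nat_lit 4332) (nat_lit 6) (nat_lit 121649439476131966276) (ZL.cons (nat_lit 4408) (nat_lit 6) (nat_lit 119917292205927240270) (ZL.cons (nat_lit 4484) (nat_lit 6) (nat_lit 118768198542976978320) (ZL.cons (nat_lit 4560) (nat_lit 6) (nat_lit 118195349043352586288) (ZL.cons (nat_lit 4636) (nat_lit 3) (nat_lit 58559904887605864442) (ZL.cons (nat_lit 4712) (nat_lit 6) (nat_lit 117293363792249457920) (ZL.cons (nat_lit 4788) (nat_lit 6) (nat_lit 117815054311611757506)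 (ZL.cons (nat_lit 4864) (nat_lit 6) (nat_lit 118687972832672626450) (ZL.cons (nat_lit 4940) (nat_lit 6) (nat_lit 117302760845578882240) (ZL.cons (nat_lit 5016) (nat_lit 6) (nat_lit 116474903555879529364) (ZL.cons (nat_lit 5092) (nat_lit 3) (nat_lit 58099747571299285828) (ZL.cons (nat_lit 5168) (nat_lit 6) (nat_lit 115126097966333798438) (ZL.cons (nat_lit 5244) (nat_lit 6) (nat_lit 115487090321772274838) (ZL.cons (nat_lit 5320) (nat_lit 6) (nat_lit 116211214246607381574) (ZL.cons (nat_lit 5396) (nat_lit 6) (nat_lit 115147238632764546438) (ZL.cons (nat_lit 5472) (nat_lit 6) (nat_lit 114616822429408627886) (ZL.cons (nat_lit 5548) (nat_lit 3) (nat_lit 56726811265353388533) (ZL.cons (nat_lit 5624) (nat_lit 6) (nat_lit 113641060869107524430) (ZL.cons (nat_lit 5700) (nat_lit 6) (nat_lit 114204486630018807980) (ZL.cons (nat_lit 5776) (nat_lit 6) (nat_lit 113437952102519407168) (ZL.cons (nat_lit 5852)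 (nat_lit 3) (nat_lit 56591472156222223162) (ZL.cons (nat_lit 5928) (nat_lit 6) (nat_lit 112266026519823937382) (ZL.cons (nat_lit 6004) (nat_lit 6) (nat_lit 112655898263697491896) (ZL.cons (nat_lit 6080) (nat_lit 6) (nat_lit 112164772149479048792) (ZL.cons (nat_lit 6156) (nat_lit 3) (nat_lit 55676919461111027703) (ZL.cons (nat_lit 6232) (nat_lit 6) (nat_lit 111556272327694862556) (ZL.cons (nat_lit 6308) (nat_lit 3) (nat_lit 55660077001775690148) (ZL.cons (nat_lit 6384) (nat_lit 6) (nat_lit 110899092520167941424) (ZL.cons (nat_lit 6460) (nat_lit 1) (nat_lit 18446744073709551617) ZL.nil)))))))))))))))))))))))))))))))))))))))))))))))))))))))))))))))))))))))))))))))))))))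

noncomputable def vl : XL := ⟨(nat_lit 0), (nat_lit 76), (nat_lit 161253616), (nat_lit 228), (nat_lit 96947401), (nat_lit 76), (nat_lit 161253616), (nat_lit 1), (nat_lit 5), (nat_lit 3), (nat_lit 4), (nat_lit 1), (nat_lit 4), (nat_lit 0), (nat_lit 0), (nat_lit 0)⟩

noncomputable def cp0 : Nat := (nat_lit 23763524823820679362640029076995290587988542156906934660294850629212521879861192734641156695258351638198913952746897791545249206642205621280458729292803595255198894454247200712901089458650568159193092142587842983792139839742758872099908072772529573340466739557493107926180003418890058437266940291917116466303898885404888812374258453498796823815072251398127239417306200978500550208975257192556565878359202599825775689977562666779209833609419276380466680530255924901057399322637506355508447531292233483671056459365366569207219405836541646946590779020851981109978097403674048376058204895595822292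9234206509051387280293132794534476398651934284616333604045220427870184044721678211338713407222955369560881989278145357598717384926945006233650064470635996402283202338120893430059023155240029162009506809743180109402648636181647012984411182968556436669801652283417907176249184627798209264642392185314826112967860495897541107273362597300278604844117401696814234179040018598983615144019799009434144231296353375194929238291295094527530513305702171210611095368045170711404949347220450266730825616596402471027145599203378003578581443097074174095626034649563671175011099170064637781337831433201337116298406824877209343910256543112092005421641708642841404415757827900784877012974287007254149395632135467587739728480999326138572905177547546069808308221567433681128934243924828728495953680631328895407520152875783042185112465480958338193346837855820065128837666054998761120979161944655397799503007686578125645735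45489596888725183506545837466689347060220035401856788592279780134667763479798414708762979918308961155630956204685689889583315955435345286583644644235896685425856787820364875393088668085945020544072615537189528718710247487289444221843792923481566626801708029544410441634271046139036532058670610047574374104052647505847492861269233674568246534492192665064998024065313139491174807270070902757736159320148076649776750499005196734202022117308930473149281150678741029146853376)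

noncomputable def cp1 : Nat := (nat_lit 1009910226880570253811865755589563929179998672710926361812534395055447360388625074827765620929053863947388106065715811557566180240865310878229739739701682632054488964407624791497130096707249904066386336559241546962397062748148419114309174341264252248258947291139256820188308839169515945250176409445292202318642499327515858320838135863380969258220203152421142273823869323356071143589029736134995862697134391572972979866850288797450735737487721116387277581107623169319289465358638726903002527062615891854660753175046687695620756921705188801835524362402460524251477978622978113174989888102796325806315946207775860718711624935568028941242889597991270160561732963394724103161312580059543910929200609569227466531598951297094965775566582235121604929745397939407387383166055567844755935560895402274905732274821709328451693714786120415278349422530607708584472356405260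9293533488952063466137331372352759492406184653917099331698764534854647094944032611623646301111420912816538493725052846363719805974248265665922404562434101508125242382093487956638642328444990065733269086834472646108526249969967688073261515569927389054507984578624726208892809687650921637332234883145905228432493139162562766794321510128025590895137954162823041217986415824476820787521173051300653832915827002162052646363769795187936172025648708889413014798911590292199373199534119450898513100214357546603508480633054773918708070212991801169672296250863749150608183291462129081949546330749340854339208924704601579560353694799914694627329234506085018751842411772855684890818661291584409631174911801966440429548915577004698517300010731872364935645156173612814683053292318374766627867328312934767399196299604402581544455249706510138323801353672154455771778907032373680452259915660982349436094962855364684203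6457030978308276694240466298359819863144759381315319750873556624351588526029446394711460384267611275668613994775200433737189909676963826971176640774627130488449399750404680951304521940063090675286436569866569490125144335665357702446596890851339299615858387512408411011960706743775151573629176409073845912905482161791771516967805524204264640917540248718165150685989991656521170495957546511446120025100875976475675938697148119016611234059805546101414547045225197578435456903201122502081219228641230169089635076089903865721682717151568938882517115892721336542434090512854383896712177844332290902787114850070998263857671863792316616057005612261258913123186782516464465656635596737287660075334950911839446594765797341248900948477045633127895328683430555927905668734248648897761313436562487040705762186158749529350063682471758212561374051393070161467308022345493931605369773369410402160485723772837850950429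535091187071864684223452442540570751259052130453762955618702320086653154082744024328145593437331803926811085813211793270804569389087656322632552103754807671050249240641973772762631404290461684387234273545828318775283293611708466439848215005297126877252973868074344752551713654119512305625041951284507341208948804067413553150422316502434499281492753472126162685828885877847811960344566238666375511824398067911786936445804755557392613047476109705949351295587774302081224296107644323362283707901458880510426996921076824692177467068807289742197347848967586877298223533836886345920485622099608350665555743686418913047640496731443610174196855590961253457378200659014830273362149504182044392129703625094969517427610862355512393611878046072361129661584281423245160692545052026337211007388911069332556844934472745975116835939525874707674333471723196818161032103348758417159479413735738232810631395556568275025967934073591475955304381111553053163395509078592551352949414563665669023158010693081565502204529355971775390257889940562412089601887711709939520187717293264338822556399996476788103570086450506631641611406405062706863439032885615497305716185450708764028302458461924000253640967896457366351339891457150669248053648240259227344012753956672531985334272)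

noncomputable def rc0 : Nat := (nat_lit 1009910226880570253811865755589563929179998672710926361812534395055447360388625074827765620929053863947388106065715811557566180240865310878229739739701682632054488964407624791497130096707249904066386336559241546962397062748148419114309174341264252248258947291139256820188308839169515945250176409445292202318642499327515858320838135863380969258220203152421142273823869323356071143589029736134995862697134391572972979866850288797450735737487721116387277581107623169319289465358638726903002527062615891854660753175046687695620756921705188801835524362402460524251477978622978113174989888102796325806315946207775860718711624935568028941242889597991270160561732963394724103161312580059543910929200609569227466531598951297094965775566582235121604929745397939407387383166055567844755935560895402274905732274821709328451693714786120415278349422530607708584472356405260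9293533488952063466137331372352759492406184653917099331698764534854647094944032611623646301111420912816538493725052846363719805974248265665922404562434101508125242382093487956638642328444990065733269086834472646108526249969967688073261515569927389054507984578624726208892809687650921637332234883145905228432493139162562766794321510128025590895137954162823041217986415824476820787521173051300653832915827002162052646363769795187936172025648708889413014798911590292199373199534119450898513100214357546603508480633054773918708070212991801169672296250863749150608183291462129081949546330749340854339208924704601579560353694799914694627329234506085018751842411772855684890818661291584409631174911801966440429548915577004698517300010731872364935645156173612814683053292318374766627867328312934767399196299604402581544455249706510138323801353672154455771778907032373680452259915660982349436094962855364684203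6457030978308276694240466298359819863144759381315319750873556624351588526029446394711460384267611275668613994775200433737189909676963826971176640774627130488449399750404680951304521940063090675286436569866569490125144335665357702446596890851339299615858387512408411011960706743775151573629176409073845912905482161791771516967805524204264640917540248718165150685989991656521170495957546511446120025100875976475675938697148119016611234059805546101414547045225197578435456903201122502081219228641230169089635076089903865721682717151568938882517115892721336542434090512854383896712177844332290902787114850070998263857671863792316616057005612261258913123186782516464465656635596737287660075334950911839446594765797341248900948477045633127895328683430555927905668734248648897761313436562487040705762186158749529350063682471758212561374051393070161467308022345493931605369773369410402160485723772837850950429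535091187071864684223452442540570751259052130453762955618702320086653154082744024328145593437331803926811085813211793270804569389087656322632552103754807671050249240641973772762631404290461684387234273545828318775283293611708466439848215005297126877252973868074344752551713654119512305625041951284507341208948804067413553150422316502434499281492753472126162685828885877847811960344566238666375511824398067911786936445804755557392613047476109705949351295587774302081224296107644323362283707901458880510426996921076824692177467068807289742197347848967586877298223533836886345920485622099608350665555743686418913047640496731443610174196855590961253457378200659014830273362149504182044392129703625094969517427610862355512393611878046072361129661584281423245160692545052026337211007388911069332556844934472745975116835939525874707674333471723196818161032103348758417159479413735738232810631395556568275025967934073591475955304381111553053163395509078592551352949414563665669023158010693081565502204529355971775390257889940562412089601887711709939520187717293264338822556399996476788103570086450506631641611406405062706863439032885615497305716185450708764028302458461924000253640967896457366351339891457150669248053648240259227344012753956672531985334272)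

end Vale.Agent.Lib.P154.PChain.BG.S3
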